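import Vale.Agent.Lib.P154.PChain.BF.R3_0

set_option linter.all false

namespace Vale.Agent.Lib.P154.PChain.BF.S4

open Vale.Agent.Lib.P154.Chain

noncomputable def pc0 : PT := (PT.nd (nat_lit 6548568) (PT.nd (nat_lit 6230094) (PT.nd (nat_lit 6070818) (PT.nd (nat_lit 5964738) (PT.nd (nat_lit 5911698) (PT.nd (nat_lit 5911620) PT.nil (PT.lf (nat_lit 76) (nat_lit 6) (nat_lit 1) (nat_lit 3) (nat_lit 199) (nat_lit 111) (nat_lit 200))) (PT.nd (nat_lit 52962) (PT.lf (nat_lit 76) (nat_lit 6) (nat_lit 1) (nat_lit 1) (nat_lit 200) (nat_lit 111) (nat_lit 199)) (PT.lf (nat_lit 152) (nat_lit 6) (nat_lit 2) (nat_lit 3) (nat_lit 198) (nat_lit 112) (nat_lit 200)))) (PT.nd (nat_lit 53040) (PT.nd (nat_lit 78) (PT.lf (nat_lit 228) (nat_lit 3) (nat_lit 3) (nat_lit 1) (nat_lit 199) (nat_lit 112) (nat_lit 199)) (PT.lf (nat_lit 152) (nat_lit 6) (nat_lit 2) (nat_lit 1) (nat_lit 200) (nat_lit 112) (nat_lit 198)))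 (PT.nd (nat_lit 78) (PT.lf (nat_lit 304) (nat_lit 6) (nat_lit 4) (nat_lit 3) (nat_lit 198) (nat_lit 113) (nat_lit 199)) (PT.lf (nat_lit 304) (nat_lit 6) (nat_lit 4) (nat_lit 1) (nat_lit 199) (nat_lit 113) (nat_lit 198))))) (PT.nd (nat_lit 53196) (PT.nd (nat_lit 156) (PT.nd (nat_lit 78) (PT.lf (nat_lit 380) (nat_lit 6) (nat_lit 5) (nat_lit 3) (nat_lit 197) (nat_lit 114) (nat_lit 199)) (PT.lf (nat_lit 456) (nat_lit 3) (nat_lit 6) (nat_lit 1) (nat_lit 198) (nat_lit 114) (nat_lit 198))) (PT.nd (nat_lit 52962) (PT.lf (nat_lit 380) (nat_lit 6) (nat_lit 5) (nat_lit 1) (nat_lit 199) (nat_lit 114) (nat_lit 197)) (PT.lf (nat_lit 532) (nat_lit 6) (nat_lit 7) (nat_lit 3) (nat_lit 197) (nat_lit 115) (nat_lit 198)))) (PT.nd (nat_lit 53040) (PT.nd (nat_lit 52962) (PT.lf (nat_lit 532) (nat_lit 6) (nat_lit 7) (nat_lit 1) (nat_lit 198) (nat_lit 115) (nat_lit 197)) (PT.lf (nat_lit 608) (nat_lit 6) (nat_lit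 8) (nat_lit 3) (nat_lit 196) (nat_lit 116) (nat_lit 198))) (PT.nd (nat_lit 78) (PT.lf (nat_lit 684) (nat_lit 3) (nat_lit 9) (nat_lit 1) (nat_lit 197) (nat_lit 116) (nat_lit 197)) (PT.lf (nat_lit 608) (nat_lit 6) (nat_lit 8) (nat_lit 1) (nat_lit 198) (nat_lit 116) (nat_lit 196)))))) (PT.nd (nat_lit 159198) (PT.nd (nat_lit 53118) (PT.nd (nat_lit 78) (PT.lf (nat_lit 760) (nat_lit 6) (nat_lit 10) (nat_lit 3) (nat_lit 196) (nat_lit 117) (nat_lit 197)) (PT.nd (nat_lit 52962) (PT.lf (nat_lit 760) (nat_lit 6) (nat_lit 10) (nat_lit 1) (nat_lit 197) (nat_lit 117) (nat_lit 196)) (PT.lf (nat_lit 836) (nat_lit 6) (nat_lit 11) (nat_lit 3) (nat_lit 195) (nat_lit 118) (nat_lit 197)))) (PT.nd (nat_lit 53040) (PT.nd (nat_lit 78) (PT.lf (nat_lit 912) (nat_lit 3) (nat_lit 12) (nat_lit 1) (nat_lit 196) (nat_lit 118) (nat_lit 196)) (PT.lf (nat_lit 836) (nat_lit 6) (nat_lit 11) (nat_lit 1) (nat_lit 197) (nat_lit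 118) (nat_lit 195))) (PT.nd (nat_lit 78) (PT.lf (nat_lit 988) (nat_lit 6) (nat_lit 13) (nat_lit 3) (nat_lit 195) (nat_lit 119) (nat_lit 196)) (PT.lf (nat_lit 988) (nat_lit 6) (nat_lit 13) (nat_lit 1) (nat_lit 196) (nat_lit 119) (nat_lit 195))))) (PT.nd (nat_lit 53196) (PT.nd (nat_lit 156) (PT.nd (nat_lit 78) (PT.lf (nat_lit 1064) (nat_lit 6) (nat_lit 14) (nat_lit 3) (nat_lit 194) (nat_lit 120) (nat_lit 196)) (PT.lf (nat_lit 1140) (nat_lit 3) (nat_lit 15) (nat_lit 1) (nat_lit 195) (nat_lit 120) (nat_lit 195))) (PT.nd (nat_lit 52962) (PT.lf (nat_lit 1064) (nat_lit 6) (nat_lit 14) (nat_lit 1) (nat_lit 196) (nat_lit 120) (nat_lit 194)) (PT.lf (nat_lit 1216) (nat_lit 6) (nat_lit 16) (nat_lit 3) (nat_lit 194) (nat_lit 121) (nat_lit 195)))) (PT.nd (nat_lit 53040) (PT.nd (nat_lit 52962) (PT.lf (nat_lit 1216) (nat_lit 6) (nat_lit 16) (nat_lit 1) (nat_lit 195) (nat_lit 121) (nat_lit 194)) (PT.lf (nat_lit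 1292) (nat_lit 6) (nat_lit 17) (nat_lit 3) (nat_lit 193) (nat_lit 122) (nat_lit 195))) (PT.nd (nat_lit 78) (PT.lf (nat_lit 1368) (nat_lit 3) (nat_lit 18) (nat_lit 1) (nat_lit 194) (nat_lit 122) (nat_lit 194)) (PT.lf (nat_lit 1292) (nat_lit 6) (nat_lit 17) (nat_lit 1) (nat_lit 195) (nat_lit 122) (nat_lit 193))))))) (PT.nd (nat_lit 318474) (PT.nd (nat_lit 159198) (PT.nd (nat_lit 53118) (PT.nd (nat_lit 78) (PT.lf (nat_lit 1444) (nat_lit 6) (nat_lit 19) (nat_lit 3) (nat_lit 193) (nat_lit 123) (nat_lit 194)) (PT.nd (nat_lit 52962) (PT.lf (nat_lit 1444) (nat_lit 6) (nat_lit 19) (nat_lit 1) (nat_lit 194) (nat_lit 123) (nat_lit 193)) (PT.lf (nat_lit 1520) (nat_lit 6) (nat_lit 20) (nat_lit 3) (nat_lit 192) (nat_lit 124) (nat_lit 194)))) (PT.nd (nat_lit 53040) (PT.nd (nat_lit 78) (PT.lf (nat_lit 1596) (nat_lit 3) (nat_lit 21) (nat_lit 1) (nat_lit 193) (nat_lit 124) (nat_lit 193)) (PT.lf (nat_lit 1520)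 (nat_lit 6) (nat_lit 20) (nat_lit 1) (nat_lit 194) (nat_lit 124) (nat_lit 192))) (PT.nd (nat_lit 78) (PT.lf (nat_lit 1672) (nat_lit 6) (nat_lit 22) (nat_lit 3) (nat_lit 192) (nat_lit 125) (nat_lit 193)) (PT.lf (nat_lit 1672) (nat_lit 6) (nat_lit 22) (nat_lit 1) (nat_lit 193) (nat_lit 125) (nat_lit 192))))) (PT.nd (nat_lit 53196) (PT.nd (nat_lit 156) (PT.nd (nat_lit 78) (PT.lf (nat_lit 1748) (nat_lit 6) (nat_lit 23) (nat_lit 3) (nat_lit 191) (nat_lit 126) (nat_lit 193)) (PT.lf (nat_lit 1824) (nat_lit 3) (nat_lit 24) (nat_lit 1) (nat_lit 192) (nat_lit 126) (nat_lit 192))) (PT.nd (nat_lit 52962) (PT.lf (nat_lit 1748) (nat_lit 6) (nat_lit 23) (nat_lit 1) (nat_lit 193) (nat_lit 126) (nat_lit 191)) (PT.lf (nat_lit 1900) (nat_lit 6) (nat_lit 25) (nat_lit 3) (nat_lit 191) (nat_lit 127) (nat_lit 192)))) (PT.nd (nat_lit 53040) (PT.nd (nat_lit 52962) (PT.lf (nat_lit 1900) (nat_lit 6) (nat_lit 25) (nat_lit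 1) (nat_lit 192) (nat_lit 127) (nat_lit 191)) (PT.lf (nat_lit 1976) (nat_lit 6) (nat_lit 26) (nat_lit 3) (nat_lit 190) (nat_lit 128) (nat_lit 192))) (PT.nd (nat_lit 78) (PT.lf (nat_lit 2052) (nat_lit 3) (nat_lit 27) (nat_lit 1) (nat_lit 191) (nat_lit 128) (nat_lit 191)) (PT.lf (nat_lit 1976) (nat_lit 6) (nat_lit 26) (nat_lit 1) (nat_lit 192) (nat_lit 128) (nat_lit 190)))))) (PT.nd (nat_lit 159198) (PT.nd (nat_lit 53118) (PT.nd (nat_lit 78) (PT.lf (nat_lit 2128) (nat_lit 6) (nat_lit 28) (nat_lit 3) (nat_lit 190) (nat_lit 129) (nat_lit 191)) (PT.nd (nat_lit 52962) (PT.lf (nat_lit 2128) (nat_lit 6) (nat_lit 28) (nat_lit 1) (nat_lit 191) (nat_lit 129) (nat_lit 190)) (PT.lf (nat_lit 2204) (nat_lit 6) (nat_lit 29) (nat_lit 3) (nat_lit 189) (nat_lit 130) (nat_lit 191)))) (PT.nd (nat_lit 53040) (PT.nd (nat_lit 78) (PT.lf (nat_lit 2280) (nat_lit 3) (nat_lit 30) (nat_lit 1) (nat_lit 190) (nat_lit 130)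 (nat_lit 190)) (PT.lf (nat_lit 2204) (nat_lit 6) (nat_lit 29) (nat_lit 1) (nat_lit 191) (nat_lit 130) (nat_lit 189))) (PT.nd (nat_lit 78) (PT.lf (nat_lit 2356) (nat_lit 6) (nat_lit 31) (nat_lit 3) (nat_lit 189) (nat_lit 131) (nat_lit 190)) (PT.lf (nat_lit 2356) (nat_lit 6) (nat_lit 31) (nat_lit 1) (nat_lit 190) (nat_lit 131) (nat_lit 189))))) (PT.nd (nat_lit 53118) (PT.nd (nat_lit 156) (PT.nd (nat_lit 78) (PT.lf (nat_lit 2432) (nat_lit 6) (nat_lit 32) (nat_lit 3) (nat_lit 188) (nat_lit 132) (nat_lit 190)) (PT.lf (nat_lit 2508) (nat_lit 3) (nat_lit 33) (nat_lit 1) (nat_lit 189) (nat_lit 132) (nat_lit 189))) (PT.nd (nat_lit 52884) (PT.lf (nat_lit 2432) (nat_lit 6) (nat_lit 32) (nat_lit 1) (nat_lit 190) (nat_lit 132) (nat_lit 188)) (PT.lf (nat_lit 2584) (nat_lit 6) (nat_lit 34) (nat_lit 3) (nat_lit 187) (nat_lit 133) (nat_lit 190)))) (PT.nd (nat_lit 156) (PT.nd (nat_lit 78) (PT.lf (nat_lit 2660)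 (nat_lit 6) (nat_lit 35) (nat_lit 3) (nat_lit 188) (nat_lit 133) (nat_lit 189)) (PT.lf (nat_lit 2660) (nat_lit 6) (nat_lit 35) (nat_lit 1) (nat_lit 189) (nat_lit 133) (nat_lit 188))) (PT.nd (nat_lit 52884) (PT.lf (nat_lit 2584) (nat_lit 6) (nat_lit 34) (nat_lit 1) (nat_lit 190) (nat_lit 133) (nat_lit 187)) (PT.lf (nat_lit 2736) (nat_lit 6) (nat_lit 36) (nat_lit 3) (nat_lit 187) (nat_lit 134) (nat_lit 189))))))))
noncomputable def pc1 : PT := (PT.nd (nat_lit 424710) (PT.nd (nat_lit 212394) (PT.nd (nat_lit 106158) (PT.nd (nat_lit 53040) (PT.nd (nat_lit 78) (PT.lf (nat_lit 2812) (nat_lit 3) (nat_lit 37) (nat_lit 1) (nat_lit 188) (nat_lit 134) (nat_lit 188)) (PT.nd (nat_lit 52884) (PT.lf (nat_lit 2736) (nat_lit 6) (nat_lit 36) (nat_lit 1) (nat_lit 189) (nat_lit 134) (nat_lit 187)) (PT.lf (nat_lit 2888) (nat_lit 6) (nat_lit 38) (nat_lit 3) (nat_lit 186) (nat_lit 135) (nat_lit 189)))) (PT.nd (nat_lit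 156) (PT.nd (nat_lit 78) (PT.lf (nat_lit 2964) (nat_lit 6) (nat_lit 39) (nat_lit 3) (nat_lit 187) (nat_lit 135) (nat_lit 188)) (PT.lf (nat_lit 2964) (nat_lit 6) (nat_lit 39) (nat_lit 1) (nat_lit 188) (nat_lit 135) (nat_lit 187))) (PT.nd (nat_lit 52884) (PT.lf (nat_lit 2888) (nat_lit 6) (nat_lit 38) (nat_lit 1) (nat_lit 189) (nat_lit 135) (nat_lit 186)) (PT.lf (nat_lit 3040) (nat_lit 6) (nat_lit 40) (nat_lit 3) (nat_lit 186) (nat_lit 136) (nat_lit 188))))) (PT.nd (nat_lit 53118) (PT.nd (nat_lit 52962) (PT.nd (nat_lit 78) (PT.lf (nat_lit 3116) (nat_lit 3) (nat_lit 41) (nat_lit 1) (nat_lit 187) (nat_lit 136) (nat_lit 187)) (PT.lf (nat_lit 3040) (nat_lit 6) (nat_lit 40) (nat_lit 1) (nat_lit 188) (nat_lit 136) (nat_lit 186))) (PT.nd (nat_lit 78) (PT.lf (nat_lit 3192) (nat_lit 6) (nat_lit 42) (nat_lit 3) (nat_lit 185) (nat_lit 137) (nat_lit 188)) (PT.lf (nat_lit 3268) (nat_lit 6) (nat_lit 43) (nat_lit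 3) (nat_lit 186) (nat_lit 137) (nat_lit 187)))) (PT.nd (nat_lit 52962) (PT.nd (nat_lit 78) (PT.lf (nat_lit 3268) (nat_lit 6) (nat_lit 43) (nat_lit 1) (nat_lit 187) (nat_lit 137) (nat_lit 186)) (PT.lf (nat_lit 3192) (nat_lit 6) (nat_lit 42) (nat_lit 1) (nat_lit 188) (nat_lit 137) (nat_lit 185))) (PT.nd (nat_lit 78) (PT.lf (nat_lit 3344) (nat_lit 6) (nat_lit 44) (nat_lit 3) (nat_lit 185) (nat_lit 138) (nat_lit 187)) (PT.lf (nat_lit 3420) (nat_lit 3) (nat_lit 45) (nat_lit 1) (nat_lit 186) (nat_lit 138) (nat_lit 186)))))) (PT.nd (nat_lit 106158) (PT.nd (nat_lit 53040) (PT.nd (nat_lit 52884) (PT.lf (nat_lit 3344) (nat_lit 6) (nat_lit 44) (nat_lit 1) (nat_lit 187) (nat_lit 138) (nat_lit 185)) (PT.nd (nat_lit 78) (PT.lf (nat_lit 3496) (nat_lit 6) (nat_lit 46) (nat_lit 3) (nat_lit 184) (nat_lit 139) (nat_lit 187)) (PT.lf (nat_lit 3572) (nat_lit 6) (nat_lit 47) (nat_lit 3) (nat_lit 185) (nat_lit 139)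 (nat_lit 186)))) (PT.nd (nat_lit 52962) (PT.nd (nat_lit 78) (PT.lf (nat_lit 3572) (nat_lit 6) (nat_lit 47) (nat_lit 1) (nat_lit 186) (nat_lit 139) (nat_lit 185)) (PT.lf (nat_lit 3496) (nat_lit 6) (nat_lit 46) (nat_lit 1) (nat_lit 187) (nat_lit 139) (nat_lit 184))) (PT.nd (nat_lit 78) (PT.lf (nat_lit 3648) (nat_lit 6) (nat_lit 48) (nat_lit 3) (nat_lit 184) (nat_lit 140) (nat_lit 186)) (PT.lf (nat_lit 3724) (nat_lit 3) (nat_lit 49) (nat_lit 1) (nat_lit 185) (nat_lit 140) (nat_lit 185))))) (PT.nd (nat_lit 53118) (PT.nd (nat_lit 52962) (PT.nd (nat_lit 52884) (PT.lf (nat_lit 3648) (nat_lit 6) (nat_lit 48) (nat_lit 1) (nat_lit 186) (nat_lit 140) (nat_lit 184)) (PT.lf (nat_lit 3800) (nat_lit 6) (nat_lit 50) (nat_lit 3) (nat_lit 183) (nat_lit 141) (nat_lit 186))) (PT.nd (nat_lit 78) (PT.lf (nat_lit 3876) (nat_lit 6) (nat_lit 51) (nat_lit 3) (nat_lit 184) (nat_lit 141) (nat_lit 185)) (PT.lf (nat_lit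 3876) (nat_lit 6) (nat_lit 51) (nat_lit 1) (nat_lit 185) (nat_lit 141) (nat_lit 184)))) (PT.nd (nat_lit 52884) (PT.nd (nat_lit 52806) (PT.lf (nat_lit 3800) (nat_lit 6) (nat_lit 50) (nat_lit 1) (nat_lit 186) (nat_lit 141) (nat_lit 183)) (PT.lf (nat_lit 3952) (nat_lit 6) (nat_lit 52) (nat_lit 3) (nat_lit 182) (nat_lit 142) (nat_lit 186))) (PT.nd (nat_lit 78) (PT.lf (nat_lit 4028) (nat_lit 6) (nat_lit 53) (nat_lit 3) (nat_lit 183) (nat_lit 142) (nat_lit 185)) (PT.lf (nat_lit 4104) (nat_lit 3) (nat_lit 54) (nat_lit 1) (nat_lit 184) (nat_lit 142) (nat_lit 184))))))) (PT.nd (nat_lit 212082) (PT.nd (nat_lit 106002) (PT.nd (nat_lit 52962) (PT.nd (nat_lit 78) (PT.lf (nat_lit 4028) (nat_lit 6) (nat_lit 53) (nat_lit 1) (nat_lit 185) (nat_lit 142) (nat_lit 183)) (PT.nd (nat_lit 52806) (PT.lf (nat_lit 3952) (nat_lit 6) (nat_lit 52) (nat_lit 1) (nat_lit 186) (nat_lit 142) (nat_lit 182)) (PT.lf (nat_lit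 4180) (nat_lit 6) (nat_lit 55) (nat_lit 3) (nat_lit 182) (nat_lit 143) (nat_lit 185)))) (PT.nd (nat_lit 156) (PT.nd (nat_lit 78) (PT.lf (nat_lit 4256) (nat_lit 6) (nat_lit 56) (nat_lit 3) (nat_lit 183) (nat_lit 143) (nat_lit 184)) (PT.lf (nat_lit 4256) (nat_lit 6) (nat_lit 56) (nat_lit 1) (nat_lit 184) (nat_lit 143) (nat_lit 183))) (PT.nd (nat_lit 52806) (PT.lf (nat_lit 4180) (nat_lit 6) (nat_lit 55) (nat_lit 1) (nat_lit 185) (nat_lit 143) (nat_lit 182)) (PT.lf (nat_lit 4332) (nat_lit 6) (nat_lit 57) (nat_lit 3) (nat_lit 181) (nat_lit 144) (nat_lit 185))))) (PT.nd (nat_lit 53040) (PT.nd (nat_lit 156) (PT.nd (nat_lit 78) (PT.lf (nat_lit 4408) (nat_lit 6) (nat_lit 58) (nat_lit 3) (nat_lit 182) (nat_lit 144) (nat_lit 184)) (PT.lf (nat_lit 4484) (nat_lit 3) (nat_lit 59) (nat_lit 1) (nat_lit 183) (nat_lit 144) (nat_lit 183))) (PT.nd (nat_lit 78) (PT.lf (nat_lit 4408) (nat_lit 6) (nat_lit 58) (nat_lit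 1) (nat_lit 184) (nat_lit 144) (nat_lit 182)) (PT.lf (nat_lit 4332) (nat_lit 6) (nat_lit 57) (nat_lit 1) (nat_lit 185) (nat_lit 144) (nat_lit 181)))) (PT.nd (nat_lit 156) (PT.nd (nat_lit 78) (PT.lf (nat_lit 4560) (nat_lit 6) (nat_lit 60) (nat_lit 3) (nat_lit 181) (nat_lit 145) (nat_lit 184)) (PT.lf (nat_lit 4636) (nat_lit 6) (nat_lit 61) (nat_lit 3) (nat_lit 182) (nat_lit 145) (nat_lit 183))) (PT.nd (nat_lit 78) (PT.lf (nat_lit 4636) (nat_lit 6) (nat_lit 61) (nat_lit 1) (nat_lit 183) (nat_lit 145) (nat_lit 182)) (PT.lf (nat_lit 4560) (nat_lit 6) (nat_lit 60) (nat_lit 1) (nat_lit 184) (nat_lit 145) (nat_lit 181)))))) (PT.nd (nat_lit 53196) (PT.nd (nat_lit 234) (PT.nd (nat_lit 78) (PT.lf (nat_lit 4712) (nat_lit 6) (nat_lit 62) (nat_lit 3) (nat_lit 180) (nat_lit 146) (nat_lit 184)) (PT.nd (nat_lit 78) (PT.lf (nat_lit 4788) (nat_lit 6) (nat_lit 63) (nat_lit 3) (nat_lit 181) (nat_lit 146) (nat_lit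 183)) (PT.lf (nat_lit 4864) (nat_lit 3) (nat_lit 64) (nat_lit 1) (nat_lit 182) (nat_lit 146) (nat_lit 182)))) (PT.nd (nat_lit 52806) (PT.nd (nat_lit 78) (PT.lf (nat_lit 4788) (nat_lit 6) (nat_lit 63) (nat_lit 1) (nat_lit 183) (nat_lit 146) (nat_lit 181)) (PT.lf (nat_lit 4712) (nat_lit 6) (nat_lit 62) (nat_lit 1) (nat_lit 184) (nat_lit 146) (nat_lit 180))) (PT.nd (nat_lit 78) (PT.lf (nat_lit 4940) (nat_lit 6) (nat_lit 65) (nat_lit 3) (nat_lit 179) (nat_lit 147) (nat_lit 184)) (PT.lf (nat_lit 5016) (nat_lit 6) (nat_lit 66) (nat_lit 3) (nat_lit 180) (nat_lit 147) (nat_lit 183))))) (PT.nd (nat_lit 52962) (PT.nd (nat_lit 156) (PT.nd (nat_lit 78) (PT.lf (nat_lit 5092) (nat_lit 6) (nat_lit 67) (nat_lit 3) (nat_lit 181) (nat_lit 147) (nat_lit 182)) (PT.lf (nat_lit 5092) (nat_lit 6) (nat_lit 67) (nat_lit 1) (nat_lit 182) (nat_lit 147) (nat_lit 181))) (PT.nd (nat_lit 78) (PT.lf (nat_lit 5016) (nat_lit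 6) (nat_lit 66) (nat_lit 1) (nat_lit 183) (nat_lit 147) (nat_lit 180)) (PT.lf (nat_lit 4940) (nat_lit 6) (nat_lit 65) (nat_lit 1) (nat_lit 184) (nat_lit 147) (nat_lit 179)))) (PT.nd (nat_lit 156) (PT.nd (nat_lit 78) (PT.lf (nat_lit 5168) (nat_lit 6) (nat_lit 68) (nat_lit 3) (nat_lit 179) (nat_lit 148) (nat_lit 183)) (PT.lf (nat_lit 5244) (nat_lit 6) (nat_lit 69) (nat_lit 3) (nat_lit 180) (nat_lit 148) (nat_lit 182))) (PT.nd (nat_lit 78) (PT.lf (nat_lit 5320) (nat_lit 3) (nat_lit 70) (nat_lit 1) (nat_lit 181) (nat_lit 148) (nat_lit 181)) (PT.lf (nat_lit 5244) (nat_lit 6) (nat_lit 69) (nat_lit 1) (nat_lit 182) (nat_lit 148) (nat_lit 180))))))))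
noncomputable def pc2 : PT := (PT.nd (nat_lit 265200) (PT.nd (nat_lit 158964) (PT.nd (nat_lit 105768) (PT.nd (nat_lit 52884) (PT.nd (nat_lit 52728) (PT.lf (nat_lit 5168) (nat_lit 6) (nat_lit 68) (nat_lit 1) (nat_lit 183) (nat_lit 148) (nat_lit 179)) (PT.nd (nat_lit 78) (PT.lf (nat_lit 5396) (nat_lit 6) (nat_lit 71) (nat_lit 3) (nat_lit 178) (nat_lit 149) (nat_lit 183)) (PT.lf (nat_lit 5472) (nat_lit 6) (nat_lit 72) (nat_lit 3) (nat_lit 179) (nat_lit 149) (nat_lit 182)))) (PT.nd (nat_lit 156) (PT.nd (nat_lit 78) (PT.lf (nat_lit 5548) (nat_lit 6) (nat_lit 73) (nat_lit 3) (nat_lit 180) (nat_lit 149) (nat_lit 181)) (PT.lf (nat_lit 5548) (nat_lit 6) (nat_lit 73) (nat_lit 1) (nat_lit 181) (nat_lit 149) (nat_lit 180))) (PT.nd (nat_lit 78) (PT.lf (nat_lit 5472) (nat_lit 6) (nat_lit 72) (nat_lit 1) (nat_lit 182) (nat_lit 149) (nat_lit 179)) (PT.lf (nat_lit 5396) (nat_lit 6) (nat_lit 71) (nat_lit 1)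 (nat_lit 183) (nat_lit 149) (nat_lit 178))))) (PT.nd (nat_lit 312) (PT.nd (nat_lit 156) (PT.nd (nat_lit 78) (PT.lf (nat_lit 5624) (nat_lit 6) (nat_lit 74) (nat_lit 3) (nat_lit 177) (nat_lit 150) (nat_lit 183)) (PT.lf (nat_lit 5700) (nat_lit 6) (nat_lit 75) (nat_lit 3) (nat_lit 178) (nat_lit 150) (nat_lit 182))) (PT.nd (nat_lit 78) (PT.lf (nat_lit 5776) (nat_lit 6) (nat_lit 76) (nat_lit 3) (nat_lit 179) (nat_lit 150) (nat_lit 181)) (PT.lf (nat_lit 5852) (nat_lit 3) (nat_lit 77) (nat_lit 1) (nat_lit 180) (nat_lit 150) (nat_lit 180)))) (PT.nd (nat_lit 156) (PT.nd (nat_lit 78) (PT.lf (nat_lit 5776) (nat_lit 6) (nat_lit 76) (nat_lit 1) (nat_lit 181) (nat_lit 150) (nat_lit 179)) (PT.lf (nat_lit 5700) (nat_lit 6) (nat_lit 75) (nat_lit 1) (nat_lit 182) (nat_lit 150) (nat_lit 178))) (PT.nd (nat_lit 52650) (PT.lf (nat_lit 5624) (nat_lit 6) (nat_lit 74) (nat_lit 1) (nat_lit 183) (nat_lit 150) (nat_lit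 177)) (PT.lf (nat_lit 5928) (nat_lit 6) (nat_lit 78) (nat_lit 3) (nat_lit 177) (nat_lit 151) (nat_lit 182)))))) (PT.nd (nat_lit 53118) (PT.nd (nat_lit 234) (PT.nd (nat_lit 78) (PT.lf (nat_lit 6004) (nat_lit 6) (nat_lit 79) (nat_lit 3) (nat_lit 178) (nat_lit 151) (nat_lit 181)) (PT.nd (nat_lit 78) (PT.lf (nat_lit 6080) (nat_lit 6) (nat_lit 80) (nat_lit 3) (nat_lit 179) (nat_lit 151) (nat_lit 180)) (PT.lf (nat_lit 6080) (nat_lit 6) (nat_lit 80) (nat_lit 1) (nat_lit 180) (nat_lit 151) (nat_lit 179)))) (PT.nd (nat_lit 52728) (PT.nd (nat_lit 78) (PT.lf (nat_lit 6004) (nat_lit 6) (nat_lit 79) (nat_lit 1) (nat_lit 181) (nat_lit 151) (nat_lit 178)) (PT.lf (nat_lit 5928) (nat_lit 6) (nat_lit 78) (nat_lit 1) (nat_lit 182) (nat_lit 151) (nat_lit 177))) (PT.nd (nat_lit 78) (PT.lf (nat_lit 6156) (nat_lit 6) (nat_lit 81) (nat_lit 3) (nat_lit 176) (nat_lit 152) (nat_lit 182)) (PT.lf (nat_lit 6232) (nat_lit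 6) (nat_lit 82) (nat_lit 3) (nat_lit 177) (nat_lit 152) (nat_lit 181))))) (PT.nd (nat_lit 312) (PT.nd (nat_lit 156) (PT.nd (nat_lit 78) (PT.lf (nat_lit 6308) (nat_lit 6) (nat_lit 83) (nat_lit 3) (nat_lit 178) (nat_lit 152) (nat_lit 180)) (PT.lf (nat_lit 6384) (nat_lit 3) (nat_lit 84) (nat_lit 1) (nat_lit 179) (nat_lit 152) (nat_lit 179))) (PT.nd (nat_lit 78) (PT.lf (nat_lit 6308) (nat_lit 6) (nat_lit 83) (nat_lit 1) (nat_lit 180) (nat_lit 152) (nat_lit 178)) (PT.lf (nat_lit 6232) (nat_lit 6) (nat_lit 82) (nat_lit 1) (nat_lit 181) (nat_lit 152) (nat_lit 177)))) (PT.nd (nat_lit 52650) (PT.nd (nat_lit 52572) (PT.lf (nat_lit 6156) (nat_lit 6) (nat_lit 81) (nat_lit 1) (nat_lit 182) (nat_lit 152) (nat_lit 176)) (PT.lf (nat_lit 6460) (nat_lit 6) (nat_lit 85) (nat_lit 3) (nat_lit 175) (nat_lit 153) (nat_lit 182))) (PT.nd (nat_lit 78) (PT.lf (nat_lit 6536) (nat_lit 6) (nat_lit 86) (nat_lit 3) (nat_lit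 176) (nat_lit 153) (nat_lit 181)) (PT.lf (nat_lit 6612) (nat_lit 6) (nat_lit 87) (nat_lit 3) (nat_lit 177) (nat_lit 153) (nat_lit 180))))))) (PT.nd (nat_lit 106158) (PT.nd (nat_lit 53040) (PT.nd (nat_lit 234) (PT.nd (nat_lit 78) (PT.lf (nat_lit 6688) (nat_lit 6) (nat_lit 88) (nat_lit 3) (nat_lit 178) (nat_lit 153) (nat_lit 179)) (PT.nd (nat_lit 78) (PT.lf (nat_lit 6688) (nat_lit 6) (nat_lit 88) (nat_lit 1) (nat_lit 179) (nat_lit 153) (nat_lit 178)) (PT.lf (nat_lit 6612) (nat_lit 6) (nat_lit 87) (nat_lit 1) (nat_lit 180) (nat_lit 153) (nat_lit 177)))) (PT.nd (nat_lit 52650) (PT.nd (nat_lit 78) (PT.lf (nat_lit 6536) (nat_lit 6) (nat_lit 86) (nat_lit 1) (nat_lit 181) (nat_lit 153) (nat_lit 176)) (PT.lf (nat_lit 6460) (nat_lit 6) (nat_lit 85) (nat_lit 1) (nat_lit 182) (nat_lit 153) (nat_lit 175))) (PT.nd (nat_lit 78) (PT.lf (nat_lit 6764) (nat_lit 6) (nat_lit 89) (nat_lit 3) (nat_lit 175) (nat_lit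 154) (nat_lit 181)) (PT.lf (nat_lit 6840) (nat_lit 6) (nat_lit 90) (nat_lit 3) (nat_lit 176) (nat_lit 154) (nat_lit 180))))) (PT.nd (nat_lit 312) (PT.nd (nat_lit 156) (PT.nd (nat_lit 78) (PT.lf (nat_lit 6916) (nat_lit 6) (nat_lit 91) (nat_lit 3) (nat_lit 177) (nat_lit 154) (nat_lit 179)) (PT.lf (nat_lit 6992) (nat_lit 3) (nat_lit 92) (nat_lit 1) (nat_lit 178) (nat_lit 154) (nat_lit 178))) (PT.nd (nat_lit 78) (PT.lf (nat_lit 6916) (nat_lit 6) (nat_lit 91) (nat_lit 1) (nat_lit 179) (nat_lit 154) (nat_lit 177)) (PT.lf (nat_lit 6840) (nat_lit 6) (nat_lit 90) (nat_lit 1) (nat_lit 180) (nat_lit 154) (nat_lit 176)))) (PT.nd (nat_lit 52650) (PT.nd (nat_lit 52572) (PT.lf (nat_lit 6764) (nat_lit 6) (nat_lit 89) (nat_lit 1) (nat_lit 181) (nat_lit 154) (nat_lit 175)) (PT.lf (nat_lit 7068) (nat_lit 6) (nat_lit 93) (nat_lit 3) (nat_lit 174) (nat_lit 155) (nat_lit 181))) (PT.nd (nat_lit 78) (PT.lf (nat_lit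 7144) (nat_lit 6) (nat_lit 94) (nat_lit 3) (nat_lit 175) (nat_lit 155) (nat_lit 180)) (PT.lf (nat_lit 7220) (nat_lit 6) (nat_lit 95) (nat_lit 3) (nat_lit 176) (nat_lit 155) (nat_lit 179)))))) (PT.nd (nat_lit 52962) (PT.nd (nat_lit 234) (PT.nd (nat_lit 78) (PT.lf (nat_lit 7296) (nat_lit 6) (nat_lit 96) (nat_lit 3) (nat_lit 177) (nat_lit 155) (nat_lit 178)) (PT.nd (nat_lit 78) (PT.lf (nat_lit 7296) (nat_lit 6) (nat_lit 96) (nat_lit 1) (nat_lit 178) (nat_lit 155) (nat_lit 177)) (PT.lf (nat_lit 7220) (nat_lit 6) (nat_lit 95) (nat_lit 1) (nat_lit 179) (nat_lit 155) (nat_lit 176)))) (PT.nd (nat_lit 52572) (PT.nd (nat_lit 78) (PT.lf (nat_lit 7144) (nat_lit 6) (nat_lit 94) (nat_lit 1) (nat_lit 180) (nat_lit 155) (nat_lit 175)) (PT.lf (nat_lit 7068) (nat_lit 6) (nat_lit 93) (nat_lit 1) (nat_lit 181) (nat_lit 155) (nat_lit 174))) (PT.nd (nat_lit 78) (PT.lf (nat_lit 7372) (nat_lit 6) (nat_lit 97) (nat_lit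 3) (nat_lit 173) (nat_lit 156) (nat_lit 181)) (PT.lf (nat_lit 7448) (nat_lit 6) (nat_lit 98) (nat_lit 3) (nat_lit 174) (nat_lit 156) (nat_lit 180))))) (PT.nd (nat_lit 312) (PT.nd (nat_lit 156) (PT.nd (nat_lit 78) (PT.lf (nat_lit 7524) (nat_lit 6) (nat_lit 99) (nat_lit 3) (nat_lit 175) (nat_lit 156) (nat_lit 179)) (PT.lf (nat_lit 7600) (nat_lit 6) (nat_lit 100) (nat_lit 3) (nat_lit 176) (nat_lit 156) (nat_lit 178))) (PT.nd (nat_lit 78) (PT.lf (nat_lit 7676) (nat_lit 3) (nat_lit 101) (nat_lit 1) (nat_lit 177) (nat_lit 156) (nat_lit 177)) (PT.lf (nat_lit 7600) (nat_lit 6) (nat_lit 100) (nat_lit 1) (nat_lit 178) (nat_lit 156) (nat_lit 176)))) (PT.nd (nat_lit 156) (PT.nd (nat_lit 78) (PT.lf (nat_lit 7524) (nat_lit 6) (nat_lit 99) (nat_lit 1) (nat_lit 179) (nat_lit 156) (nat_lit 175)) (PT.lf (nat_lit 7448) (nat_lit 6) (nat_lit 98) (nat_lit 1) (nat_lit 180) (nat_lit 156) (nat_lit 174))) (PT.nd (nat_lit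 52416) (PT.lf (nat_lit 7372) (nat_lit 6) (nat_lit 97) (nat_lit 1) (nat_lit 181) (nat_lit 156) (nat_lit 173)) (PT.lf (nat_lit 7752) (nat_lit 6) (nat_lit 102) (nat_lit 3) (nat_lit 172) (nat_lit 157) (nat_lit 181))))))))
noncomputable def pc3 : PT := (PT.nd (nat_lit 159120) (PT.nd (nat_lit 53430) (PT.nd (nat_lit 546) (PT.nd (nat_lit 234) (PT.nd (nat_lit 78) (PT.lf (nat_lit 7828) (nat_lit 6) (nat_lit 103) (nat_lit 3) (nat_lit 173) (nat_lit 157) (nat_lit 180)) (PT.nd (nat_lit 78) (PT.lf (nat_lit 7904) (nat_lit 6) (nat_lit 104) (nat_lit 3) (nat_lit 174) (nat_lit 157) (nat_lit 179)) (PT.lf (nat_lit 7980) (nat_lit 6) (nat_lit 105) (nat_lit 3) (nat_lit 175) (nat_lit 157) (nat_lit 178)))) (PT.nd (nat_lit 156) (PT.nd (nat_lit 78) (PT.lf (nat_lit 8056) (nat_lit 6) (nat_lit 106) (nat_lit 3) (nat_lit 176) (nat_lit 157) (nat_lit 177)) (PT.lf (nat_lit 8056) (nat_lit 6) (nat_lit 106) (nat_lit 1) (nat_lit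 177) (nat_lit 157) (nat_lit 176))) (PT.nd (nat_lit 78) (PT.lf (nat_lit 7980) (nat_lit 6) (nat_lit 105) (nat_lit 1) (nat_lit 178) (nat_lit 157) (nat_lit 175)) (PT.lf (nat_lit 7904) (nat_lit 6) (nat_lit 104) (nat_lit 1) (nat_lit 179) (nat_lit 157) (nat_lit 174))))) (PT.nd (nat_lit 52572) (PT.nd (nat_lit 52416) (PT.nd (nat_lit 78) (PT.lf (nat_lit 7828) (nat_lit 6) (nat_lit 103) (nat_lit 1) (nat_lit 180) (nat_lit 157) (nat_lit 173)) (PT.lf (nat_lit 7752) (nat_lit 6) (nat_lit 102) (nat_lit 1) (nat_lit 181) (nat_lit 157) (nat_lit 172))) (PT.nd (nat_lit 78) (PT.lf (nat_lit 8132) (nat_lit 6) (nat_lit 107) (nat_lit 3) (nat_lit 171) (nat_lit 158) (nat_lit 181)) (PT.lf (nat_lit 8208) (nat_lit 6) (nat_lit 108) (nat_lit 3) (nat_lit 172) (nat_lit 158) (nat_lit 180)))) (PT.nd (nat_lit 156) (PT.nd (nat_lit 78) (PT.lf (nat_lit 8284) (nat_lit 6) (nat_lit 109) (nat_lit 3) (nat_lit 173) (nat_lit 158) (nat_lit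 179)) (PT.lf (nat_lit 8360) (nat_lit 6) (nat_lit 110) (nat_lit 3) (nat_lit 174) (nat_lit 158) (nat_lit 178))) (PT.nd (nat_lit 78) (PT.lf (nat_lit 8436) (nat_lit 6) (nat_lit 111) (nat_lit 3) (nat_lit 175) (nat_lit 158) (nat_lit 177)) (PT.lf (nat_lit 8512) (nat_lit 3) (nat_lit 112) (nat_lit 1) (nat_lit 176) (nat_lit 158) (nat_lit 176)))))) (PT.nd (nat_lit 52806) (PT.nd (nat_lit 234) (PT.nd (nat_lit 78) (PT.lf (nat_lit 8436) (nat_lit 6) (nat_lit 111) (nat_lit 1) (nat_lit 177) (nat_lit 158) (nat_lit 175)) (PT.nd (nat_lit 78) (PT.lf (nat_lit 8360) (nat_lit 6) (nat_lit 110) (nat_lit 1) (nat_lit 178) (nat_lit 158) (nat_lit 174)) (PT.lf (nat_lit 8284) (nat_lit 6) (nat_lit 109) (nat_lit 1) (nat_lit 179) (nat_lit 158) (nat_lit 173)))) (PT.nd (nat_lit 52416) (PT.nd (nat_lit 78) (PT.lf (nat_lit 8208) (nat_lit 6) (nat_lit 108) (nat_lit 1) (nat_lit 180) (nat_lit 158) (nat_lit 172)) (PT.lf (nat_lit 8132)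 (nat_lit 6) (nat_lit 107) (nat_lit 1) (nat_lit 181) (nat_lit 158) (nat_lit 171))) (PT.nd (nat_lit 78) (PT.lf (nat_lit 8588) (nat_lit 6) (nat_lit 113) (nat_lit 3) (nat_lit 171) (nat_lit 159) (nat_lit 180)) (PT.lf (nat_lit 8664) (nat_lit 6) (nat_lit 114) (nat_lit 3) (nat_lit 172) (nat_lit 159) (nat_lit 179))))) (PT.nd (nat_lit 312) (PT.nd (nat_lit 156) (PT.nd (nat_lit 78) (PT.lf (nat_lit 8740) (nat_lit 6) (nat_lit 115) (nat_lit 3) (nat_lit 173) (nat_lit 159) (nat_lit 178)) (PT.lf (nat_lit 8816) (nat_lit 6) (nat_lit 116) (nat_lit 3) (nat_lit 174) (nat_lit 159) (nat_lit 177))) (PT.nd (nat_lit 78) (PT.lf (nat_lit 8892) (nat_lit 6) (nat_lit 117) (nat_lit 3) (nat_lit 175) (nat_lit 159) (nat_lit 176)) (PT.lf (nat_lit 8892) (nat_lit 6) (nat_lit 117) (nat_lit 1) (nat_lit 176) (nat_lit 159) (nat_lit 175)))) (PT.nd (nat_lit 156) (PT.nd (nat_lit 78) (PT.lf (nat_lit 8816) (nat_lit 6) (nat_lit 116) (nat_lit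 1) (nat_lit 177) (nat_lit 159) (nat_lit 174)) (PT.lf (nat_lit 8740) (nat_lit 6) (nat_lit 115) (nat_lit 1) (nat_lit 178) (nat_lit 159) (nat_lit 173))) (PT.nd (nat_lit 78) (PT.lf (nat_lit 8664) (nat_lit 6) (nat_lit 114) (nat_lit 1) (nat_lit 179) (nat_lit 159) (nat_lit 172)) (PT.lf (nat_lit 8588) (nat_lit 6) (nat_lit 113) (nat_lit 1) (nat_lit 180) (nat_lit 159) (nat_lit 171))))))) (PT.nd (nat_lit 53352) (PT.nd (nat_lit 546) (PT.nd (nat_lit 234) (PT.nd (nat_lit 78) (PT.lf (nat_lit 9348) (nat_lit 6) (nat_lit 123) (nat_lit 3) (nat_lit 170) (nat_lit 160) (nat_lit 180)) (PT.nd (nat_lit 78) (PT.lf (nat_lit 9424) (nat_lit 6) (nat_lit 124) (nat_lit 3) (nat_lit 171) (nat_lit 160) (nat_lit 179)) (PT.lf (nat_lit 9500) (nat_lit 6) (nat_lit 125) (nat_lit 3) (nat_lit 172) (nat_lit 160) (nat_lit 178)))) (PT.nd (nat_lit 156) (PT.nd (nat_lit 78) (PT.lf (nat_lit 9576) (nat_lit 6) (nat_lit 126) (nat_lit 3) (nat_lit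 173) (nat_lit 160) (nat_lit 177)) (PT.lf (nat_lit 9652) (nat_lit 6) (nat_lit 127) (nat_lit 3) (nat_lit 174) (nat_lit 160) (nat_lit 176))) (PT.nd (nat_lit 78) (PT.lf (nat_lit 9728) (nat_lit 3) (nat_lit 128) (nat_lit 1) (nat_lit 175) (nat_lit 160) (nat_lit 175)) (PT.lf (nat_lit 9652) (nat_lit 6) (nat_lit 127) (nat_lit 1) (nat_lit 176) (nat_lit 160) (nat_lit 174))))) (PT.nd (nat_lit 52494) (PT.nd (nat_lit 156) (PT.nd (nat_lit 78) (PT.lf (nat_lit 9576) (nat_lit 6) (nat_lit 126) (nat_lit 1) (nat_lit 177) (nat_lit 160) (nat_lit 173)) (PT.lf (nat_lit 9500) (nat_lit 6) (nat_lit 125) (nat_lit 1) (nat_lit 178) (nat_lit 160) (nat_lit 172))) (PT.nd (nat_lit 78) (PT.lf (nat_lit 9424) (nat_lit 6) (nat_lit 124) (nat_lit 1) (nat_lit 179) (nat_lit 160) (nat_lit 171)) (PT.lf (nat_lit 9348) (nat_lit 6) (nat_lit 123) (nat_lit 1) (nat_lit 180) (nat_lit 160) (nat_lit 170)))) (PT.nd (nat_lit 156) (PT.nd (nat_lit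 78) (PT.lf (nat_lit 9272) (nat_lit 6) (nat_lit 122) (nat_lit 3) (nat_lit 169) (nat_lit 161) (nat_lit 180)) (PT.lf (nat_lit 10108) (nat_lit 6) (nat_lit 133) (nat_lit 3) (nat_lit 170) (nat_lit 161) (nat_lit 179))) (PT.nd (nat_lit 78) (PT.lf (nat_lit 10184) (nat_lit 6) (nat_lit 134) (nat_lit 3) (nat_lit 171) (nat_lit 161) (nat_lit 178)) (PT.lf (nat_lit 10260) (nat_lit 6) (nat_lit 135) (nat_lit 3) (nat_lit 172) (nat_lit 161) (nat_lit 177)))))) (PT.nd (nat_lit 546) (PT.nd (nat_lit 234) (PT.nd (nat_lit 78) (PT.lf (nat_lit 10336) (nat_lit 6) (nat_lit 136) (nat_lit 3) (nat_lit 173) (nat_lit 161) (nat_lit 176)) (PT.nd (nat_lit 78) (PT.lf (nat_lit 10412) (nat_lit 6) (nat_lit 137) (nat_lit 3) (nat_lit 174) (nat_lit 161) (nat_lit 175)) (PT.lf (nat_lit 10412) (nat_lit 6) (nat_lit 137) (nat_lit 1) (nat_lit 175) (nat_lit 161) (nat_lit 174)))) (PT.nd (nat_lit 156) (PT.nd (nat_lit 78) (PT.lf (nat_lit 10336)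 (nat_lit 6) (nat_lit 136) (nat_lit 1) (nat_lit 176) (nat_lit 161) (nat_lit 173)) (PT.lf (nat_lit 10260) (nat_lit 6) (nat_lit 135) (nat_lit 1) (nat_lit 177) (nat_lit 161) (nat_lit 172))) (PT.nd (nat_lit 78) (PT.lf (nat_lit 10184) (nat_lit 6) (nat_lit 134) (nat_lit 1) (nat_lit 178) (nat_lit 161) (nat_lit 171)) (PT.lf (nat_lit 10108) (nat_lit 6) (nat_lit 133) (nat_lit 1) (nat_lit 179) (nat_lit 161) (nat_lit 170))))) (PT.nd (nat_lit 52416) (PT.nd (nat_lit 52260) (PT.nd (nat_lit 52182) (PT.lf (nat_lit 9272) (nat_lit 6) (nat_lit 122) (nat_lit 1) (nat_lit 180) (nat_lit 161) (nat_lit 169)) (PT.lf (nat_lit 9196) (nat_lit 6) (nat_lit 121) (nat_lit 3) (nat_lit 168) (nat_lit 162) (nat_lit 180))) (PT.nd (nat_lit 78) (PT.lf (nat_lit 10032) (nat_lit 6) (nat_lit 132) (nat_lit 3) (nat_lit 169) (nat_lit 162) (nat_lit 179)) (PT.lf (nat_lit 10792) (nat_lit 6) (nat_lit 142) (nat_lit 3) (nat_lit 170) (nat_lit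 162) (nat_lit 178)))) (PT.nd (nat_lit 156) (PT.nd (nat_lit 78) (PT.lf (nat_lit 10868) (nat_lit 6) (nat_lit 143) (nat_lit 3) (nat_lit 171) (nat_lit 162) (nat_lit 177)) (PT.lf (nat_lit 10944) (nat_lit 6) (nat_lit 144) (nat_lit 3) (nat_lit 172) (nat_lit 162) (nat_lit 176))) (PT.nd (nat_lit 78) (PT.lf (nat_lit 11020) (nat_lit 6) (nat_lit 145) (nat_lit 3) (nat_lit 173) (nat_lit 162) (nat_lit 175)) (PT.lf (nat_lit 11096) (nat_lit 3) (nat_lit 146) (nat_lit 1) (nat_lit 174) (nat_lit 162) (nat_lit 174))))))))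
noncomputable def pc4 : PT := (PT.nd (nat_lit 106314) (PT.nd (nat_lit 53196) (PT.nd (nat_lit 52572) (PT.nd (nat_lit 234) (PT.nd (nat_lit 78) (PT.lf (nat_lit 11020) (nat_lit 6) (nat_lit 145) (nat_lit 1) (nat_lit 175) (nat_lit 162) (nat_lit 173)) (PT.nd (nat_lit 78) (PT.lf (nat_lit 10944) (nat_lit 6) (nat_lit 144) (nat_lit 1) (nat_lit 176) (nat_lit 162) (nat_lit 172)) (PT.lf (nat_lit 10868) (nat_lit 6) (nat_lit 143) (nat_lit 1) (nat_lit 177) (nat_lit 162) (nat_lit 171)))) (PT.nd (nat_lit 156) (PT.nd (nat_lit 78) (PT.lf (nat_lit 10792) (nat_lit 6) (nat_lit 142) (nat_lit 1) (nat_lit 178) (nat_lit 162) (nat_lit 170)) (PT.lf (nat_lit 10032) (nat_lit 6) (nat_lit 132) (nat_lit 1) (nat_lit 179) (nat_lit 162) (nat_lit 169))) (PT.nd (nat_lit 52104) (PT.lf (nat_lit 9196) (nat_lit 6) (nat_lit 121) (nat_lit 1) (nat_lit 180) (nat_lit 162) (nat_lit 168)) (PT.lf (nat_lit 9120) (nat_lit 6) (nat_lit 120) (nat_lit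 3) (nat_lit 167) (nat_lit 163) (nat_lit 180))))) (PT.nd (nat_lit 312) (PT.nd (nat_lit 156) (PT.nd (nat_lit 78) (PT.lf (nat_lit 9956) (nat_lit 6) (nat_lit 131) (nat_lit 3) (nat_lit 168) (nat_lit 163) (nat_lit 179)) (PT.lf (nat_lit 10716) (nat_lit 6) (nat_lit 141) (nat_lit 3) (nat_lit 169) (nat_lit 163) (nat_lit 178))) (PT.nd (nat_lit 78) (PT.lf (nat_lit 11400) (nat_lit 6) (nat_lit 150) (nat_lit 3) (nat_lit 170) (nat_lit 163) (nat_lit 177)) (PT.lf (nat_lit 11476) (nat_lit 6) (nat_lit 151) (nat_lit 3) (nat_lit 171) (nat_lit 163) (nat_lit 176)))) (PT.nd (nat_lit 156) (PT.nd (nat_lit 78) (PT.lf (nat_lit 11552) (nat_lit 6) (nat_lit 152) (nat_lit 3) (nat_lit 172) (nat_lit 163) (nat_lit 175)) (PT.lf (nat_lit 11628) (nat_lit 6) (nat_lit 153) (nat_lit 3) (nat_lit 173) (nat_lit 163) (nat_lit 174))) (PT.nd (nat_lit 78) (PT.lf (nat_lit 11628) (nat_lit 6) (nat_lit 153) (nat_lit 1) (nat_lit 174) (nat_lit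 163) (nat_lit 173)) (PT.lf (nat_lit 11552) (nat_lit 6) (nat_lit 152) (nat_lit 1) (nat_lit 175) (nat_lit 163) (nat_lit 172)))))) (PT.nd (nat_lit 52494) (PT.nd (nat_lit 234) (PT.nd (nat_lit 78) (PT.lf (nat_lit 11476) (nat_lit 6) (nat_lit 151) (nat_lit 1) (nat_lit 176) (nat_lit 163) (nat_lit 171)) (PT.nd (nat_lit 78) (PT.lf (nat_lit 11400) (nat_lit 6) (nat_lit 150) (nat_lit 1) (nat_lit 177) (nat_lit 163) (nat_lit 170)) (PT.lf (nat_lit 10716) (nat_lit 6) (nat_lit 141) (nat_lit 1) (nat_lit 178) (nat_lit 163) (nat_lit 169)))) (PT.nd (nat_lit 52104) (PT.nd (nat_lit 78) (PT.lf (nat_lit 9956) (nat_lit 6) (nat_lit 131) (nat_lit 1) (nat_lit 179) (nat_lit 163) (nat_lit 168)) (PT.lf (nat_lit 9120) (nat_lit 6) (nat_lit 120) (nat_lit 1) (nat_lit 180) (nat_lit 163) (nat_lit 167))) (PT.nd (nat_lit 78) (PT.lf (nat_lit 9044) (nat_lit 6) (nat_lit 119) (nat_lit 3) (nat_lit 166) (nat_lit 164) (nat_lit 180)) (PT.lf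 (nat_lit 9880) (nat_lit 6) (nat_lit 130) (nat_lit 3) (nat_lit 167) (nat_lit 164) (nat_lit 179))))) (PT.nd (nat_lit 312) (PT.nd (nat_lit 156) (PT.nd (nat_lit 78) (PT.lf (nat_lit 10640) (nat_lit 6) (nat_lit 140) (nat_lit 3) (nat_lit 168) (nat_lit 164) (nat_lit 178)) (PT.lf (nat_lit 11324) (nat_lit 6) (nat_lit 149) (nat_lit 3) (nat_lit 169) (nat_lit 164) (nat_lit 177))) (PT.nd (nat_lit 78) (PT.lf (nat_lit 11932) (nat_lit 6) (nat_lit 157) (nat_lit 3) (nat_lit 170) (nat_lit 164) (nat_lit 176)) (PT.lf (nat_lit 12008) (nat_lit 6) (nat_lit 158) (nat_lit 3) (nat_lit 171) (nat_lit 164) (nat_lit 175)))) (PT.nd (nat_lit 156) (PT.nd (nat_lit 78) (PT.lf (nat_lit 12084) (nat_lit 6) (nat_lit 159) (nat_lit 3) (nat_lit 172) (nat_lit 164) (nat_lit 174)) (PT.lf (nat_lit 12160) (nat_lit 3) (nat_lit 160) (nat_lit 1) (nat_lit 173) (nat_lit 164) (nat_lit 173))) (PT.nd (nat_lit 78) (PT.lf (nat_lit 12084) (nat_lit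 6) (nat_lit 159) (nat_lit 1) (nat_lit 174) (nat_lit 164) (nat_lit 172)) (PT.lf (nat_lit 12008) (nat_lit 6) (nat_lit 158) (nat_lit 1) (nat_lit 175) (nat_lit 164) (nat_lit 171))))))) (PT.nd (nat_lit 53040) (PT.nd (nat_lit 52416) (PT.nd (nat_lit 234) (PT.nd (nat_lit 78) (PT.lf (nat_lit 11932) (nat_lit 6) (nat_lit 157) (nat_lit 1) (nat_lit 176) (nat_lit 164) (nat_lit 170)) (PT.nd (nat_lit 78) (PT.lf (nat_lit 11324) (nat_lit 6) (nat_lit 149) (nat_lit 1) (nat_lit 177) (nat_lit 164) (nat_lit 169)) (PT.lf (nat_lit 10640) (nat_lit 6) (nat_lit 140) (nat_lit 1) (nat_lit 178) (nat_lit 164) (nat_lit 168)))) (PT.nd (nat_lit 52026) (PT.nd (nat_lit 78) (PT.lf (nat_lit 9880) (nat_lit 6) (nat_lit 130) (nat_lit 1) (nat_lit 179) (nat_lit 164) (nat_lit 167)) (PT.lf (nat_lit 9044) (nat_lit 6) (nat_lit 119) (nat_lit 1) (nat_lit 180) (nat_lit 164) (nat_lit 166))) (PT.nd (nat_lit 78) (PT.lf (nat_lit 8968) (nat_lit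 3) (nat_lit 118) (nat_lit 3) (nat_lit 165) (nat_lit 165) (nat_lit 180)) (PT.lf (nat_lit 9804) (nat_lit 6) (nat_lit 129) (nat_lit 3) (nat_lit 166) (nat_lit 165) (nat_lit 179))))) (PT.nd (nat_lit 312) (PT.nd (nat_lit 156) (PT.nd (nat_lit 78) (PT.lf (nat_lit 10564) (nat_lit 6) (nat_lit 139) (nat_lit 3) (nat_lit 167) (nat_lit 165) (nat_lit 178)) (PT.lf (nat_lit 11248) (nat_lit 6) (nat_lit 148) (nat_lit 3) (nat_lit 168) (nat_lit 165) (nat_lit 177))) (PT.nd (nat_lit 78) (PT.lf (nat_lit 11856) (nat_lit 6) (nat_lit 156) (nat_lit 3) (nat_lit 169) (nat_lit 165) (nat_lit 176)) (PT.lf (nat_lit 12388) (nat_lit 6) (nat_lit 163) (nat_lit 3) (nat_lit 170) (nat_lit 165) (nat_lit 175)))) (PT.nd (nat_lit 156) (PT.nd (nat_lit 78) (PT.lf (nat_lit 12464) (nat_lit 6) (nat_lit 164) (nat_lit 3) (nat_lit 171) (nat_lit 165) (nat_lit 174)) (PT.lf (nat_lit 12540) (nat_lit 6) (nat_lit 165) (nat_lit 3) (nat_lit 172) (nat_lit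 165) (nat_lit 173))) (PT.nd (nat_lit 78) (PT.lf (nat_lit 12540) (nat_lit 6) (nat_lit 165) (nat_lit 1) (nat_lit 173) (nat_lit 165) (nat_lit 172)) (PT.lf (nat_lit 12464) (nat_lit 6) (nat_lit 164) (nat_lit 1) (nat_lit 174) (nat_lit 165) (nat_lit 171)))))) (PT.nd (nat_lit 52338) (PT.nd (nat_lit 234) (PT.nd (nat_lit 78) (PT.lf (nat_lit 12388) (nat_lit 6) (nat_lit 163) (nat_lit 1) (nat_lit 175) (nat_lit 165) (nat_lit 170)) (PT.nd (nat_lit 78) (PT.lf (nat_lit 11856) (nat_lit 6) (nat_lit 156) (nat_lit 1) (nat_lit 176) (nat_lit 165) (nat_lit 169)) (PT.lf (nat_lit 11248) (nat_lit 6) (nat_lit 148) (nat_lit 1) (nat_lit 177) (nat_lit 165) (nat_lit 168)))) (PT.nd (nat_lit 156) (PT.nd (nat_lit 78) (PT.lf (nat_lit 10564) (nat_lit 6) (nat_lit 139) (nat_lit 1) (nat_lit 178) (nat_lit 165) (nat_lit 167)) (PT.lf (nat_lit 9804) (nat_lit 6) (nat_lit 129) (nat_lit 1) (nat_lit 179) (nat_lit 165) (nat_lit 166))) (PT.nd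 (nat_lit 51870) (PT.lf (nat_lit 8968) (nat_lit 3) (nat_lit 118) (nat_lit 0) (nat_lit 180) (nat_lit 165) (nat_lit 165)) (PT.lf (nat_lit 9044) (nat_lit 6) (nat_lit 119) (nat_lit 5) (nat_lit 164) (nat_lit 166) (nat_lit 180))))) (PT.nd (nat_lit 312) (PT.nd (nat_lit 156) (PT.nd (nat_lit 78) (PT.lf (nat_lit 9804) (nat_lit 6) (nat_lit 129) (nat_lit 5) (nat_lit 165) (nat_lit 166) (nat_lit 179)) (PT.lf (nat_lit 10488) (nat_lit 3) (nat_lit 138) (nat_lit 3) (nat_lit 166) (nat_lit 166) (nat_lit 178))) (PT.nd (nat_lit 78) (PT.lf (nat_lit 11172) (nat_lit 6) (nat_lit 147) (nat_lit 3) (nat_lit 167) (nat_lit 166) (nat_lit 177)) (PT.lf (nat_lit 11780) (nat_lit 6) (nat_lit 155) (nat_lit 3) (nat_lit 168) (nat_lit 166) (nat_lit 176)))) (PT.nd (nat_lit 156) (PT.nd (nat_lit 78) (PT.lf (nat_lit 12312) (nat_lit 6) (nat_lit 162) (nat_lit 3) (nat_lit 169) (nat_lit 166) (nat_lit 175)) (PT.lf (nat_lit 12768) (nat_lit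 6) (nat_lit 168) (nat_lit 3) (nat_lit 170) (nat_lit 166) (nat_lit 174))) (PT.nd (nat_lit 78) (PT.lf (nat_lit 12844) (nat_lit 6) (nat_lit 169) (nat_lit 3) (nat_lit 171) (nat_lit 166) (nat_lit 173)) (PT.lf (nat_lit 12920) (nat_lit 3) (nat_lit 170) (nat_lit 1) (nat_lit 172) (nat_lit 166) (nat_lit 172))))))))
noncomputable def pc5 : PT := (PT.nd (nat_lit 105690) (PT.nd (nat_lit 52884) (PT.nd (nat_lit 546) (PT.nd (nat_lit 234) (PT.nd (nat_lit 78) (PT.lf (nat_lit 12844) (nat_lit 6) (nat_lit 169) (nat_lit 1) (nat_lit 173) (nat_lit 166) (nat_lit 171)) (PT.nd (nat_lit 78) (PT.lf (nat_lit 12768) (nat_lit 6) (nat_lit 168) (nat_lit 1) (nat_lit 174) (nat_lit 166) (nat_lit 170)) (PT.lf (nat_lit 12312) (nat_lit 6) (nat_lit 162) (nat_lit 1) (nat_lit 175) (nat_lit 166) (nat_lit 169)))) (PT.nd (nat_lit 156) (PT.nd (nat_lit 78) (PT.lf (nat_lit 11780) (nat_lit 6) (nat_lit 155) (nat_lit 1) (nat_lit 176) (nat_lit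 166) (nat_lit 168)) (PT.lf (nat_lit 11172) (nat_lit 6) (nat_lit 147) (nat_lit 1) (nat_lit 177) (nat_lit 166) (nat_lit 167))) (PT.nd (nat_lit 78) (PT.lf (nat_lit 10488) (nat_lit 3) (nat_lit 138) (nat_lit 0) (nat_lit 178) (nat_lit 166) (nat_lit 166)) (PT.lf (nat_lit 9804) (nat_lit 6) (nat_lit 129) (nat_lit 0) (nat_lit 179) (nat_lit 166) (nat_lit 165))))) (PT.nd (nat_lit 52026) (PT.nd (nat_lit 51870) (PT.nd (nat_lit 51792) (PT.lf (nat_lit 9044) (nat_lit 6) (nat_lit 119) (nat_lit 0) (nat_lit 180) (nat_lit 166) (nat_lit 164)) (PT.lf (nat_lit 9120) (nat_lit 6) (nat_lit 120) (nat_lit 5) (nat_lit 163) (nat_lit 167) (nat_lit 180))) (PT.nd (nat_lit 78) (PT.lf (nat_lit 9880) (nat_lit 6) (nat_lit 130) (nat_lit 5) (nat_lit 164) (nat_lit 167) (nat_lit 179)) (PT.lf (nat_lit 10564) (nat_lit 6) (nat_lit 139) (nat_lit 5) (nat_lit 165) (nat_lit 167) (nat_lit 178)))) (PT.nd (nat_lit 156) (PT.nd (nat_lit 78)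 (PT.lf (nat_lit 11172) (nat_lit 6) (nat_lit 147) (nat_lit 5) (nat_lit 166) (nat_lit 167) (nat_lit 177)) (PT.lf (nat_lit 11704) (nat_lit 3) (nat_lit 154) (nat_lit 3) (nat_lit 167) (nat_lit 167) (nat_lit 176))) (PT.nd (nat_lit 78) (PT.lf (nat_lit 12236) (nat_lit 6) (nat_lit 161) (nat_lit 3) (nat_lit 168) (nat_lit 167) (nat_lit 175)) (PT.lf (nat_lit 12692) (nat_lit 6) (nat_lit 167) (nat_lit 3) (nat_lit 169) (nat_lit 167) (nat_lit 174)))))) (PT.nd (nat_lit 546) (PT.nd (nat_lit 234) (PT.nd (nat_lit 78) (PT.lf (nat_lit 13072) (nat_lit 6) (nat_lit 172) (nat_lit 3) (nat_lit 170) (nat_lit 167) (nat_lit 173)) (PT.nd (nat_lit 78) (PT.lf (nat_lit 13148) (nat_lit 6) (nat_lit 173) (nat_lit 3) (nat_lit 171) (nat_lit 167) (nat_lit 172)) (PT.lf (nat_lit 13148) (nat_lit 6) (nat_lit 173) (nat_lit 1) (nat_lit 172) (nat_lit 167) (nat_lit 171)))) (PT.nd (nat_lit 156) (PT.nd (nat_lit 78) (PT.lf (nat_lit 13072)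 (nat_lit 6) (nat_lit 172) (nat_lit 1) (nat_lit 173) (nat_lit 167) (nat_lit 170)) (PT.lf (nat_lit 12692) (nat_lit 6) (nat_lit 167) (nat_lit 1) (nat_lit 174) (nat_lit 167) (nat_lit 169))) (PT.nd (nat_lit 78) (PT.lf (nat_lit 12236) (nat_lit 6) (nat_lit 161) (nat_lit 1) (nat_lit 175) (nat_lit 167) (nat_lit 168)) (PT.lf (nat_lit 11704) (nat_lit 3) (nat_lit 154) (nat_lit 0) (nat_lit 176) (nat_lit 167) (nat_lit 167))))) (PT.nd (nat_lit 51948) (PT.nd (nat_lit 156) (PT.nd (nat_lit 78) (PT.lf (nat_lit 11172) (nat_lit 6) (nat_lit 147) (nat_lit 0) (nat_lit 177) (nat_lit 167) (nat_lit 166)) (PT.lf (nat_lit 10564) (nat_lit 6) (nat_lit 139) (nat_lit 0) (nat_lit 178) (nat_lit 167) (nat_lit 165))) (PT.nd (nat_lit 78) (PT.lf (nat_lit 9880) (nat_lit 6) (nat_lit 130) (nat_lit 0) (nat_lit 179) (nat_lit 167) (nat_lit 164)) (PT.lf (nat_lit 9120) (nat_lit 6) (nat_lit 120) (nat_lit 0) (nat_lit 180) (nat_lit 167)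 (nat_lit 163)))) (PT.nd (nat_lit 156) (PT.nd (nat_lit 78) (PT.lf (nat_lit 9196) (nat_lit 6) (nat_lit 121) (nat_lit 5) (nat_lit 162) (nat_lit 168) (nat_lit 180)) (PT.lf (nat_lit 9956) (nat_lit 6) (nat_lit 131) (nat_lit 5) (nat_lit 163) (nat_lit 168) (nat_lit 179))) (PT.nd (nat_lit 78) (PT.lf (nat_lit 10640) (nat_lit 6) (nat_lit 140) (nat_lit 5) (nat_lit 164) (nat_lit 168) (nat_lit 178)) (PT.lf (nat_lit 11248) (nat_lit 6) (nat_lit 148) (nat_lit 5) (nat_lit 165) (nat_lit 168) (nat_lit 177))))))) (PT.nd (nat_lit 52728) (PT.nd (nat_lit 546) (PT.nd (nat_lit 234) (PT.nd (nat_lit 78) (PT.lf (nat_lit 11780) (nat_lit 6) (nat_lit 155) (nat_lit 5) (nat_lit 166) (nat_lit 168) (nat_lit 176)) (PT.nd (nat_lit 78) (PT.lf (nat_lit 12236) (nat_lit 6) (nat_lit 161) (nat_lit 5) (nat_lit 167) (nat_lit 168) (nat_lit 175)) (PT.lf (nat_lit 12616) (nat_lit 3) (nat_lit 166) (nat_lit 3) (nat_lit 168) (nat_lit 168) (nat_lit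 174)))) (PT.nd (nat_lit 156) (PT.nd (nat_lit 78) (PT.lf (nat_lit 12996) (nat_lit 6) (nat_lit 171) (nat_lit 3) (nat_lit 169) (nat_lit 168) (nat_lit 173)) (PT.lf (nat_lit 13300) (nat_lit 6) (nat_lit 175) (nat_lit 3) (nat_lit 170) (nat_lit 168) (nat_lit 172))) (PT.nd (nat_lit 78) (PT.lf (nat_lit 13376) (nat_lit 3) (nat_lit 176) (nat_lit 1) (nat_lit 171) (nat_lit 168) (nat_lit 171)) (PT.lf (nat_lit 13300) (nat_lit 6) (nat_lit 175) (nat_lit 1) (nat_lit 172) (nat_lit 168) (nat_lit 170))))) (PT.nd (nat_lit 312) (PT.nd (nat_lit 156) (PT.nd (nat_lit 78) (PT.lf (nat_lit 12996) (nat_lit 6) (nat_lit 171) (nat_lit 1) (nat_lit 173) (nat_lit 168) (nat_lit 169)) (PT.lf (nat_lit 12616) (nat_lit 3) (nat_lit 166) (nat_lit 0) (nat_lit 174) (nat_lit 168) (nat_lit 168))) (PT.nd (nat_lit 78) (PT.lf (nat_lit 12236) (nat_lit 6) (nat_lit 161) (nat_lit 0) (nat_lit 175) (nat_lit 168) (nat_lit 167)) (PT.lf (nat_lit 11780)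 (nat_lit 6) (nat_lit 155) (nat_lit 0) (nat_lit 176) (nat_lit 168) (nat_lit 166)))) (PT.nd (nat_lit 156) (PT.nd (nat_lit 78) (PT.lf (nat_lit 11248) (nat_lit 6) (nat_lit 148) (nat_lit 0) (nat_lit 177) (nat_lit 168) (nat_lit 165)) (PT.lf (nat_lit 10640) (nat_lit 6) (nat_lit 140) (nat_lit 0) (nat_lit 178) (nat_lit 168) (nat_lit 164))) (PT.nd (nat_lit 78) (PT.lf (nat_lit 9956) (nat_lit 6) (nat_lit 131) (nat_lit 0) (nat_lit 179) (nat_lit 168) (nat_lit 163)) (PT.lf (nat_lit 9196) (nat_lit 6) (nat_lit 121) (nat_lit 0) (nat_lit 180) (nat_lit 168) (nat_lit 162)))))) (PT.nd (nat_lit 546) (PT.nd (nat_lit 234) (PT.nd (nat_lit 78) (PT.lf (nat_lit 9272) (nat_lit 6) (nat_lit 122) (nat_lit 5) (nat_lit 161) (nat_lit 169) (nat_lit 180)) (PT.nd (nat_lit 78) (PT.lf (nat_lit 10032) (nat_lit 6) (nat_lit 132) (nat_lit 5) (nat_lit 162) (nat_lit 169) (nat_lit 179)) (PT.lf (nat_lit 10716) (nat_lit 6) (nat_lit 141)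 (nat_lit 5) (nat_lit 163) (nat_lit 169) (nat_lit 178)))) (PT.nd (nat_lit 156) (PT.nd (nat_lit 78) (PT.lf (nat_lit 11324) (nat_lit 6) (nat_lit 149) (nat_lit 5) (nat_lit 164) (nat_lit 169) (nat_lit 177)) (PT.lf (nat_lit 11856) (nat_lit 6) (nat_lit 156) (nat_lit 5) (nat_lit 165) (nat_lit 169) (nat_lit 176))) (PT.nd (nat_lit 78) (PT.lf (nat_lit 12312) (nat_lit 6) (nat_lit 162) (nat_lit 5) (nat_lit 166) (nat_lit 169) (nat_lit 175)) (PT.lf (nat_lit 12692) (nat_lit 6) (nat_lit 167) (nat_lit 5) (nat_lit 167) (nat_lit 169) (nat_lit 174))))) (PT.nd (nat_lit 312) (PT.nd (nat_lit 156) (PT.nd (nat_lit 78) (PT.lf (nat_lit 12996) (nat_lit 6) (nat_lit 171) (nat_lit 5) (nat_lit 168) (nat_lit 169) (nat_lit 173)) (PT.lf (nat_lit 13224) (nat_lit 3) (nat_lit 174) (nat_lit 3) (nat_lit 169) (nat_lit 169) (nat_lit 172))) (PT.nd (nat_lit 78) (PT.lf (nat_lit 13452) (nat_lit 6) (nat_lit 177) (nat_lit 3) (nat_lit 170)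 (nat_lit 169) (nat_lit 171)) (PT.lf (nat_lit 13452) (nat_lit 6) (nat_lit 177) (nat_lit 1) (nat_lit 171) (nat_lit 169) (nat_lit 170)))) (PT.nd (nat_lit 156) (PT.nd (nat_lit 78) (PT.lf (nat_lit 13224) (nat_lit 3) (nat_lit 174) (nat_lit 0) (nat_lit 172) (nat_lit 169) (nat_lit 169)) (PT.lf (nat_lit 12996) (nat_lit 6) (nat_lit 171) (nat_lit 0) (nat_lit 173) (nat_lit 169) (nat_lit 168))) (PT.nd (nat_lit 78) (PT.lf (nat_lit 12692) (nat_lit 6) (nat_lit 167) (nat_lit 0) (nat_lit 174) (nat_lit 169) (nat_lit 167)) (PT.lf (nat_lit 12312) (nat_lit 6) (nat_lit 162) (nat_lit 0) (nat_lit 175) (nat_lit 169) (nat_lit 166))))))))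
noncomputable def pc6 : PT := (PT.nd (nat_lit 105144) (PT.nd (nat_lit 52650) (PT.nd (nat_lit 52026) (PT.nd (nat_lit 234) (PT.nd (nat_lit 78) (PT.lf (nat_lit 11856) (nat_lit 6) (nat_lit 156) (nat_lit 0) (nat_lit 176) (nat_lit 169) (nat_lit 165)) (PT.nd (nat_lit 78) (PT.lf (nat_lit 11324) (nat_lit 6) (nat_lit 149) (nat_lit 0) (nat_lit 177) (nat_lit 169) (nat_lit 164)) (PT.lf (nat_lit 10716) (nat_lit 6) (nat_lit 141) (nat_lit 0) (nat_lit 178) (nat_lit 169) (nat_lit 163)))) (PT.nd (nat_lit 51636) (PT.nd (nat_lit 78) (PT.lf (nat_lit 10032) (nat_lit 6) (nat_lit 132) (nat_lit 0) (nat_lit 179) (nat_lit 169) (nat_lit 162)) (PT.lf (nat_lit 9272) (nat_lit 6) (nat_lit 122) (nat_lit 0) (nat_lit 180) (nat_lit 169) (nat_lit 161))) (PT.nd (nat_lit 78) (PT.lf (nat_lit 9348) (nat_lit 6) (nat_lit 123) (nat_lit 5) (nat_lit 160) (nat_lit 170) (nat_lit 180)) (PT.lf (nat_lit 10108) (nat_lit 6) (nat_lit 133) (nat_lit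 5) (nat_lit 161) (nat_lit 170) (nat_lit 179))))) (PT.nd (nat_lit 312) (PT.nd (nat_lit 156) (PT.nd (nat_lit 78) (PT.lf (nat_lit 10792) (nat_lit 6) (nat_lit 142) (nat_lit 5) (nat_lit 162) (nat_lit 170) (nat_lit 178)) (PT.lf (nat_lit 11400) (nat_lit 6) (nat_lit 150) (nat_lit 5) (nat_lit 163) (nat_lit 170) (nat_lit 177))) (PT.nd (nat_lit 78) (PT.lf (nat_lit 11932) (nat_lit 6) (nat_lit 157) (nat_lit 5) (nat_lit 164) (nat_lit 170) (nat_lit 176)) (PT.lf (nat_lit 12388) (nat_lit 6) (nat_lit 163) (nat_lit 5) (nat_lit 165) (nat_lit 170) (nat_lit 175)))) (PT.nd (nat_lit 156) (PT.nd (nat_lit 78) (PT.lf (nat_lit 12768) (nat_lit 6) (nat_lit 168) (nat_lit 5) (nat_lit 166) (nat_lit 170) (nat_lit 174)) (PT.lf (nat_lit 13072) (nat_lit 6) (nat_lit 172) (nat_lit 5) (nat_lit 167) (nat_lit 170) (nat_lit 173))) (PT.nd (nat_lit 78) (PT.lf (nat_lit 13300) (nat_lit 6) (nat_lit 175) (nat_lit 5) (nat_lit 168) (nat_lit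 170) (nat_lit 172)) (PT.lf (nat_lit 13452) (nat_lit 6) (nat_lit 177) (nat_lit 5) (nat_lit 169) (nat_lit 170) (nat_lit 171)))))) (PT.nd (nat_lit 546) (PT.nd (nat_lit 234) (PT.nd (nat_lit 78) (PT.lf (nat_lit 13528) (nat_lit 1) (nat_lit 178) (nat_lit 0) (nat_lit 170) (nat_lit 170) (nat_lit 170)) (PT.nd (nat_lit 78) (PT.lf (nat_lit 13452) (nat_lit 6) (nat_lit 177) (nat_lit 0) (nat_lit 171) (nat_lit 170) (nat_lit 169)) (PT.lf (nat_lit 13300) (nat_lit 6) (nat_lit 175) (nat_lit 0) (nat_lit 172) (nat_lit 170) (nat_lit 168)))) (PT.nd (nat_lit 156) (PT.nd (nat_lit 78) (PT.lf (nat_lit 13072) (nat_lit 6) (nat_lit 172) (nat_lit 0) (nat_lit 173) (nat_lit 170) (nat_lit 167)) (PT.lf (nat_lit 12768) (nat_lit 6) (nat_lit 168) (nat_lit 0) (nat_lit 174) (nat_lit 170) (nat_lit 166))) (PT.nd (nat_lit 78) (PT.lf (nat_lit 12388) (nat_lit 6) (nat_lit 163) (nat_lit 0) (nat_lit 175) (nat_lit 170) (nat_lit 165)) (PT.lf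 (nat_lit 11932) (nat_lit 6) (nat_lit 157) (nat_lit 0) (nat_lit 176) (nat_lit 170) (nat_lit 164))))) (PT.nd (nat_lit 51636) (PT.nd (nat_lit 156) (PT.nd (nat_lit 78) (PT.lf (nat_lit 11400) (nat_lit 6) (nat_lit 150) (nat_lit 0) (nat_lit 177) (nat_lit 170) (nat_lit 163)) (PT.lf (nat_lit 10792) (nat_lit 6) (nat_lit 142) (nat_lit 0) (nat_lit 178) (nat_lit 170) (nat_lit 162))) (PT.nd (nat_lit 78) (PT.lf (nat_lit 10108) (nat_lit 6) (nat_lit 133) (nat_lit 0) (nat_lit 179) (nat_lit 170) (nat_lit 161)) (PT.lf (nat_lit 9348) (nat_lit 6) (nat_lit 123) (nat_lit 0) (nat_lit 180) (nat_lit 170) (nat_lit 160)))) (PT.nd (nat_lit 156) (PT.nd (nat_lit 78) (PT.lf (nat_lit 8132) (nat_lit 6) (nat_lit 107) (nat_lit 5) (nat_lit 158) (nat_lit 171) (nat_lit 181)) (PT.lf (nat_lit 8588) (nat_lit 6) (nat_lit 113) (nat_lit 5) (nat_lit 159) (nat_lit 171) (nat_lit 180))) (PT.nd (nat_lit 78) (PT.lf (nat_lit 9424) (nat_lit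 6) (nat_lit 124) (nat_lit 5) (nat_lit 160) (nat_lit 171) (nat_lit 179)) (PT.lf (nat_lit 10184) (nat_lit 6) (nat_lit 134) (nat_lit 5) (nat_lit 161) (nat_lit 171) (nat_lit 178))))))) (PT.nd (nat_lit 1170) (PT.nd (nat_lit 546) (PT.nd (nat_lit 234) (PT.nd (nat_lit 78) (PT.lf (nat_lit 10868) (nat_lit 6) (nat_lit 143) (nat_lit 5) (nat_lit 162) (nat_lit 171) (nat_lit 177)) (PT.nd (nat_lit 78) (PT.lf (nat_lit 11476) (nat_lit 6) (nat_lit 151) (nat_lit 5) (nat_lit 163) (nat_lit 171) (nat_lit 176)) (PT.lf (nat_lit 12008) (nat_lit 6) (nat_lit 158) (nat_lit 5) (nat_lit 164) (nat_lit 171) (nat_lit 175)))) (PT.nd (nat_lit 156) (PT.nd (nat_lit 78) (PT.lf (nat_lit 12464) (nat_lit 6) (nat_lit 164) (nat_lit 5) (nat_lit 165) (nat_lit 171) (nat_lit 174)) (PT.lf (nat_lit 12844) (nat_lit 6) (nat_lit 169) (nat_lit 5) (nat_lit 166) (nat_lit 171) (nat_lit 173))) (PT.nd (nat_lit 78) (PT.lf (nat_lit 13148) (nat_lit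 6) (nat_lit 173) (nat_lit 5) (nat_lit 167) (nat_lit 171) (nat_lit 172)) (PT.lf (nat_lit 13376) (nat_lit 3) (nat_lit 176) (nat_lit 4) (nat_lit 168) (nat_lit 171) (nat_lit 171))))) (PT.nd (nat_lit 312) (PT.nd (nat_lit 156) (PT.nd (nat_lit 78) (PT.lf (nat_lit 13452) (nat_lit 6) (nat_lit 177) (nat_lit 4) (nat_lit 169) (nat_lit 171) (nat_lit 170)) (PT.lf (nat_lit 13452) (nat_lit 6) (nat_lit 177) (nat_lit 2) (nat_lit 170) (nat_lit 171) (nat_lit 169))) (PT.nd (nat_lit 78) (PT.lf (nat_lit 13376) (nat_lit 3) (nat_lit 176) (nat_lit 0) (nat_lit 171) (nat_lit 171) (nat_lit 168)) (PT.lf (nat_lit 13148) (nat_lit 6) (nat_lit 173) (nat_lit 0) (nat_lit 172) (nat_lit 171) (nat_lit 167)))) (PT.nd (nat_lit 156) (PT.nd (nat_lit 78) (PT.lf (nat_lit 12844) (nat_lit 6) (nat_lit 169) (nat_lit 0) (nat_lit 173) (nat_lit 171) (nat_lit 166)) (PT.lf (nat_lit 12464) (nat_lit 6) (nat_lit 164) (nat_lit 0) (nat_lit 174) (nat_lit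 171) (nat_lit 165))) (PT.nd (nat_lit 78) (PT.lf (nat_lit 12008) (nat_lit 6) (nat_lit 158) (nat_lit 0) (nat_lit 175) (nat_lit 171) (nat_lit 164)) (PT.lf (nat_lit 11476) (nat_lit 6) (nat_lit 151) (nat_lit 0) (nat_lit 176) (nat_lit 171) (nat_lit 163)))))) (PT.nd (nat_lit 51714) (PT.nd (nat_lit 234) (PT.nd (nat_lit 78) (PT.lf (nat_lit 10868) (nat_lit 6) (nat_lit 143) (nat_lit 0) (nat_lit 177) (nat_lit 171) (nat_lit 162)) (PT.nd (nat_lit 78) (PT.lf (nat_lit 10184) (nat_lit 6) (nat_lit 134) (nat_lit 0) (nat_lit 178) (nat_lit 171) (nat_lit 161)) (PT.lf (nat_lit 9424) (nat_lit 6) (nat_lit 124) (nat_lit 0) (nat_lit 179) (nat_lit 171) (nat_lit 160)))) (PT.nd (nat_lit 51324) (PT.nd (nat_lit 78) (PT.lf (nat_lit 8588) (nat_lit 6) (nat_lit 113) (nat_lit 0) (nat_lit 180) (nat_lit 171) (nat_lit 159)) (PT.lf (nat_lit 8132) (nat_lit 6) (nat_lit 107) (nat_lit 0) (nat_lit 181) (nat_lit 171) (nat_lit 158))) (PT.nd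 (nat_lit 78) (PT.lf (nat_lit 7752) (nat_lit 6) (nat_lit 102) (nat_lit 5) (nat_lit 157) (nat_lit 172) (nat_lit 181)) (PT.lf (nat_lit 8208) (nat_lit 6) (nat_lit 108) (nat_lit 5) (nat_lit 158) (nat_lit 172) (nat_lit 180))))) (PT.nd (nat_lit 312) (PT.nd (nat_lit 156) (PT.nd (nat_lit 78) (PT.lf (nat_lit 8664) (nat_lit 6) (nat_lit 114) (nat_lit 5) (nat_lit 159) (nat_lit 172) (nat_lit 179)) (PT.lf (nat_lit 9500) (nat_lit 6) (nat_lit 125) (nat_lit 5) (nat_lit 160) (nat_lit 172) (nat_lit 178))) (PT.nd (nat_lit 78) (PT.lf (nat_lit 10260) (nat_lit 6) (nat_lit 135) (nat_lit 5) (nat_lit 161) (nat_lit 172) (nat_lit 177)) (PT.lf (nat_lit 10944) (nat_lit 6) (nat_lit 144) (nat_lit 5) (nat_lit 162) (nat_lit 172) (nat_lit 176)))) (PT.nd (nat_lit 156) (PT.nd (nat_lit 78) (PT.lf (nat_lit 11552) (nat_lit 6) (nat_lit 152) (nat_lit 5) (nat_lit 163) (nat_lit 172) (nat_lit 175)) (PT.lf (nat_lit 12084) (nat_lit 6)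 (nat_lit 159) (nat_lit 5) (nat_lit 164) (nat_lit 172) (nat_lit 174))) (PT.nd (nat_lit 78) (PT.lf (nat_lit 12540) (nat_lit 6) (nat_lit 165) (nat_lit 5) (nat_lit 165) (nat_lit 172) (nat_lit 173)) (PT.lf (nat_lit 12920) (nat_lit 3) (nat_lit 170) (nat_lit 4) (nat_lit 166) (nat_lit 172) (nat_lit 172))))))))
noncomputable def pc7 : PT := (PT.nd (nat_lit 53430) (PT.nd (nat_lit 52260) (PT.nd (nat_lit 546) (PT.nd (nat_lit 234) (PT.nd (nat_lit 78) (PT.lf (nat_lit 13148) (nat_lit 6) (nat_lit 173) (nat_lit 4) (nat_lit 167) (nat_lit 172) (nat_lit 171)) (PT.nd (nat_lit 78) (PT.lf (nat_lit 13300) (nat_lit 6) (nat_lit 175) (nat_lit 4) (nat_lit 168) (nat_lit 172) (nat_lit 170)) (PT.lf (nat_lit 13224) (nat_lit 3) (nat_lit 174) (nat_lit 2) (nat_lit 169) (nat_lit 172) (nat_lit 169)))) (PT.nd (nat_lit 156) (PT.nd (nat_lit 78) (PT.lf (nat_lit 13300) (nat_lit 6) (nat_lit 175) (nat_lit 2) (nat_lit 170) (nat_lit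 172) (nat_lit 168)) (PT.lf (nat_lit 13148) (nat_lit 6) (nat_lit 173) (nat_lit 2) (nat_lit 171) (nat_lit 172) (nat_lit 167))) (PT.nd (nat_lit 78) (PT.lf (nat_lit 12920) (nat_lit 3) (nat_lit 170) (nat_lit 0) (nat_lit 172) (nat_lit 172) (nat_lit 166)) (PT.lf (nat_lit 12540) (nat_lit 6) (nat_lit 165) (nat_lit 0) (nat_lit 173) (nat_lit 172) (nat_lit 165))))) (PT.nd (nat_lit 312) (PT.nd (nat_lit 156) (PT.nd (nat_lit 78) (PT.lf (nat_lit 12084) (nat_lit 6) (nat_lit 159) (nat_lit 0) (nat_lit 174) (nat_lit 172) (nat_lit 164)) (PT.lf (nat_lit 11552) (nat_lit 6) (nat_lit 152) (nat_lit 0) (nat_lit 175) (nat_lit 172) (nat_lit 163))) (PT.nd (nat_lit 78) (PT.lf (nat_lit 10944) (nat_lit 6) (nat_lit 144) (nat_lit 0) (nat_lit 176) (nat_lit 172) (nat_lit 162)) (PT.lf (nat_lit 10260) (nat_lit 6) (nat_lit 135) (nat_lit 0) (nat_lit 177) (nat_lit 172) (nat_lit 161)))) (PT.nd (nat_lit 156) (PT.nd (nat_lit 78) (PT.lf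 (nat_lit 9500) (nat_lit 6) (nat_lit 125) (nat_lit 0) (nat_lit 178) (nat_lit 172) (nat_lit 160)) (PT.lf (nat_lit 8664) (nat_lit 6) (nat_lit 114) (nat_lit 0) (nat_lit 179) (nat_lit 172) (nat_lit 159))) (PT.nd (nat_lit 78) (PT.lf (nat_lit 8208) (nat_lit 6) (nat_lit 108) (nat_lit 0) (nat_lit 180) (nat_lit 172) (nat_lit 158)) (PT.lf (nat_lit 7752) (nat_lit 6) (nat_lit 102) (nat_lit 0) (nat_lit 181) (nat_lit 172) (nat_lit 157)))))) (PT.nd (nat_lit 546) (PT.nd (nat_lit 234) (PT.nd (nat_lit 78) (PT.lf (nat_lit 7372) (nat_lit 6) (nat_lit 97) (nat_lit 5) (nat_lit 156) (nat_lit 173) (nat_lit 181)) (PT.nd (nat_lit 78) (PT.lf (nat_lit 7828) (nat_lit 6) (nat_lit 103) (nat_lit 5) (nat_lit 157) (nat_lit 173) (nat_lit 180)) (PT.lf (nat_lit 8284) (nat_lit 6) (nat_lit 109) (nat_lit 5) (nat_lit 158) (nat_lit 173) (nat_lit 179)))) (PT.nd (nat_lit 156) (PT.nd (nat_lit 78) (PT.lf (nat_lit 8740) (nat_lit 6) (nat_lit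 115) (nat_lit 5) (nat_lit 159) (nat_lit 173) (nat_lit 178)) (PT.lf (nat_lit 9576) (nat_lit 6) (nat_lit 126) (nat_lit 5) (nat_lit 160) (nat_lit 173) (nat_lit 177))) (PT.nd (nat_lit 78) (PT.lf (nat_lit 10336) (nat_lit 6) (nat_lit 136) (nat_lit 5) (nat_lit 161) (nat_lit 173) (nat_lit 176)) (PT.lf (nat_lit 11020) (nat_lit 6) (nat_lit 145) (nat_lit 5) (nat_lit 162) (nat_lit 173) (nat_lit 175))))) (PT.nd (nat_lit 312) (PT.nd (nat_lit 156) (PT.nd (nat_lit 78) (PT.lf (nat_lit 11628) (nat_lit 6) (nat_lit 153) (nat_lit 5) (nat_lit 163) (nat_lit 173) (nat_lit 174)) (PT.lf (nat_lit 12160) (nat_lit 3) (nat_lit 160) (nat_lit 4) (nat_lit 164) (nat_lit 173) (nat_lit 173))) (PT.nd (nat_lit 78) (PT.lf (nat_lit 12540) (nat_lit 6) (nat_lit 165) (nat_lit 4) (nat_lit 165) (nat_lit 173) (nat_lit 172)) (PT.lf (nat_lit 12844) (nat_lit 6) (nat_lit 169) (nat_lit 4) (nat_lit 166) (nat_lit 173) (nat_lit 171)))) (PT.nd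 (nat_lit 156) (PT.nd (nat_lit 78) (PT.lf (nat_lit 13072) (nat_lit 6) (nat_lit 172) (nat_lit 4) (nat_lit 167) (nat_lit 173) (nat_lit 170)) (PT.lf (nat_lit 12996) (nat_lit 6) (nat_lit 171) (nat_lit 4) (nat_lit 168) (nat_lit 173) (nat_lit 169))) (PT.nd (nat_lit 78) (PT.lf (nat_lit 12996) (nat_lit 6) (nat_lit 171) (nat_lit 2) (nat_lit 169) (nat_lit 173) (nat_lit 168)) (PT.lf (nat_lit 13072) (nat_lit 6) (nat_lit 172) (nat_lit 2) (nat_lit 170) (nat_lit 173) (nat_lit 167))))))) (PT.nd (nat_lit 52182) (PT.nd (nat_lit 546) (PT.nd (nat_lit 234) (PT.nd (nat_lit 78) (PT.lf (nat_lit 12844) (nat_lit 6) (nat_lit 169) (nat_lit 2) (nat_lit 171) (nat_lit 173) (nat_lit 166)) (PT.nd (nat_lit 78) (PT.lf (nat_lit 12540) (nat_lit 6) (nat_lit 165) (nat_lit 2) (nat_lit 172) (nat_lit 173) (nat_lit 165)) (PT.lf (nat_lit 12160) (nat_lit 3) (nat_lit 160) (nat_lit 0) (nat_lit 173) (nat_lit 173) (nat_lit 164)))) (PT.nd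 (nat_lit 156) (PT.nd (nat_lit 78) (PT.lf (nat_lit 11628) (nat_lit 6) (nat_lit 153) (nat_lit 0) (nat_lit 174) (nat_lit 173) (nat_lit 163)) (PT.lf (nat_lit 11020) (nat_lit 6) (nat_lit 145) (nat_lit 0) (nat_lit 175) (nat_lit 173) (nat_lit 162))) (PT.nd (nat_lit 78) (PT.lf (nat_lit 10336) (nat_lit 6) (nat_lit 136) (nat_lit 0) (nat_lit 176) (nat_lit 173) (nat_lit 161)) (PT.lf (nat_lit 9576) (nat_lit 6) (nat_lit 126) (nat_lit 0) (nat_lit 177) (nat_lit 173) (nat_lit 160))))) (PT.nd (nat_lit 51324) (PT.nd (nat_lit 156) (PT.nd (nat_lit 78) (PT.lf (nat_lit 8740) (nat_lit 6) (nat_lit 115) (nat_lit 0) (nat_lit 178) (nat_lit 173) (nat_lit 159)) (PT.lf (nat_lit 8284) (nat_lit 6) (nat_lit 109) (nat_lit 0) (nat_lit 179) (nat_lit 173) (nat_lit 158))) (PT.nd (nat_lit 78) (PT.lf (nat_lit 7828) (nat_lit 6) (nat_lit 103) (nat_lit 0) (nat_lit 180) (nat_lit 173) (nat_lit 157)) (PT.lf (nat_lit 7372) (nat_lit 6)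 (nat_lit 97) (nat_lit 0) (nat_lit 181) (nat_lit 173) (nat_lit 156)))) (PT.nd (nat_lit 156) (PT.nd (nat_lit 78) (PT.lf (nat_lit 7068) (nat_lit 6) (nat_lit 93) (nat_lit 5) (nat_lit 155) (nat_lit 174) (nat_lit 181)) (PT.lf (nat_lit 7448) (nat_lit 6) (nat_lit 98) (nat_lit 5) (nat_lit 156) (nat_lit 174) (nat_lit 180))) (PT.nd (nat_lit 78) (PT.lf (nat_lit 7904) (nat_lit 6) (nat_lit 104) (nat_lit 5) (nat_lit 157) (nat_lit 174) (nat_lit 179)) (PT.lf (nat_lit 8360) (nat_lit 6) (nat_lit 110) (nat_lit 5) (nat_lit 158) (nat_lit 174) (nat_lit 178)))))) (PT.nd (nat_lit 546) (PT.nd (nat_lit 234) (PT.nd (nat_lit 78) (PT.lf (nat_lit 8816) (nat_lit 6) (nat_lit 116) (nat_lit 5) (nat_lit 159) (nat_lit 174) (nat_lit 177)) (PT.nd (nat_lit 78) (PT.lf (nat_lit 9652) (nat_lit 6) (nat_lit 127) (nat_lit 5) (nat_lit 160) (nat_lit 174) (nat_lit 176)) (PT.lf (nat_lit 10412) (nat_lit 6) (nat_lit 137) (nat_lit 5) (nat_lit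 161) (nat_lit 174) (nat_lit 175)))) (PT.nd (nat_lit 156) (PT.nd (nat_lit 78) (PT.lf (nat_lit 11096) (nat_lit 3) (nat_lit 146) (nat_lit 4) (nat_lit 162) (nat_lit 174) (nat_lit 174)) (PT.lf (nat_lit 11628) (nat_lit 6) (nat_lit 153) (nat_lit 4) (nat_lit 163) (nat_lit 174) (nat_lit 173))) (PT.nd (nat_lit 78) (PT.lf (nat_lit 12084) (nat_lit 6) (nat_lit 159) (nat_lit 4) (nat_lit 164) (nat_lit 174) (nat_lit 172)) (PT.lf (nat_lit 12464) (nat_lit 6) (nat_lit 164) (nat_lit 4) (nat_lit 165) (nat_lit 174) (nat_lit 171))))) (PT.nd (nat_lit 312) (PT.nd (nat_lit 156) (PT.nd (nat_lit 78) (PT.lf (nat_lit 12768) (nat_lit 6) (nat_lit 168) (nat_lit 4) (nat_lit 166) (nat_lit 174) (nat_lit 170)) (PT.lf (nat_lit 12692) (nat_lit 6) (nat_lit 167) (nat_lit 4) (nat_lit 167) (nat_lit 174) (nat_lit 169))) (PT.nd (nat_lit 78) (PT.lf (nat_lit 12616) (nat_lit 3) (nat_lit 166) (nat_lit 2) (nat_lit 168) (nat_lit 174) (nat_lit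 168)) (PT.lf (nat_lit 12692) (nat_lit 6) (nat_lit 167) (nat_lit 2) (nat_lit 169) (nat_lit 174) (nat_lit 167)))) (PT.nd (nat_lit 156) (PT.nd (nat_lit 78) (PT.lf (nat_lit 12768) (nat_lit 6) (nat_lit 168) (nat_lit 2) (nat_lit 170) (nat_lit 174) (nat_lit 166)) (PT.lf (nat_lit 12464) (nat_lit 6) (nat_lit 164) (nat_lit 2) (nat_lit 171) (nat_lit 174) (nat_lit 165))) (PT.nd (nat_lit 78) (PT.lf (nat_lit 12084) (nat_lit 6) (nat_lit 159) (nat_lit 2) (nat_lit 172) (nat_lit 174) (nat_lit 164)) (PT.lf (nat_lit 11628) (nat_lit 6) (nat_lit 153) (nat_lit 2) (nat_lit 173) (nat_lit 174) (nat_lit 163))))))))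
noncomputable def pc8 : PT := (PT.nd (nat_lit 53196) (PT.nd (nat_lit 52026) (PT.nd (nat_lit 546) (PT.nd (nat_lit 234) (PT.nd (nat_lit 78) (PT.lf (nat_lit 11096) (nat_lit 3) (nat_lit 146) (nat_lit 0) (nat_lit 174) (nat_lit 174) (nat_lit 162)) (PT.nd (nat_lit 78) (PT.lf (nat_lit 10412) (nat_lit 6) (nat_lit 137) (nat_lit 0) (nat_lit 175) (nat_lit 174) (nat_lit 161)) (PT.lf (nat_lit 9652) (nat_lit 6) (nat_lit 127) (nat_lit 0) (nat_lit 176) (nat_lit 174) (nat_lit 160)))) (PT.nd (nat_lit 156) (PT.nd (nat_lit 78) (PT.lf (nat_lit 8816) (nat_lit 6) (nat_lit 116) (nat_lit 0) (nat_lit 177) (nat_lit 174) (nat_lit 159)) (PT.lf (nat_lit 8360) (nat_lit 6) (nat_lit 110) (nat_lit 0) (nat_lit 178) (nat_lit 174) (nat_lit 158))) (PT.nd (nat_lit 78) (PT.lf (nat_lit 7904) (nat_lit 6) (nat_lit 104) (nat_lit 0) (nat_lit 179) (nat_lit 174) (nat_lit 157)) (PT.lf (nat_lit 7448) (nat_lit 6) (nat_lit 98) (nat_lit 0)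 (nat_lit 180) (nat_lit 174) (nat_lit 156))))) (PT.nd (nat_lit 51168) (PT.nd (nat_lit 51012) (PT.nd (nat_lit 50934) (PT.lf (nat_lit 7068) (nat_lit 6) (nat_lit 93) (nat_lit 0) (nat_lit 181) (nat_lit 174) (nat_lit 155)) (PT.lf (nat_lit 6460) (nat_lit 6) (nat_lit 85) (nat_lit 5) (nat_lit 153) (nat_lit 175) (nat_lit 182))) (PT.nd (nat_lit 78) (PT.lf (nat_lit 6764) (nat_lit 6) (nat_lit 89) (nat_lit 5) (nat_lit 154) (nat_lit 175) (nat_lit 181)) (PT.lf (nat_lit 7144) (nat_lit 6) (nat_lit 94) (nat_lit 5) (nat_lit 155) (nat_lit 175) (nat_lit 180)))) (PT.nd (nat_lit 156) (PT.nd (nat_lit 78) (PT.lf (nat_lit 7524) (nat_lit 6) (nat_lit 99) (nat_lit 5) (nat_lit 156) (nat_lit 175) (nat_lit 179)) (PT.lf (nat_lit 7980) (nat_lit 6) (nat_lit 105) (nat_lit 5) (nat_lit 157) (nat_lit 175) (nat_lit 178))) (PT.nd (nat_lit 78) (PT.lf (nat_lit 8436) (nat_lit 6) (nat_lit 111) (nat_lit 5) (nat_lit 158) (nat_lit 175)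 (nat_lit 177)) (PT.lf (nat_lit 8892) (nat_lit 6) (nat_lit 117) (nat_lit 5) (nat_lit 159) (nat_lit 175) (nat_lit 176)))))) (PT.nd (nat_lit 546) (PT.nd (nat_lit 234) (PT.nd (nat_lit 78) (PT.lf (nat_lit 9728) (nat_lit 3) (nat_lit 128) (nat_lit 4) (nat_lit 160) (nat_lit 175) (nat_lit 175)) (PT.nd (nat_lit 78) (PT.lf (nat_lit 10412) (nat_lit 6) (nat_lit 137) (nat_lit 4) (nat_lit 161) (nat_lit 175) (nat_lit 174)) (PT.lf (nat_lit 11020) (nat_lit 6) (nat_lit 145) (nat_lit 4) (nat_lit 162) (nat_lit 175) (nat_lit 173)))) (PT.nd (nat_lit 156) (PT.nd (nat_lit 78) (PT.lf (nat_lit 11552) (nat_lit 6) (nat_lit 152) (nat_lit 4) (nat_lit 163) (nat_lit 175) (nat_lit 172)) (PT.lf (nat_lit 12008) (nat_lit 6) (nat_lit 158) (nat_lit 4) (nat_lit 164) (nat_lit 175) (nat_lit 171))) (PT.nd (nat_lit 78) (PT.lf (nat_lit 12388) (nat_lit 6) (nat_lit 163) (nat_lit 4) (nat_lit 165) (nat_lit 175) (nat_lit 170)) (PT.lf (nat_lit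 12312) (nat_lit 6) (nat_lit 162) (nat_lit 4) (nat_lit 166) (nat_lit 175) (nat_lit 169))))) (PT.nd (nat_lit 312) (PT.nd (nat_lit 156) (PT.nd (nat_lit 78) (PT.lf (nat_lit 12236) (nat_lit 6) (nat_lit 161) (nat_lit 4) (nat_lit 167) (nat_lit 175) (nat_lit 168)) (PT.lf (nat_lit 12236) (nat_lit 6) (nat_lit 161) (nat_lit 2) (nat_lit 168) (nat_lit 175) (nat_lit 167))) (PT.nd (nat_lit 78) (PT.lf (nat_lit 12312) (nat_lit 6) (nat_lit 162) (nat_lit 2) (nat_lit 169) (nat_lit 175) (nat_lit 166)) (PT.lf (nat_lit 12388) (nat_lit 6) (nat_lit 163) (nat_lit 2) (nat_lit 170) (nat_lit 175) (nat_lit 165)))) (PT.nd (nat_lit 156) (PT.nd (nat_lit 78) (PT.lf (nat_lit 12008) (nat_lit 6) (nat_lit 158) (nat_lit 2) (nat_lit 171) (nat_lit 175) (nat_lit 164)) (PT.lf (nat_lit 11552) (nat_lit 6) (nat_lit 152) (nat_lit 2) (nat_lit 172) (nat_lit 175) (nat_lit 163))) (PT.nd (nat_lit 78) (PT.lf (nat_lit 11020) (nat_lit 6) (nat_lit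 145) (nat_lit 2) (nat_lit 173) (nat_lit 175) (nat_lit 162)) (PT.lf (nat_lit 10412) (nat_lit 6) (nat_lit 137) (nat_lit 2) (nat_lit 174) (nat_lit 175) (nat_lit 161))))))) (PT.nd (nat_lit 51870) (PT.nd (nat_lit 546) (PT.nd (nat_lit 234) (PT.nd (nat_lit 78) (PT.lf (nat_lit 9728) (nat_lit 3) (nat_lit 128) (nat_lit 0) (nat_lit 175) (nat_lit 175) (nat_lit 160)) (PT.nd (nat_lit 78) (PT.lf (nat_lit 8892) (nat_lit 6) (nat_lit 117) (nat_lit 0) (nat_lit 176) (nat_lit 175) (nat_lit 159)) (PT.lf (nat_lit 8436) (nat_lit 6) (nat_lit 111) (nat_lit 0) (nat_lit 177) (nat_lit 175) (nat_lit 158)))) (PT.nd (nat_lit 156) (PT.nd (nat_lit 78) (PT.lf (nat_lit 7980) (nat_lit 6) (nat_lit 105) (nat_lit 0) (nat_lit 178) (nat_lit 175) (nat_lit 157)) (PT.lf (nat_lit 7524) (nat_lit 6) (nat_lit 99) (nat_lit 0) (nat_lit 179) (nat_lit 175) (nat_lit 156))) (PT.nd (nat_lit 78) (PT.lf (nat_lit 7144) (nat_lit 6) (nat_lit 94) (nat_lit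 0) (nat_lit 180) (nat_lit 175) (nat_lit 155)) (PT.lf (nat_lit 6764) (nat_lit 6) (nat_lit 89) (nat_lit 0) (nat_lit 181) (nat_lit 175) (nat_lit 154))))) (PT.nd (nat_lit 51012) (PT.nd (nat_lit 50856) (PT.nd (nat_lit 50778) (PT.lf (nat_lit 6460) (nat_lit 6) (nat_lit 85) (nat_lit 0) (nat_lit 182) (nat_lit 175) (nat_lit 153)) (PT.lf (nat_lit 6156) (nat_lit 6) (nat_lit 81) (nat_lit 5) (nat_lit 152) (nat_lit 176) (nat_lit 182))) (PT.nd (nat_lit 78) (PT.lf (nat_lit 6536) (nat_lit 6) (nat_lit 86) (nat_lit 5) (nat_lit 153) (nat_lit 176) (nat_lit 181)) (PT.lf (nat_lit 6840) (nat_lit 6) (nat_lit 90) (nat_lit 5) (nat_lit 154) (nat_lit 176) (nat_lit 180)))) (PT.nd (nat_lit 156) (PT.nd (nat_lit 78) (PT.lf (nat_lit 7220) (nat_lit 6) (nat_lit 95) (nat_lit 5) (nat_lit 155) (nat_lit 176) (nat_lit 179)) (PT.lf (nat_lit 7600) (nat_lit 6) (nat_lit 100) (nat_lit 5) (nat_lit 156) (nat_lit 176) (nat_lit 178))) (PT.nd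 (nat_lit 78) (PT.lf (nat_lit 8056) (nat_lit 6) (nat_lit 106) (nat_lit 5) (nat_lit 157) (nat_lit 176) (nat_lit 177)) (PT.lf (nat_lit 8512) (nat_lit 3) (nat_lit 112) (nat_lit 4) (nat_lit 158) (nat_lit 176) (nat_lit 176)))))) (PT.nd (nat_lit 546) (PT.nd (nat_lit 234) (PT.nd (nat_lit 78) (PT.lf (nat_lit 8892) (nat_lit 6) (nat_lit 117) (nat_lit 4) (nat_lit 159) (nat_lit 176) (nat_lit 175)) (PT.nd (nat_lit 78) (PT.lf (nat_lit 9652) (nat_lit 6) (nat_lit 127) (nat_lit 4) (nat_lit 160) (nat_lit 176) (nat_lit 174)) (PT.lf (nat_lit 10336) (nat_lit 6) (nat_lit 136) (nat_lit 4) (nat_lit 161) (nat_lit 176) (nat_lit 173)))) (PT.nd (nat_lit 156) (PT.nd (nat_lit 78) (PT.lf (nat_lit 10944) (nat_lit 6) (nat_lit 144) (nat_lit 4) (nat_lit 162) (nat_lit 176) (nat_lit 172)) (PT.lf (nat_lit 11476) (nat_lit 6) (nat_lit 151) (nat_lit 4) (nat_lit 163) (nat_lit 176) (nat_lit 171))) (PT.nd (nat_lit 78) (PT.lf (nat_lit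 11932) (nat_lit 6) (nat_lit 157) (nat_lit 4) (nat_lit 164) (nat_lit 176) (nat_lit 170)) (PT.lf (nat_lit 11856) (nat_lit 6) (nat_lit 156) (nat_lit 4) (nat_lit 165) (nat_lit 176) (nat_lit 169))))) (PT.nd (nat_lit 312) (PT.nd (nat_lit 156) (PT.nd (nat_lit 78) (PT.lf (nat_lit 11780) (nat_lit 6) (nat_lit 155) (nat_lit 4) (nat_lit 166) (nat_lit 176) (nat_lit 168)) (PT.lf (nat_lit 11704) (nat_lit 3) (nat_lit 154) (nat_lit 2) (nat_lit 167) (nat_lit 176) (nat_lit 167))) (PT.nd (nat_lit 78) (PT.lf (nat_lit 11780) (nat_lit 6) (nat_lit 155) (nat_lit 2) (nat_lit 168) (nat_lit 176) (nat_lit 166)) (PT.lf (nat_lit 11856) (nat_lit 6) (nat_lit 156) (nat_lit 2) (nat_lit 169) (nat_lit 176) (nat_lit 165)))) (PT.nd (nat_lit 156) (PT.nd (nat_lit 78) (PT.lf (nat_lit 11932) (nat_lit 6) (nat_lit 157) (nat_lit 2) (nat_lit 170) (nat_lit 176) (nat_lit 164)) (PT.lf (nat_lit 11476) (nat_lit 6) (nat_lit 151) (nat_lit 2)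 (nat_lit 171) (nat_lit 176) (nat_lit 163))) (PT.nd (nat_lit 78) (PT.lf (nat_lit 10944) (nat_lit 6) (nat_lit 144) (nat_lit 2) (nat_lit 172) (nat_lit 176) (nat_lit 162)) (PT.lf (nat_lit 10336) (nat_lit 6) (nat_lit 136) (nat_lit 2) (nat_lit 173) (nat_lit 176) (nat_lit 161))))))))
noncomputable def pc9 : PT := (PT.nd (nat_lit 52884) (PT.nd (nat_lit 51714) (PT.nd (nat_lit 546) (PT.nd (nat_lit 234) (PT.nd (nat_lit 78) (PT.lf (nat_lit 9652) (nat_lit 6) (nat_lit 127) (nat_lit 2) (nat_lit 174) (nat_lit 176) (nat_lit 160)) (PT.nd (nat_lit 78) (PT.lf (nat_lit 8892) (nat_lit 6) (nat_lit 117) (nat_lit 2) (nat_lit 175) (nat_lit 176) (nat_lit 159)) (PT.lf (nat_lit 8512) (nat_lit 3) (nat_lit 112) (nat_lit 0) (nat_lit 176) (nat_lit 176) (nat_lit 158)))) (PT.nd (nat_lit 156) (PT.nd (nat_lit 78) (PT.lf (nat_lit 8056) (nat_lit 6) (nat_lit 106) (nat_lit 0) (nat_lit 177) (nat_lit 176) (nat_lit 157)) (PT.lf (nat_lit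 7600) (nat_lit 6) (nat_lit 100) (nat_lit 0) (nat_lit 178) (nat_lit 176) (nat_lit 156))) (PT.nd (nat_lit 78) (PT.lf (nat_lit 7220) (nat_lit 6) (nat_lit 95) (nat_lit 0) (nat_lit 179) (nat_lit 176) (nat_lit 155)) (PT.lf (nat_lit 6840) (nat_lit 6) (nat_lit 90) (nat_lit 0) (nat_lit 180) (nat_lit 176) (nat_lit 154))))) (PT.nd (nat_lit 50856) (PT.nd (nat_lit 50700) (PT.nd (nat_lit 78) (PT.lf (nat_lit 6536) (nat_lit 6) (nat_lit 86) (nat_lit 0) (nat_lit 181) (nat_lit 176) (nat_lit 153)) (PT.lf (nat_lit 6156) (nat_lit 6) (nat_lit 81) (nat_lit 0) (nat_lit 182) (nat_lit 176) (nat_lit 152))) (PT.nd (nat_lit 78) (PT.lf (nat_lit 5624) (nat_lit 6) (nat_lit 74) (nat_lit 5) (nat_lit 150) (nat_lit 177) (nat_lit 183)) (PT.lf (nat_lit 5928) (nat_lit 6) (nat_lit 78) (nat_lit 5) (nat_lit 151) (nat_lit 177) (nat_lit 182)))) (PT.nd (nat_lit 156) (PT.nd (nat_lit 78) (PT.lf (nat_lit 6232) (nat_lit 6) (nat_lit 82) (nat_lit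 5) (nat_lit 152) (nat_lit 177) (nat_lit 181)) (PT.lf (nat_lit 6612) (nat_lit 6) (nat_lit 87) (nat_lit 5) (nat_lit 153) (nat_lit 177) (nat_lit 180))) (PT.nd (nat_lit 78) (PT.lf (nat_lit 6916) (nat_lit 6) (nat_lit 91) (nat_lit 5) (nat_lit 154) (nat_lit 177) (nat_lit 179)) (PT.lf (nat_lit 7296) (nat_lit 6) (nat_lit 96) (nat_lit 5) (nat_lit 155) (nat_lit 177) (nat_lit 178)))))) (PT.nd (nat_lit 546) (PT.nd (nat_lit 234) (PT.nd (nat_lit 78) (PT.lf (nat_lit 7676) (nat_lit 3) (nat_lit 101) (nat_lit 4) (nat_lit 156) (nat_lit 177) (nat_lit 177)) (PT.nd (nat_lit 78) (PT.lf (nat_lit 8056) (nat_lit 6) (nat_lit 106) (nat_lit 4) (nat_lit 157) (nat_lit 177) (nat_lit 176)) (PT.lf (nat_lit 8436) (nat_lit 6) (nat_lit 111) (nat_lit 4) (nat_lit 158) (nat_lit 177) (nat_lit 175)))) (PT.nd (nat_lit 156) (PT.nd (nat_lit 78) (PT.lf (nat_lit 8816) (nat_lit 6) (nat_lit 116) (nat_lit 4) (nat_lit 159) (nat_lit 177) (nat_lit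 174)) (PT.lf (nat_lit 9576) (nat_lit 6) (nat_lit 126) (nat_lit 4) (nat_lit 160) (nat_lit 177) (nat_lit 173))) (PT.nd (nat_lit 78) (PT.lf (nat_lit 10260) (nat_lit 6) (nat_lit 135) (nat_lit 4) (nat_lit 161) (nat_lit 177) (nat_lit 172)) (PT.lf (nat_lit 10868) (nat_lit 6) (nat_lit 143) (nat_lit 4) (nat_lit 162) (nat_lit 177) (nat_lit 171))))) (PT.nd (nat_lit 312) (PT.nd (nat_lit 156) (PT.nd (nat_lit 78) (PT.lf (nat_lit 11400) (nat_lit 6) (nat_lit 150) (nat_lit 4) (nat_lit 163) (nat_lit 177) (nat_lit 170)) (PT.lf (nat_lit 11324) (nat_lit 6) (nat_lit 149) (nat_lit 4) (nat_lit 164) (nat_lit 177) (nat_lit 169))) (PT.nd (nat_lit 78) (PT.lf (nat_lit 11248) (nat_lit 6) (nat_lit 148) (nat_lit 4) (nat_lit 165) (nat_lit 177) (nat_lit 168)) (PT.lf (nat_lit 11172) (nat_lit 6) (nat_lit 147) (nat_lit 4) (nat_lit 166) (nat_lit 177) (nat_lit 167)))) (PT.nd (nat_lit 156) (PT.nd (nat_lit 78) (PT.lf (nat_lit 11172)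 (nat_lit 6) (nat_lit 147) (nat_lit 2) (nat_lit 167) (nat_lit 177) (nat_lit 166)) (PT.lf (nat_lit 11248) (nat_lit 6) (nat_lit 148) (nat_lit 2) (nat_lit 168) (nat_lit 177) (nat_lit 165))) (PT.nd (nat_lit 78) (PT.lf (nat_lit 11324) (nat_lit 6) (nat_lit 149) (nat_lit 2) (nat_lit 169) (nat_lit 177) (nat_lit 164)) (PT.lf (nat_lit 11400) (nat_lit 6) (nat_lit 150) (nat_lit 2) (nat_lit 170) (nat_lit 177) (nat_lit 163))))))) (PT.nd (nat_lit 51558) (PT.nd (nat_lit 546) (PT.nd (nat_lit 234) (PT.nd (nat_lit 78) (PT.lf (nat_lit 10868) (nat_lit 6) (nat_lit 143) (nat_lit 2) (nat_lit 171) (nat_lit 177) (nat_lit 162)) (PT.nd (nat_lit 78) (PT.lf (nat_lit 10260) (nat_lit 6) (nat_lit 135) (nat_lit 2) (nat_lit 172) (nat_lit 177) (nat_lit 161)) (PT.lf (nat_lit 9576) (nat_lit 6) (nat_lit 126) (nat_lit 2) (nat_lit 173) (nat_lit 177) (nat_lit 160)))) (PT.nd (nat_lit 156) (PT.nd (nat_lit 78) (PT.lf (nat_lit 8816) (nat_lit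 6) (nat_lit 116) (nat_lit 2) (nat_lit 174) (nat_lit 177) (nat_lit 159)) (PT.lf (nat_lit 8436) (nat_lit 6) (nat_lit 111) (nat_lit 2) (nat_lit 175) (nat_lit 177) (nat_lit 158))) (PT.nd (nat_lit 78) (PT.lf (nat_lit 8056) (nat_lit 6) (nat_lit 106) (nat_lit 2) (nat_lit 176) (nat_lit 177) (nat_lit 157)) (PT.lf (nat_lit 7676) (nat_lit 3) (nat_lit 101) (nat_lit 0) (nat_lit 177) (nat_lit 177) (nat_lit 156))))) (PT.nd (nat_lit 312) (PT.nd (nat_lit 156) (PT.nd (nat_lit 78) (PT.lf (nat_lit 7296) (nat_lit 6) (nat_lit 96) (nat_lit 0) (nat_lit 178) (nat_lit 177) (nat_lit 155)) (PT.lf (nat_lit 6916) (nat_lit 6) (nat_lit 91) (nat_lit 0) (nat_lit 179) (nat_lit 177) (nat_lit 154))) (PT.nd (nat_lit 78) (PT.lf (nat_lit 6612) (nat_lit 6) (nat_lit 87) (nat_lit 0) (nat_lit 180) (nat_lit 177) (nat_lit 153)) (PT.lf (nat_lit 6232) (nat_lit 6) (nat_lit 82) (nat_lit 0) (nat_lit 181) (nat_lit 177) (nat_lit 152)))) (PT.nd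 (nat_lit 50544) (PT.nd (nat_lit 78) (PT.lf (nat_lit 5928) (nat_lit 6) (nat_lit 78) (nat_lit 0) (nat_lit 182) (nat_lit 177) (nat_lit 151)) (PT.lf (nat_lit 5624) (nat_lit 6) (nat_lit 74) (nat_lit 0) (nat_lit 183) (nat_lit 177) (nat_lit 150))) (PT.nd (nat_lit 78) (PT.lf (nat_lit 5396) (nat_lit 6) (nat_lit 71) (nat_lit 5) (nat_lit 149) (nat_lit 178) (nat_lit 183)) (PT.lf (nat_lit 5700) (nat_lit 6) (nat_lit 75) (nat_lit 5) (nat_lit 150) (nat_lit 178) (nat_lit 182)))))) (PT.nd (nat_lit 546) (PT.nd (nat_lit 234) (PT.nd (nat_lit 78) (PT.lf (nat_lit 6004) (nat_lit 6) (nat_lit 79) (nat_lit 5) (nat_lit 151) (nat_lit 178) (nat_lit 181)) (PT.nd (nat_lit 78) (PT.lf (nat_lit 6308) (nat_lit 6) (nat_lit 83) (nat_lit 5) (nat_lit 152) (nat_lit 178) (nat_lit 180)) (PT.lf (nat_lit 6688) (nat_lit 6) (nat_lit 88) (nat_lit 5) (nat_lit 153) (nat_lit 178) (nat_lit 179)))) (PT.nd (nat_lit 156) (PT.nd (nat_lit 78) (PT.lf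 (nat_lit 6992) (nat_lit 3) (nat_lit 92) (nat_lit 4) (nat_lit 154) (nat_lit 178) (nat_lit 178)) (PT.lf (nat_lit 7296) (nat_lit 6) (nat_lit 96) (nat_lit 4) (nat_lit 155) (nat_lit 178) (nat_lit 177))) (PT.nd (nat_lit 78) (PT.lf (nat_lit 7600) (nat_lit 6) (nat_lit 100) (nat_lit 4) (nat_lit 156) (nat_lit 178) (nat_lit 176)) (PT.lf (nat_lit 7980) (nat_lit 6) (nat_lit 105) (nat_lit 4) (nat_lit 157) (nat_lit 178) (nat_lit 175))))) (PT.nd (nat_lit 312) (PT.nd (nat_lit 156) (PT.nd (nat_lit 78) (PT.lf (nat_lit 8360) (nat_lit 6) (nat_lit 110) (nat_lit 4) (nat_lit 158) (nat_lit 178) (nat_lit 174)) (PT.lf (nat_lit 8740) (nat_lit 6) (nat_lit 115) (nat_lit 4) (nat_lit 159) (nat_lit 178) (nat_lit 173))) (PT.nd (nat_lit 78) (PT.lf (nat_lit 9500) (nat_lit 6) (nat_lit 125) (nat_lit 4) (nat_lit 160) (nat_lit 178) (nat_lit 172)) (PT.lf (nat_lit 10184) (nat_lit 6) (nat_lit 134) (nat_lit 4) (nat_lit 161) (nat_lit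 178) (nat_lit 171)))) (PT.nd (nat_lit 156) (PT.nd (nat_lit 78) (PT.lf (nat_lit 10792) (nat_lit 6) (nat_lit 142) (nat_lit 4) (nat_lit 162) (nat_lit 178) (nat_lit 170)) (PT.lf (nat_lit 10716) (nat_lit 6) (nat_lit 141) (nat_lit 4) (nat_lit 163) (nat_lit 178) (nat_lit 169))) (PT.nd (nat_lit 78) (PT.lf (nat_lit 10640) (nat_lit 6) (nat_lit 140) (nat_lit 4) (nat_lit 164) (nat_lit 178) (nat_lit 168)) (PT.lf (nat_lit 10564) (nat_lit 6) (nat_lit 139) (nat_lit 4) (nat_lit 165) (nat_lit 178) (nat_lit 167))))))))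
noncomputable def pc10 : PT := (PT.nd (nat_lit 52572) (PT.nd (nat_lit 1170) (PT.nd (nat_lit 546) (PT.nd (nat_lit 234) (PT.nd (nat_lit 78) (PT.lf (nat_lit 10488) (nat_lit 3) (nat_lit 138) (nat_lit 2) (nat_lit 166) (nat_lit 178) (nat_lit 166)) (PT.nd (nat_lit 78) (PT.lf (nat_lit 10564) (nat_lit 6) (nat_lit 139) (nat_lit 2) (nat_lit 167) (nat_lit 178) (nat_lit 165)) (PT.lf (nat_lit 10640) (nat_lit 6) (nat_lit 140) (nat_lit 2) (nat_lit 168) (nat_lit 178) (nat_lit 164)))) (PT.nd (nat_lit 156) (PT.nd (nat_lit 78) (PT.lf (nat_lit 10716) (nat_lit 6) (nat_lit 141) (nat_lit 2) (nat_lit 169) (nat_lit 178) (nat_lit 163)) (PT.lf (nat_lit 10792) (nat_lit 6) (nat_lit 142) (nat_lit 2) (nat_lit 170) (nat_lit 178) (nat_lit 162))) (PT.nd (nat_lit 78) (PT.lf (nat_lit 10184) (nat_lit 6) (nat_lit 134) (nat_lit 2) (nat_lit 171) (nat_lit 178) (nat_lit 161)) (PT.lf (nat_lit 9500) (nat_lit 6) (nat_lit 125) (nat_lit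 2) (nat_lit 172) (nat_lit 178) (nat_lit 160))))) (PT.nd (nat_lit 312) (PT.nd (nat_lit 156) (PT.nd (nat_lit 78) (PT.lf (nat_lit 8740) (nat_lit 6) (nat_lit 115) (nat_lit 2) (nat_lit 173) (nat_lit 178) (nat_lit 159)) (PT.lf (nat_lit 8360) (nat_lit 6) (nat_lit 110) (nat_lit 2) (nat_lit 174) (nat_lit 178) (nat_lit 158))) (PT.nd (nat_lit 78) (PT.lf (nat_lit 7980) (nat_lit 6) (nat_lit 105) (nat_lit 2) (nat_lit 175) (nat_lit 178) (nat_lit 157)) (PT.lf (nat_lit 7600) (nat_lit 6) (nat_lit 100) (nat_lit 2) (nat_lit 176) (nat_lit 178) (nat_lit 156)))) (PT.nd (nat_lit 156) (PT.nd (nat_lit 78) (PT.lf (nat_lit 7296) (nat_lit 6) (nat_lit 96) (nat_lit 2) (nat_lit 177) (nat_lit 178) (nat_lit 155)) (PT.lf (nat_lit 6992) (nat_lit 3) (nat_lit 92) (nat_lit 0) (nat_lit 178) (nat_lit 178) (nat_lit 154))) (PT.nd (nat_lit 78) (PT.lf (nat_lit 6688) (nat_lit 6) (nat_lit 88) (nat_lit 0) (nat_lit 179) (nat_lit 178) (nat_lit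 153)) (PT.lf (nat_lit 6308) (nat_lit 6) (nat_lit 83) (nat_lit 0) (nat_lit 180) (nat_lit 178) (nat_lit 152)))))) (PT.nd (nat_lit 50778) (PT.nd (nat_lit 50466) (PT.nd (nat_lit 78) (PT.lf (nat_lit 6004) (nat_lit 6) (nat_lit 79) (nat_lit 0) (nat_lit 181) (nat_lit 178) (nat_lit 151)) (PT.nd (nat_lit 78) (PT.lf (nat_lit 5700) (nat_lit 6) (nat_lit 75) (nat_lit 0) (nat_lit 182) (nat_lit 178) (nat_lit 150)) (PT.lf (nat_lit 5396) (nat_lit 6) (nat_lit 71) (nat_lit 0) (nat_lit 183) (nat_lit 178) (nat_lit 149)))) (PT.nd (nat_lit 156) (PT.nd (nat_lit 78) (PT.lf (nat_lit 4940) (nat_lit 6) (nat_lit 65) (nat_lit 5) (nat_lit 147) (nat_lit 179) (nat_lit 184)) (PT.lf (nat_lit 5168) (nat_lit 6) (nat_lit 68) (nat_lit 5) (nat_lit 148) (nat_lit 179) (nat_lit 183))) (PT.nd (nat_lit 78) (PT.lf (nat_lit 5472) (nat_lit 6) (nat_lit 72) (nat_lit 5) (nat_lit 149) (nat_lit 179) (nat_lit 182)) (PT.lf (nat_lit 5776) (nat_lit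 6) (nat_lit 76) (nat_lit 5) (nat_lit 150) (nat_lit 179) (nat_lit 181))))) (PT.nd (nat_lit 312) (PT.nd (nat_lit 156) (PT.nd (nat_lit 78) (PT.lf (nat_lit 6080) (nat_lit 6) (nat_lit 80) (nat_lit 5) (nat_lit 151) (nat_lit 179) (nat_lit 180)) (PT.lf (nat_lit 6384) (nat_lit 3) (nat_lit 84) (nat_lit 4) (nat_lit 152) (nat_lit 179) (nat_lit 179))) (PT.nd (nat_lit 78) (PT.lf (nat_lit 6688) (nat_lit 6) (nat_lit 88) (nat_lit 4) (nat_lit 153) (nat_lit 179) (nat_lit 178)) (PT.lf (nat_lit 6916) (nat_lit 6) (nat_lit 91) (nat_lit 4) (nat_lit 154) (nat_lit 179) (nat_lit 177)))) (PT.nd (nat_lit 156) (PT.nd (nat_lit 78) (PT.lf (nat_lit 7220) (nat_lit 6) (nat_lit 95) (nat_lit 4) (nat_lit 155) (nat_lit 179) (nat_lit 176)) (PT.lf (nat_lit 7524) (nat_lit 6) (nat_lit 99) (nat_lit 4) (nat_lit 156) (nat_lit 179) (nat_lit 175))) (PT.nd (nat_lit 78) (PT.lf (nat_lit 7904) (nat_lit 6) (nat_lit 104) (nat_lit 4) (nat_lit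 157) (nat_lit 179) (nat_lit 174)) (PT.lf (nat_lit 8284) (nat_lit 6) (nat_lit 109) (nat_lit 4) (nat_lit 158) (nat_lit 179) (nat_lit 173))))))) (PT.nd (nat_lit 1170) (PT.nd (nat_lit 546) (PT.nd (nat_lit 234) (PT.nd (nat_lit 78) (PT.lf (nat_lit 8664) (nat_lit 6) (nat_lit 114) (nat_lit 4) (nat_lit 159) (nat_lit 179) (nat_lit 172)) (PT.nd (nat_lit 78) (PT.lf (nat_lit 9424) (nat_lit 6) (nat_lit 124) (nat_lit 4) (nat_lit 160) (nat_lit 179) (nat_lit 171)) (PT.lf (nat_lit 10108) (nat_lit 6) (nat_lit 133) (nat_lit 4) (nat_lit 161) (nat_lit 179) (nat_lit 170)))) (PT.nd (nat_lit 156) (PT.nd (nat_lit 78) (PT.lf (nat_lit 10032) (nat_lit 6) (nat_lit 132) (nat_lit 4) (nat_lit 162) (nat_lit 179) (nat_lit 169)) (PT.lf (nat_lit 9956) (nat_lit 6) (nat_lit 131) (nat_lit 4) (nat_lit 163) (nat_lit 179) (nat_lit 168))) (PT.nd (nat_lit 78) (PT.lf (nat_lit 9880) (nat_lit 6) (nat_lit 130) (nat_lit 4) (nat_lit 164)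 (nat_lit 179) (nat_lit 167)) (PT.lf (nat_lit 9804) (nat_lit 6) (nat_lit 129) (nat_lit 4) (nat_lit 165) (nat_lit 179) (nat_lit 166))))) (PT.nd (nat_lit 312) (PT.nd (nat_lit 156) (PT.nd (nat_lit 78) (PT.lf (nat_lit 9804) (nat_lit 6) (nat_lit 129) (nat_lit 2) (nat_lit 166) (nat_lit 179) (nat_lit 165)) (PT.lf (nat_lit 9880) (nat_lit 6) (nat_lit 130) (nat_lit 2) (nat_lit 167) (nat_lit 179) (nat_lit 164))) (PT.nd (nat_lit 78) (PT.lf (nat_lit 9956) (nat_lit 6) (nat_lit 131) (nat_lit 2) (nat_lit 168) (nat_lit 179) (nat_lit 163)) (PT.lf (nat_lit 10032) (nat_lit 6) (nat_lit 132) (nat_lit 2) (nat_lit 169) (nat_lit 179) (nat_lit 162)))) (PT.nd (nat_lit 156) (PT.nd (nat_lit 78) (PT.lf (nat_lit 10108) (nat_lit 6) (nat_lit 133) (nat_lit 2) (nat_lit 170) (nat_lit 179) (nat_lit 161)) (PT.lf (nat_lit 9424) (nat_lit 6) (nat_lit 124) (nat_lit 2) (nat_lit 171) (nat_lit 179) (nat_lit 160))) (PT.nd (nat_lit 78)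 (PT.lf (nat_lit 8664) (nat_lit 6) (nat_lit 114) (nat_lit 2) (nat_lit 172) (nat_lit 179) (nat_lit 159)) (PT.lf (nat_lit 8284) (nat_lit 6) (nat_lit 109) (nat_lit 2) (nat_lit 173) (nat_lit 179) (nat_lit 158)))))) (PT.nd (nat_lit 546) (PT.nd (nat_lit 234) (PT.nd (nat_lit 78) (PT.lf (nat_lit 7904) (nat_lit 6) (nat_lit 104) (nat_lit 2) (nat_lit 174) (nat_lit 179) (nat_lit 157)) (PT.nd (nat_lit 78) (PT.lf (nat_lit 7524) (nat_lit 6) (nat_lit 99) (nat_lit 2) (nat_lit 175) (nat_lit 179) (nat_lit 156)) (PT.lf (nat_lit 7220) (nat_lit 6) (nat_lit 95) (nat_lit 2) (nat_lit 176) (nat_lit 179) (nat_lit 155)))) (PT.nd (nat_lit 156) (PT.nd (nat_lit 78) (PT.lf (nat_lit 6916) (nat_lit 6) (nat_lit 91) (nat_lit 2) (nat_lit 177) (nat_lit 179) (nat_lit 154)) (PT.lf (nat_lit 6688) (nat_lit 6) (nat_lit 88) (nat_lit 2) (nat_lit 178) (nat_lit 179) (nat_lit 153))) (PT.nd (nat_lit 78) (PT.lf (nat_lit 6384) (nat_lit 3)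 (nat_lit 84) (nat_lit 0) (nat_lit 179) (nat_lit 179) (nat_lit 152)) (PT.lf (nat_lit 6080) (nat_lit 6) (nat_lit 80) (nat_lit 0) (nat_lit 180) (nat_lit 179) (nat_lit 151))))) (PT.nd (nat_lit 50388) (PT.nd (nat_lit 156) (PT.nd (nat_lit 78) (PT.lf (nat_lit 5776) (nat_lit 6) (nat_lit 76) (nat_lit 0) (nat_lit 181) (nat_lit 179) (nat_lit 150)) (PT.lf (nat_lit 5472) (nat_lit 6) (nat_lit 72) (nat_lit 0) (nat_lit 182) (nat_lit 179) (nat_lit 149))) (PT.nd (nat_lit 78) (PT.lf (nat_lit 5168) (nat_lit 6) (nat_lit 68) (nat_lit 0) (nat_lit 183) (nat_lit 179) (nat_lit 148)) (PT.lf (nat_lit 4940) (nat_lit 6) (nat_lit 65) (nat_lit 0) (nat_lit 184) (nat_lit 179) (nat_lit 147)))) (PT.nd (nat_lit 156) (PT.nd (nat_lit 78) (PT.lf (nat_lit 4712) (nat_lit 6) (nat_lit 62) (nat_lit 5) (nat_lit 146) (nat_lit 180) (nat_lit 184)) (PT.lf (nat_lit 5016) (nat_lit 6) (nat_lit 66) (nat_lit 5) (nat_lit 147) (nat_lit 180) (nat_lit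 183))) (PT.nd (nat_lit 78) (PT.lf (nat_lit 5244) (nat_lit 6) (nat_lit 69) (nat_lit 5) (nat_lit 148) (nat_lit 180) (nat_lit 182)) (PT.lf (nat_lit 5548) (nat_lit 6) (nat_lit 73) (nat_lit 5) (nat_lit 149) (nat_lit 180) (nat_lit 181))))))))
noncomputable def pc11 : PT := (PT.nd (nat_lit 2340) (PT.nd (nat_lit 1170) (PT.nd (nat_lit 546) (PT.nd (nat_lit 234) (PT.nd (nat_lit 78) (PT.lf (nat_lit 5852) (nat_lit 3) (nat_lit 77) (nat_lit 4) (nat_lit 150) (nat_lit 180) (nat_lit 180)) (PT.nd (nat_lit 78) (PT.lf (nat_lit 6080) (nat_lit 6) (nat_lit 80) (nat_lit 4) (nat_lit 151) (nat_lit 180) (nat_lit 179)) (PT.lf (nat_lit 6308) (nat_lit 6) (nat_lit 83) (nat_lit 4) (nat_lit 152) (nat_lit 180) (nat_lit 178)))) (PT.nd (nat_lit 156) (PT.nd (nat_lit 78) (PT.lf (nat_lit 6612) (nat_lit 6) (nat_lit 87) (nat_lit 4) (nat_lit 153) (nat_lit 180) (nat_lit 177)) (PT.lf (nat_lit 6840) (nat_lit 6) (nat_lit 90) (nat_lit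 4) (nat_lit 154) (nat_lit 180) (nat_lit 176))) (PT.nd (nat_lit 78) (PT.lf (nat_lit 7144) (nat_lit 6) (nat_lit 94) (nat_lit 4) (nat_lit 155) (nat_lit 180) (nat_lit 175)) (PT.lf (nat_lit 7448) (nat_lit 6) (nat_lit 98) (nat_lit 4) (nat_lit 156) (nat_lit 180) (nat_lit 174))))) (PT.nd (nat_lit 312) (PT.nd (nat_lit 156) (PT.nd (nat_lit 78) (PT.lf (nat_lit 7828) (nat_lit 6) (nat_lit 103) (nat_lit 4) (nat_lit 157) (nat_lit 180) (nat_lit 173)) (PT.lf (nat_lit 8208) (nat_lit 6) (nat_lit 108) (nat_lit 4) (nat_lit 158) (nat_lit 180) (nat_lit 172))) (PT.nd (nat_lit 78) (PT.lf (nat_lit 8588) (nat_lit 6) (nat_lit 113) (nat_lit 4) (nat_lit 159) (nat_lit 180) (nat_lit 171)) (PT.lf (nat_lit 9348) (nat_lit 6) (nat_lit 123) (nat_lit 4) (nat_lit 160) (nat_lit 180) (nat_lit 170)))) (PT.nd (nat_lit 156) (PT.nd (nat_lit 78) (PT.lf (nat_lit 9272) (nat_lit 6) (nat_lit 122) (nat_lit 4) (nat_lit 161) (nat_lit 180) (nat_lit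 169)) (PT.lf (nat_lit 9196) (nat_lit 6) (nat_lit 121) (nat_lit 4) (nat_lit 162) (nat_lit 180) (nat_lit 168))) (PT.nd (nat_lit 78) (PT.lf (nat_lit 9120) (nat_lit 6) (nat_lit 120) (nat_lit 4) (nat_lit 163) (nat_lit 180) (nat_lit 167)) (PT.lf (nat_lit 9044) (nat_lit 6) (nat_lit 119) (nat_lit 4) (nat_lit 164) (nat_lit 180) (nat_lit 166)))))) (PT.nd (nat_lit 546) (PT.nd (nat_lit 234) (PT.nd (nat_lit 78) (PT.lf (nat_lit 8968) (nat_lit 3) (nat_lit 118) (nat_lit 2) (nat_lit 165) (nat_lit 180) (nat_lit 165)) (PT.nd (nat_lit 78) (PT.lf (nat_lit 9044) (nat_lit 6) (nat_lit 119) (nat_lit 2) (nat_lit 166) (nat_lit 180) (nat_lit 164)) (PT.lf (nat_lit 9120) (nat_lit 6) (nat_lit 120) (nat_lit 2) (nat_lit 167) (nat_lit 180) (nat_lit 163)))) (PT.nd (nat_lit 156) (PT.nd (nat_lit 78) (PT.lf (nat_lit 9196) (nat_lit 6) (nat_lit 121) (nat_lit 2) (nat_lit 168) (nat_lit 180) (nat_lit 162)) (PT.lf (nat_lit 9272) (nat_lit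 6) (nat_lit 122) (nat_lit 2) (nat_lit 169) (nat_lit 180) (nat_lit 161))) (PT.nd (nat_lit 78) (PT.lf (nat_lit 9348) (nat_lit 6) (nat_lit 123) (nat_lit 2) (nat_lit 170) (nat_lit 180) (nat_lit 160)) (PT.lf (nat_lit 8588) (nat_lit 6) (nat_lit 113) (nat_lit 2) (nat_lit 171) (nat_lit 180) (nat_lit 159))))) (PT.nd (nat_lit 312) (PT.nd (nat_lit 156) (PT.nd (nat_lit 78) (PT.lf (nat_lit 8208) (nat_lit 6) (nat_lit 108) (nat_lit 2) (nat_lit 172) (nat_lit 180) (nat_lit 158)) (PT.lf (nat_lit 7828) (nat_lit 6) (nat_lit 103) (nat_lit 2) (nat_lit 173) (nat_lit 180) (nat_lit 157))) (PT.nd (nat_lit 78) (PT.lf (nat_lit 7448) (nat_lit 6) (nat_lit 98) (nat_lit 2) (nat_lit 174) (nat_lit 180) (nat_lit 156)) (PT.lf (nat_lit 7144) (nat_lit 6) (nat_lit 94) (nat_lit 2) (nat_lit 175) (nat_lit 180) (nat_lit 155)))) (PT.nd (nat_lit 156) (PT.nd (nat_lit 78) (PT.lf (nat_lit 6840) (nat_lit 6) (nat_lit 90) (nat_lit 2) (nat_lit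 176) (nat_lit 180) (nat_lit 154)) (PT.lf (nat_lit 6612) (nat_lit 6) (nat_lit 87) (nat_lit 2) (nat_lit 177) (nat_lit 180) (nat_lit 153))) (PT.nd (nat_lit 78) (PT.lf (nat_lit 6308) (nat_lit 6) (nat_lit 83) (nat_lit 2) (nat_lit 178) (nat_lit 180) (nat_lit 152)) (PT.lf (nat_lit 6080) (nat_lit 6) (nat_lit 80) (nat_lit 2) (nat_lit 179) (nat_lit 180) (nat_lit 151))))))) (PT.nd (nat_lit 51090) (PT.nd (nat_lit 50466) (PT.nd (nat_lit 234) (PT.nd (nat_lit 78) (PT.lf (nat_lit 5852) (nat_lit 3) (nat_lit 77) (nat_lit 0) (nat_lit 180) (nat_lit 180) (nat_lit 150)) (PT.nd (nat_lit 78) (PT.lf (nat_lit 5548) (nat_lit 6) (nat_lit 73) (nat_lit 0) (nat_lit 181) (nat_lit 180) (nat_lit 149)) (PT.lf (nat_lit 5244) (nat_lit 6) (nat_lit 69) (nat_lit 0) (nat_lit 182) (nat_lit 180) (nat_lit 148)))) (PT.nd (nat_lit 50076) (PT.nd (nat_lit 78) (PT.lf (nat_lit 5016) (nat_lit 6) (nat_lit 66) (nat_lit 0) (nat_lit 183) (nat_lit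 180) (nat_lit 147)) (PT.lf (nat_lit 4712) (nat_lit 6) (nat_lit 62) (nat_lit 0) (nat_lit 184) (nat_lit 180) (nat_lit 146))) (PT.nd (nat_lit 78) (PT.lf (nat_lit 4332) (nat_lit 6) (nat_lit 57) (nat_lit 5) (nat_lit 144) (nat_lit 181) (nat_lit 185)) (PT.lf (nat_lit 4560) (nat_lit 6) (nat_lit 60) (nat_lit 5) (nat_lit 145) (nat_lit 181) (nat_lit 184))))) (PT.nd (nat_lit 312) (PT.nd (nat_lit 156) (PT.nd (nat_lit 78) (PT.lf (nat_lit 4788) (nat_lit 6) (nat_lit 63) (nat_lit 5) (nat_lit 146) (nat_lit 181) (nat_lit 183)) (PT.lf (nat_lit 5092) (nat_lit 6) (nat_lit 67) (nat_lit 5) (nat_lit 147) (nat_lit 181) (nat_lit 182))) (PT.nd (nat_lit 78) (PT.lf (nat_lit 5320) (nat_lit 3) (nat_lit 70) (nat_lit 4) (nat_lit 148) (nat_lit 181) (nat_lit 181)) (PT.lf (nat_lit 5548) (nat_lit 6) (nat_lit 73) (nat_lit 4) (nat_lit 149) (nat_lit 181) (nat_lit 180)))) (PT.nd (nat_lit 156) (PT.nd (nat_lit 78) (PT.lf (nat_lit 5776)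 (nat_lit 6) (nat_lit 76) (nat_lit 4) (nat_lit 150) (nat_lit 181) (nat_lit 179)) (PT.lf (nat_lit 6004) (nat_lit 6) (nat_lit 79) (nat_lit 4) (nat_lit 151) (nat_lit 181) (nat_lit 178))) (PT.nd (nat_lit 78) (PT.lf (nat_lit 6232) (nat_lit 6) (nat_lit 82) (nat_lit 4) (nat_lit 152) (nat_lit 181) (nat_lit 177)) (PT.lf (nat_lit 6536) (nat_lit 6) (nat_lit 86) (nat_lit 4) (nat_lit 153) (nat_lit 181) (nat_lit 176)))))) (PT.nd (nat_lit 1482) (PT.nd (nat_lit 234) (PT.nd (nat_lit 78) (PT.lf (nat_lit 6764) (nat_lit 6) (nat_lit 89) (nat_lit 4) (nat_lit 154) (nat_lit 181) (nat_lit 175)) (PT.nd (nat_lit 78) (PT.lf (nat_lit 7068) (nat_lit 6) (nat_lit 93) (nat_lit 4) (nat_lit 155) (nat_lit 181) (nat_lit 174)) (PT.lf (nat_lit 7372) (nat_lit 6) (nat_lit 97) (nat_lit 4) (nat_lit 156) (nat_lit 181) (nat_lit 173)))) (PT.nd (nat_lit 1092) (PT.nd (nat_lit 78) (PT.lf (nat_lit 7752) (nat_lit 6) (nat_lit 102) (nat_lit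 4) (nat_lit 157) (nat_lit 181) (nat_lit 172)) (PT.lf (nat_lit 8132) (nat_lit 6) (nat_lit 107) (nat_lit 4) (nat_lit 158) (nat_lit 181) (nat_lit 171))) (PT.nd (nat_lit 78) (PT.lf (nat_lit 8132) (nat_lit 6) (nat_lit 107) (nat_lit 2) (nat_lit 171) (nat_lit 181) (nat_lit 158)) (PT.lf (nat_lit 7752) (nat_lit 6) (nat_lit 102) (nat_lit 2) (nat_lit 172) (nat_lit 181) (nat_lit 157))))) (PT.nd (nat_lit 312) (PT.nd (nat_lit 156) (PT.nd (nat_lit 78) (PT.lf (nat_lit 7372) (nat_lit 6) (nat_lit 97) (nat_lit 2) (nat_lit 173) (nat_lit 181) (nat_lit 156)) (PT.lf (nat_lit 7068) (nat_lit 6) (nat_lit 93) (nat_lit 2) (nat_lit 174) (nat_lit 181) (nat_lit 155))) (PT.nd (nat_lit 78) (PT.lf (nat_lit 6764) (nat_lit 6) (nat_lit 89) (nat_lit 2) (nat_lit 175) (nat_lit 181) (nat_lit 154)) (PT.lf (nat_lit 6536) (nat_lit 6) (nat_lit 86) (nat_lit 2) (nat_lit 176) (nat_lit 181) (nat_lit 153)))) (PT.nd (nat_lit 156) (PT.nd (nat_lit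 78) (PT.lf (nat_lit 6232) (nat_lit 6) (nat_lit 82) (nat_lit 2) (nat_lit 177) (nat_lit 181) (nat_lit 152)) (PT.lf (nat_lit 6004) (nat_lit 6) (nat_lit 79) (nat_lit 2) (nat_lit 178) (nat_lit 181) (nat_lit 151))) (PT.nd (nat_lit 78) (PT.lf (nat_lit 5776) (nat_lit 6) (nat_lit 76) (nat_lit 2) (nat_lit 179) (nat_lit 181) (nat_lit 150)) (PT.lf (nat_lit 5548) (nat_lit 6) (nat_lit 73) (nat_lit 2) (nat_lit 180) (nat_lit 181) (nat_lit 149))))))))
noncomputable def pc12 : PT := (PT.nd (nat_lit 103194) (PT.nd (nat_lit 50856) (PT.nd (nat_lit 50232) (PT.nd (nat_lit 234) (PT.nd (nat_lit 78) (PT.lf (nat_lit 5320) (nat_lit 3) (nat_lit 70) (nat_lit 0) (nat_lit 181) (nat_lit 181) (nat_lit 148)) (PT.nd (nat_lit 78) (PT.lf (nat_lit 5092) (nat_lit 6) (nat_lit 67) (nat_lit 0) (nat_lit 182) (nat_lit 181) (nat_lit 147)) (PT.lf (nat_lit 4788) (nat_lit 6) (nat_lit 63) (nat_lit 0) (nat_lit 183) (nat_lit 181) (nat_lit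 146)))) (PT.nd (nat_lit 49842) (PT.nd (nat_lit 78) (PT.lf (nat_lit 4560) (nat_lit 6) (nat_lit 60) (nat_lit 0) (nat_lit 184) (nat_lit 181) (nat_lit 145)) (PT.lf (nat_lit 4332) (nat_lit 6) (nat_lit 57) (nat_lit 0) (nat_lit 185) (nat_lit 181) (nat_lit 144))) (PT.nd (nat_lit 78) (PT.lf (nat_lit 3952) (nat_lit 6) (nat_lit 52) (nat_lit 5) (nat_lit 142) (nat_lit 182) (nat_lit 186)) (PT.lf (nat_lit 4180) (nat_lit 6) (nat_lit 55) (nat_lit 5) (nat_lit 143) (nat_lit 182) (nat_lit 185))))) (PT.nd (nat_lit 312) (PT.nd (nat_lit 156) (PT.nd (nat_lit 78) (PT.lf (nat_lit 4408) (nat_lit 6) (nat_lit 58) (nat_lit 5) (nat_lit 144) (nat_lit 182) (nat_lit 184)) (PT.lf (nat_lit 4636) (nat_lit 6) (nat_lit 61) (nat_lit 5) (nat_lit 145) (nat_lit 182) (nat_lit 183))) (PT.nd (nat_lit 78) (PT.lf (nat_lit 4864) (nat_lit 3) (nat_lit 64) (nat_lit 4) (nat_lit 146) (nat_lit 182) (nat_lit 182)) (PT.lf (nat_lit 5092) (nat_lit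 6) (nat_lit 67) (nat_lit 4) (nat_lit 147) (nat_lit 182) (nat_lit 181)))) (PT.nd (nat_lit 156) (PT.nd (nat_lit 78) (PT.lf (nat_lit 5244) (nat_lit 6) (nat_lit 69) (nat_lit 4) (nat_lit 148) (nat_lit 182) (nat_lit 180)) (PT.lf (nat_lit 5472) (nat_lit 6) (nat_lit 72) (nat_lit 4) (nat_lit 149) (nat_lit 182) (nat_lit 179))) (PT.nd (nat_lit 78) (PT.lf (nat_lit 5700) (nat_lit 6) (nat_lit 75) (nat_lit 4) (nat_lit 150) (nat_lit 182) (nat_lit 178)) (PT.lf (nat_lit 5928) (nat_lit 6) (nat_lit 78) (nat_lit 4) (nat_lit 151) (nat_lit 182) (nat_lit 177)))))) (PT.nd (nat_lit 2184) (PT.nd (nat_lit 1872) (PT.nd (nat_lit 78) (PT.lf (nat_lit 6156) (nat_lit 6) (nat_lit 81) (nat_lit 4) (nat_lit 152) (nat_lit 182) (nat_lit 176)) (PT.nd (nat_lit 1716) (PT.lf (nat_lit 6460) (nat_lit 6) (nat_lit 85) (nat_lit 4) (nat_lit 153) (nat_lit 182) (nat_lit 175)) (PT.lf (nat_lit 6460) (nat_lit 6) (nat_lit 85) (nat_lit 2) (nat_lit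 175) (nat_lit 182) (nat_lit 153)))) (PT.nd (nat_lit 156) (PT.nd (nat_lit 78) (PT.lf (nat_lit 6156) (nat_lit 6) (nat_lit 81) (nat_lit 2) (nat_lit 176) (nat_lit 182) (nat_lit 152)) (PT.lf (nat_lit 5928) (nat_lit 6) (nat_lit 78) (nat_lit 2) (nat_lit 177) (nat_lit 182) (nat_lit 151))) (PT.nd (nat_lit 78) (PT.lf (nat_lit 5700) (nat_lit 6) (nat_lit 75) (nat_lit 2) (nat_lit 178) (nat_lit 182) (nat_lit 150)) (PT.lf (nat_lit 5472) (nat_lit 6) (nat_lit 72) (nat_lit 2) (nat_lit 179) (nat_lit 182) (nat_lit 149))))) (PT.nd (nat_lit 312) (PT.nd (nat_lit 156) (PT.nd (nat_lit 78) (PT.lf (nat_lit 5244) (nat_lit 6) (nat_lit 69) (nat_lit 2) (nat_lit 180) (nat_lit 182) (nat_lit 148)) (PT.lf (nat_lit 5092) (nat_lit 6) (nat_lit 67) (nat_lit 2) (nat_lit 181) (nat_lit 182) (nat_lit 147))) (PT.nd (nat_lit 78) (PT.lf (nat_lit 4864) (nat_lit 3) (nat_lit 64) (nat_lit 0) (nat_lit 182) (nat_lit 182) (nat_lit 146)) (PT.lf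 (nat_lit 4636) (nat_lit 6) (nat_lit 61) (nat_lit 0) (nat_lit 183) (nat_lit 182) (nat_lit 145)))) (PT.nd (nat_lit 156) (PT.nd (nat_lit 78) (PT.lf (nat_lit 4408) (nat_lit 6) (nat_lit 58) (nat_lit 0) (nat_lit 184) (nat_lit 182) (nat_lit 144)) (PT.lf (nat_lit 4180) (nat_lit 6) (nat_lit 55) (nat_lit 0) (nat_lit 185) (nat_lit 182) (nat_lit 143))) (PT.nd (nat_lit 49608) (PT.lf (nat_lit 3952) (nat_lit 6) (nat_lit 52) (nat_lit 0) (nat_lit 186) (nat_lit 182) (nat_lit 142)) (PT.lf (nat_lit 3800) (nat_lit 6) (nat_lit 50) (nat_lit 5) (nat_lit 141) (nat_lit 183) (nat_lit 186))))))) (PT.nd (nat_lit 3198) (PT.nd (nat_lit 546) (PT.nd (nat_lit 234) (PT.nd (nat_lit 78) (PT.lf (nat_lit 4028) (nat_lit 6) (nat_lit 53) (nat_lit 5) (nat_lit 142) (nat_lit 183) (nat_lit 185)) (PT.nd (nat_lit 78) (PT.lf (nat_lit 4256) (nat_lit 6) (nat_lit 56) (nat_lit 5) (nat_lit 143) (nat_lit 183) (nat_lit 184)) (PT.lf (nat_lit 4484)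 (nat_lit 3) (nat_lit 59) (nat_lit 4) (nat_lit 144) (nat_lit 183) (nat_lit 183)))) (PT.nd (nat_lit 156) (PT.nd (nat_lit 78) (PT.lf (nat_lit 4636) (nat_lit 6) (nat_lit 61) (nat_lit 4) (nat_lit 145) (nat_lit 183) (nat_lit 182)) (PT.lf (nat_lit 4788) (nat_lit 6) (nat_lit 63) (nat_lit 4) (nat_lit 146) (nat_lit 183) (nat_lit 181))) (PT.nd (nat_lit 78) (PT.lf (nat_lit 5016) (nat_lit 6) (nat_lit 66) (nat_lit 4) (nat_lit 147) (nat_lit 183) (nat_lit 180)) (PT.lf (nat_lit 5168) (nat_lit 6) (nat_lit 68) (nat_lit 4) (nat_lit 148) (nat_lit 183) (nat_lit 179))))) (PT.nd (nat_lit 2340) (PT.nd (nat_lit 2184) (PT.nd (nat_lit 78) (PT.lf (nat_lit 5396) (nat_lit 6) (nat_lit 71) (nat_lit 4) (nat_lit 149) (nat_lit 183) (nat_lit 178)) (PT.lf (nat_lit 5624) (nat_lit 6) (nat_lit 74) (nat_lit 4) (nat_lit 150) (nat_lit 183) (nat_lit 177))) (PT.nd (nat_lit 78) (PT.lf (nat_lit 5624) (nat_lit 6) (nat_lit 74) (nat_lit 2)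 (nat_lit 177) (nat_lit 183) (nat_lit 150)) (PT.lf (nat_lit 5396) (nat_lit 6) (nat_lit 71) (nat_lit 2) (nat_lit 178) (nat_lit 183) (nat_lit 149)))) (PT.nd (nat_lit 156) (PT.nd (nat_lit 78) (PT.lf (nat_lit 5168) (nat_lit 6) (nat_lit 68) (nat_lit 2) (nat_lit 179) (nat_lit 183) (nat_lit 148)) (PT.lf (nat_lit 5016) (nat_lit 6) (nat_lit 66) (nat_lit 2) (nat_lit 180) (nat_lit 183) (nat_lit 147))) (PT.nd (nat_lit 78) (PT.lf (nat_lit 4788) (nat_lit 6) (nat_lit 63) (nat_lit 2) (nat_lit 181) (nat_lit 183) (nat_lit 146)) (PT.lf (nat_lit 4636) (nat_lit 6) (nat_lit 61) (nat_lit 2) (nat_lit 182) (nat_lit 183) (nat_lit 145)))))) (PT.nd (nat_lit 49920) (PT.nd (nat_lit 234) (PT.nd (nat_lit 78) (PT.lf (nat_lit 4484) (nat_lit 3) (nat_lit 59) (nat_lit 0) (nat_lit 183) (nat_lit 183) (nat_lit 144)) (PT.nd (nat_lit 78) (PT.lf (nat_lit 4256) (nat_lit 6) (nat_lit 56) (nat_lit 0) (nat_lit 184) (nat_lit 183) (nat_lit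 143)) (PT.lf (nat_lit 4028) (nat_lit 6) (nat_lit 53) (nat_lit 0) (nat_lit 185) (nat_lit 183) (nat_lit 142)))) (PT.nd (nat_lit 49530) (PT.nd (nat_lit 49452) (PT.lf (nat_lit 3800) (nat_lit 6) (nat_lit 50) (nat_lit 0) (nat_lit 186) (nat_lit 183) (nat_lit 141)) (PT.lf (nat_lit 3496) (nat_lit 6) (nat_lit 46) (nat_lit 5) (nat_lit 139) (nat_lit 184) (nat_lit 187))) (PT.nd (nat_lit 78) (PT.lf (nat_lit 3648) (nat_lit 6) (nat_lit 48) (nat_lit 5) (nat_lit 140) (nat_lit 184) (nat_lit 186)) (PT.lf (nat_lit 3876) (nat_lit 6) (nat_lit 51) (nat_lit 5) (nat_lit 141) (nat_lit 184) (nat_lit 185))))) (PT.nd (nat_lit 312) (PT.nd (nat_lit 156) (PT.nd (nat_lit 78) (PT.lf (nat_lit 4104) (nat_lit 3) (nat_lit 54) (nat_lit 4) (nat_lit 142) (nat_lit 184) (nat_lit 184)) (PT.lf (nat_lit 4256) (nat_lit 6) (nat_lit 56) (nat_lit 4) (nat_lit 143) (nat_lit 184) (nat_lit 183))) (PT.nd (nat_lit 78) (PT.lf (nat_lit 4408) (nat_lit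 6) (nat_lit 58) (nat_lit 4) (nat_lit 144) (nat_lit 184) (nat_lit 182)) (PT.lf (nat_lit 4560) (nat_lit 6) (nat_lit 60) (nat_lit 4) (nat_lit 145) (nat_lit 184) (nat_lit 181)))) (PT.nd (nat_lit 2574) (PT.nd (nat_lit 78) (PT.lf (nat_lit 4712) (nat_lit 6) (nat_lit 62) (nat_lit 4) (nat_lit 146) (nat_lit 184) (nat_lit 180)) (PT.lf (nat_lit 4940) (nat_lit 6) (nat_lit 65) (nat_lit 4) (nat_lit 147) (nat_lit 184) (nat_lit 179))) (PT.nd (nat_lit 78) (PT.lf (nat_lit 4940) (nat_lit 6) (nat_lit 65) (nat_lit 2) (nat_lit 179) (nat_lit 184) (nat_lit 147)) (PT.lf (nat_lit 4712) (nat_lit 6) (nat_lit 62) (nat_lit 2) (nat_lit 180) (nat_lit 184) (nat_lit 146))))))))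
noncomputable def pc13 : PT := (PT.nd (nat_lit 103194) (PT.nd (nat_lit 53118) (PT.nd (nat_lit 49686) (PT.nd (nat_lit 234) (PT.nd (nat_lit 78) (PT.lf (nat_lit 4560) (nat_lit 6) (nat_lit 60) (nat_lit 2) (nat_lit 181) (nat_lit 184) (nat_lit 145)) (PT.nd (nat_lit 78) (PT.lf (nat_lit 4408) (nat_lit 6) (nat_lit 58) (nat_lit 2) (nat_lit 182) (nat_lit 184) (nat_lit 144)) (PT.lf (nat_lit 4256) (nat_lit 6) (nat_lit 56) (nat_lit 2) (nat_lit 183) (nat_lit 184) (nat_lit 143)))) (PT.nd (nat_lit 156) (PT.nd (nat_lit 78) (PT.lf (nat_lit 4104) (nat_lit 3) (nat_lit 54) (nat_lit 0) (nat_lit 184) (nat_lit 184) (nat_lit 142)) (PT.lf (nat_lit 3876) (nat_lit 6) (nat_lit 51) (nat_lit 0) (nat_lit 185) (nat_lit 184) (nat_lit 141))) (PT.nd (nat_lit 78) (PT.lf (nat_lit 3648) (nat_lit 6) (nat_lit 48) (nat_lit 0) (nat_lit 186) (nat_lit 184) (nat_lit 140)) (PT.lf (nat_lit 3496) (nat_lit 6) (nat_lit 46) (nat_lit 0) (nat_lit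 187) (nat_lit 184) (nat_lit 139))))) (PT.nd (nat_lit 312) (PT.nd (nat_lit 156) (PT.nd (nat_lit 78) (PT.lf (nat_lit 3192) (nat_lit 6) (nat_lit 42) (nat_lit 5) (nat_lit 137) (nat_lit 185) (nat_lit 188)) (PT.lf (nat_lit 3344) (nat_lit 6) (nat_lit 44) (nat_lit 5) (nat_lit 138) (nat_lit 185) (nat_lit 187))) (PT.nd (nat_lit 78) (PT.lf (nat_lit 3572) (nat_lit 6) (nat_lit 47) (nat_lit 5) (nat_lit 139) (nat_lit 185) (nat_lit 186)) (PT.lf (nat_lit 3724) (nat_lit 3) (nat_lit 49) (nat_lit 4) (nat_lit 140) (nat_lit 185) (nat_lit 185)))) (PT.nd (nat_lit 156) (PT.nd (nat_lit 78) (PT.lf (nat_lit 3876) (nat_lit 6) (nat_lit 51) (nat_lit 4) (nat_lit 141) (nat_lit 185) (nat_lit 184)) (PT.lf (nat_lit 4028) (nat_lit 6) (nat_lit 53) (nat_lit 4) (nat_lit 142) (nat_lit 185) (nat_lit 183))) (PT.nd (nat_lit 78) (PT.lf (nat_lit 4180) (nat_lit 6) (nat_lit 55) (nat_lit 4) (nat_lit 143) (nat_lit 185) (nat_lit 182)) (PT.lf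 (nat_lit 4332) (nat_lit 6) (nat_lit 57) (nat_lit 4) (nat_lit 144) (nat_lit 185) (nat_lit 181)))))) (PT.nd (nat_lit 546) (PT.nd (nat_lit 234) (PT.nd (nat_lit 78) (PT.lf (nat_lit 4332) (nat_lit 6) (nat_lit 57) (nat_lit 2) (nat_lit 181) (nat_lit 185) (nat_lit 144)) (PT.nd (nat_lit 78) (PT.lf (nat_lit 4180) (nat_lit 6) (nat_lit 55) (nat_lit 2) (nat_lit 182) (nat_lit 185) (nat_lit 143)) (PT.lf (nat_lit 4028) (nat_lit 6) (nat_lit 53) (nat_lit 2) (nat_lit 183) (nat_lit 185) (nat_lit 142)))) (PT.nd (nat_lit 156) (PT.nd (nat_lit 78) (PT.lf (nat_lit 3876) (nat_lit 6) (nat_lit 51) (nat_lit 2) (nat_lit 184) (nat_lit 185) (nat_lit 141)) (PT.lf (nat_lit 3724) (nat_lit 3) (nat_lit 49) (nat_lit 0) (nat_lit 185) (nat_lit 185) (nat_lit 140))) (PT.nd (nat_lit 78) (PT.lf (nat_lit 3572) (nat_lit 6) (nat_lit 47) (nat_lit 0) (nat_lit 186) (nat_lit 185) (nat_lit 139)) (PT.lf (nat_lit 3344) (nat_lit 6) (nat_lit 44)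 (nat_lit 0) (nat_lit 187) (nat_lit 185) (nat_lit 138))))) (PT.nd (nat_lit 49218) (PT.nd (nat_lit 49062) (PT.nd (nat_lit 48984) (PT.lf (nat_lit 3192) (nat_lit 6) (nat_lit 42) (nat_lit 0) (nat_lit 188) (nat_lit 185) (nat_lit 137)) (PT.lf (nat_lit 2888) (nat_lit 6) (nat_lit 38) (nat_lit 5) (nat_lit 135) (nat_lit 186) (nat_lit 189))) (PT.nd (nat_lit 78) (PT.lf (nat_lit 3040) (nat_lit 6) (nat_lit 40) (nat_lit 5) (nat_lit 136) (nat_lit 186) (nat_lit 188)) (PT.lf (nat_lit 3268) (nat_lit 6) (nat_lit 43) (nat_lit 5) (nat_lit 137) (nat_lit 186) (nat_lit 187)))) (PT.nd (nat_lit 156) (PT.nd (nat_lit 78) (PT.lf (nat_lit 3420) (nat_lit 3) (nat_lit 45) (nat_lit 4) (nat_lit 138) (nat_lit 186) (nat_lit 186)) (PT.lf (nat_lit 3572) (nat_lit 6) (nat_lit 47) (nat_lit 4) (nat_lit 139) (nat_lit 186) (nat_lit 185))) (PT.nd (nat_lit 78) (PT.lf (nat_lit 3648) (nat_lit 6) (nat_lit 48) (nat_lit 4) (nat_lit 140) (nat_lit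 186) (nat_lit 184)) (PT.lf (nat_lit 3800) (nat_lit 6) (nat_lit 50) (nat_lit 4) (nat_lit 141) (nat_lit 186) (nat_lit 183))))))) (PT.nd (nat_lit 52884) (PT.nd (nat_lit 3588) (PT.nd (nat_lit 3276) (PT.nd (nat_lit 3120) (PT.lf (nat_lit 3952) (nat_lit 6) (nat_lit 52) (nat_lit 4) (nat_lit 142) (nat_lit 186) (nat_lit 182)) (PT.nd (nat_lit 78) (PT.lf (nat_lit 3952) (nat_lit 6) (nat_lit 52) (nat_lit 2) (nat_lit 182) (nat_lit 186) (nat_lit 142)) (PT.lf (nat_lit 3800) (nat_lit 6) (nat_lit 50) (nat_lit 2) (nat_lit 183) (nat_lit 186) (nat_lit 141)))) (PT.nd (nat_lit 156) (PT.nd (nat_lit 78) (PT.lf (nat_lit 3648) (nat_lit 6) (nat_lit 48) (nat_lit 2) (nat_lit 184) (nat_lit 186) (nat_lit 140)) (PT.lf (nat_lit 3572) (nat_lit 6) (nat_lit 47) (nat_lit 2) (nat_lit 185) (nat_lit 186) (nat_lit 139))) (PT.nd (nat_lit 78) (PT.lf (nat_lit 3420) (nat_lit 3) (nat_lit 45) (nat_lit 0) (nat_lit 186) (nat_lit 186) (nat_lit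 138)) (PT.lf (nat_lit 3268) (nat_lit 6) (nat_lit 43) (nat_lit 0) (nat_lit 187) (nat_lit 186) (nat_lit 137))))) (PT.nd (nat_lit 48984) (PT.nd (nat_lit 48828) (PT.nd (nat_lit 78) (PT.lf (nat_lit 3040) (nat_lit 6) (nat_lit 40) (nat_lit 0) (nat_lit 188) (nat_lit 186) (nat_lit 136)) (PT.lf (nat_lit 2888) (nat_lit 6) (nat_lit 38) (nat_lit 0) (nat_lit 189) (nat_lit 186) (nat_lit 135))) (PT.nd (nat_lit 78) (PT.lf (nat_lit 2584) (nat_lit 6) (nat_lit 34) (nat_lit 5) (nat_lit 133) (nat_lit 187) (nat_lit 190)) (PT.lf (nat_lit 2736) (nat_lit 6) (nat_lit 36) (nat_lit 5) (nat_lit 134) (nat_lit 187) (nat_lit 189)))) (PT.nd (nat_lit 156) (PT.nd (nat_lit 78) (PT.lf (nat_lit 2964) (nat_lit 6) (nat_lit 39) (nat_lit 5) (nat_lit 135) (nat_lit 187) (nat_lit 188)) (PT.lf (nat_lit 3116) (nat_lit 3) (nat_lit 41) (nat_lit 4) (nat_lit 136) (nat_lit 187) (nat_lit 187))) (PT.nd (nat_lit 78) (PT.lf (nat_lit 3268) (nat_lit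 6) (nat_lit 43) (nat_lit 4) (nat_lit 137) (nat_lit 187) (nat_lit 186)) (PT.lf (nat_lit 3344) (nat_lit 6) (nat_lit 44) (nat_lit 4) (nat_lit 138) (nat_lit 187) (nat_lit 185)))))) (PT.nd (nat_lit 3978) (PT.nd (nat_lit 3666) (PT.nd (nat_lit 3510) (PT.lf (nat_lit 3496) (nat_lit 6) (nat_lit 46) (nat_lit 4) (nat_lit 139) (nat_lit 187) (nat_lit 184)) (PT.nd (nat_lit 78) (PT.lf (nat_lit 3496) (nat_lit 6) (nat_lit 46) (nat_lit 2) (nat_lit 184) (nat_lit 187) (nat_lit 139)) (PT.lf (nat_lit 3344) (nat_lit 6) (nat_lit 44) (nat_lit 2) (nat_lit 185) (nat_lit 187) (nat_lit 138)))) (PT.nd (nat_lit 156) (PT.nd (nat_lit 78) (PT.lf (nat_lit 3268) (nat_lit 6) (nat_lit 43) (nat_lit 2) (nat_lit 186) (nat_lit 187) (nat_lit 137)) (PT.lf (nat_lit 3116) (nat_lit 3) (nat_lit 41) (nat_lit 0) (nat_lit 187) (nat_lit 187) (nat_lit 136))) (PT.nd (nat_lit 78) (PT.lf (nat_lit 2964) (nat_lit 6) (nat_lit 39) (nat_lit 0) (nat_lit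 188) (nat_lit 187) (nat_lit 135)) (PT.lf (nat_lit 2736) (nat_lit 6) (nat_lit 36) (nat_lit 0) (nat_lit 189) (nat_lit 187) (nat_lit 134))))) (PT.nd (nat_lit 48828) (PT.nd (nat_lit 48672) (PT.nd (nat_lit 48594) (PT.lf (nat_lit 2584) (nat_lit 6) (nat_lit 34) (nat_lit 0) (nat_lit 190) (nat_lit 187) (nat_lit 133)) (PT.lf (nat_lit 2432) (nat_lit 6) (nat_lit 32) (nat_lit 5) (nat_lit 132) (nat_lit 188) (nat_lit 190))) (PT.nd (nat_lit 78) (PT.lf (nat_lit 2660) (nat_lit 6) (nat_lit 35) (nat_lit 5) (nat_lit 133) (nat_lit 188) (nat_lit 189)) (PT.lf (nat_lit 2812) (nat_lit 3) (nat_lit 37) (nat_lit 4) (nat_lit 134) (nat_lit 188) (nat_lit 188)))) (PT.nd (nat_lit 156) (PT.nd (nat_lit 78) (PT.lf (nat_lit 2964) (nat_lit 6) (nat_lit 39) (nat_lit 4) (nat_lit 135) (nat_lit 188) (nat_lit 187)) (PT.lf (nat_lit 3040) (nat_lit 6) (nat_lit 40) (nat_lit 4) (nat_lit 136) (nat_lit 188) (nat_lit 186))) (PT.nd (nat_lit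 3744) (PT.lf (nat_lit 3192) (nat_lit 6) (nat_lit 42) (nat_lit 4) (nat_lit 137) (nat_lit 188) (nat_lit 185)) (PT.lf (nat_lit 3192) (nat_lit 6) (nat_lit 42) (nat_lit 2) (nat_lit 185) (nat_lit 188) (nat_lit 137))))))))
noncomputable def pc14 : PT := (PT.nd (nat_lit 154752) (PT.nd (nat_lit 53430) (PT.nd (nat_lit 48906) (PT.nd (nat_lit 234) (PT.nd (nat_lit 78) (PT.lf (nat_lit 3040) (nat_lit 6) (nat_lit 40) (nat_lit 2) (nat_lit 186) (nat_lit 188) (nat_lit 136)) (PT.nd (nat_lit 78) (PT.lf (nat_lit 2964) (nat_lit 6) (nat_lit 39) (nat_lit 2) (nat_lit 187) (nat_lit 188) (nat_lit 135)) (PT.lf (nat_lit 2812) (nat_lit 3) (nat_lit 37) (nat_lit 0) (nat_lit 188) (nat_lit 188) (nat_lit 134)))) (PT.nd (nat_lit 48516) (PT.nd (nat_lit 78) (PT.lf (nat_lit 2660) (nat_lit 6) (nat_lit 35) (nat_lit 0) (nat_lit 189) (nat_lit 188) (nat_lit 133)) (PT.lf (nat_lit 2432) (nat_lit 6) (nat_lit 32) (nat_lit 0) (nat_lit 190)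 (nat_lit 188) (nat_lit 132))) (PT.nd (nat_lit 78) (PT.lf (nat_lit 2204) (nat_lit 6) (nat_lit 29) (nat_lit 5) (nat_lit 130) (nat_lit 189) (nat_lit 191)) (PT.lf (nat_lit 2356) (nat_lit 6) (nat_lit 31) (nat_lit 5) (nat_lit 131) (nat_lit 189) (nat_lit 190))))) (PT.nd (nat_lit 4212) (PT.nd (nat_lit 156) (PT.nd (nat_lit 78) (PT.lf (nat_lit 2508) (nat_lit 3) (nat_lit 33) (nat_lit 4) (nat_lit 132) (nat_lit 189) (nat_lit 189)) (PT.lf (nat_lit 2660) (nat_lit 6) (nat_lit 35) (nat_lit 4) (nat_lit 133) (nat_lit 189) (nat_lit 188))) (PT.nd (nat_lit 78) (PT.lf (nat_lit 2736) (nat_lit 6) (nat_lit 36) (nat_lit 4) (nat_lit 134) (nat_lit 189) (nat_lit 187)) (PT.lf (nat_lit 2888) (nat_lit 6) (nat_lit 38) (nat_lit 4) (nat_lit 135) (nat_lit 189) (nat_lit 186)))) (PT.nd (nat_lit 156) (PT.nd (nat_lit 78) (PT.lf (nat_lit 2888) (nat_lit 6) (nat_lit 38) (nat_lit 2) (nat_lit 186) (nat_lit 189) (nat_lit 135)) (PT.lf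 (nat_lit 2736) (nat_lit 6) (nat_lit 36) (nat_lit 2) (nat_lit 187) (nat_lit 189) (nat_lit 134))) (PT.nd (nat_lit 78) (PT.lf (nat_lit 2660) (nat_lit 6) (nat_lit 35) (nat_lit 2) (nat_lit 188) (nat_lit 189) (nat_lit 133)) (PT.lf (nat_lit 2508) (nat_lit 3) (nat_lit 33) (nat_lit 0) (nat_lit 189) (nat_lit 189) (nat_lit 132)))))) (PT.nd (nat_lit 48672) (PT.nd (nat_lit 48360) (PT.nd (nat_lit 78) (PT.lf (nat_lit 2356) (nat_lit 6) (nat_lit 31) (nat_lit 0) (nat_lit 190) (nat_lit 189) (nat_lit 131)) (PT.nd (nat_lit 48204) (PT.lf (nat_lit 2204) (nat_lit 6) (nat_lit 29) (nat_lit 0) (nat_lit 191) (nat_lit 189) (nat_lit 130)) (PT.lf (nat_lit 1976) (nat_lit 6) (nat_lit 26) (nat_lit 5) (nat_lit 128) (nat_lit 190) (nat_lit 192)))) (PT.nd (nat_lit 156) (PT.nd (nat_lit 78) (PT.lf (nat_lit 2128) (nat_lit 6) (nat_lit 28) (nat_lit 5) (nat_lit 129) (nat_lit 190) (nat_lit 191)) (PT.lf (nat_lit 2280) (nat_lit 3) (nat_lit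 30) (nat_lit 4) (nat_lit 130) (nat_lit 190) (nat_lit 190))) (PT.nd (nat_lit 78) (PT.lf (nat_lit 2356) (nat_lit 6) (nat_lit 31) (nat_lit 4) (nat_lit 131) (nat_lit 190) (nat_lit 189)) (PT.lf (nat_lit 2432) (nat_lit 6) (nat_lit 32) (nat_lit 4) (nat_lit 132) (nat_lit 190) (nat_lit 188))))) (PT.nd (nat_lit 4446) (PT.nd (nat_lit 4290) (PT.nd (nat_lit 4212) (PT.lf (nat_lit 2584) (nat_lit 6) (nat_lit 34) (nat_lit 4) (nat_lit 133) (nat_lit 190) (nat_lit 187)) (PT.lf (nat_lit 2584) (nat_lit 6) (nat_lit 34) (nat_lit 2) (nat_lit 187) (nat_lit 190) (nat_lit 133))) (PT.nd (nat_lit 78) (PT.lf (nat_lit 2432) (nat_lit 6) (nat_lit 32) (nat_lit 2) (nat_lit 188) (nat_lit 190) (nat_lit 132)) (PT.lf (nat_lit 2356) (nat_lit 6) (nat_lit 31) (nat_lit 2) (nat_lit 189) (nat_lit 190) (nat_lit 131)))) (PT.nd (nat_lit 156) (PT.nd (nat_lit 78) (PT.lf (nat_lit 2280) (nat_lit 3) (nat_lit 30) (nat_lit 0) (nat_lit 190) (nat_lit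 190) (nat_lit 130)) (PT.lf (nat_lit 2128) (nat_lit 6) (nat_lit 28) (nat_lit 0) (nat_lit 191) (nat_lit 190) (nat_lit 129))) (PT.nd (nat_lit 47970) (PT.lf (nat_lit 1976) (nat_lit 6) (nat_lit 26) (nat_lit 0) (nat_lit 192) (nat_lit 190) (nat_lit 128)) (PT.lf (nat_lit 1748) (nat_lit 6) (nat_lit 23) (nat_lit 5) (nat_lit 126) (nat_lit 191) (nat_lit 193))))))) (PT.nd (nat_lit 58110) (PT.nd (nat_lit 5070) (PT.nd (nat_lit 234) (PT.nd (nat_lit 78) (PT.lf (nat_lit 1900) (nat_lit 6) (nat_lit 25) (nat_lit 5) (nat_lit 127) (nat_lit 191) (nat_lit 192)) (PT.nd (nat_lit 78) (PT.lf (nat_lit 2052) (nat_lit 3) (nat_lit 27) (nat_lit 4) (nat_lit 128) (nat_lit 191) (nat_lit 191)) (PT.lf (nat_lit 2128) (nat_lit 6) (nat_lit 28) (nat_lit 4) (nat_lit 129) (nat_lit 191) (nat_lit 190)))) (PT.nd (nat_lit 4680) (PT.nd (nat_lit 4602) (PT.lf (nat_lit 2204) (nat_lit 6) (nat_lit 29) (nat_lit 4) (nat_lit 130) (nat_lit 191) (nat_lit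 189)) (PT.lf (nat_lit 2204) (nat_lit 6) (nat_lit 29) (nat_lit 2) (nat_lit 189) (nat_lit 191) (nat_lit 130))) (PT.nd (nat_lit 78) (PT.lf (nat_lit 2128) (nat_lit 6) (nat_lit 28) (nat_lit 2) (nat_lit 190) (nat_lit 191) (nat_lit 129)) (PT.lf (nat_lit 2052) (nat_lit 3) (nat_lit 27) (nat_lit 0) (nat_lit 191) (nat_lit 191) (nat_lit 128))))) (PT.nd (nat_lit 47970) (PT.nd (nat_lit 47814) (PT.nd (nat_lit 78) (PT.lf (nat_lit 1900) (nat_lit 6) (nat_lit 25) (nat_lit 0) (nat_lit 192) (nat_lit 191) (nat_lit 127)) (PT.lf (nat_lit 1748) (nat_lit 6) (nat_lit 23) (nat_lit 0) (nat_lit 193) (nat_lit 191) (nat_lit 126))) (PT.nd (nat_lit 78) (PT.lf (nat_lit 1520) (nat_lit 6) (nat_lit 20) (nat_lit 5) (nat_lit 124) (nat_lit 192) (nat_lit 194)) (PT.lf (nat_lit 1672) (nat_lit 6) (nat_lit 22) (nat_lit 5) (nat_lit 125) (nat_lit 192) (nat_lit 193)))) (PT.nd (nat_lit 156) (PT.nd (nat_lit 78) (PT.lf (nat_lit 1824) (nat_lit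 3) (nat_lit 24) (nat_lit 4) (nat_lit 126) (nat_lit 192) (nat_lit 192)) (PT.lf (nat_lit 1900) (nat_lit 6) (nat_lit 25) (nat_lit 4) (nat_lit 127) (nat_lit 192) (nat_lit 191))) (PT.nd (nat_lit 4836) (PT.lf (nat_lit 1976) (nat_lit 6) (nat_lit 26) (nat_lit 4) (nat_lit 128) (nat_lit 192) (nat_lit 190)) (PT.lf (nat_lit 1976) (nat_lit 6) (nat_lit 26) (nat_lit 2) (nat_lit 190) (nat_lit 192) (nat_lit 128)))))) (PT.nd (nat_lit 47970) (PT.nd (nat_lit 234) (PT.nd (nat_lit 78) (PT.lf (nat_lit 1900) (nat_lit 6) (nat_lit 25) (nat_lit 2) (nat_lit 191) (nat_lit 192) (nat_lit 127)) (PT.nd (nat_lit 78) (PT.lf (nat_lit 1824) (nat_lit 3) (nat_lit 24) (nat_lit 0) (nat_lit 192) (nat_lit 192) (nat_lit 126)) (PT.lf (nat_lit 1672) (nat_lit 6) (nat_lit 22) (nat_lit 0) (nat_lit 193) (nat_lit 192) (nat_lit 125)))) (PT.nd (nat_lit 47580) (PT.nd (nat_lit 47502) (PT.lf (nat_lit 1520) (nat_lit 6) (nat_lit 20) (nat_lit 0)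 (nat_lit 194) (nat_lit 192) (nat_lit 124)) (PT.lf (nat_lit 1292) (nat_lit 6) (nat_lit 17) (nat_lit 5) (nat_lit 122) (nat_lit 193) (nat_lit 195))) (PT.nd (nat_lit 78) (PT.lf (nat_lit 1444) (nat_lit 6) (nat_lit 19) (nat_lit 5) (nat_lit 123) (nat_lit 193) (nat_lit 194)) (PT.lf (nat_lit 1596) (nat_lit 3) (nat_lit 21) (nat_lit 4) (nat_lit 124) (nat_lit 193) (nat_lit 193))))) (PT.nd (nat_lit 5304) (PT.nd (nat_lit 5148) (PT.nd (nat_lit 78) (PT.lf (nat_lit 1672) (nat_lit 6) (nat_lit 22) (nat_lit 4) (nat_lit 125) (nat_lit 193) (nat_lit 192)) (PT.lf (nat_lit 1748) (nat_lit 6) (nat_lit 23) (nat_lit 4) (nat_lit 126) (nat_lit 193) (nat_lit 191))) (PT.nd (nat_lit 78) (PT.lf (nat_lit 1748) (nat_lit 6) (nat_lit 23) (nat_lit 2) (nat_lit 191) (nat_lit 193) (nat_lit 126)) (PT.lf (nat_lit 1672) (nat_lit 6) (nat_lit 22) (nat_lit 2) (nat_lit 192) (nat_lit 193) (nat_lit 125)))) (PT.nd (nat_lit 156) (PT.nd (nat_lit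 78) (PT.lf (nat_lit 1596) (nat_lit 3) (nat_lit 21) (nat_lit 0) (nat_lit 193) (nat_lit 193) (nat_lit 124)) (PT.lf (nat_lit 1444) (nat_lit 6) (nat_lit 19) (nat_lit 0) (nat_lit 194) (nat_lit 193) (nat_lit 123))) (PT.nd (nat_lit 47268) (PT.lf (nat_lit 1292) (nat_lit 6) (nat_lit 17) (nat_lit 0) (nat_lit 195) (nat_lit 193) (nat_lit 122)) (PT.lf (nat_lit 1064) (nat_lit 6) (nat_lit 14) (nat_lit 5) (nat_lit 120) (nat_lit 194) (nat_lit 196))))))))
noncomputable def pc15 : PT := (PT.nd (nat_lit 158886) (PT.nd (nat_lit 58812) (PT.nd (nat_lit 5772) (PT.nd (nat_lit 234) (PT.nd (nat_lit 78) (PT.lf (nat_lit 1216) (nat_lit 6) (nat_lit 16) (nat_lit 5) (nat_lit 121) (nat_lit 194) (nat_lit 195)) (PT.nd (nat_lit 78) (PT.lf (nat_lit 1368) (nat_lit 3) (nat_lit 18) (nat_lit 4) (nat_lit 122) (nat_lit 194) (nat_lit 194)) (PT.lf (nat_lit 1444) (nat_lit 6) (nat_lit 19) (nat_lit 4) (nat_lit 123) (nat_lit 194) (nat_lit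 193)))) (PT.nd (nat_lit 5382) (PT.nd (nat_lit 5304) (PT.lf (nat_lit 1520) (nat_lit 6) (nat_lit 20) (nat_lit 4) (nat_lit 124) (nat_lit 194) (nat_lit 192)) (PT.lf (nat_lit 1520) (nat_lit 6) (nat_lit 20) (nat_lit 2) (nat_lit 192) (nat_lit 194) (nat_lit 124))) (PT.nd (nat_lit 78) (PT.lf (nat_lit 1444) (nat_lit 6) (nat_lit 19) (nat_lit 2) (nat_lit 193) (nat_lit 194) (nat_lit 123)) (PT.lf (nat_lit 1368) (nat_lit 3) (nat_lit 18) (nat_lit 0) (nat_lit 194) (nat_lit 194) (nat_lit 122))))) (PT.nd (nat_lit 47268) (PT.nd (nat_lit 47112) (PT.nd (nat_lit 78) (PT.lf (nat_lit 1216) (nat_lit 6) (nat_lit 16) (nat_lit 0) (nat_lit 195) (nat_lit 194) (nat_lit 121)) (PT.lf (nat_lit 1064) (nat_lit 6) (nat_lit 14) (nat_lit 0) (nat_lit 196) (nat_lit 194) (nat_lit 120))) (PT.nd (nat_lit 78) (PT.lf (nat_lit 836) (nat_lit 6) (nat_lit 11) (nat_lit 5) (nat_lit 118) (nat_lit 195) (nat_lit 197)) (PT.lf (nat_lit 988) (nat_lit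 6) (nat_lit 13) (nat_lit 5) (nat_lit 119) (nat_lit 195) (nat_lit 196)))) (PT.nd (nat_lit 156) (PT.nd (nat_lit 78) (PT.lf (nat_lit 1140) (nat_lit 3) (nat_lit 15) (nat_lit 4) (nat_lit 120) (nat_lit 195) (nat_lit 195)) (PT.lf (nat_lit 1216) (nat_lit 6) (nat_lit 16) (nat_lit 4) (nat_lit 121) (nat_lit 195) (nat_lit 194))) (PT.nd (nat_lit 5538) (PT.lf (nat_lit 1292) (nat_lit 6) (nat_lit 17) (nat_lit 4) (nat_lit 122) (nat_lit 195) (nat_lit 193)) (PT.lf (nat_lit 1292) (nat_lit 6) (nat_lit 17) (nat_lit 2) (nat_lit 193) (nat_lit 195) (nat_lit 122)))))) (PT.nd (nat_lit 47268) (PT.nd (nat_lit 234) (PT.nd (nat_lit 78) (PT.lf (nat_lit 1216) (nat_lit 6) (nat_lit 16) (nat_lit 2) (nat_lit 194) (nat_lit 195) (nat_lit 121)) (PT.nd (nat_lit 78) (PT.lf (nat_lit 1140) (nat_lit 3) (nat_lit 15) (nat_lit 0) (nat_lit 195) (nat_lit 195) (nat_lit 120)) (PT.lf (nat_lit 988) (nat_lit 6) (nat_lit 13) (nat_lit 0) (nat_lit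 196) (nat_lit 195) (nat_lit 119)))) (PT.nd (nat_lit 46878) (PT.nd (nat_lit 46800) (PT.lf (nat_lit 836) (nat_lit 6) (nat_lit 11) (nat_lit 0) (nat_lit 197) (nat_lit 195) (nat_lit 118)) (PT.lf (nat_lit 608) (nat_lit 6) (nat_lit 8) (nat_lit 5) (nat_lit 116) (nat_lit 196) (nat_lit 198))) (PT.nd (nat_lit 78) (PT.lf (nat_lit 760) (nat_lit 6) (nat_lit 10) (nat_lit 5) (nat_lit 117) (nat_lit 196) (nat_lit 197)) (PT.lf (nat_lit 912) (nat_lit 3) (nat_lit 12) (nat_lit 4) (nat_lit 118) (nat_lit 196) (nat_lit 196))))) (PT.nd (nat_lit 6006) (PT.nd (nat_lit 5850) (PT.nd (nat_lit 78) (PT.lf (nat_lit 988) (nat_lit 6) (nat_lit 13) (nat_lit 4) (nat_lit 119) (nat_lit 196) (nat_lit 195)) (PT.lf (nat_lit 1064) (nat_lit 6) (nat_lit 14) (nat_lit 4) (nat_lit 120) (nat_lit 196) (nat_lit 194))) (PT.nd (nat_lit 78) (PT.lf (nat_lit 1064) (nat_lit 6) (nat_lit 14) (nat_lit 2) (nat_lit 194) (nat_lit 196) (nat_lit 120)) (PT.lf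 (nat_lit 988) (nat_lit 6) (nat_lit 13) (nat_lit 2) (nat_lit 195) (nat_lit 196) (nat_lit 119)))) (PT.nd (nat_lit 156) (PT.nd (nat_lit 78) (PT.lf (nat_lit 912) (nat_lit 3) (nat_lit 12) (nat_lit 0) (nat_lit 196) (nat_lit 196) (nat_lit 118)) (PT.lf (nat_lit 760) (nat_lit 6) (nat_lit 10) (nat_lit 0) (nat_lit 197) (nat_lit 196) (nat_lit 117))) (PT.nd (nat_lit 46566) (PT.lf (nat_lit 608) (nat_lit 6) (nat_lit 8) (nat_lit 0) (nat_lit 198) (nat_lit 196) (nat_lit 116)) (PT.lf (nat_lit 380) (nat_lit 6) (nat_lit 5) (nat_lit 5) (nat_lit 114) (nat_lit 197) (nat_lit 199))))))) (PT.nd (nat_lit 59514) (PT.nd (nat_lit 6474) (PT.nd (nat_lit 234) (PT.nd (nat_lit 78) (PT.lf (nat_lit 532) (nat_lit 6) (nat_lit 7) (nat_lit 5) (nat_lit 115) (nat_lit 197) (nat_lit 198)) (PT.nd (nat_lit 78) (PT.lf (nat_lit 684) (nat_lit 3) (nat_lit 9) (nat_lit 4) (nat_lit 116) (nat_lit 197) (nat_lit 197)) (PT.lf (nat_lit 760) (nat_lit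 6) (nat_lit 10) (nat_lit 4) (nat_lit 117) (nat_lit 197) (nat_lit 196)))) (PT.nd (nat_lit 6084) (PT.nd (nat_lit 6006) (PT.lf (nat_lit 836) (nat_lit 6) (nat_lit 11) (nat_lit 4) (nat_lit 118) (nat_lit 197) (nat_lit 195)) (PT.lf (nat_lit 836) (nat_lit 6) (nat_lit 11) (nat_lit 2) (nat_lit 195) (nat_lit 197) (nat_lit 118))) (PT.nd (nat_lit 78) (PT.lf (nat_lit 760) (nat_lit 6) (nat_lit 10) (nat_lit 2) (nat_lit 196) (nat_lit 197) (nat_lit 117)) (PT.lf (nat_lit 684) (nat_lit 3) (nat_lit 9) (nat_lit 0) (nat_lit 197) (nat_lit 197) (nat_lit 116))))) (PT.nd (nat_lit 46566) (PT.nd (nat_lit 46410) (PT.nd (nat_lit 78) (PT.lf (nat_lit 532) (nat_lit 6) (nat_lit 7) (nat_lit 0) (nat_lit 198) (nat_lit 197) (nat_lit 115)) (PT.lf (nat_lit 380) (nat_lit 6) (nat_lit 5) (nat_lit 0) (nat_lit 199) (nat_lit 197) (nat_lit 114))) (PT.nd (nat_lit 78) (PT.lf (nat_lit 152) (nat_lit 6) (nat_lit 2) (nat_lit 5) (nat_lit 112)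 (nat_lit 198) (nat_lit 200)) (PT.lf (nat_lit 304) (nat_lit 6) (nat_lit 4) (nat_lit 5) (nat_lit 113) (nat_lit 198) (nat_lit 199)))) (PT.nd (nat_lit 156) (PT.nd (nat_lit 78) (PT.lf (nat_lit 456) (nat_lit 3) (nat_lit 6) (nat_lit 4) (nat_lit 114) (nat_lit 198) (nat_lit 198)) (PT.lf (nat_lit 532) (nat_lit 6) (nat_lit 7) (nat_lit 4) (nat_lit 115) (nat_lit 198) (nat_lit 197))) (PT.nd (nat_lit 6240) (PT.lf (nat_lit 608) (nat_lit 6) (nat_lit 8) (nat_lit 4) (nat_lit 116) (nat_lit 198) (nat_lit 196)) (PT.lf (nat_lit 608) (nat_lit 6) (nat_lit 8) (nat_lit 2) (nat_lit 196) (nat_lit 198) (nat_lit 116)))))) (PT.nd (nat_lit 53118) (PT.nd (nat_lit 46410) (PT.nd (nat_lit 156) (PT.nd (nat_lit 78) (PT.lf (nat_lit 532) (nat_lit 6) (nat_lit 7) (nat_lit 2) (nat_lit 197) (nat_lit 198) (nat_lit 115)) (PT.lf (nat_lit 456) (nat_lit 3) (nat_lit 6) (nat_lit 0) (nat_lit 198) (nat_lit 198) (nat_lit 114))) (PT.nd (nat_lit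 78) (PT.lf (nat_lit 304) (nat_lit 6) (nat_lit 4) (nat_lit 0) (nat_lit 199) (nat_lit 198) (nat_lit 113)) (PT.lf (nat_lit 152) (nat_lit 6) (nat_lit 2) (nat_lit 0) (nat_lit 200) (nat_lit 198) (nat_lit 112)))) (PT.nd (nat_lit 156) (PT.nd (nat_lit 78) (PT.lf (nat_lit 76) (nat_lit 6) (nat_lit 1) (nat_lit 5) (nat_lit 111) (nat_lit 199) (nat_lit 200)) (PT.lf (nat_lit 228) (nat_lit 3) (nat_lit 3) (nat_lit 4) (nat_lit 112) (nat_lit 199) (nat_lit 199))) (PT.nd (nat_lit 78) (PT.lf (nat_lit 304) (nat_lit 6) (nat_lit 4) (nat_lit 4) (nat_lit 113) (nat_lit 199) (nat_lit 198)) (PT.lf (nat_lit 380) (nat_lit 6) (nat_lit 5) (nat_lit 4) (nat_lit 114) (nat_lit 199) (nat_lit 197))))) (PT.nd (nat_lit 46410) (PT.nd (nat_lit 156) (PT.nd (nat_lit 78) (PT.lf (nat_lit 380) (nat_lit 6) (nat_lit 5) (nat_lit 2) (nat_lit 197) (nat_lit 199) (nat_lit 114)) (PT.lf (nat_lit 304) (nat_lit 6) (nat_lit 4) (nat_lit 2) (nat_lit 198)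 (nat_lit 199) (nat_lit 113))) (PT.nd (nat_lit 78) (PT.lf (nat_lit 228) (nat_lit 3) (nat_lit 3) (nat_lit 0) (nat_lit 199) (nat_lit 199) (nat_lit 112)) (PT.lf (nat_lit 76) (nat_lit 6) (nat_lit 1) (nat_lit 0) (nat_lit 200) (nat_lit 199) (nat_lit 111)))) (PT.nd (nat_lit 6786) (PT.nd (nat_lit 78) (PT.lf (nat_lit 76) (nat_lit 6) (nat_lit 1) (nat_lit 4) (nat_lit 111) (nat_lit 200) (nat_lit 199)) (PT.lf (nat_lit 152) (nat_lit 6) (nat_lit 2) (nat_lit 4) (nat_lit 112) (nat_lit 200) (nat_lit 198))) (PT.nd (nat_lit 78) (PT.lf (nat_lit 152) (nat_lit 6) (nat_lit 2) (nat_lit 2) (nat_lit 198) (nat_lit 200) (nat_lit 112)) (PT.lf (nat_lit 76) (nat_lit 6) (nat_lit 1) (nat_lit 2) (nat_lit 199) (nat_lit 200) (nat_lit 111))))))))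
noncomputable def xc0 : XT := (XT.nd (nat_lit 264966) (nat_lit 0) (nat_lit 0) (XT.nd (nat_lit 159198) (nat_lit 0) (nat_lit 0) (XT.nd (nat_lit 106080) (nat_lit 0) (nat_lit 0) (XT.nd (nat_lit 53118) (nat_lit 0) (nat_lit 0) (XT.nd (nat_lit 52962) (nat_lit 0) (nat_lit 0) (XT.lf (nat_lit 0) (nat_lit 45197927441) (nat_lit 152) (nat_lit 389401308279) (nat_lit 0) (nat_lit 45197927441) (nat_lit 1) (nat_lit 5) (nat_lit 3) (nat_lit 4) (nat_lit 1) (nat_lit 4) (nat_lit 486) (nat_lit 267) (nat_lit 267)) (XT.nd (nat_lit 78) (nat_lit 0) (nat_lit 0) (XT.lf (nat_lit 0) (nat_lit 39492268720) (nat_lit 152) (nat_lit 356282411823) (nat_lit 0) (nat_lit 39492268720) (nat_lit 1) (nat_lit 5) (nat_lit 3) (nat_lit 4) (nat_lit 1) (nat_lit 4) (nat_lit 484) (nat_lit 268) (nat_lit 268)) (XT.lf (nat_lit 0) (nat_lit 84574734949) (nat_lit 152) (nat_lit 744849636648) (nat_lit 0) (nat_lit 84552983144) (nat_lit 1) (nat_lit 5)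 (nat_lit 3) (nat_lit 4) (nat_lit 1) (nat_lit 4) (nat_lit 485) (nat_lit 268) (nat_lit 267)))) (XT.nd (nat_lit 52806) (nat_lit 0) (nat_lit 0) (XT.lf (nat_lit 0) (nat_lit 90392048929) (nat_lit 152) (nat_lit 778853974903) (nat_lit 0) (nat_lit 90349581119) (nat_lit 1) (nat_lit 5) (nat_lit 3) (nat_lit 4) (nat_lit 1) (nat_lit 4) (nat_lit 486) (nat_lit 268) (nat_lit 266)) (XT.nd (nat_lit 78) (nat_lit 0) (nat_lit 0) (XT.lf (nat_lit 0) (nat_lit 34241888875) (nat_lit 152) (nat_lit 326396793757) (nat_lit 0) (nat_lit 34241888875) (nat_lit 1) (nat_lit 5) (nat_lit 3) (nat_lit 4) (nat_lit 1) (nat_lit 4) (nat_lit 482) (nat_lit 269) (nat_lit 269)) (XT.lf (nat_lit 0) (nat_lit 73630985807) (nat_lit 152) (nat_lit 681922667299) (nat_lit 0) (nat_lit 73608146411) (nat_lit 1) (nat_lit 5) (nat_lit 3) (nat_lit 4) (nat_lit 1) (nat_lit 4) (nat_lit 483) (nat_lit 269) (nat_lit 268))))) (XT.nd (nat_lit 52806) (nat_lit 0)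 (nat_lit 0) (XT.nd (nat_lit 78) (nat_lit 0) (nat_lit 0) (XT.lf (nat_lit 0) (nat_lit 78980541191) (nat_lit 152) (nat_lit 712618749908) (nat_lit 0) (nat_lit 78935949990) (nat_lit 1) (nat_lit 5) (nat_lit 3) (nat_lit 4) (nat_lit 1) (nat_lit 4) (nat_lit 484) (nat_lit 269) (nat_lit 267)) (XT.nd (nat_lit 78) (nat_lit 0) (nat_lit 0) (XT.lf (nat_lit 0) (nat_lit 84545180942) (nat_lit 152) (nat_lit 744954921252) (nat_lit 0) (nat_lit 84479873735) (nat_lit 1) (nat_lit 5) (nat_lit 3) (nat_lit 4) (nat_lit 1) (nat_lit 4) (nat_lit 485) (nat_lit 269) (nat_lit 266)) (XT.lf (nat_lit 0) (nat_lit 90338154200) (nat_lit 152) (nat_lit 779008172216) (nat_lit 0) (nat_lit 90253117465) (nat_lit 1) (nat_lit 5) (nat_lit 3) (nat_lit 4) (nat_lit 1) (nat_lit 4) (nat_lit 486) (nat_lit 269) (nat_lit 265)))) (XT.nd (nat_lit 156) (nat_lit 0) (nat_lit 0) (XT.nd (nat_lit 78) (nat_lit 0) (nat_lit 0) (XT.lf (nat_lit 0) (nat_lit 29400701432)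 (nat_lit 152) (nat_lit 299451564368) (nat_lit 0) (nat_lit 29400701432) (nat_lit 1) (nat_lit 5) (nat_lit 3) (nat_lit 4) (nat_lit 1) (nat_lit 4) (nat_lit 480) (nat_lit 270) (nat_lit 270)) (XT.lf (nat_lit 0) (nat_lit 63550643133) (nat_lit 152) (nat_lit 625162155603) (nat_lit 0) (nat_lit 63526661768) (nat_lit 1) (nat_lit 5) (nat_lit 3) (nat_lit 4) (nat_lit 1) (nat_lit 4) (nat_lit 481) (nat_lit 270) (nat_lit 269))) (XT.nd (nat_lit 78) (nat_lit 0) (nat_lit 0) (XT.lf (nat_lit 0) (nat_lit 68479581689) (nat_lit 152) (nat_lit 652850210089) (nat_lit 0) (nat_lit 68432760928) (nat_lit 1) (nat_lit 5) (nat_lit 3) (nat_lit 4) (nat_lit 1) (nat_lit 4) (nat_lit 482) (nat_lit 270) (nat_lit 268)) (XT.lf (nat_lit 0) (nat_lit 73599954099) (nat_lit 152) (nat_lit 682033216134) (nat_lit 0) (nat_lit 73531381532) (nat_lit 1) (nat_lit 5) (nat_lit 3) (nat_lit 4) (nat_lit 1) (nat_lit 4) (nat_lit 483) (nat_lit 270) (nat_lit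 267)))))) (XT.nd (nat_lit 52962) (nat_lit 0) (nat_lit 0) (XT.nd (nat_lit 52650) (nat_lit 0) (nat_lit 0) (XT.nd (nat_lit 78) (nat_lit 0) (nat_lit 0) (XT.lf (nat_lit 0) (nat_lit 78923951725) (nat_lit 152) (nat_lit 712780657087) (nat_lit 0) (nat_lit 78834663153) (nat_lit 1) (nat_lit 5) (nat_lit 3) (nat_lit 4) (nat_lit 1) (nat_lit 4) (nat_lit 484) (nat_lit 270) (nat_lit 266)) (XT.nd (nat_lit 78) (nat_lit 0) (nat_lit 0) (XT.lf (nat_lit 0) (nat_lit 84464250754) (nat_lit 152) (nat_lit 745165741140) (nat_lit 0) (nat_lit 84355232653) (nat_lit 1) (nat_lit 5) (nat_lit 3) (nat_lit 4) (nat_lit 1) (nat_lit 4) (nat_lit 485) (nat_lit 270) (nat_lit 265)) (XT.lf (nat_lit 0) (nat_lit 90234042373) (nat_lit 152) (nat_lit 779265575635) (nat_lit 0) (nat_lit 90106234244) (nat_lit 1) (nat_lit 5) (nat_lit 3) (nat_lit 4) (nat_lit 1) (nat_lit 4) (nat_lit 486) (nat_lit 270) (nat_lit 264)))) (XT.nd (nat_lit 156) (nat_lit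 0) (nat_lit 0) (XT.nd (nat_lit 78) (nat_lit 0) (nat_lit 0) (XT.lf (nat_lit 0) (nat_lit 24926716651) (nat_lit 152) (nat_lit 275181449546) (nat_lit 0) (nat_lit 24926716651) (nat_lit 1) (nat_lit 5) (nat_lit 3) (nat_lit 4) (nat_lit 1) (nat_lit 4) (nat_lit 478) (nat_lit 271) (nat_lit 271)) (XT.lf (nat_lit 0) (nat_lit 54245733600) (nat_lit 152) (nat_lit 574010607998) (nat_lit 0) (nat_lit 54220553166) (nat_lit 1) (nat_lit 5) (nat_lit 3) (nat_lit 4) (nat_lit 1) (nat_lit 4) (nat_lit 479) (nat_lit 271) (nat_lit 270))) (XT.nd (nat_lit 78) (nat_lit 0) (nat_lit 0) (XT.lf (nat_lit 0) (nat_lit 58796996998) (nat_lit 152) (nat_lit 598962582439) (nat_lit 0) (nat_lit 58747835199) (nat_lit 1) (nat_lit 5) (nat_lit 3) (nat_lit 4) (nat_lit 1) (nat_lit 4) (nat_lit 480) (nat_lit 271) (nat_lit 269)) (XT.lf (nat_lit 0) (nat_lit 63518059840) (nat_lit 152) (nat_lit 625278231879) (nat_lit 0) (nat_lit 63446058645) (nat_lit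 1) (nat_lit 5) (nat_lit 3) (nat_lit 4) (nat_lit 1) (nat_lit 4) (nat_lit 481) (nat_lit 271) (nat_lit 268))))) (XT.nd (nat_lit 234) (nat_lit 0) (nat_lit 0) (XT.nd (nat_lit 78) (nat_lit 0) (nat_lit 0) (XT.lf (nat_lit 0) (nat_lit 68420162750) (nat_lit 152) (nat_lit 653020212627) (nat_lit 0) (nat_lit 68326409749) (nat_lit 1) (nat_lit 5) (nat_lit 3) (nat_lit 4) (nat_lit 1) (nat_lit 4) (nat_lit 482) (nat_lit 271) (nat_lit 267)) (XT.nd (nat_lit 78) (nat_lit 0) (nat_lit 0) (XT.lf (nat_lit 0) (nat_lit 73514977402) (nat_lit 152) (nat_lit 682254577016) (nat_lit 0) (nat_lit 73400508396) (nat_lit 1) (nat_lit 5) (nat_lit 3) (nat_lit 4) (nat_lit 1) (nat_lit 4) (nat_lit 483) (nat_lit 271) (nat_lit 266)) (XT.lf (nat_lit 0) (nat_lit 78814634307) (nat_lit 152) (nat_lit 713050930677) (nat_lit 0) (nat_lit 78680435772) (nat_lit 1) (nat_lit 5) (nat_lit 3) (nat_lit 4) (nat_lit 1) (nat_lit 4) (nat_lit 484) (nat_lit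 271) (nat_lit 265)))) (XT.nd (nat_lit 52416) (nat_lit 0) (nat_lit 0) (XT.nd (nat_lit 78) (nat_lit 0) (nat_lit 0) (XT.lf (nat_lit 0) (nat_lit 84331751696) (nat_lit 152) (nat_lit 745482598261) (nat_lit 0) (nat_lit 84178763134) (nat_lit 1) (nat_lit 5) (nat_lit 3) (nat_lit 4) (nat_lit 1) (nat_lit 4) (nat_lit 485) (nat_lit 271) (nat_lit 264)) (XT.lf (nat_lit 0) (nat_lit 90079465562) (nat_lit 152) (nat_lit 779626798025) (nat_lit 0) (nat_lit 89908581736) (nat_lit 1) (nat_lit 5) (nat_lit 3) (nat_lit 4) (nat_lit 1) (nat_lit 4) (nat_lit 486) (nat_lit 271) (nat_lit 263))) (XT.nd (nat_lit 78) (nat_lit 0) (nat_lit 0) (XT.lf (nat_lit 0) (nat_lit 20781651256) (nat_lit 152) (nat_lit 253346242622) (nat_lit 0) (nat_lit 20781651256) (nat_lit 1) (nat_lit 5) (nat_lit 3) (nat_lit 4) (nat_lit 1) (nat_lit 4) (nat_lit 476) (nat_lit 272) (nat_lit 272)) (XT.lf (nat_lit 0) (nat_lit 45636077703) (nat_lit 152) (nat_lit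 527963151654) (nat_lit 0) (nat_lit 45609638248) (nat_lit 1) (nat_lit 5) (nat_lit 3) (nat_lit 4) (nat_lit 1) (nat_lit 4) (nat_lit 477) (nat_lit 272) (nat_lit 271))))))) (XT.nd (nat_lit 53118) (nat_lit 0) (nat_lit 0) (XT.nd (nat_lit 468) (nat_lit 0) (nat_lit 0) (XT.nd (nat_lit 234) (nat_lit 0) (nat_lit 0) (XT.nd (nat_lit 78) (nat_lit 0) (nat_lit 0) (XT.lf (nat_lit 0) (nat_lit 49848807143) (nat_lit 152) (nat_lit 550425325480) (nat_lit 0) (nat_lit 49797187254) (nat_lit 1) (nat_lit 5) (nat_lit 3) (nat_lit 4) (nat_lit 1) (nat_lit 4) (nat_lit 478) (nat_lit 272) (nat_lit 270)) (XT.nd (nat_lit 78) (nat_lit 0) (nat_lit 0) (XT.lf (nat_lit 0) (nat_lit 54211521141) (nat_lit 152) (nat_lit 574132488088) (nat_lit 0) (nat_lit 54135919886) (nat_lit 1) (nat_lit 5) (nat_lit 3) (nat_lit 4) (nat_lit 1) (nat_lit 4) (nat_lit 479) (nat_lit 272) (nat_lit 269)) (XT.lf (nat_lit 0) (nat_lit 58734607112) (nat_lit 152)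 (nat_lit 599141085104) (nat_lit 0) (nat_lit 58636166462) (nat_lit 1) (nat_lit 5) (nat_lit 3) (nat_lit 4) (nat_lit 1) (nat_lit 4) (nat_lit 480) (nat_lit 272) (nat_lit 268)))) (XT.nd (nat_lit 78) (nat_lit 0) (nat_lit 0) (XT.lf (nat_lit 0) (nat_lit 63428834308) (nat_lit 152) (nat_lit 625510660805) (nat_lit 0) (nat_lit 63308641852) (nat_lit 1) (nat_lit 5) (nat_lit 3) (nat_lit 4) (nat_lit 1) (nat_lit 4) (nat_lit 481) (nat_lit 272) (nat_lit 267)) (XT.nd (nat_lit 78) (nat_lit 0) (nat_lit 0) (XT.lf (nat_lit 0) (nat_lit 68305379460) (nat_lit 152) (nat_lit 653303999896) (nat_lit 0) (nat_lit 68164470999) (nat_lit 1) (nat_lit 5) (nat_lit 3) (nat_lit 4) (nat_lit 1) (nat_lit 4) (nat_lit 482) (nat_lit 272) (nat_lit 266)) (XT.lf (nat_lit 0) (nat_lit 73375853390) (nat_lit 152) (nat_lit 682587276994) (nat_lit 0) (nat_lit 73215215400) (nat_lit 1) (nat_lit 5) (nat_lit 3) (nat_lit 4) (nat_lit 1) (nat_lit 4) (nat_lit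 483) (nat_lit 272) (nat_lit 265))))) (XT.nd (nat_lit 52338) (nat_lit 0) (nat_lit 0) (XT.nd (nat_lit 78) (nat_lit 0) (nat_lit 0) (XT.lf (nat_lit 0) (nat_lit 78652328656) (nat_lit 152) (nat_lit 713430214187) (nat_lit 0) (nat_lit 78472900638) (nat_lit 1) (nat_lit 5) (nat_lit 3) (nat_lit 4) (nat_lit 1) (nat_lit 4) (nat_lit 484) (nat_lit 272) (nat_lit 264)) (XT.nd (nat_lit 78) (nat_lit 0) (nat_lit 0) (XT.lf (nat_lit 0) (nat_lit 84147368293) (nat_lit 152) (nat_lit 745906247040) (nat_lit 0) (nat_lit 83950045011) (nat_lit 1) (nat_lit 5) (nat_lit 3) (nat_lit 4) (nat_lit 1) (nat_lit 4) (nat_lit 485) (nat_lit 272) (nat_lit 263)) (XT.lf (nat_lit 0) (nat_lit 89874055729) (nat_lit 152) (nat_lit 780092699440) (nat_lit 0) (nat_lit 89659689338) (nat_lit 1) (nat_lit 5) (nat_lit 3) (nat_lit 4) (nat_lit 1) (nat_lit 4) (nat_lit 486) (nat_lit 272) (nat_lit 262)))) (XT.nd (nat_lit 156) (nat_lit 0) (nat_lit 0) (XT.nd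 (nat_lit 78) (nat_lit 0) (nat_lit 0) (XT.lf (nat_lit 0) (nat_lit 16930573976) (nat_lit 152) (nat_lit 233728494071) (nat_lit 0) (nat_lit 16930573976) (nat_lit 1) (nat_lit 5) (nat_lit 3) (nat_lit 4) (nat_lit 1) (nat_lit 4) (nat_lit 474) (nat_lit 273) (nat_lit 273)) (XT.lf (nat_lit 0) (nat_lit 37648545918) (nat_lit 152) (nat_lit 486562681805) (nat_lit 0) (nat_lit 37620784490) (nat_lit 1) (nat_lit 5) (nat_lit 3) (nat_lit 4) (nat_lit 1) (nat_lit 4) (nat_lit 475) (nat_lit 273) (nat_lit 272))) (XT.nd (nat_lit 78) (nat_lit 0) (nat_lit 0) (XT.lf (nat_lit 0) (nat_lit 41558445047) (nat_lit 152) (nat_lit 506758032951) (nat_lit 0) (nat_lit 41504244163) (nat_lit 1) (nat_lit 5) (nat_lit 3) (nat_lit 4) (nat_lit 1) (nat_lit 4) (nat_lit 476) (nat_lit 273) (nat_lit 271)) (XT.lf (nat_lit 0) (nat_lit 45600154622) (nat_lit 152) (nat_lit 528091125749) (nat_lit 0) (nat_lit 45520773304) (nat_lit 1) (nat_lit 5) (nat_lit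 3) (nat_lit 4) (nat_lit 1) (nat_lit 4) (nat_lit 477) (nat_lit 273) (nat_lit 270)))))) (XT.nd (nat_lit 546) (nat_lit 0) (nat_lit 0) (XT.nd (nat_lit 234) (nat_lit 0) (nat_lit 0) (XT.nd (nat_lit 78) (nat_lit 0) (nat_lit 0) (XT.lf (nat_lit 0) (nat_lit 49783297763) (nat_lit 152) (nat_lit 550612753278) (nat_lit 0) (nat_lit 49679935079) (nat_lit 1) (nat_lit 5) (nat_lit 3) (nat_lit 4) (nat_lit 1) (nat_lit 4) (nat_lit 478) (nat_lit 273) (nat_lit 269)) (XT.nd (nat_lit 78) (nat_lit 0) (nat_lit 0) (XT.lf (nat_lit 0) (nat_lit 54117834333) (nat_lit 152) (nat_lit 574376538460) (nat_lit 0) (nat_lit 53991632254) (nat_lit 1) (nat_lit 5) (nat_lit 3) (nat_lit 4) (nat_lit 1) (nat_lit 4) (nat_lit 479) (nat_lit 273) (nat_lit 268)) (XT.lf (nat_lit 0) (nat_lit 58614084658) (nat_lit 152) (nat_lit 599439061737) (nat_lit 0) (nat_lit 58466130774) (nat_lit 1) (nat_lit 5) (nat_lit 3) (nat_lit 4) (nat_lit 1) (nat_lit 4)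 (nat_lit 480) (nat_lit 273) (nat_lit 267)))) (XT.nd (nat_lit 156) (nat_lit 0) (nat_lit 0) (XT.nd (nat_lit 78) (nat_lit 0) (nat_lit 0) (XT.lf (nat_lit 0) (nat_lit 63282754096) (nat_lit 152) (nat_lit 625859995782) (nat_lit 0) (nat_lit 63114084206) (nat_lit 1) (nat_lit 5) (nat_lit 3) (nat_lit 4) (nat_lit 1) (nat_lit 4) (nat_lit 481) (nat_lit 273) (nat_lit 266)) (XT.lf (nat_lit 0) (nat_lit 68134958527) (nat_lit 152) (nat_lit 653702247581) (nat_lit 0) (nat_lit 67946559108) (nat_lit 1) (nat_lit 5) (nat_lit 3) (nat_lit 4) (nat_lit 1) (nat_lit 4) (nat_lit 482) (nat_lit 273) (nat_lit 265))) (XT.nd (nat_lit 78) (nat_lit 0) (nat_lit 0) (XT.lf (nat_lit 0) (nat_lit 73182250817) (nat_lit 152) (nat_lit 683032108211) (nat_lit 0) (nat_lit 72975061371) (nat_lit 1) (nat_lit 5) (nat_lit 3) (nat_lit 4) (nat_lit 1) (nat_lit 4) (nat_lit 483) (nat_lit 273) (nat_lit 264)) (XT.lf (nat_lit 0) (nat_lit 78436648330)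 (nat_lit 152) (nat_lit 713919410672) (nat_lit 0) (nat_lit 78211563620) (nat_lit 1) (nat_lit 5) (nat_lit 3) (nat_lit 4) (nat_lit 1) (nat_lit 4) (nat_lit 484) (nat_lit 273) (nat_lit 263))))) (XT.nd (nat_lit 52182) (nat_lit 0) (nat_lit 0) (XT.nd (nat_lit 78) (nat_lit 0) (nat_lit 0) (XT.lf (nat_lit 0) (nat_lit 83910661537) (nat_lit 152) (nat_lit 746437696161) (nat_lit 0) (nat_lit 83668533718) (nat_lit 1) (nat_lit 5) (nat_lit 3) (nat_lit 4) (nat_lit 1) (nat_lit 4) (nat_lit 485) (nat_lit 273) (nat_lit 262)) (XT.nd (nat_lit 52026) (nat_lit 0) (nat_lit 0) (XT.lf (nat_lit 0) (nat_lit 89617323801) (nat_lit 152) (nat_lit 780664389168) (nat_lit 0) (nat_lit 89358964449) (nat_lit 1) (nat_lit 5) (nat_lit 3) (nat_lit 4) (nat_lit 1) (nat_lit 4) (nat_lit 486) (nat_lit 273) (nat_lit 261)) (XT.lf (nat_lit 0) (nat_lit 13341583543) (nat_lit 152) (nat_lit 216131417022) (nat_lit 0) (nat_lit 13341583543) (nat_lit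 1) (nat_lit 5) (nat_lit 3) (nat_lit 4) (nat_lit 1) (nat_lit 4) (nat_lit 472) (nat_lit 274) (nat_lit 274)))) (XT.nd (nat_lit 156) (nat_lit 0) (nat_lit 0) (XT.nd (nat_lit 78) (nat_lit 0) (nat_lit 0) (XT.lf (nat_lit 0) (nat_lit 30216383037) (nat_lit 152) (nat_lit 449395462215) (nat_lit 0) (nat_lit 30187233537) (nat_lit 1) (nat_lit 5) (nat_lit 3) (nat_lit 4) (nat_lit 1) (nat_lit 4) (nat_lit 473) (nat_lit 274) (nat_lit 273)) (XT.lf (nat_lit 0) (nat_lit 33856047613) (nat_lit 152) (nat_lit 467525813235) (nat_lit 0) (nat_lit 33799136685) (nat_lit 1) (nat_lit 5) (nat_lit 3) (nat_lit 4) (nat_lit 1) (nat_lit 4) (nat_lit 474) (nat_lit 274) (nat_lit 272))) (XT.nd (nat_lit 78) (nat_lit 0) (nat_lit 0) (XT.lf (nat_lit 0) (nat_lit 37610826683) (nat_lit 152) (nat_lit 486697054605) (nat_lit 0) (nat_lit 37527476299) (nat_lit 1) (nat_lit 5) (nat_lit 3) (nat_lit 4) (nat_lit 1) (nat_lit 4) (nat_lit 475) (nat_lit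 274) (nat_lit 271)) (XT.lf (nat_lit 0) (nat_lit 41489660197) (nat_lit 152) (nat_lit 506954832139) (nat_lit 0) (nat_lit 41381129380) (nat_lit 1) (nat_lit 5) (nat_lit 3) (nat_lit 4) (nat_lit 1) (nat_lit 4) (nat_lit 476) (nat_lit 274) (nat_lit 270))))))))
noncomputable def xc1 : XT := (XT.nd (nat_lit 105534) (nat_lit 0) (nat_lit 0) (XT.nd (nat_lit 52806) (nat_lit 0) (nat_lit 0) (XT.nd (nat_lit 468) (nat_lit 0) (nat_lit 0) (XT.nd (nat_lit 234) (nat_lit 0) (nat_lit 0) (XT.nd (nat_lit 78) (nat_lit 0) (nat_lit 0) (XT.lf (nat_lit 0) (nat_lit 45501783473) (nat_lit 152) (nat_lit 528347378640) (nat_lit 0) (nat_lit 45369271290) (nat_lit 1) (nat_lit 5) (nat_lit 3) (nat_lit 4) (nat_lit 1) (nat_lit 4) (nat_lit 477) (nat_lit 274) (nat_lit 269)) (XT.nd (nat_lit 78) (nat_lit 0) (nat_lit 0) (XT.lf (nat_lit 0) (nat_lit 49656749186) (nat_lit 152) (nat_lit 550925628743) (nat_lit 0) (nat_lit 49501397607) (nat_lit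 1) (nat_lit 5) (nat_lit 3) (nat_lit 4) (nat_lit 1) (nat_lit 4) (nat_lit 478) (nat_lit 274) (nat_lit 268)) (XT.lf (nat_lit 0) (nat_lit 53964450111) (nat_lit 152) (nat_lit 574743340186) (nat_lit 0) (nat_lit 53787346726) (nat_lit 1) (nat_lit 5) (nat_lit 3) (nat_lit 4) (nat_lit 1) (nat_lit 4) (nat_lit 479) (nat_lit 274) (nat_lit 267)))) (XT.nd (nat_lit 78) (nat_lit 0) (nat_lit 0) (XT.lf (nat_lit 0) (nat_lit 58435142678) (nat_lit 152) (nat_lit 599857221806) (nat_lit 0) (nat_lit 58237323289) (nat_lit 1) (nat_lit 5) (nat_lit 3) (nat_lit 4) (nat_lit 1) (nat_lit 4) (nat_lit 480) (nat_lit 274) (nat_lit 266)) (XT.nd (nat_lit 78) (nat_lit 0) (nat_lit 0) (XT.lf (nat_lit 0) (nat_lit 63079471394) (nat_lit 152) (nat_lit 626327068560) (nat_lit 0) (nat_lit 62861922476) (nat_lit 1) (nat_lit 5) (nat_lit 3) (nat_lit 4) (nat_lit 1) (nat_lit 4) (nat_lit 481) (nat_lit 274) (nat_lit 265)) (XT.lf (nat_lit 0) (nat_lit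 67908494185) (nat_lit 152) (nat_lit 654215903891) (nat_lit 0) (nat_lit 67672155239) (nat_lit 1) (nat_lit 5) (nat_lit 3) (nat_lit 4) (nat_lit 1) (nat_lit 4) (nat_lit 482) (nat_lit 274) (nat_lit 264))))) (XT.nd (nat_lit 234) (nat_lit 0) (nat_lit 0) (XT.nd (nat_lit 78) (nat_lit 0) (nat_lit 0) (XT.lf (nat_lit 0) (nat_lit 72933708724) (nat_lit 152) (nat_lit 683590129789) (nat_lit 0) (nat_lit 72679474514) (nat_lit 1) (nat_lit 5) (nat_lit 3) (nat_lit 4) (nat_lit 1) (nat_lit 4) (nat_lit 483) (nat_lit 274) (nat_lit 263)) (XT.nd (nat_lit 78) (nat_lit 0) (nat_lit 0) (XT.lf (nat_lit 0) (nat_lit 78167079806) (nat_lit 152) (nat_lit 714519684887) (nat_lit 0) (nat_lit 77895802487) (nat_lit 1) (nat_lit 5) (nat_lit 3) (nat_lit 4) (nat_lit 1) (nat_lit 4) (nat_lit 484) (nat_lit 274) (nat_lit 262)) (XT.lf (nat_lit 0) (nat_lit 83621067840) (nat_lit 152) (nat_lit 747078210982) (nat_lit 0) (nat_lit 83333558989)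 (nat_lit 1) (nat_lit 5) (nat_lit 3) (nat_lit 4) (nat_lit 1) (nat_lit 4) (nat_lit 485) (nat_lit 274) (nat_lit 261)))) (XT.nd (nat_lit 51948) (nat_lit 0) (nat_lit 0) (XT.nd (nat_lit 51870) (nat_lit 0) (nat_lit 0) (XT.lf (nat_lit 0) (nat_lit 89308658512) (nat_lit 152) (nat_lit 781343228376) (nat_lit 0) (nat_lit 89005691059) (nat_lit 1) (nat_lit 5) (nat_lit 3) (nat_lit 4) (nat_lit 1) (nat_lit 4) (nat_lit 486) (nat_lit 274) (nat_lit 260)) (XT.lf (nat_lit 0) (nat_lit 9985516115) (nat_lit 152) (nat_lit 200376988551) (nat_lit 0) (nat_lit 9985516115) (nat_lit 1) (nat_lit 5) (nat_lit 3) (nat_lit 4) (nat_lit 1) (nat_lit 4) (nat_lit 470) (nat_lit 275) (nat_lit 275))) (XT.nd (nat_lit 78) (nat_lit 0) (nat_lit 0) (XT.lf (nat_lit 0) (nat_lit 23278594319) (nat_lit 152) (nat_lit 416087136751) (nat_lit 0) (nat_lit 23247987344) (nat_lit 1) (nat_lit 5) (nat_lit 3) (nat_lit 4) (nat_lit 1) (nat_lit 4) (nat_lit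 471) (nat_lit 275) (nat_lit 274)) (XT.lf (nat_lit 0) (nat_lit 26677811730) (nat_lit 152) (nat_lit 432335100392) (nat_lit 0) (nat_lit 26618055255) (nat_lit 1) (nat_lit 5) (nat_lit 3) (nat_lit 4) (nat_lit 1) (nat_lit 4) (nat_lit 472) (nat_lit 275) (nat_lit 273)))))) (XT.nd (nat_lit 546) (nat_lit 0) (nat_lit 0) (XT.nd (nat_lit 234) (nat_lit 0) (nat_lit 0) (XT.nd (nat_lit 78) (nat_lit 0) (nat_lit 0) (XT.lf (nat_lit 0) (nat_lit 30176777840) (nat_lit 152) (nat_lit 449536553655) (nat_lit 0) (nat_lit 30089259937) (nat_lit 1) (nat_lit 5) (nat_lit 3) (nat_lit 4) (nat_lit 1) (nat_lit 4) (nat_lit 473) (nat_lit 275) (nat_lit 272)) (XT.nd (nat_lit 78) (nat_lit 0) (nat_lit 0) (XT.lf (nat_lit 0) (nat_lit 33783823521) (nat_lit 152) (nat_lit 467732452382) (nat_lit 0) (nat_lit 33669866163) (nat_lit 1) (nat_lit 5) (nat_lit 3) (nat_lit 4) (nat_lit 1) (nat_lit 4) (nat_lit 474) (nat_lit 275) (nat_lit 271)) (XT.lf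 (nat_lit 0) (nat_lit 37507536977) (nat_lit 152) (nat_lit 486966120140) (nat_lit 0) (nat_lit 37368399185) (nat_lit 1) (nat_lit 5) (nat_lit 3) (nat_lit 4) (nat_lit 1) (nat_lit 4) (nat_lit 475) (nat_lit 275) (nat_lit 270)))) (XT.nd (nat_lit 156) (nat_lit 0) (nat_lit 0) (XT.nd (nat_lit 78) (nat_lit 0) (nat_lit 0) (XT.lf (nat_lit 0) (nat_lit 41356784192) (nat_lit 152) (nat_lit 507283351376) (nat_lit 0) (nat_lit 41193665034) (nat_lit 1) (nat_lit 5) (nat_lit 3) (nat_lit 4) (nat_lit 1) (nat_lit 4) (nat_lit 476) (nat_lit 275) (nat_lit 269)) (XT.lf (nat_lit 0) (nat_lit 45340730040) (nat_lit 152) (nat_lit 528732520452) (nat_lit 0) (nat_lit 45154771486) (nat_lit 1) (nat_lit 5) (nat_lit 3) (nat_lit 4) (nat_lit 1) (nat_lit 4) (nat_lit 477) (nat_lit 275) (nat_lit 268))) (XT.nd (nat_lit 78) (nat_lit 0) (nat_lit 0) (XT.lf (nat_lit 0) (nat_lit 49468860107) (nat_lit 152) (nat_lit 551364696816) (nat_lit 0) (nat_lit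 49261149748) (nat_lit 1) (nat_lit 5) (nat_lit 3) (nat_lit 4) (nat_lit 1) (nat_lit 4) (nat_lit 478) (nat_lit 275) (nat_lit 267)) (XT.lf (nat_lit 0) (nat_lit 53751003274) (nat_lit 152) (nat_lit 575233766603) (nat_lit 0) (nat_lit 53522576909) (nat_lit 1) (nat_lit 5) (nat_lit 3) (nat_lit 4) (nat_lit 1) (nat_lit 4) (nat_lit 479) (nat_lit 275) (nat_lit 266))))) (XT.nd (nat_lit 234) (nat_lit 0) (nat_lit 0) (XT.nd (nat_lit 78) (nat_lit 0) (nat_lit 0) (XT.lf (nat_lit 0) (nat_lit 58197355119) (nat_lit 152) (nat_lit 600396560931) (nat_lit 0) (nat_lit 57949199226) (nat_lit 1) (nat_lit 5) (nat_lit 3) (nat_lit 4) (nat_lit 1) (nat_lit 4) (nat_lit 480) (nat_lit 275) (nat_lit 265)) (XT.nd (nat_lit 78) (nat_lit 0) (nat_lit 0) (XT.lf (nat_lit 0) (nat_lit 62818502196) (nat_lit 152) (nat_lit 626912991217) (nat_lit 0) (nat_lit 62551556275) (nat_lit 1) (nat_lit 5) (nat_lit 3) (nat_lit 4) (nat_lit 1) (nat_lit 4)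 (nat_lit 481) (nat_lit 275) (nat_lit 264)) (XT.lf (nat_lit 0) (nat_lit 67625447235) (nat_lit 152) (nat_lit 654846191816) (nat_lit 0) (nat_lit 67340606050) (nat_lit 1) (nat_lit 5) (nat_lit 3) (nat_lit 4) (nat_lit 1) (nat_lit 4) (nat_lit 482) (nat_lit 275) (nat_lit 263)))) (XT.nd (nat_lit 156) (nat_lit 0) (nat_lit 0) (XT.nd (nat_lit 78) (nat_lit 0) (nat_lit 0) (XT.lf (nat_lit 0) (nat_lit 72629635342) (nat_lit 152) (nat_lit 684262670351) (nat_lit 0) (nat_lit 72327751049) (nat_lit 1) (nat_lit 5) (nat_lit 3) (nat_lit 4) (nat_lit 1) (nat_lit 4) (nat_lit 483) (nat_lit 275) (nat_lit 262)) (XT.lf (nat_lit 0) (nat_lit 77842981253) (nat_lit 152) (nat_lit 715232466055) (nat_lit 0) (nat_lit 77524865427) (nat_lit 1) (nat_lit 5) (nat_lit 3) (nat_lit 4) (nat_lit 1) (nat_lit 4) (nat_lit 484) (nat_lit 275) (nat_lit 261))) (XT.nd (nat_lit 78) (nat_lit 0) (nat_lit 0) (XT.lf (nat_lit 0) (nat_lit 83277897695)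 (nat_lit 152) (nat_lit 747829316537) (nat_lit 0) (nat_lit 82944323267) (nat_lit 1) (nat_lit 5) (nat_lit 3) (nat_lit 4) (nat_lit 1) (nat_lit 4) (nat_lit 485) (nat_lit 275) (nat_lit 260)) (XT.lf (nat_lit 0) (nat_lit 88947324945) (nat_lit 152) (nat_lit 782130833347) (nat_lit 0) (nat_lit 88599028039) (nat_lit 1) (nat_lit 5) (nat_lit 3) (nat_lit 4) (nat_lit 1) (nat_lit 4) (nat_lit 486) (nat_lit 275) (nat_lit 259))))))) (XT.nd (nat_lit 1014) (nat_lit 0) (nat_lit 0) (XT.nd (nat_lit 468) (nat_lit 0) (nat_lit 0) (XT.nd (nat_lit 234) (nat_lit 0) (nat_lit 0) (XT.nd (nat_lit 78) (nat_lit 0) (nat_lit 0) (XT.lf (nat_lit 0) (nat_lit 6835679354) (nat_lit 152) (nat_lit 186304228617) (nat_lit 0) (nat_lit 6835679354) (nat_lit 1) (nat_lit 5) (nat_lit 3) (nat_lit 4) (nat_lit 1) (nat_lit 4) (nat_lit 468) (nat_lit 276) (nat_lit 276)) (XT.nd (nat_lit 78) (nat_lit 0) (nat_lit 0) (XT.lf (nat_lit 0) (nat_lit 16779387644)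 (nat_lit 152) (nat_lit 386299113928) (nat_lit 0) (nat_lit 16747250321) (nat_lit 1) (nat_lit 5) (nat_lit 3) (nat_lit 4) (nat_lit 1) (nat_lit 4) (nat_lit 469) (nat_lit 276) (nat_lit 275)) (XT.lf (nat_lit 0) (nat_lit 19965409107) (nat_lit 152) (nat_lit 400829856768) (nat_lit 0) (nat_lit 19902664808) (nat_lit 1) (nat_lit 5) (nat_lit 3) (nat_lit 4) (nat_lit 1) (nat_lit 4) (nat_lit 470) (nat_lit 276) (nat_lit 274)))) (XT.nd (nat_lit 78) (nat_lit 0) (nat_lit 0) (XT.lf (nat_lit 0) (nat_lit 23237008862) (nat_lit 152) (nat_lit 416235282762) (nat_lit 0) (nat_lit 23145115064) (nat_lit 1) (nat_lit 5) (nat_lit 3) (nat_lit 4) (nat_lit 1) (nat_lit 4) (nat_lit 471) (nat_lit 276) (nat_lit 273)) (XT.nd (nat_lit 78) (nat_lit 0) (nat_lit 0) (XT.lf (nat_lit 0) (nat_lit 26601976433) (nat_lit 152) (nat_lit 432552071496) (nat_lit 0) (nat_lit 26482321207) (nat_lit 1) (nat_lit 5) (nat_lit 3) (nat_lit 4) (nat_lit 1)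 (nat_lit 4) (nat_lit 472) (nat_lit 276) (nat_lit 272)) (XT.lf (nat_lit 0) (nat_lit 30068323649) (nat_lit 152) (nat_lit 449819072467) (nat_lit 0) (nat_lit 29922228967) (nat_lit 1) (nat_lit 5) (nat_lit 3) (nat_lit 4) (nat_lit 1) (nat_lit 4) (nat_lit 473) (nat_lit 276) (nat_lit 271))))) (XT.nd (nat_lit 234) (nat_lit 0) (nat_lit 0) (XT.nd (nat_lit 78) (nat_lit 0) (nat_lit 0) (XT.lf (nat_lit 0) (nat_lit 33644303715) (nat_lit 152) (nat_lit 468077397582) (nat_lit 0) (nat_lit 33473028600) (nat_lit 1) (nat_lit 5) (nat_lit 3) (nat_lit 4) (nat_lit 1) (nat_lit 4) (nat_lit 474) (nat_lit 276) (nat_lit 270)) (XT.nd (nat_lit 78) (nat_lit 0) (nat_lit 0) (XT.lf (nat_lit 0) (nat_lit 37338430872) (nat_lit 152) (nat_lit 487370519042) (nat_lit 0) (nat_lit 37143174390) (nat_lit 1) (nat_lit 5) (nat_lit 3) (nat_lit 4) (nat_lit 1) (nat_lit 4) (nat_lit 475) (nat_lit 276) (nat_lit 269)) (XT.lf (nat_lit 0) (nat_lit 41159500658)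 (nat_lit 152) (nat_lit 507744372853) (nat_lit 0) (nat_lit 40941404781) (nat_lit 1) (nat_lit 5) (nat_lit 3) (nat_lit 4) (nat_lit 1) (nat_lit 4) (nat_lit 476) (nat_lit 276) (nat_lit 268)))) (XT.nd (nat_lit 156) (nat_lit 0) (nat_lit 0) (XT.nd (nat_lit 78) (nat_lit 0) (nat_lit 0) (XT.lf (nat_lit 0) (nat_lit 45116610861) (nat_lit 152) (nat_lit 529247468189) (nat_lit 0) (nat_lit 44876763178) (nat_lit 1) (nat_lit 5) (nat_lit 3) (nat_lit 4) (nat_lit 1) (nat_lit 4) (nat_lit 477) (nat_lit 276) (nat_lit 267)) (XT.lf (nat_lit 0) (nat_lit 49219183170) (nat_lit 152) (nat_lit 551931002897) (nat_lit 0) (nat_lit 48958619482) (nat_lit 1) (nat_lit 5) (nat_lit 3) (nat_lit 4) (nat_lit 1) (nat_lit 4) (nat_lit 478) (nat_lit 276) (nat_lit 266))) (XT.nd (nat_lit 78) (nat_lit 0) (nat_lit 0) (XT.lf (nat_lit 0) (nat_lit 53476985615) (nat_lit 152) (nat_lit 575848985393) (nat_lit 0) (nat_lit 53196692399) (nat_lit 1) (nat_lit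 5) (nat_lit 3) (nat_lit 4) (nat_lit 1) (nat_lit 4) (nat_lit 479) (nat_lit 276) (nat_lit 265)) (XT.lf (nat_lit 0) (nat_lit 57900155821) (nat_lit 152) (nat_lit 601058363253) (nat_lit 0) (nat_lit 57601072577) (nat_lit 1) (nat_lit 5) (nat_lit 3) (nat_lit 4) (nat_lit 1) (nat_lit 4) (nat_lit 480) (nat_lit 276) (nat_lit 264)))))) (XT.nd (nat_lit 52026) (nat_lit 0) (nat_lit 0) (XT.nd (nat_lit 234) (nat_lit 0) (nat_lit 0) (XT.nd (nat_lit 78) (nat_lit 0) (nat_lit 0) (XT.lf (nat_lit 0) (nat_lit 62499225146) (nat_lit 152) (nat_lit 627619158806) (nat_lit 0) (nat_lit 62182246638) (nat_lit 1) (nat_lit 5) (nat_lit 3) (nat_lit 4) (nat_lit 1) (nat_lit 4) (nat_lit 481) (nat_lit 276) (nat_lit 263)) (XT.nd (nat_lit 78) (nat_lit 0) (nat_lit 0) (XT.lf (nat_lit 0) (nat_lit 67285143754) (nat_lit 152) (nat_lit 655594612043) (nat_lit 0) (nat_lit 66951122137) (nat_lit 1) (nat_lit 5) (nat_lit 3) (nat_lit 4) (nat_lit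 1) (nat_lit 4) (nat_lit 482) (nat_lit 276) (nat_lit 262)) (XT.lf (nat_lit 0) (nat_lit 72269306690) (nat_lit 152) (nat_lit 685051331183) (nat_lit 0) (nat_lit 71919053541) (nat_lit 1) (nat_lit 5) (nat_lit 3) (nat_lit 4) (nat_lit 1) (nat_lit 4) (nat_lit 483) (nat_lit 276) (nat_lit 261)))) (XT.nd (nat_lit 156) (nat_lit 0) (nat_lit 0) (XT.nd (nat_lit 78) (nat_lit 0) (nat_lit 0) (XT.lf (nat_lit 0) (nat_lit 77463581008) (nat_lit 152) (nat_lit 716059451274) (nat_lit 0) (nat_lit 77097869257) (nat_lit 1) (nat_lit 5) (nat_lit 3) (nat_lit 4) (nat_lit 1) (nat_lit 4) (nat_lit 484) (nat_lit 276) (nat_lit 260)) (XT.lf (nat_lit 0) (nat_lit 82880334029) (nat_lit 152) (nat_lit 748692801173) (nat_lit 0) (nat_lit 82499899799) (nat_lit 1) (nat_lit 5) (nat_lit 3) (nat_lit 4) (nat_lit 1) (nat_lit 4) (nat_lit 485) (nat_lit 276) (nat_lit 259))) (XT.nd (nat_lit 51558) (nat_lit 0) (nat_lit 0) (XT.lf (nat_lit 0) (nat_lit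 88532462782) (nat_lit 152) (nat_lit 783029079331) (nat_lit 0) (nat_lit 88138007145) (nat_lit 1) (nat_lit 5) (nat_lit 3) (nat_lit 4) (nat_lit 1) (nat_lit 4) (nat_lit 486) (nat_lit 276) (nat_lit 258)) (XT.lf (nat_lit 0) (nat_lit 3867610654) (nat_lit 152) (nat_lit 173767640173) (nat_lit 0) (nat_lit 3867610654) (nat_lit 1) (nat_lit 5) (nat_lit 3) (nat_lit 4) (nat_lit 1) (nat_lit 4) (nat_lit 466) (nat_lit 277) (nat_lit 277))))) (XT.nd (nat_lit 234) (nat_lit 0) (nat_lit 0) (XT.nd (nat_lit 78) (nat_lit 0) (nat_lit 0) (XT.lf (nat_lit 0) (nat_lit 10667666423) (nat_lit 152) (nat_lit 359725289887) (nat_lit 0) (nat_lit 10633922233) (nat_lit 1) (nat_lit 5) (nat_lit 3) (nat_lit 4) (nat_lit 1) (nat_lit 4) (nat_lit 467) (nat_lit 277) (nat_lit 276)) (XT.nd (nat_lit 78) (nat_lit 0) (nat_lit 0) (XT.lf (nat_lit 0) (nat_lit 13665454428) (nat_lit 152) (nat_lit 372688130882) (nat_lit 0) (nat_lit 13599572915) (nat_lit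 1) (nat_lit 5) (nat_lit 3) (nat_lit 4) (nat_lit 1) (nat_lit 4) (nat_lit 468) (nat_lit 277) (nat_lit 275)) (XT.lf (nat_lit 0) (nat_lit 16735722915) (nat_lit 152) (nat_lit 386454667240) (nat_lit 0) (nat_lit 16639234427) (nat_lit 1) (nat_lit 5) (nat_lit 3) (nat_lit 4) (nat_lit 1) (nat_lit 4) (nat_lit 469) (nat_lit 277) (nat_lit 274)))) (XT.nd (nat_lit 156) (nat_lit 0) (nat_lit 0) (XT.nd (nat_lit 78) (nat_lit 0) (nat_lit 0) (XT.lf (nat_lit 0) (nat_lit 19885782045) (nat_lit 152) (nat_lit 401057676428) (nat_lit 0) (nat_lit 19760144058) (nat_lit 1) (nat_lit 5) (nat_lit 3) (nat_lit 4) (nat_lit 1) (nat_lit 4) (nat_lit 470) (nat_lit 277) (nat_lit 273)) (XT.lf (nat_lit 0) (nat_lit 23123131961) (nat_lit 152) (nat_lit 416531927515) (nat_lit 0) (nat_lit 22969732545) (nat_lit 1) (nat_lit 5) (nat_lit 3) (nat_lit 4) (nat_lit 1) (nat_lit 4) (nat_lit 471) (nat_lit 277) (nat_lit 272))) (XT.nd (nat_lit 78) (nat_lit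 0) (nat_lit 0) (XT.lf (nat_lit 0) (nat_lit 26455480637) (nat_lit 152) (nat_lit 432914263956) (nat_lit 0) (nat_lit 26275641766) (nat_lit 1) (nat_lit 5) (nat_lit 3) (nat_lit 4) (nat_lit 1) (nat_lit 4) (nat_lit 472) (nat_lit 277) (nat_lit 271)) (XT.lf (nat_lit 0) (nat_lit 29890762238) (nat_lit 152) (nat_lit 450243691315) (nat_lit 0) (nat_lit 29685742933) (nat_lit 1) (nat_lit 5) (nat_lit 3) (nat_lit 4) (nat_lit 1) (nat_lit 4) (nat_lit 473) (nat_lit 277) (nat_lit 270))))))))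
noncomputable def xc2 : XT := (XT.nd (nat_lit 53430) (nat_lit 0) (nat_lit 0) (XT.nd (nat_lit 52338) (nat_lit 0) (nat_lit 0) (XT.nd (nat_lit 468) (nat_lit 0) (nat_lit 0) (XT.nd (nat_lit 234) (nat_lit 0) (nat_lit 0) (XT.nd (nat_lit 78) (nat_lit 0) (nat_lit 0) (XT.lf (nat_lit 0) (nat_lit 33437156005) (nat_lit 152) (nat_lit 468561470132) (nat_lit 0) (nat_lit 33208155335) (nat_lit 1) (nat_lit 5) (nat_lit 3) (nat_lit 4) (nat_lit 1) (nat_lit 4) (nat_lit 474) (nat_lit 277) (nat_lit 269)) (XT.nd (nat_lit 78) (nat_lit 0) (nat_lit 0) (XT.lf (nat_lit 0) (nat_lit 37103105734) (nat_lit 152) (nat_lit 487911214167) (nat_lit 0) (nat_lit 36851265667) (nat_lit 1) (nat_lit 5) (nat_lit 3) (nat_lit 4) (nat_lit 1) (nat_lit 4) (nat_lit 475) (nat_lit 277) (nat_lit 268)) (XT.lf (nat_lit 0) (nat_lit 40897339875) (nat_lit 152) (nat_lit 508338994238) (nat_lit 0) (nat_lit 40623748003) (nat_lit 1) (nat_lit 5) (nat_lit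 3) (nat_lit 4) (nat_lit 1) (nat_lit 4) (nat_lit 476) (nat_lit 277) (nat_lit 267)))) (XT.nd (nat_lit 78) (nat_lit 0) (nat_lit 0) (XT.lf (nat_lit 0) (nat_lit 44828892320) (nat_lit 152) (nat_lit 529893447918) (nat_lit 0) (nat_lit 44534584442) (nat_lit 1) (nat_lit 5) (nat_lit 3) (nat_lit 4) (nat_lit 1) (nat_lit 4) (nat_lit 477) (nat_lit 277) (nat_lit 266)) (XT.nd (nat_lit 78) (nat_lit 0) (nat_lit 0) (XT.lf (nat_lit 0) (nat_lit 48907123907) (nat_lit 152) (nat_lit 552625895335) (nat_lit 0) (nat_lit 48593086501) (nat_lit 1) (nat_lit 5) (nat_lit 3) (nat_lit 4) (nat_lit 1) (nat_lit 4) (nat_lit 478) (nat_lit 277) (nat_lit 265)) (XT.lf (nat_lit 0) (nat_lit 53141744713) (nat_lit 152) (nat_lit 576590461362) (nat_lit 0) (nat_lit 52808917279) (nat_lit 1) (nat_lit 5) (nat_lit 3) (nat_lit 4) (nat_lit 1) (nat_lit 4) (nat_lit 479) (nat_lit 277) (nat_lit 264))))) (XT.nd (nat_lit 234) (nat_lit 0) (nat_lit 0)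 (XT.nd (nat_lit 78) (nat_lit 0) (nat_lit 0) (XT.lf (nat_lit 0) (nat_lit 57542837167) (nat_lit 152) (nat_lit 601844204491) (nat_lit 0) (nat_lit 57192114469) (nat_lit 1) (nat_lit 5) (nat_lit 3) (nat_lit 4) (nat_lit 1) (nat_lit 4) (nat_lit 480) (nat_lit 277) (nat_lit 263)) (XT.nd (nat_lit 78) (nat_lit 0) (nat_lit 0) (XT.lf (nat_lit 0) (nat_lit 62120880060) (nat_lit 152) (nat_lit 628447252681) (nat_lit 0) (nat_lit 61753114254) (nat_lit 1) (nat_lit 5) (nat_lit 3) (nat_lit 4) (nat_lit 1) (nat_lit 4) (nat_lit 481) (nat_lit 277) (nat_lit 262)) (XT.lf (nat_lit 0) (nat_lit 66886773497) (nat_lit 152) (nat_lit 656462946523) (nat_lit 0) (nat_lit 66502776158) (nat_lit 1) (nat_lit 5) (nat_lit 3) (nat_lit 4) (nat_lit 1) (nat_lit 4) (nat_lit 482) (nat_lit 277) (nat_lit 261)))) (XT.nd (nat_lit 156) (nat_lit 0) (nat_lit 0) (XT.nd (nat_lit 78) (nat_lit 0) (nat_lit 0) (XT.lf (nat_lit 0) (nat_lit 71851864840)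 (nat_lit 152) (nat_lit 685957990051) (nat_lit 0) (nat_lit 71452408899) (nat_lit 1) (nat_lit 5) (nat_lit 3) (nat_lit 4) (nat_lit 1) (nat_lit 4) (nat_lit 483) (nat_lit 277) (nat_lit 260)) (XT.lf (nat_lit 0) (nat_lit 77027975737) (nat_lit 152) (nat_lit 717002609558) (nat_lit 0) (nat_lit 76613797318) (nat_lit 1) (nat_lit 5) (nat_lit 3) (nat_lit 4) (nat_lit 1) (nat_lit 4) (nat_lit 484) (nat_lit 277) (nat_lit 259))) (XT.nd (nat_lit 78) (nat_lit 0) (nat_lit 0) (XT.lf (nat_lit 0) (nat_lit 82427430261) (nat_lit 152) (nat_lit 749670720805) (nat_lit 0) (nat_lit 81999230434) (nat_lit 1) (nat_lit 5) (nat_lit 3) (nat_lit 4) (nat_lit 1) (nat_lit 4) (nat_lit 485) (nat_lit 277) (nat_lit 258)) (XT.lf (nat_lit 0) (nat_lit 88063084256) (nat_lit 152) (nat_lit 784040105010) (nat_lit 0) (nat_lit 87621530708) (nat_lit 1) (nat_lit 5) (nat_lit 3) (nat_lit 4) (nat_lit 1) (nat_lit 4) (nat_lit 486) (nat_lit 277) (nat_lit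 257)))))) (XT.nd (nat_lit 546) (nat_lit 0) (nat_lit 0) (XT.nd (nat_lit 234) (nat_lit 0) (nat_lit 0) (XT.nd (nat_lit 78) (nat_lit 0) (nat_lit 0) (XT.lf (nat_lit 0) (nat_lit 1058857247) (nat_lit 152) (nat_lit 162635795537) (nat_lit 0) (nat_lit 1058857247) (nat_lit 1) (nat_lit 5) (nat_lit 3) (nat_lit 4) (nat_lit 1) (nat_lit 4) (nat_lit 464) (nat_lit 278) (nat_lit 278)) (XT.nd (nat_lit 78) (nat_lit 0) (nat_lit 0) (XT.lf (nat_lit 0) (nat_lit 4896568471) (nat_lit 152) (nat_lit 336089078429) (nat_lit 0) (nat_lit 4861137072) (nat_lit 1) (nat_lit 5) (nat_lit 3) (nat_lit 4) (nat_lit 1) (nat_lit 4) (nat_lit 465) (nat_lit 278) (nat_lit 277)) (XT.lf (nat_lit 0) (nat_lit 7729021813) (nat_lit 152) (nat_lit 347618937676) (nat_lit 0) (nat_lit 7659846224) (nat_lit 1) (nat_lit 5) (nat_lit 3) (nat_lit 4) (nat_lit 1) (nat_lit 4) (nat_lit 466) (nat_lit 278) (nat_lit 276)))) (XT.nd (nat_lit 156) (nat_lit 0) (nat_lit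 0) (XT.nd (nat_lit 78) (nat_lit 0) (nat_lit 0) (XT.lf (nat_lit 0) (nat_lit 10621818457) (nat_lit 152) (nat_lit 359888620865) (nat_lit 0) (nat_lit 10520505545) (nat_lit 1) (nat_lit 5) (nat_lit 3) (nat_lit 4) (nat_lit 1) (nat_lit 4) (nat_lit 467) (nat_lit 278) (nat_lit 275)) (XT.lf (nat_lit 0) (nat_lit 13581846014) (nat_lit 152) (nat_lit 372927341525) (nat_lit 0) (nat_lit 13449926127) (nat_lit 1) (nat_lit 5) (nat_lit 3) (nat_lit 4) (nat_lit 1) (nat_lit 4) (nat_lit 468) (nat_lit 278) (nat_lit 274))) (XT.nd (nat_lit 78) (nat_lit 0) (nat_lit 0) (XT.lf (nat_lit 0) (nat_lit 16616152168) (nat_lit 152) (nat_lit 386766144230) (nat_lit 0) (nat_lit 16455082782) (nat_lit 1) (nat_lit 5) (nat_lit 3) (nat_lit 4) (nat_lit 1) (nat_lit 4) (nat_lit 469) (nat_lit 278) (nat_lit 273)) (XT.lf (nat_lit 0) (nat_lit 19731961459) (nat_lit 152) (nat_lit 401437978511) (nat_lit 0) (nat_lit 19543130644) (nat_lit 1) (nat_lit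 5) (nat_lit 3) (nat_lit 4) (nat_lit 1) (nat_lit 4) (nat_lit 470) (nat_lit 278) (nat_lit 272))))) (XT.nd (nat_lit 234) (nat_lit 0) (nat_lit 0) (XT.nd (nat_lit 78) (nat_lit 0) (nat_lit 0) (XT.lf (nat_lit 0) (nat_lit 22936692480) (nat_lit 152) (nat_lit 416977777305) (nat_lit 0) (nat_lit 22721422209) (nat_lit 1) (nat_lit 5) (nat_lit 3) (nat_lit 4) (nat_lit 1) (nat_lit 4) (nat_lit 471) (nat_lit 278) (nat_lit 271)) (XT.nd (nat_lit 78) (nat_lit 0) (nat_lit 0) (XT.lf (nat_lit 0) (nat_lit 26237975542) (nat_lit 152) (nat_lit 433422540134) (nat_lit 0) (nat_lit 25997524838) (nat_lit 1) (nat_lit 5) (nat_lit 3) (nat_lit 4) (nat_lit 1) (nat_lit 4) (nat_lit 472) (nat_lit 278) (nat_lit 270)) (XT.lf (nat_lit 0) (nat_lit 29643670843) (nat_lit 152) (nat_lit 450811421195) (nat_lit 0) (nat_lit 29379238774) (nat_lit 1) (nat_lit 5) (nat_lit 3) (nat_lit 4) (nat_lit 1) (nat_lit 4) (nat_lit 473) (nat_lit 278) (nat_lit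 269)))) (XT.nd (nat_lit 156) (nat_lit 0) (nat_lit 0) (XT.nd (nat_lit 78) (nat_lit 0) (nat_lit 0) (XT.lf (nat_lit 0) (nat_lit 33161887183) (nat_lit 152) (nat_lit 469185822587) (nat_lit 0) (nat_lit 32874615717) (nat_lit 1) (nat_lit 5) (nat_lit 3) (nat_lit 4) (nat_lit 1) (nat_lit 4) (nat_lit 474) (nat_lit 278) (nat_lit 268)) (XT.lf (nat_lit 0) (nat_lit 36801001266) (nat_lit 152) (nat_lit 488589492883) (nat_lit 0) (nat_lit 36491977994) (nat_lit 1) (nat_lit 5) (nat_lit 3) (nat_lit 4) (nat_lit 1) (nat_lit 4) (nat_lit 475) (nat_lit 278) (nat_lit 267))) (XT.nd (nat_lit 78) (nat_lit 0) (nat_lit 0) (XT.lf (nat_lit 0) (nat_lit 40569677649) (nat_lit 152) (nat_lit 509068631298) (nat_lit 0) (nat_lit 40239938372) (nat_lit 1) (nat_lit 5) (nat_lit 3) (nat_lit 4) (nat_lit 1) (nat_lit 4) (nat_lit 476) (nat_lit 278) (nat_lit 266)) (XT.lf (nat_lit 0) (nat_lit 44476889372) (nat_lit 152) (nat_lit 530671997686)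 (nat_lit 0) (nat_lit 44127420567) (nat_lit 1) (nat_lit 5) (nat_lit 3) (nat_lit 4) (nat_lit 1) (nat_lit 4) (nat_lit 477) (nat_lit 278) (nat_lit 265))))))) (XT.nd (nat_lit 52182) (nat_lit 0) (nat_lit 0) (XT.nd (nat_lit 468) (nat_lit 0) (nat_lit 0) (XT.nd (nat_lit 234) (nat_lit 0) (nat_lit 0) (XT.nd (nat_lit 78) (nat_lit 0) (nat_lit 0) (XT.lf (nat_lit 0) (nat_lit 48531939320) (nat_lit 152) (nat_lit 553451028634) (nat_lit 0) (nat_lit 48163680487) (nat_lit 1) (nat_lit 5) (nat_lit 3) (nat_lit 4) (nat_lit 1) (nat_lit 4) (nat_lit 478) (nat_lit 278) (nat_lit 264)) (XT.nd (nat_lit 78) (nat_lit 0) (nat_lit 0) (XT.lf (nat_lit 0) (nat_lit 52744482373) (nat_lit 152) (nat_lit 577459959930) (nat_lit 0) (nat_lit 52358328276) (nat_lit 1) (nat_lit 5) (nat_lit 3) (nat_lit 4) (nat_lit 1) (nat_lit 4) (nat_lit 479) (nat_lit 278) (nat_lit 263)) (XT.lf (nat_lit 0) (nat_lit 57124548396) (nat_lit 152) (nat_lit 602755955695)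 (nat_lit 0) (nat_lit 56721351191) (nat_lit 1) (nat_lit 5) (nat_lit 3) (nat_lit 4) (nat_lit 1) (nat_lit 4) (nat_lit 480) (nat_lit 278) (nat_lit 262)))) (XT.nd (nat_lit 78) (nat_lit 0) (nat_lit 0) (XT.lf (nat_lit 0) (nat_lit 61682566118) (nat_lit 152) (nat_lit 629399244492) (nat_lit 0) (nat_lit 61263137380) (nat_lit 1) (nat_lit 5) (nat_lit 3) (nat_lit 4) (nat_lit 1) (nat_lit 4) (nat_lit 481) (nat_lit 278) (nat_lit 261)) (XT.nd (nat_lit 78) (nat_lit 0) (nat_lit 0) (XT.lf (nat_lit 0) (nat_lit 66429387962) (nat_lit 152) (nat_lit 657453262721) (nat_lit 0) (nat_lit 65994500622) (nat_lit 1) (nat_lit 5) (nat_lit 3) (nat_lit 4) (nat_lit 1) (nat_lit 4) (nat_lit 482) (nat_lit 278) (nat_lit 260)) (XT.lf (nat_lit 0) (nat_lit 71376315884) (nat_lit 152) (nat_lit 686984805665) (nat_lit 0) (nat_lit 70926706066) (nat_lit 1) (nat_lit 5) (nat_lit 3) (nat_lit 4) (nat_lit 1) (nat_lit 4) (nat_lit 483) (nat_lit 278)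 (nat_lit 259))))) (XT.nd (nat_lit 51402) (nat_lit 0) (nat_lit 0) (XT.nd (nat_lit 78) (nat_lit 0) (nat_lit 0) (XT.lf (nat_lit 0) (nat_lit 76535128285) (nat_lit 152) (nat_lit 718064186521) (nat_lit 0) (nat_lit 76071497059) (nat_lit 1) (nat_lit 5) (nat_lit 3) (nat_lit 4) (nat_lit 1) (nat_lit 4) (nat_lit 484) (nat_lit 278) (nat_lit 258)) (XT.nd (nat_lit 78) (nat_lit 0) (nat_lit 0) (XT.lf (nat_lit 0) (nat_lit 81918108050) (nat_lit 152) (nat_lit 750765403814) (nat_lit 0) (nat_lit 81441123103) (nat_lit 1) (nat_lit 5) (nat_lit 3) (nat_lit 4) (nat_lit 1) (nat_lit 4) (nat_lit 485) (nat_lit 278) (nat_lit 257)) (XT.lf (nat_lit 0) (nat_lit 87538071799) (nat_lit 152) (nat_lit 785166317587) (nat_lit 0) (nat_lit 87048369022) (nat_lit 1) (nat_lit 5) (nat_lit 3) (nat_lit 4) (nat_lit 1) (nat_lit 4) (nat_lit 486) (nat_lit 278) (nat_lit 256)))) (XT.nd (nat_lit 156) (nat_lit 152) (nat_lit 0) (XT.nd (nat_lit 78)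 (nat_lit 0) (nat_lit 0) (XT.lf (nat_lit 0) (nat_lit 146392061210) (nat_lit 76) (nat_lit 1585236389) (nat_lit 76) (nat_lit 1585236389) (nat_lit 3) (nat_lit 4) (nat_lit 4) (nat_lit 5) (nat_lit 4) (nat_lit 4) (nat_lit 462) (nat_lit 279) (nat_lit 279)) (XT.lf (nat_lit 0) (nat_lit 312775835940) (nat_lit 76) (nat_lit 605480784) (nat_lit 76) (nat_lit 566417666) (nat_lit 3) (nat_lit 4) (nat_lit 4) (nat_lit 5) (nat_lit 4) (nat_lit 4) (nat_lit 463) (nat_lit 279) (nat_lit 278))) (XT.nd (nat_lit 78) (nat_lit 0) (nat_lit 0) (XT.lf (nat_lit 0) (nat_lit 2111205025) (nat_lit 152) (nat_lit 325359431272) (nat_lit 0) (nat_lit 2038570656) (nat_lit 1) (nat_lit 5) (nat_lit 3) (nat_lit 4) (nat_lit 1) (nat_lit 4) (nat_lit 464) (nat_lit 279) (nat_lit 277)) (XT.lf (nat_lit 0) (nat_lit 4848428107) (nat_lit 152) (nat_lit 336260575956) (nat_lit 0) (nat_lit 4742049549) (nat_lit 1) (nat_lit 5) (nat_lit 3) (nat_lit 4) (nat_lit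 1) (nat_lit 4) (nat_lit 465) (nat_lit 279) (nat_lit 276)))))) (XT.nd (nat_lit 546) (nat_lit 0) (nat_lit 0) (XT.nd (nat_lit 234) (nat_lit 0) (nat_lit 0) (XT.nd (nat_lit 78) (nat_lit 0) (nat_lit 0) (XT.lf (nat_lit 0) (nat_lit 7641232978) (nat_lit 152) (nat_lit 347870108851) (nat_lit 0) (nat_lit 7502717097) (nat_lit 1) (nat_lit 5) (nat_lit 3) (nat_lit 4) (nat_lit 1) (nat_lit 4) (nat_lit 466) (nat_lit 279) (nat_lit 275)) (XT.nd (nat_lit 78) (nat_lit 0) (nat_lit 0) (XT.lf (nat_lit 0) (nat_lit 10496269173) (nat_lit 152) (nat_lit 360215671704) (nat_lit 0) (nat_lit 10327146317) (nat_lit 1) (nat_lit 5) (nat_lit 3) (nat_lit 4) (nat_lit 1) (nat_lit 4) (nat_lit 467) (nat_lit 279) (nat_lit 274)) (XT.lf (nat_lit 0) (nat_lit 13420334399) (nat_lit 152) (nat_lit 373326658712) (nat_lit 0) (nat_lit 13222062043) (nat_lit 1) (nat_lit 5) (nat_lit 3) (nat_lit 4) (nat_lit 1) (nat_lit 4) (nat_lit 468) (nat_lit 279)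 (nat_lit 273)))) (XT.nd (nat_lit 156) (nat_lit 0) (nat_lit 0) (XT.nd (nat_lit 78) (nat_lit 0) (nat_lit 0) (XT.lf (nat_lit 0) (nat_lit 16420390713) (nat_lit 152) (nat_lit 387234286510) (nat_lit 0) (nat_lit 16194356929) (nat_lit 1) (nat_lit 5) (nat_lit 3) (nat_lit 4) (nat_lit 1) (nat_lit 4) (nat_lit 469) (nat_lit 279) (nat_lit 272)) (XT.lf (nat_lit 0) (nat_lit 19503581109) (nat_lit 152) (nat_lit 401971668497) (nat_lit 0) (nat_lit 19251107870) (nat_lit 1) (nat_lit 5) (nat_lit 3) (nat_lit 4) (nat_lit 1) (nat_lit 4) (nat_lit 470) (nat_lit 279) (nat_lit 271))) (XT.nd (nat_lit 78) (nat_lit 0) (nat_lit 0) (XT.lf (nat_lit 0) (nat_lit 22677246515) (nat_lit 152) (nat_lit 417573893680) (nat_lit 0) (nat_lit 22399592842) (nat_lit 1) (nat_lit 5) (nat_lit 3) (nat_lit 4) (nat_lit 1) (nat_lit 4) (nat_lit 471) (nat_lit 279) (nat_lit 270)) (XT.lf (nat_lit 0) (nat_lit 25948943278) (nat_lit 152) (nat_lit 434078110212)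 (nat_lit 0) (nat_lit 25647308239) (nat_lit 1) (nat_lit 5) (nat_lit 3) (nat_lit 4) (nat_lit 1) (nat_lit 4) (nat_lit 472) (nat_lit 279) (nat_lit 269))))) (XT.nd (nat_lit 234) (nat_lit 0) (nat_lit 0) (XT.nd (nat_lit 78) (nat_lit 0) (nat_lit 0) (XT.lf (nat_lit 0) (nat_lit 29326461152) (nat_lit 152) (nat_lit 451523613847) (nat_lit 0) (nat_lit 29001986717) (nat_lit 1) (nat_lit 5) (nat_lit 3) (nat_lit 4) (nat_lit 1) (nat_lit 4) (nat_lit 473) (nat_lit 279) (nat_lit 268)) (XT.nd (nat_lit 78) (nat_lit 0) (nat_lit 0) (XT.lf (nat_lit 0) (nat_lit 32817841845) (nat_lit 152) (nat_lit 469951941499) (nat_lit 0) (nat_lit 32471615605) (nat_lit 1) (nat_lit 5) (nat_lit 3) (nat_lit 4) (nat_lit 1) (nat_lit 4) (nat_lit 474) (nat_lit 279) (nat_lit 267)) (XT.lf (nat_lit 0) (nat_lit 36431398170) (nat_lit 152) (nat_lit 489406970139) (nat_lit 0) (nat_lit 36064455925) (nat_lit 1) (nat_lit 5) (nat_lit 3) (nat_lit 4) (nat_lit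 1) (nat_lit 4) (nat_lit 475) (nat_lit 279) (nat_lit 266)))) (XT.nd (nat_lit 156) (nat_lit 0) (nat_lit 0) (XT.nd (nat_lit 78) (nat_lit 0) (nat_lit 0) (XT.lf (nat_lit 0) (nat_lit 40175733832) (nat_lit 152) (nat_lit 509935021263) (nat_lit 0) (nat_lit 39789062058) (nat_lit 1) (nat_lit 5) (nat_lit 3) (nat_lit 4) (nat_lit 1) (nat_lit 4) (nat_lit 476) (nat_lit 279) (nat_lit 265)) (XT.lf (nat_lit 0) (nat_lit 44059763915) (nat_lit 152) (nat_lit 531584971183) (nat_lit 0) (nat_lit 43654302114) (nat_lit 1) (nat_lit 5) (nat_lit 3) (nat_lit 4) (nat_lit 1) (nat_lit 4) (nat_lit 477) (nat_lit 279) (nat_lit 264))) (XT.nd (nat_lit 78) (nat_lit 0) (nat_lit 0) (XT.lf (nat_lit 0) (nat_lit 48092736111) (nat_lit 152) (nat_lit 554408367399) (nat_lit 0) (nat_lit 47669379045) (nat_lit 1) (nat_lit 5) (nat_lit 3) (nat_lit 4) (nat_lit 1) (nat_lit 4) (nat_lit 478) (nat_lit 279) (nat_lit 263)) (XT.lf (nat_lit 0) (nat_lit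 52284252734) (nat_lit 152) (nat_lit 578459551331) (nat_lit 0) (nat_lit 51843852559) (nat_lit 1) (nat_lit 5) (nat_lit 3) (nat_lit 4) (nat_lit 1) (nat_lit 4) (nat_lit 479) (nat_lit 279) (nat_lit 262))))))))
noncomputable def xc3 : XT := (XT.nd (nat_lit 53118) (nat_lit 0) (nat_lit 0) (XT.nd (nat_lit 52026) (nat_lit 0) (nat_lit 0) (XT.nd (nat_lit 468) (nat_lit 0) (nat_lit 0) (XT.nd (nat_lit 234) (nat_lit 0) (nat_lit 0) (XT.nd (nat_lit 78) (nat_lit 0) (nat_lit 0) (XT.lf (nat_lit 0) (nat_lit 56644293585) (nat_lit 152) (nat_lit 603795787703) (nat_lit 0) (nat_lit 56187661878) (nat_lit 1) (nat_lit 5) (nat_lit 3) (nat_lit 4) (nat_lit 1) (nat_lit 4) (nat_lit 480) (nat_lit 279) (nat_lit 261)) (XT.nd (nat_lit 78) (nat_lit 0) (nat_lit 0) (XT.lf (nat_lit 0) (nat_lit 61183239715) (nat_lit 152) (nat_lit 630477400886) (nat_lit 0) (nat_lit 60711149406) (nat_lit 1) (nat_lit 5) (nat_lit 3) (nat_lit 4) (nat_lit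 1) (nat_lit 4) (nat_lit 481) (nat_lit 279) (nat_lit 260)) (XT.lf (nat_lit 0) (nat_lit 65911898137) (nat_lit 152) (nat_lit 658567918532) (nat_lit 0) (nat_lit 65425085350) (nat_lit 1) (nat_lit 5) (nat_lit 3) (nat_lit 4) (nat_lit 1) (nat_lit 4) (nat_lit 482) (nat_lit 279) (nat_lit 259)))) (XT.nd (nat_lit 78) (nat_lit 0) (nat_lit 0) (XT.lf (nat_lit 0) (nat_lit 70841527563) (nat_lit 152) (nat_lit 688134222824) (nat_lit 0) (nat_lit 70340693368) (nat_lit 1) (nat_lit 5) (nat_lit 3) (nat_lit 4) (nat_lit 1) (nat_lit 4) (nat_lit 483) (nat_lit 279) (nat_lit 258)) (XT.nd (nat_lit 78) (nat_lit 0) (nat_lit 0) (XT.lf (nat_lit 0) (nat_lit 75983865205) (nat_lit 152) (nat_lit 719246709726) (nat_lit 0) (nat_lit 75469677288) (nat_lit 1) (nat_lit 5) (nat_lit 3) (nat_lit 4) (nat_lit 1) (nat_lit 4) (nat_lit 484) (nat_lit 279) (nat_lit 257)) (XT.lf (nat_lit 0) (nat_lit 81351154724) (nat_lit 152) (nat_lit 751979456588)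 (nat_lit 0) (nat_lit 80824248977) (nat_lit 1) (nat_lit 5) (nat_lit 3) (nat_lit 4) (nat_lit 1) (nat_lit 4) (nat_lit 485) (nat_lit 279) (nat_lit 256))))) (XT.nd (nat_lit 51246) (nat_lit 0) (nat_lit 0) (XT.nd (nat_lit 51090) (nat_lit 0) (nat_lit 152) (XT.lf (nat_lit 0) (nat_lit 86956175381) (nat_lit 152) (nat_lit 786410398520) (nat_lit 0) (nat_lit 86417157416) (nat_lit 1) (nat_lit 5) (nat_lit 3) (nat_lit 4) (nat_lit 1) (nat_lit 4) (nat_lit 486) (nat_lit 279) (nat_lit 255)) (XT.nd (nat_lit 78) (nat_lit 0) (nat_lit 0) (XT.lf (nat_lit 0) (nat_lit 127597958071) (nat_lit 76) (nat_lit 4094524730) (nat_lit 76) (nat_lit 4094524730) (nat_lit 3) (nat_lit 4) (nat_lit 4) (nat_lit 5) (nat_lit 4) (nat_lit 4) (nat_lit 460) (nat_lit 280) (nat_lit 280)) (XT.lf (nat_lit 0) (nat_lit 273575844718) (nat_lit 76) (nat_lit 5738810518) (nat_lit 76) (nat_lit 5697794244) (nat_lit 3) (nat_lit 4) (nat_lit 4) (nat_lit 5)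 (nat_lit 4) (nat_lit 4) (nat_lit 461) (nat_lit 280) (nat_lit 279)))) (XT.nd (nat_lit 156) (nat_lit 152) (nat_lit 0) (XT.nd (nat_lit 78) (nat_lit 0) (nat_lit 0) (XT.lf (nat_lit 0) (nat_lit 292697791656) (nat_lit 76) (nat_lit 3254755171) (nat_lit 76) (nat_lit 3174675780) (nat_lit 3) (nat_lit 4) (nat_lit 4) (nat_lit 5) (nat_lit 4) (nat_lit 4) (nat_lit 462) (nat_lit 280) (nat_lit 278)) (XT.lf (nat_lit 0) (nat_lit 312607285400) (nat_lit 76) (nat_lit 730969003) (nat_lit 76) (nat_lit 613686643) (nat_lit 3) (nat_lit 4) (nat_lit 4) (nat_lit 5) (nat_lit 4) (nat_lit 4) (nat_lit 463) (nat_lit 280) (nat_lit 277))) (XT.nd (nat_lit 78) (nat_lit 0) (nat_lit 0) (XT.lf (nat_lit 0) (nat_lit 2019026748) (nat_lit 152) (nat_lit 325623161006) (nat_lit 0) (nat_lit 1873585073) (nat_lit 1) (nat_lit 5) (nat_lit 3) (nat_lit 4) (nat_lit 1) (nat_lit 4) (nat_lit 464) (nat_lit 280) (nat_lit 276)) (XT.lf (nat_lit 0) (nat_lit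 4716601359) (nat_lit 152) (nat_lit 336603979337) (nat_lit 0) (nat_lit 4539022360) (nat_lit 1) (nat_lit 5) (nat_lit 3) (nat_lit 4) (nat_lit 1) (nat_lit 4) (nat_lit 465) (nat_lit 280) (nat_lit 275)))))) (XT.nd (nat_lit 546) (nat_lit 0) (nat_lit 0) (XT.nd (nat_lit 234) (nat_lit 0) (nat_lit 0) (XT.nd (nat_lit 78) (nat_lit 0) (nat_lit 0) (XT.lf (nat_lit 0) (nat_lit 7471645782) (nat_lit 152) (nat_lit 348289391897) (nat_lit 0) (nat_lit 7263459808) (nat_lit 1) (nat_lit 5) (nat_lit 3) (nat_lit 4) (nat_lit 1) (nat_lit 4) (nat_lit 466) (nat_lit 280) (nat_lit 274)) (XT.nd (nat_lit 78) (nat_lit 0) (nat_lit 0) (XT.lf (nat_lit 0) (nat_lit 10290719646) (nat_lit 152) (nat_lit 360707221098) (nat_lit 0) (nat_lit 10053384172) (nat_lit 1) (nat_lit 5) (nat_lit 3) (nat_lit 4) (nat_lit 1) (nat_lit 4) (nat_lit 467) (nat_lit 280) (nat_lit 273)) (XT.lf (nat_lit 0) (nat_lit 13180535031) (nat_lit 152) (nat_lit 373887033198)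 (nat_lit 0) (nat_lit 12915438129) (nat_lit 1) (nat_lit 5) (nat_lit 3) (nat_lit 4) (nat_lit 1) (nat_lit 4) (nat_lit 468) (nat_lit 280) (nat_lit 272)))) (XT.nd (nat_lit 156) (nat_lit 0) (nat_lit 0) (XT.nd (nat_lit 78) (nat_lit 0) (nat_lit 0) (XT.lf (nat_lit 0) (nat_lit 16147972451) (nat_lit 152) (nat_lit 387860208703) (nat_lit 0) (nat_lit 15856436094) (nat_lit 1) (nat_lit 5) (nat_lit 3) (nat_lit 4) (nat_lit 1) (nat_lit 4) (nat_lit 469) (nat_lit 280) (nat_lit 271)) (XT.lf (nat_lit 0) (nat_lit 19200097232) (nat_lit 152) (nat_lit 402660017079) (nat_lit 0) (nat_lit 18883380441) (nat_lit 1) (nat_lit 5) (nat_lit 3) (nat_lit 4) (nat_lit 1) (nat_lit 4) (nat_lit 470) (nat_lit 280) (nat_lit 270))) (XT.nd (nat_lit 78) (nat_lit 0) (nat_lit 0) (XT.lf (nat_lit 0) (nat_lit 22344176339) (nat_lit 152) (nat_lit 418321695964) (nat_lit 0) (nat_lit 22003478183) (nat_lit 1) (nat_lit 5) (nat_lit 3) (nat_lit 4) (nat_lit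 1) (nat_lit 4) (nat_lit 471) (nat_lit 280) (nat_lit 269)) (XT.lf (nat_lit 0) (nat_lit 25587695674) (nat_lit 152) (nat_lit 434882535070) (nat_lit 0) (nat_lit 25224158122) (nat_lit 1) (nat_lit 5) (nat_lit 3) (nat_lit 4) (nat_lit 1) (nat_lit 4) (nat_lit 472) (nat_lit 280) (nat_lit 268))))) (XT.nd (nat_lit 234) (nat_lit 0) (nat_lit 0) (XT.nd (nat_lit 78) (nat_lit 0) (nat_lit 0) (XT.lf (nat_lit 0) (nat_lit 28938377902) (nat_lit 152) (nat_lit 452381964966) (nat_lit 0) (nat_lit 28553088544) (nat_lit 1) (nat_lit 5) (nat_lit 3) (nat_lit 4) (nat_lit 1) (nat_lit 4) (nat_lit 473) (nat_lit 280) (nat_lit 267)) (XT.nd (nat_lit 78) (nat_lit 0) (nat_lit 0) (XT.lf (nat_lit 0) (nat_lit 32404200838) (nat_lit 152) (nat_lit 470861650962) (nat_lit 0) (nat_lit 31998195475) (nat_lit 1) (nat_lit 5) (nat_lit 3) (nat_lit 4) (nat_lit 1) (nat_lit 4) (nat_lit 474) (nat_lit 280) (nat_lit 266)) (XT.lf (nat_lit 0) (nat_lit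 35993416441) (nat_lit 152) (nat_lit 490365592310) (nat_lit 0) (nat_lit 35567681549) (nat_lit 1) (nat_lit 5) (nat_lit 3) (nat_lit 4) (nat_lit 1) (nat_lit 4) (nat_lit 475) (nat_lit 280) (nat_lit 265)))) (XT.nd (nat_lit 156) (nat_lit 0) (nat_lit 0) (XT.nd (nat_lit 78) (nat_lit 0) (nat_lit 0) (XT.lf (nat_lit 0) (nat_lit 39714570463) (nat_lit 152) (nat_lit 510940226966) (nat_lit 0) (nat_lit 39270045544) (nat_lit 1) (nat_lit 5) (nat_lit 3) (nat_lit 4) (nat_lit 1) (nat_lit 4) (nat_lit 476) (nat_lit 280) (nat_lit 264)) (XT.lf (nat_lit 0) (nat_lit 43576522794) (nat_lit 152) (nat_lit 532634542154) (nat_lit 0) (nat_lit 43114102611) (nat_lit 1) (nat_lit 5) (nat_lit 3) (nat_lit 4) (nat_lit 1) (nat_lit 4) (nat_lit 477) (nat_lit 280) (nat_lit 263))) (XT.nd (nat_lit 78) (nat_lit 0) (nat_lit 0) (XT.lf (nat_lit 0) (nat_lit 47588468559) (nat_lit 152) (nat_lit 555500191007) (nat_lit 0) (nat_lit 47109005267)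 (nat_lit 1) (nat_lit 5) (nat_lit 3) (nat_lit 4) (nat_lit 1) (nat_lit 4) (nat_lit 478) (nat_lit 280) (nat_lit 262)) (XT.lf (nat_lit 0) (nat_lit 51759960010) (nat_lit 152) (nat_lit 579591615546) (nat_lit 0) (nat_lit 51264265186) (nat_lit 1) (nat_lit 5) (nat_lit 3) (nat_lit 4) (nat_lit 1) (nat_lit 4) (nat_lit 479) (nat_lit 280) (nat_lit 261))))))) (XT.nd (nat_lit 51870) (nat_lit 0) (nat_lit 0) (XT.nd (nat_lit 468) (nat_lit 0) (nat_lit 0) (XT.nd (nat_lit 234) (nat_lit 0) (nat_lit 0) (XT.nd (nat_lit 78) (nat_lit 0) (nat_lit 0) (XT.lf (nat_lit 0) (nat_lit 56100929269) (nat_lit 152) (nat_lit 604966176304) (nat_lit 0) (nat_lit 55589775842) (nat_lit 1) (nat_lit 5) (nat_lit 3) (nat_lit 4) (nat_lit 1) (nat_lit 4) (nat_lit 480) (nat_lit 280) (nat_lit 260)) (XT.nd (nat_lit 78) (nat_lit 0) (nat_lit 0) (XT.lf (nat_lit 0) (nat_lit 60621711977) (nat_lit 152) (nat_lit 631684288904) (nat_lit 0) (nat_lit 60095836073)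 (nat_lit 1) (nat_lit 5) (nat_lit 3) (nat_lit 4) (nat_lit 1) (nat_lit 4) (nat_lit 481) (nat_lit 280) (nat_lit 259)) (XT.lf (nat_lit 0) (nat_lit 65333071903) (nat_lit 152) (nat_lit 659809567898) (nat_lit 0) (nat_lit 64793174591) (nat_lit 1) (nat_lit 5) (nat_lit 3) (nat_lit 4) (nat_lit 1) (nat_lit 4) (nat_lit 482) (nat_lit 280) (nat_lit 258)))) (XT.nd (nat_lit 78) (nat_lit 0) (nat_lit 0) (XT.lf (nat_lit 0) (nat_lit 70246226570) (nat_lit 152) (nat_lit 689408978236) (nat_lit 0) (nat_lit 69692975536) (nat_lit 1) (nat_lit 5) (nat_lit 3) (nat_lit 4) (nat_lit 1) (nat_lit 4) (nat_lit 483) (nat_lit 280) (nat_lit 257)) (XT.nd (nat_lit 78) (nat_lit 0) (nat_lit 0) (XT.lf (nat_lit 0) (nat_lit 75372873966) (nat_lit 152) (nat_lit 720552994707) (nat_lit 0) (nat_lit 74806905102) (nat_lit 1) (nat_lit 5) (nat_lit 3) (nat_lit 4) (nat_lit 1) (nat_lit 4) (nat_lit 484) (nat_lit 280) (nat_lit 256)) (XT.lf (nat_lit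 0) (nat_lit 80725220394) (nat_lit 152) (nat_lit 753315769728) (nat_lit 0) (nat_lit 80147139310) (nat_lit 1) (nat_lit 5) (nat_lit 3) (nat_lit 4) (nat_lit 1) (nat_lit 4) (nat_lit 485) (nat_lit 280) (nat_lit 255))))) (XT.nd (nat_lit 51090) (nat_lit 0) (nat_lit 152) (XT.nd (nat_lit 50934) (nat_lit 0) (nat_lit 152) (XT.lf (nat_lit 0) (nat_lit 86316009535) (nat_lit 152) (nat_lit 787775309908) (nat_lit 0) (nat_lit 85726393005) (nat_lit 1) (nat_lit 5) (nat_lit 3) (nat_lit 4) (nat_lit 1) (nat_lit 4) (nat_lit 486) (nat_lit 280) (nat_lit 254)) (XT.nd (nat_lit 78) (nat_lit 0) (nat_lit 0) (XT.lf (nat_lit 0) (nat_lit 110291954660) (nat_lit 76) (nat_lit 6503356655) (nat_lit 76) (nat_lit 6503356655) (nat_lit 3) (nat_lit 4) (nat_lit 4) (nat_lit 5) (nat_lit 4) (nat_lit 4) (nat_lit 458) (nat_lit 281) (nat_lit 281)) (XT.lf (nat_lit 0) (nat_lit 237514244193) (nat_lit 76) (nat_lit 10654372989) (nat_lit 76) (nat_lit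 10611305902) (nat_lit 3) (nat_lit 4) (nat_lit 4) (nat_lit 5) (nat_lit 4) (nat_lit 4) (nat_lit 459) (nat_lit 281) (nat_lit 280)))) (XT.nd (nat_lit 156) (nat_lit 0) (nat_lit 0) (XT.nd (nat_lit 78) (nat_lit 0) (nat_lit 0) (XT.lf (nat_lit 0) (nat_lit 255105268840) (nat_lit 76) (nat_lit 8277545972) (nat_lit 76) (nat_lit 8193462612) (nat_lit 3) (nat_lit 4) (nat_lit 4) (nat_lit 5) (nat_lit 4) (nat_lit 4) (nat_lit 460) (nat_lit 281) (nat_lit 279)) (XT.lf (nat_lit 0) (nat_lit 273398866651) (nat_lit 76) (nat_lit 5870573148) (nat_lit 76) (nat_lit 5747426670) (nat_lit 3) (nat_lit 4) (nat_lit 4) (nat_lit 5) (nat_lit 4) (nat_lit 4) (nat_lit 461) (nat_lit 281) (nat_lit 278))) (XT.nd (nat_lit 78) (nat_lit 0) (nat_lit 0) (XT.lf (nat_lit 0) (nat_lit 292438593813) (nat_lit 76) (nat_lit 3427723629) (nat_lit 76) (nat_lit 3267374182) (nat_lit 3) (nat_lit 4) (nat_lit 4) (nat_lit 5) (nat_lit 4) (nat_lit 4) (nat_lit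 462) (nat_lit 281) (nat_lit 277)) (XT.lf (nat_lit 0) (nat_lit 312269783009) (nat_lit 76) (nat_lit 943181106) (nat_lit 76) (nat_lit 747400260) (nat_lit 3) (nat_lit 4) (nat_lit 4) (nat_lit 5) (nat_lit 4) (nat_lit 4) (nat_lit 463) (nat_lit 281) (nat_lit 276)))))) (XT.nd (nat_lit 546) (nat_lit 0) (nat_lit 0) (XT.nd (nat_lit 234) (nat_lit 0) (nat_lit 0) (XT.nd (nat_lit 78) (nat_lit 0) (nat_lit 0) (XT.lf (nat_lit 0) (nat_lit 1840960192) (nat_lit 152) (nat_lit 326063408204) (nat_lit 0) (nat_lit 1622364920) (nat_lit 1) (nat_lit 5) (nat_lit 3) (nat_lit 4) (nat_lit 1) (nat_lit 4) (nat_lit 464) (nat_lit 281) (nat_lit 275)) (XT.nd (nat_lit 78) (nat_lit 0) (nat_lit 0) (XT.lf (nat_lit 0) (nat_lit 4500774355) (nat_lit 152) (nat_lit 337120106200) (nat_lit 0) (nat_lit 4251572108) (nat_lit 1) (nat_lit 5) (nat_lit 3) (nat_lit 4) (nat_lit 1) (nat_lit 4) (nat_lit 465) (nat_lit 281) (nat_lit 274)) (XT.lf (nat_lit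 0) (nat_lit 7219856446) (nat_lit 152) (nat_lit 348877785108) (nat_lit 0) (nat_lit 6941504699) (nat_lit 1) (nat_lit 5) (nat_lit 3) (nat_lit 4) (nat_lit 1) (nat_lit 4) (nat_lit 466) (nat_lit 281) (nat_lit 273)))) (XT.nd (nat_lit 156) (nat_lit 0) (nat_lit 0) (XT.nd (nat_lit 78) (nat_lit 0) (nat_lit 0) (XT.lf (nat_lit 0) (nat_lit 10004680470) (nat_lit 152) (nat_lit 361364439401) (nat_lit 0) (nat_lit 9698567295) (nat_lit 1) (nat_lit 5) (nat_lit 3) (nat_lit 4) (nat_lit 1) (nat_lit 4) (nat_lit 467) (nat_lit 281) (nat_lit 272)) (XT.lf (nat_lit 0) (nat_lit 12861876960) (nat_lit 152) (nat_lit 374609799208) (nat_lit 0) (nat_lit 12529324330) (nat_lit 1) (nat_lit 5) (nat_lit 3) (nat_lit 4) (nat_lit 1) (nat_lit 4) (nat_lit 468) (nat_lit 281) (nat_lit 271))) (XT.nd (nat_lit 78) (nat_lit 0) (nat_lit 0) (XT.lf (nat_lit 0) (nat_lit 15798248766) (nat_lit 152) (nat_lit 388645401101) (nat_lit 0) (nat_lit 15440515701)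 (nat_lit 1) (nat_lit 5) (nat_lit 3) (nat_lit 4) (nat_lit 1) (nat_lit 4) (nat_lit 469) (nat_lit 281) (nat_lit 270)) (XT.lf (nat_lit 0) (nat_lit 18820787248) (nat_lit 152) (nat_lit 403504663180) (nat_lit 0) (nat_lit 18439072818) (nat_lit 1) (nat_lit 5) (nat_lit 3) (nat_lit 4) (nat_lit 1) (nat_lit 4) (nat_lit 470) (nat_lit 281) (nat_lit 269))))) (XT.nd (nat_lit 234) (nat_lit 0) (nat_lit 0) (XT.nd (nat_lit 78) (nat_lit 0) (nat_lit 0) (XT.lf (nat_lit 0) (nat_lit 21936688927) (nat_lit 152) (nat_lit 419222964639) (nat_lit 0) (nat_lit 21532135101) (nat_lit 1) (nat_lit 5) (nat_lit 3) (nat_lit 4) (nat_lit 1) (nat_lit 4) (nat_lit 471) (nat_lit 281) (nat_lit 268)) (XT.nd (nat_lit 78) (nat_lit 0) (nat_lit 0) (XT.lf (nat_lit 0) (nat_lit 25153372616) (nat_lit 152) (nat_lit 435837730006) (nat_lit 0) (nat_lit 24727066985) (nat_lit 1) (nat_lit 5) (nat_lit 3) (nat_lit 4) (nat_lit 1) (nat_lit 4) (nat_lit 472)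 (nat_lit 281) (nat_lit 267)) (XT.lf (nat_lit 0) (nat_lit 28478497086) (nat_lit 152) (nat_lit 453388518246) (nat_lit 0) (nat_lit 28031475450) (nat_lit 1) (nat_lit 5) (nat_lit 3) (nat_lit 4) (nat_lit 1) (nat_lit 4) (nat_lit 473) (nat_lit 281) (nat_lit 266)))) (XT.nd (nat_lit 156) (nat_lit 0) (nat_lit 0) (XT.nd (nat_lit 78) (nat_lit 0) (nat_lit 0) (XT.lf (nat_lit 0) (nat_lit 31919979300) (nat_lit 152) (nat_lit 471917116950) (nat_lit 0) (nat_lit 31453228135) (nat_lit 1) (nat_lit 5) (nat_lit 3) (nat_lit 4) (nat_lit 1) (nat_lit 4) (nat_lit 474) (nat_lit 281) (nat_lit 265)) (XT.lf (nat_lit 0) (nat_lit 35486013264) (nat_lit 152) (nat_lit 491467641830) (nat_lit 0) (nat_lit 35000472071) (nat_lit 1) (nat_lit 5) (nat_lit 3) (nat_lit 4) (nat_lit 1) (nat_lit 4) (nat_lit 475) (nat_lit 281) (nat_lit 264))) (XT.nd (nat_lit 78) (nat_lit 0) (nat_lit 0) (XT.lf (nat_lit 0) (nat_lit 39185089533) (nat_lit 152)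 (nat_lit 512086641754) (nat_lit 0) (nat_lit 38681653077) (nat_lit 1) (nat_lit 5) (nat_lit 3) (nat_lit 4) (nat_lit 1) (nat_lit 4) (nat_lit 476) (nat_lit 281) (nat_lit 263)) (XT.lf (nat_lit 0) (nat_lit 43026015434) (nat_lit 152) (nat_lit 533823209579) (nat_lit 0) (nat_lit 42505535868) (nat_lit 1) (nat_lit 5) (nat_lit 3) (nat_lit 4) (nat_lit 1) (nat_lit 4) (nat_lit 477) (nat_lit 281) (nat_lit 262))))))))
noncomputable def xc4 : XT := (XT.nd (nat_lit 52806) (nat_lit 0) (nat_lit 0) (XT.nd (nat_lit 51714) (nat_lit 0) (nat_lit 0) (XT.nd (nat_lit 468) (nat_lit 0) (nat_lit 0) (XT.nd (nat_lit 234) (nat_lit 0) (nat_lit 0) (XT.nd (nat_lit 78) (nat_lit 0) (nat_lit 0) (XT.lf (nat_lit 0) (nat_lit 47017936027) (nat_lit 152) (nat_lit 556729099039) (nat_lit 0) (nat_lit 46481224929) (nat_lit 1) (nat_lit 5) (nat_lit 3) (nat_lit 4) (nat_lit 1) (nat_lit 4) (nat_lit 478) (nat_lit 281) (nat_lit 261)) (XT.nd (nat_lit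 78) (nat_lit 0) (nat_lit 0) (XT.lf (nat_lit 0) (nat_lit 51170355886) (nat_lit 152) (nat_lit 580858847964) (nat_lit 0) (nat_lit 50618186186) (nat_lit 1) (nat_lit 5) (nat_lit 3) (nat_lit 4) (nat_lit 1) (nat_lit 4) (nat_lit 479) (nat_lit 281) (nat_lit 260)) (XT.lf (nat_lit 0) (nat_lit 55493161723) (nat_lit 152) (nat_lit 606269908138) (nat_lit 0) (nat_lit 54926269545) (nat_lit 1) (nat_lit 5) (nat_lit 3) (nat_lit 4) (nat_lit 1) (nat_lit 4) (nat_lit 480) (nat_lit 281) (nat_lit 259)))) (XT.nd (nat_lit 78) (nat_lit 0) (nat_lit 0) (XT.lf (nat_lit 0) (nat_lit 59996645935) (nat_lit 152) (nat_lit 633022782086) (nat_lit 0) (nat_lit 59415732349) (nat_lit 1) (nat_lit 5) (nat_lit 3) (nat_lit 4) (nat_lit 1) (nat_lit 4) (nat_lit 481) (nat_lit 281) (nat_lit 258)) (XT.nd (nat_lit 78) (nat_lit 0) (nat_lit 0) (XT.lf (nat_lit 0) (nat_lit 64691531102) (nat_lit 152) (nat_lit 661181167127) (nat_lit 0) (nat_lit 64097263795)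 (nat_lit 1) (nat_lit 5) (nat_lit 3) (nat_lit 4) (nat_lit 1) (nat_lit 4) (nat_lit 482) (nat_lit 281) (nat_lit 257)) (XT.lf (nat_lit 0) (nat_lit 69588995523) (nat_lit 152) (nat_lit 690812107034) (nat_lit 0) (nat_lit 68982010386) (nat_lit 1) (nat_lit 5) (nat_lit 3) (nat_lit 4) (nat_lit 1) (nat_lit 4) (nat_lit 483) (nat_lit 281) (nat_lit 256))))) (XT.nd (nat_lit 50934) (nat_lit 0) (nat_lit 152) (XT.nd (nat_lit 78) (nat_lit 0) (nat_lit 0) (XT.lf (nat_lit 0) (nat_lit 74700699828) (nat_lit 152) (nat_lit 721986151664) (nat_lit 0) (nat_lit 74081602471) (nat_lit 1) (nat_lit 5) (nat_lit 3) (nat_lit 4) (nat_lit 1) (nat_lit 4) (nat_lit 484) (nat_lit 281) (nat_lit 255)) (XT.nd (nat_lit 78) (nat_lit 0) (nat_lit 0) (XT.lf (nat_lit 0) (nat_lit 80038814739) (nat_lit 152) (nat_lit 754777524933) (nat_lit 0) (nat_lit 79408181936) (nat_lit 1) (nat_lit 5) (nat_lit 3) (nat_lit 4) (nat_lit 1) (nat_lit 4) (nat_lit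 485) (nat_lit 281) (nat_lit 254)) (XT.lf (nat_lit 0) (nat_lit 85616050056) (nat_lit 152) (nat_lit 789264301539) (nat_lit 0) (nat_lit 84974431113) (nat_lit 1) (nat_lit 5) (nat_lit 3) (nat_lit 4) (nat_lit 1) (nat_lit 4) (nat_lit 486) (nat_lit 281) (nat_lit 253)))) (XT.nd (nat_lit 156) (nat_lit 0) (nat_lit 0) (XT.nd (nat_lit 78) (nat_lit 0) (nat_lit 0) (XT.lf (nat_lit 0) (nat_lit 94322741677) (nat_lit 76) (nat_lit 8827713321) (nat_lit 76) (nat_lit 8827713321) (nat_lit 3) (nat_lit 4) (nat_lit 4) (nat_lit 5) (nat_lit 4) (nat_lit 4) (nat_lit 456) (nat_lit 282) (nat_lit 282)) (XT.lf (nat_lit 0) (nat_lit 204273953899) (nat_lit 76) (nat_lit 15385388188) (nat_lit 76) (nat_lit 15340167746) (nat_lit 3) (nat_lit 4) (nat_lit 4) (nat_lit 5) (nat_lit 4) (nat_lit 4) (nat_lit 457) (nat_lit 282) (nat_lit 281))) (XT.nd (nat_lit 78) (nat_lit 0) (nat_lit 0) (XT.lf (nat_lit 0) (nat_lit 220488729652) (nat_lit 76)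 (nat_lit 13099634647) (nat_lit 76) (nat_lit 13011347119) (nat_lit 3) (nat_lit 4) (nat_lit 4) (nat_lit 5) (nat_lit 4) (nat_lit 4) (nat_lit 458) (nat_lit 282) (nat_lit 280)) (XT.lf (nat_lit 0) (nat_lit 237328417223) (nat_lit 76) (nat_lit 10792723751) (nat_lit 76) (nat_lit 10663419949) (nat_lit 3) (nat_lit 4) (nat_lit 4) (nat_lit 5) (nat_lit 4) (nat_lit 4) (nat_lit 459) (nat_lit 282) (nat_lit 279)))))) (XT.nd (nat_lit 546) (nat_lit 0) (nat_lit 0) (XT.nd (nat_lit 234) (nat_lit 152) (nat_lit 0) (XT.nd (nat_lit 78) (nat_lit 0) (nat_lit 0) (XT.lf (nat_lit 0) (nat_lit 254833111105) (nat_lit 76) (nat_lit 8459162853) (nat_lit 76) (nat_lit 8290795934) (nat_lit 3) (nat_lit 4) (nat_lit 4) (nat_lit 5) (nat_lit 4) (nat_lit 4) (nat_lit 460) (nat_lit 282) (nat_lit 278)) (XT.nd (nat_lit 78) (nat_lit 0) (nat_lit 0) (XT.lf (nat_lit 0) (nat_lit 273044489140) (nat_lit 76) (nat_lit 6093395856) (nat_lit 76) (nat_lit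 5887825968) (nat_lit 3) (nat_lit 4) (nat_lit 4) (nat_lit 5) (nat_lit 4) (nat_lit 4) (nat_lit 461) (nat_lit 282) (nat_lit 277)) (XT.lf (nat_lit 0) (nat_lit 292005911754) (nat_lit 76) (nat_lit 3689789982) (nat_lit 76) (nat_lit 3448788694) (nat_lit 3) (nat_lit 4) (nat_lit 4) (nat_lit 5) (nat_lit 4) (nat_lit 4) (nat_lit 462) (nat_lit 282) (nat_lit 276)))) (XT.nd (nat_lit 156) (nat_lit 0) (nat_lit 0) (XT.nd (nat_lit 78) (nat_lit 152) (nat_lit 0) (XT.lf (nat_lit 0) (nat_lit 311762525189) (nat_lit 76) (nat_lit 1242622359) (nat_lit 76) (nat_lit 967876882) (nat_lit 3) (nat_lit 4) (nat_lit 4) (nat_lit 5) (nat_lit 4) (nat_lit 4) (nat_lit 463) (nat_lit 282) (nat_lit 275)) (XT.lf (nat_lit 0) (nat_lit 1576581389) (nat_lit 152) (nat_lit 326681221075) (nat_lit 0) (nat_lit 1284312055) (nat_lit 1) (nat_lit 5) (nat_lit 3) (nat_lit 4) (nat_lit 1) (nat_lit 4) (nat_lit 464) (nat_lit 282) (nat_lit 274))) (XT.nd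 (nat_lit 78) (nat_lit 0) (nat_lit 0) (XT.lf (nat_lit 0) (nat_lit 4200433220) (nat_lit 152) (nat_lit 337810185419) (nat_lit 0) (nat_lit 3879014387) (nat_lit 1) (nat_lit 5) (nat_lit 3) (nat_lit 4) (nat_lit 1) (nat_lit 4) (nat_lit 465) (nat_lit 282) (nat_lit 273)) (XT.lf (nat_lit 0) (nat_lit 6885265472) (nat_lit 152) (nat_lit 349636689419) (nat_lit 0) (nat_lit 6536085210) (nat_lit 1) (nat_lit 5) (nat_lit 3) (nat_lit 4) (nat_lit 1) (nat_lit 4) (nat_lit 466) (nat_lit 282) (nat_lit 272))))) (XT.nd (nat_lit 234) (nat_lit 0) (nat_lit 0) (XT.nd (nat_lit 78) (nat_lit 0) (nat_lit 0) (XT.lf (nat_lit 0) (nat_lit 9637470601) (nat_lit 152) (nat_lit 362188891419) (nat_lit 0) (nat_lit 9261850883) (nat_lit 1) (nat_lit 5) (nat_lit 3) (nat_lit 4) (nat_lit 1) (nat_lit 4) (nat_lit 467) (nat_lit 282) (nat_lit 271)) (XT.nd (nat_lit 78) (nat_lit 0) (nat_lit 0) (XT.lf (nat_lit 0) (nat_lit 12463601477) (nat_lit 152)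 (nat_lit 375496677614) (nat_lit 0) (nat_lit 12062801325) (nat_lit 1) (nat_lit 5) (nat_lit 3) (nat_lit 4) (nat_lit 1) (nat_lit 4) (nat_lit 468) (nat_lit 282) (nat_lit 270)) (XT.lf (nat_lit 0) (nat_lit 15370386983) (nat_lit 152) (nat_lit 389591733210) (nat_lit 0) (nat_lit 14945605466) (nat_lit 1) (nat_lit 5) (nat_lit 3) (nat_lit 4) (nat_lit 1) (nat_lit 4) (nat_lit 469) (nat_lit 282) (nat_lit 269)))) (XT.nd (nat_lit 156) (nat_lit 0) (nat_lit 0) (XT.nd (nat_lit 78) (nat_lit 0) (nat_lit 0) (XT.lf (nat_lit 0) (nat_lit 18364748037) (nat_lit 152) (nat_lit 404507617863) (nat_lit 0) (nat_lit 17917127124) (nat_lit 1) (nat_lit 5) (nat_lit 3) (nat_lit 4) (nat_lit 1) (nat_lit 4) (nat_lit 470) (nat_lit 282) (nat_lit 268)) (XT.lf (nat_lit 0) (nat_lit 21453814070) (nat_lit 152) (nat_lit 420279845583) (nat_lit 0) (nat_lit 20984441352) (nat_lit 1) (nat_lit 5) (nat_lit 3) (nat_lit 4) (nat_lit 1) (nat_lit 4)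 (nat_lit 471) (nat_lit 282) (nat_lit 267))) (XT.nd (nat_lit 78) (nat_lit 0) (nat_lit 0) (XT.lf (nat_lit 0) (nat_lit 24644940001) (nat_lit 152) (nat_lit 436945969293) (nat_lit 0) (nat_lit 24154851278) (nat_lit 1) (nat_lit 5) (nat_lit 3) (nat_lit 4) (nat_lit 1) (nat_lit 4) (nat_lit 472) (nat_lit 282) (nat_lit 266)) (XT.lf (nat_lit 0) (nat_lit 27945723750) (nat_lit 152) (nat_lit 454545670242) (nat_lit 0) (nat_lit 27435905498) (nat_lit 1) (nat_lit 5) (nat_lit 3) (nat_lit 4) (nat_lit 1) (nat_lit 4) (nat_lit 473) (nat_lit 282) (nat_lit 265))))))) (XT.nd (nat_lit 51558) (nat_lit 0) (nat_lit 0) (XT.nd (nat_lit 468) (nat_lit 0) (nat_lit 0) (XT.nd (nat_lit 234) (nat_lit 0) (nat_lit 0) (XT.nd (nat_lit 78) (nat_lit 0) (nat_lit 0) (XT.lf (nat_lit 0) (nat_lit 31364024324) (nat_lit 152) (nat_lit 473120852478) (nat_lit 0) (nat_lit 30835416045) (nat_lit 1) (nat_lit 5) (nat_lit 3) (nat_lit 4) (nat_lit 1) (nat_lit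 4) (nat_lit 474) (nat_lit 282) (nat_lit 264)) (XT.nd (nat_lit 78) (nat_lit 0) (nat_lit 0) (XT.lf (nat_lit 0) (nat_lit 34907980536) (nat_lit 152) (nat_lit 492715742627) (nat_lit 0) (nat_lit 34361476992) (nat_lit 1) (nat_lit 5) (nat_lit 3) (nat_lit 4) (nat_lit 1) (nat_lit 4) (nat_lit 475) (nat_lit 282) (nat_lit 263)) (XT.lf (nat_lit 0) (nat_lit 38586030375) (nat_lit 152) (nat_lit 513376995187) (nat_lit 0) (nat_lit 38022483722) (nat_lit 1) (nat_lit 5) (nat_lit 3) (nat_lit 4) (nat_lit 1) (nat_lit 4) (nat_lit 476) (nat_lit 282) (nat_lit 262)))) (XT.nd (nat_lit 78) (nat_lit 0) (nat_lit 0) (XT.lf (nat_lit 0) (nat_lit 42406931104) (nat_lit 152) (nat_lit 535153803618) (nat_lit 0) (nat_lit 41827152919) (nat_lit 1) (nat_lit 5) (nat_lit 3) (nat_lit 4) (nat_lit 1) (nat_lit 4) (nat_lit 477) (nat_lit 282) (nat_lit 261)) (XT.nd (nat_lit 78) (nat_lit 0) (nat_lit 0) (XT.lf (nat_lit 0) (nat_lit 46379780104)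 (nat_lit 152) (nat_lit 558098017465) (nat_lit 0) (nat_lit 45784543317) (nat_lit 1) (nat_lit 5) (nat_lit 3) (nat_lit 4) (nat_lit 1) (nat_lit 4) (nat_lit 478) (nat_lit 282) (nat_lit 260)) (XT.lf (nat_lit 0) (nat_lit 50514036541) (nat_lit 152) (nat_lit 582264265806) (nat_lit 0) (nat_lit 49904077276) (nat_lit 1) (nat_lit 5) (nat_lit 3) (nat_lit 4) (nat_lit 1) (nat_lit 4) (nat_lit 479) (nat_lit 282) (nat_lit 259))))) (XT.nd (nat_lit 234) (nat_lit 0) (nat_lit 0) (XT.nd (nat_lit 78) (nat_lit 0) (nat_lit 0) (XT.lf (nat_lit 0) (nat_lit 54819543883) (nat_lit 152) (nat_lit 607710087329) (nat_lit 0) (nat_lit 54195563210) (nat_lit 1) (nat_lit 5) (nat_lit 3) (nat_lit 4) (nat_lit 1) (nat_lit 4) (nat_lit 480) (nat_lit 282) (nat_lit 258)) (XT.nd (nat_lit 78) (nat_lit 0) (nat_lit 0) (XT.lf (nat_lit 0) (nat_lit 59306553336) (nat_lit 152) (nat_lit 634496067324) (nat_lit 0) (nat_lit 58669218941) (nat_lit 1) (nat_lit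 5) (nat_lit 3) (nat_lit 4) (nat_lit 1) (nat_lit 4) (nat_lit 481) (nat_lit 282) (nat_lit 257)) (XT.lf (nat_lit 0) (nat_lit 63985748257) (nat_lit 152) (nat_lit 662685981932) (nat_lit 0) (nat_lit 63335696032) (nat_lit 1) (nat_lit 5) (nat_lit 3) (nat_lit 4) (nat_lit 1) (nat_lit 4) (nat_lit 482) (nat_lit 282) (nat_lit 256)))) (XT.nd (nat_lit 156) (nat_lit 0) (nat_lit 0) (XT.nd (nat_lit 78) (nat_lit 0) (nat_lit 0) (XT.lf (nat_lit 0) (nat_lit 68868269586) (nat_lit 152) (nat_lit 692346949999) (nat_lit 0) (nat_lit 68206105142) (nat_lit 1) (nat_lit 5) (nat_lit 3) (nat_lit 4) (nat_lit 1) (nat_lit 4) (nat_lit 483) (nat_lit 282) (nat_lit 255)) (XT.lf (nat_lit 0) (nat_lit 73965742375) (nat_lit 152) (nat_lit 723549592876) (nat_lit 0) (nat_lit 73292042484) (nat_lit 1) (nat_lit 5) (nat_lit 3) (nat_lit 4) (nat_lit 1) (nat_lit 4) (nat_lit 484) (nat_lit 282) (nat_lit 254))) (XT.nd (nat_lit 78) (nat_lit 0) (nat_lit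 0) (XT.lf (nat_lit 0) (nat_lit 79290303462) (nat_lit 152) (nat_lit 756368202571) (nat_lit 0) (nat_lit 78605617431) (nat_lit 1) (nat_lit 5) (nat_lit 3) (nat_lit 4) (nat_lit 1) (nat_lit 4) (nat_lit 485) (nat_lit 282) (nat_lit 253)) (XT.lf (nat_lit 0) (nat_lit 84854630374) (nat_lit 152) (nat_lit 790880918631) (nat_lit 0) (nat_lit 84159481353) (nat_lit 1) (nat_lit 5) (nat_lit 3) (nat_lit 4) (nat_lit 1) (nat_lit 4) (nat_lit 486) (nat_lit 282) (nat_lit 252)))))) (XT.nd (nat_lit 546) (nat_lit 152) (nat_lit 0) (XT.nd (nat_lit 234) (nat_lit 0) (nat_lit 0) (XT.nd (nat_lit 78) (nat_lit 0) (nat_lit 0) (XT.lf (nat_lit 0) (nat_lit 79552429131) (nat_lit 76) (nat_lit 11082422191) (nat_lit 76) (nat_lit 11082422191) (nat_lit 3) (nat_lit 4) (nat_lit 4) (nat_lit 5) (nat_lit 4) (nat_lit 4) (nat_lit 454) (nat_lit 283) (nat_lit 283)) (XT.nd (nat_lit 78) (nat_lit 0) (nat_lit 0) (XT.lf (nat_lit 0) (nat_lit 173566107372)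 (nat_lit 76) (nat_lit 19962636326) (nat_lit 76) (nat_lit 19915154863) (nat_lit 3) (nat_lit 4) (nat_lit 4) (nat_lit 5) (nat_lit 4) (nat_lit 4) (nat_lit 455) (nat_lit 283) (nat_lit 282)) (XT.lf (nat_lit 0) (nat_lit 188545544702) (nat_lit 76) (nat_lit 17752994046) (nat_lit 76) (nat_lit 17660292141) (nat_lit 3) (nat_lit 4) (nat_lit 4) (nat_lit 5) (nat_lit 4) (nat_lit 4) (nat_lit 456) (nat_lit 283) (nat_lit 281)))) (XT.nd (nat_lit 156) (nat_lit 0) (nat_lit 0) (XT.nd (nat_lit 78) (nat_lit 0) (nat_lit 0) (XT.lf (nat_lit 0) (nat_lit 204078835580) (nat_lit 76) (nat_lit 15530656488) (nat_lit 76) (nat_lit 15394887496) (nat_lit 3) (nat_lit 4) (nat_lit 4) (nat_lit 5) (nat_lit 4) (nat_lit 4) (nat_lit 457) (nat_lit 283) (nat_lit 280)) (XT.lf (nat_lit 0) (nat_lit 220202964030) (nat_lit 76) (nat_lit 13290332372) (nat_lit 76) (nat_lit 13113547107) (nat_lit 3) (nat_lit 4) (nat_lit 4) (nat_lit 5) (nat_lit 4)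 (nat_lit 4) (nat_lit 458) (nat_lit 283) (nat_lit 279))) (XT.nd (nat_lit 78) (nat_lit 0) (nat_lit 0) (XT.lf (nat_lit 0) (nat_lit 236956320836) (nat_lit 76) (nat_lit 11026687594) (nat_lit 76) (nat_lit 10810839211) (nat_lit 3) (nat_lit 4) (nat_lit 4) (nat_lit 5) (nat_lit 4) (nat_lit 4) (nat_lit 459) (nat_lit 283) (nat_lit 278)) (XT.lf (nat_lit 0) (nat_lit 254378794943) (nat_lit 76) (nat_lit 8734332524) (nat_lit 76) (nat_lit 8481281172) (nat_lit 3) (nat_lit 4) (nat_lit 4) (nat_lit 5) (nat_lit 4) (nat_lit 4) (nat_lit 460) (nat_lit 283) (nat_lit 277))))) (XT.nd (nat_lit 234) (nat_lit 152) (nat_lit 0) (XT.nd (nat_lit 78) (nat_lit 0) (nat_lit 0) (XT.lf (nat_lit 0) (nat_lit 272511868430) (nat_lit 76) (nat_lit 6407809172) (nat_lit 76) (nat_lit 6119326421) (nat_lit 3) (nat_lit 4) (nat_lit 4) (nat_lit 5) (nat_lit 4) (nat_lit 4) (nat_lit 461) (nat_lit 283) (nat_lit 276)) (XT.nd (nat_lit 78) (nat_lit 0)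 (nat_lit 0) (XT.lf (nat_lit 0) (nat_lit 291398715283) (nat_lit 76) (nat_lit 4041578198) (nat_lit 76) (nat_lit 3719351257) (nat_lit 3) (nat_lit 4) (nat_lit 4) (nat_lit 5) (nat_lit 4) (nat_lit 4) (nat_lit 462) (nat_lit 283) (nat_lit 275)) (XT.lf (nat_lit 0) (nat_lit 311084304185) (nat_lit 76) (nat_lit 1630005718) (nat_lit 76) (nat_lit 1275641454) (nat_lit 3) (nat_lit 4) (nat_lit 4) (nat_lit 5) (nat_lit 4) (nat_lit 4) (nat_lit 463) (nat_lit 283) (nat_lit 274)))) (XT.nd (nat_lit 156) (nat_lit 0) (nat_lit 0) (XT.nd (nat_lit 78) (nat_lit 0) (nat_lit 0) (XT.lf (nat_lit 0) (nat_lit 1225260866) (nat_lit 152) (nat_lit 327478070602) (nat_lit 0) (nat_lit 858621591) (nat_lit 1) (nat_lit 5) (nat_lit 3) (nat_lit 4) (nat_lit 1) (nat_lit 4) (nat_lit 464) (nat_lit 283) (nat_lit 273)) (XT.lf (nat_lit 0) (nat_lit 3814862858) (nat_lit 152) (nat_lit 338675860038) (nat_lit 0) (nat_lit 3420462154) (nat_lit 1) (nat_lit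 5) (nat_lit 3) (nat_lit 4) (nat_lit 1) (nat_lit 4) (nat_lit 465) (nat_lit 283) (nat_lit 272))) (XT.nd (nat_lit 78) (nat_lit 0) (nat_lit 0) (XT.lf (nat_lit 0) (nat_lit 6467076214) (nat_lit 152) (nat_lit 350567911745) (nat_lit 0) (nat_lit 6046236055) (nat_lit 1) (nat_lit 5) (nat_lit 3) (nat_lit 4) (nat_lit 1) (nat_lit 4) (nat_lit 466) (nat_lit 283) (nat_lit 271)) (XT.lf (nat_lit 0) (nat_lit 9188215728) (nat_lit 152) (nat_lit 363182540133) (nat_lit 0) (nat_lit 8742195136) (nat_lit 1) (nat_lit 5) (nat_lit 3) (nat_lit 4) (nat_lit 1) (nat_lit 4) (nat_lit 467) (nat_lit 283) (nat_lit 270))))))))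
noncomputable def xc5 : XT := (XT.nd (nat_lit 52494) (nat_lit 0) (nat_lit 0) (XT.nd (nat_lit 1014) (nat_lit 0) (nat_lit 0) (XT.nd (nat_lit 468) (nat_lit 0) (nat_lit 0) (XT.nd (nat_lit 234) (nat_lit 0) (nat_lit 0) (XT.nd (nat_lit 78) (nat_lit 0) (nat_lit 0) (XT.lf (nat_lit 0) (nat_lit 11984760305) (nat_lit 152) (nat_lit 376549780031) (nat_lit 0) (nat_lit 11514758347) (nat_lit 1) (nat_lit 5) (nat_lit 3) (nat_lit 4) (nat_lit 1) (nat_lit 4) (nat_lit 468) (nat_lit 283) (nat_lit 269)) (XT.nd (nat_lit 78) (nat_lit 0) (nat_lit 0) (XT.lf (nat_lit 0) (nat_lit 14863368383) (nat_lit 152) (nat_lit 390701458201) (nat_lit 0) (nat_lit 14370527029) (nat_lit 1) (nat_lit 5) (nat_lit 3) (nat_lit 4) (nat_lit 1) (nat_lit 4) (nat_lit 469) (nat_lit 283) (nat_lit 268)) (XT.lf (nat_lit 0) (nat_lit 17830893792) (nat_lit 152) (nat_lit 405671269115) (nat_lit 0) (nat_lit 17316300632) (nat_lit 1) (nat_lit 5) (nat_lit 3)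 (nat_lit 4) (nat_lit 1) (nat_lit 4) (nat_lit 470) (nat_lit 283) (nat_lit 267)))) (XT.nd (nat_lit 78) (nat_lit 0) (nat_lit 0) (XT.lf (nat_lit 0) (nat_lit 20894402067) (nat_lit 152) (nat_lit 421494855178) (nat_lit 0) (nat_lit 20359092902) (nat_lit 1) (nat_lit 5) (nat_lit 3) (nat_lit 4) (nat_lit 1) (nat_lit 4) (nat_lit 471) (nat_lit 283) (nat_lit 266)) (XT.nd (nat_lit 78) (nat_lit 0) (nat_lit 0) (XT.lf (nat_lit 0) (nat_lit 24061187277) (nat_lit 152) (nat_lit 438209891598) (nat_lit 0) (nat_lit 23506148583) (nat_lit 1) (nat_lit 5) (nat_lit 3) (nat_lit 4) (nat_lit 1) (nat_lit 4) (nat_lit 472) (nat_lit 283) (nat_lit 265)) (XT.lf (nat_lit 0) (nat_lit 27338789385) (nat_lit 152) (nat_lit 455856176078) (nat_lit 0) (nat_lit 26764960664) (nat_lit 1) (nat_lit 5) (nat_lit 3) (nat_lit 4) (nat_lit 1) (nat_lit 4) (nat_lit 473) (nat_lit 283) (nat_lit 264))))) (XT.nd (nat_lit 234) (nat_lit 0) (nat_lit 0) (XT.nd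 (nat_lit 78) (nat_lit 0) (nat_lit 0) (XT.lf (nat_lit 0) (nat_lit 30735012208) (nat_lit 152) (nat_lit 474475723583) (nat_lit 0) (nat_lit 30143288222) (nat_lit 1) (nat_lit 5) (nat_lit 3) (nat_lit 4) (nat_lit 1) (nat_lit 4) (nat_lit 474) (nat_lit 283) (nat_lit 263)) (XT.nd (nat_lit 78) (nat_lit 0) (nat_lit 0) (XT.lf (nat_lit 0) (nat_lit 34257941989) (nat_lit 152) (nat_lit 494112866368) (nat_lit 0) (nat_lit 33649174894) (nat_lit 1) (nat_lit 5) (nat_lit 3) (nat_lit 4) (nat_lit 1) (nat_lit 4) (nat_lit 475) (nat_lit 283) (nat_lit 262)) (XT.lf (nat_lit 0) (nat_lit 37915966656) (nat_lit 152) (nat_lit 514814359534) (nat_lit 0) (nat_lit 37290968030) (nat_lit 1) (nat_lit 5) (nat_lit 3) (nat_lit 4) (nat_lit 1) (nat_lit 4) (nat_lit 476) (nat_lit 283) (nat_lit 261)))) (XT.nd (nat_lit 156) (nat_lit 0) (nat_lit 0) (XT.nd (nat_lit 78) (nat_lit 0) (nat_lit 0) (XT.lf (nat_lit 0) (nat_lit 41717795792) (nat_lit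 152) (nat_lit 536629492353) (nat_lit 0) (nat_lit 41077338564) (nat_lit 1) (nat_lit 5) (nat_lit 3) (nat_lit 4) (nat_lit 1) (nat_lit 4) (nat_lit 477) (nat_lit 283) (nat_lit 260)) (XT.lf (nat_lit 0) (nat_lit 45672481372) (nat_lit 152) (nat_lit 559610205615) (nat_lit 0) (nat_lit 45017301665) (nat_lit 1) (nat_lit 5) (nat_lit 3) (nat_lit 4) (nat_lit 1) (nat_lit 4) (nat_lit 478) (nat_lit 283) (nat_lit 259))) (XT.nd (nat_lit 78) (nat_lit 0) (nat_lit 0) (XT.lf (nat_lit 0) (nat_lit 49789439312) (nat_lit 152) (nat_lit 583811215305) (nat_lit 0) (nat_lit 49120238198) (nat_lit 1) (nat_lit 5) (nat_lit 3) (nat_lit 4) (nat_lit 1) (nat_lit 4) (nat_lit 479) (nat_lit 283) (nat_lit 258)) (XT.lf (nat_lit 0) (nat_lit 54078471895) (nat_lit 152) (nat_lit 609290142874) (nat_lit 0) (nat_lit 53395917059) (nat_lit 1) (nat_lit 5) (nat_lit 3) (nat_lit 4) (nat_lit 1) (nat_lit 4) (nat_lit 480) (nat_lit 283) (nat_lit 257))))))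 (XT.nd (nat_lit 50934) (nat_lit 0) (nat_lit 152) (XT.nd (nat_lit 234) (nat_lit 0) (nat_lit 0) (XT.nd (nat_lit 78) (nat_lit 0) (nat_lit 0) (XT.lf (nat_lit 0) (nat_lit 58549791102) (nat_lit 152) (nat_lit 636107652437) (nat_lit 0) (nat_lit 57854518436) (nat_lit 1) (nat_lit 5) (nat_lit 3) (nat_lit 4) (nat_lit 1) (nat_lit 4) (nat_lit 481) (nat_lit 283) (nat_lit 256)) (XT.nd (nat_lit 78) (nat_lit 0) (nat_lit 0) (XT.lf (nat_lit 0) (nat_lit 63214042931) (nat_lit 152) (nat_lit 664327595205) (nat_lit 0) (nat_lit 62506658046) (nat_lit 1) (nat_lit 5) (nat_lit 3) (nat_lit 4) (nat_lit 1) (nat_lit 4) (nat_lit 482) (nat_lit 283) (nat_lit 255)) (XT.lf (nat_lit 0) (nat_lit 68082332745) (nat_lit 152) (nat_lit 694017161519) (nat_lit 0) (nat_lit 67363412413) (nat_lit 1) (nat_lit 5) (nat_lit 3) (nat_lit 4) (nat_lit 1) (nat_lit 4) (nat_lit 483) (nat_lit 283) (nat_lit 254)))) (XT.nd (nat_lit 156) (nat_lit 0) (nat_lit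 0) (XT.nd (nat_lit 78) (nat_lit 0) (nat_lit 0) (XT.lf (nat_lit 0) (nat_lit 73166251708) (nat_lit 152) (nat_lit 725247040823) (nat_lit 0) (nat_lit 72436345236) (nat_lit 1) (nat_lit 5) (nat_lit 3) (nat_lit 4) (nat_lit 1) (nat_lit 4) (nat_lit 484) (nat_lit 283) (nat_lit 253)) (XT.lf (nat_lit 0) (nat_lit 78477904391) (nat_lit 152) (nat_lit 758091589972) (nat_lit 0) (nat_lit 77737534929) (nat_lit 1) (nat_lit 5) (nat_lit 3) (nat_lit 4) (nat_lit 1) (nat_lit 4) (nat_lit 485) (nat_lit 283) (nat_lit 252))) (XT.nd (nat_lit 50466) (nat_lit 0) (nat_lit 152) (XT.lf (nat_lit 0) (nat_lit 84029937585) (nat_lit 152) (nat_lit 792629010273) (nat_lit 0) (nat_lit 83279603370) (nat_lit 1) (nat_lit 5) (nat_lit 3) (nat_lit 4) (nat_lit 1) (nat_lit 4) (nat_lit 486) (nat_lit 283) (nat_lit 251)) (XT.lf (nat_lit 0) (nat_lit 65855266343) (nat_lit 76) (nat_lit 13281280901) (nat_lit 76) (nat_lit 13281280901) (nat_lit 3)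 (nat_lit 4) (nat_lit 4) (nat_lit 5) (nat_lit 4) (nat_lit 4) (nat_lit 452) (nat_lit 284) (nat_lit 284))))) (XT.nd (nat_lit 234) (nat_lit 0) (nat_lit 0) (XT.nd (nat_lit 78) (nat_lit 0) (nat_lit 0) (XT.lf (nat_lit 0) (nat_lit 145127365828) (nat_lit 76) (nat_lit 24414717104) (nat_lit 76) (nat_lit 24364861567) (nat_lit 3) (nat_lit 4) (nat_lit 4) (nat_lit 5) (nat_lit 4) (nat_lit 4) (nat_lit 453) (nat_lit 284) (nat_lit 283)) (XT.nd (nat_lit 78) (nat_lit 0) (nat_lit 0) (XT.lf (nat_lit 0) (nat_lit 158999922679) (nat_lit 76) (nat_lit 22267290157) (nat_lit 76) (nat_lit 22169953157) (nat_lit 3) (nat_lit 4) (nat_lit 4) (nat_lit 5) (nat_lit 4) (nat_lit 4) (nat_lit 454) (nat_lit 284) (nat_lit 282)) (XT.lf (nat_lit 0) (nat_lit 173361233137) (nat_lit 76) (nat_lit 20115168041) (nat_lit 76) (nat_lit 19972610600) (nat_lit 3) (nat_lit 4) (nat_lit 4) (nat_lit 5) (nat_lit 4) (nat_lit 4) (nat_lit 455) (nat_lit 284)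 (nat_lit 281)))) (XT.nd (nat_lit 156) (nat_lit 0) (nat_lit 0) (XT.nd (nat_lit 78) (nat_lit 0) (nat_lit 0) (XT.lf (nat_lit 0) (nat_lit 188245490799) (nat_lit 76) (nat_lit 17953226657) (nat_lit 76) (nat_lit 17767602128) (nat_lit 3) (nat_lit 4) (nat_lit 4) (nat_lit 5) (nat_lit 4) (nat_lit 4) (nat_lit 456) (nat_lit 284) (nat_lit 280)) (XT.lf (nat_lit 0) (nat_lit 203688134374) (nat_lit 76) (nat_lit 15776318523) (nat_lit 76) (nat_lit 15549677721) (nat_lit 3) (nat_lit 4) (nat_lit 4) (nat_lit 5) (nat_lit 4) (nat_lit 4) (nat_lit 457) (nat_lit 284) (nat_lit 279))) (XT.nd (nat_lit 78) (nat_lit 0) (nat_lit 0) (XT.lf (nat_lit 0) (nat_lit 219725932060) (nat_lit 76) (nat_lit 13579260527) (nat_lit 76) (nat_lit 13313556607) (nat_lit 3) (nat_lit 4) (nat_lit 4) (nat_lit 5) (nat_lit 4) (nat_lit 4) (nat_lit 458) (nat_lit 284) (nat_lit 278)) (XT.lf (nat_lit 0) (nat_lit 236397069091) (nat_lit 76) (nat_lit 11356821576)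 (nat_lit 76) (nat_lit 11053914687) (nat_lit 3) (nat_lit 4) (nat_lit 4) (nat_lit 5) (nat_lit 4) (nat_lit 4) (nat_lit 459) (nat_lit 284) (nat_lit 277))))))) (XT.nd (nat_lit 1014) (nat_lit 0) (nat_lit 0) (XT.nd (nat_lit 468) (nat_lit 0) (nat_lit 0) (XT.nd (nat_lit 234) (nat_lit 152) (nat_lit 0) (XT.nd (nat_lit 78) (nat_lit 0) (nat_lit 0) (XT.lf (nat_lit 0) (nat_lit 253741238648) (nat_lit 76) (nat_lit 9103710151) (nat_lit 76) (nat_lit 8765371863) (nat_lit 3) (nat_lit 4) (nat_lit 4) (nat_lit 5) (nat_lit 4) (nat_lit 4) (nat_lit 460) (nat_lit 284) (nat_lit 276)) (XT.nd (nat_lit 78) (nat_lit 0) (nat_lit 0) (XT.lf (nat_lit 0) (nat_lit 271799736375) (nat_lit 76) (nat_lit 6814561699) (nat_lit 76) (nat_lit 6442479222) (nat_lit 3) (nat_lit 4) (nat_lit 4) (nat_lit 5) (nat_lit 4) (nat_lit 4) (nat_lit 461) (nat_lit 284) (nat_lit 275)) (XT.lf (nat_lit 0) (nat_lit 290615558695) (nat_lit 76) (nat_lit 4483925868)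 (nat_lit 76) (nat_lit 4079706067) (nat_lit 3) (nat_lit 4) (nat_lit 4) (nat_lit 5) (nat_lit 4) (nat_lit 4) (nat_lit 462) (nat_lit 284) (nat_lit 274)))) (XT.nd (nat_lit 78) (nat_lit 152) (nat_lit 0) (XT.lf (nat_lit 0) (nat_lit 310233505184) (nat_lit 76) (nat_lit 2106253524) (nat_lit 76) (nat_lit 1671426749) (nat_lit 3) (nat_lit 4) (nat_lit 4) (nat_lit 5) (nat_lit 4) (nat_lit 4) (nat_lit 463) (nat_lit 284) (nat_lit 273)) (XT.nd (nat_lit 78) (nat_lit 0) (nat_lit 0) (XT.lf (nat_lit 0) (nat_lit 786162145) (nat_lit 152) (nat_lit 328455854045) (nat_lit 0) (nat_lit 344279979) (nat_lit 1) (nat_lit 5) (nat_lit 3) (nat_lit 4) (nat_lit 1) (nat_lit 4) (nat_lit 464) (nat_lit 284) (nat_lit 272)) (XT.lf (nat_lit 0) (nat_lit 3343145242) (nat_lit 152) (nat_lit 339719191188) (nat_lit 0) (nat_lit 2874823619) (nat_lit 1) (nat_lit 5) (nat_lit 3) (nat_lit 4) (nat_lit 1) (nat_lit 4) (nat_lit 465) (nat_lit 284) (nat_lit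 271))))) (XT.nd (nat_lit 234) (nat_lit 0) (nat_lit 0) (XT.nd (nat_lit 78) (nat_lit 0) (nat_lit 0) (XT.lf (nat_lit 0) (nat_lit 5964292984) (nat_lit 152) (nat_lit 351673669283) (nat_lit 0) (nat_lit 5470790927) (nat_lit 1) (nat_lit 5) (nat_lit 3) (nat_lit 4) (nat_lit 1) (nat_lit 4) (nat_lit 466) (nat_lit 284) (nat_lit 270)) (XT.nd (nat_lit 78) (nat_lit 0) (nat_lit 0) (XT.lf (nat_lit 0) (nat_lit 8655846199) (nat_lit 152) (nat_lit 364347751374) (nat_lit 0) (nat_lit 8138362777) (nat_lit 1) (nat_lit 5) (nat_lit 3) (nat_lit 4) (nat_lit 1) (nat_lit 4) (nat_lit 467) (nat_lit 284) (nat_lit 269)) (XT.lf (nat_lit 0) (nat_lit 11424213348) (nat_lit 152) (nat_lit 377771613846) (nat_lit 0) (nat_lit 10883890530) (nat_lit 1) (nat_lit 5) (nat_lit 3) (nat_lit 4) (nat_lit 1) (nat_lit 4) (nat_lit 468) (nat_lit 284) (nat_lit 268)))) (XT.nd (nat_lit 156) (nat_lit 0) (nat_lit 0) (XT.nd (nat_lit 78) (nat_lit 0) (nat_lit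 0) (XT.lf (nat_lit 0) (nat_lit 14275985780) (nat_lit 152) (nat_lit 391977218277) (nat_lit 0) (nat_lit 13713911157) (nat_lit 1) (nat_lit 5) (nat_lit 3) (nat_lit 4) (nat_lit 1) (nat_lit 4) (nat_lit 469) (nat_lit 284) (nat_lit 267)) (XT.lf (nat_lit 0) (nat_lit 17217953431) (nat_lit 152) (nat_lit 406998387534) (nat_lit 0) (nat_lit 16635162802) (nat_lit 1) (nat_lit 5) (nat_lit 3) (nat_lit 4) (nat_lit 1) (nat_lit 4) (nat_lit 470) (nat_lit 284) (nat_lit 266))) (XT.nd (nat_lit 78) (nat_lit 0) (nat_lit 0) (XT.lf (nat_lit 0) (nat_lit 20257120984) (nat_lit 152) (nat_lit 422870886306) (nat_lit 0) (nat_lit 19654600827) (nat_lit 1) (nat_lit 5) (nat_lit 3) (nat_lit 4) (nat_lit 1) (nat_lit 4) (nat_lit 471) (nat_lit 284) (nat_lit 265)) (XT.lf (nat_lit 0) (nat_lit 23400724554) (nat_lit 152) (nat_lit 439632506257) (nat_lit 0) (nat_lit 22779414370) (nat_lit 1) (nat_lit 5) (nat_lit 3) (nat_lit 4) (nat_lit 1)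 (nat_lit 4) (nat_lit 472) (nat_lit 284) (nat_lit 264)))))) (XT.nd (nat_lit 546) (nat_lit 0) (nat_lit 0) (XT.nd (nat_lit 234) (nat_lit 0) (nat_lit 0) (XT.nd (nat_lit 78) (nat_lit 0) (nat_lit 0) (XT.lf (nat_lit 0) (nat_lit 26656248911) (nat_lit 152) (nat_lit 457323156006) (nat_lit 0) (nat_lit 26017043462) (nat_lit 1) (nat_lit 5) (nat_lit 3) (nat_lit 4) (nat_lit 1) (nat_lit 4) (nat_lit 473) (nat_lit 284) (nat_lit 263)) (XT.nd (nat_lit 78) (nat_lit 0) (nat_lit 0) (XT.lf (nat_lit 0) (nat_lit 30031445303) (nat_lit 152) (nat_lit 475984956147) (nat_lit 0) (nat_lit 29375196745) (nat_lit 1) (nat_lit 5) (nat_lit 3) (nat_lit 4) (nat_lit 1) (nat_lit 4) (nat_lit 474) (nat_lit 284) (nat_lit 262)) (XT.lf (nat_lit 0) (nat_lit 33534349912) (nat_lit 152) (nat_lit 495662339538) (nat_lit 0) (nat_lit 32861869822) (nat_lit 1) (nat_lit 5) (nat_lit 3) (nat_lit 4) (nat_lit 1) (nat_lit 4) (nat_lit 475) (nat_lit 284)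 (nat_lit 261)))) (XT.nd (nat_lit 156) (nat_lit 0) (nat_lit 0) (XT.nd (nat_lit 78) (nat_lit 0) (nat_lit 0) (XT.lf (nat_lit 0) (nat_lit 37173302986) (nat_lit 152) (nat_lit 516402157092) (nat_lit 0) (nat_lit 36485364295) (nat_lit 1) (nat_lit 5) (nat_lit 3) (nat_lit 4) (nat_lit 1) (nat_lit 4) (nat_lit 476) (nat_lit 284) (nat_lit 260)) (XT.lf (nat_lit 0) (nat_lit 40956968701) (nat_lit 152) (nat_lit 538253789326) (nat_lit 0) (nat_lit 40254307531) (nat_lit 1) (nat_lit 5) (nat_lit 3) (nat_lit 4) (nat_lit 1) (nat_lit 4) (nat_lit 477) (nat_lit 284) (nat_lit 259))) (XT.nd (nat_lit 78) (nat_lit 0) (nat_lit 0) (XT.lf (nat_lit 0) (nat_lit 44894355784) (nat_lit 152) (nat_lit 561269263937) (nat_lit 0) (nat_lit 44177673207) (nat_lit 1) (nat_lit 5) (nat_lit 3) (nat_lit 4) (nat_lit 1) (nat_lit 4) (nat_lit 478) (nat_lit 284) (nat_lit 258)) (XT.lf (nat_lit 0) (nat_lit 48994838967) (nat_lit 152) (nat_lit 585503379674)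 (nat_lit 0) (nat_lit 48264802667) (nat_lit 1) (nat_lit 5) (nat_lit 3) (nat_lit 4) (nat_lit 1) (nat_lit 4) (nat_lit 479) (nat_lit 284) (nat_lit 257))))) (XT.nd (nat_lit 234) (nat_lit 0) (nat_lit 0) (XT.nd (nat_lit 78) (nat_lit 0) (nat_lit 0) (XT.lf (nat_lit 0) (nat_lit 53268181303) (nat_lit 152) (nat_lit 611013836811) (nat_lit 0) (nat_lit 52525427173) (nat_lit 1) (nat_lit 5) (nat_lit 3) (nat_lit 4) (nat_lit 1) (nat_lit 4) (nat_lit 480) (nat_lit 284) (nat_lit 256)) (XT.nd (nat_lit 78) (nat_lit 0) (nat_lit 0) (XT.lf (nat_lit 0) (nat_lit 57724557418) (nat_lit 152) (nat_lit 637861374533) (nat_lit 0) (nat_lit 56969691069) (nat_lit 1) (nat_lit 5) (nat_lit 3) (nat_lit 4) (nat_lit 1) (nat_lit 4) (nat_lit 481) (nat_lit 284) (nat_lit 255)) (XT.lf (nat_lit 0) (nat_lit 62374577732) (nat_lit 152) (nat_lit 666109915549) (nat_lit 0) (nat_lit 61608175936) (nat_lit 1) (nat_lit 5) (nat_lit 3) (nat_lit 4) (nat_lit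 1) (nat_lit 4) (nat_lit 482) (nat_lit 284) (nat_lit 254)))) (XT.nd (nat_lit 156) (nat_lit 0) (nat_lit 0) (XT.nd (nat_lit 78) (nat_lit 0) (nat_lit 0) (XT.lf (nat_lit 0) (nat_lit 67229313721) (nat_lit 152) (nat_lit 695826718290) (nat_lit 0) (nat_lit 66451925785) (nat_lit 1) (nat_lit 5) (nat_lit 3) (nat_lit 4) (nat_lit 1) (nat_lit 4) (nat_lit 483) (nat_lit 284) (nat_lit 253)) (XT.lf (nat_lit 0) (nat_lit 72300324280) (nat_lit 152) (nat_lit 727082537047) (nat_lit 0) (nat_lit 71512473354) (nat_lit 1) (nat_lit 5) (nat_lit 3) (nat_lit 4) (nat_lit 1) (nat_lit 4) (nat_lit 484) (nat_lit 284) (nat_lit 252))) (XT.nd (nat_lit 78) (nat_lit 0) (nat_lit 0) (XT.lf (nat_lit 0) (nat_lit 77599683244) (nat_lit 152) (nat_lit 759951790438) (nat_lit 0) (nat_lit 76801867566) (nat_lit 1) (nat_lit 5) (nat_lit 3) (nat_lit 4) (nat_lit 1) (nat_lit 4) (nat_lit 485) (nat_lit 284) (nat_lit 251)) (XT.lf (nat_lit 0) (nat_lit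 83140008135) (nat_lit 152) (nat_lit 794512738588) (nat_lit 0) (nat_lit 82332702216) (nat_lit 1) (nat_lit 5) (nat_lit 3) (nat_lit 4) (nat_lit 1) (nat_lit 4) (nat_lit 486) (nat_lit 284) (nat_lit 250))))))))
noncomputable def xc6 : XT := (XT.nd (nat_lit 2106) (nat_lit 0) (nat_lit 0) (XT.nd (nat_lit 1014) (nat_lit 152) (nat_lit 0) (XT.nd (nat_lit 468) (nat_lit 0) (nat_lit 0) (XT.nd (nat_lit 234) (nat_lit 0) (nat_lit 0) (XT.nd (nat_lit 78) (nat_lit 0) (nat_lit 0) (XT.lf (nat_lit 0) (nat_lit 53116479326) (nat_lit 76) (nat_lit 15437170434) (nat_lit 76) (nat_lit 15437170434) (nat_lit 3) (nat_lit 4) (nat_lit 4) (nat_lit 5) (nat_lit 4) (nat_lit 4) (nat_lit 450) (nat_lit 285) (nat_lit 285)) (XT.nd (nat_lit 78) (nat_lit 0) (nat_lit 0) (XT.lf (nat_lit 0) (nat_lit 118717478416) (nat_lit 76) (nat_lit 28768286483) (nat_lit 76) (nat_lit 28715938170) (nat_lit 3) (nat_lit 4) (nat_lit 4) (nat_lit 5) (nat_lit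 4) (nat_lit 4) (nat_lit 451) (nat_lit 285) (nat_lit 284)) (XT.lf (nat_lit 0) (nat_lit 131600350324) (nat_lit 76) (nat_lit 26670129866) (nat_lit 76) (nat_lit 26567926016) (nat_lit 3) (nat_lit 4) (nat_lit 4) (nat_lit 5) (nat_lit 4) (nat_lit 4) (nat_lit 452) (nat_lit 285) (nat_lit 283)))) (XT.nd (nat_lit 78) (nat_lit 0) (nat_lit 0) (XT.lf (nat_lit 0) (nat_lit 144912247881) (nat_lit 76) (nat_lit 24574875404) (nat_lit 76) (nat_lit 24425190091) (nat_lit 3) (nat_lit 4) (nat_lit 4) (nat_lit 5) (nat_lit 4) (nat_lit 4) (nat_lit 453) (nat_lit 285) (nat_lit 282)) (XT.nd (nat_lit 78) (nat_lit 0) (nat_lit 0) (XT.lf (nat_lit 0) (nat_lit 158684866081) (nat_lit 76) (nat_lit 22477534398) (nat_lit 76) (nat_lit 22282628643) (nat_lit 3) (nat_lit 4) (nat_lit 4) (nat_lit 5) (nat_lit 4) (nat_lit 4) (nat_lit 454) (nat_lit 285) (nat_lit 281)) (XT.lf (nat_lit 0) (nat_lit 172950996871) (nat_lit 76) (nat_lit 20373113179)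 (nat_lit 76) (nat_lit 20135140337) (nat_lit 3) (nat_lit 4) (nat_lit 4) (nat_lit 5) (nat_lit 4) (nat_lit 4) (nat_lit 455) (nat_lit 285) (nat_lit 280))))) (XT.nd (nat_lit 234) (nat_lit 0) (nat_lit 0) (XT.nd (nat_lit 78) (nat_lit 0) (nat_lit 0) (XT.lf (nat_lit 0) (nat_lit 187744607231) (nat_lit 76) (nat_lit 18256601219) (nat_lit 76) (nat_lit 17977612103) (nat_lit 3) (nat_lit 4) (nat_lit 4) (nat_lit 5) (nat_lit 4) (nat_lit 4) (nat_lit 456) (nat_lit 285) (nat_lit 279)) (XT.nd (nat_lit 78) (nat_lit 0) (nat_lit 0) (XT.lf (nat_lit 0) (nat_lit 203100920041) (nat_lit 76) (nat_lit 16122959204) (nat_lit 76) (nat_lit 15804906971) (nat_lit 3) (nat_lit 4) (nat_lit 4) (nat_lit 5) (nat_lit 4) (nat_lit 4) (nat_lit 457) (nat_lit 285) (nat_lit 278)) (XT.lf (nat_lit 0) (nat_lit 219056497951) (nat_lit 76) (nat_lit 13967107035) (nat_lit 76) (nat_lit 13611851833) (nat_lit 3) (nat_lit 4) (nat_lit 4) (nat_lit 5) (nat_lit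 4) (nat_lit 4) (nat_lit 458) (nat_lit 285) (nat_lit 277)))) (XT.nd (nat_lit 156) (nat_lit 0) (nat_lit 0) (XT.nd (nat_lit 78) (nat_lit 0) (nat_lit 0) (XT.lf (nat_lit 0) (nat_lit 235649330433) (nat_lit 76) (nat_lit 11783911729) (nat_lit 76) (nat_lit 11393225128) (nat_lit 3) (nat_lit 4) (nat_lit 4) (nat_lit 5) (nat_lit 4) (nat_lit 4) (nat_lit 459) (nat_lit 285) (nat_lit 276)) (XT.lf (nat_lit 0) (nat_lit 252918924231) (nat_lit 76) (nat_lit 9568175204) (nat_lit 76) (nat_lit 9143744413) (nat_lit 3) (nat_lit 4) (nat_lit 4) (nat_lit 5) (nat_lit 4) (nat_lit 4) (nat_lit 460) (nat_lit 285) (nat_lit 275))) (XT.nd (nat_lit 78) (nat_lit 0) (nat_lit 0) (XT.lf (nat_lit 0) (nat_lit 270906397424) (nat_lit 76) (nat_lit 7314621895) (nat_lit 76) (nat_lit 6858053781) (nat_lit 3) (nat_lit 4) (nat_lit 4) (nat_lit 5) (nat_lit 4) (nat_lit 4) (nat_lit 461) (nat_lit 285) (nat_lit 274)) (XT.lf (nat_lit 0) (nat_lit 289654577331)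 (nat_lit 76) (nat_lit 5017886200) (nat_lit 76) (nat_lit 4530711111) (nat_lit 3) (nat_lit 4) (nat_lit 4) (nat_lit 5) (nat_lit 4) (nat_lit 4) (nat_lit 462) (nat_lit 285) (nat_lit 273)))))) (XT.nd (nat_lit 546) (nat_lit 0) (nat_lit 0) (XT.nd (nat_lit 234) (nat_lit 0) (nat_lit 0) (XT.nd (nat_lit 78) (nat_lit 152) (nat_lit 0) (XT.lf (nat_lit 0) (nat_lit 309208102474) (nat_lit 76) (nat_lit 2672499700) (nat_lit 76) (nat_lit 2156175112) (nat_lit 3) (nat_lit 4) (nat_lit 4) (nat_lit 5) (nat_lit 4) (nat_lit 4) (nat_lit 463) (nat_lit 285) (nat_lit 272)) (XT.nd (nat_lit 78) (nat_lit 76) (nat_lit 0) (XT.lf (nat_lit 0) (nat_lit 262527528) (nat_lit 152) (nat_lit 5904584) (nat_lit 76) (nat_lit 329346555308) (nat_lit 2) (nat_lit 5) (nat_lit 4) (nat_lit 5) (nat_lit 3) (nat_lit 4) (nat_lit 464) (nat_lit 285) (nat_lit 271)) (XT.lf (nat_lit 0) (nat_lit 2784157236) (nat_lit 152) (nat_lit 340942662990) (nat_lit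 0) (nat_lit 2240799643) (nat_lit 1) (nat_lit 5) (nat_lit 3) (nat_lit 4) (nat_lit 1) (nat_lit 4) (nat_lit 465) (nat_lit 285) (nat_lit 270)))) (XT.nd (nat_lit 156) (nat_lit 0) (nat_lit 0) (XT.nd (nat_lit 78) (nat_lit 0) (nat_lit 0) (XT.lf (nat_lit 0) (nat_lit 5375718678) (nat_lit 152) (nat_lit 352956594789) (nat_lit 0) (nat_lit 4808379720) (nat_lit 1) (nat_lit 5) (nat_lit 3) (nat_lit 4) (nat_lit 1) (nat_lit 4) (nat_lit 466) (nat_lit 285) (nat_lit 269)) (XT.lf (nat_lit 0) (nat_lit 8039094466) (nat_lit 152) (nat_lit 365687299453) (nat_lit 0) (nat_lit 7448916111) (nat_lit 1) (nat_lit 5) (nat_lit 3) (nat_lit 4) (nat_lit 1) (nat_lit 4) (nat_lit 467) (nat_lit 285) (nat_lit 268))) (XT.nd (nat_lit 78) (nat_lit 0) (nat_lit 0) (XT.lf (nat_lit 0) (nat_lit 10780625969) (nat_lit 152) (nat_lit 379165088187) (nat_lit 0) (nat_lit 10168695809) (nat_lit 1) (nat_lit 5) (nat_lit 3) (nat_lit 4) (nat_lit 1) (nat_lit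 4) (nat_lit 468) (nat_lit 285) (nat_lit 267)) (XT.lf (nat_lit 0) (nat_lit 13606840643) (nat_lit 152) (nat_lit 393422050961) (nat_lit 0) (nat_lit 12974194478) (nat_lit 1) (nat_lit 5) (nat_lit 3) (nat_lit 4) (nat_lit 1) (nat_lit 4) (nat_lit 469) (nat_lit 285) (nat_lit 266))))) (XT.nd (nat_lit 234) (nat_lit 0) (nat_lit 0) (XT.nd (nat_lit 78) (nat_lit 0) (nat_lit 0) (XT.lf (nat_lit 0) (nat_lit 16524467572) (nat_lit 152) (nat_lit 408492132927) (nat_lit 0) (nat_lit 15872091878) (nat_lit 1) (nat_lit 5) (nat_lit 3) (nat_lit 4) (nat_lit 1) (nat_lit 4) (nat_lit 470) (nat_lit 285) (nat_lit 265)) (XT.nd (nat_lit 78) (nat_lit 0) (nat_lit 0) (XT.lf (nat_lit 0) (nat_lit 19540453486) (nat_lit 152) (nat_lit 424411215231) (nat_lit 0) (nat_lit 18869287765) (nat_lit 1) (nat_lit 5) (nat_lit 3) (nat_lit 4) (nat_lit 1) (nat_lit 4) (nat_lit 471) (nat_lit 285) (nat_lit 264)) (XT.lf (nat_lit 0) (nat_lit 22661979304)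 (nat_lit 152) (nat_lit 441217200450) (nat_lit 0) (nat_lit 21972918319) (nat_lit 1) (nat_lit 5) (nat_lit 3) (nat_lit 4) (nat_lit 1) (nat_lit 4) (nat_lit 472) (nat_lit 285) (nat_lit 263)))) (XT.nd (nat_lit 156) (nat_lit 0) (nat_lit 0) (XT.nd (nat_lit 78) (nat_lit 0) (nat_lit 0) (XT.lf (nat_lit 0) (nat_lit 25896477230) (nat_lit 152) (nat_lit 458950102836) (nat_lit 0) (nat_lit 25190373136) (nat_lit 1) (nat_lit 5) (nat_lit 3) (nat_lit 4) (nat_lit 1) (nat_lit 4) (nat_lit 473) (nat_lit 285) (nat_lit 262)) (XT.lf (nat_lit 0) (nat_lit 29251648450) (nat_lit 152) (nat_lit 477652143583) (nat_lit 0) (nat_lit 28529312823) (nat_lit 1) (nat_lit 5) (nat_lit 3) (nat_lit 4) (nat_lit 1) (nat_lit 4) (nat_lit 474) (nat_lit 285) (nat_lit 261))) (XT.nd (nat_lit 78) (nat_lit 0) (nat_lit 0) (XT.lf (nat_lit 0) (nat_lit 32735481466) (nat_lit 152) (nat_lit 497367851361) (nat_lit 0) (nat_lit 31997687238) (nat_lit 1) (nat_lit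 5) (nat_lit 3) (nat_lit 4) (nat_lit 1) (nat_lit 4) (nat_lit 475) (nat_lit 285) (nat_lit 260)) (XT.lf (nat_lit 0) (nat_lit 36356271120) (nat_lit 152) (nat_lit 518144168331) (nat_lit 0) (nat_lit 35603754413) (nat_lit 1) (nat_lit 5) (nat_lit 3) (nat_lit 4) (nat_lit 1) (nat_lit 4) (nat_lit 476) (nat_lit 285) (nat_lit 259))))))) (XT.nd (nat_lit 51090) (nat_lit 0) (nat_lit 152) (XT.nd (nat_lit 468) (nat_lit 0) (nat_lit 0) (XT.nd (nat_lit 234) (nat_lit 0) (nat_lit 0) (XT.nd (nat_lit 78) (nat_lit 0) (nat_lit 0) (XT.lf (nat_lit 0) (nat_lit 40122638338) (nat_lit 152) (nat_lit 540030561914) (nat_lit 0) (nat_lit 39356100224) (nat_lit 1) (nat_lit 5) (nat_lit 3) (nat_lit 4) (nat_lit 1) (nat_lit 4) (nat_lit 477) (nat_lit 285) (nat_lit 258)) (XT.nd (nat_lit 78) (nat_lit 0) (nat_lit 0) (XT.lf (nat_lit 0) (nat_lit 44043550663) (nat_lit 152) (nat_lit 563079142571) (nat_lit 0) (nat_lit 43263658827) (nat_lit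 1) (nat_lit 5) (nat_lit 3) (nat_lit 4) (nat_lit 1) (nat_lit 4) (nat_lit 478) (nat_lit 285) (nat_lit 257)) (XT.lf (nat_lit 0) (nat_lit 48128343599) (nat_lit 152) (nat_lit 587344787875) (nat_lit 0) (nat_lit 47335733932) (nat_lit 1) (nat_lit 5) (nat_lit 3) (nat_lit 4) (nat_lit 1) (nat_lit 4) (nat_lit 479) (nat_lit 285) (nat_lit 256)))) (XT.nd (nat_lit 78) (nat_lit 0) (nat_lit 0) (XT.lf (nat_lit 0) (nat_lit 52386742844) (nat_lit 152) (nat_lit 612885273173) (nat_lit 0) (nat_lit 51582020958) (nat_lit 1) (nat_lit 5) (nat_lit 3) (nat_lit 4) (nat_lit 1) (nat_lit 4) (nat_lit 480) (nat_lit 285) (nat_lit 255)) (XT.nd (nat_lit 78) (nat_lit 0) (nat_lit 0) (XT.lf (nat_lit 0) (nat_lit 56828887443) (nat_lit 152) (nat_lit 639761409143) (nat_lit 0) (nat_lit 56012630111) (nat_lit 1) (nat_lit 5) (nat_lit 3) (nat_lit 4) (nat_lit 1) (nat_lit 4) (nat_lit 481) (nat_lit 285) (nat_lit 254)) (XT.lf (nat_lit 0) (nat_lit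 61465353932) (nat_lit 152) (nat_lit 668037186585) (nat_lit 0) (nat_lit 60638110460) (nat_lit 1) (nat_lit 5) (nat_lit 3) (nat_lit 4) (nat_lit 1) (nat_lit 4) (nat_lit 482) (nat_lit 285) (nat_lit 253))))) (XT.nd (nat_lit 234) (nat_lit 0) (nat_lit 0) (XT.nd (nat_lit 78) (nat_lit 0) (nat_lit 0) (XT.lf (nat_lit 0) (nat_lit 66307181516) (nat_lit 152) (nat_lit 697779928779) (nat_lit 0) (nat_lit 65469475054) (nat_lit 1) (nat_lit 5) (nat_lit 3) (nat_lit 4) (nat_lit 1) (nat_lit 4) (nat_lit 483) (nat_lit 285) (nat_lit 252)) (XT.nd (nat_lit 78) (nat_lit 0) (nat_lit 0) (XT.lf (nat_lit 0) (nat_lit 71365898357) (nat_lit 152) (nat_lit 729060451778) (nat_lit 0) (nat_lit 70518227142) (nat_lit 1) (nat_lit 5) (nat_lit 3) (nat_lit 4) (nat_lit 1) (nat_lit 4) (nat_lit 484) (nat_lit 285) (nat_lit 251)) (XT.lf (nat_lit 0) (nat_lit 76653549018) (nat_lit 152) (nat_lit 761953233017) (nat_lit 0) (nat_lit 75796387562)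 (nat_lit 1) (nat_lit 5) (nat_lit 3) (nat_lit 4) (nat_lit 1) (nat_lit 4) (nat_lit 485) (nat_lit 285) (nat_lit 250)))) (XT.nd (nat_lit 50232) (nat_lit 0) (nat_lit 152) (XT.nd (nat_lit 50154) (nat_lit 0) (nat_lit 152) (XT.lf (nat_lit 0) (nat_lit 82182723144) (nat_lit 152) (nat_lit 796536588643) (nat_lit 0) (nat_lit 81316523363) (nat_lit 1) (nat_lit 5) (nat_lit 3) (nat_lit 4) (nat_lit 1) (nat_lit 4) (nat_lit 486) (nat_lit 285) (nat_lit 249)) (XT.lf (nat_lit 0) (nat_lit 41231214553) (nat_lit 76) (nat_lit 17562158650) (nat_lit 76) (nat_lit 17562158650) (nat_lit 3) (nat_lit 4) (nat_lit 4) (nat_lit 5) (nat_lit 4) (nat_lit 4) (nat_lit 448) (nat_lit 286) (nat_lit 286))) (XT.nd (nat_lit 78) (nat_lit 0) (nat_lit 0) (XT.lf (nat_lit 0) (nat_lit 94117065985) (nat_lit 76) (nat_lit 33048273166) (nat_lit 76) (nat_lit 32993307436) (nat_lit 3) (nat_lit 4) (nat_lit 4) (nat_lit 5) (nat_lit 4) (nat_lit 4) (nat_lit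 449) (nat_lit 286) (nat_lit 285)) (XT.lf (nat_lit 0) (nat_lit 106117267171) (nat_lit 76) (nat_lit 30987287335) (nat_lit 76) (nat_lit 30879973292) (nat_lit 3) (nat_lit 4) (nat_lit 4) (nat_lit 5) (nat_lit 4) (nat_lit 4) (nat_lit 450) (nat_lit 286) (nat_lit 284)))))) (XT.nd (nat_lit 546) (nat_lit 0) (nat_lit 0) (XT.nd (nat_lit 234) (nat_lit 0) (nat_lit 0) (XT.nd (nat_lit 78) (nat_lit 0) (nat_lit 0) (XT.lf (nat_lit 0) (nat_lit 118491604572) (nat_lit 76) (nat_lit 28936452699) (nat_lit 76) (nat_lit 28779283120) (nat_lit 3) (nat_lit 4) (nat_lit 4) (nat_lit 5) (nat_lit 4) (nat_lit 4) (nat_lit 451) (nat_lit 286) (nat_lit 283)) (XT.nd (nat_lit 78) (nat_lit 0) (nat_lit 0) (XT.lf (nat_lit 0) (nat_lit 131269540896) (nat_lit 76) (nat_lit 26890886319) (nat_lit 76) (nat_lit 26686235276) (nat_lit 3) (nat_lit 4) (nat_lit 4) (nat_lit 5) (nat_lit 4) (nat_lit 4) (nat_lit 452) (nat_lit 286) (nat_lit 282)) (XT.lf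 (nat_lit 0) (nat_lit 144481499802) (nat_lit 76) (nat_lit 24845717799) (nat_lit 76) (nat_lit 24595846314) (nat_lit 3) (nat_lit 4) (nat_lit 4) (nat_lit 5) (nat_lit 4) (nat_lit 4) (nat_lit 453) (nat_lit 286) (nat_lit 281)))) (XT.nd (nat_lit 156) (nat_lit 0) (nat_lit 0) (XT.nd (nat_lit 78) (nat_lit 0) (nat_lit 0) (XT.lf (nat_lit 0) (nat_lit 158158938334) (nat_lit 76) (nat_lit 22796077689) (nat_lit 76) (nat_lit 22503139117) (nat_lit 3) (nat_lit 4) (nat_lit 4) (nat_lit 5) (nat_lit 4) (nat_lit 4) (nat_lit 454) (nat_lit 286) (nat_lit 280)) (XT.lf (nat_lit 0) (nat_lit 172334421821) (nat_lit 76) (nat_lit 20737085894) (nat_lit 76) (nat_lit 20403131049) (nat_lit 3) (nat_lit 4) (nat_lit 4) (nat_lit 5) (nat_lit 4) (nat_lit 4) (nat_lit 455) (nat_lit 286) (nat_lit 279))) (XT.nd (nat_lit 78) (nat_lit 0) (nat_lit 0) (XT.lf (nat_lit 0) (nat_lit 187041701416) (nat_lit 76) (nat_lit 18663840052) (nat_lit 76) (nat_lit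 18290822090) (nat_lit 3) (nat_lit 4) (nat_lit 4) (nat_lit 5) (nat_lit 4) (nat_lit 4) (nat_lit 456) (nat_lit 286) (nat_lit 278)) (XT.lf (nat_lit 0) (nat_lit 202315794451) (nat_lit 76) (nat_lit 16571403865) (nat_lit 76) (nat_lit 16161182934) (nat_lit 3) (nat_lit 4) (nat_lit 4) (nat_lit 5) (nat_lit 4) (nat_lit 4) (nat_lit 457) (nat_lit 286) (nat_lit 277))))) (XT.nd (nat_lit 234) (nat_lit 0) (nat_lit 0) (XT.nd (nat_lit 78) (nat_lit 0) (nat_lit 0) (XT.lf (nat_lit 0) (nat_lit 218193067813) (nat_lit 76) (nat_lit 14454795341) (nat_lit 76) (nat_lit 14009143010) (nat_lit 3) (nat_lit 4) (nat_lit 4) (nat_lit 5) (nat_lit 4) (nat_lit 4) (nat_lit 458) (nat_lit 286) (nat_lit 276)) (XT.nd (nat_lit 78) (nat_lit 0) (nat_lit 0) (XT.lf (nat_lit 0) (nat_lit 234711324535) (nat_lit 76) (nat_lit 12308974935) (nat_lit 76) (nat_lit 11829578415) (nat_lit 3) (nat_lit 4) (nat_lit 4) (nat_lit 5) (nat_lit 4) (nat_lit 4)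 (nat_lit 459) (nat_lit 286) (nat_lit 275)) (XT.lf (nat_lit 0) (nat_lit 251909893799) (nat_lit 76) (nat_lit 10128833553) (nat_lit 76) (nat_lit 9617299709) (nat_lit 3) (nat_lit 4) (nat_lit 4) (nat_lit 5) (nat_lit 4) (nat_lit 4) (nat_lit 460) (nat_lit 286) (nat_lit 274)))) (XT.nd (nat_lit 156) (nat_lit 0) (nat_lit 0) (XT.nd (nat_lit 78) (nat_lit 0) (nat_lit 0) (XT.lf (nat_lit 0) (nat_lit 269829724579) (nat_lit 76) (nat_lit 7909180380) (nat_lit 76) (nat_lit 7367039562) (nat_lit 3) (nat_lit 4) (nat_lit 4) (nat_lit 5) (nat_lit 4) (nat_lit 4) (nat_lit 461) (nat_lit 286) (nat_lit 273)) (XT.lf (nat_lit 0) (nat_lit 288513483140) (nat_lit 76) (nat_lit 5644730529) (nat_lit 76) (nat_lit 5073440211) (nat_lit 3) (nat_lit 4) (nat_lit 4) (nat_lit 5) (nat_lit 4) (nat_lit 4) (nat_lit 462) (nat_lit 286) (nat_lit 272))) (XT.nd (nat_lit 78) (nat_lit 0) (nat_lit 0) (XT.lf (nat_lit 0) (nat_lit 308005654621) (nat_lit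 76) (nat_lit 3330092452) (nat_lit 76) (nat_lit 2731040706) (nat_lit 3) (nat_lit 4) (nat_lit 4) (nat_lit 5) (nat_lit 4) (nat_lit 4) (nat_lit 463) (nat_lit 286) (nat_lit 271)) (XT.lf (nat_lit 0) (nat_lit 328352648954) (nat_lit 76) (nat_lit 959755107) (nat_lit 76) (nat_lit 334263905) (nat_lit 3) (nat_lit 4) (nat_lit 4) (nat_lit 5) (nat_lit 4) (nat_lit 4) (nat_lit 464) (nat_lit 286) (nat_lit 270))))))))
noncomputable def xc7 : XT := (XT.nd (nat_lit 52026) (nat_lit 0) (nat_lit 0) (XT.nd (nat_lit 1014) (nat_lit 0) (nat_lit 0) (XT.nd (nat_lit 468) (nat_lit 0) (nat_lit 0) (XT.nd (nat_lit 234) (nat_lit 0) (nat_lit 0) (XT.nd (nat_lit 78) (nat_lit 0) (nat_lit 0) (XT.lf (nat_lit 0) (nat_lit 2136567916) (nat_lit 152) (nat_lit 342349188474) (nat_lit 0) (nat_lit 1516880644) (nat_lit 1) (nat_lit 5) (nat_lit 3) (nat_lit 4) (nat_lit 1) (nat_lit 4) (nat_lit 465) (nat_lit 286) (nat_lit 269)) (XT.nd (nat_lit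 78) (nat_lit 0) (nat_lit 0) (XT.lf (nat_lit 0) (nat_lit 4699951930) (nat_lit 152) (nat_lit 354419742846) (nat_lit 0) (nat_lit 4057425263) (nat_lit 1) (nat_lit 5) (nat_lit 3) (nat_lit 4) (nat_lit 1) (nat_lit 4) (nat_lit 466) (nat_lit 286) (nat_lit 268)) (XT.lf (nat_lit 0) (nat_lit 7336492072) (nat_lit 152) (nat_lit 367204373772) (nat_lit 0) (nat_lit 6672213599) (nat_lit 1) (nat_lit 5) (nat_lit 3) (nat_lit 4) (nat_lit 1) (nat_lit 4) (nat_lit 467) (nat_lit 286) (nat_lit 267)))) (XT.nd (nat_lit 78) (nat_lit 0) (nat_lit 0) (XT.lf (nat_lit 0) (nat_lit 10052465817) (nat_lit 152) (nat_lit 380733520849) (nat_lit 0) (nat_lit 9367471339) (nat_lit 1) (nat_lit 5) (nat_lit 3) (nat_lit 4) (nat_lit 1) (nat_lit 4) (nat_lit 468) (nat_lit 286) (nat_lit 266)) (XT.nd (nat_lit 78) (nat_lit 0) (nat_lit 0) (XT.lf (nat_lit 0) (nat_lit 12854339770) (nat_lit 152) (nat_lit 395039396332) (nat_lit 0) (nat_lit 12149615763)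 (nat_lit 1) (nat_lit 5) (nat_lit 3) (nat_lit 4) (nat_lit 1) (nat_lit 4) (nat_lit 469) (nat_lit 286) (nat_lit 265)) (XT.lf (nat_lit 0) (nat_lit 15748785059) (nat_lit 152) (nat_lit 410156061829) (nat_lit 0) (nat_lit 15025271025) (nat_lit 1) (nat_lit 5) (nat_lit 3) (nat_lit 4) (nat_lit 1) (nat_lit 4) (nat_lit 470) (nat_lit 286) (nat_lit 264))))) (XT.nd (nat_lit 234) (nat_lit 0) (nat_lit 0) (XT.nd (nat_lit 78) (nat_lit 0) (nat_lit 0) (XT.lf (nat_lit 0) (nat_lit 18742693221) (nat_lit 152) (nat_lit 426119509402) (nat_lit 0) (nat_lit 18001283922) (nat_lit 1) (nat_lit 5) (nat_lit 3) (nat_lit 4) (nat_lit 1) (nat_lit 4) (nat_lit 471) (nat_lit 286) (nat_lit 263)) (XT.nd (nat_lit 78) (nat_lit 0) (nat_lit 0) (XT.lf (nat_lit 0) (nat_lit 21843192609) (nat_lit 152) (nat_lit 442967747258) (nat_lit 0) (nat_lit 21084740201) (nat_lit 1) (nat_lit 5) (nat_lit 3) (nat_lit 4) (nat_lit 1) (nat_lit 4) (nat_lit 472)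 (nat_lit 286) (nat_lit 262)) (XT.lf (nat_lit 0) (nat_lit 25057665363) (nat_lit 152) (nat_lit 460740890249) (nat_lit 0) (nat_lit 24282981423) (nat_lit 1) (nat_lit 5) (nat_lit 3) (nat_lit 4) (nat_lit 1) (nat_lit 4) (nat_lit 473) (nat_lit 286) (nat_lit 261)))) (XT.nd (nat_lit 156) (nat_lit 0) (nat_lit 0) (XT.nd (nat_lit 78) (nat_lit 0) (nat_lit 0) (XT.lf (nat_lit 0) (nat_lit 28393764990) (nat_lit 152) (nat_lit 479481255384) (nat_lit 0) (nat_lit 27603622448) (nat_lit 1) (nat_lit 5) (nat_lit 3) (nat_lit 4) (nat_lit 1) (nat_lit 4) (nat_lit 474) (nat_lit 286) (nat_lit 260)) (XT.lf (nat_lit 0) (nat_lit 31859434585) (nat_lit 152) (nat_lit 499233462578) (nat_lit 0) (nat_lit 31054569565) (nat_lit 1) (nat_lit 5) (nat_lit 3) (nat_lit 4) (nat_lit 1) (nat_lit 4) (nat_lit 475) (nat_lit 286) (nat_lit 259))) (XT.nd (nat_lit 78) (nat_lit 0) (nat_lit 0) (XT.lf (nat_lit 0) (nat_lit 35462925742) (nat_lit 152)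 (nat_lit 520044540896) (nat_lit 0) (nat_lit 34644039314) (nat_lit 1) (nat_lit 5) (nat_lit 3) (nat_lit 4) (nat_lit 1) (nat_lit 4) (nat_lit 476) (nat_lit 286) (nat_lit 258)) (XT.lf (nat_lit 0) (nat_lit 39212818202) (nat_lit 152) (nat_lit 541964040525) (nat_lit 0) (nat_lit 38380578053) (nat_lit 1) (nat_lit 5) (nat_lit 3) (nat_lit 4) (nat_lit 1) (nat_lit 4) (nat_lit 477) (nat_lit 286) (nat_lit 257)))))) (XT.nd (nat_lit 546) (nat_lit 0) (nat_lit 0) (XT.nd (nat_lit 234) (nat_lit 0) (nat_lit 0) (XT.nd (nat_lit 78) (nat_lit 0) (nat_lit 0) (XT.lf (nat_lit 0) (nat_lit 43118040281) (nat_lit 152) (nat_lit 565044150751) (nat_lit 0) (nat_lit 42273082301) (nat_lit 1) (nat_lit 5) (nat_lit 3) (nat_lit 4) (nat_lit 1) (nat_lit 4) (nat_lit 478) (nat_lit 286) (nat_lit 256)) (XT.nd (nat_lit 78) (nat_lit 0) (nat_lit 0) (XT.lf (nat_lit 0) (nat_lit 47187890125) (nat_lit 152) (nat_lit 589339824215) (nat_lit 0) (nat_lit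 46330819926) (nat_lit 1) (nat_lit 5) (nat_lit 3) (nat_lit 4) (nat_lit 1) (nat_lit 4) (nat_lit 479) (nat_lit 286) (nat_lit 255)) (XT.lf (nat_lit 0) (nat_lit 51432057854) (nat_lit 152) (nat_lit 614908907760) (nat_lit 0) (nat_lit 50563452208) (nat_lit 1) (nat_lit 5) (nat_lit 3) (nat_lit 4) (nat_lit 1) (nat_lit 4) (nat_lit 480) (nat_lit 286) (nat_lit 254)))) (XT.nd (nat_lit 156) (nat_lit 0) (nat_lit 0) (XT.nd (nat_lit 78) (nat_lit 0) (nat_lit 0) (XT.lf (nat_lit 0) (nat_lit 55860648629) (nat_lit 152) (nat_lit 641812280156) (nat_lit 0) (nat_lit 54981056843) (nat_lit 1) (nat_lit 5) (nat_lit 3) (nat_lit 4) (nat_lit 1) (nat_lit 4) (nat_lit 481) (nat_lit 286) (nat_lit 253)) (XT.lf (nat_lit 0) (nat_lit 60484206713) (nat_lit 152) (nat_lit 670113997052) (nat_lit 0) (nat_lit 59594151937) (nat_lit 1) (nat_lit 5) (nat_lit 3) (nat_lit 4) (nat_lit 1) (nat_lit 4) (nat_lit 482) (nat_lit 286) (nat_lit 252)))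 (XT.nd (nat_lit 78) (nat_lit 0) (nat_lit 0) (XT.lf (nat_lit 0) (nat_lit 65313740579) (nat_lit 152) (nat_lit 699881443487) (nat_lit 0) (nat_lit 64413721050) (nat_lit 1) (nat_lit 5) (nat_lit 3) (nat_lit 4) (nat_lit 1) (nat_lit 4) (nat_lit 483) (nat_lit 286) (nat_lit 251)) (XT.lf (nat_lit 0) (nat_lit 70360749116) (nat_lit 152) (nat_lit 731185494335) (nat_lit 0) (nat_lit 69451239347) (nat_lit 1) (nat_lit 5) (nat_lit 3) (nat_lit 4) (nat_lit 1) (nat_lit 4) (nat_lit 484) (nat_lit 286) (nat_lit 250))))) (XT.nd (nat_lit 50154) (nat_lit 0) (nat_lit 152) (XT.nd (nat_lit 78) (nat_lit 0) (nat_lit 0) (XT.lf (nat_lit 0) (nat_lit 75637249012) (nat_lit 152) (nat_lit 764100683050) (nat_lit 0) (nat_lit 74718700918) (nat_lit 1) (nat_lit 5) (nat_lit 3) (nat_lit 4) (nat_lit 1) (nat_lit 4) (nat_lit 485) (nat_lit 286) (nat_lit 249)) (XT.nd (nat_lit 49998) (nat_lit 0) (nat_lit 152) (XT.lf (nat_lit 0) (nat_lit 81155803362)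 (nat_lit 152) (nat_lit 798705379128) (nat_lit 0) (nat_lit 80228647340) (nat_lit 1) (nat_lit 5) (nat_lit 3) (nat_lit 4) (nat_lit 1) (nat_lit 4) (nat_lit 486) (nat_lit 286) (nat_lit 248)) (XT.lf (nat_lit 0) (nat_lit 30103579145) (nat_lit 76) (nat_lit 19667595103) (nat_lit 76) (nat_lit 19667595103) (nat_lit 3) (nat_lit 4) (nat_lit 4) (nat_lit 5) (nat_lit 4) (nat_lit 4) (nat_lit 446) (nat_lit 287) (nat_lit 287)))) (XT.nd (nat_lit 156) (nat_lit 0) (nat_lit 0) (XT.nd (nat_lit 78) (nat_lit 0) (nat_lit 0) (XT.lf (nat_lit 0) (nat_lit 71125607400) (nat_lit 76) (nat_lit 37278076718) (nat_lit 76) (nat_lit 37220362702) (nat_lit 3) (nat_lit 4) (nat_lit 4) (nat_lit 5) (nat_lit 4) (nat_lit 4) (nat_lit 447) (nat_lit 287) (nat_lit 286)) (XT.lf (nat_lit 0) (nat_lit 82340953051) (nat_lit 76) (nat_lit 35242911090) (nat_lit 76) (nat_lit 35130231345) (nat_lit 3) (nat_lit 4) (nat_lit 4) (nat_lit 5) (nat_lit 4) (nat_lit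 4) (nat_lit 448) (nat_lit 287) (nat_lit 285))) (XT.nd (nat_lit 78) (nat_lit 0) (nat_lit 0) (XT.lf (nat_lit 0) (nat_lit 93879898448) (nat_lit 76) (nat_lit 33224847692) (nat_lit 76) (nat_lit 33059819634) (nat_lit 3) (nat_lit 4) (nat_lit 4) (nat_lit 5) (nat_lit 4) (nat_lit 4) (nat_lit 449) (nat_lit 287) (nat_lit 284)) (XT.lf (nat_lit 0) (nat_lit 105769917271) (nat_lit 76) (nat_lit 31219081611) (nat_lit 76) (nat_lit 31004198016) (nat_lit 3) (nat_lit 4) (nat_lit 4) (nat_lit 5) (nat_lit 4) (nat_lit 4) (nat_lit 450) (nat_lit 287) (nat_lit 283))))))) (XT.nd (nat_lit 1092) (nat_lit 152) (nat_lit 0) (XT.nd (nat_lit 546) (nat_lit 0) (nat_lit 0) (XT.nd (nat_lit 234) (nat_lit 0) (nat_lit 0) (XT.nd (nat_lit 78) (nat_lit 0) (nat_lit 0) (XT.lf (nat_lit 0) (nat_lit 118039319089) (nat_lit 76) (nat_lit 29220837213) (nat_lit 76) (nat_lit 28958472155) (nat_lit 3) (nat_lit 4) (nat_lit 4) (nat_lit 5) (nat_lit 4)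 (nat_lit 4) (nat_lit 451) (nat_lit 287) (nat_lit 282)) (XT.nd (nat_lit 78) (nat_lit 0) (nat_lit 0) (XT.lf (nat_lit 0) (nat_lit 130717316762) (nat_lit 76) (nat_lit 27225356774) (nat_lit 76) (nat_lit 26917771274) (nat_lit 3) (nat_lit 4) (nat_lit 4) (nat_lit 5) (nat_lit 4) (nat_lit 4) (nat_lit 452) (nat_lit 287) (nat_lit 281)) (XT.lf (nat_lit 0) (nat_lit 143834096000) (nat_lit 76) (nat_lit 25227889149) (nat_lit 76) (nat_lit 24877236562) (nat_lit 3) (nat_lit 4) (nat_lit 4) (nat_lit 5) (nat_lit 4) (nat_lit 4) (nat_lit 453) (nat_lit 287) (nat_lit 280)))) (XT.nd (nat_lit 156) (nat_lit 0) (nat_lit 0) (XT.nd (nat_lit 78) (nat_lit 0) (nat_lit 0) (XT.lf (nat_lit 0) (nat_lit 157420887229) (nat_lit 76) (nat_lit 23223678464) (nat_lit 76) (nat_lit 22832009604) (nat_lit 3) (nat_lit 4) (nat_lit 4) (nat_lit 5) (nat_lit 4) (nat_lit 4) (nat_lit 454) (nat_lit 287) (nat_lit 279)) (XT.lf (nat_lit 0) (nat_lit 171510039952)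 (nat_lit 76) (nat_lit 21207952788) (nat_lit 76) (nat_lit 20777220810) (nat_lit 3) (nat_lit 4) (nat_lit 4) (nat_lit 5) (nat_lit 4) (nat_lit 4) (nat_lit 455) (nat_lit 287) (nat_lit 278))) (XT.nd (nat_lit 78) (nat_lit 0) (nat_lit 0) (XT.lf (nat_lit 0) (nat_lit 186135099771) (nat_lit 76) (nat_lit 19175912774) (nat_lit 76) (nat_lit 18707977827) (nat_lit 3) (nat_lit 4) (nat_lit 4) (nat_lit 5) (nat_lit 4) (nat_lit 4) (nat_lit 456) (nat_lit 287) (nat_lit 277)) (XT.lf (nat_lit 0) (nat_lit 201330888257) (nat_lit 76) (nat_lit 17122720231) (nat_lit 76) (nat_lit 16619353885) (nat_lit 3) (nat_lit 4) (nat_lit 4) (nat_lit 5) (nat_lit 4) (nat_lit 4) (nat_lit 457) (nat_lit 287) (nat_lit 276))))) (XT.nd (nat_lit 234) (nat_lit 0) (nat_lit 0) (XT.nd (nat_lit 78) (nat_lit 0) (nat_lit 0) (XT.lf (nat_lit 0) (nat_lit 217133585859) (nat_lit 76) (nat_lit 15043486607) (nat_lit 76) (nat_lit 14506376072) (nat_lit 3) (nat_lit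 4) (nat_lit 4) (nat_lit 5) (nat_lit 4) (nat_lit 4) (nat_lit 458) (nat_lit 287) (nat_lit 275)) (XT.nd (nat_lit 78) (nat_lit 0) (nat_lit 0) (XT.lf (nat_lit 0) (nat_lit 233580818047) (nat_lit 76) (nat_lit 12933261345) (nat_lit 76) (nat_lit 12364013486) (nat_lit 3) (nat_lit 4) (nat_lit 4) (nat_lit 5) (nat_lit 4) (nat_lit 4) (nat_lit 459) (nat_lit 287) (nat_lit 274)) (XT.lf (nat_lit 0) (nat_lit 250711744898) (nat_lit 76) (nat_lit 10787020098) (nat_lit 76) (nat_lit 10187165265) (nat_lit 3) (nat_lit 4) (nat_lit 4) (nat_lit 5) (nat_lit 4) (nat_lit 4) (nat_lit 460) (nat_lit 287) (nat_lit 273)))) (XT.nd (nat_lit 156) (nat_lit 0) (nat_lit 0) (XT.nd (nat_lit 78) (nat_lit 0) (nat_lit 0) (XT.lf (nat_lit 0) (nat_lit 268567154333) (nat_lit 76) (nat_lit 8599652770) (nat_lit 76) (nat_lit 7970648436) (nat_lit 3) (nat_lit 4) (nat_lit 4) (nat_lit 5) (nat_lit 4) (nat_lit 4) (nat_lit 461) (nat_lit 287) (nat_lit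 272)) (XT.lf (nat_lit 0) (nat_lit 287189559232) (nat_lit 76) (nat_lit 6365951342) (nat_lit 76) (nat_lit 5709185580) (nat_lit 3) (nat_lit 4) (nat_lit 4) (nat_lit 5) (nat_lit 4) (nat_lit 4) (nat_lit 462) (nat_lit 287) (nat_lit 271))) (XT.nd (nat_lit 78) (nat_lit 0) (nat_lit 0) (XT.lf (nat_lit 0) (nat_lit 306623298653) (nat_lit 76) (nat_lit 4080597477) (nat_lit 76) (nat_lit 3397392260) (nat_lit 3) (nat_lit 4) (nat_lit 4) (nat_lit 5) (nat_lit 4) (nat_lit 4) (nat_lit 463) (nat_lit 287) (nat_lit 270)) (XT.lf (nat_lit 0) (nat_lit 326914643405) (nat_lit 76) (nat_lit 1738149857) (nat_lit 76) (nat_lit 1029764206) (nat_lit 3) (nat_lit 4) (nat_lit 4) (nat_lit 5) (nat_lit 4) (nat_lit 4) (nat_lit 464) (nat_lit 287) (nat_lit 269)))))) (XT.nd (nat_lit 546) (nat_lit 0) (nat_lit 0) (XT.nd (nat_lit 234) (nat_lit 0) (nat_lit 0) (XT.nd (nat_lit 78) (nat_lit 0) (nat_lit 0) (XT.lf (nat_lit 0) (nat_lit 1398835403)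 (nat_lit 152) (nat_lit 343942116508) (nat_lit 0) (nat_lit 701343006) (nat_lit 1) (nat_lit 5) (nat_lit 3) (nat_lit 4) (nat_lit 1) (nat_lit 4) (nat_lit 465) (nat_lit 287) (nat_lit 268)) (XT.nd (nat_lit 78) (nat_lit 0) (nat_lit 0) (XT.lf (nat_lit 0) (nat_lit 3935383771) (nat_lit 152) (nat_lit 356066597141) (nat_lit 0) (nat_lit 3216139569) (nat_lit 1) (nat_lit 5) (nat_lit 3) (nat_lit 4) (nat_lit 1) (nat_lit 4) (nat_lit 466) (nat_lit 287) (nat_lit 267)) (XT.lf (nat_lit 0) (nat_lit 6546366155) (nat_lit 152) (nat_lit 368902586411) (nat_lit 0) (nat_lit 5806405948) (nat_lit 1) (nat_lit 5) (nat_lit 3) (nat_lit 4) (nat_lit 1) (nat_lit 4) (nat_lit 467) (nat_lit 287) (nat_lit 266)))) (XT.nd (nat_lit 156) (nat_lit 0) (nat_lit 0) (XT.nd (nat_lit 78) (nat_lit 0) (nat_lit 0) (XT.lf (nat_lit 0) (nat_lit 9237999179) (nat_lit 152) (nat_lit 382480646196) (nat_lit 0) (nat_lit 8478309442) (nat_lit 1) (nat_lit 5)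 (nat_lit 3) (nat_lit 4) (nat_lit 1) (nat_lit 4) (nat_lit 468) (nat_lit 287) (nat_lit 265)) (XT.lf (nat_lit 0) (nat_lit 12016691492) (nat_lit 152) (nat_lit 396833105211) (nat_lit 0) (nat_lit 11238211728) (nat_lit 1) (nat_lit 5) (nat_lit 3) (nat_lit 4) (nat_lit 1) (nat_lit 4) (nat_lit 469) (nat_lit 287) (nat_lit 264))) (XT.nd (nat_lit 78) (nat_lit 0) (nat_lit 0) (XT.lf (nat_lit 0) (nat_lit 14889059029) (nat_lit 152) (nat_lit 411994135977) (nat_lit 0) (nat_lit 14092684001) (nat_lit 1) (nat_lit 5) (nat_lit 3) (nat_lit 4) (nat_lit 1) (nat_lit 4) (nat_lit 470) (nat_lit 287) (nat_lit 263)) (XT.lf (nat_lit 0) (nat_lit 17861940760) (nat_lit 152) (nat_lit 427999836186) (nat_lit 0) (nat_lit 17048522624) (nat_lit 1) (nat_lit 5) (nat_lit 3) (nat_lit 4) (nat_lit 1) (nat_lit 4) (nat_lit 471) (nat_lit 287) (nat_lit 262))))) (XT.nd (nat_lit 234) (nat_lit 0) (nat_lit 0) (XT.nd (nat_lit 78) (nat_lit 0) (nat_lit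 0) (XT.lf (nat_lit 0) (nat_lit 20942414976) (nat_lit 152) (nat_lit 444888314648) (nat_lit 0) (nat_lit 20112765307) (nat_lit 1) (nat_lit 5) (nat_lit 3) (nat_lit 4) (nat_lit 1) (nat_lit 4) (nat_lit 472) (nat_lit 287) (nat_lit 261)) (XT.nd (nat_lit 78) (nat_lit 0) (nat_lit 0) (XT.lf (nat_lit 0) (nat_lit 24137816137) (nat_lit 152) (nat_lit 462699782027) (nat_lit 0) (nat_lit 23292707866) (nat_lit 1) (nat_lit 5) (nat_lit 3) (nat_lit 4) (nat_lit 1) (nat_lit 4) (nat_lit 473) (nat_lit 287) (nat_lit 260)) (XT.lf (nat_lit 0) (nat_lit 27455752344) (nat_lit 152) (nat_lit 481476646577) (nat_lit 0) (nat_lit 26595921594) (nat_lit 1) (nat_lit 5) (nat_lit 3) (nat_lit 4) (nat_lit 1) (nat_lit 4) (nat_lit 474) (nat_lit 287) (nat_lit 259)))) (XT.nd (nat_lit 156) (nat_lit 0) (nat_lit 0) (XT.nd (nat_lit 78) (nat_lit 0) (nat_lit 0) (XT.lf (nat_lit 0) (nat_lit 30904123442) (nat_lit 152) (nat_lit 501263615120) (nat_lit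 0) (nat_lit 30030271285) (nat_lit 1) (nat_lit 5) (nat_lit 3) (nat_lit 4) (nat_lit 1) (nat_lit 4) (nat_lit 475) (nat_lit 287) (nat_lit 258)) (XT.lf (nat_lit 0) (nat_lit 34491139841) (nat_lit 152) (nat_lit 522107799485) (nat_lit 0) (nat_lit 33603933962) (nat_lit 1) (nat_lit 5) (nat_lit 3) (nat_lit 4) (nat_lit 1) (nat_lit 4) (nat_lit 476) (nat_lit 287) (nat_lit 257))) (XT.nd (nat_lit 78) (nat_lit 0) (nat_lit 0) (XT.lf (nat_lit 0) (nat_lit 38225342055) (nat_lit 152) (nat_lit 544058828682) (nat_lit 0) (nat_lit 37325418346) (nat_lit 1) (nat_lit 5) (nat_lit 3) (nat_lit 4) (nat_lit 1) (nat_lit 4) (nat_lit 477) (nat_lit 287) (nat_lit 256)) (XT.lf (nat_lit 0) (nat_lit 42115621041) (nat_lit 152) (nat_lit 567168967067) (nat_lit 0) (nat_lit 41203585113) (nat_lit 1) (nat_lit 5) (nat_lit 3) (nat_lit 4) (nat_lit 1) (nat_lit 4) (nat_lit 478) (nat_lit 287) (nat_lit 255))))))))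
noncomputable def xc8 : XT := (XT.nd (nat_lit 51870) (nat_lit 0) (nat_lit 0) (XT.nd (nat_lit 50778) (nat_lit 0) (nat_lit 152) (XT.nd (nat_lit 468) (nat_lit 0) (nat_lit 0) (XT.nd (nat_lit 234) (nat_lit 0) (nat_lit 0) (XT.nd (nat_lit 78) (nat_lit 0) (nat_lit 0) (XT.lf (nat_lit 0) (nat_lit 46171239370) (nat_lit 152) (nat_lit 591493238779) (nat_lit 0) (nat_lit 45247667994) (nat_lit 1) (nat_lit 5) (nat_lit 3) (nat_lit 4) (nat_lit 1) (nat_lit 4) (nat_lit 479) (nat_lit 287) (nat_lit 254)) (XT.nd (nat_lit 78) (nat_lit 0) (nat_lit 0) (XT.lf (nat_lit 0) (nat_lit 50401853274) (nat_lit 152) (nat_lit 617089558750) (nat_lit 0) (nat_lit 49467295759) (nat_lit 1) (nat_lit 5) (nat_lit 3) (nat_lit 4) (nat_lit 1) (nat_lit 4) (nat_lit 480) (nat_lit 287) (nat_lit 253)) (XT.lf (nat_lit 0) (nat_lit 54817535644) (nat_lit 152) (nat_lit 644018870600) (nat_lit 0) (nat_lit 53872515139) (nat_lit 1) (nat_lit 5) (nat_lit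 3) (nat_lit 4) (nat_lit 1) (nat_lit 4) (nat_lit 481) (nat_lit 287) (nat_lit 252)))) (XT.nd (nat_lit 78) (nat_lit 0) (nat_lit 0) (XT.lf (nat_lit 0) (nat_lit 59428800010) (nat_lit 152) (nat_lit 672345291737) (nat_lit 0) (nat_lit 58473814752) (nat_lit 1) (nat_lit 5) (nat_lit 3) (nat_lit 4) (nat_lit 1) (nat_lit 4) (nat_lit 482) (nat_lit 287) (nat_lit 251)) (XT.nd (nat_lit 78) (nat_lit 0) (nat_lit 0) (XT.lf (nat_lit 0) (nat_lit 64246625573) (nat_lit 152) (nat_lit 702136266022) (nat_lit 0) (nat_lit 63282150074) (nat_lit 1) (nat_lit 5) (nat_lit 3) (nat_lit 4) (nat_lit 1) (nat_lit 4) (nat_lit 483) (nat_lit 287) (nat_lit 250)) (XT.lf (nat_lit 0) (nat_lit 69282483345) (nat_lit 152) (nat_lit 733462724345) (nat_lit 0) (nat_lit 68308969522) (nat_lit 1) (nat_lit 5) (nat_lit 3) (nat_lit 4) (nat_lit 1) (nat_lit 4) (nat_lit 484) (nat_lit 287) (nat_lit 249))))) (XT.nd (nat_lit 49998) (nat_lit 0) (nat_lit 152)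 (XT.nd (nat_lit 78) (nat_lit 0) (nat_lit 0) (XT.lf (nat_lit 0) (nat_lit 74548363465) (nat_lit 152) (nat_lit 766399253512) (nat_lit 0) (nat_lit 73566241714) (nat_lit 1) (nat_lit 5) (nat_lit 3) (nat_lit 4) (nat_lit 1) (nat_lit 4) (nat_lit 485) (nat_lit 287) (nat_lit 248)) (XT.nd (nat_lit 49842) (nat_lit 0) (nat_lit 152) (XT.lf (nat_lit 0) (nat_lit 80056803742) (nat_lit 152) (nat_lit 801024273831) (nat_lit 0) (nat_lit 79066483964) (nat_lit 1) (nat_lit 5) (nat_lit 3) (nat_lit 4) (nat_lit 1) (nat_lit 4) (nat_lit 486) (nat_lit 287) (nat_lit 247)) (XT.lf (nat_lit 0) (nat_lit 19645768411) (nat_lit 76) (nat_lit 21764198007) (nat_lit 76) (nat_lit 21764198007) (nat_lit 3) (nat_lit 4) (nat_lit 4) (nat_lit 5) (nat_lit 4) (nat_lit 4) (nat_lit 444) (nat_lit 288) (nat_lit 288)))) (XT.nd (nat_lit 156) (nat_lit 0) (nat_lit 0) (XT.nd (nat_lit 78) (nat_lit 0) (nat_lit 0) (XT.lf (nat_lit 0) (nat_lit 49559609417)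 (nat_lit 76) (nat_lit 41479749165) (nat_lit 76) (nat_lit 41419149448) (nat_lit 3) (nat_lit 4) (nat_lit 4) (nat_lit 5) (nat_lit 4) (nat_lit 4) (nat_lit 445) (nat_lit 288) (nat_lit 287)) (XT.lf (nat_lit 0) (nat_lit 60079608433) (nat_lit 76) (nat_lit 39459713686) (nat_lit 76) (nat_lit 39341399954) (nat_lit 3) (nat_lit 4) (nat_lit 4) (nat_lit 5) (nat_lit 4) (nat_lit 4) (nat_lit 446) (nat_lit 288) (nat_lit 286))) (XT.nd (nat_lit 78) (nat_lit 0) (nat_lit 0) (XT.lf (nat_lit 0) (nat_lit 70876581487) (nat_lit 76) (nat_lit 37463479971) (nat_lit 76) (nat_lit 37290200509) (nat_lit 3) (nat_lit 4) (nat_lit 4) (nat_lit 5) (nat_lit 4) (nat_lit 4) (nat_lit 447) (nat_lit 288) (nat_lit 285)) (XT.lf (nat_lit 0) (nat_lit 81976235657) (nat_lit 76) (nat_lit 35486295080) (nat_lit 76) (nat_lit 35260667305) (nat_lit 3) (nat_lit 4) (nat_lit 4) (nat_lit 5) (nat_lit 4) (nat_lit 4) (nat_lit 448) (nat_lit 288) (nat_lit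 284)))))) (XT.nd (nat_lit 546) (nat_lit 0) (nat_lit 0) (XT.nd (nat_lit 234) (nat_lit 0) (nat_lit 0) (XT.nd (nat_lit 78) (nat_lit 0) (nat_lit 0) (XT.lf (nat_lit 0) (nat_lit 93404998691) (nat_lit 76) (nat_lit 33523451432) (nat_lit 76) (nat_lit 33247968121) (nat_lit 3) (nat_lit 4) (nat_lit 4) (nat_lit 5) (nat_lit 4) (nat_lit 4) (nat_lit 449) (nat_lit 288) (nat_lit 283)) (XT.nd (nat_lit 78) (nat_lit 0) (nat_lit 0) (XT.lf (nat_lit 0) (nat_lit 105190081930) (nat_lit 76) (nat_lit 31570275588) (nat_lit 76) (nat_lit 31247310814) (nat_lit 3) (nat_lit 4) (nat_lit 4) (nat_lit 5) (nat_lit 4) (nat_lit 4) (nat_lit 450) (nat_lit 288) (nat_lit 282)) (XT.lf (nat_lit 0) (nat_lit 117359545096) (nat_lit 76) (nat_lit 29622117131) (nat_lit 76) (nat_lit 29253931915) (nat_lit 3) (nat_lit 4) (nat_lit 4) (nat_lit 5) (nat_lit 4) (nat_lit 4) (nat_lit 451) (nat_lit 288) (nat_lit 281)))) (XT.nd (nat_lit 156) (nat_lit 0)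 (nat_lit 0) (XT.nd (nat_lit 78) (nat_lit 0) (nat_lit 0) (XT.lf (nat_lit 0) (nat_lit 129942363102) (nat_lit 76) (nat_lit 27674337588) (nat_lit 76) (nat_lit 27263085285) (nat_lit 3) (nat_lit 4) (nat_lit 4) (nat_lit 5) (nat_lit 4) (nat_lit 4) (nat_lit 452) (nat_lit 288) (nat_lit 280)) (XT.lf (nat_lit 0) (nat_lit 142968495037) (nat_lit 76) (nat_lit 25722299388) (nat_lit 76) (nat_lit 25270030811) (nat_lit 3) (nat_lit 4) (nat_lit 4) (nat_lit 5) (nat_lit 4) (nat_lit 4) (nat_lit 453) (nat_lit 288) (nat_lit 279))) (XT.nd (nat_lit 78) (nat_lit 0) (nat_lit 0) (XT.lf (nat_lit 0) (nat_lit 156468955501) (nat_lit 76) (nat_lit 23761354821) (nat_lit 76) (nat_lit 23270023127) (nat_lit 3) (nat_lit 4) (nat_lit 4) (nat_lit 5) (nat_lit 4) (nat_lit 4) (nat_lit 454) (nat_lit 288) (nat_lit 278)) (XT.lf (nat_lit 0) (nat_lit 170475888449) (nat_lit 76) (nat_lit 21786834972) (nat_lit 76) (nat_lit 21258300309) (nat_lit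 3) (nat_lit 4) (nat_lit 4) (nat_lit 5) (nat_lit 4) (nat_lit 4) (nat_lit 455) (nat_lit 288) (nat_lit 277))))) (XT.nd (nat_lit 234) (nat_lit 0) (nat_lit 0) (XT.nd (nat_lit 78) (nat_lit 0) (nat_lit 0) (XT.lf (nat_lit 0) (nat_lit 185022643720) (nat_lit 76) (nat_lit 19794038603) (nat_lit 76) (nat_lit 19230072541) (nat_lit 3) (nat_lit 4) (nat_lit 4) (nat_lit 5) (nat_lit 4) (nat_lit 4) (nat_lit 456) (nat_lit 288) (nat_lit 276)) (XT.nd (nat_lit 78) (nat_lit 0) (nat_lit 0) (XT.lf (nat_lit 0) (nat_lit 200143856446) (nat_lit 76) (nat_lit 17778220961) (nat_lit 76) (nat_lit 17180510709) (nat_lit 3) (nat_lit 4) (nat_lit 4) (nat_lit 5) (nat_lit 4) (nat_lit 4) (nat_lit 457) (nat_lit 288) (nat_lit 275)) (XT.lf (nat_lit 0) (nat_lit 215875529514) (nat_lit 76) (nat_lit 15734582480) (nat_lit 76) (nat_lit 15104734905) (nat_lit 3) (nat_lit 4) (nat_lit 4) (nat_lit 5) (nat_lit 4) (nat_lit 4) (nat_lit 458) (nat_lit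 288) (nat_lit 274)))) (XT.nd (nat_lit 156) (nat_lit 0) (nat_lit 0) (XT.nd (nat_lit 78) (nat_lit 0) (nat_lit 0) (XT.lf (nat_lit 0) (nat_lit 232255119289) (nat_lit 76) (nat_lit 13658257354) (nat_lit 76) (nat_lit 12997802804) (nat_lit 3) (nat_lit 4) (nat_lit 4) (nat_lit 5) (nat_lit 4) (nat_lit 4) (nat_lit 459) (nat_lit 288) (nat_lit 273)) (XT.lf (nat_lit 0) (nat_lit 249321624794) (nat_lit 76) (nat_lit 11544301951) (nat_lit 76) (nat_lit 10854697902) (nat_lit 3) (nat_lit 4) (nat_lit 4) (nat_lit 5) (nat_lit 4) (nat_lit 4) (nat_lit 460) (nat_lit 288) (nat_lit 272))) (XT.nd (nat_lit 78) (nat_lit 0) (nat_lit 0) (XT.lf (nat_lit 0) (nat_lit 267115680567) (nat_lit 76) (nat_lit 9387683046) (nat_lit 76) (nat_lit 8670317567) (nat_lit 3) (nat_lit 4) (nat_lit 4) (nat_lit 5) (nat_lit 4) (nat_lit 4) (nat_lit 461) (nat_lit 288) (nat_lit 271)) (XT.lf (nat_lit 0) (nat_lit 285679653406) (nat_lit 76) (nat_lit 7183265830)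 (nat_lit 76) (nat_lit 6439460896) (nat_lit 3) (nat_lit 4) (nat_lit 4) (nat_lit 5) (nat_lit 4) (nat_lit 4) (nat_lit 462) (nat_lit 288) (nat_lit 270))))))) (XT.nd (nat_lit 1014) (nat_lit 0) (nat_lit 0) (XT.nd (nat_lit 468) (nat_lit 0) (nat_lit 0) (XT.nd (nat_lit 234) (nat_lit 0) (nat_lit 0) (XT.nd (nat_lit 78) (nat_lit 152) (nat_lit 0) (XT.lf (nat_lit 0) (nat_lit 305057743246) (nat_lit 76) (nat_lit 4925801691) (nat_lit 76) (nat_lit 4156816323) (nat_lit 3) (nat_lit 4) (nat_lit 4) (nat_lit 5) (nat_lit 4) (nat_lit 4) (nat_lit 463) (nat_lit 288) (nat_lit 269)) (XT.nd (nat_lit 78) (nat_lit 152) (nat_lit 0) (XT.lf (nat_lit 0) (nat_lit 325296088398) (nat_lit 76) (nat_lit 2609915715) (nat_lit 76) (nat_lit 1816948982) (nat_lit 3) (nat_lit 4) (nat_lit 4) (nat_lit 5) (nat_lit 4) (nat_lit 4) (nat_lit 464) (nat_lit 288) (nat_lit 268)) (XT.lf (nat_lit 0) (nat_lit 357929731) (nat_lit 76) (nat_lit 214624346)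 (nat_lit 152) (nat_lit 345513966320) (nat_lit 1) (nat_lit 5) (nat_lit 2) (nat_lit 5) (nat_lit 3) (nat_lit 4) (nat_lit 465) (nat_lit 288) (nat_lit 267)))) (XT.nd (nat_lit 78) (nat_lit 0) (nat_lit 0) (XT.lf (nat_lit 0) (nat_lit 3080193801) (nat_lit 152) (nat_lit 357901078756) (nat_lit 0) (nat_lit 2282519578) (nat_lit 1) (nat_lit 5) (nat_lit 3) (nat_lit 4) (nat_lit 1) (nat_lit 4) (nat_lit 466) (nat_lit 288) (nat_lit 266)) (XT.nd (nat_lit 78) (nat_lit 0) (nat_lit 0) (XT.lf (nat_lit 0) (nat_lit 5666835463) (nat_lit 152) (nat_lit 370785980734) (nat_lit 0) (nat_lit 4849431711) (nat_lit 1) (nat_lit 5) (nat_lit 3) (nat_lit 4) (nat_lit 1) (nat_lit 4) (nat_lit 467) (nat_lit 288) (nat_lit 265)) (XT.lf (nat_lit 0) (nat_lit 8335286847) (nat_lit 152) (nat_lit 384410624052) (nat_lit 0) (nat_lit 7499093067) (nat_lit 1) (nat_lit 5) (nat_lit 3) (nat_lit 4) (nat_lit 1) (nat_lit 4) (nat_lit 468) (nat_lit 288)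 (nat_lit 264))))) (XT.nd (nat_lit 234) (nat_lit 0) (nat_lit 0) (XT.nd (nat_lit 78) (nat_lit 0) (nat_lit 0) (XT.lf (nat_lit 0) (nat_lit 11091901408) (nat_lit 152) (nat_lit 398807448335) (nat_lit 0) (nat_lit 10237812364) (nat_lit 1) (nat_lit 5) (nat_lit 3) (nat_lit 4) (nat_lit 1) (nat_lit 4) (nat_lit 469) (nat_lit 288) (nat_lit 263)) (XT.nd (nat_lit 78) (nat_lit 0) (nat_lit 0) (XT.lf (nat_lit 0) (nat_lit 13943242515) (nat_lit 152) (nat_lit 414010731737) (nat_lit 0) (nat_lit 13072110362) (nat_lit 1) (nat_lit 5) (nat_lit 3) (nat_lit 4) (nat_lit 1) (nat_lit 4) (nat_lit 470) (nat_lit 288) (nat_lit 262)) (XT.lf (nat_lit 0) (nat_lit 16896099074) (nat_lit 152) (nat_lit 430056672552) (nat_lit 0) (nat_lit 16008735389) (nat_lit 1) (nat_lit 5) (nat_lit 3) (nat_lit 4) (nat_lit 1) (nat_lit 4) (nat_lit 471) (nat_lit 288) (nat_lit 261)))) (XT.nd (nat_lit 156) (nat_lit 0) (nat_lit 0) (XT.nd (nat_lit 78) (nat_lit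 0) (nat_lit 0) (XT.lf (nat_lit 0) (nat_lit 19957501697) (nat_lit 152) (nat_lit 446983475402) (nat_lit 0) (nat_lit 19054679410) (nat_lit 1) (nat_lit 5) (nat_lit 3) (nat_lit 4) (nat_lit 1) (nat_lit 4) (nat_lit 472) (nat_lit 288) (nat_lit 260)) (XT.lf (nat_lit 0) (nat_lit 23134739437) (nat_lit 152) (nat_lit 464831442196) (nat_lit 0) (nat_lit 22217194672) (nat_lit 1) (nat_lit 5) (nat_lit 3) (nat_lit 4) (nat_lit 1) (nat_lit 4) (nat_lit 473) (nat_lit 288) (nat_lit 259))) (XT.nd (nat_lit 78) (nat_lit 0) (nat_lit 0) (XT.lf (nat_lit 0) (nat_lit 26435377147) (nat_lit 152) (nat_lit 483643068095) (nat_lit 0) (nat_lit 25503810974) (nat_lit 1) (nat_lit 5) (nat_lit 3) (nat_lit 4) (nat_lit 1) (nat_lit 4) (nat_lit 474) (nat_lit 288) (nat_lit 258)) (XT.lf (nat_lit 0) (nat_lit 29867273487) (nat_lit 152) (nat_lit 503463142684) (nat_lit 0) (nat_lit 28922353593) (nat_lit 1) (nat_lit 5) (nat_lit 3) (nat_lit 4)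 (nat_lit 1) (nat_lit 4) (nat_lit 475) (nat_lit 288) (nat_lit 257)))))) (XT.nd (nat_lit 546) (nat_lit 0) (nat_lit 0) (XT.nd (nat_lit 234) (nat_lit 0) (nat_lit 0) (XT.nd (nat_lit 78) (nat_lit 0) (nat_lit 0) (XT.lf (nat_lit 0) (nat_lit 33438599640) (nat_lit 152) (nat_lit 524338856617) (nat_lit 0) (nat_lit 32480961915) (nat_lit 1) (nat_lit 5) (nat_lit 3) (nat_lit 4) (nat_lit 1) (nat_lit 4) (nat_lit 476) (nat_lit 288) (nat_lit 256)) (XT.nd (nat_lit 78) (nat_lit 0) (nat_lit 0) (XT.lf (nat_lit 0) (nat_lit 37157858762) (nat_lit 152) (nat_lit 546319913974) (nat_lit 0) (nat_lit 36188108818) (nat_lit 1) (nat_lit 5) (nat_lit 3) (nat_lit 4) (nat_lit 1) (nat_lit 4) (nat_lit 477) (nat_lit 288) (nat_lit 255)) (XT.lf (nat_lit 0) (nat_lit 41033906232) (nat_lit 152) (nat_lit 569458650607) (nat_lit 0) (nat_lit 40052620842) (nat_lit 1) (nat_lit 5) (nat_lit 3) (nat_lit 4) (nat_lit 1) (nat_lit 4) (nat_lit 478)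 (nat_lit 288) (nat_lit 254)))) (XT.nd (nat_lit 156) (nat_lit 0) (nat_lit 0) (XT.nd (nat_lit 78) (nat_lit 0) (nat_lit 0) (XT.lf (nat_lit 0) (nat_lit 45075970736) (nat_lit 152) (nat_lit 593810158745) (nat_lit 0) (nat_lit 44083699206) (nat_lit 1) (nat_lit 5) (nat_lit 3) (nat_lit 4) (nat_lit 1) (nat_lit 4) (nat_lit 479) (nat_lit 288) (nat_lit 253)) (XT.lf (nat_lit 0) (nat_lit 49293676236) (nat_lit 152) (nat_lit 619432418170) (nat_lit 0) (nat_lit 48290941715) (nat_lit 1) (nat_lit 5) (nat_lit 3) (nat_lit 4) (nat_lit 1) (nat_lit 4) (nat_lit 480) (nat_lit 288) (nat_lit 252))) (XT.nd (nat_lit 78) (nat_lit 0) (nat_lit 0) (XT.lf (nat_lit 0) (nat_lit 53697064888) (nat_lit 152) (nat_lit 646386434261) (nat_lit 0) (nat_lit 52684365614) (nat_lit 1) (nat_lit 5) (nat_lit 3) (nat_lit 4) (nat_lit 1) (nat_lit 4) (nat_lit 481) (nat_lit 288) (nat_lit 251)) (XT.lf (nat_lit 0) (nat_lit 58296620951) (nat_lit 152)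 (nat_lit 674736383247) (nat_lit 0) (nat_lit 57274431436) (nat_lit 1) (nat_lit 5) (nat_lit 3) (nat_lit 4) (nat_lit 1) (nat_lit 4) (nat_lit 482) (nat_lit 288) (nat_lit 250))))) (XT.nd (nat_lit 49920) (nat_lit 0) (nat_lit 152) (XT.nd (nat_lit 78) (nat_lit 0) (nat_lit 0) (XT.lf (nat_lit 0) (nat_lit 63103295748) (nat_lit 152) (nat_lit 704549765007) (nat_lit 0) (nat_lit 62072067909) (nat_lit 1) (nat_lit 5) (nat_lit 3) (nat_lit 4) (nat_lit 1) (nat_lit 4) (nat_lit 483) (nat_lit 288) (nat_lit 249)) (XT.nd (nat_lit 78) (nat_lit 0) (nat_lit 0) (XT.lf (nat_lit 0) (nat_lit 68128533744) (nat_lit 152) (nat_lit 735897563783) (nat_lit 0) (nat_lit 67088697977) (nat_lit 1) (nat_lit 5) (nat_lit 3) (nat_lit 4) (nat_lit 1) (nat_lit 4) (nat_lit 484) (nat_lit 288) (nat_lit 248)) (XT.lf (nat_lit 0) (nat_lit 73384299791) (nat_lit 152) (nat_lit 768854417191) (nat_lit 0) (nat_lit 72336265998) (nat_lit 1) (nat_lit 5)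 (nat_lit 3) (nat_lit 4) (nat_lit 1) (nat_lit 4) (nat_lit 485) (nat_lit 288) (nat_lit 247)))) (XT.nd (nat_lit 156) (nat_lit 0) (nat_lit 0) (XT.nd (nat_lit 78) (nat_lit 0) (nat_lit 0) (XT.lf (nat_lit 0) (nat_lit 9777272530) (nat_lit 76) (nat_lit 23862134119) (nat_lit 76) (nat_lit 23862134119) (nat_lit 3) (nat_lit 4) (nat_lit 4) (nat_lit 5) (nat_lit 4) (nat_lit 4) (nat_lit 442) (nat_lit 289) (nat_lit 289)) (XT.lf (nat_lit 0) (nat_lit 29250942856) (nat_lit 76) (nat_lit 45674161667) (nat_lit 76) (nat_lit 45610531965) (nat_lit 3) (nat_lit 4) (nat_lit 4) (nat_lit 5) (nat_lit 4) (nat_lit 4) (nat_lit 443) (nat_lit 289) (nat_lit 288))) (XT.nd (nat_lit 78) (nat_lit 0) (nat_lit 0) (XT.lf (nat_lit 0) (nat_lit 39157609471) (nat_lit 76) (nat_lit 43659145667) (nat_lit 76) (nat_lit 43534916248) (nat_lit 3) (nat_lit 4) (nat_lit 4) (nat_lit 5) (nat_lit 4) (nat_lit 4) (nat_lit 444) (nat_lit 289) (nat_lit 287))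 (XT.lf (nat_lit 0) (nat_lit 49298132208) (nat_lit 76) (nat_lit 41674422580) (nat_lit 76) (nat_lit 41492479146) (nat_lit 3) (nat_lit 4) (nat_lit 4) (nat_lit 5) (nat_lit 4) (nat_lit 4) (nat_lit 445) (nat_lit 289) (nat_lit 286))))))))
noncomputable def xc9 : XT := (XT.nd (nat_lit 2106) (nat_lit 0) (nat_lit 0) (XT.nd (nat_lit 1014) (nat_lit 152) (nat_lit 0) (XT.nd (nat_lit 468) (nat_lit 0) (nat_lit 0) (XT.nd (nat_lit 234) (nat_lit 0) (nat_lit 0) (XT.nd (nat_lit 78) (nat_lit 0) (nat_lit 0) (XT.lf (nat_lit 0) (nat_lit 59696655169) (nat_lit 76) (nat_lit 39715266876) (nat_lit 76) (nat_lit 39478357712) (nat_lit 3) (nat_lit 4) (nat_lit 4) (nat_lit 5) (nat_lit 4) (nat_lit 4) (nat_lit 446) (nat_lit 289) (nat_lit 285)) (XT.nd (nat_lit 78) (nat_lit 0) (nat_lit 0) (XT.lf (nat_lit 0) (nat_lit 70377936741) (nat_lit 76) (nat_lit 37777013897) (nat_lit 76) (nat_lit 37487756420) (nat_lit 3) (nat_lit 4) (nat_lit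 4) (nat_lit 5) (nat_lit 4) (nat_lit 4) (nat_lit 447) (nat_lit 289) (nat_lit 284)) (XT.lf (nat_lit 0) (nat_lit 81367408548) (nat_lit 76) (nat_lit 35855048756) (nat_lit 76) (nat_lit 35515935743) (nat_lit 3) (nat_lit 4) (nat_lit 4) (nat_lit 5) (nat_lit 4) (nat_lit 4) (nat_lit 448) (nat_lit 289) (nat_lit 283)))) (XT.nd (nat_lit 78) (nat_lit 0) (nat_lit 0) (XT.lf (nat_lit 0) (nat_lit 92691235999) (nat_lit 76) (nat_lit 33944795346) (nat_lit 76) (nat_lit 33558200869) (nat_lit 3) (nat_lit 4) (nat_lit 4) (nat_lit 5) (nat_lit 4) (nat_lit 4) (nat_lit 449) (nat_lit 289) (nat_lit 282)) (XT.nd (nat_lit 78) (nat_lit 0) (nat_lit 0) (XT.lf (nat_lit 0) (nat_lit 104376380587) (nat_lit 76) (nat_lit 32041705443) (nat_lit 76) (nat_lit 31609890525) (nat_lit 3) (nat_lit 4) (nat_lit 4) (nat_lit 5) (nat_lit 4) (nat_lit 4) (nat_lit 450) (nat_lit 289) (nat_lit 281)) (XT.lf (nat_lit 0) (nat_lit 116450664085) (nat_lit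 76) (nat_lit 30141247882) (nat_lit 76) (nat_lit 29666365876) (nat_lit 3) (nat_lit 4) (nat_lit 4) (nat_lit 5) (nat_lit 4) (nat_lit 4) (nat_lit 451) (nat_lit 289) (nat_lit 280))))) (XT.nd (nat_lit 234) (nat_lit 0) (nat_lit 0) (XT.nd (nat_lit 78) (nat_lit 0) (nat_lit 0) (XT.lf (nat_lit 0) (nat_lit 128942834788) (nat_lit 76) (nat_lit 28238897763) (nat_lit 76) (nat_lit 27722999484) (nat_lit 3) (nat_lit 4) (nat_lit 4) (nat_lit 5) (nat_lit 4) (nat_lit 4) (nat_lit 452) (nat_lit 289) (nat_lit 279)) (XT.nd (nat_lit 78) (nat_lit 0) (nat_lit 0) (XT.lf (nat_lit 0) (nat_lit 141882635958) (nat_lit 76) (nat_lit 26330125682) (nat_lit 76) (nat_lit 25775164285) (nat_lit 3) (nat_lit 4) (nat_lit 4) (nat_lit 5) (nat_lit 4) (nat_lit 4) (nat_lit 453) (nat_lit 289) (nat_lit 278)) (XT.lf (nat_lit 0) (nat_lit 155300876647) (nat_lit 76) (nat_lit 24410386943) (nat_lit 76) (nat_lit 23818222577) (nat_lit 3) (nat_lit 4)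 (nat_lit 4) (nat_lit 5) (nat_lit 4) (nat_lit 4) (nat_lit 454) (nat_lit 289) (nat_lit 277)))) (XT.nd (nat_lit 156) (nat_lit 0) (nat_lit 0) (XT.nd (nat_lit 78) (nat_lit 0) (nat_lit 0) (XT.lf (nat_lit 0) (nat_lit 169229505046) (nat_lit 76) (nat_lit 22475110739) (nat_lit 76) (nat_lit 21847514974) (nat_lit 3) (nat_lit 4) (nat_lit 4) (nat_lit 5) (nat_lit 4) (nat_lit 4) (nat_lit 455) (nat_lit 289) (nat_lit 276)) (XT.lf (nat_lit 0) (nat_lit 183701684557) (nat_lit 76) (nat_lit 20519689270) (nat_lit 76) (nat_lit 19858349316) (nat_lit 3) (nat_lit 4) (nat_lit 4) (nat_lit 5) (nat_lit 4) (nat_lit 4) (nat_lit 456) (nat_lit 289) (nat_lit 275))) (XT.nd (nat_lit 78) (nat_lit 0) (nat_lit 0) (XT.lf (nat_lit 0) (nat_lit 198751872749) (nat_lit 76) (nat_lit 18539466771) (nat_lit 76) (nat_lit 17845989493) (nat_lit 3) (nat_lit 4) (nat_lit 4) (nat_lit 5) (nat_lit 4) (nat_lit 4) (nat_lit 457) (nat_lit 289) (nat_lit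 274)) (XT.lf (nat_lit 0) (nat_lit 214415903405) (nat_lit 76) (nat_lit 16529728426) (nat_lit 76) (nat_lit 15805644173) (nat_lit 3) (nat_lit 4) (nat_lit 4) (nat_lit 5) (nat_lit 4) (nat_lit 4) (nat_lit 458) (nat_lit 289) (nat_lit 273)))))) (XT.nd (nat_lit 546) (nat_lit 152) (nat_lit 0) (XT.nd (nat_lit 234) (nat_lit 0) (nat_lit 0) (XT.nd (nat_lit 78) (nat_lit 0) (nat_lit 0) (XT.lf (nat_lit 0) (nat_lit 230731071834) (nat_lit 76) (nat_lit 14485689143) (nat_lit 76) (nat_lit 13732455391) (nat_lit 3) (nat_lit 4) (nat_lit 4) (nat_lit 5) (nat_lit 4) (nat_lit 4) (nat_lit 459) (nat_lit 289) (nat_lit 272)) (XT.nd (nat_lit 78) (nat_lit 0) (nat_lit 0) (XT.lf (nat_lit 0) (nat_lit 247736223677) (nat_lit 76) (nat_lit 12402482164) (nat_lit 76) (nat_lit 11621486983) (nat_lit 3) (nat_lit 4) (nat_lit 4) (nat_lit 5) (nat_lit 4) (nat_lit 4) (nat_lit 460) (nat_lit 289) (nat_lit 271)) (XT.lf (nat_lit 0) (nat_lit 265471847390)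 (nat_lit 76) (nat_lit 10275147470) (nat_lit 76) (nat_lit 9467712834) (nat_lit 3) (nat_lit 4) (nat_lit 4) (nat_lit 5) (nat_lit 4) (nat_lit 4) (nat_lit 461) (nat_lit 289) (nat_lit 270)))) (XT.nd (nat_lit 156) (nat_lit 0) (nat_lit 0) (XT.nd (nat_lit 78) (nat_lit 0) (nat_lit 0) (XT.lf (nat_lit 0) (nat_lit 283980170648) (nat_lit 76) (nat_lit 8098619980) (nat_lit 76) (nat_lit 7266004910) (nat_lit 3) (nat_lit 4) (nat_lit 4) (nat_lit 5) (nat_lit 4) (nat_lit 4) (nat_lit 462) (nat_lit 289) (nat_lit 269)) (XT.lf (nat_lit 0) (nat_lit 303305260888) (nat_lit 76) (nat_lit 5867717485) (nat_lit 76) (nat_lit 5011121050) (nat_lit 3) (nat_lit 4) (nat_lit 4) (nat_lit 5) (nat_lit 4) (nat_lit 4) (nat_lit 463) (nat_lit 289) (nat_lit 268))) (XT.nd (nat_lit 78) (nat_lit 0) (nat_lit 0) (XT.lf (nat_lit 0) (nat_lit 323493130230) (nat_lit 76) (nat_lit 3577128312) (nat_lit 76) (nat_lit 2697692481) (nat_lit 3) (nat_lit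 4) (nat_lit 4) (nat_lit 5) (nat_lit 4) (nat_lit 4) (nat_lit 464) (nat_lit 289) (nat_lit 267)) (XT.lf (nat_lit 0) (nat_lit 344591845029) (nat_lit 76) (nat_lit 1221398679) (nat_lit 76) (nat_lit 320211042) (nat_lit 3) (nat_lit 4) (nat_lit 4) (nat_lit 5) (nat_lit 4) (nat_lit 4) (nat_lit 465) (nat_lit 289) (nat_lit 266))))) (XT.nd (nat_lit 234) (nat_lit 0) (nat_lit 0) (XT.nd (nat_lit 78) (nat_lit 0) (nat_lit 0) (XT.lf (nat_lit 0) (nat_lit 2132345853) (nat_lit 152) (nat_lit 359927555504) (nat_lit 0) (nat_lit 1254342384) (nat_lit 1) (nat_lit 5) (nat_lit 3) (nat_lit 4) (nat_lit 1) (nat_lit 4) (nat_lit 466) (nat_lit 289) (nat_lit 265)) (XT.nd (nat_lit 78) (nat_lit 0) (nat_lit 0) (XT.lf (nat_lit 0) (nat_lit 4695805875) (nat_lit 152) (nat_lit 372859041014) (nat_lit 0) (nat_lit 3799012379) (nat_lit 1) (nat_lit 5) (nat_lit 3) (nat_lit 4) (nat_lit 1) (nat_lit 4) (nat_lit 467) (nat_lit 289) (nat_lit 264))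 (XT.lf (nat_lit 0) (nat_lit 7342179507) (nat_lit 152) (nat_lit 386528049600) (nat_lit 0) (nat_lit 6427490747) (nat_lit 1) (nat_lit 5) (nat_lit 3) (nat_lit 4) (nat_lit 1) (nat_lit 4) (nat_lit 468) (nat_lit 289) (nat_lit 263)))) (XT.nd (nat_lit 156) (nat_lit 0) (nat_lit 0) (XT.nd (nat_lit 78) (nat_lit 0) (nat_lit 0) (XT.lf (nat_lit 0) (nat_lit 10077767637) (nat_lit 152) (nat_lit 400967126520) (nat_lit 0) (nat_lit 9146035768) (nat_lit 1) (nat_lit 5) (nat_lit 3) (nat_lit 4) (nat_lit 1) (nat_lit 4) (nat_lit 469) (nat_lit 289) (nat_lit 262)) (XT.lf (nat_lit 0) (nat_lit 12909083572) (nat_lit 152) (nat_lit 416210650528) (nat_lit 0) (nat_lit 11961120171) (nat_lit 1) (nat_lit 5) (nat_lit 3) (nat_lit 4) (nat_lit 1) (nat_lit 4) (nat_lit 470) (nat_lit 289) (nat_lit 261))) (XT.nd (nat_lit 78) (nat_lit 0) (nat_lit 0) (XT.lf (nat_lit 0) (nat_lit 15842868539) (nat_lit 152) (nat_lit 432294915730) (nat_lit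 0) (nat_lit 14879446536) (nat_lit 1) (nat_lit 5) (nat_lit 3) (nat_lit 4) (nat_lit 1) (nat_lit 4) (nat_lit 471) (nat_lit 289) (nat_lit 260)) (XT.lf (nat_lit 0) (nat_lit 18886107741) (nat_lit 152) (nat_lit 449258217995) (nat_lit 0) (nat_lit 17907963259) (nat_lit 1) (nat_lit 5) (nat_lit 3) (nat_lit 4) (nat_lit 1) (nat_lit 4) (nat_lit 472) (nat_lit 289) (nat_lit 259))))))) (XT.nd (nat_lit 50544) (nat_lit 0) (nat_lit 152) (XT.nd (nat_lit 468) (nat_lit 0) (nat_lit 0) (XT.nd (nat_lit 234) (nat_lit 0) (nat_lit 0) (XT.nd (nat_lit 78) (nat_lit 0) (nat_lit 0) (XT.lf (nat_lit 0) (nat_lit 22046046985) (nat_lit 152) (nat_lit 467140946139) (nat_lit 0) (nat_lit 21053881095) (nat_lit 1) (nat_lit 5) (nat_lit 3) (nat_lit 4) (nat_lit 1) (nat_lit 4) (nat_lit 473) (nat_lit 289) (nat_lit 258)) (XT.nd (nat_lit 78) (nat_lit 0) (nat_lit 0) (XT.lf (nat_lit 0) (nat_lit 25330209936) (nat_lit 152) (nat_lit 485985678084)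 (nat_lit 0) (nat_lit 24324690325) (nat_lit 1) (nat_lit 5) (nat_lit 3) (nat_lit 4) (nat_lit 1) (nat_lit 4) (nat_lit 474) (nat_lit 289) (nat_lit 257)) (XT.lf (nat_lit 0) (nat_lit 28746416030) (nat_lit 152) (nat_lit 505837282241) (nat_lit 0) (nat_lit 27728178589) (nat_lit 1) (nat_lit 5) (nat_lit 3) (nat_lit 4) (nat_lit 1) (nat_lit 4) (nat_lit 475) (nat_lit 289) (nat_lit 256)))) (XT.nd (nat_lit 78) (nat_lit 0) (nat_lit 0) (XT.lf (nat_lit 0) (nat_lit 32302799090) (nat_lit 152) (nat_lit 526743024334) (nat_lit 0) (nat_lit 31272449430) (nat_lit 1) (nat_lit 5) (nat_lit 3) (nat_lit 4) (nat_lit 1) (nat_lit 4) (nat_lit 476) (nat_lit 289) (nat_lit 255)) (XT.nd (nat_lit 78) (nat_lit 0) (nat_lit 0) (XT.lf (nat_lit 0) (nat_lit 36007826696) (nat_lit 152) (nat_lit 548752679939) (nat_lit 0) (nat_lit 34965941589) (nat_lit 1) (nat_lit 5) (nat_lit 3) (nat_lit 4) (nat_lit 1) (nat_lit 4) (nat_lit 477) (nat_lit 289)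 (nat_lit 254)) (XT.lf (nat_lit 0) (nat_lit 39870320343) (nat_lit 152) (nat_lit 571918652997) (nat_lit 0) (nat_lit 38817449096) (nat_lit 1) (nat_lit 5) (nat_lit 3) (nat_lit 4) (nat_lit 1) (nat_lit 4) (nat_lit 478) (nat_lit 289) (nat_lit 253))))) (XT.nd (nat_lit 234) (nat_lit 0) (nat_lit 0) (XT.nd (nat_lit 78) (nat_lit 0) (nat_lit 0) (XT.lf (nat_lit 0) (nat_lit 43899476442) (nat_lit 152) (nat_lit 596296100589) (nat_lit 0) (nat_lit 42836142205) (nat_lit 1) (nat_lit 5) (nat_lit 3) (nat_lit 4) (nat_lit 1) (nat_lit 4) (nat_lit 479) (nat_lit 289) (nat_lit 252)) (XT.nd (nat_lit 78) (nat_lit 0) (nat_lit 0) (XT.lf (nat_lit 0) (nat_lit 48104888223) (nat_lit 152) (nat_lit 621943064255) (nat_lit 0) (nat_lit 47031589233) (nat_lit 1) (nat_lit 5) (nat_lit 3) (nat_lit 4) (nat_lit 1) (nat_lit 4) (nat_lit 480) (nat_lit 289) (nat_lit 251)) (XT.lf (nat_lit 0) (nat_lit 52496568572) (nat_lit 152) (nat_lit 648920608196)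 (nat_lit 0) (nat_lit 51413779341) (nat_lit 1) (nat_lit 5) (nat_lit 3) (nat_lit 4) (nat_lit 1) (nat_lit 4) (nat_lit 481) (nat_lit 289) (nat_lit 250)))) (XT.nd (nat_lit 156) (nat_lit 0) (nat_lit 0) (XT.nd (nat_lit 78) (nat_lit 0) (nat_lit 0) (XT.lf (nat_lit 0) (nat_lit 57084973870) (nat_lit 152) (nat_lit 677292964657) (nat_lit 0) (nat_lit 55993146314) (nat_lit 1) (nat_lit 5) (nat_lit 3) (nat_lit 4) (nat_lit 1) (nat_lit 4) (nat_lit 482) (nat_lit 289) (nat_lit 249)) (XT.lf (nat_lit 0) (nat_lit 61881028891) (nat_lit 152) (nat_lit 707127686870) (nat_lit 0) (nat_lit 60780593408) (nat_lit 1) (nat_lit 5) (nat_lit 3) (nat_lit 4) (nat_lit 1) (nat_lit 4) (nat_lit 483) (nat_lit 289) (nat_lit 248))) (XT.nd (nat_lit 78) (nat_lit 0) (nat_lit 0) (XT.lf (nat_lit 0) (nat_lit 66896152814) (nat_lit 152) (nat_lit 738495809886) (nat_lit 0) (nat_lit 65787519304) (nat_lit 1) (nat_lit 5) (nat_lit 3) (nat_lit 4) (nat_lit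 1) (nat_lit 4) (nat_lit 484) (nat_lit 289) (nat_lit 247)) (XT.lf (nat_lit 0) (nat_lit 72142286411) (nat_lit 152) (nat_lit 771472019714) (nat_lit 0) (nat_lit 71025845257) (nat_lit 1) (nat_lit 5) (nat_lit 3) (nat_lit 4) (nat_lit 1) (nat_lit 4) (nat_lit 485) (nat_lit 289) (nat_lit 246)))))) (XT.nd (nat_lit 546) (nat_lit 0) (nat_lit 0) (XT.nd (nat_lit 234) (nat_lit 0) (nat_lit 0) (XT.nd (nat_lit 78) (nat_lit 0) (nat_lit 0) (XT.lf (nat_lit 0) (nat_lit 424154931) (nat_lit 76) (nat_lit 25971092264) (nat_lit 76) (nat_lit 25971092264) (nat_lit 3) (nat_lit 4) (nat_lit 4) (nat_lit 5) (nat_lit 4) (nat_lit 4) (nat_lit 440) (nat_lit 290) (nat_lit 290)) (XT.nd (nat_lit 78) (nat_lit 0) (nat_lit 0) (XT.lf (nat_lit 0) (nat_lit 10045329425) (nat_lit 76) (nat_lit 49881157772) (nat_lit 76) (nat_lit 49814346585) (nat_lit 3) (nat_lit 4) (nat_lit 4) (nat_lit 5) (nat_lit 4) (nat_lit 4) (nat_lit 441) (nat_lit 290)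 (nat_lit 289)) (XT.lf (nat_lit 0) (nat_lit 19413921342) (nat_lit 76) (nat_lit 47861555373) (nat_lit 76) (nat_lit 47731114484) (nat_lit 3) (nat_lit 4) (nat_lit 4) (nat_lit 5) (nat_lit 4) (nat_lit 4) (nat_lit 442) (nat_lit 290) (nat_lit 288)))) (XT.nd (nat_lit 156) (nat_lit 0) (nat_lit 0) (XT.nd (nat_lit 78) (nat_lit 0) (nat_lit 0) (XT.lf (nat_lit 0) (nat_lit 28976391786) (nat_lit 76) (nat_lit 45878568754) (nat_lit 76) (nat_lit 45687528148) (nat_lit 3) (nat_lit 4) (nat_lit 4) (nat_lit 5) (nat_lit 4) (nat_lit 4) (nat_lit 443) (nat_lit 290) (nat_lit 287)) (XT.lf (nat_lit 0) (nat_lit 38755508544) (nat_lit 76) (nat_lit 43927476516) (nat_lit 76) (nat_lit 43678721894) (nat_lit 3) (nat_lit 4) (nat_lit 4) (nat_lit 5) (nat_lit 4) (nat_lit 4) (nat_lit 444) (nat_lit 290) (nat_lit 286))) (XT.nd (nat_lit 78) (nat_lit 0) (nat_lit 0) (XT.lf (nat_lit 0) (nat_lit 48774555226) (nat_lit 76) (nat_lit 42003633203)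 (nat_lit 76) (nat_lit 41699912853) (nat_lit 3) (nat_lit 4) (nat_lit 4) (nat_lit 5) (nat_lit 4) (nat_lit 4) (nat_lit 445) (nat_lit 290) (nat_lit 285)) (XT.lf (nat_lit 0) (nat_lit 59057386705) (nat_lit 76) (nat_lit 40102458236) (nat_lit 76) (nat_lit 39746389572) (nat_lit 3) (nat_lit 4) (nat_lit 4) (nat_lit 5) (nat_lit 4) (nat_lit 4) (nat_lit 446) (nat_lit 290) (nat_lit 284))))) (XT.nd (nat_lit 234) (nat_lit 0) (nat_lit 0) (XT.nd (nat_lit 78) (nat_lit 0) (nat_lit 0) (XT.lf (nat_lit 0) (nat_lit 69628485915) (nat_lit 76) (nat_lit 38219425007) (nat_lit 76) (nat_lit 37813500806) (nat_lit 3) (nat_lit 4) (nat_lit 4) (nat_lit 5) (nat_lit 4) (nat_lit 4) (nat_lit 447) (nat_lit 290) (nat_lit 283)) (XT.nd (nat_lit 78) (nat_lit 0) (nat_lit 0) (XT.lf (nat_lit 0) (nat_lit 80513022138) (nat_lit 76) (nat_lit 36350050104) (nat_lit 76) (nat_lit 35896644439) (nat_lit 3) (nat_lit 4) (nat_lit 4) (nat_lit 5) (nat_lit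 4) (nat_lit 4) (nat_lit 448) (nat_lit 290) (nat_lit 282)) (XT.lf (nat_lit 0) (nat_lit 91736910937) (nat_lit 76) (nat_lit 34489882634) (nat_lit 76) (nat_lit 33991256528) (nat_lit 3) (nat_lit 4) (nat_lit 4) (nat_lit 5) (nat_lit 4) (nat_lit 4) (nat_lit 449) (nat_lit 290) (nat_lit 281)))) (XT.nd (nat_lit 156) (nat_lit 0) (nat_lit 0) (XT.nd (nat_lit 78) (nat_lit 0) (nat_lit 0) (XT.lf (nat_lit 0) (nat_lit 103326875857) (nat_lit 76) (nat_lit 32634493627) (nat_lit 76) (nat_lit 32092800434) (nat_lit 3) (nat_lit 4) (nat_lit 4) (nat_lit 5) (nat_lit 4) (nat_lit 4) (nat_lit 450) (nat_lit 290) (nat_lit 280)) (XT.lf (nat_lit 0) (nat_lit 115310512053) (nat_lit 76) (nat_lit 30779465491) (nat_lit 76) (nat_lit 30196756024) (nat_lit 3) (nat_lit 4) (nat_lit 4) (nat_lit 5) (nat_lit 4) (nat_lit 4) (nat_lit 451) (nat_lit 290) (nat_lit 279))) (XT.nd (nat_lit 78) (nat_lit 0) (nat_lit 0) (XT.lf (nat_lit 0) (nat_lit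 127716351991) (nat_lit 76) (nat_lit 28920381491) (nat_lit 76) (nat_lit 28298608907) (nat_lit 3) (nat_lit 4) (nat_lit 4) (nat_lit 5) (nat_lit 4) (nat_lit 4) (nat_lit 452) (nat_lit 290) (nat_lit 278)) (XT.lf (nat_lit 0) (nat_lit 140573933386) (nat_lit 76) (nat_lit 27052815237) (nat_lit 76) (nat_lit 26393839684) (nat_lit 3) (nat_lit 4) (nat_lit 4) (nat_lit 5) (nat_lit 4) (nat_lit 4) (nat_lit 453) (nat_lit 290) (nat_lit 277))))))))
noncomputable def xc10 : XT := (XT.nd (nat_lit 2106) (nat_lit 0) (nat_lit 0) (XT.nd (nat_lit 1014) (nat_lit 0) (nat_lit 0) (XT.nd (nat_lit 468) (nat_lit 152) (nat_lit 0) (XT.nd (nat_lit 234) (nat_lit 0) (nat_lit 0) (XT.nd (nat_lit 78) (nat_lit 0) (nat_lit 0) (XT.lf (nat_lit 0) (nat_lit 153913869526) (nat_lit 76) (nat_lit 25172320142) (nat_lit 76) (nat_lit 24477913190) (nat_lit 3) (nat_lit 4) (nat_lit 4) (nat_lit 5) (nat_lit 4) (nat_lit 4) (nat_lit 454) (nat_lit 290)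 (nat_lit 276)) (XT.nd (nat_lit 78) (nat_lit 0) (nat_lit 0) (XT.lf (nat_lit 0) (nat_lit 167767922165) (nat_lit 76) (nat_lit 23274418839) (nat_lit 76) (nat_lit 22546267697) (nat_lit 3) (nat_lit 4) (nat_lit 4) (nat_lit 5) (nat_lit 4) (nat_lit 4) (nat_lit 455) (nat_lit 290) (nat_lit 275)) (XT.lf (nat_lit 0) (nat_lit 182169077142) (nat_lit 76) (nat_lit 21354592513) (nat_lit 76) (nat_lit 20594304048) (nat_lit 3) (nat_lit 4) (nat_lit 4) (nat_lit 5) (nat_lit 4) (nat_lit 4) (nat_lit 456) (nat_lit 290) (nat_lit 274)))) (XT.nd (nat_lit 78) (nat_lit 0) (nat_lit 0) (XT.lf (nat_lit 0) (nat_lit 197151622922) (nat_lit 76) (nat_lit 19408270150) (nat_lit 76) (nat_lit 18617374710) (nat_lit 3) (nat_lit 4) (nat_lit 4) (nat_lit 5) (nat_lit 4) (nat_lit 4) (nat_lit 457) (nat_lit 290) (nat_lit 273)) (XT.nd (nat_lit 78) (nat_lit 0) (nat_lit 0) (XT.lf (nat_lit 0) (nat_lit 212751232231) (nat_lit 76) (nat_lit 17430817649)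 (nat_lit 76) (nat_lit 16610772709) (nat_lit 3) (nat_lit 4) (nat_lit 4) (nat_lit 5) (nat_lit 4) (nat_lit 4) (nat_lit 458) (nat_lit 290) (nat_lit 272)) (XT.lf (nat_lit 0) (nat_lit 229005046998) (nat_lit 76) (nat_lit 15417526789) (nat_lit 76) (nat_lit 14569720421) (nat_lit 3) (nat_lit 4) (nat_lit 4) (nat_lit 5) (nat_lit 4) (nat_lit 4) (nat_lit 459) (nat_lit 290) (nat_lit 271))))) (XT.nd (nat_lit 234) (nat_lit 152) (nat_lit 0) (XT.nd (nat_lit 78) (nat_lit 0) (nat_lit 0) (XT.lf (nat_lit 0) (nat_lit 245951766782) (nat_lit 76) (nat_lit 13363604022) (nat_lit 76) (nat_lit 12489358198) (nat_lit 3) (nat_lit 4) (nat_lit 4) (nat_lit 5) (nat_lit 4) (nat_lit 4) (nat_lit 460) (nat_lit 290) (nat_lit 270)) (XT.nd (nat_lit 78) (nat_lit 0) (nat_lit 0) (XT.lf (nat_lit 0) (nat_lit 263631740914) (nat_lit 76) (nat_lit 11264159054) (nat_lit 76) (nat_lit 10364732797) (nat_lit 3) (nat_lit 4) (nat_lit 4) (nat_lit 5)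 (nat_lit 4) (nat_lit 4) (nat_lit 461) (nat_lit 290) (nat_lit 269)) (XT.lf (nat_lit 0) (nat_lit 282087064572) (nat_lit 76) (nat_lit 9114193208) (nat_lit 76) (nat_lit 8190785585) (nat_lit 3) (nat_lit 4) (nat_lit 4) (nat_lit 5) (nat_lit 4) (nat_lit 4) (nat_lit 462) (nat_lit 290) (nat_lit 268)))) (XT.nd (nat_lit 156) (nat_lit 152) (nat_lit 0) (XT.nd (nat_lit 78) (nat_lit 0) (nat_lit 0) (XT.lf (nat_lit 0) (nat_lit 301361679002) (nat_lit 76) (nat_lit 6908587516) (nat_lit 76) (nat_lit 5962340498) (nat_lit 3) (nat_lit 4) (nat_lit 4) (nat_lit 5) (nat_lit 4) (nat_lit 4) (nat_lit 463) (nat_lit 290) (nat_lit 267)) (XT.lf (nat_lit 0) (nat_lit 321501476143) (nat_lit 76) (nat_lit 4642090537) (nat_lit 76) (nat_lit 3674091713) (nat_lit 3) (nat_lit 4) (nat_lit 4) (nat_lit 5) (nat_lit 4) (nat_lit 4) (nat_lit 464) (nat_lit 290) (nat_lit 266))) (XT.nd (nat_lit 78) (nat_lit 152) (nat_lit 0) (XT.lf (nat_lit 0)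 (nat_lit 342554407895) (nat_lit 76) (nat_lit 2309305850) (nat_lit 76) (nat_lit 1320591021) (nat_lit 3) (nat_lit 4) (nat_lit 4) (nat_lit 5) (nat_lit 4) (nat_lit 4) (nat_lit 465) (nat_lit 290) (nat_lit 265)) (XT.lf (nat_lit 0) (nat_lit 1089583146) (nat_lit 152) (nat_lit 362150852330) (nat_lit 0) (nat_lit 129159947) (nat_lit 1) (nat_lit 5) (nat_lit 3) (nat_lit 4) (nat_lit 1) (nat_lit 4) (nat_lit 466) (nat_lit 290) (nat_lit 264)))))) (XT.nd (nat_lit 546) (nat_lit 0) (nat_lit 0) (XT.nd (nat_lit 234) (nat_lit 0) (nat_lit 0) (XT.nd (nat_lit 78) (nat_lit 0) (nat_lit 0) (XT.lf (nat_lit 0) (nat_lit 3630965416) (nat_lit 152) (nat_lit 375126703108) (nat_lit 0) (nat_lit 2652646953) (nat_lit 1) (nat_lit 5) (nat_lit 3) (nat_lit 4) (nat_lit 1) (nat_lit 4) (nat_lit 467) (nat_lit 290) (nat_lit 263)) (XT.nd (nat_lit 78) (nat_lit 0) (nat_lit 0) (XT.lf (nat_lit 0) (nat_lit 6256312617) (nat_lit 152) (nat_lit 388837964330)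 (nat_lit 0) (nat_lit 5260951046) (nat_lit 1) (nat_lit 5) (nat_lit 3) (nat_lit 4) (nat_lit 1) (nat_lit 4) (nat_lit 468) (nat_lit 290) (nat_lit 262)) (XT.lf (nat_lit 0) (nat_lit 8971875576) (nat_lit 152) (nat_lit 403317281856) (nat_lit 0) (nat_lit 7960282472) (nat_lit 1) (nat_lit 5) (nat_lit 3) (nat_lit 4) (nat_lit 1) (nat_lit 4) (nat_lit 469) (nat_lit 290) (nat_lit 261)))) (XT.nd (nat_lit 156) (nat_lit 0) (nat_lit 0) (XT.nd (nat_lit 78) (nat_lit 0) (nat_lit 0) (XT.lf (nat_lit 0) (nat_lit 11784119918) (nat_lit 152) (nat_lit 418599130252) (nat_lit 0) (nat_lit 10757068212) (nat_lit 1) (nat_lit 5) (nat_lit 3) (nat_lit 4) (nat_lit 1) (nat_lit 4) (nat_lit 470) (nat_lit 290) (nat_lit 260)) (XT.lf (nat_lit 0) (nat_lit 14699741463) (nat_lit 152) (nat_lit 434719894870) (nat_lit 0) (nat_lit 13657967280) (nat_lit 1) (nat_lit 5) (nat_lit 3) (nat_lit 4) (nat_lit 1) (nat_lit 4) (nat_lit 471) (nat_lit 290)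 (nat_lit 259))) (XT.nd (nat_lit 78) (nat_lit 0) (nat_lit 0) (XT.lf (nat_lit 0) (nat_lit 17725682169) (nat_lit 152) (nat_lit 451717958484) (nat_lit 0) (nat_lit 16669886577) (nat_lit 1) (nat_lit 5) (nat_lit 3) (nat_lit 4) (nat_lit 1) (nat_lit 4) (nat_lit 472) (nat_lit 290) (nat_lit 258)) (XT.lf (nat_lit 0) (nat_lit 20869146654) (nat_lit 152) (nat_lit 469633792673) (nat_lit 0) (nat_lit 19799997341) (nat_lit 1) (nat_lit 5) (nat_lit 3) (nat_lit 4) (nat_lit 1) (nat_lit 4) (nat_lit 473) (nat_lit 290) (nat_lit 257))))) (XT.nd (nat_lit 234) (nat_lit 0) (nat_lit 0) (XT.nd (nat_lit 78) (nat_lit 0) (nat_lit 0) (XT.lf (nat_lit 0) (nat_lit 24137619359) (nat_lit 152) (nat_lit 488510054187) (nat_lit 0) (nat_lit 23055752216) (nat_lit 1) (nat_lit 5) (nat_lit 3) (nat_lit 4) (nat_lit 1) (nat_lit 4) (nat_lit 474) (nat_lit 290) (nat_lit 256)) (XT.nd (nat_lit 78) (nat_lit 0) (nat_lit 0) (XT.lf (nat_lit 0) (nat_lit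 27538882361) (nat_lit 152) (nat_lit 508391686504) (nat_lit 0) (nat_lit 26444902999) (nat_lit 1) (nat_lit 5) (nat_lit 3) (nat_lit 4) (nat_lit 1) (nat_lit 4) (nat_lit 475) (nat_lit 290) (nat_lit 255)) (XT.lf (nat_lit 0) (nat_lit 31081033906) (nat_lit 152) (nat_lit 529326026844) (nat_lit 0) (nat_lit 29975519097) (nat_lit 1) (nat_lit 5) (nat_lit 3) (nat_lit 4) (nat_lit 1) (nat_lit 4) (nat_lit 476) (nat_lit 290) (nat_lit 254)))) (XT.nd (nat_lit 156) (nat_lit 0) (nat_lit 0) (XT.nd (nat_lit 78) (nat_lit 0) (nat_lit 0) (XT.lf (nat_lit 0) (nat_lit 34772507688) (nat_lit 152) (nat_lit 551362918875) (nat_lit 0) (nat_lit 33656006738) (nat_lit 1) (nat_lit 5) (nat_lit 3) (nat_lit 4) (nat_lit 1) (nat_lit 4) (nat_lit 477) (nat_lit 290) (nat_lit 253)) (XT.lf (nat_lit 0) (nat_lit 38622092929) (nat_lit 152) (nat_lit 574554831387) (nat_lit 0) (nat_lit 37495128990) (nat_lit 1) (nat_lit 5) (nat_lit 3) (nat_lit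 4) (nat_lit 1) (nat_lit 4) (nat_lit 478) (nat_lit 290) (nat_lit 252))) (XT.nd (nat_lit 78) (nat_lit 0) (nat_lit 0) (XT.lf (nat_lit 0) (nat_lit 42638955310) (nat_lit 152) (nat_lit 598956983221) (nat_lit 0) (nat_lit 41502026618) (nat_lit 1) (nat_lit 5) (nat_lit 3) (nat_lit 4) (nat_lit 1) (nat_lit 4) (nat_lit 479) (nat_lit 290) (nat_lit 251)) (XT.lf (nat_lit 0) (nat_lit 46832658788) (nat_lit 152) (nat_lit 624627474736) (nat_lit 0) (nat_lit 45686239855) (nat_lit 1) (nat_lit 5) (nat_lit 3) (nat_lit 4) (nat_lit 1) (nat_lit 4) (nat_lit 480) (nat_lit 290) (nat_lit 250))))))) (XT.nd (nat_lit 50388) (nat_lit 0) (nat_lit 152) (XT.nd (nat_lit 49842) (nat_lit 0) (nat_lit 152) (XT.nd (nat_lit 234) (nat_lit 0) (nat_lit 0) (XT.nd (nat_lit 78) (nat_lit 0) (nat_lit 0) (XT.lf (nat_lit 0) (nat_lit 51213188372) (nat_lit 152) (nat_lit 651627426152) (nat_lit 0) (nat_lit 50057731114) (nat_lit 1) (nat_lit 5) (nat_lit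 3) (nat_lit 4) (nat_lit 1) (nat_lit 4) (nat_lit 481) (nat_lit 290) (nat_lit 249)) (XT.nd (nat_lit 78) (nat_lit 0) (nat_lit 0) (XT.lf (nat_lit 0) (nat_lit 55790973893) (nat_lit 152) (nat_lit 680021123066) (nat_lit 0) (nat_lit 54626908708) (nat_lit 1) (nat_lit 5) (nat_lit 3) (nat_lit 4) (nat_lit 1) (nat_lit 4) (nat_lit 482) (nat_lit 290) (nat_lit 248)) (XT.lf (nat_lit 0) (nat_lit 60576914842) (nat_lit 152) (nat_lit 709876169519) (nat_lit 0) (nat_lit 59404651630) (nat_lit 1) (nat_lit 5) (nat_lit 3) (nat_lit 4) (nat_lit 1) (nat_lit 4) (nat_lit 483) (nat_lit 290) (nat_lit 247)))) (XT.nd (nat_lit 78) (nat_lit 0) (nat_lit 0) (XT.lf (nat_lit 0) (nat_lit 65582406315) (nat_lit 152) (nat_lit 741263648955) (nat_lit 0) (nat_lit 64402335459) (nat_lit 1) (nat_lit 5) (nat_lit 3) (nat_lit 4) (nat_lit 1) (nat_lit 4) (nat_lit 484) (nat_lit 290) (nat_lit 246)) (XT.nd (nat_lit 49452) (nat_lit 0) (nat_lit 228)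 (XT.lf (nat_lit 0) (nat_lit 70819366150) (nat_lit 152) (nat_lit 774258293468) (nat_lit 0) (nat_lit 69631859442) (nat_lit 1) (nat_lit 5) (nat_lit 3) (nat_lit 4) (nat_lit 1) (nat_lit 4) (nat_lit 485) (nat_lit 290) (nat_lit 245)) (XT.lf (nat_lit 0) (nat_lit 19751168325) (nat_lit 152) (nat_lit 8210140109) (nat_lit 0) (nat_lit 19751168325) (nat_lit 4) (nat_lit 5) (nat_lit 6) (nat_lit 4) (nat_lit 4) (nat_lit 4) (nat_lit 438) (nat_lit 291) (nat_lit 291))))) (XT.nd (nat_lit 234) (nat_lit 0) (nat_lit 0) (XT.nd (nat_lit 78) (nat_lit 76) (nat_lit 0) (XT.lf (nat_lit 0) (nat_lit 46048669498) (nat_lit 152) (nat_lit 7936614684) (nat_lit 0) (nat_lit 45978517751) (nat_lit 4) (nat_lit 5) (nat_lit 6) (nat_lit 4) (nat_lit 4) (nat_lit 4) (nat_lit 439) (nat_lit 291) (nat_lit 290)) (XT.nd (nat_lit 78) (nat_lit 0) (nat_lit 0) (XT.lf (nat_lit 0) (nat_lit 700654959) (nat_lit 76) (nat_lit 52086336020) (nat_lit 76)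 (nat_lit 51949373086) (nat_lit 3) (nat_lit 4) (nat_lit 4) (nat_lit 5) (nat_lit 4) (nat_lit 4) (nat_lit 440) (nat_lit 291) (nat_lit 289)) (XT.lf (nat_lit 0) (nat_lit 9757050802) (nat_lit 76) (nat_lit 50095785213) (nat_lit 76) (nat_lit 49895192577) (nat_lit 3) (nat_lit 4) (nat_lit 4) (nat_lit 5) (nat_lit 4) (nat_lit 4) (nat_lit 441) (nat_lit 291) (nat_lit 288)))) (XT.nd (nat_lit 156) (nat_lit 0) (nat_lit 0) (XT.nd (nat_lit 78) (nat_lit 0) (nat_lit 0) (XT.lf (nat_lit 0) (nat_lit 18991715369) (nat_lit 76) (nat_lit 48143302765) (nat_lit 76) (nat_lit 47882110412) (nat_lit 3) (nat_lit 4) (nat_lit 4) (nat_lit 5) (nat_lit 4) (nat_lit 4) (nat_lit 442) (nat_lit 291) (nat_lit 287)) (XT.lf (nat_lit 0) (nat_lit 28426635955) (nat_lit 76) (nat_lit 46224239908) (nat_lit 76) (nat_lit 45905333539) (nat_lit 3) (nat_lit 4) (nat_lit 4) (nat_lit 5) (nat_lit 4) (nat_lit 4) (nat_lit 443) (nat_lit 291) (nat_lit 286)))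 (XT.nd (nat_lit 78) (nat_lit 0) (nat_lit 0) (XT.lf (nat_lit 0) (nat_lit 38084276657) (nat_lit 76) (nat_lit 44334027444) (nat_lit 76) (nat_lit 43960155347) (nat_lit 3) (nat_lit 4) (nat_lit 4) (nat_lit 5) (nat_lit 4) (nat_lit 4) (nat_lit 444) (nat_lit 291) (nat_lit 285)) (XT.lf (nat_lit 0) (nat_lit 47987631858) (nat_lit 76) (nat_lit 42468164869) (nat_lit 76) (nat_lit 42041944458) (nat_lit 3) (nat_lit 4) (nat_lit 4) (nat_lit 5) (nat_lit 4) (nat_lit 4) (nat_lit 445) (nat_lit 291) (nat_lit 284)))))) (XT.nd (nat_lit 546) (nat_lit 0) (nat_lit 0) (XT.nd (nat_lit 234) (nat_lit 0) (nat_lit 0) (XT.nd (nat_lit 78) (nat_lit 0) (nat_lit 0) (XT.lf (nat_lit 0) (nat_lit 58160280974) (nat_lit 76) (nat_lit 40622209651) (nat_lit 76) (nat_lit 40146133703) (nat_lit 3) (nat_lit 4) (nat_lit 4) (nat_lit 5) (nat_lit 4) (nat_lit 4) (nat_lit 446) (nat_lit 291) (nat_lit 283)) (XT.nd (nat_lit 78) (nat_lit 0) (nat_lit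 0) (XT.lf (nat_lit 0) (nat_lit 68626444600) (nat_lit 76) (nat_lit 38791766659) (nat_lit 76) (nat_lit 38268209248) (nat_lit 3) (nat_lit 4) (nat_lit 4) (nat_lit 5) (nat_lit 4) (nat_lit 4) (nat_lit 447) (nat_lit 291) (nat_lit 282)) (XT.lf (nat_lit 0) (nat_lit 79411042172) (nat_lit 76) (nat_lit 36972477697) (nat_lit 76) (nat_lit 36403699845) (nat_lit 3) (nat_lit 4) (nat_lit 4) (nat_lit 5) (nat_lit 4) (nat_lit 4) (nat_lit 448) (nat_lit 291) (nat_lit 281)))) (XT.nd (nat_lit 156) (nat_lit 0) (nat_lit 0) (XT.nd (nat_lit 78) (nat_lit 0) (nat_lit 0) (XT.lf (nat_lit 0) (nat_lit 90539751303) (nat_lit 76) (nat_lit 35160011123) (nat_lit 76) (nat_lit 34548166183) (nat_lit 3) (nat_lit 4) (nat_lit 4) (nat_lit 5) (nat_lit 4) (nat_lit 4) (nat_lit 449) (nat_lit 291) (nat_lit 280)) (XT.lf (nat_lit 0) (nat_lit 102039068921) (nat_lit 76) (nat_lit 33350051541) (nat_lit 76) (nat_lit 32697190328) (nat_lit 3) (nat_lit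 4) (nat_lit 4) (nat_lit 5) (nat_lit 4) (nat_lit 4) (nat_lit 450) (nat_lit 291) (nat_lit 279))) (XT.nd (nat_lit 78) (nat_lit 0) (nat_lit 0) (XT.lf (nat_lit 0) (nat_lit 113936374352) (nat_lit 76) (nat_lit 31538289523) (nat_lit 76) (nat_lit 30846365193) (nat_lit 3) (nat_lit 4) (nat_lit 4) (nat_lit 5) (nat_lit 4) (nat_lit 4) (nat_lit 451) (nat_lit 291) (nat_lit 278)) (XT.lf (nat_lit 0) (nat_lit 126259994514) (nat_lit 76) (nat_lit 29720411350) (nat_lit 76) (nat_lit 28991284051) (nat_lit 3) (nat_lit 4) (nat_lit 4) (nat_lit 5) (nat_lit 4) (nat_lit 4) (nat_lit 452) (nat_lit 291) (nat_lit 277))))) (XT.nd (nat_lit 234) (nat_lit 0) (nat_lit 0) (XT.nd (nat_lit 78) (nat_lit 0) (nat_lit 0) (XT.lf (nat_lit 0) (nat_lit 139039271361) (nat_lit 76) (nat_lit 27892088742) (nat_lit 76) (nat_lit 27127530043) (nat_lit 3) (nat_lit 4) (nat_lit 4) (nat_lit 5) (nat_lit 4) (nat_lit 4) (nat_lit 453) (nat_lit 291) (nat_lit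 276)) (XT.nd (nat_lit 78) (nat_lit 0) (nat_lit 0) (XT.lf (nat_lit 0) (nat_lit 152304631741) (nat_lit 76) (nat_lit 26048968547) (nat_lit 76) (nat_lit 25250665659) (nat_lit 3) (nat_lit 4) (nat_lit 4) (nat_lit 5) (nat_lit 4) (nat_lit 4) (nat_lit 454) (nat_lit 291) (nat_lit 275)) (XT.lf (nat_lit 0) (nat_lit 166087659846) (nat_lit 76) (nat_lit 24186662387) (nat_lit 76) (nat_lit 23356222175) (nat_lit 3) (nat_lit 4) (nat_lit 4) (nat_lit 5) (nat_lit 4) (nat_lit 4) (nat_lit 455) (nat_lit 291) (nat_lit 274)))) (XT.nd (nat_lit 156) (nat_lit 0) (nat_lit 0) (XT.nd (nat_lit 78) (nat_lit 0) (nat_lit 0) (XT.lf (nat_lit 0) (nat_lit 180421172410) (nat_lit 76) (nat_lit 22300736197) (nat_lit 76) (nat_lit 21439689010) (nat_lit 3) (nat_lit 4) (nat_lit 4) (nat_lit 5) (nat_lit 4) (nat_lit 4) (nat_lit 456) (nat_lit 291) (nat_lit 273)) (XT.lf (nat_lit 0) (nat_lit 195339296844) (nat_lit 76) (nat_lit 20386699678) (nat_lit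 76) (nat_lit 19496502992) (nat_lit 3) (nat_lit 4) (nat_lit 4) (nat_lit 5) (nat_lit 4) (nat_lit 4) (nat_lit 457) (nat_lit 291) (nat_lit 272))) (XT.nd (nat_lit 78) (nat_lit 0) (nat_lit 0) (XT.lf (nat_lit 0) (nat_lit 210877552491) (nat_lit 76) (nat_lit 18439995599) (nat_lit 76) (nat_lit 17522037485) (nat_lit 3) (nat_lit 4) (nat_lit 4) (nat_lit 5) (nat_lit 4) (nat_lit 4) (nat_lit 458) (nat_lit 291) (nat_lit 271)) (XT.lf (nat_lit 0) (nat_lit 227072935199) (nat_lit 76) (nat_lit 16455988952) (nat_lit 76) (nat_lit 15511591382) (nat_lit 3) (nat_lit 4) (nat_lit 4) (nat_lit 5) (nat_lit 4) (nat_lit 4) (nat_lit 459) (nat_lit 291) (nat_lit 270))))))))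
noncomputable def xc11 : XT := (XT.nd (nat_lit 51324) (nat_lit 0) (nat_lit 152) (XT.nd (nat_lit 1014) (nat_lit 0) (nat_lit 0) (XT.nd (nat_lit 468) (nat_lit 152) (nat_lit 0) (XT.nd (nat_lit 234) (nat_lit 0) (nat_lit 0) (XT.nd (nat_lit 78) (nat_lit 0) (nat_lit 0) (XT.lf (nat_lit 0) (nat_lit 243964005401) (nat_lit 76) (nat_lit 14429955911) (nat_lit 76) (nat_lit 13460377907) (nat_lit 3) (nat_lit 4) (nat_lit 4) (nat_lit 5) (nat_lit 4) (nat_lit 4) (nat_lit 460) (nat_lit 291) (nat_lit 269)) (XT.nd (nat_lit 78) (nat_lit 0) (nat_lit 0) (XT.lf (nat_lit 0) (nat_lit 261590979933) (nat_lit 76) (nat_lit 12357072587) (nat_lit 76) (nat_lit 11363513217) (nat_lit 3) (nat_lit 4) (nat_lit 4) (nat_lit 5) (nat_lit 4) (nat_lit 4) (nat_lit 461) (nat_lit 291) (nat_lit 268)) (XT.lf (nat_lit 0) (nat_lit 279995827781) (nat_lit 76) (nat_lit 10232403544) (nat_lit 76) (nat_lit 9216004779) (nat_lit 3) (nat_lit 4) (nat_lit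 4) (nat_lit 5) (nat_lit 4) (nat_lit 4) (nat_lit 462) (nat_lit 291) (nat_lit 267)))) (XT.nd (nat_lit 78) (nat_lit 0) (nat_lit 0) (XT.lf (nat_lit 0) (nat_lit 299222370011) (nat_lit 76) (nat_lit 8050890046) (nat_lit 76) (nat_lit 7012739475) (nat_lit 3) (nat_lit 4) (nat_lit 4) (nat_lit 5) (nat_lit 4) (nat_lit 4) (nat_lit 463) (nat_lit 291) (nat_lit 266)) (XT.nd (nat_lit 78) (nat_lit 0) (nat_lit 0) (XT.lf (nat_lit 0) (nat_lit 319316384105) (nat_lit 76) (nat_lit 5807338014) (nat_lit 76) (nat_lit 4748471438) (nat_lit 3) (nat_lit 4) (nat_lit 4) (nat_lit 5) (nat_lit 4) (nat_lit 4) (nat_lit 464) (nat_lit 291) (nat_lit 265)) (XT.lf (nat_lit 0) (nat_lit 340325712954) (nat_lit 76) (nat_lit 3496405657) (nat_lit 76) (nat_lit 2417809552) (nat_lit 3) (nat_lit 4) (nat_lit 4) (nat_lit 5) (nat_lit 4) (nat_lit 4) (nat_lit 465) (nat_lit 291) (nat_lit 264))))) (XT.nd (nat_lit 234) (nat_lit 0) (nat_lit 0) (XT.nd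 (nat_lit 78) (nat_lit 152) (nat_lit 0) (XT.lf (nat_lit 0) (nat_lit 362300378768) (nat_lit 76) (nat_lit 1112590754) (nat_lit 76) (nat_lit 15204622) (nat_lit 3) (nat_lit 4) (nat_lit 4) (nat_lit 5) (nat_lit 4) (nat_lit 4) (nat_lit 466) (nat_lit 291) (nat_lit 263)) (XT.nd (nat_lit 78) (nat_lit 0) (nat_lit 0) (XT.lf (nat_lit 0) (nat_lit 2469778751) (nat_lit 152) (nat_lit 377594366212) (nat_lit 0) (nat_lit 1407605992) (nat_lit 1) (nat_lit 5) (nat_lit 3) (nat_lit 4) (nat_lit 1) (nat_lit 4) (nat_lit 467) (nat_lit 291) (nat_lit 262)) (XT.lf (nat_lit 0) (nat_lit 5075100780) (nat_lit 152) (nat_lit 391345868040) (nat_lit 0) (nat_lit 3996696489) (nat_lit 1) (nat_lit 5) (nat_lit 3) (nat_lit 4) (nat_lit 1) (nat_lit 4) (nat_lit 468) (nat_lit 291) (nat_lit 261)))) (XT.nd (nat_lit 156) (nat_lit 0) (nat_lit 0) (XT.nd (nat_lit 78) (nat_lit 0) (nat_lit 0) (XT.lf (nat_lit 0) (nat_lit 7771592146) (nat_lit 152)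 (nat_lit 405863509953) (nat_lit 0) (nat_lit 6677729254) (nat_lit 1) (nat_lit 5) (nat_lit 3) (nat_lit 4) (nat_lit 1) (nat_lit 4) (nat_lit 469) (nat_lit 291) (nat_lit 260)) (XT.lf (nat_lit 0) (nat_lit 10565673067) (nat_lit 152) (nat_lit 421181857764) (nat_lit 0) (nat_lit 9457087696) (nat_lit 1) (nat_lit 5) (nat_lit 3) (nat_lit 4) (nat_lit 1) (nat_lit 4) (nat_lit 470) (nat_lit 291) (nat_lit 259))) (XT.nd (nat_lit 78) (nat_lit 0) (nat_lit 0) (XT.lf (nat_lit 0) (nat_lit 13463996116) (nat_lit 152) (nat_lit 437337383731) (nat_lit 0) (nat_lit 12341389338) (nat_lit 1) (nat_lit 5) (nat_lit 3) (nat_lit 4) (nat_lit 1) (nat_lit 4) (nat_lit 471) (nat_lit 291) (nat_lit 258)) (XT.lf (nat_lit 0) (nat_lit 16473462063) (nat_lit 152) (nat_lit 454368553392) (nat_lit 0) (nat_lit 15337501563) (nat_lit 1) (nat_lit 5) (nat_lit 3) (nat_lit 4) (nat_lit 1) (nat_lit 4) (nat_lit 472) (nat_lit 291) (nat_lit 257)))))) (XT.nd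 (nat_lit 546) (nat_lit 0) (nat_lit 0) (XT.nd (nat_lit 234) (nat_lit 0) (nat_lit 0) (XT.nd (nat_lit 78) (nat_lit 0) (nat_lit 0) (XT.lf (nat_lit 0) (nat_lit 19601236302) (nat_lit 152) (nat_lit 472315917149) (nat_lit 0) (nat_lit 18452557972) (nat_lit 1) (nat_lit 5) (nat_lit 3) (nat_lit 4) (nat_lit 1) (nat_lit 4) (nat_lit 473) (nat_lit 291) (nat_lit 256)) (XT.nd (nat_lit 78) (nat_lit 0) (nat_lit 0) (XT.lf (nat_lit 0) (nat_lit 22854765915) (nat_lit 152) (nat_lit 491222206822) (nat_lit 0) (nat_lit 21693975366) (nat_lit 1) (nat_lit 5) (nat_lit 3) (nat_lit 4) (nat_lit 1) (nat_lit 4) (nat_lit 474) (nat_lit 291) (nat_lit 255)) (XT.lf (nat_lit 0) (nat_lit 26241797402) (nat_lit 152) (nat_lit 511132437387) (nat_lit 0) (nat_lit 25069471405) (nat_lit 1) (nat_lit 5) (nat_lit 3) (nat_lit 4) (nat_lit 1) (nat_lit 4) (nat_lit 475) (nat_lit 291) (nat_lit 254)))) (XT.nd (nat_lit 156) (nat_lit 0) (nat_lit 0) (XT.nd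 (nat_lit 78) (nat_lit 0) (nat_lit 0) (XT.lf (nat_lit 0) (nat_lit 29770395122) (nat_lit 152) (nat_lit 532094014153) (nat_lit 0) (nat_lit 28587082985) (nat_lit 1) (nat_lit 5) (nat_lit 3) (nat_lit 4) (nat_lit 1) (nat_lit 4) (nat_lit 476) (nat_lit 291) (nat_lit 253)) (XT.lf (nat_lit 0) (nat_lit 33448960499) (nat_lit 152) (nat_lit 554156845638) (nat_lit 0) (nat_lit 32255185372) (nat_lit 1) (nat_lit 5) (nat_lit 3) (nat_lit 4) (nat_lit 1) (nat_lit 4) (nat_lit 477) (nat_lit 291) (nat_lit 252))) (XT.nd (nat_lit 78) (nat_lit 0) (nat_lit 0) (XT.lf (nat_lit 0) (nat_lit 37286252022) (nat_lit 152) (nat_lit 577373462392) (nat_lit 0) (nat_lit 36082512143) (nat_lit 1) (nat_lit 5) (nat_lit 3) (nat_lit 4) (nat_lit 1) (nat_lit 4) (nat_lit 478) (nat_lit 291) (nat_lit 251)) (XT.lf (nat_lit 0) (nat_lit 41291406100) (nat_lit 152) (nat_lit 601799142074) (nat_lit 0) (nat_lit 40078175980) (nat_lit 1) (nat_lit 5) (nat_lit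 3) (nat_lit 4) (nat_lit 1) (nat_lit 4) (nat_lit 479) (nat_lit 291) (nat_lit 250))))) (XT.nd (nat_lit 234) (nat_lit 0) (nat_lit 0) (XT.nd (nat_lit 78) (nat_lit 0) (nat_lit 0) (XT.lf (nat_lit 0) (nat_lit 45473958813) (nat_lit 152) (nat_lit 627492041065) (nat_lit 0) (nat_lit 44251690368) (nat_lit 1) (nat_lit 5) (nat_lit 3) (nat_lit 4) (nat_lit 1) (nat_lit 4) (nat_lit 480) (nat_lit 291) (nat_lit 249)) (XT.nd (nat_lit 78) (nat_lit 0) (nat_lit 0) (XT.lf (nat_lit 0) (nat_lit 49843868620) (nat_lit 152) (nat_lit 654513332933) (nat_lit 0) (nat_lit 48612992247) (nat_lit 1) (nat_lit 5) (nat_lit 3) (nat_lit 4) (nat_lit 1) (nat_lit 4) (nat_lit 481) (nat_lit 291) (nat_lit 248)) (XT.lf (nat_lit 0) (nat_lit 54411540069) (nat_lit 152) (nat_lit 682927354088) (nat_lit 0) (nat_lit 53172465670) (nat_lit 1) (nat_lit 5) (nat_lit 3) (nat_lit 4) (nat_lit 1) (nat_lit 4) (nat_lit 482) (nat_lit 291) (nat_lit 247))))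 (XT.nd (nat_lit 156) (nat_lit 0) (nat_lit 0) (XT.nd (nat_lit 78) (nat_lit 0) (nat_lit 0) (XT.lf (nat_lit 0) (nat_lit 59187848568) (nat_lit 152) (nat_lit 712801756961) (nat_lit 0) (nat_lit 57940966524) (nat_lit 1) (nat_lit 5) (nat_lit 3) (nat_lit 4) (nat_lit 1) (nat_lit 4) (nat_lit 483) (nat_lit 291) (nat_lit 246)) (XT.lf (nat_lit 0) (nat_lit 64184166279) (nat_lit 152) (nat_lit 744207671082) (nat_lit 0) (nat_lit 62929848383) (nat_lit 1) (nat_lit 5) (nat_lit 3) (nat_lit 4) (nat_lit 1) (nat_lit 4) (nat_lit 484) (nat_lit 291) (nat_lit 245))) (XT.nd (nat_lit 49296) (nat_lit 0) (nat_lit 228) (XT.lf (nat_lit 0) (nat_lit 69412389198) (nat_lit 152) (nat_lit 777219872438) (nat_lit 0) (nat_lit 68150989538) (nat_lit 1) (nat_lit 5) (nat_lit 3) (nat_lit 4) (nat_lit 1) (nat_lit 4) (nat_lit 485) (nat_lit 291) (nat_lit 244)) (XT.lf (nat_lit 0) (nat_lit 13521594886) (nat_lit 152) (nat_lit 16458514145) (nat_lit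 0) (nat_lit 13521594886) (nat_lit 4) (nat_lit 5) (nat_lit 6) (nat_lit 4) (nat_lit 4) (nat_lit 4) (nat_lit 436) (nat_lit 292) (nat_lit 292))))))) (XT.nd (nat_lit 1092) (nat_lit 0) (nat_lit 0) (XT.nd (nat_lit 546) (nat_lit 0) (nat_lit 0) (XT.nd (nat_lit 234) (nat_lit 76) (nat_lit 0) (XT.nd (nat_lit 78) (nat_lit 0) (nat_lit 0) (XT.lf (nat_lit 0) (nat_lit 33195126076) (nat_lit 152) (nat_lit 24792966182) (nat_lit 0) (nat_lit 33121466742) (nat_lit 4) (nat_lit 5) (nat_lit 6) (nat_lit 4) (nat_lit 4) (nat_lit 4) (nat_lit 437) (nat_lit 292) (nat_lit 291)) (XT.nd (nat_lit 78) (nat_lit 0) (nat_lit 0) (XT.lf (nat_lit 0) (nat_lit 39501078640) (nat_lit 152) (nat_lit 16570355695) (nat_lit 0) (nat_lit 39357267559) (nat_lit 4) (nat_lit 5) (nat_lit 6) (nat_lit 4) (nat_lit 4) (nat_lit 4) (nat_lit 438) (nat_lit 292) (nat_lit 290)) (XT.lf (nat_lit 0) (nat_lit 45976061636) (nat_lit 152) (nat_lit 8229619186) (nat_lit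 0) (nat_lit 45765439368) (nat_lit 4) (nat_lit 5) (nat_lit 6) (nat_lit 4) (nat_lit 4) (nat_lit 4) (nat_lit 439) (nat_lit 292) (nat_lit 289)))) (XT.nd (nat_lit 156) (nat_lit 0) (nat_lit 0) (XT.nd (nat_lit 78) (nat_lit 0) (nat_lit 0) (XT.lf (nat_lit 0) (nat_lit 257338686) (nat_lit 76) (nat_lit 52382170781) (nat_lit 76) (nat_lit 52107918811) (nat_lit 3) (nat_lit 4) (nat_lit 4) (nat_lit 5) (nat_lit 4) (nat_lit 4) (nat_lit 440) (nat_lit 292) (nat_lit 288)) (XT.lf (nat_lit 0) (nat_lit 9179807179) (nat_lit 76) (nat_lit 50458739925) (nat_lit 76) (nat_lit 50123888238) (nat_lit 3) (nat_lit 4) (nat_lit 4) (nat_lit 5) (nat_lit 4) (nat_lit 4) (nat_lit 441) (nat_lit 292) (nat_lit 287))) (XT.nd (nat_lit 78) (nat_lit 0) (nat_lit 0) (XT.lf (nat_lit 0) (nat_lit 18286921888) (nat_lit 76) (nat_lit 48570181239) (nat_lit 76) (nat_lit 48177615537) (nat_lit 3) (nat_lit 4) (nat_lit 4) (nat_lit 5) (nat_lit 4) (nat_lit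 4) (nat_lit 442) (nat_lit 292) (nat_lit 286)) (XT.lf (nat_lit 0) (nat_lit 27600366418) (nat_lit 76) (nat_lit 46711998156) (nat_lit 76) (nat_lit 46264466725) (nat_lit 3) (nat_lit 4) (nat_lit 4) (nat_lit 5) (nat_lit 4) (nat_lit 4) (nat_lit 443) (nat_lit 292) (nat_lit 285))))) (XT.nd (nat_lit 234) (nat_lit 0) (nat_lit 0) (XT.nd (nat_lit 78) (nat_lit 0) (nat_lit 0) (XT.lf (nat_lit 0) (nat_lit 37142315639) (nat_lit 76) (nat_lit 44879766430) (nat_lit 76) (nat_lit 44379886685) (nat_lit 3) (nat_lit 4) (nat_lit 4) (nat_lit 5) (nat_lit 4) (nat_lit 4) (nat_lit 444) (nat_lit 292) (nat_lit 284)) (XT.nd (nat_lit 78) (nat_lit 0) (nat_lit 0) (XT.lf (nat_lit 0) (nat_lit 46935488477) (nat_lit 76) (nat_lit 43069123604) (nat_lit 76) (nat_lit 42519388322) (nat_lit 3) (nat_lit 4) (nat_lit 4) (nat_lit 5) (nat_lit 4) (nat_lit 4) (nat_lit 445) (nat_lit 292) (nat_lit 283)) (XT.lf (nat_lit 0) (nat_lit 57003202010)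 (nat_lit 76) (nat_lit 41275758624) (nat_lit 76) (nat_lit 40678541878) (nat_lit 3) (nat_lit 4) (nat_lit 4) (nat_lit 5) (nat_lit 4) (nat_lit 4) (nat_lit 446) (nat_lit 292) (nat_lit 282)))) (XT.nd (nat_lit 156) (nat_lit 0) (nat_lit 0) (XT.nd (nat_lit 78) (nat_lit 0) (nat_lit 0) (XT.lf (nat_lit 0) (nat_lit 67369426984) (nat_lit 76) (nat_lit 39495401573) (nat_lit 76) (nat_lit 38852964386) (nat_lit 3) (nat_lit 4) (nat_lit 4) (nat_lit 5) (nat_lit 4) (nat_lit 4) (nat_lit 447) (nat_lit 292) (nat_lit 281)) (XT.lf (nat_lit 0) (nat_lit 78058844888) (nat_lit 76) (nat_lit 37723813506) (nat_lit 76) (nat_lit 37038309233) (nat_lit 3) (nat_lit 4) (nat_lit 4) (nat_lit 5) (nat_lit 4) (nat_lit 4) (nat_lit 448) (nat_lit 292) (nat_lit 280))) (XT.nd (nat_lit 78) (nat_lit 0) (nat_lit 0) (XT.lf (nat_lit 0) (nat_lit 89096906717) (nat_lit 76) (nat_lit 35956776357) (nat_lit 76) (nat_lit 35230255810) (nat_lit 3) (nat_lit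 4) (nat_lit 4) (nat_lit 5) (nat_lit 4) (nat_lit 4) (nat_lit 449) (nat_lit 292) (nat_lit 279)) (XT.lf (nat_lit 0) (nat_lit 100509893570) (nat_lit 76) (nat_lit 34190082894) (nat_lit 76) (nat_lit 33424499229) (nat_lit 3) (nat_lit 4) (nat_lit 4) (nat_lit 5) (nat_lit 4) (nat_lit 4) (nat_lit 450) (nat_lit 292) (nat_lit 278)))))) (XT.nd (nat_lit 546) (nat_lit 0) (nat_lit 0) (XT.nd (nat_lit 234) (nat_lit 0) (nat_lit 0) (XT.nd (nat_lit 78) (nat_lit 0) (nat_lit 0) (XT.lf (nat_lit 0) (nat_lit 112324979225) (nat_lit 76) (nat_lit 32419526703) (nat_lit 76) (nat_lit 31616740070) (nat_lit 3) (nat_lit 4) (nat_lit 4) (nat_lit 5) (nat_lit 4) (nat_lit 4) (nat_lit 451) (nat_lit 292) (nat_lit 277)) (XT.nd (nat_lit 78) (nat_lit 0) (nat_lit 0) (XT.lf (nat_lit 0) (nat_lit 124570294839) (nat_lit 76) (nat_lit 30640892176) (nat_lit 76) (nat_lit 29802674143) (nat_lit 3) (nat_lit 4) (nat_lit 4) (nat_lit 5) (nat_lit 4)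 (nat_lit 4) (nat_lit 452) (nat_lit 292) (nat_lit 276)) (XT.lf (nat_lit 0) (nat_lit 137274995926) (nat_lit 76) (nat_lit 28849944467) (nat_lit 76) (nat_lit 27977982245) (nat_lit 3) (nat_lit 4) (nat_lit 4) (nat_lit 5) (nat_lit 4) (nat_lit 4) (nat_lit 453) (nat_lit 292) (nat_lit 275)))) (XT.nd (nat_lit 156) (nat_lit 0) (nat_lit 0) (XT.nd (nat_lit 78) (nat_lit 0) (nat_lit 0) (XT.lf (nat_lit 0) (nat_lit 150469331772) (nat_lit 76) (nat_lit 27042419416) (nat_lit 76) (nat_lit 26138319870) (nat_lit 3) (nat_lit 4) (nat_lit 4) (nat_lit 5) (nat_lit 4) (nat_lit 4) (nat_lit 454) (nat_lit 292) (nat_lit 274)) (XT.lf (nat_lit 0) (nat_lit 164184717465) (nat_lit 76) (nat_lit 25214013391) (nat_lit 76) (nat_lit 24279306871) (nat_lit 3) (nat_lit 4) (nat_lit 4) (nat_lit 5) (nat_lit 4) (nat_lit 4) (nat_lit 455) (nat_lit 292) (nat_lit 273))) (XT.nd (nat_lit 78) (nat_lit 0) (nat_lit 0) (XT.lf (nat_lit 0) (nat_lit 178453808683)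 (nat_lit 76) (nat_lit 23360373045) (nat_lit 76) (nat_lit 22396517025) (nat_lit 3) (nat_lit 4) (nat_lit 4) (nat_lit 5) (nat_lit 4) (nat_lit 4) (nat_lit 456) (nat_lit 292) (nat_lit 272)) (XT.lf (nat_lit 0) (nat_lit 193310579454) (nat_lit 76) (nat_lit 21477084949) (nat_lit 76) (nat_lit 20485467500) (nat_lit 3) (nat_lit 4) (nat_lit 4) (nat_lit 5) (nat_lit 4) (nat_lit 4) (nat_lit 457) (nat_lit 292) (nat_lit 271))))) (XT.nd (nat_lit 234) (nat_lit 0) (nat_lit 0) (XT.nd (nat_lit 78) (nat_lit 0) (nat_lit 0) (XT.lf (nat_lit 0) (nat_lit 208790403042) (nat_lit 76) (nat_lit 19559665083) (nat_lit 76) (nat_lit 18541608179) (nat_lit 3) (nat_lit 4) (nat_lit 4) (nat_lit 5) (nat_lit 4) (nat_lit 4) (nat_lit 458) (nat_lit 292) (nat_lit 270)) (XT.nd (nat_lit 78) (nat_lit 0) (nat_lit 0) (XT.lf (nat_lit 0) (nat_lit 224930136169) (nat_lit 76) (nat_lit 17603548162) (nat_lit 76) (nat_lit 16560310824) (nat_lit 3) (nat_lit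 4) (nat_lit 4) (nat_lit 5) (nat_lit 4) (nat_lit 4) (nat_lit 459) (nat_lit 292) (nat_lit 269)) (XT.lf (nat_lit 0) (nat_lit 241768206771) (nat_lit 76) (nat_lit 15604076764) (nat_lit 76) (nat_lit 14536858060) (nat_lit 3) (nat_lit 4) (nat_lit 4) (nat_lit 5) (nat_lit 4) (nat_lit 4) (nat_lit 460) (nat_lit 292) (nat_lit 268)))) (XT.nd (nat_lit 156) (nat_lit 0) (nat_lit 0) (XT.nd (nat_lit 78) (nat_lit 0) (nat_lit 0) (XT.lf (nat_lit 0) (nat_lit 259344705493) (nat_lit 76) (nat_lit 13556490243) (nat_lit 76) (nat_lit 12466432144) (nat_lit 3) (nat_lit 4) (nat_lit 4) (nat_lit 5) (nat_lit 4) (nat_lit 4) (nat_lit 461) (nat_lit 292) (nat_lit 267)) (XT.lf (nat_lit 0) (nat_lit 277701481140) (nat_lit 76) (nat_lit 11455913394) (nat_lit 76) (nat_lit 10344103489) (nat_lit 3) (nat_lit 4) (nat_lit 4) (nat_lit 5) (nat_lit 4) (nat_lit 4) (nat_lit 462) (nat_lit 292) (nat_lit 266))) (XT.nd (nat_lit 78) (nat_lit 0) (nat_lit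 0) (XT.lf (nat_lit 0) (nat_lit 296882240323) (nat_lit 76) (nat_lit 9297344843) (nat_lit 76) (nat_lit 8164818933) (nat_lit 3) (nat_lit 4) (nat_lit 4) (nat_lit 5) (nat_lit 4) (nat_lit 4) (nat_lit 463) (nat_lit 292) (nat_lit 265)) (XT.lf (nat_lit 0) (nat_lit 316932651514) (nat_lit 76) (nat_lit 7075645141) (nat_lit 76) (nat_lit 5923389702) (nat_lit 3) (nat_lit 4) (nat_lit 4) (nat_lit 5) (nat_lit 4) (nat_lit 4) (nat_lit 464) (nat_lit 292) (nat_lit 264))))))))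
noncomputable def xc12 : XT := (XT.nd (nat_lit 51168) (nat_lit 0) (nat_lit 152) (XT.nd (nat_lit 1014) (nat_lit 0) (nat_lit 0) (XT.nd (nat_lit 468) (nat_lit 0) (nat_lit 0) (XT.nd (nat_lit 234) (nat_lit 0) (nat_lit 0) (XT.nd (nat_lit 78) (nat_lit 152) (nat_lit 0) (XT.lf (nat_lit 0) (nat_lit 337900453789) (nat_lit 76) (nat_lit 4785524526) (nat_lit 76) (nat_lit 3614479060) (nat_lit 3) (nat_lit 4) (nat_lit 4) (nat_lit 5) (nat_lit 4) (nat_lit 4) (nat_lit 465) (nat_lit 292) (nat_lit 263)) (XT.nd (nat_lit 78) (nat_lit 152) (nat_lit 0) (XT.lf (nat_lit 0) (nat_lit 359835570486) (nat_lit 76) (nat_lit 2421530332) (nat_lit 76) (nat_lit 1232589601) (nat_lit 3) (nat_lit 4) (nat_lit 4) (nat_lit 5) (nat_lit 4) (nat_lit 4) (nat_lit 466) (nat_lit 292) (nat_lit 262)) (XT.lf (nat_lit 0) (nat_lit 1209481150) (nat_lit 152) (nat_lit 380267905713) (nat_lit 0) (nat_lit 60925113) (nat_lit 1) (nat_lit 5) (nat_lit 3)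 (nat_lit 4) (nat_lit 1) (nat_lit 4) (nat_lit 467) (nat_lit 292) (nat_lit 261)))) (XT.nd (nat_lit 78) (nat_lit 0) (nat_lit 0) (XT.lf (nat_lit 0) (nat_lit 3795731587) (nat_lit 152) (nat_lit 394057731928) (nat_lit 0) (nat_lit 2631716947) (nat_lit 1) (nat_lit 5) (nat_lit 3) (nat_lit 4) (nat_lit 1) (nat_lit 4) (nat_lit 468) (nat_lit 292) (nat_lit 260)) (XT.nd (nat_lit 78) (nat_lit 0) (nat_lit 0) (XT.lf (nat_lit 0) (nat_lit 6474059532) (nat_lit 152) (nat_lit 408611873257) (nat_lit 0) (nat_lit 5295322414) (nat_lit 1) (nat_lit 5) (nat_lit 3) (nat_lit 4) (nat_lit 1) (nat_lit 4) (nat_lit 469) (nat_lit 292) (nat_lit 259)) (XT.lf (nat_lit 0) (nat_lit 9250841956) (nat_lit 152) (nat_lit 423964982418) (nat_lit 0) (nat_lit 8058083431) (nat_lit 1) (nat_lit 5) (nat_lit 3) (nat_lit 4) (nat_lit 1) (nat_lit 4) (nat_lit 470) (nat_lit 292) (nat_lit 258))))) (XT.nd (nat_lit 234) (nat_lit 0) (nat_lit 0) (XT.nd (nat_lit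 78) (nat_lit 0) (nat_lit 0) (XT.lf (nat_lit 0) (nat_lit 12132690247) (nat_lit 152) (nat_lit 440153614431) (nat_lit 0) (nat_lit 10926578000) (nat_lit 1) (nat_lit 5) (nat_lit 3) (nat_lit 4) (nat_lit 1) (nat_lit 4) (nat_lit 471) (nat_lit 292) (nat_lit 257)) (XT.nd (nat_lit 78) (nat_lit 0) (nat_lit 0) (XT.lf (nat_lit 0) (nat_lit 15126465947) (nat_lit 152) (nat_lit 457216313659) (nat_lit 0) (nat_lit 13907635870) (nat_lit 1) (nat_lit 5) (nat_lit 3) (nat_lit 4) (nat_lit 1) (nat_lit 4) (nat_lit 472) (nat_lit 292) (nat_lit 256)) (XT.lf (nat_lit 0) (nat_lit 18239297095) (nat_lit 152) (nat_lit 475193705576) (nat_lit 0) (nat_lit 17008354798) (nat_lit 1) (nat_lit 5) (nat_lit 3) (nat_lit 4) (nat_lit 1) (nat_lit 4) (nat_lit 473) (nat_lit 292) (nat_lit 255)))) (XT.nd (nat_lit 156) (nat_lit 0) (nat_lit 0) (XT.nd (nat_lit 78) (nat_lit 0) (nat_lit 0) (XT.lf (nat_lit 0) (nat_lit 21478595192) (nat_lit 152) (nat_lit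 494128593497) (nat_lit 0) (nat_lit 20236117449) (nat_lit 1) (nat_lit 5) (nat_lit 3) (nat_lit 4) (nat_lit 1) (nat_lit 4) (nat_lit 474) (nat_lit 292) (nat_lit 254)) (XT.lf (nat_lit 0) (nat_lit 24852072854) (nat_lit 152) (nat_lit 514066060488) (nat_lit 0) (nat_lit 23598608971) (nat_lit 1) (nat_lit 5) (nat_lit 3) (nat_lit 4) (nat_lit 1) (nat_lit 4) (nat_lit 475) (nat_lit 292) (nat_lit 253))) (XT.nd (nat_lit 78) (nat_lit 0) (nat_lit 0) (XT.lf (nat_lit 0) (nat_lit 28367762170) (nat_lit 152) (nat_lit 535053576708) (nat_lit 0) (nat_lit 27103835296) (nat_lit 1) (nat_lit 5) (nat_lit 3) (nat_lit 4) (nat_lit 1) (nat_lit 4) (nat_lit 476) (nat_lit 292) (nat_lit 252)) (XT.lf (nat_lit 0) (nat_lit 32034033829) (nat_lit 152) (nat_lit 557141112434) (nat_lit 0) (nat_lit 30760142202) (nat_lit 1) (nat_lit 5) (nat_lit 3) (nat_lit 4) (nat_lit 1) (nat_lit 4) (nat_lit 477) (nat_lit 292) (nat_lit 251)))))) (XT.nd (nat_lit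 546) (nat_lit 0) (nat_lit 0) (XT.nd (nat_lit 234) (nat_lit 0) (nat_lit 0) (XT.nd (nat_lit 78) (nat_lit 0) (nat_lit 0) (XT.lf (nat_lit 0) (nat_lit 35859617048) (nat_lit 152) (nat_lit 580381257037) (nat_lit 0) (nat_lit 34576235181) (nat_lit 1) (nat_lit 5) (nat_lit 3) (nat_lit 4) (nat_lit 1) (nat_lit 4) (nat_lit 478) (nat_lit 292) (nat_lit 250)) (XT.nd (nat_lit 78) (nat_lit 0) (nat_lit 0) (XT.lf (nat_lit 0) (nat_lit 39853620361) (nat_lit 152) (nat_lit 604829344195) (nat_lit 0) (nat_lit 38561200169) (nat_lit 1) (nat_lit 5) (nat_lit 3) (nat_lit 4) (nat_lit 1) (nat_lit 4) (nat_lit 479) (nat_lit 292) (nat_lit 249)) (XT.lf (nat_lit 0) (nat_lit 44025553298) (nat_lit 152) (nat_lit 630543583638) (nat_lit 0) (nat_lit 42724525178) (nat_lit 1) (nat_lit 5) (nat_lit 3) (nat_lit 4) (nat_lit 1) (nat_lit 4) (nat_lit 480) (nat_lit 292) (nat_lit 248)))) (XT.nd (nat_lit 156) (nat_lit 0) (nat_lit 0) (XT.nd (nat_lit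 78) (nat_lit 0) (nat_lit 0) (XT.lf (nat_lit 0) (nat_lit 48385349032) (nat_lit 152) (nat_lit 657585199747) (nat_lit 0) (nat_lit 47076122886) (nat_lit 1) (nat_lit 5) (nat_lit 3) (nat_lit 4) (nat_lit 1) (nat_lit 4) (nat_lit 481) (nat_lit 292) (nat_lit 247)) (XT.lf (nat_lit 0) (nat_lit 52943388031) (nat_lit 152) (nat_lit 686018577321) (nat_lit 0) (nat_lit 51626354240) (nat_lit 1) (nat_lit 5) (nat_lit 3) (nat_lit 4) (nat_lit 1) (nat_lit 4) (nat_lit 482) (nat_lit 292) (nat_lit 246))) (XT.nd (nat_lit 78) (nat_lit 0) (nat_lit 0) (XT.lf (nat_lit 0) (nat_lit 57710522768) (nat_lit 152) (nat_lit 715911414880) (nat_lit 0) (nat_lit 56386053125) (nat_lit 1) (nat_lit 5) (nat_lit 3) (nat_lit 4) (nat_lit 1) (nat_lit 4) (nat_lit 483) (nat_lit 292) (nat_lit 245)) (XT.lf (nat_lit 0) (nat_lit 62698103563) (nat_lit 152) (nat_lit 747334885844) (nat_lit 0) (nat_lit 61366552156) (nat_lit 1) (nat_lit 5) (nat_lit 3)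 (nat_lit 4) (nat_lit 1) (nat_lit 4) (nat_lit 484) (nat_lit 292) (nat_lit 244))))) (XT.nd (nat_lit 49296) (nat_lit 0) (nat_lit 228) (XT.nd (nat_lit 49140) (nat_lit 0) (nat_lit 228) (XT.lf (nat_lit 0) (nat_lit 67918005609) (nat_lit 152) (nat_lit 780363808004) (nat_lit 0) (nat_lit 66579709666) (nat_lit 1) (nat_lit 5) (nat_lit 3) (nat_lit 4) (nat_lit 1) (nat_lit 4) (nat_lit 485) (nat_lit 292) (nat_lit 243)) (XT.nd (nat_lit 78) (nat_lit 0) (nat_lit 0) (XT.lf (nat_lit 0) (nat_lit 7651523287) (nat_lit 152) (nat_lit 24390616296) (nat_lit 0) (nat_lit 7651523287) (nat_lit 4) (nat_lit 5) (nat_lit 6) (nat_lit 4) (nat_lit 4) (nat_lit 4) (nat_lit 434) (nat_lit 293) (nat_lit 293)) (XT.lf (nat_lit 0) (nat_lit 21107964560) (nat_lit 152) (nat_lit 40961885024) (nat_lit 0) (nat_lit 21030622260) (nat_lit 4) (nat_lit 5) (nat_lit 6) (nat_lit 4) (nat_lit 4) (nat_lit 4) (nat_lit 435) (nat_lit 293) (nat_lit 292))))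 (XT.nd (nat_lit 156) (nat_lit 0) (nat_lit 0) (XT.nd (nat_lit 78) (nat_lit 0) (nat_lit 0) (XT.lf (nat_lit 0) (nat_lit 27041868861) (nat_lit 152) (nat_lit 33074607540) (nat_lit 0) (nat_lit 26890867227) (nat_lit 4) (nat_lit 5) (nat_lit 6) (nat_lit 4) (nat_lit 4) (nat_lit 4) (nat_lit 436) (nat_lit 293) (nat_lit 291)) (XT.lf (nat_lit 0) (nat_lit 33118887821) (nat_lit 152) (nat_lit 25100620909) (nat_lit 0) (nat_lit 32897734440) (nat_lit 4) (nat_lit 5) (nat_lit 6) (nat_lit 4) (nat_lit 4) (nat_lit 4) (nat_lit 437) (nat_lit 293) (nat_lit 290))) (XT.nd (nat_lit 78) (nat_lit 0) (nat_lit 0) (XT.lf (nat_lit 0) (nat_lit 39353490533) (nat_lit 152) (nat_lit 17020939447) (nat_lit 0) (nat_lit 39065525964) (nat_lit 4) (nat_lit 5) (nat_lit 6) (nat_lit 4) (nat_lit 4) (nat_lit 4) (nat_lit 438) (nat_lit 293) (nat_lit 289)) (XT.lf (nat_lit 0) (nat_lit 45760521289) (nat_lit 152) (nat_lit 8816325819) (nat_lit 0) (nat_lit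 45408927018) (nat_lit 4) (nat_lit 5) (nat_lit 6) (nat_lit 4) (nat_lit 4) (nat_lit 4) (nat_lit 439) (nat_lit 293) (nat_lit 288))))))) (XT.nd (nat_lit 1014) (nat_lit 0) (nat_lit 0) (XT.nd (nat_lit 468) (nat_lit 0) (nat_lit 0) (XT.nd (nat_lit 234) (nat_lit 0) (nat_lit 0) (XT.nd (nat_lit 78) (nat_lit 76) (nat_lit 0) (XT.lf (nat_lit 0) (nat_lit 52355234924) (nat_lit 152) (nat_lit 467245230) (nat_lit 0) (nat_lit 51943040937) (nat_lit 4) (nat_lit 5) (nat_lit 6) (nat_lit 4) (nat_lit 4) (nat_lit 4) (nat_lit 440) (nat_lit 293) (nat_lit 287)) (XT.nd (nat_lit 78) (nat_lit 0) (nat_lit 0) (XT.lf (nat_lit 0) (nat_lit 8312224166) (nat_lit 76) (nat_lit 50970886086) (nat_lit 76) (nat_lit 50500978083) (nat_lit 3) (nat_lit 4) (nat_lit 4) (nat_lit 5) (nat_lit 4) (nat_lit 4) (nat_lit 441) (nat_lit 293) (nat_lit 286)) (XT.lf (nat_lit 0) (nat_lit 17297862819) (nat_lit 76) (nat_lit 49143207174) (nat_lit 76) (nat_lit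 48618333442) (nat_lit 3) (nat_lit 4) (nat_lit 4) (nat_lit 5) (nat_lit 4) (nat_lit 4) (nat_lit 442) (nat_lit 293) (nat_lit 285)))) (XT.nd (nat_lit 78) (nat_lit 0) (nat_lit 0) (XT.lf (nat_lit 0) (nat_lit 26495615869) (nat_lit 76) (nat_lit 47343004828) (nat_lit 76) (nat_lit 46765782782) (nat_lit 3) (nat_lit 4) (nat_lit 4) (nat_lit 5) (nat_lit 4) (nat_lit 4) (nat_lit 443) (nat_lit 293) (nat_lit 284)) (XT.nd (nat_lit 78) (nat_lit 0) (nat_lit 0) (XT.lf (nat_lit 0) (nat_lit 35927382727) (nat_lit 76) (nat_lit 45565992851) (nat_lit 76) (nat_lit 44938915269) (nat_lit 3) (nat_lit 4) (nat_lit 4) (nat_lit 5) (nat_lit 4) (nat_lit 4) (nat_lit 444) (nat_lit 293) (nat_lit 283)) (XT.lf (nat_lit 0) (nat_lit 45615619981) (nat_lit 76) (nat_lit 43807940263) (nat_lit 76) (nat_lit 43133381217) (nat_lit 3) (nat_lit 4) (nat_lit 4) (nat_lit 5) (nat_lit 4) (nat_lit 4) (nat_lit 445) (nat_lit 293) (nat_lit 282))))) (XT.nd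 (nat_lit 234) (nat_lit 0) (nat_lit 0) (XT.nd (nat_lit 78) (nat_lit 0) (nat_lit 0) (XT.lf (nat_lit 0) (nat_lit 55583394862) (nat_lit 76) (nat_lit 42064661224) (nat_lit 76) (nat_lit 41344881736) (nat_lit 3) (nat_lit 4) (nat_lit 4) (nat_lit 5) (nat_lit 4) (nat_lit 4) (nat_lit 446) (nat_lit 293) (nat_lit 281)) (XT.nd (nat_lit 78) (nat_lit 0) (nat_lit 0) (XT.lf (nat_lit 0) (nat_lit 65854440169) (nat_lit 76) (nat_lit 40332005069) (nat_lit 76) (nat_lit 39569158494) (nat_lit 3) (nat_lit 4) (nat_lit 4) (nat_lit 5) (nat_lit 4) (nat_lit 4) (nat_lit 447) (nat_lit 293) (nat_lit 280)) (XT.lf (nat_lit 0) (nat_lit 76453210770) (nat_lit 76) (nat_lit 38605846427) (nat_lit 76) (nat_lit 37801983579) (nat_lit 3) (nat_lit 4) (nat_lit 4) (nat_lit 5) (nat_lit 4) (nat_lit 4) (nat_lit 448) (nat_lit 293) (nat_lit 279)))) (XT.nd (nat_lit 156) (nat_lit 0) (nat_lit 0) (XT.nd (nat_lit 78) (nat_lit 0) (nat_lit 0) (XT.lf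 (nat_lit 0) (nat_lit 87404941834) (nat_lit 76) (nat_lit 36882075396) (nat_lit 76) (nat_lit 36039149431) (nat_lit 3) (nat_lit 4) (nat_lit 4) (nat_lit 5) (nat_lit 4) (nat_lit 4) (nat_lit 449) (nat_lit 293) (nat_lit 278)) (XT.lf (nat_lit 0) (nat_lit 98735708912) (nat_lit 76) (nat_lit 35156587760) (nat_lit 76) (nat_lit 34276458826) (nat_lit 3) (nat_lit 4) (nat_lit 4) (nat_lit 5) (nat_lit 4) (nat_lit 4) (nat_lit 450) (nat_lit 293) (nat_lit 277))) (XT.nd (nat_lit 78) (nat_lit 0) (nat_lit 0) (XT.lf (nat_lit 0) (nat_lit 110472490019) (nat_lit 76) (nat_lit 33425275215) (nat_lit 76) (nat_lit 32509714881) (nat_lit 3) (nat_lit 4) (nat_lit 4) (nat_lit 5) (nat_lit 4) (nat_lit 4) (nat_lit 451) (nat_lit 293) (nat_lit 276)) (XT.lf (nat_lit 0) (nat_lit 122643229873) (nat_lit 76) (nat_lit 31684015587) (nat_lit 76) (nat_lit 30734711064) (nat_lit 3) (nat_lit 4) (nat_lit 4) (nat_lit 5) (nat_lit 4) (nat_lit 4)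 (nat_lit 452) (nat_lit 293) (nat_lit 275)))))) (XT.nd (nat_lit 546) (nat_lit 0) (nat_lit 0) (XT.nd (nat_lit 234) (nat_lit 0) (nat_lit 0) (XT.nd (nat_lit 78) (nat_lit 0) (nat_lit 0) (XT.lf (nat_lit 0) (nat_lit 135276906425) (nat_lit 76) (nat_lit 29928663022) (nat_lit 76) (nat_lit 28947221175) (nat_lit 3) (nat_lit 4) (nat_lit 4) (nat_lit 5) (nat_lit 4) (nat_lit 4) (nat_lit 453) (nat_lit 293) (nat_lit 274)) (XT.nd (nat_lit 78) (nat_lit 0) (nat_lit 0) (XT.lf (nat_lit 0) (nat_lit 148403599859) (nat_lit 76) (nat_lit 28155038107) (nat_lit 76) (nat_lit 27142989285) (nat_lit 3) (nat_lit 4) (nat_lit 4) (nat_lit 5) (nat_lit 4) (nat_lit 4) (nat_lit 454) (nat_lit 293) (nat_lit 273)) (XT.lf (nat_lit 0) (nat_lit 162054564206) (nat_lit 76) (nat_lit 26358917926) (nat_lit 76) (nat_lit 25317719605) (nat_lit 3) (nat_lit 4) (nat_lit 4) (nat_lit 5) (nat_lit 4) (nat_lit 4) (nat_lit 455) (nat_lit 293) (nat_lit 272))))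 (XT.nd (nat_lit 156) (nat_lit 0) (nat_lit 0) (XT.nd (nat_lit 78) (nat_lit 0) (nat_lit 0) (XT.lf (nat_lit 0) (nat_lit 176262301761) (nat_lit 76) (nat_lit 24536026003) (nat_lit 76) (nat_lit 23467066254) (nat_lit 3) (nat_lit 4) (nat_lit 4) (nat_lit 5) (nat_lit 4) (nat_lit 4) (nat_lit 456) (nat_lit 293) (nat_lit 271)) (XT.lf (nat_lit 0) (nat_lit 191060640473) (nat_lit 76) (nat_lit 22682022119) (nat_lit 76) (nat_lit 21586622914) (nat_lit 3) (nat_lit 4) (nat_lit 4) (nat_lit 5) (nat_lit 4) (nat_lit 4) (nat_lit 457) (nat_lit 293) (nat_lit 270))) (XT.nd (nat_lit 78) (nat_lit 0) (nat_lit 0) (XT.lf (nat_lit 0) (nat_lit 206484814480) (nat_lit 76) (nat_lit 20792491979) (nat_lit 76) (nat_lit 19671912340) (nat_lit 3) (nat_lit 4) (nat_lit 4) (nat_lit 5) (nat_lit 4) (nat_lit 4) (nat_lit 458) (nat_lit 293) (nat_lit 269)) (XT.lf (nat_lit 0) (nat_lit 222571548006) (nat_lit 76) (nat_lit 18862936701) (nat_lit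 76) (nat_lit 17718375697) (nat_lit 3) (nat_lit 4) (nat_lit 4) (nat_lit 5) (nat_lit 4) (nat_lit 4) (nat_lit 459) (nat_lit 293) (nat_lit 268))))) (XT.nd (nat_lit 234) (nat_lit 0) (nat_lit 0) (XT.nd (nat_lit 78) (nat_lit 0) (nat_lit 0) (XT.lf (nat_lit 0) (nat_lit 239359142799) (nat_lit 76) (nat_lit 16888762107) (nat_lit 76) (nat_lit 15721361707) (nat_lit 3) (nat_lit 4) (nat_lit 4) (nat_lit 5) (nat_lit 4) (nat_lit 4) (nat_lit 460) (nat_lit 293) (nat_lit 267)) (XT.nd (nat_lit 78) (nat_lit 0) (nat_lit 0) (XT.lf (nat_lit 0) (nat_lit 256887569320) (nat_lit 76) (nat_lit 14865267780) (nat_lit 76) (nat_lit 13676115575) (nat_lit 3) (nat_lit 4) (nat_lit 4) (nat_lit 5) (nat_lit 4) (nat_lit 4) (nat_lit 461) (nat_lit 293) (nat_lit 266)) (XT.lf (nat_lit 0) (nat_lit 275198561920) (nat_lit 76) (nat_lit 12787635877) (nat_lit 76) (nat_lit 11577767667) (nat_lit 3) (nat_lit 4) (nat_lit 4) (nat_lit 5) (nat_lit 4)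 (nat_lit 4) (nat_lit 462) (nat_lit 293) (nat_lit 265)))) (XT.nd (nat_lit 156) (nat_lit 0) (nat_lit 0) (XT.nd (nat_lit 78) (nat_lit 0) (nat_lit 0) (XT.lf (nat_lit 0) (nat_lit 294335718200) (nat_lit 76) (nat_lit 10650919656) (nat_lit 76) (nat_lit 9421321917) (nat_lit 3) (nat_lit 4) (nat_lit 4) (nat_lit 5) (nat_lit 4) (nat_lit 4) (nat_lit 463) (nat_lit 293) (nat_lit 264)) (XT.lf (nat_lit 0) (nat_lit 314344602818) (nat_lit 76) (nat_lit 8450031697) (nat_lit 76) (nat_lit 7201643930) (nat_lit 3) (nat_lit 4) (nat_lit 4) (nat_lit 5) (nat_lit 4) (nat_lit 4) (nat_lit 464) (nat_lit 293) (nat_lit 263))) (XT.nd (nat_lit 78) (nat_lit 0) (nat_lit 0) (XT.lf (nat_lit 0) (nat_lit 335272855975) (nat_lit 76) (nat_lit 6179731790) (nat_lit 76) (nat_lit 4913448759) (nat_lit 3) (nat_lit 4) (nat_lit 4) (nat_lit 5) (nat_lit 4) (nat_lit 4) (nat_lit 465) (nat_lit 293) (nat_lit 262)) (XT.lf (nat_lit 0) (nat_lit 357170306845)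 (nat_lit 76) (nat_lit 3834614460) (nat_lit 76) (nat_lit 2551288320) (nat_lit 3) (nat_lit 4) (nat_lit 4) (nat_lit 5) (nat_lit 4) (nat_lit 4) (nat_lit 466) (nat_lit 293) (nat_lit 261))))))))
noncomputable def xc13 : XT := (XT.nd (nat_lit 51012) (nat_lit 0) (nat_lit 152) (XT.nd (nat_lit 1014) (nat_lit 0) (nat_lit 0) (XT.nd (nat_lit 468) (nat_lit 0) (nat_lit 0) (XT.nd (nat_lit 234) (nat_lit 0) (nat_lit 0) (XT.nd (nat_lit 78) (nat_lit 152) (nat_lit 0) (XT.lf (nat_lit 0) (nat_lit 380089092216) (nat_lit 76) (nat_lit 1409096093) (nat_lit 76) (nat_lit 109538421) (nat_lit 3) (nat_lit 4) (nat_lit 4) (nat_lit 5) (nat_lit 4) (nat_lit 4) (nat_lit 467) (nat_lit 293) (nat_lit 260)) (XT.nd (nat_lit 78) (nat_lit 0) (nat_lit 0) (XT.lf (nat_lit 0) (nat_lit 2415158921) (nat_lit 152) (nat_lit 396980012814) (nat_lit 0) (nat_lit 1162762469) (nat_lit 1) (nat_lit 5) (nat_lit 3) (nat_lit 4) (nat_lit 1) (nat_lit 4)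 (nat_lit 468) (nat_lit 293) (nat_lit 259)) (XT.lf (nat_lit 0) (nat_lit 5076188369) (nat_lit 152) (nat_lit 411568915492) (nat_lit 0) (nat_lit 3809770510) (nat_lit 1) (nat_lit 5) (nat_lit 3) (nat_lit 4) (nat_lit 1) (nat_lit 4) (nat_lit 469) (nat_lit 293) (nat_lit 258)))) (XT.nd (nat_lit 78) (nat_lit 0) (nat_lit 0) (XT.lf (nat_lit 0) (nat_lit 7836496035) (nat_lit 152) (nat_lit 426955130698) (nat_lit 0) (nat_lit 6556724454) (nat_lit 1) (nat_lit 5) (nat_lit 3) (nat_lit 4) (nat_lit 1) (nat_lit 4) (nat_lit 470) (nat_lit 293) (nat_lit 257)) (XT.nd (nat_lit 78) (nat_lit 0) (nat_lit 0) (XT.lf (nat_lit 0) (nat_lit 10702654079) (nat_lit 152) (nat_lit 443175292280) (nat_lit 0) (nat_lit 9410164668) (nat_lit 1) (nat_lit 5) (nat_lit 3) (nat_lit 4) (nat_lit 1) (nat_lit 4) (nat_lit 471) (nat_lit 293) (nat_lit 256)) (XT.lf (nat_lit 0) (nat_lit 13681486688) (nat_lit 152) (nat_lit 460268019668) (nat_lit 0) (nat_lit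 12376885058) (nat_lit 1) (nat_lit 5) (nat_lit 3) (nat_lit 4) (nat_lit 1) (nat_lit 4) (nat_lit 472) (nat_lit 293) (nat_lit 255))))) (XT.nd (nat_lit 234) (nat_lit 0) (nat_lit 0) (XT.nd (nat_lit 78) (nat_lit 0) (nat_lit 0) (XT.lf (nat_lit 0) (nat_lit 16780086320) (nat_lit 152) (nat_lit 478274009833) (nat_lit 0) (nat_lit 15463949242) (nat_lit 1) (nat_lit 5) (nat_lit 3) (nat_lit 4) (nat_lit 1) (nat_lit 4) (nat_lit 473) (nat_lit 293) (nat_lit 254)) (XT.nd (nat_lit 78) (nat_lit 0) (nat_lit 0) (XT.lf (nat_lit 0) (nat_lit 20005830592) (nat_lit 152) (nat_lit 497236134180) (nat_lit 0) (nat_lit 18678707375) (nat_lit 1) (nat_lit 5) (nat_lit 3) (nat_lit 4) (nat_lit 1) (nat_lit 4) (nat_lit 474) (nat_lit 293) (nat_lit 253)) (XT.lf (nat_lit 0) (nat_lit 23366399850) (nat_lit 152) (nat_lit 517199540624) (nat_lit 0) (nat_lit 22028813642) (nat_lit 1) (nat_lit 5) (nat_lit 3) (nat_lit 4) (nat_lit 1) (nat_lit 4)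 (nat_lit 475) (nat_lit 293) (nat_lit 252)))) (XT.nd (nat_lit 156) (nat_lit 0) (nat_lit 0) (XT.nd (nat_lit 78) (nat_lit 0) (nat_lit 0) (XT.lf (nat_lit 0) (nat_lit 26869795447) (nat_lit 152) (nat_lit 538211761086) (nat_lit 0) (nat_lit 25522244487) (nat_lit 1) (nat_lit 5) (nat_lit 3) (nat_lit 4) (nat_lit 1) (nat_lit 4) (nat_lit 476) (nat_lit 293) (nat_lit 251)) (XT.lf (nat_lit 0) (nat_lit 30524358802) (nat_lit 152) (nat_lit 560322824661) (nat_lit 0) (nat_lit 29167317601) (nat_lit 1) (nat_lit 5) (nat_lit 3) (nat_lit 4) (nat_lit 1) (nat_lit 4) (nat_lit 477) (nat_lit 293) (nat_lit 250))) (XT.nd (nat_lit 78) (nat_lit 0) (nat_lit 0) (XT.lf (nat_lit 0) (nat_lit 34338791257) (nat_lit 152) (nat_lit 583585376739) (nat_lit 0) (nat_lit 32972711732) (nat_lit 1) (nat_lit 5) (nat_lit 3) (nat_lit 4) (nat_lit 1) (nat_lit 4) (nat_lit 478) (nat_lit 293) (nat_lit 249)) (XT.lf (nat_lit 0) (nat_lit 38322174793)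 (nat_lit 152) (nat_lit 608054804350) (nat_lit 0) (nat_lit 36947487340) (nat_lit 1) (nat_lit 5) (nat_lit 3) (nat_lit 4) (nat_lit 1) (nat_lit 4) (nat_lit 479) (nat_lit 293) (nat_lit 248)))))) (XT.nd (nat_lit 49452) (nat_lit 0) (nat_lit 228) (XT.nd (nat_lit 234) (nat_lit 0) (nat_lit 0) (XT.nd (nat_lit 78) (nat_lit 0) (nat_lit 0) (XT.lf (nat_lit 0) (nat_lit 42483993658) (nat_lit 152) (nat_lit 633789368033) (nat_lit 0) (nat_lit 41101108177) (nat_lit 1) (nat_lit 5) (nat_lit 3) (nat_lit 4) (nat_lit 1) (nat_lit 4) (nat_lit 480) (nat_lit 293) (nat_lit 247)) (XT.nd (nat_lit 78) (nat_lit 0) (nat_lit 0) (XT.lf (nat_lit 0) (nat_lit 46834156942) (nat_lit 152) (nat_lit 660850340562) (nat_lit 0) (nat_lit 45443463817) (nat_lit 1) (nat_lit 5) (nat_lit 3) (nat_lit 4) (nat_lit 1) (nat_lit 4) (nat_lit 481) (nat_lit 293) (nat_lit 246)) (XT.lf (nat_lit 0) (nat_lit 51383022179) (nat_lit 152) (nat_lit 689302152822)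 (nat_lit 0) (nat_lit 49984893202) (nat_lit 1) (nat_lit 5) (nat_lit 3) (nat_lit 4) (nat_lit 1) (nat_lit 4) (nat_lit 482) (nat_lit 293) (nat_lit 245)))) (XT.nd (nat_lit 156) (nat_lit 0) (nat_lit 0) (XT.nd (nat_lit 78) (nat_lit 0) (nat_lit 0) (XT.lf (nat_lit 0) (nat_lit 56141419999) (nat_lit 152) (nat_lit 719212547223) (nat_lit 0) (nat_lit 54736209259) (nat_lit 1) (nat_lit 5) (nat_lit 3) (nat_lit 4) (nat_lit 1) (nat_lit 4) (nat_lit 483) (nat_lit 293) (nat_lit 244)) (XT.lf (nat_lit 0) (nat_lit 61120679922) (nat_lit 152) (nat_lit 750652738991) (nat_lit 0) (nat_lit 59708724645) (nat_lit 1) (nat_lit 5) (nat_lit 3) (nat_lit 4) (nat_lit 1) (nat_lit 4) (nat_lit 484) (nat_lit 293) (nat_lit 243))) (XT.nd (nat_lit 48984) (nat_lit 0) (nat_lit 228) (XT.lf (nat_lit 0) (nat_lit 66332657327) (nat_lit 152) (nat_lit 783697585724) (nat_lit 0) (nat_lit 64914278682) (nat_lit 1) (nat_lit 5) (nat_lit 3) (nat_lit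 4) (nat_lit 1) (nat_lit 4) (nat_lit 485) (nat_lit 293) (nat_lit 242)) (XT.lf (nat_lit 0) (nat_lit 2096547213) (nat_lit 152) (nat_lit 32058379714) (nat_lit 0) (nat_lit 2096547213) (nat_lit 4) (nat_lit 5) (nat_lit 6) (nat_lit 4) (nat_lit 4) (nat_lit 4) (nat_lit 432) (nat_lit 294) (nat_lit 294))))) (XT.nd (nat_lit 234) (nat_lit 0) (nat_lit 0) (XT.nd (nat_lit 78) (nat_lit 0) (nat_lit 0) (XT.lf (nat_lit 0) (nat_lit 9694503088) (nat_lit 152) (nat_lit 56551267742) (nat_lit 0) (nat_lit 9613293672) (nat_lit 4) (nat_lit 5) (nat_lit 6) (nat_lit 4) (nat_lit 4) (nat_lit 4) (nat_lit 433) (nat_lit 294) (nat_lit 293)) (XT.nd (nat_lit 78) (nat_lit 0) (nat_lit 0) (XT.lf (nat_lit 0) (nat_lit 15301659619) (nat_lit 152) (nat_lit 48946690806) (nat_lit 0) (nat_lit 15143107902) (nat_lit 4) (nat_lit 5) (nat_lit 6) (nat_lit 4) (nat_lit 4) (nat_lit 4) (nat_lit 434) (nat_lit 294) (nat_lit 292)) (XT.lf (nat_lit 0) (nat_lit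 21027914393) (nat_lit 152) (nat_lit 41284922488) (nat_lit 0) (nat_lit 20795703342) (nat_lit 4) (nat_lit 5) (nat_lit 6) (nat_lit 4) (nat_lit 4) (nat_lit 4) (nat_lit 435) (nat_lit 294) (nat_lit 291)))) (XT.nd (nat_lit 156) (nat_lit 0) (nat_lit 0) (XT.nd (nat_lit 78) (nat_lit 0) (nat_lit 0) (XT.lf (nat_lit 0) (nat_lit 26886901349) (nat_lit 152) (nat_lit 33547720480) (nat_lit 0) (nat_lit 26584538552) (nat_lit 4) (nat_lit 5) (nat_lit 6) (nat_lit 4) (nat_lit 4) (nat_lit 4) (nat_lit 436) (nat_lit 294) (nat_lit 290)) (XT.lf (nat_lit 0) (nat_lit 32892570457) (nat_lit 152) (nat_lit 25716662874) (nat_lit 0) (nat_lit 32523396473) (nat_lit 4) (nat_lit 5) (nat_lit 6) (nat_lit 4) (nat_lit 4) (nat_lit 4) (nat_lit 437) (nat_lit 294) (nat_lit 289))) (XT.nd (nat_lit 78) (nat_lit 0) (nat_lit 0) (XT.lf (nat_lit 0) (nat_lit 39059220929) (nat_lit 152) (nat_lit 17773104293) (nat_lit 0) (nat_lit 38626417243) (nat_lit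 4) (nat_lit 5) (nat_lit 6) (nat_lit 4) (nat_lit 4) (nat_lit 4) (nat_lit 438) (nat_lit 294) (nat_lit 288)) (XT.lf (nat_lit 0) (nat_lit 45401535267) (nat_lit 152) (nat_lit 9698131505) (nat_lit 0) (nat_lit 44908131863) (nat_lit 4) (nat_lit 5) (nat_lit 6) (nat_lit 4) (nat_lit 4) (nat_lit 4) (nat_lit 439) (nat_lit 294) (nat_lit 287))))))) (XT.nd (nat_lit 1014) (nat_lit 0) (nat_lit 0) (XT.nd (nat_lit 468) (nat_lit 0) (nat_lit 0) (XT.nd (nat_lit 234) (nat_lit 0) (nat_lit 0) (XT.nd (nat_lit 78) (nat_lit 76) (nat_lit 0) (XT.lf (nat_lit 0) (nat_lit 51934614217) (nat_lit 152) (nat_lit 1472518382) (nat_lit 0) (nat_lit 51383496798) (nat_lit 4) (nat_lit 5) (nat_lit 6) (nat_lit 4) (nat_lit 4) (nat_lit 4) (nat_lit 440) (nat_lit 294) (nat_lit 286)) (XT.nd (nat_lit 78) (nat_lit 0) (nat_lit 0) (XT.lf (nat_lit 0) (nat_lit 7152236089) (nat_lit 76) (nat_lit 51633443091) (nat_lit 76) (nat_lit 51027359943) (nat_lit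 3) (nat_lit 4) (nat_lit 4) (nat_lit 5) (nat_lit 4) (nat_lit 4) (nat_lit 441) (nat_lit 294) (nat_lit 285)) (XT.lf (nat_lit 0) (nat_lit 16022183261) (nat_lit 76) (nat_lit 49863744917) (nat_lit 76) (nat_lit 49205313455) (nat_lit 3) (nat_lit 4) (nat_lit 4) (nat_lit 5) (nat_lit 4) (nat_lit 4) (nat_lit 442) (nat_lit 294) (nat_lit 284)))) (XT.nd (nat_lit 78) (nat_lit 0) (nat_lit 0) (XT.lf (nat_lit 0) (nat_lit 25109753948) (nat_lit 76) (nat_lit 48118762320) (nat_lit 76) (nat_lit 47410475322) (nat_lit 3) (nat_lit 4) (nat_lit 4) (nat_lit 5) (nat_lit 4) (nat_lit 4) (nat_lit 443) (nat_lit 294) (nat_lit 283)) (XT.nd (nat_lit 78) (nat_lit 0) (nat_lit 0) (XT.lf (nat_lit 0) (nat_lit 34436585222) (nat_lit 76) (nat_lit 46394340581) (nat_lit 76) (nat_lit 45638572119) (nat_lit 3) (nat_lit 4) (nat_lit 4) (nat_lit 5) (nat_lit 4) (nat_lit 4) (nat_lit 444) (nat_lit 294) (nat_lit 282)) (XT.lf (nat_lit 0) (nat_lit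 44024883824) (nat_lit 76) (nat_lit 44686373933) (nat_lit 76) (nat_lit 43885385030) (nat_lit 3) (nat_lit 4) (nat_lit 4) (nat_lit 5) (nat_lit 4) (nat_lit 4) (nat_lit 445) (nat_lit 294) (nat_lit 281))))) (XT.nd (nat_lit 234) (nat_lit 0) (nat_lit 0) (XT.nd (nat_lit 78) (nat_lit 0) (nat_lit 0) (XT.lf (nat_lit 0) (nat_lit 53897479038) (nat_lit 76) (nat_lit 42990795790) (nat_lit 76) (nat_lit 42146739800) (nat_lit 3) (nat_lit 4) (nat_lit 4) (nat_lit 5) (nat_lit 4) (nat_lit 4) (nat_lit 446) (nat_lit 294) (nat_lit 280)) (XT.nd (nat_lit 78) (nat_lit 0) (nat_lit 0) (XT.lf (nat_lit 0) (nat_lit 64077877042) (nat_lit 76) (nat_lit 41303569060) (nat_lit 76) (nat_lit 40418496796) (nat_lit 3) (nat_lit 4) (nat_lit 4) (nat_lit 5) (nat_lit 4) (nat_lit 4) (nat_lit 447) (nat_lit 294) (nat_lit 279)) (XT.lf (nat_lit 0) (nat_lit 74590316879) (nat_lit 76) (nat_lit 39620676537) (nat_lit 76) (nat_lit 38696541156) (nat_lit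 3) (nat_lit 4) (nat_lit 4) (nat_lit 5) (nat_lit 4) (nat_lit 4) (nat_lit 448) (nat_lit 294) (nat_lit 278)))) (XT.nd (nat_lit 156) (nat_lit 0) (nat_lit 0) (XT.nd (nat_lit 78) (nat_lit 0) (nat_lit 0) (XT.lf (nat_lit 0) (nat_lit 85459828167) (nat_lit 76) (nat_lit 37938111334) (nat_lit 76) (nat_lit 36976772983) (nat_lit 3) (nat_lit 4) (nat_lit 4) (nat_lit 5) (nat_lit 4) (nat_lit 4) (nat_lit 449) (nat_lit 294) (nat_lit 277)) (XT.lf (nat_lit 0) (nat_lit 96712290696) (nat_lit 76) (nat_lit 36251867343) (nat_lit 76) (nat_lit 35255097593) (nat_lit 3) (nat_lit 4) (nat_lit 4) (nat_lit 5) (nat_lit 4) (nat_lit 4) (nat_lit 450) (nat_lit 294) (nat_lit 276))) (XT.nd (nat_lit 78) (nat_lit 0) (nat_lit 0) (XT.lf (nat_lit 0) (nat_lit 108374496043) (nat_lit 76) (nat_lit 34557929697) (nat_lit 76) (nat_lit 33527415758) (nat_lit 3) (nat_lit 4) (nat_lit 4) (nat_lit 5) (nat_lit 4) (nat_lit 4) (nat_lit 451) (nat_lit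 294) (nat_lit 275)) (XT.lf (nat_lit 0) (nat_lit 120474211363) (nat_lit 76) (nat_lit 32852265213) (nat_lit 76) (nat_lit 31789613950) (nat_lit 3) (nat_lit 4) (nat_lit 4) (nat_lit 5) (nat_lit 4) (nat_lit 4) (nat_lit 452) (nat_lit 294) (nat_lit 274)))))) (XT.nd (nat_lit 546) (nat_lit 0) (nat_lit 0) (XT.nd (nat_lit 234) (nat_lit 0) (nat_lit 0) (XT.nd (nat_lit 78) (nat_lit 0) (nat_lit 0) (XT.lf (nat_lit 0) (nat_lit 133040245503) (nat_lit 76) (nat_lit 31130812783) (nat_lit 76) (nat_lit 30037554546) (nat_lit 3) (nat_lit 4) (nat_lit 4) (nat_lit 5) (nat_lit 4) (nat_lit 4) (nat_lit 453) (nat_lit 294) (nat_lit 273)) (XT.nd (nat_lit 78) (nat_lit 0) (nat_lit 0) (XT.lf (nat_lit 0) (nat_lit 146102517591) (nat_lit 76) (nat_lit 29389473712) (nat_lit 76) (nat_lit 28267065975) (nat_lit 3) (nat_lit 4) (nat_lit 4) (nat_lit 5) (nat_lit 4) (nat_lit 4) (nat_lit 454) (nat_lit 294) (nat_lit 272)) (XT.lf (nat_lit 0)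 (nat_lit 159692128275) (nat_lit 76) (nat_lit 27624101954) (nat_lit 76) (nat_lit 26473932789) (nat_lit 3) (nat_lit 4) (nat_lit 4) (nat_lit 5) (nat_lit 4) (nat_lit 4) (nat_lit 455) (nat_lit 294) (nat_lit 271)))) (XT.nd (nat_lit 156) (nat_lit 0) (nat_lit 0) (XT.nd (nat_lit 78) (nat_lit 0) (nat_lit 0) (XT.lf (nat_lit 0) (nat_lit 173841433772) (nat_lit 76) (nat_lit 25830494243) (nat_lit 76) (nat_lit 24653885623) (nat_lit 3) (nat_lit 4) (nat_lit 4) (nat_lit 5) (nat_lit 4) (nat_lit 4) (nat_lit 456) (nat_lit 294) (nat_lit 270)) (XT.lf (nat_lit 0) (nat_lit 188584122903) (nat_lit 76) (nat_lit 24004380085) (nat_lit 76) (nat_lit 22802591031) (nat_lit 3) (nat_lit 4) (nat_lit 4) (nat_lit 5) (nat_lit 4) (nat_lit 4) (nat_lit 457) (nat_lit 294) (nat_lit 269))) (XT.nd (nat_lit 78) (nat_lit 0) (nat_lit 0) (XT.lf (nat_lit 0) (nat_lit 203955297309) (nat_lit 76) (nat_lit 22141411589) (nat_lit 76) (nat_lit 20915641169)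 (nat_lit 3) (nat_lit 4) (nat_lit 4) (nat_lit 5) (nat_lit 4) (nat_lit 4) (nat_lit 458) (nat_lit 294) (nat_lit 268)) (XT.lf (nat_lit 0) (nat_lit 219991555025) (nat_lit 76) (nat_lit 20237153115) (nat_lit 76) (nat_lit 18988543299) (nat_lit 3) (nat_lit 4) (nat_lit 4) (nat_lit 5) (nat_lit 4) (nat_lit 4) (nat_lit 459) (nat_lit 294) (nat_lit 267))))) (XT.nd (nat_lit 234) (nat_lit 0) (nat_lit 0) (XT.nd (nat_lit 78) (nat_lit 0) (nat_lit 0) (XT.lf (nat_lit 0) (nat_lit 236731077618) (nat_lit 76) (nat_lit 18287070714) (nat_lit 76) (nat_lit 17016709093) (nat_lit 3) (nat_lit 4) (nat_lit 4) (nat_lit 5) (nat_lit 4) (nat_lit 4) (nat_lit 460) (nat_lit 294) (nat_lit 266)) (XT.nd (nat_lit 78) (nat_lit 0) (nat_lit 0) (XT.lf (nat_lit 0) (nat_lit 254213721092) (nat_lit 76) (nat_lit 16286521334) (nat_lit 76) (nat_lit 14995443707) (nat_lit 3) (nat_lit 4) (nat_lit 4) (nat_lit 5) (nat_lit 4) (nat_lit 4) (nat_lit 461)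 (nat_lit 294) (nat_lit 265)) (XT.lf (nat_lit 0) (nat_lit 272481110789) (nat_lit 76) (nat_lit 14230741761) (nat_lit 76) (nat_lit 12919934606) (nat_lit 3) (nat_lit 4) (nat_lit 4) (nat_lit 5) (nat_lit 4) (nat_lit 4) (nat_lit 462) (nat_lit 294) (nat_lit 264)))) (XT.nd (nat_lit 156) (nat_lit 0) (nat_lit 0) (XT.nd (nat_lit 78) (nat_lit 0) (nat_lit 0) (XT.lf (nat_lit 0) (nat_lit 291576740495) (nat_lit 76) (nat_lit 12114837283) (nat_lit 76) (nat_lit 10785240100) (nat_lit 3) (nat_lit 4) (nat_lit 4) (nat_lit 5) (nat_lit 4) (nat_lit 4) (nat_lit 463) (nat_lit 294) (nat_lit 263)) (XT.lf (nat_lit 0) (nat_lit 311546075995) (nat_lit 76) (nat_lit 9933770031) (nat_lit 76) (nat_lit 8586277584) (nat_lit 3) (nat_lit 4) (nat_lit 4) (nat_lit 5) (nat_lit 4) (nat_lit 4) (nat_lit 464) (nat_lit 294) (nat_lit 262))) (XT.nd (nat_lit 78) (nat_lit 0) (nat_lit 0) (XT.lf (nat_lit 0) (nat_lit 332436663325) (nat_lit 76) (nat_lit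 7682346989) (nat_lit 76) (nat_lit 6317811433) (nat_lit 3) (nat_lit 4) (nat_lit 4) (nat_lit 5) (nat_lit 4) (nat_lit 4) (nat_lit 465) (nat_lit 294) (nat_lit 261)) (XT.lf (nat_lit 0) (nat_lit 354298241980) (nat_lit 76) (nat_lit 5355207624) (nat_lit 76) (nat_lit 3974440536) (nat_lit 3) (nat_lit 4) (nat_lit 4) (nat_lit 5) (nat_lit 4) (nat_lit 4) (nat_lit 466) (nat_lit 294) (nat_lit 260))))))))
noncomputable def xc14 : XT := (XT.nd (nat_lit 50856) (nat_lit 0) (nat_lit 152) (XT.nd (nat_lit 1014) (nat_lit 0) (nat_lit 0) (XT.nd (nat_lit 468) (nat_lit 0) (nat_lit 0) (XT.nd (nat_lit 234) (nat_lit 0) (nat_lit 0) (XT.nd (nat_lit 78) (nat_lit 152) (nat_lit 0) (XT.lf (nat_lit 0) (nat_lit 377182863336) (nat_lit 76) (nat_lit 2946811130) (nat_lit 76) (nat_lit 1550585440) (nat_lit 3) (nat_lit 4) (nat_lit 4) (nat_lit 5) (nat_lit 4) (nat_lit 4) (nat_lit 467) (nat_lit 294) (nat_lit 259)) (XT.nd (nat_lit 78) (nat_lit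 0) (nat_lit 0) (XT.lf (nat_lit 0) (nat_lit 509425639) (nat_lit 76) (nat_lit 427342071) (nat_lit 152) (nat_lit 399698998445) (nat_lit 1) (nat_lit 5) (nat_lit 2) (nat_lit 5) (nat_lit 3) (nat_lit 4) (nat_lit 468) (nat_lit 294) (nat_lit 258)) (XT.lf (nat_lit 0) (nat_lit 3574650393) (nat_lit 152) (nat_lit 414741677233) (nat_lit 0) (nat_lit 2217536511) (nat_lit 1) (nat_lit 5) (nat_lit 3) (nat_lit 4) (nat_lit 1) (nat_lit 4) (nat_lit 469) (nat_lit 294) (nat_lit 257)))) (XT.nd (nat_lit 78) (nat_lit 0) (nat_lit 0) (XT.lf (nat_lit 0) (nat_lit 6319267813) (nat_lit 152) (nat_lit 430159422008) (nat_lit 0) (nat_lit 4949436101) (nat_lit 1) (nat_lit 5) (nat_lit 3) (nat_lit 4) (nat_lit 1) (nat_lit 4) (nat_lit 470) (nat_lit 294) (nat_lit 256)) (XT.nd (nat_lit 78) (nat_lit 0) (nat_lit 0) (XT.lf (nat_lit 0) (nat_lit 9170482765) (nat_lit 152) (nat_lit 446409611749) (nat_lit 0) (nat_lit 7788538834) (nat_lit 1)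 (nat_lit 5) (nat_lit 3) (nat_lit 4) (nat_lit 1) (nat_lit 4) (nat_lit 471) (nat_lit 294) (nat_lit 255)) (XT.lf (nat_lit 0) (nat_lit 12135083858) (nat_lit 152) (nat_lit 463530937384) (nat_lit 0) (nat_lit 10741604480) (nat_lit 1) (nat_lit 5) (nat_lit 3) (nat_lit 4) (nat_lit 1) (nat_lit 4) (nat_lit 472) (nat_lit 294) (nat_lit 254))))) (XT.nd (nat_lit 234) (nat_lit 0) (nat_lit 0) (XT.nd (nat_lit 78) (nat_lit 0) (nat_lit 0) (XT.lf (nat_lit 0) (nat_lit 15220129665) (nat_lit 152) (nat_lit 481564163976) (nat_lit 0) (nat_lit 13815664147) (nat_lit 1) (nat_lit 5) (nat_lit 3) (nat_lit 4) (nat_lit 1) (nat_lit 4) (nat_lit 473) (nat_lit 294) (nat_lit 253)) (XT.nd (nat_lit 78) (nat_lit 0) (nat_lit 0) (XT.lf (nat_lit 0) (nat_lit 18432965534) (nat_lit 152) (nat_lit 500552227776) (nat_lit 0) (nat_lit 17018037025) (nat_lit 1) (nat_lit 5) (nat_lit 3) (nat_lit 4) (nat_lit 1) (nat_lit 4) (nat_lit 474) (nat_lit 294)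 (nat_lit 252)) (XT.lf (nat_lit 0) (nat_lit 21781241072) (nat_lit 152) (nat_lit 520540338462) (nat_lit 0) (nat_lit 20356347811) (nat_lit 1) (nat_lit 5) (nat_lit 3) (nat_lit 4) (nat_lit 1) (nat_lit 4) (nat_lit 475) (nat_lit 294) (nat_lit 251)))) (XT.nd (nat_lit 156) (nat_lit 0) (nat_lit 0) (XT.nd (nat_lit 78) (nat_lit 0) (nat_lit 0) (XT.lf (nat_lit 0) (nat_lit 25272928366) (nat_lit 152) (nat_lit 541576086773) (nat_lit 0) (nat_lit 23838544865) (nat_lit 1) (nat_lit 5) (nat_lit 3) (nat_lit 4) (nat_lit 1) (nat_lit 4) (nat_lit 476) (nat_lit 294) (nat_lit 250)) (XT.lf (nat_lit 0) (nat_lit 28916340957) (nat_lit 152) (nat_lit 563709557823) (nat_lit 0) (nat_lit 27472919131) (nat_lit 1) (nat_lit 5) (nat_lit 3) (nat_lit 4) (nat_lit 1) (nat_lit 4) (nat_lit 477) (nat_lit 294) (nat_lit 249))) (XT.nd (nat_lit 78) (nat_lit 0) (nat_lit 0) (XT.lf (nat_lit 0) (nat_lit 32720153635) (nat_lit 152) (nat_lit 586993450354)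 (nat_lit 0) (nat_lit 31268123881) (nat_lit 1) (nat_lit 5) (nat_lit 3) (nat_lit 4) (nat_lit 1) (nat_lit 4) (nat_lit 478) (nat_lit 294) (nat_lit 248)) (XT.lf (nat_lit 0) (nat_lit 36693423099) (nat_lit 152) (nat_lit 611483202205) (nat_lit 0) (nat_lit 35233195318) (nat_lit 1) (nat_lit 5) (nat_lit 3) (nat_lit 4) (nat_lit 1) (nat_lit 4) (nat_lit 479) (nat_lit 294) (nat_lit 247)))))) (XT.nd (nat_lit 49296) (nat_lit 0) (nat_lit 228) (XT.nd (nat_lit 234) (nat_lit 0) (nat_lit 0) (XT.nd (nat_lit 78) (nat_lit 0) (nat_lit 0) (XT.lf (nat_lit 0) (nat_lit 40845609513) (nat_lit 152) (nat_lit 637237122309) (nat_lit 0) (nat_lit 39377574087) (nat_lit 1) (nat_lit 5) (nat_lit 3) (nat_lit 4) (nat_lit 1) (nat_lit 4) (nat_lit 480) (nat_lit 294) (nat_lit 246)) (XT.nd (nat_lit 78) (nat_lit 0) (nat_lit 0) (XT.lf (nat_lit 0) (nat_lit 45186599036) (nat_lit 152) (nat_lit 664316529523) (nat_lit 0) (nat_lit 43711127758)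 (nat_lit 1) (nat_lit 5) (nat_lit 3) (nat_lit 4) (nat_lit 1) (nat_lit 4) (nat_lit 481) (nat_lit 294) (nat_lit 245)) (XT.lf (nat_lit 0) (nat_lit 49726727356) (nat_lit 152) (nat_lit 692785898626) (nat_lit 0) (nat_lit 48244174315) (nat_lit 1) (nat_lit 5) (nat_lit 3) (nat_lit 4) (nat_lit 1) (nat_lit 4) (nat_lit 482) (nat_lit 294) (nat_lit 244)))) (XT.nd (nat_lit 156) (nat_lit 0) (nat_lit 0) (XT.nd (nat_lit 78) (nat_lit 0) (nat_lit 0) (XT.lf (nat_lit 0) (nat_lit 54476804304) (nat_lit 152) (nat_lit 722713013830) (nat_lit 0) (nat_lit 52987506726) (nat_lit 1) (nat_lit 5) (nat_lit 3) (nat_lit 4) (nat_lit 1) (nat_lit 4) (nat_lit 483) (nat_lit 294) (nat_lit 243)) (XT.lf (nat_lit 0) (nat_lit 59448139586) (nat_lit 152) (nat_lit 754169130172) (nat_lit 0) (nat_lit 57952418639) (nat_lit 1) (nat_lit 5) (nat_lit 3) (nat_lit 4) (nat_lit 1) (nat_lit 4) (nat_lit 484) (nat_lit 294) (nat_lit 242))) (XT.nd (nat_lit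 48828) (nat_lit 0) (nat_lit 380) (XT.lf (nat_lit 0) (nat_lit 64652569715) (nat_lit 152) (nat_lit 787229143167) (nat_lit 0) (nat_lit 63150731274) (nat_lit 1) (nat_lit 5) (nat_lit 3) (nat_lit 4) (nat_lit 1) (nat_lit 4) (nat_lit 485) (nat_lit 294) (nat_lit 241)) (XT.lf (nat_lit 0) (nat_lit 26866082336) (nat_lit 76) (nat_lit 3132802910) (nat_lit 76) (nat_lit 3132802910) (nat_lit 6) (nat_lit 4) (nat_lit 7) (nat_lit 5) (nat_lit 7) (nat_lit 4) (nat_lit 430) (nat_lit 295) (nat_lit 295))))) (XT.nd (nat_lit 234) (nat_lit 0) (nat_lit 0) (XT.nd (nat_lit 78) (nat_lit 152) (nat_lit 0) (XT.lf (nat_lit 0) (nat_lit 67003204702) (nat_lit 76) (nat_lit 1198876863) (nat_lit 76) (nat_lit 1109343482) (nat_lit 6) (nat_lit 4) (nat_lit 7) (nat_lit 5) (nat_lit 7) (nat_lit 4) (nat_lit 431) (nat_lit 295) (nat_lit 294)) (XT.nd (nat_lit 78) (nat_lit 0) (nat_lit 0) (XT.lf (nat_lit 0) (nat_lit 4191638123) (nat_lit 152) (nat_lit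 64290490552) (nat_lit 0) (nat_lit 4025158821) (nat_lit 4) (nat_lit 5) (nat_lit 6) (nat_lit 4) (nat_lit 4) (nat_lit 4) (nat_lit 432) (nat_lit 295) (nat_lit 293)) (XT.lf (nat_lit 0) (nat_lit 9610450412) (nat_lit 152) (nat_lit 56890457078) (nat_lit 0) (nat_lit 9366628809) (nat_lit 4) (nat_lit 5) (nat_lit 6) (nat_lit 4) (nat_lit 4) (nat_lit 4) (nat_lit 433) (nat_lit 295) (nat_lit 292)))) (XT.nd (nat_lit 156) (nat_lit 0) (nat_lit 0) (XT.nd (nat_lit 78) (nat_lit 0) (nat_lit 0) (XT.lf (nat_lit 0) (nat_lit 15138943731) (nat_lit 152) (nat_lit 49443459393) (nat_lit 0) (nat_lit 14821462794) (nat_lit 4) (nat_lit 5) (nat_lit 6) (nat_lit 4) (nat_lit 4) (nat_lit 4) (nat_lit 434) (nat_lit 295) (nat_lit 291)) (XT.lf (nat_lit 0) (nat_lit 20790281160) (nat_lit 152) (nat_lit 41931766551) (nat_lit 0) (nat_lit 20402648476) (nat_lit 4) (nat_lit 5) (nat_lit 6) (nat_lit 4) (nat_lit 4) (nat_lit 4) (nat_lit 435) (nat_lit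 295) (nat_lit 290))) (XT.nd (nat_lit 78) (nat_lit 0) (nat_lit 0) (XT.lf (nat_lit 0) (nat_lit 26577918265) (nat_lit 152) (nat_lit 34337493568) (nat_lit 0) (nat_lit 26123474394) (nat_lit 4) (nat_lit 5) (nat_lit 6) (nat_lit 4) (nat_lit 4) (nat_lit 4) (nat_lit 436) (nat_lit 295) (nat_lit 289)) (XT.lf (nat_lit 0) (nat_lit 32515635134) (nat_lit 152) (nat_lit 26642558843) (nat_lit 0) (nat_lit 31997561560) (nat_lit 4) (nat_lit 5) (nat_lit 6) (nat_lit 4) (nat_lit 4) (nat_lit 4) (nat_lit 437) (nat_lit 295) (nat_lit 288))))))) (XT.nd (nat_lit 1014) (nat_lit 0) (nat_lit 0) (XT.nd (nat_lit 468) (nat_lit 0) (nat_lit 0) (XT.nd (nat_lit 234) (nat_lit 76) (nat_lit 0) (XT.nd (nat_lit 78) (nat_lit 0) (nat_lit 0) (XT.lf (nat_lit 0) (nat_lit 38617569187) (nat_lit 152) (nat_lit 18828641102) (nat_lit 0) (nat_lit 38038895897) (nat_lit 4) (nat_lit 5) (nat_lit 6) (nat_lit 4) (nat_lit 4) (nat_lit 4) (nat_lit 438) (nat_lit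 295) (nat_lit 287)) (XT.nd (nat_lit 78) (nat_lit 0) (nat_lit 0) (XT.lf (nat_lit 0) (nat_lit 44898248840) (nat_lit 152) (nat_lit 10877135780) (nat_lit 0) (nat_lit 44261861534) (nat_lit 4) (nat_lit 5) (nat_lit 6) (nat_lit 4) (nat_lit 4) (nat_lit 4) (nat_lit 439) (nat_lit 295) (nat_lit 286)) (XT.lf (nat_lit 0) (nat_lit 51372628091) (nat_lit 152) (nat_lit 2769110720) (nat_lit 0) (nat_lit 50681275056) (nat_lit 4) (nat_lit 5) (nat_lit 6) (nat_lit 4) (nat_lit 4) (nat_lit 4) (nat_lit 440) (nat_lit 295) (nat_lit 285)))) (XT.nd (nat_lit 78) (nat_lit 0) (nat_lit 0) (XT.lf (nat_lit 0) (nat_lit 5697081072) (nat_lit 76) (nat_lit 52447988458) (nat_lit 76) (nat_lit 51704287110) (nat_lit 3) (nat_lit 4) (nat_lit 4) (nat_lit 5) (nat_lit 4) (nat_lit 4) (nat_lit 441) (nat_lit 295) (nat_lit 284)) (XT.nd (nat_lit 78) (nat_lit 0) (nat_lit 0) (XT.lf (nat_lit 0) (nat_lit 14456845881) (nat_lit 76) (nat_lit 50733510033)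 (nat_lit 76) (nat_lit 49939953148) (nat_lit 3) (nat_lit 4) (nat_lit 4) (nat_lit 5) (nat_lit 4) (nat_lit 4) (nat_lit 442) (nat_lit 295) (nat_lit 283)) (XT.lf (nat_lit 0) (nat_lit 23439480984) (nat_lit 76) (nat_lit 49041117674) (nat_lit 76) (nat_lit 48200079326) (nat_lit 3) (nat_lit 4) (nat_lit 4) (nat_lit 5) (nat_lit 4) (nat_lit 4) (nat_lit 443) (nat_lit 295) (nat_lit 282))))) (XT.nd (nat_lit 234) (nat_lit 0) (nat_lit 0) (XT.nd (nat_lit 78) (nat_lit 0) (nat_lit 0) (XT.lf (nat_lit 0) (nat_lit 32666373606) (nat_lit 76) (nat_lit 47366781876) (nat_lit 76) (nat_lit 46480523086) (nat_lit 3) (nat_lit 4) (nat_lit 4) (nat_lit 5) (nat_lit 4) (nat_lit 4) (nat_lit 444) (nat_lit 295) (nat_lit 281)) (XT.nd (nat_lit 78) (nat_lit 0) (nat_lit 0) (XT.lf (nat_lit 0) (nat_lit 42159492541) (nat_lit 76) (nat_lit 45706516124) (nat_lit 76) (nat_lit 44777190247) (nat_lit 3) (nat_lit 4) (nat_lit 4) (nat_lit 5) (nat_lit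 4) (nat_lit 4) (nat_lit 445) (nat_lit 295) (nat_lit 280)) (XT.lf (nat_lit 0) (nat_lit 51941440452) (nat_lit 76) (nat_lit 44056367405) (nat_lit 76) (nat_lit 43086025255) (nat_lit 3) (nat_lit 4) (nat_lit 4) (nat_lit 5) (nat_lit 4) (nat_lit 4) (nat_lit 446) (nat_lit 295) (nat_lit 279)))) (XT.nd (nat_lit 156) (nat_lit 0) (nat_lit 0) (XT.nd (nat_lit 78) (nat_lit 0) (nat_lit 0) (XT.lf (nat_lit 0) (nat_lit 62035507692) (nat_lit 76) (nat_lit 42412406794) (nat_lit 76) (nat_lit 41403001526) (nat_lit 3) (nat_lit 4) (nat_lit 4) (nat_lit 5) (nat_lit 4) (nat_lit 4) (nat_lit 447) (nat_lit 295) (nat_lit 278)) (XT.lf (nat_lit 0) (nat_lit 72465727753) (nat_lit 76) (nat_lit 40770720098) (nat_lit 76) (nat_lit 39724111862) (nat_lit 3) (nat_lit 4) (nat_lit 4) (nat_lit 5) (nat_lit 4) (nat_lit 4) (nat_lit 448) (nat_lit 295) (nat_lit 277))) (XT.nd (nat_lit 78) (nat_lit 0) (nat_lit 0) (XT.lf (nat_lit 0) (nat_lit 83256934493)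 (nat_lit 76) (nat_lit 39127398540) (nat_lit 76) (nat_lit 38045358904) (nat_lit 3) (nat_lit 4) (nat_lit 4) (nat_lit 5) (nat_lit 4) (nat_lit 4) (nat_lit 449) (nat_lit 295) (nat_lit 276)) (XT.lf (nat_lit 0) (nat_lit 94434821262) (nat_lit 76) (nat_lit 37478529449) (nat_lit 76) (nat_lit 36362745624) (nat_lit 3) (nat_lit 4) (nat_lit 4) (nat_lit 5) (nat_lit 4) (nat_lit 4) (nat_lit 450) (nat_lit 295) (nat_lit 275)))))) (XT.nd (nat_lit 546) (nat_lit 0) (nat_lit 0) (XT.nd (nat_lit 234) (nat_lit 0) (nat_lit 0) (XT.nd (nat_lit 78) (nat_lit 0) (nat_lit 0) (XT.lf (nat_lit 0) (nat_lit 106026002075) (nat_lit 76) (nat_lit 35820186947) (nat_lit 76) (nat_lit 34672265798) (nat_lit 3) (nat_lit 4) (nat_lit 4) (nat_lit 5) (nat_lit 4) (nat_lit 4) (nat_lit 451) (nat_lit 295) (nat_lit 274)) (XT.nd (nat_lit 78) (nat_lit 0) (nat_lit 0) (XT.lf (nat_lit 0) (nat_lit 118058074982) (nat_lit 76) (nat_lit 34148422598) (nat_lit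 76) (nat_lit 32969894475) (nat_lit 3) (nat_lit 4) (nat_lit 4) (nat_lit 5) (nat_lit 4) (nat_lit 4) (nat_lit 452) (nat_lit 295) (nat_lit 273)) (XT.lf (nat_lit 0) (nat_lit 130559687776) (nat_lit 76) (nat_lit 32459256013) (nat_lit 76) (nat_lit 31251578389) (nat_lit 3) (nat_lit 4) (nat_lit 4) (nat_lit 5) (nat_lit 4) (nat_lit 4) (nat_lit 453) (nat_lit 295) (nat_lit 272)))) (XT.nd (nat_lit 156) (nat_lit 0) (nat_lit 0) (XT.nd (nat_lit 78) (nat_lit 0) (nat_lit 0) (XT.lf (nat_lit 0) (nat_lit 143560606202) (nat_lit 76) (nat_lit 30748665364) (nat_lit 76) (nat_lit 29513226313) (nat_lit 3) (nat_lit 4) (nat_lit 4) (nat_lit 5) (nat_lit 4) (nat_lit 4) (nat_lit 454) (nat_lit 295) (nat_lit 271)) (XT.lf (nat_lit 0) (nat_lit 157091784826) (nat_lit 76) (nat_lit 29012577819) (nat_lit 76) (nat_lit 27750699312) (nat_lit 3) (nat_lit 4) (nat_lit 4) (nat_lit 5) (nat_lit 4) (nat_lit 4) (nat_lit 455) (nat_lit 295) (nat_lit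 270))) (XT.nd (nat_lit 78) (nat_lit 0) (nat_lit 0) (XT.lf (nat_lit 0) (nat_lit 171185440742) (nat_lit 76) (nat_lit 27246859834) (nat_lit 76) (nat_lit 25959800893) (nat_lit 3) (nat_lit 4) (nat_lit 4) (nat_lit 5) (nat_lit 4) (nat_lit 4) (nat_lit 456) (nat_lit 295) (nat_lit 269)) (XT.lf (nat_lit 0) (nat_lit 185875130272) (nat_lit 76) (nat_lit 25447307319) (nat_lit 76) (nat_lit 24136267013) (nat_lit 3) (nat_lit 4) (nat_lit 4) (nat_lit 5) (nat_lit 4) (nat_lit 4) (nat_lit 457) (nat_lit 295) (nat_lit 268))))) (XT.nd (nat_lit 234) (nat_lit 0) (nat_lit 0) (XT.nd (nat_lit 78) (nat_lit 0) (nat_lit 0) (XT.lf (nat_lit 0) (nat_lit 201195828869) (nat_lit 76) (nat_lit 23609635626) (nat_lit 76) (nat_lit 22275755924) (nat_lit 3) (nat_lit 4) (nat_lit 4) (nat_lit 5) (nat_lit 4) (nat_lit 4) (nat_lit 458) (nat_lit 295) (nat_lit 267)) (XT.nd (nat_lit 78) (nat_lit 0) (nat_lit 0) (XT.lf (nat_lit 0) (nat_lit 217184014385)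 (nat_lit 76) (nat_lit 21729469346) (nat_lit 76) (nat_lit 20373837838) (nat_lit 3) (nat_lit 4) (nat_lit 4) (nat_lit 5) (nat_lit 4) (nat_lit 4) (nat_lit 459) (nat_lit 295) (nat_lit 266)) (XT.lf (nat_lit 0) (nat_lit 233877753930) (nat_lit 76) (nat_lit 19802331892) (nat_lit 76) (nat_lit 18425984379) (nat_lit 3) (nat_lit 4) (nat_lit 4) (nat_lit 5) (nat_lit 4) (nat_lit 4) (nat_lit 460) (nat_lit 295) (nat_lit 265)))) (XT.nd (nat_lit 156) (nat_lit 0) (nat_lit 0) (XT.nd (nat_lit 78) (nat_lit 0) (nat_lit 0) (XT.lf (nat_lit 0) (nat_lit 251316794501) (nat_lit 76) (nat_lit 17823634842) (nat_lit 76) (nat_lit 16427557800) (nat_lit 3) (nat_lit 4) (nat_lit 4) (nat_lit 5) (nat_lit 4) (nat_lit 4) (nat_lit 461) (nat_lit 295) (nat_lit 264)) (XT.lf (nat_lit 0) (nat_lit 269542657625) (nat_lit 76) (nat_lit 15788667013) (nat_lit 76) (nat_lit 14373799943) (nat_lit 3) (nat_lit 4) (nat_lit 4) (nat_lit 5) (nat_lit 4)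 (nat_lit 4) (nat_lit 462) (nat_lit 295) (nat_lit 263))) (XT.nd (nat_lit 78) (nat_lit 0) (nat_lit 0) (XT.lf (nat_lit 0) (nat_lit 288598738213) (nat_lit 76) (nat_lit 13692583242) (nat_lit 76) (nat_lit 12259820908) (nat_lit 3) (nat_lit 4) (nat_lit 4) (nat_lit 5) (nat_lit 4) (nat_lit 4) (nat_lit 463) (nat_lit 295) (nat_lit 262)) (XT.lf (nat_lit 0) (nat_lit 308530407887) (nat_lit 76) (nat_lit 11530392854) (nat_lit 76) (nat_lit 10080587412) (nat_lit 3) (nat_lit 4) (nat_lit 4) (nat_lit 5) (nat_lit 4) (nat_lit 4) (nat_lit 464) (nat_lit 295) (nat_lit 261))))))))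
noncomputable def xc15 : XT := (XT.nd (nat_lit 50700) (nat_lit 0) (nat_lit 152) (XT.nd (nat_lit 1014) (nat_lit 0) (nat_lit 0) (XT.nd (nat_lit 468) (nat_lit 0) (nat_lit 0) (XT.nd (nat_lit 234) (nat_lit 152) (nat_lit 0) (XT.nd (nat_lit 78) (nat_lit 0) (nat_lit 0) (XT.lf (nat_lit 0) (nat_lit 329385123001) (nat_lit 76) (nat_lit 9296947778) (nat_lit 76) (nat_lit 7830910803) (nat_lit 3) (nat_lit 4) (nat_lit 4) (nat_lit 5) (nat_lit 4) (nat_lit 4) (nat_lit 465) (nat_lit 295) (nat_lit 260)) (XT.nd (nat_lit 78) (nat_lit 0) (nat_lit 0) (XT.lf (nat_lit 0) (nat_lit 351212537640) (nat_lit 76) (nat_lit 6986930285) (nat_lit 76) (nat_lit 5505434709) (nat_lit 3) (nat_lit 4) (nat_lit 4) (nat_lit 5) (nat_lit 4) (nat_lit 4) (nat_lit 466) (nat_lit 295) (nat_lit 259)) (XT.lf (nat_lit 0) (nat_lit 374064621840) (nat_lit 76) (nat_lit 4594840336) (nat_lit 76) (nat_lit 3098622281) (nat_lit 3) (nat_lit 4) (nat_lit 4)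 (nat_lit 5) (nat_lit 4) (nat_lit 4) (nat_lit 467) (nat_lit 295) (nat_lit 258)))) (XT.nd (nat_lit 78) (nat_lit 152) (nat_lit 0) (XT.lf (nat_lit 0) (nat_lit 397995785323) (nat_lit 76) (nat_lit 2114982478) (nat_lit 76) (nat_lit 604743015) (nat_lit 3) (nat_lit 4) (nat_lit 4) (nat_lit 5) (nat_lit 4) (nat_lit 4) (nat_lit 468) (nat_lit 295) (nat_lit 257)) (XT.nd (nat_lit 78) (nat_lit 0) (nat_lit 0) (XT.lf (nat_lit 0) (nat_lit 1965870513) (nat_lit 152) (nat_lit 418137712676) (nat_lit 0) (nat_lit 514829385) (nat_lit 1) (nat_lit 5) (nat_lit 3) (nat_lit 4) (nat_lit 1) (nat_lit 4) (nat_lit 469) (nat_lit 295) (nat_lit 256)) (XT.lf (nat_lit 0) (nat_lit 4695544841) (nat_lit 152) (nat_lit 433585485610) (nat_lit 0) (nat_lit 3232391494) (nat_lit 1) (nat_lit 5) (nat_lit 3) (nat_lit 4) (nat_lit 1) (nat_lit 4) (nat_lit 470) (nat_lit 295) (nat_lit 255))))) (XT.nd (nat_lit 234) (nat_lit 0) (nat_lit 0) (XT.nd (nat_lit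 78) (nat_lit 0) (nat_lit 0) (XT.lf (nat_lit 0) (nat_lit 7532528278) (nat_lit 152) (nat_lit 449864273599) (nat_lit 0) (nat_lit 6057839484) (nat_lit 1) (nat_lit 5) (nat_lit 3) (nat_lit 4) (nat_lit 1) (nat_lit 4) (nat_lit 471) (nat_lit 295) (nat_lit 254)) (XT.nd (nat_lit 78) (nat_lit 0) (nat_lit 0) (XT.lf (nat_lit 0) (nat_lit 10483575546) (nat_lit 152) (nat_lit 467012835661) (nat_lit 0) (nat_lit 8997900613) (nat_lit 1) (nat_lit 5) (nat_lit 3) (nat_lit 4) (nat_lit 1) (nat_lit 4) (nat_lit 472) (nat_lit 295) (nat_lit 253)) (XT.lf (nat_lit 0) (nat_lit 13555712949) (nat_lit 152) (nat_lit 485072001706) (nat_lit 0) (nat_lit 12059575025) (nat_lit 1) (nat_lit 5) (nat_lit 3) (nat_lit 4) (nat_lit 1) (nat_lit 4) (nat_lit 473) (nat_lit 295) (nat_lit 252)))) (XT.nd (nat_lit 156) (nat_lit 0) (nat_lit 0) (XT.nd (nat_lit 78) (nat_lit 0) (nat_lit 0) (XT.lf (nat_lit 0) (nat_lit 16756255099) (nat_lit 152) (nat_lit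 504084769748) (nat_lit 0) (nat_lit 15250152422) (nat_lit 1) (nat_lit 5) (nat_lit 3) (nat_lit 4) (nat_lit 1) (nat_lit 4) (nat_lit 474) (nat_lit 295) (nat_lit 251)) (XT.lf (nat_lit 0) (nat_lit 20092822334) (nat_lit 152) (nat_lit 524096408283) (nat_lit 0) (nat_lit 18577229417) (nat_lit 1) (nat_lit 5) (nat_lit 3) (nat_lit 4) (nat_lit 1) (nat_lit 4) (nat_lit 475) (nat_lit 295) (nat_lit 250))) (XT.nd (nat_lit 78) (nat_lit 0) (nat_lit 0) (XT.lf (nat_lit 0) (nat_lit 23573358863) (nat_lit 152) (nat_lit 545154564069) (nat_lit 0) (nat_lit 22048727621) (nat_lit 1) (nat_lit 5) (nat_lit 3) (nat_lit 4) (nat_lit 1) (nat_lit 4) (nat_lit 476) (nat_lit 295) (nat_lit 249)) (XT.lf (nat_lit 0) (nat_lit 27206151677) (nat_lit 152) (nat_lit 567309375572) (nat_lit 0) (nat_lit 25672912507) (nat_lit 1) (nat_lit 5) (nat_lit 3) (nat_lit 4) (nat_lit 1) (nat_lit 4) (nat_lit 477) (nat_lit 295) (nat_lit 248)))))) (XT.nd (nat_lit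 546) (nat_lit 0) (nat_lit 0) (XT.nd (nat_lit 234) (nat_lit 0) (nat_lit 0) (XT.nd (nat_lit 78) (nat_lit 0) (nat_lit 0) (XT.lf (nat_lit 0) (nat_lit 30999850283) (nat_lit 152) (nat_lit 590613592343) (nat_lit 0) (nat_lit 29458413087) (nat_lit 1) (nat_lit 5) (nat_lit 3) (nat_lit 4) (nat_lit 1) (nat_lit 4) (nat_lit 478) (nat_lit 295) (nat_lit 247)) (XT.nd (nat_lit 78) (nat_lit 0) (nat_lit 0) (XT.lf (nat_lit 0) (nat_lit 34963487297) (nat_lit 152) (nat_lit 615122700614) (nat_lit 0) (nat_lit 33414242456) (nat_lit 1) (nat_lit 5) (nat_lit 3) (nat_lit 4) (nat_lit 1) (nat_lit 4) (nat_lit 479) (nat_lit 295) (nat_lit 246)) (XT.lf (nat_lit 0) (nat_lit 39106499949) (nat_lit 152) (nat_lit 640895055403) (nat_lit 0) (nat_lit 37549819256) (nat_lit 1) (nat_lit 5) (nat_lit 3) (nat_lit 4) (nat_lit 1) (nat_lit 4) (nat_lit 480) (nat_lit 295) (nat_lit 245)))) (XT.nd (nat_lit 156) (nat_lit 0) (nat_lit 0) (XT.nd (nat_lit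 78) (nat_lit 0) (nat_lit 0) (XT.lf (nat_lit 0) (nat_lit 43438752555) (nat_lit 152) (nat_lit 667992019460) (nat_lit 0) (nat_lit 41874990098) (nat_lit 1) (nat_lit 5) (nat_lit 3) (nat_lit 4) (nat_lit 1) (nat_lit 4) (nat_lit 481) (nat_lit 295) (nat_lit 244)) (XT.lf (nat_lit 0) (nat_lit 47970560003) (nat_lit 152) (nat_lit 696478109366) (nat_lit 0) (nat_lit 46400053009) (nat_lit 1) (nat_lit 5) (nat_lit 3) (nat_lit 4) (nat_lit 1) (nat_lit 4) (nat_lit 482) (nat_lit 295) (nat_lit 243))) (XT.nd (nat_lit 78) (nat_lit 0) (nat_lit 0) (XT.lf (nat_lit 0) (nat_lit 52712712310) (nat_lit 152) (nat_lit 726421149145) (nat_lit 0) (nat_lit 51135781948) (nat_lit 1) (nat_lit 5) (nat_lit 3) (nat_lit 4) (nat_lit 1) (nat_lit 4) (nat_lit 483) (nat_lit 295) (nat_lit 242)) (XT.lf (nat_lit 0) (nat_lit 57676500316) (nat_lit 152) (nat_lit 757892431748) (nat_lit 0) (nat_lit 56093452460) (nat_lit 1) (nat_lit 5) (nat_lit 3)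 (nat_lit 4) (nat_lit 1) (nat_lit 4) (nat_lit 484) (nat_lit 295) (nat_lit 241))))) (XT.nd (nat_lit 48828) (nat_lit 0) (nat_lit 228) (XT.nd (nat_lit 48672) (nat_lit 0) (nat_lit 380) (XT.lf (nat_lit 0) (nat_lit 62873742562) (nat_lit 152) (nat_lit 790966888801) (nat_lit 0) (nat_lit 61284868521) (nat_lit 1) (nat_lit 5) (nat_lit 3) (nat_lit 4) (nat_lit 1) (nat_lit 4) (nat_lit 485) (nat_lit 295) (nat_lit 240)) (XT.nd (nat_lit 78) (nat_lit 0) (nat_lit 0) (XT.lf (nat_lit 0) (nat_lit 14117200774) (nat_lit 76) (nat_lit 8095494252) (nat_lit 76) (nat_lit 8095494252) (nat_lit 6) (nat_lit 4) (nat_lit 7) (nat_lit 5) (nat_lit 7) (nat_lit 4) (nat_lit 428) (nat_lit 296) (nat_lit 296)) (XT.lf (nat_lit 0) (nat_lit 40759775011) (nat_lit 76) (nat_lit 11351528218) (nat_lit 76) (nat_lit 11257518168) (nat_lit 6) (nat_lit 4) (nat_lit 7) (nat_lit 5) (nat_lit 7) (nat_lit 4) (nat_lit 429) (nat_lit 296) (nat_lit 295))))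 (XT.nd (nat_lit 156) (nat_lit 152) (nat_lit 0) (XT.nd (nat_lit 78) (nat_lit 0) (nat_lit 0) (XT.lf (nat_lit 0) (nat_lit 53561448031) (nat_lit 76) (nat_lit 6444873923) (nat_lit 76) (nat_lit 6261330492) (nat_lit 6) (nat_lit 4) (nat_lit 7) (nat_lit 5) (nat_lit 7) (nat_lit 4) (nat_lit 430) (nat_lit 296) (nat_lit 294)) (XT.lf (nat_lit 0) (nat_lit 66669900782) (nat_lit 76) (nat_lit 1459343109) (nat_lit 76) (nat_lit 1190529791) (nat_lit 6) (nat_lit 4) (nat_lit 7) (nat_lit 5) (nat_lit 7) (nat_lit 4) (nat_lit 431) (nat_lit 296) (nat_lit 293))) (XT.nd (nat_lit 78) (nat_lit 0) (nat_lit 0) (XT.lf (nat_lit 0) (nat_lit 4020786441) (nat_lit 152) (nat_lit 64812097568) (nat_lit 0) (nat_lit 3687431457) (nat_lit 4) (nat_lit 5) (nat_lit 6) (nat_lit 4) (nat_lit 4) (nat_lit 4) (nat_lit 432) (nat_lit 296) (nat_lit 292)) (XT.lf (nat_lit 0) (nat_lit 9360935518) (nat_lit 152) (nat_lit 57569643344) (nat_lit 0) (nat_lit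 8953921200) (nat_lit 4) (nat_lit 5) (nat_lit 6) (nat_lit 4) (nat_lit 4) (nat_lit 4) (nat_lit 433) (nat_lit 296) (nat_lit 291))))))) (XT.nd (nat_lit 1092) (nat_lit 0) (nat_lit 0) (XT.nd (nat_lit 546) (nat_lit 76) (nat_lit 0) (XT.nd (nat_lit 234) (nat_lit 0) (nat_lit 0) (XT.nd (nat_lit 78) (nat_lit 0) (nat_lit 0) (XT.lf (nat_lit 0) (nat_lit 14814511493) (nat_lit 152) (nat_lit 50272721136) (nat_lit 0) (nat_lit 14337345428) (nat_lit 4) (nat_lit 5) (nat_lit 6) (nat_lit 4) (nat_lit 4) (nat_lit 4) (nat_lit 434) (nat_lit 296) (nat_lit 290)) (XT.nd (nat_lit 78) (nat_lit 0) (nat_lit 0) (XT.lf (nat_lit 0) (nat_lit 20394499070) (nat_lit 152) (nat_lit 42903957319) (nat_lit 0) (nat_lit 19850521818) (nat_lit 4) (nat_lit 5) (nat_lit 6) (nat_lit 4) (nat_lit 4) (nat_lit 4) (nat_lit 435) (nat_lit 296) (nat_lit 289)) (XT.lf (nat_lit 0) (nat_lit 26114183935) (nat_lit 152) (nat_lit 35445807218) (nat_lit 0) (nat_lit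 25506576981) (nat_lit 4) (nat_lit 5) (nat_lit 6) (nat_lit 4) (nat_lit 4) (nat_lit 4) (nat_lit 436) (nat_lit 296) (nat_lit 288)))) (XT.nd (nat_lit 156) (nat_lit 0) (nat_lit 0) (XT.nd (nat_lit 78) (nat_lit 0) (nat_lit 0) (XT.lf (nat_lit 0) (nat_lit 31987184385) (nat_lit 152) (nat_lit 27880513332) (nat_lit 0) (nat_lit 31318977714) (nat_lit 4) (nat_lit 5) (nat_lit 6) (nat_lit 4) (nat_lit 4) (nat_lit 4) (nat_lit 437) (nat_lit 296) (nat_lit 287)) (XT.lf (nat_lit 0) (nat_lit 38027483754) (nat_lit 152) (nat_lit 20190063057) (nat_lit 0) (nat_lit 37301563068) (nat_lit 4) (nat_lit 5) (nat_lit 6) (nat_lit 4) (nat_lit 4) (nat_lit 4) (nat_lit 438) (nat_lit 296) (nat_lit 286))) (XT.nd (nat_lit 78) (nat_lit 0) (nat_lit 0) (XT.lf (nat_lit 0) (nat_lit 44249463707) (nat_lit 152) (nat_lit 12356145797) (nat_lit 0) (nat_lit 43468577291) (nat_lit 4) (nat_lit 5) (nat_lit 6) (nat_lit 4) (nat_lit 4) (nat_lit 4) (nat_lit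 439) (nat_lit 296) (nat_lit 285)) (XT.lf (nat_lit 0) (nat_lit 50667938482) (nat_lit 152) (nat_lit 4360109368) (nat_lit 0) (nat_lit 49834703753) (nat_lit 4) (nat_lit 5) (nat_lit 6) (nat_lit 4) (nat_lit 4) (nat_lit 4) (nat_lit 440) (nat_lit 296) (nat_lit 284))))) (XT.nd (nat_lit 234) (nat_lit 0) (nat_lit 0) (XT.nd (nat_lit 78) (nat_lit 0) (nat_lit 0) (XT.lf (nat_lit 0) (nat_lit 3943294459) (nat_lit 76) (nat_lit 53416461580) (nat_lit 76) (nat_lit 52533371314) (nat_lit 3) (nat_lit 4) (nat_lit 4) (nat_lit 5) (nat_lit 4) (nat_lit 4) (nat_lit 441) (nat_lit 296) (nat_lit 283)) (XT.nd (nat_lit 78) (nat_lit 0) (nat_lit 0) (XT.lf (nat_lit 0) (nat_lit 12598123685) (nat_lit 76) (nat_lit 51754573393) (nat_lit 76) (nat_lit 50824001664) (nat_lit 3) (nat_lit 4) (nat_lit 4) (nat_lit 5) (nat_lit 4) (nat_lit 4) (nat_lit 442) (nat_lit 296) (nat_lit 282)) (XT.lf (nat_lit 0) (nat_lit 21480820136) (nat_lit 76) (nat_lit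 50112266975) (nat_lit 76) (nat_lit 49136474804) (nat_lit 3) (nat_lit 4) (nat_lit 4) (nat_lit 5) (nat_lit 4) (nat_lit 4) (nat_lit 443) (nat_lit 296) (nat_lit 281)))) (XT.nd (nat_lit 156) (nat_lit 0) (nat_lit 0) (XT.nd (nat_lit 78) (nat_lit 0) (nat_lit 0) (XT.lf (nat_lit 0) (nat_lit 30612533091) (nat_lit 76) (nat_lit 48485632072) (nat_lit 76) (nat_lit 47466772814) (nat_lit 3) (nat_lit 4) (nat_lit 4) (nat_lit 5) (nat_lit 4) (nat_lit 4) (nat_lit 444) (nat_lit 296) (nat_lit 280)) (XT.lf (nat_lit 0) (nat_lit 40015004723) (nat_lit 76) (nat_lit 46870795745) (nat_lit 76) (nat_lit 45810920214) (nat_lit 3) (nat_lit 4) (nat_lit 4) (nat_lit 5) (nat_lit 4) (nat_lit 4) (nat_lit 445) (nat_lit 296) (nat_lit 279))) (XT.nd (nat_lit 78) (nat_lit 0) (nat_lit 0) (XT.lf (nat_lit 0) (nat_lit 49710621870) (nat_lit 76) (nat_lit 45263913145) (nat_lit 76) (nat_lit 44164974496) (nat_lit 3) (nat_lit 4) (nat_lit 4) (nat_lit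 5) (nat_lit 4) (nat_lit 4) (nat_lit 446) (nat_lit 296) (nat_lit 278)) (XT.lf (nat_lit 0) (nat_lit 59722469334) (nat_lit 76) (nat_lit 43661158361) (nat_lit 76) (nat_lit 42525016743) (nat_lit 3) (nat_lit 4) (nat_lit 4) (nat_lit 5) (nat_lit 4) (nat_lit 4) (nat_lit 447) (nat_lit 296) (nat_lit 277)))))) (XT.nd (nat_lit 546) (nat_lit 0) (nat_lit 0) (XT.nd (nat_lit 234) (nat_lit 0) (nat_lit 0) (XT.nd (nat_lit 78) (nat_lit 0) (nat_lit 0) (XT.lf (nat_lit 0) (nat_lit 70074384846) (nat_lit 76) (nat_lit 42058715310) (nat_lit 76) (nat_lit 40887142294) (nat_lit 3) (nat_lit 4) (nat_lit 4) (nat_lit 5) (nat_lit 4) (nat_lit 4) (nat_lit 448) (nat_lit 296) (nat_lit 276)) (XT.nd (nat_lit 78) (nat_lit 0) (nat_lit 0) (XT.lf (nat_lit 0) (nat_lit 80791015826) (nat_lit 76) (nat_lit 40452768652) (nat_lit 76) (nat_lit 39247451446) (nat_lit 3) (nat_lit 4) (nat_lit 4) (nat_lit 5) (nat_lit 4) (nat_lit 4) (nat_lit 449)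 (nat_lit 296) (nat_lit 275)) (XT.lf (nat_lit 0) (nat_lit 91897878061) (nat_lit 76) (nat_lit 38839494704) (nat_lit 76) (nat_lit 37602040174) (nat_lit 3) (nat_lit 4) (nat_lit 4) (nat_lit 5) (nat_lit 4) (nat_lit 4) (nat_lit 450) (nat_lit 296) (nat_lit 274)))) (XT.nd (nat_lit 156) (nat_lit 0) (nat_lit 0) (XT.nd (nat_lit 78) (nat_lit 0) (nat_lit 0) (XT.lf (nat_lit 0) (nat_lit 103421416462) (nat_lit 76) (nat_lit 37215052338) (nat_lit 76) (nat_lit 35946990834) (nat_lit 3) (nat_lit 4) (nat_lit 4) (nat_lit 5) (nat_lit 4) (nat_lit 4) (nat_lit 451) (nat_lit 296) (nat_lit 273)) (XT.lf (nat_lit 0) (nat_lit 115389068023) (nat_lit 76) (nat_lit 35575573834) (nat_lit 76) (nat_lit 34278362829) (nat_lit 3) (nat_lit 4) (nat_lit 4) (nat_lit 5) (nat_lit 4) (nat_lit 4) (nat_lit 452) (nat_lit 296) (nat_lit 272))) (XT.nd (nat_lit 78) (nat_lit 0) (nat_lit 0) (XT.lf (nat_lit 0) (nat_lit 127829327155) (nat_lit 76) (nat_lit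 33917155671) (nat_lit 76) (nat_lit 32592183238) (nat_lit 3) (nat_lit 4) (nat_lit 4) (nat_lit 5) (nat_lit 4) (nat_lit 4) (nat_lit 453) (nat_lit 296) (nat_lit 271)) (XT.lf (nat_lit 0) (nat_lit 140771813521) (nat_lit 76) (nat_lit 32235849235) (nat_lit 76) (nat_lit 30884437346) (nat_lit 3) (nat_lit 4) (nat_lit 4) (nat_lit 5) (nat_lit 4) (nat_lit 4) (nat_lit 454) (nat_lit 296) (nat_lit 270))))) (XT.nd (nat_lit 234) (nat_lit 0) (nat_lit 0) (XT.nd (nat_lit 78) (nat_lit 0) (nat_lit 0) (XT.lf (nat_lit 0) (nat_lit 154247342565) (nat_lit 76) (nat_lit 30527651415) (nat_lit 76) (nat_lit 29151059093) (nat_lit 3) (nat_lit 4) (nat_lit 4) (nat_lit 5) (nat_lit 4) (nat_lit 4) (nat_lit 455) (nat_lit 296) (nat_lit 269)) (XT.nd (nat_lit 78) (nat_lit 0) (nat_lit 0) (XT.lf (nat_lit 0) (nat_lit 168287998880) (nat_lit 76) (nat_lit 28788495074) (nat_lit 76) (nat_lit 27387921386) (nat_lit 3) (nat_lit 4) (nat_lit 4)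 (nat_lit 5) (nat_lit 4) (nat_lit 4) (nat_lit 456) (nat_lit 296) (nat_lit 268)) (XT.lf (nat_lit 0) (nat_lit 182927212600) (nat_lit 76) (nat_lit 27014239363) (nat_lit 76) (nat_lit 25590826279) (nat_lit 3) (nat_lit 4) (nat_lit 4) (nat_lit 5) (nat_lit 4) (nat_lit 4) (nat_lit 457) (nat_lit 296) (nat_lit 267)))) (XT.nd (nat_lit 156) (nat_lit 0) (nat_lit 0) (XT.nd (nat_lit 78) (nat_lit 0) (nat_lit 0) (XT.lf (nat_lit 0) (nat_lit 198199838997) (nat_lit 76) (nat_lit 25200659863) (nat_lit 76) (nat_lit 23755494975) (nat_lit 3) (nat_lit 4) (nat_lit 4) (nat_lit 5) (nat_lit 4) (nat_lit 4) (nat_lit 458) (nat_lit 296) (nat_lit 266)) (XT.lf (nat_lit 0) (nat_lit 214142241466) (nat_lit 76) (nat_lit 23343438530) (nat_lit 76) (nat_lit 21877557636) (nat_lit 3) (nat_lit 4) (nat_lit 4) (nat_lit 5) (nat_lit 4) (nat_lit 4) (nat_lit 459) (nat_lit 296) (nat_lit 265))) (XT.nd (nat_lit 78) (nat_lit 0) (nat_lit 0) (XT.lf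 (nat_lit 0) (nat_lit 230792378108) (nat_lit 76) (nat_lit 21438153406) (nat_lit 76) (nat_lit 19952542983) (nat_lit 3) (nat_lit 4) (nat_lit 4) (nat_lit 5) (nat_lit 4) (nat_lit 4) (nat_lit 460) (nat_lit 296) (nat_lit 264)) (XT.lf (nat_lit 0) (nat_lit 248189892105) (nat_lit 76) (nat_lit 19480268099) (nat_lit 76) (nat_lit 17975867648) (nat_lit 3) (nat_lit 4) (nat_lit 4) (nat_lit 5) (nat_lit 4) (nat_lit 4) (nat_lit 461) (nat_lit 296) (nat_lit 263))))))))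
noncomputable def xc16 : XT := (XT.nd (nat_lit 50544) (nat_lit 0) (nat_lit 152) (XT.nd (nat_lit 1014) (nat_lit 0) (nat_lit 0) (XT.nd (nat_lit 468) (nat_lit 152) (nat_lit 0) (XT.nd (nat_lit 234) (nat_lit 0) (nat_lit 0) (XT.nd (nat_lit 78) (nat_lit 0) (nat_lit 0) (XT.lf (nat_lit 0) (nat_lit 266376206111) (nat_lit 76) (nat_lit 17465120977) (nat_lit 76) (nat_lit 15942825262) (nat_lit 3) (nat_lit 4) (nat_lit 4) (nat_lit 5) (nat_lit 4) (nat_lit 4) (nat_lit 462) (nat_lit 296) (nat_lit 262)) (XT.nd (nat_lit 78) (nat_lit 0) (nat_lit 0) (XT.lf (nat_lit 0) (nat_lit 285394620873) (nat_lit 76) (nat_lit 15387914070) (nat_lit 76) (nat_lit 13848575247) (nat_lit 3) (nat_lit 4) (nat_lit 4) (nat_lit 5) (nat_lit 4) (nat_lit 4) (nat_lit 463) (nat_lit 296) (nat_lit 261)) (XT.lf (nat_lit 0) (nat_lit 305290418330) (nat_lit 76) (nat_lit 13243701648) (nat_lit 76) (nat_lit 11688131293) (nat_lit 3) (nat_lit 4) (nat_lit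 4) (nat_lit 5) (nat_lit 4) (nat_lit 4) (nat_lit 464) (nat_lit 296) (nat_lit 260)))) (XT.nd (nat_lit 78) (nat_lit 0) (nat_lit 0) (XT.lf (nat_lit 0) (nat_lit 326110969430) (nat_lit 76) (nat_lit 11027378444) (nat_lit 76) (nat_lit 9456349487) (nat_lit 3) (nat_lit 4) (nat_lit 4) (nat_lit 5) (nat_lit 4) (nat_lit 4) (nat_lit 465) (nat_lit 296) (nat_lit 259)) (XT.nd (nat_lit 78) (nat_lit 0) (nat_lit 0) (XT.lf (nat_lit 0) (nat_lit 347905846912) (nat_lit 76) (nat_lit 8733667497) (nat_lit 76) (nat_lit 7147916062) (nat_lit 3) (nat_lit 4) (nat_lit 4) (nat_lit 5) (nat_lit 4) (nat_lit 4) (nat_lit 466) (nat_lit 296) (nat_lit 258)) (XT.lf (nat_lit 0) (nat_lit 370726943342) (nat_lit 76) (nat_lit 6357107591) (nat_lit 76) (nat_lit 4757334747) (nat_lit 3) (nat_lit 4) (nat_lit 4) (nat_lit 5) (nat_lit 4) (nat_lit 4) (nat_lit 467) (nat_lit 296) (nat_lit 257))))) (XT.nd (nat_lit 234) (nat_lit 0) (nat_lit 0) (XT.nd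 (nat_lit 78) (nat_lit 152) (nat_lit 0) (XT.lf (nat_lit 0) (nat_lit 394628594665) (nat_lit 76) (nat_lit 3892040249) (nat_lit 76) (nat_lit 2278913684) (nat_lit 3) (nat_lit 4) (nat_lit 4) (nat_lit 5) (nat_lit 4) (nat_lit 4) (nat_lit 468) (nat_lit 296) (nat_lit 256)) (XT.nd (nat_lit 78) (nat_lit 76) (nat_lit 0) (XT.lf (nat_lit 0) (nat_lit 283862358) (nat_lit 152) (nat_lit 1043926560) (nat_lit 76) (nat_lit 419379039868) (nat_lit 2) (nat_lit 5) (nat_lit 4) (nat_lit 5) (nat_lit 3) (nat_lit 4) (nat_lit 469) (nat_lit 296) (nat_lit 255)) (XT.lf (nat_lit 0) (nat_lit 2961461114) (nat_lit 152) (nat_lit 437241478800) (nat_lit 0) (nat_lit 1401502433) (nat_lit 1) (nat_lit 5) (nat_lit 3) (nat_lit 4) (nat_lit 1) (nat_lit 4) (nat_lit 470) (nat_lit 296) (nat_lit 254)))) (XT.nd (nat_lit 156) (nat_lit 0) (nat_lit 0) (XT.nd (nat_lit 78) (nat_lit 0) (nat_lit 0) (XT.lf (nat_lit 0) (nat_lit 5784890726) (nat_lit 152)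 (nat_lit 453547503215) (nat_lit 0) (nat_lit 4213945906) (nat_lit 1) (nat_lit 5) (nat_lit 3) (nat_lit 4) (nat_lit 1) (nat_lit 4) (nat_lit 471) (nat_lit 296) (nat_lit 253)) (XT.lf (nat_lit 0) (nat_lit 8723029590) (nat_lit 152) (nat_lit 470722004731) (nat_lit 0) (nat_lit 7141621779) (nat_lit 1) (nat_lit 5) (nat_lit 3) (nat_lit 4) (nat_lit 1) (nat_lit 4) (nat_lit 472) (nat_lit 296) (nat_lit 252))) (XT.nd (nat_lit 78) (nat_lit 0) (nat_lit 0) (XT.lf (nat_lit 0) (nat_lit 11782873274) (nat_lit 152) (nat_lit 488805875017) (nat_lit 0) (nat_lit 10191500711) (nat_lit 1) (nat_lit 5) (nat_lit 3) (nat_lit 4) (nat_lit 1) (nat_lit 4) (nat_lit 473) (nat_lit 296) (nat_lit 251)) (XT.lf (nat_lit 0) (nat_lit 14971707121) (nat_lit 152) (nat_lit 507842170908) (nat_lit 0) (nat_lit 13370844317) (nat_lit 1) (nat_lit 5) (nat_lit 3) (nat_lit 4) (nat_lit 1) (nat_lit 4) (nat_lit 474) (nat_lit 296) (nat_lit 250)))))) (XT.nd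 (nat_lit 546) (nat_lit 0) (nat_lit 0) (XT.nd (nat_lit 234) (nat_lit 0) (nat_lit 0) (XT.nd (nat_lit 78) (nat_lit 0) (nat_lit 0) (XT.lf (nat_lit 0) (nat_lit 18297123591) (nat_lit 152) (nat_lit 527876216918) (nat_lit 0) (nat_lit 16687222463) (nat_lit 1) (nat_lit 5) (nat_lit 3) (nat_lit 4) (nat_lit 1) (nat_lit 4) (nat_lit 475) (nat_lit 296) (nat_lit 249)) (XT.nd (nat_lit 78) (nat_lit 0) (nat_lit 0) (XT.lf (nat_lit 0) (nat_lit 21767040344) (nat_lit 152) (nat_lit 548955713157) (nat_lit 0) (nat_lit 20148531287) (nat_lit 1) (nat_lit 5) (nat_lit 3) (nat_lit 4) (nat_lit 1) (nat_lit 4) (nat_lit 476) (nat_lit 296) (nat_lit 248)) (XT.lf (nat_lit 0) (nat_lit 25389719085) (nat_lit 152) (nat_lit 571130848901) (nat_lit 0) (nat_lit 23763012002) (nat_lit 1) (nat_lit 5) (nat_lit 3) (nat_lit 4) (nat_lit 1) (nat_lit 4) (nat_lit 477) (nat_lit 296) (nat_lit 247)))) (XT.nd (nat_lit 156) (nat_lit 0) (nat_lit 0) (XT.nd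 (nat_lit 78) (nat_lit 0) (nat_lit 0) (XT.lf (nat_lit 0) (nat_lit 29173785241) (nat_lit 152) (nat_lit 594454422092) (nat_lit 0) (nat_lit 27539270513) (nat_lit 1) (nat_lit 5) (nat_lit 3) (nat_lit 4) (nat_lit 1) (nat_lit 4) (nat_lit 478) (nat_lit 296) (nat_lit 246)) (XT.lf (nat_lit 0) (nat_lit 33128248493) (nat_lit 152) (nat_lit 618981965048) (nat_lit 0) (nat_lit 31486297913) (nat_lit 1) (nat_lit 5) (nat_lit 3) (nat_lit 4) (nat_lit 1) (nat_lit 4) (nat_lit 479) (nat_lit 296) (nat_lit 245))) (XT.nd (nat_lit 78) (nat_lit 0) (nat_lit 0) (XT.lf (nat_lit 0) (nat_lit 37262524228) (nat_lit 152) (nat_lit 644771876680) (nat_lit 0) (nat_lit 35613491885) (nat_lit 1) (nat_lit 5) (nat_lit 3) (nat_lit 4) (nat_lit 1) (nat_lit 4) (nat_lit 480) (nat_lit 296) (nat_lit 244)) (XT.lf (nat_lit 0) (nat_lit 41586455962) (nat_lit 152) (nat_lit 671885561540) (nat_lit 0) (nat_lit 39930679082) (nat_lit 1) (nat_lit 5) (nat_lit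 3) (nat_lit 4) (nat_lit 1) (nat_lit 4) (nat_lit 481) (nat_lit 296) (nat_lit 243))))) (XT.nd (nat_lit 234) (nat_lit 0) (nat_lit 0) (XT.nd (nat_lit 78) (nat_lit 0) (nat_lit 0) (XT.lf (nat_lit 0) (nat_lit 46110338770) (nat_lit 152) (nat_lit 700387576021) (nat_lit 0) (nat_lit 44448138521) (nat_lit 1) (nat_lit 5) (nat_lit 3) (nat_lit 4) (nat_lit 1) (nat_lit 4) (nat_lit 482) (nat_lit 296) (nat_lit 242)) (XT.nd (nat_lit 78) (nat_lit 0) (nat_lit 0) (XT.lf (nat_lit 0) (nat_lit 50844943800) (nat_lit 152) (nat_lit 730345782061) (nat_lit 0) (nat_lit 49176626057) (nat_lit 1) (nat_lit 5) (nat_lit 3) (nat_lit 4) (nat_lit 1) (nat_lit 4) (nat_lit 483) (nat_lit 296) (nat_lit 241)) (XT.lf (nat_lit 0) (nat_lit 55801543923) (nat_lit 152) (nat_lit 761831508722) (nat_lit 0) (nat_lit 54127399996) (nat_lit 1) (nat_lit 5) (nat_lit 3) (nat_lit 4) (nat_lit 1) (nat_lit 4) (nat_lit 484) (nat_lit 296) (nat_lit 240))))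 (XT.nd (nat_lit 48594) (nat_lit 0) (nat_lit 380) (XT.nd (nat_lit 48516) (nat_lit 0) (nat_lit 380) (XT.lf (nat_lit 0) (nat_lit 60991940567) (nat_lit 152) (nat_lit 794919722022) (nat_lit 0) (nat_lit 59312247892) (nat_lit 1) (nat_lit 5) (nat_lit 3) (nat_lit 4) (nat_lit 1) (nat_lit 4) (nat_lit 485) (nat_lit 296) (nat_lit 239)) (XT.lf (nat_lit 0) (nat_lit 2041032987) (nat_lit 76) (nat_lit 12859499075) (nat_lit 76) (nat_lit 12859499075) (nat_lit 6) (nat_lit 4) (nat_lit 7) (nat_lit 5) (nat_lit 7) (nat_lit 4) (nat_lit 426) (nat_lit 297) (nat_lit 297))) (XT.nd (nat_lit 78) (nat_lit 0) (nat_lit 0) (XT.lf (nat_lit 0) (nat_lit 15955505326) (nat_lit 76) (nat_lit 21073487860) (nat_lit 76) (nat_lit 20974777307) (nat_lit 6) (nat_lit 4) (nat_lit 7) (nat_lit 5) (nat_lit 7) (nat_lit 4) (nat_lit 427) (nat_lit 297) (nat_lit 296)) (XT.lf (nat_lit 0) (nat_lit 28055149075) (nat_lit 76) (nat_lit 16379220011) (nat_lit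 76) (nat_lit 16186499409) (nat_lit 6) (nat_lit 4) (nat_lit 7) (nat_lit 5) (nat_lit 7) (nat_lit 4) (nat_lit 428) (nat_lit 297) (nat_lit 295))))))) (XT.nd (nat_lit 1014) (nat_lit 0) (nat_lit 0) (XT.nd (nat_lit 468) (nat_lit 76) (nat_lit 0) (XT.nd (nat_lit 234) (nat_lit 152) (nat_lit 0) (XT.nd (nat_lit 78) (nat_lit 0) (nat_lit 0) (XT.lf (nat_lit 0) (nat_lit 40409805896) (nat_lit 76) (nat_lit 11625017776) (nat_lit 76) (nat_lit 11342763793) (nat_lit 6) (nat_lit 4) (nat_lit 7) (nat_lit 5) (nat_lit 7) (nat_lit 4) (nat_lit 429) (nat_lit 297) (nat_lit 294)) (XT.nd (nat_lit 78) (nat_lit 0) (nat_lit 0) (XT.lf (nat_lit 0) (nat_lit 53048891637) (nat_lit 76) (nat_lit 6799561625) (nat_lit 76) (nat_lit 6432037755) (nat_lit 6) (nat_lit 4) (nat_lit 7) (nat_lit 5) (nat_lit 7) (nat_lit 4) (nat_lit 430) (nat_lit 297) (nat_lit 293)) (XT.lf (nat_lit 0) (nat_lit 66002499361) (nat_lit 76) (nat_lit 1891362377) (nat_lit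 76) (nat_lit 1442629092) (nat_lit 6) (nat_lit 4) (nat_lit 7) (nat_lit 5) (nat_lit 7) (nat_lit 4) (nat_lit 431) (nat_lit 297) (nat_lit 292)))) (XT.nd (nat_lit 78) (nat_lit 0) (nat_lit 0) (XT.lf (nat_lit 0) (nat_lit 3680132591) (nat_lit 152) (nat_lit 65682822399) (nat_lit 0) (nat_lit 3179108223) (nat_lit 4) (nat_lit 5) (nat_lit 6) (nat_lit 4) (nat_lit 4) (nat_lit 4) (nat_lit 432) (nat_lit 297) (nat_lit 291)) (XT.nd (nat_lit 78) (nat_lit 0) (nat_lit 0) (XT.lf (nat_lit 0) (nat_lit 8945364323) (nat_lit 152) (nat_lit 58590443651) (nat_lit 0) (nat_lit 8374188209) (nat_lit 4) (nat_lit 5) (nat_lit 6) (nat_lit 4) (nat_lit 4) (nat_lit 4) (nat_lit 433) (nat_lit 297) (nat_lit 290)) (XT.lf (nat_lit 0) (nat_lit 14327590447) (nat_lit 152) (nat_lit 51436450468) (nat_lit 0) (nat_lit 13689603145) (nat_lit 4) (nat_lit 5) (nat_lit 6) (nat_lit 4) (nat_lit 4) (nat_lit 4) (nat_lit 434) (nat_lit 297) (nat_lit 289)))))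 (XT.nd (nat_lit 234) (nat_lit 76) (nat_lit 0) (XT.nd (nat_lit 78) (nat_lit 0) (nat_lit 0) (XT.lf (nat_lit 0) (nat_lit 19839625785) (nat_lit 152) (nat_lit 44203809532) (nat_lit 0) (nat_lit 19138008780) (nat_lit 4) (nat_lit 5) (nat_lit 6) (nat_lit 4) (nat_lit 4) (nat_lit 4) (nat_lit 435) (nat_lit 297) (nat_lit 288)) (XT.nd (nat_lit 78) (nat_lit 0) (nat_lit 0) (XT.lf (nat_lit 0) (nat_lit 25494594231) (nat_lit 152) (nat_lit 36875300270) (nat_lit 0) (nat_lit 24732377510) (nat_lit 4) (nat_lit 5) (nat_lit 6) (nat_lit 4) (nat_lit 4) (nat_lit 4) (nat_lit 436) (nat_lit 297) (nat_lit 287)) (XT.lf (nat_lit 0) (nat_lit 31305959996) (nat_lit 152) (nat_lit 29433473851) (nat_lit 0) (nat_lit 30486029260) (nat_lit 4) (nat_lit 5) (nat_lit 6) (nat_lit 4) (nat_lit 4) (nat_lit 4) (nat_lit 437) (nat_lit 297) (nat_lit 286)))) (XT.nd (nat_lit 156) (nat_lit 76) (nat_lit 0) (XT.nd (nat_lit 78) (nat_lit 0) (nat_lit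 0) (XT.lf (nat_lit 0) (nat_lit 37287559665) (nat_lit 152) (nat_lit 21860611638) (nat_lit 0) (nat_lit 36412663199) (nat_lit 4) (nat_lit 5) (nat_lit 6) (nat_lit 4) (nat_lit 4) (nat_lit 4) (nat_lit 438) (nat_lit 297) (nat_lit 285)) (XT.lf (nat_lit 0) (nat_lit 43453635142) (nat_lit 152) (nat_lit 14138683010) (nat_lit 0) (nat_lit 42526390363) (nat_lit 4) (nat_lit 5) (nat_lit 6) (nat_lit 4) (nat_lit 4) (nat_lit 4) (nat_lit 439) (nat_lit 297) (nat_lit 284))) (XT.nd (nat_lit 78) (nat_lit 76) (nat_lit 0) (XT.lf (nat_lit 0) (nat_lit 49818867559) (nat_lit 152) (nat_lit 6249302420) (nat_lit 0) (nat_lit 48841767244) (nat_lit 4) (nat_lit 5) (nat_lit 6) (nat_lit 4) (nat_lit 4) (nat_lit 4) (nat_lit 440) (nat_lit 297) (nat_lit 283)) (XT.lf (nat_lit 0) (nat_lit 1886700570) (nat_lit 76) (nat_lit 54541168345) (nat_lit 76) (nat_lit 53516586566) (nat_lit 3) (nat_lit 4) (nat_lit 4) (nat_lit 5) (nat_lit 4) (nat_lit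 4) (nat_lit 441) (nat_lit 297) (nat_lit 282)))))) (XT.nd (nat_lit 546) (nat_lit 0) (nat_lit 0) (XT.nd (nat_lit 234) (nat_lit 0) (nat_lit 0) (XT.nd (nat_lit 78) (nat_lit 0) (nat_lit 0) (XT.lf (nat_lit 0) (nat_lit 10441591144) (nat_lit 76) (nat_lit 52929366099) (nat_lit 76) (nat_lit 51859563878) (nat_lit 3) (nat_lit 4) (nat_lit 4) (nat_lit 5) (nat_lit 4) (nat_lit 4) (nat_lit 442) (nat_lit 297) (nat_lit 281)) (XT.nd (nat_lit 78) (nat_lit 0) (nat_lit 0) (XT.lf (nat_lit 0) (nat_lit 19229107927) (nat_lit 76) (nat_lit 51334760576) (nat_lit 76) (nat_lit 50221891269) (nat_lit 3) (nat_lit 4) (nat_lit 4) (nat_lit 5) (nat_lit 4) (nat_lit 4) (nat_lit 443) (nat_lit 297) (nat_lit 280)) (XT.lf (nat_lit 0) (nat_lit 28270173580) (nat_lit 76) (nat_lit 49753555099) (nat_lit 76) (nat_lit 48599669518) (nat_lit 3) (nat_lit 4) (nat_lit 4) (nat_lit 5) (nat_lit 4) (nat_lit 4) (nat_lit 444) (nat_lit 297) (nat_lit 279))))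 (XT.nd (nat_lit 156) (nat_lit 0) (nat_lit 0) (XT.nd (nat_lit 78) (nat_lit 0) (nat_lit 0) (XT.lf (nat_lit 0) (nat_lit 37586314447) (nat_lit 76) (nat_lit 48181984890) (nat_lit 76) (nat_lit 46989036192) (nat_lit 3) (nat_lit 4) (nat_lit 4) (nat_lit 5) (nat_lit 4) (nat_lit 4) (nat_lit 445) (nat_lit 297) (nat_lit 278)) (XT.lf (nat_lit 0) (nat_lit 47199711818) (nat_lit 76) (nat_lit 46616308117) (nat_lit 76) (nat_lit 45386156450) (nat_lit 3) (nat_lit 4) (nat_lit 4) (nat_lit 5) (nat_lit 4) (nat_lit 4) (nat_lit 446) (nat_lit 297) (nat_lit 277))) (XT.nd (nat_lit 78) (nat_lit 0) (nat_lit 0) (XT.lf (nat_lit 0) (nat_lit 57133254734) (nat_lit 76) (nat_lit 45052796979) (nat_lit 76) (nat_lit 43787213912) (nat_lit 3) (nat_lit 4) (nat_lit 4) (nat_lit 5) (nat_lit 4) (nat_lit 4) (nat_lit 447) (nat_lit 297) (nat_lit 276)) (XT.lf (nat_lit 0) (nat_lit 67410594486) (nat_lit 76) (nat_lit 43487728828) (nat_lit 76)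 (nat_lit 42188401572) (nat_lit 3) (nat_lit 4) (nat_lit 4) (nat_lit 5) (nat_lit 4) (nat_lit 4) (nat_lit 448) (nat_lit 297) (nat_lit 275))))) (XT.nd (nat_lit 234) (nat_lit 0) (nat_lit 0) (XT.nd (nat_lit 78) (nat_lit 0) (nat_lit 0) (XT.lf (nat_lit 0) (nat_lit 78056200932) (nat_lit 76) (nat_lit 41917377313) (nat_lit 76) (nat_lit 40585912733) (nat_lit 3) (nat_lit 4) (nat_lit 4) (nat_lit 5) (nat_lit 4) (nat_lit 4) (nat_lit 449) (nat_lit 297) (nat_lit 274)) (XT.nd (nat_lit 78) (nat_lit 0) (nat_lit 0) (XT.lf (nat_lit 0) (nat_lit 89095420754) (nat_lit 76) (nat_lit 40338003501) (nat_lit 76) (nat_lit 38975931947) (nat_lit 3) (nat_lit 4) (nat_lit 4) (nat_lit 5) (nat_lit 4) (nat_lit 4) (nat_lit 450) (nat_lit 297) (nat_lit 273)) (XT.lf (nat_lit 0) (nat_lit 100554537809) (nat_lit 76) (nat_lit 38745846979) (nat_lit 76) (nat_lit 37354625925) (nat_lit 3) (nat_lit 4) (nat_lit 4) (nat_lit 5) (nat_lit 4) (nat_lit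 4) (nat_lit 451) (nat_lit 297) (nat_lit 272)))) (XT.nd (nat_lit 156) (nat_lit 0) (nat_lit 0) (XT.nd (nat_lit 78) (nat_lit 0) (nat_lit 0) (XT.lf (nat_lit 0) (nat_lit 112460835708) (nat_lit 76) (nat_lit 37137116897) (nat_lit 76) (nat_lit 35718134415) (nat_lit 3) (nat_lit 4) (nat_lit 4) (nat_lit 5) (nat_lit 4) (nat_lit 4) (nat_lit 452) (nat_lit 297) (nat_lit 271)) (XT.lf (nat_lit 0) (nat_lit 124842662780) (nat_lit 76) (nat_lit 35507982946) (nat_lit 76) (nat_lit 34062561008) (nat_lit 3) (nat_lit 4) (nat_lit 4) (nat_lit 5) (nat_lit 4) (nat_lit 4) (nat_lit 453) (nat_lit 297) (nat_lit 270))) (XT.nd (nat_lit 78) (nat_lit 0) (nat_lit 0) (XT.lf (nat_lit 0) (nat_lit 137729499565) (nat_lit 76) (nat_lit 33854566236) (nat_lit 76) (nat_lit 32383963864) (nat_lit 3) (nat_lit 4) (nat_lit 4) (nat_lit 5) (nat_lit 4) (nat_lit 4) (nat_lit 454) (nat_lit 297) (nat_lit 269)) (XT.lf (nat_lit 0) (nat_lit 151152029009)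 (nat_lit 76) (nat_lit 32172930060) (nat_lit 76) (nat_lit 30678346323) (nat_lit 3) (nat_lit 4) (nat_lit 4) (nat_lit 5) (nat_lit 4) (nat_lit 4) (nat_lit 455) (nat_lit 297) (nat_lit 268))))))))
noncomputable def xc17 : XT := (XT.nd (nat_lit 2106) (nat_lit 0) (nat_lit 0) (XT.nd (nat_lit 1014) (nat_lit 152) (nat_lit 0) (XT.nd (nat_lit 468) (nat_lit 0) (nat_lit 0) (XT.nd (nat_lit 234) (nat_lit 0) (nat_lit 0) (XT.nd (nat_lit 78) (nat_lit 0) (nat_lit 0) (XT.lf (nat_lit 0) (nat_lit 165142209514) (nat_lit 76) (nat_lit 30459070523) (nat_lit 76) (nat_lit 28941647389) (nat_lit 3) (nat_lit 4) (nat_lit 4) (nat_lit 5) (nat_lit 4) (nat_lit 4) (nat_lit 456) (nat_lit 297) (nat_lit 267)) (XT.nd (nat_lit 78) (nat_lit 0) (nat_lit 0) (XT.lf (nat_lit 0) (nat_lit 179733351035) (nat_lit 76) (nat_lit 28708907005) (nat_lit 76) (nat_lit 27169732067) (nat_lit 3) (nat_lit 4) (nat_lit 4) (nat_lit 5) (nat_lit 4) (nat_lit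 4) (nat_lit 457) (nat_lit 297) (nat_lit 266)) (XT.lf (nat_lit 0) (nat_lit 194960194384) (nat_lit 76) (nat_lit 26918272453) (nat_lit 76) (nat_lit 25358381509) (nat_lit 3) (nat_lit 4) (nat_lit 4) (nat_lit 5) (nat_lit 4) (nat_lit 4) (nat_lit 458) (nat_lit 297) (nat_lit 265)))) (XT.nd (nat_lit 78) (nat_lit 0) (nat_lit 0) (XT.lf (nat_lit 0) (nat_lit 210858993950) (nat_lit 76) (nat_lit 25082903449) (nat_lit 76) (nat_lit 23503282976) (nat_lit 3) (nat_lit 4) (nat_lit 4) (nat_lit 5) (nat_lit 4) (nat_lit 4) (nat_lit 459) (nat_lit 297) (nat_lit 264)) (XT.nd (nat_lit 78) (nat_lit 0) (nat_lit 0) (XT.lf (nat_lit 0) (nat_lit 227467604018) (nat_lit 76) (nat_lit 23198430068) (nat_lit 76) (nat_lit 21600019568) (nat_lit 3) (nat_lit 4) (nat_lit 4) (nat_lit 5) (nat_lit 4) (nat_lit 4) (nat_lit 460) (nat_lit 297) (nat_lit 263)) (XT.lf (nat_lit 0) (nat_lit 244825568898) (nat_lit 76) (nat_lit 21260365468) (nat_lit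 76) (nat_lit 19644059704) (nat_lit 3) (nat_lit 4) (nat_lit 4) (nat_lit 5) (nat_lit 4) (nat_lit 4) (nat_lit 461) (nat_lit 297) (nat_lit 262))))) (XT.nd (nat_lit 234) (nat_lit 0) (nat_lit 0) (XT.nd (nat_lit 78) (nat_lit 0) (nat_lit 0) (XT.lf (nat_lit 0) (nat_lit 262974217077) (nat_lit 76) (nat_lit 19264095211) (nat_lit 76) (nat_lit 17630746337) (nat_lit 3) (nat_lit 4) (nat_lit 4) (nat_lit 5) (nat_lit 4) (nat_lit 4) (nat_lit 462) (nat_lit 297) (nat_lit 261)) (XT.nd (nat_lit 78) (nat_lit 0) (nat_lit 0) (XT.lf (nat_lit 0) (nat_lit 281956759623) (nat_lit 76) (nat_lit 17204866270) (nat_lit 76) (nat_lit 15555285865) (nat_lit 3) (nat_lit 4) (nat_lit 4) (nat_lit 5) (nat_lit 4) (nat_lit 4) (nat_lit 463) (nat_lit 297) (nat_lit 260)) (XT.lf (nat_lit 0) (nat_lit 301818393065) (nat_lit 76) (nat_lit 15077775721) (nat_lit 76) (nat_lit 13412736713) (nat_lit 3) (nat_lit 4) (nat_lit 4) (nat_lit 5) (nat_lit 4)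 (nat_lit 4) (nat_lit 464) (nat_lit 297) (nat_lit 259)))) (XT.nd (nat_lit 156) (nat_lit 0) (nat_lit 0) (XT.nd (nat_lit 78) (nat_lit 0) (nat_lit 0) (XT.lf (nat_lit 0) (nat_lit 322606407008) (nat_lit 76) (nat_lit 12877759062) (nat_lit 76) (nat_lit 11197997576) (nat_lit 3) (nat_lit 4) (nat_lit 4) (nat_lit 5) (nat_lit 4) (nat_lit 4) (nat_lit 465) (nat_lit 297) (nat_lit 258)) (XT.lf (nat_lit 0) (nat_lit 344370296721) (nat_lit 76) (nat_lit 10599578158) (nat_lit 76) (nat_lit 8905795264) (nat_lit 3) (nat_lit 4) (nat_lit 4) (nat_lit 5) (nat_lit 4) (nat_lit 4) (nat_lit 466) (nat_lit 297) (nat_lit 257))) (XT.nd (nat_lit 78) (nat_lit 0) (nat_lit 0) (XT.lf (nat_lit 0) (nat_lit 367161880991) (nat_lit 76) (nat_lit 8237808768) (nat_lit 76) (nat_lit 6530672153) (nat_lit 3) (nat_lit 4) (nat_lit 4) (nat_lit 5) (nat_lit 4) (nat_lit 4) (nat_lit 467) (nat_lit 297) (nat_lit 256)) (XT.lf (nat_lit 0) (nat_lit 391035425493)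 (nat_lit 76) (nat_lit 5786827634) (nat_lit 76) (nat_lit 4066973188) (nat_lit 3) (nat_lit 4) (nat_lit 4) (nat_lit 5) (nat_lit 4) (nat_lit 4) (nat_lit 468) (nat_lit 297) (nat_lit 255)))))) (XT.nd (nat_lit 546) (nat_lit 0) (nat_lit 0) (XT.nd (nat_lit 234) (nat_lit 0) (nat_lit 0) (XT.nd (nat_lit 78) (nat_lit 152) (nat_lit 0) (XT.lf (nat_lit 0) (nat_lit 416047772002) (nat_lit 76) (nat_lit 3240799084) (nat_lit 76) (nat_lit 1508832420) (nat_lit 3) (nat_lit 4) (nat_lit 4) (nat_lit 5) (nat_lit 4) (nat_lit 4) (nat_lit 469) (nat_lit 297) (nat_lit 254)) (XT.nd (nat_lit 78) (nat_lit 0) (nat_lit 0) (XT.lf (nat_lit 0) (nat_lit 556023811) (nat_lit 76) (nat_lit 565696150) (nat_lit 152) (nat_lit 440579242275) (nat_lit 1) (nat_lit 5) (nat_lit 2) (nat_lit 5) (nat_lit 3) (nat_lit 4) (nat_lit 470) (nat_lit 297) (nat_lit 253)) (XT.lf (nat_lit 0) (nat_lit 3923409068) (nat_lit 152) (nat_lit 457468070192) (nat_lit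 0) (nat_lit 2252467876) (nat_lit 1) (nat_lit 5) (nat_lit 3) (nat_lit 4) (nat_lit 1) (nat_lit 4) (nat_lit 471) (nat_lit 297) (nat_lit 252)))) (XT.nd (nat_lit 156) (nat_lit 0) (nat_lit 0) (XT.nd (nat_lit 78) (nat_lit 0) (nat_lit 0) (XT.lf (nat_lit 0) (nat_lit 6849254213) (nat_lit 152) (nat_lit 474667275949) (nat_lit 0) (nat_lit 5168348269) (nat_lit 1) (nat_lit 5) (nat_lit 3) (nat_lit 4) (nat_lit 1) (nat_lit 4) (nat_lit 472) (nat_lit 297) (nat_lit 251)) (XT.lf (nat_lit 0) (nat_lit 9897389594) (nat_lit 152) (nat_lit 492774674085) (nat_lit 0) (nat_lit 8206993409) (nat_lit 1) (nat_lit 5) (nat_lit 3) (nat_lit 4) (nat_lit 1) (nat_lit 4) (nat_lit 473) (nat_lit 297) (nat_lit 250))) (XT.nd (nat_lit 78) (nat_lit 0) (nat_lit 0) (XT.lf (nat_lit 0) (nat_lit 13075072675) (nat_lit 152) (nat_lit 511833377451) (nat_lit 0) (nat_lit 11375638166) (nat_lit 1) (nat_lit 5) (nat_lit 3) (nat_lit 4) (nat_lit 1) (nat_lit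 4) (nat_lit 474) (nat_lit 297) (nat_lit 249)) (XT.lf (nat_lit 0) (nat_lit 16389869369) (nat_lit 152) (nat_lit 531888763914) (nat_lit 0) (nat_lit 14681826932) (nat_lit 1) (nat_lit 5) (nat_lit 3) (nat_lit 4) (nat_lit 1) (nat_lit 4) (nat_lit 475) (nat_lit 297) (nat_lit 248))))) (XT.nd (nat_lit 234) (nat_lit 0) (nat_lit 0) (XT.nd (nat_lit 78) (nat_lit 0) (nat_lit 0) (XT.lf (nat_lit 0) (nat_lit 19849672049) (nat_lit 152) (nat_lit 552988584393) (nat_lit 0) (nat_lit 18133431585) (nat_lit 1) (nat_lit 5) (nat_lit 3) (nat_lit 4) (nat_lit 1) (nat_lit 4) (nat_lit 476) (nat_lit 297) (nat_lit 247)) (XT.nd (nat_lit 78) (nat_lit 0) (nat_lit 0) (XT.lf (nat_lit 0) (nat_lit 23462718341) (nat_lit 152) (nat_lit 575183076557) (nat_lit 0) (nat_lit 21738670232) (nat_lit 1) (nat_lit 5) (nat_lit 3) (nat_lit 4) (nat_lit 1) (nat_lit 4) (nat_lit 477) (nat_lit 297) (nat_lit 246)) (XT.lf (nat_lit 0) (nat_lit 27237610735)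 (nat_lit 152) (nat_lit 598525084433) (nat_lit 0) (nat_lit 25506126774) (nat_lit 1) (nat_lit 5) (nat_lit 3) (nat_lit 4) (nat_lit 1) (nat_lit 4) (nat_lit 478) (nat_lit 297) (nat_lit 245)))) (XT.nd (nat_lit 156) (nat_lit 0) (nat_lit 0) (XT.nd (nat_lit 78) (nat_lit 0) (nat_lit 0) (XT.lf (nat_lit 0) (nat_lit 31183337070) (nat_lit 152) (nat_lit 623070184232) (nat_lit 0) (nat_lit 29444771345) (nat_lit 1) (nat_lit 5) (nat_lit 3) (nat_lit 4) (nat_lit 1) (nat_lit 4) (nat_lit 479) (nat_lit 297) (nat_lit 244)) (XT.lf (nat_lit 0) (nat_lit 35309291933) (nat_lit 152) (nat_lit 648876816668) (nat_lit 0) (nat_lit 33563981672) (nat_lit 1) (nat_lit 5) (nat_lit 3) (nat_lit 4) (nat_lit 1) (nat_lit 4) (nat_lit 480) (nat_lit 297) (nat_lit 243))) (XT.nd (nat_lit 78) (nat_lit 0) (nat_lit 0) (XT.lf (nat_lit 0) (nat_lit 39625299026) (nat_lit 152) (nat_lit 676006426102) (nat_lit 0) (nat_lit 37873565397) (nat_lit 1) (nat_lit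 5) (nat_lit 3) (nat_lit 4) (nat_lit 1) (nat_lit 4) (nat_lit 481) (nat_lit 297) (nat_lit 242)) (XT.lf (nat_lit 0) (nat_lit 44141634557) (nat_lit 152) (nat_lit 704523606844) (nat_lit 0) (nat_lit 42383783434) (nat_lit 1) (nat_lit 5) (nat_lit 3) (nat_lit 4) (nat_lit 1) (nat_lit 4) (nat_lit 482) (nat_lit 297) (nat_lit 241))))))) (XT.nd (nat_lit 49296) (nat_lit 0) (nat_lit 152) (XT.nd (nat_lit 48750) (nat_lit 0) (nat_lit 228) (XT.nd (nat_lit 48516) (nat_lit 0) (nat_lit 380) (XT.nd (nat_lit 78) (nat_lit 0) (nat_lit 0) (XT.lf (nat_lit 0) (nat_lit 48869051705) (nat_lit 152) (nat_lit 734496256942) (nat_lit 0) (nat_lit 47105374397) (nat_lit 1) (nat_lit 5) (nat_lit 3) (nat_lit 4) (nat_lit 1) (nat_lit 4) (nat_lit 483) (nat_lit 297) (nat_lit 240)) (XT.nd (nat_lit 78) (nat_lit 0) (nat_lit 0) (XT.lf (nat_lit 0) (nat_lit 53818806225) (nat_lit 152) (nat_lit 765995739850) (nat_lit 0) (nat_lit 52049580170) (nat_lit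 1) (nat_lit 5) (nat_lit 3) (nat_lit 4) (nat_lit 1) (nat_lit 4) (nat_lit 484) (nat_lit 297) (nat_lit 239)) (XT.lf (nat_lit 0) (nat_lit 59002683248) (nat_lit 152) (nat_lit 799097054336) (nat_lit 0) (nat_lit 57228172671) (nat_lit 1) (nat_lit 5) (nat_lit 3) (nat_lit 4) (nat_lit 1) (nat_lit 4) (nat_lit 485) (nat_lit 297) (nat_lit 238)))) (XT.nd (nat_lit 78) (nat_lit 76) (nat_lit 0) (XT.lf (nat_lit 0) (nat_lit 8153383062) (nat_lit 152) (nat_lit 9148113451) (nat_lit 0) (nat_lit 8153383062) (nat_lit 7) (nat_lit 5) (nat_lit 9) (nat_lit 4) (nat_lit 7) (nat_lit 4) (nat_lit 424) (nat_lit 298) (nat_lit 298)) (XT.nd (nat_lit 78) (nat_lit 76) (nat_lit 0) (XT.lf (nat_lit 0) (nat_lit 22955573488) (nat_lit 152) (nat_lit 7350401603) (nat_lit 0) (nat_lit 22851927408) (nat_lit 7) (nat_lit 5) (nat_lit 9) (nat_lit 4) (nat_lit 7) (nat_lit 4) (nat_lit 425) (nat_lit 298) (nat_lit 297)) (XT.lf (nat_lit 0) (nat_lit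 3893850876) (nat_lit 76) (nat_lit 25916641232) (nat_lit 76) (nat_lit 25714284599) (nat_lit 6) (nat_lit 4) (nat_lit 7) (nat_lit 5) (nat_lit 7) (nat_lit 4) (nat_lit 426) (nat_lit 298) (nat_lit 296))))) (XT.nd (nat_lit 234) (nat_lit 152) (nat_lit 0) (XT.nd (nat_lit 78) (nat_lit 0) (nat_lit 0) (XT.lf (nat_lit 0) (nat_lit 15588037755) (nat_lit 76) (nat_lit 21360651896) (nat_lit 76) (nat_lit 21064285213) (nat_lit 6) (nat_lit 4) (nat_lit 7) (nat_lit 5) (nat_lit 7) (nat_lit 4) (nat_lit 427) (nat_lit 298) (nat_lit 295)) (XT.nd (nat_lit 78) (nat_lit 0) (nat_lit 0) (XT.lf (nat_lit 0) (nat_lit 27516964862) (nat_lit 76) (nat_lit 16751642099) (nat_lit 76) (nat_lit 16365742035) (nat_lit 6) (nat_lit 4) (nat_lit 7) (nat_lit 5) (nat_lit 7) (nat_lit 4) (nat_lit 428) (nat_lit 298) (nat_lit 294)) (XT.lf (nat_lit 0) (nat_lit 39709034404) (nat_lit 76) (nat_lit 12078638008) (nat_lit 76) (nat_lit 11607468058) (nat_lit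 6) (nat_lit 4) (nat_lit 7) (nat_lit 5) (nat_lit 7) (nat_lit 4) (nat_lit 429) (nat_lit 298) (nat_lit 293)))) (XT.nd (nat_lit 156) (nat_lit 152) (nat_lit 0) (XT.nd (nat_lit 78) (nat_lit 0) (nat_lit 0) (XT.lf (nat_lit 0) (nat_lit 52193275119) (nat_lit 76) (nat_lit 7330513423) (nat_lit 76) (nat_lit 6778134058) (nat_lit 6) (nat_lit 4) (nat_lit 7) (nat_lit 5) (nat_lit 7) (nat_lit 4) (nat_lit 430) (nat_lit 298) (nat_lit 292)) (XT.lf (nat_lit 0) (nat_lit 64999411389) (nat_lit 76) (nat_lit 2495963286) (nat_lit 76) (nat_lit 1866241620) (nat_lit 6) (nat_lit 4) (nat_lit 7) (nat_lit 5) (nat_lit 7) (nat_lit 4) (nat_lit 431) (nat_lit 298) (nat_lit 291))) (XT.nd (nat_lit 78) (nat_lit 0) (nat_lit 0) (XT.lf (nat_lit 0) (nat_lit 3168865492) (nat_lit 152) (nat_lit 66904738197) (nat_lit 0) (nat_lit 2498978825) (nat_lit 4) (nat_lit 5) (nat_lit 6) (nat_lit 4) (nat_lit 4) (nat_lit 4) (nat_lit 432) (nat_lit 298)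 (nat_lit 290)) (XT.lf (nat_lit 0) (nat_lit 8362747373) (nat_lit 152) (nat_lit 59955288475) (nat_lit 0) (nat_lit 7626049519) (nat_lit 4) (nat_lit 5) (nat_lit 6) (nat_lit 4) (nat_lit 4) (nat_lit 4) (nat_lit 433) (nat_lit 298) (nat_lit 289)))))) (XT.nd (nat_lit 546) (nat_lit 76) (nat_lit 0) (XT.nd (nat_lit 234) (nat_lit 0) (nat_lit 0) (XT.nd (nat_lit 78) (nat_lit 0) (nat_lit 0) (XT.lf (nat_lit 0) (nat_lit 13677021257) (nat_lit 152) (nat_lit 52937418173) (nat_lit 0) (nat_lit 12876693700) (nat_lit 4) (nat_lit 5) (nat_lit 6) (nat_lit 4) (nat_lit 4) (nat_lit 4) (nat_lit 434) (nat_lit 298) (nat_lit 288)) (XT.nd (nat_lit 78) (nat_lit 0) (nat_lit 0) (XT.lf (nat_lit 0) (nat_lit 19124340176) (nat_lit 152) (nat_lit 45834418077) (nat_lit 0) (nat_lit 18263412903) (nat_lit 4) (nat_lit 5) (nat_lit 6) (nat_lit 4) (nat_lit 4) (nat_lit 4) (nat_lit 435) (nat_lit 298) (nat_lit 287)) (XT.lf (nat_lit 0) (nat_lit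 24717673937) (nat_lit 152) (nat_lit 38629376281) (nat_lit 0) (nat_lit 23799032649) (nat_lit 4) (nat_lit 5) (nat_lit 6) (nat_lit 4) (nat_lit 4) (nat_lit 4) (nat_lit 436) (nat_lit 298) (nat_lit 286)))) (XT.nd (nat_lit 156) (nat_lit 0) (nat_lit 0) (XT.nd (nat_lit 78) (nat_lit 0) (nat_lit 0) (XT.lf (nat_lit 0) (nat_lit 30470340003) (nat_lit 152) (nat_lit 31305137924) (nat_lit 0) (nat_lit 29496732985) (nat_lit 4) (nat_lit 5) (nat_lit 6) (nat_lit 4) (nat_lit 4) (nat_lit 4) (nat_lit 437) (nat_lit 298) (nat_lit 285)) (XT.lf (nat_lit 0) (nat_lit 36396035196) (nat_lit 152) (nat_lit 23844264343) (nat_lit 0) (nat_lit 35370079865) (nat_lit 4) (nat_lit 5) (nat_lit 6) (nat_lit 4) (nat_lit 4) (nat_lit 4) (nat_lit 438) (nat_lit 298) (nat_lit 284))) (XT.nd (nat_lit 78) (nat_lit 0) (nat_lit 0) (XT.lf (nat_lit 0) (nat_lit 42508868315) (nat_lit 152) (nat_lit 16228991553) (nat_lit 0) (nat_lit 41433057447) (nat_lit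 4) (nat_lit 5) (nat_lit 6) (nat_lit 4) (nat_lit 4) (nat_lit 4) (nat_lit 439) (nat_lit 298) (nat_lit 283)) (XT.lf (nat_lit 0) (nat_lit 48823393725) (nat_lit 152) (nat_lit 8441187954) (nat_lit 0) (nat_lit 47700101394) (nat_lit 4) (nat_lit 5) (nat_lit 6) (nat_lit 4) (nat_lit 4) (nat_lit 4) (nat_lit 440) (nat_lit 298) (nat_lit 282))))) (XT.nd (nat_lit 234) (nat_lit 0) (nat_lit 0) (XT.nd (nat_lit 78) (nat_lit 76) (nat_lit 0) (XT.lf (nat_lit 0) (nat_lit 55354646010) (nat_lit 152) (nat_lit 462311154) (nat_lit 0) (nat_lit 54186133237) (nat_lit 4) (nat_lit 5) (nat_lit 6) (nat_lit 4) (nat_lit 4) (nat_lit 4) (nat_lit 441) (nat_lit 298) (nat_lit 281)) (XT.nd (nat_lit 78) (nat_lit 0) (nat_lit 0) (XT.lf (nat_lit 0) (nat_lit 7982113657) (nat_lit 76) (nat_lit 54260685276) (nat_lit 76) (nat_lit 53049105416) (nat_lit 3) (nat_lit 4) (nat_lit 4) (nat_lit 5) (nat_lit 4) (nat_lit 4) (nat_lit 442) (nat_lit 298)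 (nat_lit 280)) (XT.lf (nat_lit 0) (nat_lit 16678983138) (nat_lit 76) (nat_lit 52711509179) (nat_lit 76) (nat_lit 51458913045) (nat_lit 3) (nat_lit 4) (nat_lit 4) (nat_lit 5) (nat_lit 4) (nat_lit 4) (nat_lit 443) (nat_lit 298) (nat_lit 279)))) (XT.nd (nat_lit 156) (nat_lit 0) (nat_lit 0) (XT.nd (nat_lit 78) (nat_lit 0) (nat_lit 0) (XT.lf (nat_lit 0) (nat_lit 25633718025) (nat_lit 76) (nat_lit 51173569820) (nat_lit 76) (nat_lit 49881910569) (nat_lit 3) (nat_lit 4) (nat_lit 4) (nat_lit 5) (nat_lit 4) (nat_lit 4) (nat_lit 444) (nat_lit 298) (nat_lit 278)) (XT.lf (nat_lit 0) (nat_lit 34867639117) (nat_lit 76) (nat_lit 49643205439) (nat_lit 76) (nat_lit 48314343219) (nat_lit 3) (nat_lit 4) (nat_lit 4) (nat_lit 5) (nat_lit 4) (nat_lit 4) (nat_lit 445) (nat_lit 298) (nat_lit 277))) (XT.nd (nat_lit 78) (nat_lit 0) (nat_lit 0) (XT.lf (nat_lit 0) (nat_lit 44402731940) (nat_lit 76) (nat_lit 48116772311)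 (nat_lit 76) (nat_lit 46752478692) (nat_lit 3) (nat_lit 4) (nat_lit 4) (nat_lit 5) (nat_lit 4) (nat_lit 4) (nat_lit 446) (nat_lit 298) (nat_lit 276)) (XT.lf (nat_lit 0) (nat_lit 54261699095) (nat_lit 76) (nat_lit 46590636072) (nat_lit 76) (nat_lit 45192598264) (nat_lit 3) (nat_lit 4) (nat_lit 4) (nat_lit 5) (nat_lit 4) (nat_lit 4) (nat_lit 447) (nat_lit 298) (nat_lit 275))))))))
noncomputable def xc18 : XT := (XT.nd (nat_lit 2106) (nat_lit 0) (nat_lit 0) (XT.nd (nat_lit 1014) (nat_lit 152) (nat_lit 0) (XT.nd (nat_lit 468) (nat_lit 0) (nat_lit 0) (XT.nd (nat_lit 234) (nat_lit 0) (nat_lit 0) (XT.nd (nat_lit 78) (nat_lit 0) (nat_lit 0) (XT.lf (nat_lit 0) (nat_lit 64468014314) (nat_lit 76) (nat_lit 45061163065) (nat_lit 76) (nat_lit 43630987933) (nat_lit 3) (nat_lit 4) (nat_lit 4) (nat_lit 5) (nat_lit 4) (nat_lit 4) (nat_lit 448) (nat_lit 298) (nat_lit 274)) (XT.nd (nat_lit 78) (nat_lit 0) (nat_lit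 0) (XT.lf (nat_lit 0) (nat_lit 75045978347) (nat_lit 76) (nat_lit 43524711686) (nat_lit 76) (nat_lit 42063929579) (nat_lit 3) (nat_lit 4) (nat_lit 4) (nat_lit 5) (nat_lit 4) (nat_lit 4) (nat_lit 449) (nat_lit 298) (nat_lit 273)) (XT.lf (nat_lit 0) (nat_lit 86020776824) (nat_lit 76) (nat_lit 41977623718) (nat_lit 76) (nat_lit 40487692111) (nat_lit 3) (nat_lit 4) (nat_lit 4) (nat_lit 5) (nat_lit 4) (nat_lit 4) (nat_lit 450) (nat_lit 298) (nat_lit 272)))) (XT.nd (nat_lit 78) (nat_lit 0) (nat_lit 0) (XT.lf (nat_lit 0) (nat_lit 97418540216) (nat_lit 76) (nat_lit 40416215618) (nat_lit 76) (nat_lit 38898522583) (nat_lit 3) (nat_lit 4) (nat_lit 4) (nat_lit 5) (nat_lit 4) (nat_lit 4) (nat_lit 451) (nat_lit 298) (nat_lit 271)) (XT.nd (nat_lit 78) (nat_lit 0) (nat_lit 0) (XT.lf (nat_lit 0) (nat_lit 109266406055) (nat_lit 76) (nat_lit 38836769749) (nat_lit 76) (nat_lit 37292637258) (nat_lit 3) (nat_lit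 4) (nat_lit 4) (nat_lit 5) (nat_lit 4) (nat_lit 4) (nat_lit 452) (nat_lit 298) (nat_lit 270)) (XT.lf (nat_lit 0) (nat_lit 121592583546) (nat_lit 76) (nat_lit 37235525524) (nat_lit 76) (nat_lit 35666212600) (nat_lit 3) (nat_lit 4) (nat_lit 4) (nat_lit 5) (nat_lit 4) (nat_lit 4) (nat_lit 453) (nat_lit 298) (nat_lit 269))))) (XT.nd (nat_lit 234) (nat_lit 0) (nat_lit 0) (XT.nd (nat_lit 78) (nat_lit 0) (nat_lit 0) (XT.lf (nat_lit 0) (nat_lit 134426420731) (nat_lit 76) (nat_lit 35608670458) (nat_lit 76) (nat_lit 34015376168) (nat_lit 3) (nat_lit 4) (nat_lit 4) (nat_lit 5) (nat_lit 4) (nat_lit 4) (nat_lit 454) (nat_lit 298) (nat_lit 268)) (XT.nd (nat_lit 78) (nat_lit 0) (nat_lit 0) (XT.lf (nat_lit 0) (nat_lit 147798474365) (nat_lit 76) (nat_lit 33952331085) (nat_lit 76) (nat_lit 32336197399) (nat_lit 3) (nat_lit 4) (nat_lit 4) (nat_lit 5) (nat_lit 4) (nat_lit 4) (nat_lit 455) (nat_lit 298) (nat_lit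 267)) (XT.lf (nat_lit 0) (nat_lit 161740582670) (nat_lit 76) (nat_lit 32262563741) (nat_lit 76) (nat_lit 30624678250) (nat_lit 3) (nat_lit 4) (nat_lit 4) (nat_lit 5) (nat_lit 4) (nat_lit 4) (nat_lit 456) (nat_lit 298) (nat_lit 266)))) (XT.nd (nat_lit 156) (nat_lit 0) (nat_lit 0) (XT.nd (nat_lit 78) (nat_lit 0) (nat_lit 0) (XT.lf (nat_lit 0) (nat_lit 176285941143) (nat_lit 76) (nat_lit 30535345171) (nat_lit 76) (nat_lit 28876743674) (nat_lit 3) (nat_lit 4) (nat_lit 4) (nat_lit 5) (nat_lit 4) (nat_lit 4) (nat_lit 457) (nat_lit 298) (nat_lit 265)) (XT.lf (nat_lit 0) (nat_lit 191469181589) (nat_lit 76) (nat_lit 28766562948) (nat_lit 76) (nat_lit 27088231923) (nat_lit 3) (nat_lit 4) (nat_lit 4) (nat_lit 5) (nat_lit 4) (nat_lit 4) (nat_lit 458) (nat_lit 298) (nat_lit 264))) (XT.nd (nat_lit 78) (nat_lit 0) (nat_lit 0) (XT.lf (nat_lit 0) (nat_lit 207326454582) (nat_lit 76) (nat_lit 26952005687) (nat_lit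 76) (nat_lit 25254884635) (nat_lit 3) (nat_lit 4) (nat_lit 4) (nat_lit 5) (nat_lit 4) (nat_lit 4) (nat_lit 459) (nat_lit 298) (nat_lit 263)) (XT.lf (nat_lit 0) (nat_lit 223895515532) (nat_lit 76) (nat_lit 25087353014) (nat_lit 76) (nat_lit 23372336697) (nat_lit 3) (nat_lit 4) (nat_lit 4) (nat_lit 5) (nat_lit 4) (nat_lit 4) (nat_lit 460) (nat_lit 298) (nat_lit 262)))))) (XT.nd (nat_lit 546) (nat_lit 152) (nat_lit 0) (XT.nd (nat_lit 234) (nat_lit 0) (nat_lit 0) (XT.nd (nat_lit 78) (nat_lit 0) (nat_lit 0) (XT.lf (nat_lit 0) (nat_lit 241215814585) (nat_lit 76) (nat_lit 23168165278) (nat_lit 76) (nat_lit 21436105853) (nat_lit 3) (nat_lit 4) (nat_lit 4) (nat_lit 5) (nat_lit 4) (nat_lit 4) (nat_lit 461) (nat_lit 298) (nat_lit 261)) (XT.nd (nat_lit 78) (nat_lit 0) (nat_lit 0) (XT.lf (nat_lit 0) (nat_lit 259328590549) (nat_lit 76) (nat_lit 21189872986) (nat_lit 76) (nat_lit 19441582029) (nat_lit 3)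 (nat_lit 4) (nat_lit 4) (nat_lit 5) (nat_lit 4) (nat_lit 4) (nat_lit 462) (nat_lit 298) (nat_lit 260)) (XT.lf (nat_lit 0) (nat_lit 278276969080) (nat_lit 76) (nat_lit 19147765918) (nat_lit 76) (nat_lit 17384016358) (nat_lit 3) (nat_lit 4) (nat_lit 4) (nat_lit 5) (nat_lit 4) (nat_lit 4) (nat_lit 463) (nat_lit 298) (nat_lit 259)))) (XT.nd (nat_lit 156) (nat_lit 0) (nat_lit 0) (XT.nd (nat_lit 78) (nat_lit 0) (nat_lit 0) (XT.lf (nat_lit 0) (nat_lit 298106065365) (nat_lit 76) (nat_lit 17036981914) (nat_lit 76) (nat_lit 15258509876) (nat_lit 3) (nat_lit 4) (nat_lit 4) (nat_lit 5) (nat_lit 4) (nat_lit 4) (nat_lit 464) (nat_lit 298) (nat_lit 258)) (XT.lf (nat_lit 0) (nat_lit 318863091538) (nat_lit 76) (nat_lit 14852495298) (nat_lit 76) (nat_lit 13060001852) (nat_lit 3) (nat_lit 4) (nat_lit 4) (nat_lit 5) (nat_lit 4) (nat_lit 4) (nat_lit 465) (nat_lit 298) (nat_lit 257))) (XT.nd (nat_lit 78) (nat_lit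 0) (nat_lit 0) (XT.lf (nat_lit 0) (nat_lit 340597469091) (nat_lit 76) (nat_lit 12589104911) (nat_lit 76) (nat_lit 10783257744) (nat_lit 3) (nat_lit 4) (nat_lit 4) (nat_lit 5) (nat_lit 4) (nat_lit 4) (nat_lit 466) (nat_lit 298) (nat_lit 256)) (XT.lf (nat_lit 0) (nat_lit 363360946541) (nat_lit 76) (nat_lit 10241421729) (nat_lit 76) (nat_lit 8422856731) (nat_lit 3) (nat_lit 4) (nat_lit 4) (nat_lit 5) (nat_lit 4) (nat_lit 4) (nat_lit 467) (nat_lit 298) (nat_lit 255))))) (XT.nd (nat_lit 234) (nat_lit 152) (nat_lit 0) (XT.nd (nat_lit 78) (nat_lit 0) (nat_lit 0) (XT.lf (nat_lit 0) (nat_lit 387207722644) (nat_lit 76) (nat_lit 7803856029) (nat_lit 76) (nat_lit 5973178812) (nat_lit 3) (nat_lit 4) (nat_lit 4) (nat_lit 5) (nat_lit 4) (nat_lit 4) (nat_lit 468) (nat_lit 298) (nat_lit 254)) (XT.nd (nat_lit 78) (nat_lit 0) (nat_lit 0) (XT.lf (nat_lit 0) (nat_lit 412194575438) (nat_lit 76) (nat_lit 5270604084)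 (nat_lit 76) (nat_lit 3428391420) (nat_lit 3) (nat_lit 4) (nat_lit 4) (nat_lit 5) (nat_lit 4) (nat_lit 4) (nat_lit 469) (nat_lit 298) (nat_lit 253)) (XT.lf (nat_lit 0) (nat_lit 438380997430) (nat_lit 76) (nat_lit 2635634342) (nat_lit 76) (nat_lit 782435538) (nat_lit 3) (nat_lit 4) (nat_lit 4) (nat_lit 5) (nat_lit 4) (nat_lit 4) (nat_lit 470) (nat_lit 298) (nat_lit 252)))) (XT.nd (nat_lit 156) (nat_lit 0) (nat_lit 0) (XT.nd (nat_lit 78) (nat_lit 0) (nat_lit 0) (XT.lf (nat_lit 0) (nat_lit 1943651203) (nat_lit 152) (nat_lit 461635309213) (nat_lit 0) (nat_lit 168735209) (nat_lit 1) (nat_lit 5) (nat_lit 3) (nat_lit 4) (nat_lit 1) (nat_lit 4) (nat_lit 471) (nat_lit 298) (nat_lit 251)) (XT.lf (nat_lit 0) (nat_lit 4857788045) (nat_lit 152) (nat_lit 478858042819) (nat_lit 0) (nat_lit 3073381810) (nat_lit 1) (nat_lit 5) (nat_lit 3) (nat_lit 4) (nat_lit 1) (nat_lit 4) (nat_lit 472) (nat_lit 298) (nat_lit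 250))) (XT.nd (nat_lit 78) (nat_lit 0) (nat_lit 0) (XT.lf (nat_lit 0) (nat_lit 7894772661) (nat_lit 152) (nat_lit 496987848430) (nat_lit 0) (nat_lit 6101328101) (nat_lit 1) (nat_lit 5) (nat_lit 3) (nat_lit 4) (nat_lit 1) (nat_lit 4) (nat_lit 473) (nat_lit 298) (nat_lit 249)) (XT.lf (nat_lit 0) (nat_lit 11061835966) (nat_lit 152) (nat_lit 516067892249) (nat_lit 0) (nat_lit 9259783479) (nat_lit 1) (nat_lit 5) (nat_lit 3) (nat_lit 4) (nat_lit 1) (nat_lit 4) (nat_lit 474) (nat_lit 298) (nat_lit 248))))))) (XT.nd (nat_lit 49140) (nat_lit 0) (nat_lit 228) (XT.nd (nat_lit 468) (nat_lit 0) (nat_lit 0) (XT.nd (nat_lit 234) (nat_lit 0) (nat_lit 0) (XT.nd (nat_lit 78) (nat_lit 0) (nat_lit 0) (XT.lf (nat_lit 0) (nat_lit 14366518588) (nat_lit 152) (nat_lit 536143602953) (nat_lit 0) (nat_lit 12556268073) (nat_lit 1) (nat_lit 5) (nat_lit 3) (nat_lit 4) (nat_lit 1) (nat_lit 4) (nat_lit 475) (nat_lit 298)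 (nat_lit 247)) (XT.nd (nat_lit 78) (nat_lit 0) (nat_lit 0) (XT.lf (nat_lit 0) (nat_lit 17816688818) (nat_lit 152) (nat_lit 557262779851) (nat_lit 0) (nat_lit 15998630659) (nat_lit 1) (nat_lit 5) (nat_lit 3) (nat_lit 4) (nat_lit 1) (nat_lit 4) (nat_lit 476) (nat_lit 298) (nat_lit 246)) (XT.lf (nat_lit 0) (nat_lit 21420561347) (nat_lit 152) (nat_lit 579475706700) (nat_lit 0) (nat_lit 19595067336) (nat_lit 1) (nat_lit 5) (nat_lit 3) (nat_lit 4) (nat_lit 1) (nat_lit 4) (nat_lit 477) (nat_lit 298) (nat_lit 245)))) (XT.nd (nat_lit 78) (nat_lit 0) (nat_lit 0) (XT.lf (nat_lit 0) (nat_lit 25186716825) (nat_lit 152) (nat_lit 602835271420) (nat_lit 0) (nat_lit 23354141050) (nat_lit 1) (nat_lit 5) (nat_lit 3) (nat_lit 4) (nat_lit 1) (nat_lit 4) (nat_lit 478) (nat_lit 298) (nat_lit 244)) (XT.nd (nat_lit 78) (nat_lit 0) (nat_lit 0) (XT.lf (nat_lit 0) (nat_lit 29124122287) (nat_lit 152) (nat_lit 627397092022)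 (nat_lit 0) (nat_lit 27284801976) (nat_lit 1) (nat_lit 5) (nat_lit 3) (nat_lit 4) (nat_lit 1) (nat_lit 4) (nat_lit 479) (nat_lit 298) (nat_lit 243)) (XT.lf (nat_lit 0) (nat_lit 33242152510) (nat_lit 152) (nat_lit 653219649032) (nat_lit 0) (nat_lit 31396408830) (nat_lit 1) (nat_lit 5) (nat_lit 3) (nat_lit 4) (nat_lit 1) (nat_lit 4) (nat_lit 480) (nat_lit 298) (nat_lit 242))))) (XT.nd (nat_lit 234) (nat_lit 0) (nat_lit 0) (XT.nd (nat_lit 78) (nat_lit 0) (nat_lit 0) (XT.lf (nat_lit 0) (nat_lit 37550612326) (nat_lit 152) (nat_lit 680364424727) (nat_lit 0) (nat_lit 35698751153) (nat_lit 1) (nat_lit 5) (nat_lit 3) (nat_lit 4) (nat_lit 1) (nat_lit 4) (nat_lit 481) (nat_lit 298) (nat_lit 241)) (XT.nd (nat_lit 78) (nat_lit 0) (nat_lit 0) (XT.lf (nat_lit 0) (nat_lit 42059759975) (nat_lit 152) (nat_lit 708896049527) (nat_lit 0) (nat_lit 40202072617) (nat_lit 1) (nat_lit 5) (nat_lit 3) (nat_lit 4) (nat_lit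 1) (nat_lit 4) (nat_lit 482) (nat_lit 298) (nat_lit 240)) (XT.lf (nat_lit 0) (nat_lit 46780331520) (nat_lit 152) (nat_lit 738882455872) (nat_lit 0) (nat_lit 44917095415) (nat_lit 1) (nat_lit 5) (nat_lit 3) (nat_lit 4) (nat_lit 1) (nat_lit 4) (nat_lit 483) (nat_lit 298) (nat_lit 239)))) (XT.nd (nat_lit 48282) (nat_lit 0) (nat_lit 456) (XT.nd (nat_lit 78) (nat_lit 0) (nat_lit 0) (XT.lf (nat_lit 0) (nat_lit 51723566419) (nat_lit 152) (nat_lit 770395039967) (nat_lit 0) (nat_lit 49855045793) (nat_lit 1) (nat_lit 5) (nat_lit 3) (nat_lit 4) (nat_lit 1) (nat_lit 4) (nat_lit 484) (nat_lit 298) (nat_lit 238)) (XT.lf (nat_lit 0) (nat_lit 56901234278) (nat_lit 152) (nat_lit 803508831773) (nat_lit 0) (nat_lit 55027680775) (nat_lit 1) (nat_lit 5) (nat_lit 3) (nat_lit 4) (nat_lit 1) (nat_lit 4) (nat_lit 485) (nat_lit 298) (nat_lit 237))) (XT.nd (nat_lit 78) (nat_lit 0) (nat_lit 0) (XT.lf (nat_lit 0) (nat_lit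 1795776890) (nat_lit 152) (nat_lit 19784753588) (nat_lit 0) (nat_lit 1795776890) (nat_lit 7) (nat_lit 5) (nat_lit 9) (nat_lit 4) (nat_lit 7) (nat_lit 4) (nat_lit 422) (nat_lit 299) (nat_lit 299)) (XT.lf (nat_lit 0) (nat_lit 9896273980) (nat_lit 152) (nat_lit 29094314057) (nat_lit 0) (nat_lit 9787445596) (nat_lit 7) (nat_lit 5) (nat_lit 9) (nat_lit 4) (nat_lit 7) (nat_lit 4) (nat_lit 423) (nat_lit 299) (nat_lit 298)))))) (XT.nd (nat_lit 546) (nat_lit 152) (nat_lit 0) (XT.nd (nat_lit 234) (nat_lit 0) (nat_lit 0) (XT.nd (nat_lit 78) (nat_lit 76) (nat_lit 0) (XT.lf (nat_lit 0) (nat_lit 16319751001) (nat_lit 152) (nat_lit 18487527494) (nat_lit 0) (nat_lit 16107276537) (nat_lit 7) (nat_lit 5) (nat_lit 9) (nat_lit 4) (nat_lit 7) (nat_lit 4) (nat_lit 424) (nat_lit 299) (nat_lit 297)) (XT.nd (nat_lit 78) (nat_lit 76) (nat_lit 0) (XT.lf (nat_lit 0) (nat_lit 22877278835) (nat_lit 152) (nat_lit 7723893233)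 (nat_lit 0) (nat_lit 22566093818) (nat_lit 7) (nat_lit 5) (nat_lit 9) (nat_lit 4) (nat_lit 7) (nat_lit 4) (nat_lit 425) (nat_lit 299) (nat_lit 296)) (XT.lf (nat_lit 0) (nat_lit 3328757452) (nat_lit 76) (nat_lit 26307684424) (nat_lit 76) (nat_lit 25902489357) (nat_lit 6) (nat_lit 4) (nat_lit 7) (nat_lit 5) (nat_lit 7) (nat_lit 4) (nat_lit 426) (nat_lit 299) (nat_lit 295)))) (XT.nd (nat_lit 156) (nat_lit 0) (nat_lit 0) (XT.nd (nat_lit 78) (nat_lit 0) (nat_lit 0) (XT.lf (nat_lit 0) (nat_lit 14852227689) (nat_lit 76) (nat_lit 21836953139) (nat_lit 76) (nat_lit 21342224692) (nat_lit 6) (nat_lit 4) (nat_lit 7) (nat_lit 5) (nat_lit 7) (nat_lit 4) (nat_lit 427) (nat_lit 299) (nat_lit 294)) (XT.lf (nat_lit 0) (nat_lit 26618567518) (nat_lit 76) (nat_lit 17309141487) (nat_lit 76) (nat_lit 16729143153) (nat_lit 6) (nat_lit 4) (nat_lit 7) (nat_lit 5) (nat_lit 7) (nat_lit 4) (nat_lit 428) (nat_lit 299)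 (nat_lit 293))) (XT.nd (nat_lit 78) (nat_lit 0) (nat_lit 0) (XT.lf (nat_lit 0) (nat_lit 38655792034) (nat_lit 76) (nat_lit 12713468962) (nat_lit 76) (nat_lit 12052261213) (nat_lit 6) (nat_lit 4) (nat_lit 7) (nat_lit 5) (nat_lit 7) (nat_lit 4) (nat_lit 429) (nat_lit 299) (nat_lit 292)) (XT.lf (nat_lit 0) (nat_lit 50992561295) (nat_lit 76) (nat_lit 8038993488) (nat_lit 76) (nat_lit 7300443438) (nat_lit 6) (nat_lit 4) (nat_lit 7) (nat_lit 5) (nat_lit 7) (nat_lit 4) (nat_lit 430) (nat_lit 299) (nat_lit 291))))) (XT.nd (nat_lit 234) (nat_lit 0) (nat_lit 0) (XT.nd (nat_lit 78) (nat_lit 152) (nat_lit 0) (XT.lf (nat_lit 0) (nat_lit 63658248561) (nat_lit 76) (nat_lit 3274585361) (nat_lit 76) (nat_lit 2462375976) (nat_lit 6) (nat_lit 4) (nat_lit 7) (nat_lit 5) (nat_lit 7) (nat_lit 4) (nat_lit 431) (nat_lit 299) (nat_lit 290)) (XT.nd (nat_lit 78) (nat_lit 0) (nat_lit 0) (XT.lf (nat_lit 0) (nat_lit 2485767843)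 (nat_lit 152) (nat_lit 68480754287) (nat_lit 0) (nat_lit 1645423908) (nat_lit 4) (nat_lit 5) (nat_lit 6) (nat_lit 4) (nat_lit 4) (nat_lit 4) (nat_lit 432) (nat_lit 299) (nat_lit 289)) (XT.lf (nat_lit 0) (nat_lit 7611697484) (nat_lit 152) (nat_lit 61667427446) (nat_lit 0) (nat_lit 6707723847) (nat_lit 4) (nat_lit 5) (nat_lit 6) (nat_lit 4) (nat_lit 4) (nat_lit 4) (nat_lit 433) (nat_lit 299) (nat_lit 288)))) (XT.nd (nat_lit 156) (nat_lit 0) (nat_lit 0) (XT.nd (nat_lit 78) (nat_lit 0) (nat_lit 0) (XT.lf (nat_lit 0) (nat_lit 12861254949) (nat_lit 152) (nat_lit 54779197984) (nat_lit 0) (nat_lit 11896681595) (nat_lit 4) (nat_lit 5) (nat_lit 6) (nat_lit 4) (nat_lit 4) (nat_lit 4) (nat_lit 434) (nat_lit 299) (nat_lit 287)) (XT.lf (nat_lit 0) (nat_lit 18246939183) (nat_lit 152) (nat_lit 47799665353) (nat_lit 0) (nat_lit 17224651814) (nat_lit 4) (nat_lit 5) (nat_lit 6) (nat_lit 4) (nat_lit 4) (nat_lit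 4) (nat_lit 435) (nat_lit 299) (nat_lit 286))) (XT.nd (nat_lit 78) (nat_lit 0) (nat_lit 0) (XT.lf (nat_lit 0) (nat_lit 23781573245) (nat_lit 152) (nat_lit 40712211620) (nat_lit 0) (nat_lit 22704320147) (nat_lit 4) (nat_lit 5) (nat_lit 6) (nat_lit 4) (nat_lit 4) (nat_lit 4) (nat_lit 436) (nat_lit 299) (nat_lit 285)) (XT.lf (nat_lit 0) (nat_lit 29478334835) (nat_lit 152) (nat_lit 33499961894) (nat_lit 0) (nat_lit 28348733423) (nat_lit 4) (nat_lit 5) (nat_lit 6) (nat_lit 4) (nat_lit 4) (nat_lit 4) (nat_lit 437) (nat_lit 299) (nat_lit 284))))))))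
noncomputable def xc19 : XT := (XT.nd (nat_lit 2106) (nat_lit 152) (nat_lit 0) (XT.nd (nat_lit 1014) (nat_lit 0) (nat_lit 0) (XT.nd (nat_lit 468) (nat_lit 0) (nat_lit 0) (XT.nd (nat_lit 234) (nat_lit 76) (nat_lit 0) (XT.nd (nat_lit 78) (nat_lit 0) (nat_lit 0) (XT.lf (nat_lit 0) (nat_lit 35350787670) (nat_lit 152) (nat_lit 26145744153) (nat_lit 0) (nat_lit 34171330722) (nat_lit 4) (nat_lit 5) (nat_lit 6) (nat_lit 4) (nat_lit 4) (nat_lit 4) (nat_lit 438) (nat_lit 299) (nat_lit 283)) (XT.nd (nat_lit 78) (nat_lit 0) (nat_lit 0) (XT.lf (nat_lit 0) (nat_lit 41412913782) (nat_lit 152) (nat_lit 18632048353) (nat_lit 0) (nat_lit 40185975370) (nat_lit 4) (nat_lit 5) (nat_lit 6) (nat_lit 4) (nat_lit 4) (nat_lit 4) (nat_lit 439) (nat_lit 299) (nat_lit 282)) (XT.lf (nat_lit 0) (nat_lit 47679146803) (nat_lit 152) (nat_lit 10940984744) (nat_lit 0) (nat_lit 46406987950) (nat_lit 4) (nat_lit 5) (nat_lit 6)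 (nat_lit 4) (nat_lit 4) (nat_lit 4) (nat_lit 440) (nat_lit 299) (nat_lit 281)))) (XT.nd (nat_lit 78) (nat_lit 76) (nat_lit 0) (XT.lf (nat_lit 0) (nat_lit 54164406337) (nat_lit 152) (nat_lit 3054241268) (nat_lit 0) (nat_lit 52849180397) (nat_lit 4) (nat_lit 5) (nat_lit 6) (nat_lit 4) (nat_lit 4) (nat_lit 4) (nat_lit 441) (nat_lit 299) (nat_lit 280)) (XT.nd (nat_lit 78) (nat_lit 0) (nat_lit 0) (XT.lf (nat_lit 0) (nat_lit 5213835325) (nat_lit 76) (nat_lit 55751700734) (nat_lit 76) (nat_lit 54395458520) (nat_lit 3) (nat_lit 4) (nat_lit 4) (nat_lit 5) (nat_lit 4) (nat_lit 4) (nat_lit 442) (nat_lit 299) (nat_lit 279)) (XT.lf (nat_lit 0) (nat_lit 13824374041) (nat_lit 76) (nat_lit 54245790755) (nat_lit 76) (nat_lit 52850485424) (nat_lit 3) (nat_lit 4) (nat_lit 4) (nat_lit 5) (nat_lit 4) (nat_lit 4) (nat_lit 443) (nat_lit 299) (nat_lit 278))))) (XT.nd (nat_lit 234) (nat_lit 0) (nat_lit 0) (XT.nd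 (nat_lit 78) (nat_lit 0) (nat_lit 0) (XT.lf (nat_lit 0) (nat_lit 22696889153) (nat_lit 76) (nat_lit 52749057223) (nat_lit 76) (nat_lit 51316548923) (nat_lit 3) (nat_lit 4) (nat_lit 4) (nat_lit 5) (nat_lit 4) (nat_lit 4) (nat_lit 444) (nat_lit 299) (nat_lit 277)) (XT.nd (nat_lit 78) (nat_lit 0) (nat_lit 0) (XT.lf (nat_lit 0) (nat_lit 31852505697) (nat_lit 76) (nat_lit 51257936487) (nat_lit 76) (nat_lit 49789996788) (nat_lit 3) (nat_lit 4) (nat_lit 4) (nat_lit 5) (nat_lit 4) (nat_lit 4) (nat_lit 445) (nat_lit 299) (nat_lit 276)) (XT.lf (nat_lit 0) (nat_lit 41313022759) (nat_lit 76) (nat_lit 49768878260) (nat_lit 76) (nat_lit 48267194371) (nat_lit 3) (nat_lit 4) (nat_lit 4) (nat_lit 5) (nat_lit 4) (nat_lit 4) (nat_lit 446) (nat_lit 299) (nat_lit 275)))) (XT.nd (nat_lit 156) (nat_lit 0) (nat_lit 0) (XT.nd (nat_lit 78) (nat_lit 0) (nat_lit 0) (XT.lf (nat_lit 0) (nat_lit 51100965381) (nat_lit 76)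 (nat_lit 48278337164) (nat_lit 76) (nat_lit 46744515952) (nat_lit 3) (nat_lit 4) (nat_lit 4) (nat_lit 5) (nat_lit 4) (nat_lit 4) (nat_lit 447) (nat_lit 299) (nat_lit 274)) (XT.lf (nat_lit 0) (nat_lit 61239638187) (nat_lit 76) (nat_lit 46782764292) (nat_lit 76) (nat_lit 45218336105) (nat_lit 3) (nat_lit 4) (nat_lit 4) (nat_lit 5) (nat_lit 4) (nat_lit 4) (nat_lit 448) (nat_lit 299) (nat_lit 273))) (XT.nd (nat_lit 78) (nat_lit 0) (nat_lit 0) (XT.lf (nat_lit 0) (nat_lit 71753180874) (nat_lit 76) (nat_lit 45278598757) (nat_lit 76) (nat_lit 43685021071) (nat_lit 3) (nat_lit 4) (nat_lit 4) (nat_lit 5) (nat_lit 4) (nat_lit 4) (nat_lit 449) (nat_lit 299) (nat_lit 272)) (XT.lf (nat_lit 0) (nat_lit 82666625688) (nat_lit 76) (nat_lit 43762259212) (nat_lit 76) (nat_lit 42140920097) (nat_lit 3) (nat_lit 4) (nat_lit 4) (nat_lit 5) (nat_lit 4) (nat_lit 4) (nat_lit 450) (nat_lit 299) (nat_lit 271)))))) (XT.nd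 (nat_lit 546) (nat_lit 0) (nat_lit 0) (XT.nd (nat_lit 234) (nat_lit 0) (nat_lit 0) (XT.nd (nat_lit 78) (nat_lit 0) (nat_lit 0) (XT.lf (nat_lit 0) (nat_lit 94005957020) (nat_lit 76) (nat_lit 42230135325) (nat_lit 76) (nat_lit 40582356754) (nat_lit 3) (nat_lit 4) (nat_lit 4) (nat_lit 5) (nat_lit 4) (nat_lit 4) (nat_lit 451) (nat_lit 299) (nat_lit 270)) (XT.nd (nat_lit 78) (nat_lit 0) (nat_lit 0) (XT.lf (nat_lit 0) (nat_lit 105798173279) (nat_lit 76) (nat_lit 40678579181) (nat_lit 76) (nat_lit 39005620177) (nat_lit 3) (nat_lit 4) (nat_lit 4) (nat_lit 5) (nat_lit 4) (nat_lit 4) (nat_lit 452) (nat_lit 299) (nat_lit 269)) (XT.lf (nat_lit 0) (nat_lit 118071351170) (nat_lit 76) (nat_lit 39103896600) (nat_lit 76) (nat_lit 37406956230) (nat_lit 3) (nat_lit 4) (nat_lit 4) (nat_lit 5) (nat_lit 4) (nat_lit 4) (nat_lit 453) (nat_lit 299) (nat_lit 268)))) (XT.nd (nat_lit 156) (nat_lit 0) (nat_lit 0) (XT.nd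 (nat_lit 78) (nat_lit 0) (nat_lit 0) (XT.lf (nat_lit 0) (nat_lit 130854712545) (nat_lit 76) (nat_lit 37502338337) (nat_lit 76) (nat_lit 35782558572) (nat_lit 3) (nat_lit 4) (nat_lit 4) (nat_lit 5) (nat_lit 4) (nat_lit 4) (nat_lit 454) (nat_lit 299) (nat_lit 267)) (XT.lf (nat_lit 0) (nat_lit 144178693979) (nat_lit 76) (nat_lit 35870091159) (nat_lit 76) (nat_lit 34128559587) (nat_lit 3) (nat_lit 4) (nat_lit 4) (nat_lit 5) (nat_lit 4) (nat_lit 4) (nat_lit 455) (nat_lit 299) (nat_lit 266))) (XT.nd (nat_lit 78) (nat_lit 0) (nat_lit 0) (XT.lf (nat_lit 0) (nat_lit 158075019236) (nat_lit 76) (nat_lit 34203268761) (nat_lit 76) (nat_lit 32441021185) (nat_lit 3) (nat_lit 4) (nat_lit 4) (nat_lit 5) (nat_lit 4) (nat_lit 4) (nat_lit 456) (nat_lit 299) (nat_lit 265)) (XT.lf (nat_lit 0) (nat_lit 172576774807) (nat_lit 76) (nat_lit 32497902521) (nat_lit 76) (nat_lit 30715925416) (nat_lit 3) (nat_lit 4) (nat_lit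 4) (nat_lit 5) (nat_lit 4) (nat_lit 4) (nat_lit 457) (nat_lit 299) (nat_lit 264))))) (XT.nd (nat_lit 234) (nat_lit 0) (nat_lit 0) (XT.nd (nat_lit 78) (nat_lit 0) (nat_lit 0) (XT.lf (nat_lit 0) (nat_lit 187718488679) (nat_lit 76) (nat_lit 30749932041) (nat_lit 76) (nat_lit 28949164908) (nat_lit 3) (nat_lit 4) (nat_lit 4) (nat_lit 5) (nat_lit 4) (nat_lit 4) (nat_lit 458) (nat_lit 299) (nat_lit 263)) (XT.nd (nat_lit 78) (nat_lit 0) (nat_lit 0) (XT.lf (nat_lit 0) (nat_lit 203536212554) (nat_lit 76) (nat_lit 28955195488) (nat_lit 76) (nat_lit 27136533091) (nat_lit 3) (nat_lit 4) (nat_lit 4) (nat_lit 5) (nat_lit 4) (nat_lit 4) (nat_lit 459) (nat_lit 299) (nat_lit 262)) (XT.lf (nat_lit 0) (nat_lit 220067607677) (nat_lit 76) (nat_lit 27109419679) (nat_lit 76) (nat_lit 25273714173) (nat_lit 3) (nat_lit 4) (nat_lit 4) (nat_lit 5) (nat_lit 4) (nat_lit 4) (nat_lit 460) (nat_lit 299) (nat_lit 261))))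 (XT.nd (nat_lit 156) (nat_lit 0) (nat_lit 0) (XT.nd (nat_lit 78) (nat_lit 0) (nat_lit 0) (XT.lf (nat_lit 0) (nat_lit 237352034515) (nat_lit 76) (nat_lit 25208209909) (nat_lit 76) (nat_lit 23356272871) (nat_lit 3) (nat_lit 4) (nat_lit 4) (nat_lit 5) (nat_lit 4) (nat_lit 4) (nat_lit 461) (nat_lit 299) (nat_lit 260)) (XT.lf (nat_lit 0) (nat_lit 255430646463) (nat_lit 76) (nat_lit 23247039490) (nat_lit 76) (nat_lit 21379643850) (nat_lit 3) (nat_lit 4) (nat_lit 4) (nat_lit 5) (nat_lit 4) (nat_lit 4) (nat_lit 462) (nat_lit 299) (nat_lit 259))) (XT.nd (nat_lit 78) (nat_lit 0) (nat_lit 0) (XT.lf (nat_lit 0) (nat_lit 274346487837) (nat_lit 76) (nat_lit 21221238967) (nat_lit 76) (nat_lit 19339120848) (nat_lit 3) (nat_lit 4) (nat_lit 4) (nat_lit 5) (nat_lit 4) (nat_lit 4) (nat_lit 463) (nat_lit 299) (nat_lit 258)) (XT.lf (nat_lit 0) (nat_lit 294144596353) (nat_lit 76) (nat_lit 19125985005) (nat_lit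 76) (nat_lit 17229845480) (nat_lit 3) (nat_lit 4) (nat_lit 4) (nat_lit 5) (nat_lit 4) (nat_lit 4) (nat_lit 464) (nat_lit 299) (nat_lit 257))))))) (XT.nd (nat_lit 1014) (nat_lit 0) (nat_lit 0) (XT.nd (nat_lit 468) (nat_lit 152) (nat_lit 0) (XT.nd (nat_lit 234) (nat_lit 0) (nat_lit 0) (XT.nd (nat_lit 78) (nat_lit 0) (nat_lit 0) (XT.lf (nat_lit 0) (nat_lit 314872110366) (nat_lit 76) (nat_lit 16956288906) (nat_lit 76) (nat_lit 15046795659) (nat_lit 3) (nat_lit 4) (nat_lit 4) (nat_lit 5) (nat_lit 4) (nat_lit 4) (nat_lit 465) (nat_lit 299) (nat_lit 256)) (XT.nd (nat_lit 78) (nat_lit 0) (nat_lit 0) (XT.lf (nat_lit 0) (nat_lit 336578381099) (nat_lit 76) (nat_lit 14706984726) (nat_lit 76) (nat_lit 12784773648) (nat_lit 3) (nat_lit 4) (nat_lit 4) (nat_lit 5) (nat_lit 4) (nat_lit 4) (nat_lit 466) (nat_lit 299) (nat_lit 255)) (XT.lf (nat_lit 0) (nat_lit 359315090149) (nat_lit 76) (nat_lit 12372716979)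 (nat_lit 76) (nat_lit 10438393682) (nat_lit 3) (nat_lit 4) (nat_lit 4) (nat_lit 5) (nat_lit 4) (nat_lit 4) (nat_lit 467) (nat_lit 299) (nat_lit 254)))) (XT.nd (nat_lit 78) (nat_lit 0) (nat_lit 0) (XT.lf (nat_lit 0) (nat_lit 383136372538) (nat_lit 76) (nat_lit 9947927884) (nat_lit 76) (nat_lit 8002069140) (nat_lit 3) (nat_lit 4) (nat_lit 4) (nat_lit 5) (nat_lit 4) (nat_lit 4) (nat_lit 468) (nat_lit 299) (nat_lit 253)) (XT.nd (nat_lit 78) (nat_lit 0) (nat_lit 0) (XT.lf (nat_lit 0) (nat_lit 408098945605) (nat_lit 76) (nat_lit 7426844134) (nat_lit 76) (nat_lit 5469999250) (nat_lit 3) (nat_lit 4) (nat_lit 4) (nat_lit 5) (nat_lit 4) (nat_lit 4) (nat_lit 469) (nat_lit 299) (nat_lit 252)) (XT.lf (nat_lit 0) (nat_lit 434262244047) (nat_lit 76) (nat_lit 4803463149) (nat_lit 76) (nat_lit 2836155275) (nat_lit 3) (nat_lit 4) (nat_lit 4) (nat_lit 5) (nat_lit 4) (nat_lit 4) (nat_lit 470) (nat_lit 299) (nat_lit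 251))))) (XT.nd (nat_lit 234) (nat_lit 0) (nat_lit 0) (XT.nd (nat_lit 78) (nat_lit 152) (nat_lit 0) (XT.lf (nat_lit 0) (nat_lit 461688561432) (nat_lit 76) (nat_lit 2071538783) (nat_lit 76) (nat_lit 94266156) (nat_lit 3) (nat_lit 4) (nat_lit 4) (nat_lit 5) (nat_lit 4) (nat_lit 4) (nat_lit 471) (nat_lit 299) (nat_lit 250)) (XT.nd (nat_lit 78) (nat_lit 0) (nat_lit 0) (XT.lf (nat_lit 0) (nat_lit 2743889501) (nat_lit 152) (nat_lit 483304283357) (nat_lit 0) (nat_lit 851734389) (nat_lit 1) (nat_lit 5) (nat_lit 3) (nat_lit 4) (nat_lit 1) (nat_lit 4) (nat_lit 472) (nat_lit 299) (nat_lit 249)) (XT.lf (nat_lit 0) (nat_lit 5770254340) (nat_lit 152) (nat_lit 501455429421) (nat_lit 0) (nat_lit 3869491300) (nat_lit 1) (nat_lit 5) (nat_lit 3) (nat_lit 4) (nat_lit 1) (nat_lit 4) (nat_lit 473) (nat_lit 299) (nat_lit 248)))) (XT.nd (nat_lit 156) (nat_lit 0) (nat_lit 0) (XT.nd (nat_lit 78) (nat_lit 0) (nat_lit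 0) (XT.lf (nat_lit 0) (nat_lit 8927203573) (nat_lit 152) (nat_lit 520555797480) (nat_lit 0) (nat_lit 7018242506) (nat_lit 1) (nat_lit 5) (nat_lit 3) (nat_lit 4) (nat_lit 1) (nat_lit 4) (nat_lit 474) (nat_lit 299) (nat_lit 247)) (XT.lf (nat_lit 0) (nat_lit 12222253744) (nat_lit 152) (nat_lit 540650864603) (nat_lit 0) (nat_lit 10305485033) (nat_lit 1) (nat_lit 5) (nat_lit 3) (nat_lit 4) (nat_lit 1) (nat_lit 4) (nat_lit 475) (nat_lit 299) (nat_lit 246))) (XT.nd (nat_lit 78) (nat_lit 0) (nat_lit 0) (XT.lf (nat_lit 0) (nat_lit 15663250212) (nat_lit 152) (nat_lit 561788476188) (nat_lit 0) (nat_lit 13739045649) (nat_lit 1) (nat_lit 5) (nat_lit 3) (nat_lit 4) (nat_lit 1) (nat_lit 4) (nat_lit 476) (nat_lit 299) (nat_lit 245)) (XT.lf (nat_lit 0) (nat_lit 19258385825) (nat_lit 152) (nat_lit 584018959880) (nat_lit 0) (nat_lit 17327099498) (nat_lit 1) (nat_lit 5) (nat_lit 3) (nat_lit 4) (nat_lit 1) (nat_lit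 4) (nat_lit 477) (nat_lit 299) (nat_lit 244)))))) (XT.nd (nat_lit 546) (nat_lit 0) (nat_lit 0) (XT.nd (nat_lit 234) (nat_lit 0) (nat_lit 0) (XT.nd (nat_lit 78) (nat_lit 0) (nat_lit 0) (XT.lf (nat_lit 0) (nat_lit 23016220430) (nat_lit 152) (nat_lit 607395245402) (nat_lit 0) (nat_lit 21078189567) (nat_lit 1) (nat_lit 5) (nat_lit 3) (nat_lit 4) (nat_lit 1) (nat_lit 4) (nat_lit 478) (nat_lit 299) (nat_lit 243)) (XT.nd (nat_lit 78) (nat_lit 0) (nat_lit 0) (XT.lf (nat_lit 0) (nat_lit 26945701252) (nat_lit 152) (nat_lit 631972990579) (nat_lit 0) (nat_lit 25001247020) (nat_lit 1) (nat_lit 5) (nat_lit 3) (nat_lit 4) (nat_lit 1) (nat_lit 4) (nat_lit 479) (nat_lit 299) (nat_lit 242)) (XT.lf (nat_lit 0) (nat_lit 31056184198) (nat_lit 152) (nat_lit 657810713850) (nat_lit 0) (nat_lit 29105612472) (nat_lit 1) (nat_lit 5) (nat_lit 3) (nat_lit 4) (nat_lit 1) (nat_lit 4) (nat_lit 480) (nat_lit 299) (nat_lit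 241)))) (XT.nd (nat_lit 156) (nat_lit 0) (nat_lit 0) (XT.nd (nat_lit 78) (nat_lit 0) (nat_lit 0) (XT.lf (nat_lit 0) (nat_lit 35357456132) (nat_lit 152) (nat_lit 684969933604) (nat_lit 0) (nat_lit 33401058222) (nat_lit 1) (nat_lit 5) (nat_lit 3) (nat_lit 4) (nat_lit 1) (nat_lit 4) (nat_lit 481) (nat_lit 299) (nat_lit 240)) (XT.lf (nat_lit 0) (nat_lit 39859758178) (nat_lit 152) (nat_lit 713515314650) (nat_lit 0) (nat_lit 37897811520) (nat_lit 1) (nat_lit 5) (nat_lit 3) (nat_lit 4) (nat_lit 1) (nat_lit 4) (nat_lit 482) (nat_lit 299) (nat_lit 239))) (XT.nd (nat_lit 78) (nat_lit 0) (nat_lit 0) (XT.lf (nat_lit 0) (nat_lit 44573810102) (nat_lit 152) (nat_lit 743514822181) (nat_lit 0) (nat_lit 42606578923) (nat_lit 1) (nat_lit 5) (nat_lit 3) (nat_lit 4) (nat_lit 1) (nat_lit 4) (nat_lit 483) (nat_lit 299) (nat_lit 238)) (XT.lf (nat_lit 0) (nat_lit 49510835838) (nat_lit 152) (nat_lit 775039883596)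 (nat_lit 0) (nat_lit 47538571782) (nat_lit 1) (nat_lit 5) (nat_lit 3) (nat_lit 4) (nat_lit 1) (nat_lit 4) (nat_lit 484) (nat_lit 299) (nat_lit 237))))) (XT.nd (nat_lit 48204) (nat_lit 0) (nat_lit 456) (XT.nd (nat_lit 48048) (nat_lit 0) (nat_lit 608) (XT.lf (nat_lit 0) (nat_lit 54682590208) (nat_lit 152) (nat_lit 808165558566) (nat_lit 0) (nat_lit 52705532936) (nat_lit 1) (nat_lit 5) (nat_lit 3) (nat_lit 4) (nat_lit 1) (nat_lit 4) (nat_lit 485) (nat_lit 299) (nat_lit 236)) (XT.nd (nat_lit 78) (nat_lit 0) (nat_lit 0) (XT.lf (nat_lit 0) (nat_lit 13127638346) (nat_lit 76) (nat_lit 4182178117) (nat_lit 76) (nat_lit 4182178117) (nat_lit 9) (nat_lit 4) (nat_lit 10) (nat_lit 5) (nat_lit 10) (nat_lit 4) (nat_lit 420) (nat_lit 300) (nat_lit 300)) (XT.lf (nat_lit 0) (nat_lit 39803198693) (nat_lit 76) (nat_lit 2571111680) (nat_lit 76) (nat_lit 2451128387) (nat_lit 9) (nat_lit 4) (nat_lit 10) (nat_lit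 5) (nat_lit 10) (nat_lit 4) (nat_lit 421) (nat_lit 300) (nat_lit 299)))) (XT.nd (nat_lit 156) (nat_lit 0) (nat_lit 0) (XT.nd (nat_lit 78) (nat_lit 0) (nat_lit 0) (XT.lf (nat_lit 0) (nat_lit 3605187901) (nat_lit 152) (nat_lit 39770372796) (nat_lit 0) (nat_lit 3382089713) (nat_lit 7) (nat_lit 5) (nat_lit 9) (nat_lit 4) (nat_lit 7) (nat_lit 4) (nat_lit 422) (nat_lit 300) (nat_lit 298)) (XT.lf (nat_lit 0) (nat_lit 9814064594) (nat_lit 152) (nat_lit 29486480269) (nat_lit 0) (nat_lit 9487320326) (nat_lit 7) (nat_lit 5) (nat_lit 9) (nat_lit 4) (nat_lit 7) (nat_lit 4) (nat_lit 423) (nat_lit 300) (nat_lit 297))) (XT.nd (nat_lit 78) (nat_lit 0) (nat_lit 0) (XT.lf (nat_lit 0) (nat_lit 16146262084) (nat_lit 152) (nat_lit 19061884745) (nat_lit 0) (nat_lit 15720807264) (nat_lit 7) (nat_lit 5) (nat_lit 9) (nat_lit 4) (nat_lit 7) (nat_lit 4) (nat_lit 424) (nat_lit 300) (nat_lit 296)) (XT.lf (nat_lit 0) (nat_lit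 22616857031) (nat_lit 152) (nat_lit 8471765760) (nat_lit 0) (nat_lit 22097392162) (nat_lit 7) (nat_lit 5) (nat_lit 9) (nat_lit 4) (nat_lit 7) (nat_lit 4) (nat_lit 425) (nat_lit 300) (nat_lit 295))))))))
noncomputable def xc20 : XT := (XT.nd (nat_lit 2106) (nat_lit 152) (nat_lit 0) (XT.nd (nat_lit 1014) (nat_lit 76) (nat_lit 0) (XT.nd (nat_lit 468) (nat_lit 152) (nat_lit 0) (XT.nd (nat_lit 234) (nat_lit 0) (nat_lit 0) (XT.nd (nat_lit 78) (nat_lit 0) (nat_lit 0) (XT.lf (nat_lit 0) (nat_lit 2385440241) (nat_lit 76) (nat_lit 26893058781) (nat_lit 76) (nat_lit 26284060530) (nat_lit 6) (nat_lit 4) (nat_lit 7) (nat_lit 5) (nat_lit 7) (nat_lit 4) (nat_lit 426) (nat_lit 300) (nat_lit 294)) (XT.nd (nat_lit 78) (nat_lit 0) (nat_lit 0) (XT.lf (nat_lit 0) (nat_lit 13746323200) (nat_lit 76) (nat_lit 22503525641) (nat_lit 76) (nat_lit 21809257504) (nat_lit 6) (nat_lit 4) (nat_lit 7) (nat_lit 5) (nat_lit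 7) (nat_lit 4) (nat_lit 427) (nat_lit 300) (nat_lit 293)) (XT.lf (nat_lit 0) (nat_lit 25357818002) (nat_lit 76) (nat_lit 18053045555) (nat_lit 76) (nat_lit 17277568002) (nat_lit 6) (nat_lit 4) (nat_lit 7) (nat_lit 5) (nat_lit 7) (nat_lit 4) (nat_lit 428) (nat_lit 300) (nat_lit 292)))) (XT.nd (nat_lit 78) (nat_lit 0) (nat_lit 0) (XT.lf (nat_lit 0) (nat_lit 37247571064) (nat_lit 76) (nat_lit 13531022141) (nat_lit 76) (nat_lit 12678202287) (nat_lit 6) (nat_lit 4) (nat_lit 7) (nat_lit 5) (nat_lit 7) (nat_lit 4) (nat_lit 429) (nat_lit 300) (nat_lit 291)) (XT.nd (nat_lit 78) (nat_lit 0) (nat_lit 0) (XT.lf (nat_lit 0) (nat_lit 49443891321) (nat_lit 76) (nat_lit 8926688677) (nat_lit 76) (nat_lit 8000209489) (nat_lit 6) (nat_lit 4) (nat_lit 7) (nat_lit 5) (nat_lit 7) (nat_lit 4) (nat_lit 430) (nat_lit 300) (nat_lit 290)) (XT.lf (nat_lit 0) (nat_lit 61975817632) (nat_lit 76) (nat_lit 4229082464) (nat_lit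 76) (nat_lit 3232451529) (nat_lit 6) (nat_lit 4) (nat_lit 7) (nat_lit 5) (nat_lit 7) (nat_lit 4) (nat_lit 431) (nat_lit 300) (nat_lit 289))))) (XT.nd (nat_lit 234) (nat_lit 0) (nat_lit 0) (XT.nd (nat_lit 78) (nat_lit 0) (nat_lit 0) (XT.lf (nat_lit 0) (nat_lit 1629213219) (nat_lit 152) (nat_lit 70414623089) (nat_lit 0) (nat_lit 616411199) (nat_lit 4) (nat_lit 5) (nat_lit 6) (nat_lit 4) (nat_lit 4) (nat_lit 4) (nat_lit 432) (nat_lit 300) (nat_lit 288)) (XT.nd (nat_lit 78) (nat_lit 0) (nat_lit 0) (XT.lf (nat_lit 0) (nat_lit 6690426442) (nat_lit 152) (nat_lit 63730937087) (nat_lit 0) (nat_lit 5617024704) (nat_lit 4) (nat_lit 5) (nat_lit 6) (nat_lit 4) (nat_lit 4) (nat_lit 4) (nat_lit 433) (nat_lit 300) (nat_lit 287)) (XT.lf (nat_lit 0) (nat_lit 11878349222) (nat_lit 152) (nat_lit 56966175090) (nat_lit 0) (nat_lit 10747233469) (nat_lit 4) (nat_lit 5) (nat_lit 6) (nat_lit 4) (nat_lit 4) (nat_lit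 4) (nat_lit 434) (nat_lit 300) (nat_lit 286)))) (XT.nd (nat_lit 156) (nat_lit 0) (nat_lit 0) (XT.nd (nat_lit 78) (nat_lit 0) (nat_lit 0) (XT.lf (nat_lit 0) (nat_lit 17205333757) (nat_lit 152) (nat_lit 50104230523) (nat_lit 0) (nat_lit 16019252275) (nat_lit 4) (nat_lit 5) (nat_lit 6) (nat_lit 4) (nat_lit 4) (nat_lit 4) (nat_lit 435) (nat_lit 300) (nat_lit 285)) (XT.lf (nat_lit 0) (nat_lit 22684063343) (nat_lit 152) (nat_lit 43128765421) (nat_lit 0) (nat_lit 21445633547) (nat_lit 4) (nat_lit 5) (nat_lit 6) (nat_lit 4) (nat_lit 4) (nat_lit 4) (nat_lit 436) (nat_lit 300) (nat_lit 284))) (XT.nd (nat_lit 78) (nat_lit 0) (nat_lit 0) (XT.lf (nat_lit 0) (nat_lit 28327582575) (nat_lit 152) (nat_lit 36023171534) (nat_lit 0) (nat_lit 27039297242) (nat_lit 4) (nat_lit 5) (nat_lit 6) (nat_lit 4) (nat_lit 4) (nat_lit 4) (nat_lit 437) (nat_lit 300) (nat_lit 283)) (XT.lf (nat_lit 0) (nat_lit 34149328402)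 (nat_lit 152) (nat_lit 28770530783) (nat_lit 0) (nat_lit 32813561607) (nat_lit 4) (nat_lit 5) (nat_lit 6) (nat_lit 4) (nat_lit 4) (nat_lit 4) (nat_lit 438) (nat_lit 300) (nat_lit 282)))))) (XT.nd (nat_lit 546) (nat_lit 0) (nat_lit 0) (XT.nd (nat_lit 234) (nat_lit 76) (nat_lit 0) (XT.nd (nat_lit 78) (nat_lit 0) (nat_lit 0) (XT.lf (nat_lit 0) (nat_lit 40163162126) (nat_lit 152) (nat_lit 21353574973) (nat_lit 0) (nat_lit 38782174889) (nat_lit 4) (nat_lit 5) (nat_lit 6) (nat_lit 4) (nat_lit 4) (nat_lit 4) (nat_lit 439) (nat_lit 300) (nat_lit 281)) (XT.nd (nat_lit 78) (nat_lit 0) (nat_lit 0) (XT.lf (nat_lit 0) (nat_lit 46383402397) (nat_lit 152) (nat_lit 13754644688) (nat_lit 0) (nat_lit 44959348073) (nat_lit 4) (nat_lit 5) (nat_lit 6) (nat_lit 4) (nat_lit 4) (nat_lit 4) (nat_lit 440) (nat_lit 300) (nat_lit 280)) (XT.lf (nat_lit 0) (nat_lit 52824859311) (nat_lit 152) (nat_lit 5955647235) (nat_lit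 0) (nat_lit 51359788714) (nat_lit 4) (nat_lit 5) (nat_lit 6) (nat_lit 4) (nat_lit 4) (nat_lit 4) (nat_lit 441) (nat_lit 300) (nat_lit 279)))) (XT.nd (nat_lit 156) (nat_lit 0) (nat_lit 0) (XT.nd (nat_lit 78) (nat_lit 0) (nat_lit 0) (XT.lf (nat_lit 0) (nat_lit 2130165009) (nat_lit 76) (nat_lit 57405962507) (nat_lit 76) (nat_lit 55901828792) (nat_lit 3) (nat_lit 4) (nat_lit 4) (nat_lit 5) (nat_lit 4) (nat_lit 4) (nat_lit 442) (nat_lit 300) (nat_lit 278)) (XT.lf (nat_lit 0) (nat_lit 10658483949) (nat_lit 76) (nat_lit 55941258356) (nat_lit 76) (nat_lit 54399921672) (nat_lit 3) (nat_lit 4) (nat_lit 4) (nat_lit 5) (nat_lit 4) (nat_lit 4) (nat_lit 443) (nat_lit 300) (nat_lit 277))) (XT.nd (nat_lit 78) (nat_lit 0) (nat_lit 0) (XT.lf (nat_lit 0) (nat_lit 19452694513) (nat_lit 76) (nat_lit 54483768469) (nat_lit 76) (nat_lit 52907000386) (nat_lit 3) (nat_lit 4) (nat_lit 4) (nat_lit 5) (nat_lit 4) (nat_lit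 4) (nat_lit 444) (nat_lit 300) (nat_lit 276)) (XT.lf (nat_lit 0) (nat_lit 28533735297) (nat_lit 76) (nat_lit 53030022633) (nat_lit 76) (nat_lit 51419510360) (nat_lit 3) (nat_lit 4) (nat_lit 4) (nat_lit 5) (nat_lit 4) (nat_lit 4) (nat_lit 445) (nat_lit 300) (nat_lit 275))))) (XT.nd (nat_lit 234) (nat_lit 0) (nat_lit 0) (XT.nd (nat_lit 78) (nat_lit 0) (nat_lit 0) (XT.lf (nat_lit 0) (nat_lit 37923227825) (nat_lit 76) (nat_lit 51576559549) (nat_lit 76) (nat_lit 49933909952) (nat_lit 3) (nat_lit 4) (nat_lit 4) (nat_lit 5) (nat_lit 4) (nat_lit 4) (nat_lit 446) (nat_lit 300) (nat_lit 274)) (XT.nd (nat_lit 78) (nat_lit 0) (nat_lit 0) (XT.lf (nat_lit 0) (nat_lit 47643528034) (nat_lit 76) (nat_lit 50119918589) (nat_lit 76) (nat_lit 48446662018) (nat_lit 3) (nat_lit 4) (nat_lit 4) (nat_lit 5) (nat_lit 4) (nat_lit 4) (nat_lit 447) (nat_lit 300) (nat_lit 273)) (XT.lf (nat_lit 0) (nat_lit 57717779494)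 (nat_lit 76) (nat_lit 48656631561) (nat_lit 76) (nat_lit 46954225491) (nat_lit 3) (nat_lit 4) (nat_lit 4) (nat_lit 5) (nat_lit 4) (nat_lit 4) (nat_lit 448) (nat_lit 300) (nat_lit 272)))) (XT.nd (nat_lit 156) (nat_lit 0) (nat_lit 0) (XT.nd (nat_lit 78) (nat_lit 0) (nat_lit 0) (XT.lf (nat_lit 0) (nat_lit 68169968519) (nat_lit 76) (nat_lit 47183214449) (nat_lit 76) (nat_lit 45453046950) (nat_lit 3) (nat_lit 4) (nat_lit 4) (nat_lit 5) (nat_lit 4) (nat_lit 4) (nat_lit 449) (nat_lit 300) (nat_lit 271)) (XT.lf (nat_lit 0) (nat_lit 79024981274) (nat_lit 76) (nat_lit 45696159116) (nat_lit 76) (nat_lit 43939552162) (nat_lit 3) (nat_lit 4) (nat_lit 4) (nat_lit 5) (nat_lit 4) (nat_lit 4) (nat_lit 450) (nat_lit 300) (nat_lit 270))) (XT.nd (nat_lit 78) (nat_lit 0) (nat_lit 0) (XT.lf (nat_lit 0) (nat_lit 90308663025) (nat_lit 76) (nat_lit 44191924955) (nat_lit 76) (nat_lit 42410137566) (nat_lit 3) (nat_lit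 4) (nat_lit 4) (nat_lit 5) (nat_lit 4) (nat_lit 4) (nat_lit 451) (nat_lit 300) (nat_lit 269)) (XT.lf (nat_lit 0) (nat_lit 102047879684) (nat_lit 76) (nat_lit 42666930455) (nat_lit 76) (nat_lit 40861161701) (nat_lit 3) (nat_lit 4) (nat_lit 4) (nat_lit 5) (nat_lit 4) (nat_lit 4) (nat_lit 452) (nat_lit 300) (nat_lit 268))))))) (XT.nd (nat_lit 1014) (nat_lit 152) (nat_lit 0) (XT.nd (nat_lit 468) (nat_lit 0) (nat_lit 0) (XT.nd (nat_lit 234) (nat_lit 0) (nat_lit 0) (XT.nd (nat_lit 78) (nat_lit 0) (nat_lit 0) (XT.lf (nat_lit 0) (nat_lit 114270581765) (nat_lit 76) (nat_lit 41117544677) (nat_lit 76) (nat_lit 39288936528) (nat_lit 3) (nat_lit 4) (nat_lit 4) (nat_lit 5) (nat_lit 4) (nat_lit 4) (nat_lit 453) (nat_lit 300) (nat_lit 267)) (XT.nd (nat_lit 78) (nat_lit 0) (nat_lit 0) (XT.lf (nat_lit 0) (nat_lit 127005870940) (nat_lit 76) (nat_lit 39540078608) (nat_lit 76) (nat_lit 37689718653) (nat_lit 3)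 (nat_lit 4) (nat_lit 4) (nat_lit 5) (nat_lit 4) (nat_lit 4) (nat_lit 454) (nat_lit 300) (nat_lit 266)) (XT.lf (nat_lit 0) (nat_lit 140284069325) (nat_lit 76) (nat_lit 37930776376) (nat_lit 76) (nat_lit 36059700416) (nat_lit 3) (nat_lit 4) (nat_lit 4) (nat_lit 5) (nat_lit 4) (nat_lit 4) (nat_lit 455) (nat_lit 300) (nat_lit 265)))) (XT.nd (nat_lit 78) (nat_lit 0) (nat_lit 0) (XT.lf (nat_lit 0) (nat_lit 154136791681) (nat_lit 76) (nat_lit 36285806309) (nat_lit 76) (nat_lit 34395000820) (nat_lit 3) (nat_lit 4) (nat_lit 4) (nat_lit 5) (nat_lit 4) (nat_lit 4) (nat_lit 456) (nat_lit 300) (nat_lit 264)) (XT.nd (nat_lit 78) (nat_lit 0) (nat_lit 0) (XT.lf (nat_lit 0) (nat_lit 168597020677) (nat_lit 76) (nat_lit 34601251811) (nat_lit 76) (nat_lit 32691656295) (nat_lit 3) (nat_lit 4) (nat_lit 4) (nat_lit 5) (nat_lit 4) (nat_lit 4) (nat_lit 457) (nat_lit 300) (nat_lit 263)) (XT.lf (nat_lit 0) (nat_lit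 183699185432) (nat_lit 76) (nat_lit 32873102039) (nat_lit 76) (nat_lit 30945611258) (nat_lit 3) (nat_lit 4) (nat_lit 4) (nat_lit 5) (nat_lit 4) (nat_lit 4) (nat_lit 458) (nat_lit 300) (nat_lit 262))))) (XT.nd (nat_lit 234) (nat_lit 0) (nat_lit 0) (XT.nd (nat_lit 78) (nat_lit 0) (nat_lit 0) (XT.lf (nat_lit 0) (nat_lit 199479243480) (nat_lit 76) (nat_lit 31097242350) (nat_lit 76) (nat_lit 29152708460) (nat_lit 3) (nat_lit 4) (nat_lit 4) (nat_lit 5) (nat_lit 4) (nat_lit 4) (nat_lit 459) (nat_lit 300) (nat_lit 261)) (XT.nd (nat_lit 78) (nat_lit 0) (nat_lit 0) (XT.lf (nat_lit 0) (nat_lit 215974766387) (nat_lit 76) (nat_lit 29269444507) (nat_lit 76) (nat_lit 27308679085) (nat_lit 3) (nat_lit 4) (nat_lit 4) (nat_lit 5) (nat_lit 4) (nat_lit 4) (nat_lit 460) (nat_lit 300) (nat_lit 260)) (XT.lf (nat_lit 0) (nat_lit 233225029210) (nat_lit 76) (nat_lit 27385356610) (nat_lit 76) (nat_lit 25409132586)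 (nat_lit 3) (nat_lit 4) (nat_lit 4) (nat_lit 5) (nat_lit 4) (nat_lit 4) (nat_lit 461) (nat_lit 300) (nat_lit 259)))) (XT.nd (nat_lit 156) (nat_lit 0) (nat_lit 0) (XT.nd (nat_lit 78) (nat_lit 0) (nat_lit 0) (XT.lf (nat_lit 0) (nat_lit 251271104001) (nat_lit 76) (nat_lit 25440492735) (nat_lit 76) (nat_lit 23449546233) (nat_lit 3) (nat_lit 4) (nat_lit 4) (nat_lit 5) (nat_lit 4) (nat_lit 4) (nat_lit 462) (nat_lit 300) (nat_lit 258)) (XT.lf (nat_lit 0) (nat_lit 270155957606) (nat_lit 76) (nat_lit 23430222255) (nat_lit 76) (nat_lit 21425254345) (nat_lit 3) (nat_lit 4) (nat_lit 4) (nat_lit 5) (nat_lit 4) (nat_lit 4) (nat_lit 463) (nat_lit 300) (nat_lit 257))) (XT.nd (nat_lit 78) (nat_lit 0) (nat_lit 0) (XT.lf (nat_lit 0) (nat_lit 289924553962) (nat_lit 76) (nat_lit 21349758811) (nat_lit 76) (nat_lit 19331437180) (nat_lit 3) (nat_lit 4) (nat_lit 4) (nat_lit 5) (nat_lit 4) (nat_lit 4) (nat_lit 464)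 (nat_lit 300) (nat_lit 256)) (XT.lf (nat_lit 0) (nat_lit 310623961155) (nat_lit 76) (nat_lit 19194148919) (nat_lit 76) (nat_lit 17163109457) (nat_lit 3) (nat_lit 4) (nat_lit 4) (nat_lit 5) (nat_lit 4) (nat_lit 4) (nat_lit 465) (nat_lit 300) (nat_lit 255)))))) (XT.nd (nat_lit 546) (nat_lit 76) (nat_lit 0) (XT.nd (nat_lit 234) (nat_lit 76) (nat_lit 0) (XT.nd (nat_lit 78) (nat_lit 0) (nat_lit 0) (XT.lf (nat_lit 0) (nat_lit 332303463488) (nat_lit 76) (nat_lit 16958260174) (nat_lit 76) (nat_lit 14915108493) (nat_lit 3) (nat_lit 4) (nat_lit 4) (nat_lit 5) (nat_lit 4) (nat_lit 4) (nat_lit 466) (nat_lit 300) (nat_lit 254)) (XT.nd (nat_lit 78) (nat_lit 0) (nat_lit 0) (XT.lf (nat_lit 0) (nat_lit 355014678824) (nat_lit 76) (nat_lit 14636769031) (nat_lit 76) (nat_lit 12582081903) (nat_lit 3) (nat_lit 4) (nat_lit 4) (nat_lit 5) (nat_lit 4) (nat_lit 4) (nat_lit 467) (nat_lit 300) (nat_lit 253)) (XT.lf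 (nat_lit 0) (nat_lit 378811681485) (nat_lit 76) (nat_lit 12224148131) (nat_lit 76) (nat_lit 10158474863) (nat_lit 3) (nat_lit 4) (nat_lit 4) (nat_lit 5) (nat_lit 4) (nat_lit 4) (nat_lit 468) (nat_lit 300) (nat_lit 252)))) (XT.nd (nat_lit 156) (nat_lit 76) (nat_lit 0) (XT.nd (nat_lit 78) (nat_lit 0) (nat_lit 0) (XT.lf (nat_lit 0) (nat_lit 403751131002) (nat_lit 76) (nat_lit 9714653138) (nat_lit 76) (nat_lit 7638516880) (nat_lit 3) (nat_lit 4) (nat_lit 4) (nat_lit 5) (nat_lit 4) (nat_lit 4) (nat_lit 469) (nat_lit 300) (nat_lit 251)) (XT.lf (nat_lit 0) (nat_lit 429892407015) (nat_lit 76) (nat_lit 7102309065) (nat_lit 76) (nat_lit 5016208054) (nat_lit 3) (nat_lit 4) (nat_lit 4) (nat_lit 5) (nat_lit 4) (nat_lit 4) (nat_lit 470) (nat_lit 300) (nat_lit 250))) (XT.nd (nat_lit 78) (nat_lit 76) (nat_lit 0) (XT.lf (nat_lit 0) (nat_lit 457297750659) (nat_lit 76) (nat_lit 4380896044) (nat_lit 76) (nat_lit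 2285304792) (nat_lit 3) (nat_lit 4) (nat_lit 4) (nat_lit 5) (nat_lit 4) (nat_lit 4) (nat_lit 471) (nat_lit 300) (nat_lit 249)) (XT.lf (nat_lit 0) (nat_lit 542749312) (nat_lit 152) (nat_lit 991993485) (nat_lit 76) (nat_lit 485480471717) (nat_lit 2) (nat_lit 5) (nat_lit 4) (nat_lit 5) (nat_lit 3) (nat_lit 4) (nat_lit 472) (nat_lit 300) (nat_lit 248))))) (XT.nd (nat_lit 234) (nat_lit 0) (nat_lit 0) (XT.nd (nat_lit 78) (nat_lit 0) (nat_lit 0) (XT.lf (nat_lit 0) (nat_lit 3518776254) (nat_lit 152) (nat_lit 506188054154) (nat_lit 0) (nat_lit 1506169108) (nat_lit 1) (nat_lit 5) (nat_lit 3) (nat_lit 4) (nat_lit 1) (nat_lit 4) (nat_lit 473) (nat_lit 300) (nat_lit 247)) (XT.nd (nat_lit 78) (nat_lit 0) (nat_lit 0) (XT.lf (nat_lit 0) (nat_lit 6666093037) (nat_lit 152) (nat_lit 525307778633) (nat_lit 0) (nat_lit 4645678246) (nat_lit 1) (nat_lit 5) (nat_lit 3) (nat_lit 4) (nat_lit 1) (nat_lit 4) (nat_lit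 474) (nat_lit 300) (nat_lit 246)) (XT.lf (nat_lit 0) (nat_lit 9951969446) (nat_lit 152) (nat_lit 545421280442) (nat_lit 0) (nat_lit 7924118803) (nat_lit 1) (nat_lit 5) (nat_lit 3) (nat_lit 4) (nat_lit 1) (nat_lit 4) (nat_lit 475) (nat_lit 300) (nat_lit 245)))) (XT.nd (nat_lit 156) (nat_lit 0) (nat_lit 0) (XT.nd (nat_lit 78) (nat_lit 0) (nat_lit 0) (XT.lf (nat_lit 0) (nat_lit 13384228998) (nat_lit 152) (nat_lit 566576448869) (nat_lit 0) (nat_lit 11349296591) (nat_lit 1) (nat_lit 5) (nat_lit 3) (nat_lit 4) (nat_lit 1) (nat_lit 4) (nat_lit 476) (nat_lit 300) (nat_lit 244)) (XT.lf (nat_lit 0) (nat_lit 16971043739) (nat_lit 152) (nat_lit 588823653364) (nat_lit 0) (nat_lit 14929366795) (nat_lit 1) (nat_lit 5) (nat_lit 3) (nat_lit 4) (nat_lit 1) (nat_lit 4) (nat_lit 477) (nat_lit 300) (nat_lit 243))) (XT.nd (nat_lit 78) (nat_lit 0) (nat_lit 0) (XT.lf (nat_lit 0) (nat_lit 20720953703) (nat_lit 152)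 (nat_lit 612215863461) (nat_lit 0) (nat_lit 18672853391) (nat_lit 1) (nat_lit 5) (nat_lit 3) (nat_lit 4) (nat_lit 1) (nat_lit 4) (nat_lit 478) (nat_lit 300) (nat_lit 242)) (XT.lf (nat_lit 0) (nat_lit 24642887248) (nat_lit 152) (nat_lit 636808774899) (nat_lit 0) (nat_lit 22588669443) (nat_lit 1) (nat_lit 5) (nat_lit 3) (nat_lit 4) (nat_lit 1) (nat_lit 4) (nat_lit 479) (nat_lit 300) (nat_lit 241))))))))
noncomputable def xc21 : XT := (XT.nd (nat_lit 49920) (nat_lit 0) (nat_lit 152) (XT.nd (nat_lit 48828) (nat_lit 0) (nat_lit 228) (XT.nd (nat_lit 48282) (nat_lit 0) (nat_lit 456) (XT.nd (nat_lit 234) (nat_lit 0) (nat_lit 0) (XT.nd (nat_lit 78) (nat_lit 0) (nat_lit 0) (XT.lf (nat_lit 0) (nat_lit 28746182312) (nat_lit 152) (nat_lit 662660942228) (nat_lit 0) (nat_lit 26686138321) (nat_lit 1) (nat_lit 5) (nat_lit 3) (nat_lit 4) (nat_lit 1) (nat_lit 4) (nat_lit 480) (nat_lit 300) (nat_lit 240)) (XT.nd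 (nat_lit 78) (nat_lit 0) (nat_lit 0) (XT.lf (nat_lit 0) (nat_lit 33040608643) (nat_lit 152) (nat_lit 689833918228) (nat_lit 0) (nat_lit 30975015906) (nat_lit 1) (nat_lit 5) (nat_lit 3) (nat_lit 4) (nat_lit 1) (nat_lit 4) (nat_lit 481) (nat_lit 300) (nat_lit 239)) (XT.lf (nat_lit 0) (nat_lit 37536391068) (nat_lit 152) (nat_lit 718392400461) (nat_lit 0) (nat_lit 35465513809) (nat_lit 1) (nat_lit 5) (nat_lit 3) (nat_lit 4) (nat_lit 1) (nat_lit 4) (nat_lit 482) (nat_lit 300) (nat_lit 238)))) (XT.nd (nat_lit 78) (nat_lit 0) (nat_lit 0) (XT.lf (nat_lit 0) (nat_lit 42244233828) (nat_lit 152) (nat_lit 748404385313) (nat_lit 0) (nat_lit 40168323692) (nat_lit 1) (nat_lit 5) (nat_lit 3) (nat_lit 4) (nat_lit 1) (nat_lit 4) (nat_lit 483) (nat_lit 300) (nat_lit 237)) (XT.nd (nat_lit 78) (nat_lit 0) (nat_lit 0) (XT.lf (nat_lit 0) (nat_lit 47175346075) (nat_lit 152) (nat_lit 779941329891) (nat_lit 0) (nat_lit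 45094642723) (nat_lit 1) (nat_lit 5) (nat_lit 3) (nat_lit 4) (nat_lit 1) (nat_lit 4) (nat_lit 484) (nat_lit 300) (nat_lit 236)) (XT.lf (nat_lit 0) (nat_lit 52341468552) (nat_lit 152) (nat_lit 813078322158) (nat_lit 0) (nat_lit 50256200231) (nat_lit 1) (nat_lit 5) (nat_lit 3) (nat_lit 4) (nat_lit 1) (nat_lit 4) (nat_lit 485) (nat_lit 300) (nat_lit 235))))) (XT.nd (nat_lit 234) (nat_lit 152) (nat_lit 0) (XT.nd (nat_lit 78) (nat_lit 0) (nat_lit 0) (XT.lf (nat_lit 0) (nat_lit 57282115) (nat_lit 76) (nat_lit 9867324667) (nat_lit 76) (nat_lit 9867324667) (nat_lit 9) (nat_lit 4) (nat_lit 10) (nat_lit 5) (nat_lit 10) (nat_lit 4) (nat_lit 418) (nat_lit 301) (nat_lit 301)) (XT.nd (nat_lit 78) (nat_lit 0) (nat_lit 0) (XT.lf (nat_lit 0) (nat_lit 12967208516) (nat_lit 76) (nat_lit 14199346316) (nat_lit 76) (nat_lit 14073363858) (nat_lit 9) (nat_lit 4) (nat_lit 10) (nat_lit 5) (nat_lit 10) (nat_lit 4)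 (nat_lit 419) (nat_lit 301) (nat_lit 300)) (XT.lf (nat_lit 0) (nat_lit 26057935432) (nat_lit 76) (nat_lit 8588491595) (nat_lit 76) (nat_lit 8342525844) (nat_lit 9) (nat_lit 4) (nat_lit 10) (nat_lit 5) (nat_lit 10) (nat_lit 4) (nat_lit 420) (nat_lit 301) (nat_lit 299)))) (XT.nd (nat_lit 156) (nat_lit 0) (nat_lit 0) (XT.nd (nat_lit 78) (nat_lit 152) (nat_lit 0) (XT.lf (nat_lit 0) (nat_lit 39417913374) (nat_lit 76) (nat_lit 2888725994) (nat_lit 76) (nat_lit 2528490439) (nat_lit 9) (nat_lit 4) (nat_lit 10) (nat_lit 5) (nat_lit 10) (nat_lit 4) (nat_lit 421) (nat_lit 301) (nat_lit 298)) (XT.lf (nat_lit 0) (nat_lit 3423024538) (nat_lit 152) (nat_lit 40373447909) (nat_lit 0) (nat_lit 2976296977) (nat_lit 7) (nat_lit 5) (nat_lit 9) (nat_lit 4) (nat_lit 7) (nat_lit 4) (nat_lit 422) (nat_lit 301) (nat_lit 297))) (XT.nd (nat_lit 78) (nat_lit 0) (nat_lit 0) (XT.lf (nat_lit 0) (nat_lit 9540621700) (nat_lit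 152) (nat_lit 30271746421) (nat_lit 0) (nat_lit 8995183587) (nat_lit 7) (nat_lit 5) (nat_lit 9) (nat_lit 4) (nat_lit 7) (nat_lit 4) (nat_lit 423) (nat_lit 301) (nat_lit 296)) (XT.lf (nat_lit 0) (nat_lit 15785886304) (nat_lit 152) (nat_lit 20020666173) (nat_lit 0) (nat_lit 15146438141) (nat_lit 7) (nat_lit 5) (nat_lit 9) (nat_lit 4) (nat_lit 7) (nat_lit 4) (nat_lit 424) (nat_lit 301) (nat_lit 295)))))) (XT.nd (nat_lit 546) (nat_lit 152) (nat_lit 0) (XT.nd (nat_lit 234) (nat_lit 0) (nat_lit 0) (XT.nd (nat_lit 78) (nat_lit 76) (nat_lit 0) (XT.lf (nat_lit 0) (nat_lit 22173688027) (nat_lit 152) (nat_lit 9595799830) (nat_lit 0) (nat_lit 21444706483) (nat_lit 7) (nat_lit 5) (nat_lit 9) (nat_lit 4) (nat_lit 7) (nat_lit 4) (nat_lit 425) (nat_lit 301) (nat_lit 294)) (XT.nd (nat_lit 78) (nat_lit 0) (nat_lit 0) (XT.lf (nat_lit 0) (nat_lit 1061653249) (nat_lit 76) (nat_lit 27674158053) (nat_lit 76) (nat_lit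 26859906622) (nat_lit 6) (nat_lit 4) (nat_lit 7) (nat_lit 5) (nat_lit 7) (nat_lit 4) (nat_lit 426) (nat_lit 301) (nat_lit 293)) (XT.lf (nat_lit 0) (nat_lit 12267691182) (nat_lit 76) (nat_lit 23361956479) (nat_lit 76) (nat_lit 22466495632) (nat_lit 6) (nat_lit 4) (nat_lit 7) (nat_lit 5) (nat_lit 7) (nat_lit 4) (nat_lit 427) (nat_lit 301) (nat_lit 292)))) (XT.nd (nat_lit 156) (nat_lit 0) (nat_lit 0) (XT.nd (nat_lit 78) (nat_lit 0) (nat_lit 0) (XT.lf (nat_lit 0) (nat_lit 23731714530) (nat_lit 76) (nat_lit 18985125503) (nat_lit 76) (nat_lit 18012322356) (nat_lit 6) (nat_lit 4) (nat_lit 7) (nat_lit 5) (nat_lit 7) (nat_lit 4) (nat_lit 428) (nat_lit 301) (nat_lit 291)) (XT.lf (nat_lit 0) (nat_lit 35481018588) (nat_lit 76) (nat_lit 14533244099) (nat_lit 76) (nat_lit 13486781618) (nat_lit 6) (nat_lit 4) (nat_lit 7) (nat_lit 5) (nat_lit 7) (nat_lit 4) (nat_lit 429) (nat_lit 301) (nat_lit 290))) (XT.nd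 (nat_lit 78) (nat_lit 0) (nat_lit 0) (XT.lf (nat_lit 0) (nat_lit 47543577890) (nat_lit 76) (nat_lit 9995712549) (nat_lit 76) (nat_lit 8879098321) (nat_lit 6) (nat_lit 4) (nat_lit 7) (nat_lit 5) (nat_lit 7) (nat_lit 4) (nat_lit 430) (nat_lit 301) (nat_lit 289)) (XT.lf (nat_lit 0) (nat_lit 59948112813) (nat_lit 76) (nat_lit 5361727207) (nat_lit 76) (nat_lit 4178301792) (nat_lit 6) (nat_lit 4) (nat_lit 7) (nat_lit 5) (nat_lit 7) (nat_lit 4) (nat_lit 431) (nat_lit 301) (nat_lit 288))))) (XT.nd (nat_lit 234) (nat_lit 0) (nat_lit 0) (XT.nd (nat_lit 78) (nat_lit 76) (nat_lit 0) (XT.lf (nat_lit 0) (nat_lit 606738817) (nat_lit 152) (nat_lit 3240541) (nat_lit 76) (nat_lit 72107143734) (nat_lit 5) (nat_lit 5) (nat_lit 7) (nat_lit 5) (nat_lit 6) (nat_lit 4) (nat_lit 432) (nat_lit 301) (nat_lit 287)) (XT.nd (nat_lit 78) (nat_lit 0) (nat_lit 0) (XT.lf (nat_lit 0) (nat_lit 5596740744) (nat_lit 152) (nat_lit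 66150730515) (nat_lit 0) (nat_lit 4351355188) (nat_lit 4) (nat_lit 5) (nat_lit 6) (nat_lit 4) (nat_lit 4) (nat_lit 4) (nat_lit 433) (nat_lit 301) (nat_lit 286)) (XT.lf (nat_lit 0) (nat_lit 10725963824) (nat_lit 152) (nat_lit 59503556581) (nat_lit 0) (nat_lit 9425612539) (nat_lit 4) (nat_lit 5) (nat_lit 6) (nat_lit 4) (nat_lit 4) (nat_lit 4) (nat_lit 434) (nat_lit 301) (nat_lit 285)))) (XT.nd (nat_lit 156) (nat_lit 0) (nat_lit 0) (XT.nd (nat_lit 78) (nat_lit 0) (nat_lit 0) (XT.lf (nat_lit 0) (nat_lit 15997043883) (nat_lit 152) (nat_lit 52753600645) (nat_lit 0) (nat_lit 14644344285) (nat_lit 4) (nat_lit 5) (nat_lit 6) (nat_lit 4) (nat_lit 4) (nat_lit 4) (nat_lit 435) (nat_lit 301) (nat_lit 284)) (XT.lf (nat_lit 0) (nat_lit 21422531112) (nat_lit 152) (nat_lit 45884791382) (nat_lit 0) (nat_lit 20019975976) (nat_lit 4) (nat_lit 5) (nat_lit 6) (nat_lit 4) (nat_lit 4) (nat_lit 4) (nat_lit 436) (nat_lit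 301) (nat_lit 283))) (XT.nd (nat_lit 78) (nat_lit 0) (nat_lit 0) (XT.lf (nat_lit 0) (nat_lit 27015343336) (nat_lit 152) (nat_lit 38880774485) (nat_lit 0) (nat_lit 25565306737) (nat_lit 4) (nat_lit 5) (nat_lit 6) (nat_lit 4) (nat_lit 4) (nat_lit 4) (nat_lit 437) (nat_lit 301) (nat_lit 282)) (XT.lf (nat_lit 0) (nat_lit 32788796775) (nat_lit 152) (nat_lit 31724873724) (nat_lit 0) (nat_lit 31293539735) (nat_lit 4) (nat_lit 5) (nat_lit 6) (nat_lit 4) (nat_lit 4) (nat_lit 4) (nat_lit 438) (nat_lit 301) (nat_lit 281))))))) (XT.nd (nat_lit 1014) (nat_lit 0) (nat_lit 0) (XT.nd (nat_lit 468) (nat_lit 0) (nat_lit 0) (XT.nd (nat_lit 234) (nat_lit 76) (nat_lit 0) (XT.nd (nat_lit 78) (nat_lit 0) (nat_lit 0) (XT.lf (nat_lit 0) (nat_lit 38756637748) (nat_lit 152) (nat_lit 24400051239) (nat_lit 0) (nat_lit 37218313621) (nat_lit 4) (nat_lit 5) (nat_lit 6) (nat_lit 4) (nat_lit 4) (nat_lit 4) (nat_lit 439) (nat_lit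 301) (nat_lit 280)) (XT.nd (nat_lit 78) (nat_lit 0) (nat_lit 0) (XT.lf (nat_lit 0) (nat_lit 44933075400) (nat_lit 152) (nat_lit 16888866976) (nat_lit 0) (nat_lit 43353734999) (nat_lit 4) (nat_lit 5) (nat_lit 6) (nat_lit 4) (nat_lit 4) (nat_lit 4) (nat_lit 440) (nat_lit 301) (nat_lit 279)) (XT.lf (nat_lit 0) (nat_lit 51332815533) (nat_lit 152) (nat_lit 9173437164) (nat_lit 0) (nat_lit 49714412015) (nat_lit 4) (nat_lit 5) (nat_lit 6) (nat_lit 4) (nat_lit 4) (nat_lit 4) (nat_lit 441) (nat_lit 301) (nat_lit 278)))) (XT.nd (nat_lit 78) (nat_lit 76) (nat_lit 0) (XT.lf (nat_lit 0) (nat_lit 57971095626) (nat_lit 152) (nat_lit 1235391732) (nat_lit 0) (nat_lit 56315489139) (nat_lit 4) (nat_lit 5) (nat_lit 6) (nat_lit 4) (nat_lit 4) (nat_lit 4) (nat_lit 442) (nat_lit 301) (nat_lit 277)) (XT.nd (nat_lit 78) (nat_lit 0) (nat_lit 0) (XT.lf (nat_lit 0) (nat_lit 7173775029) (nat_lit 76) (nat_lit 57801948809)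 (nat_lit 76) (nat_lit 56110910923) (nat_lit 3) (nat_lit 4) (nat_lit 4) (nat_lit 5) (nat_lit 4) (nat_lit 4) (nat_lit 443) (nat_lit 301) (nat_lit 276)) (XT.lf (nat_lit 0) (nat_lit 15893409833) (nat_lit 76) (nat_lit 56381833822) (nat_lit 76) (nat_lit 54657051746) (nat_lit 3) (nat_lit 4) (nat_lit 4) (nat_lit 5) (nat_lit 4) (nat_lit 4) (nat_lit 444) (nat_lit 301) (nat_lit 275))))) (XT.nd (nat_lit 234) (nat_lit 0) (nat_lit 0) (XT.nd (nat_lit 78) (nat_lit 0) (nat_lit 0) (XT.lf (nat_lit 0) (nat_lit 24903426083) (nat_lit 76) (nat_lit 54963683130) (nat_lit 76) (nat_lit 53206763730) (nat_lit 3) (nat_lit 4) (nat_lit 4) (nat_lit 5) (nat_lit 4) (nat_lit 4) (nat_lit 445) (nat_lit 301) (nat_lit 274)) (XT.nd (nat_lit 78) (nat_lit 0) (nat_lit 0) (XT.lf (nat_lit 0) (nat_lit 34225276198) (nat_lit 76) (nat_lit 53544120181) (nat_lit 76) (nat_lit 51756593807) (nat_lit 3) (nat_lit 4) (nat_lit 4) (nat_lit 5) (nat_lit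 4) (nat_lit 4) (nat_lit 446) (nat_lit 301) (nat_lit 273)) (XT.lf (nat_lit 0) (nat_lit 43881155061) (nat_lit 76) (nat_lit 52119765065) (nat_lit 76) (nat_lit 50303089191) (nat_lit 3) (nat_lit 4) (nat_lit 4) (nat_lit 5) (nat_lit 4) (nat_lit 4) (nat_lit 447) (nat_lit 301) (nat_lit 272)))) (XT.nd (nat_lit 156) (nat_lit 0) (nat_lit 0) (XT.nd (nat_lit 78) (nat_lit 0) (nat_lit 0) (XT.lf (nat_lit 0) (nat_lit 53894052859) (nat_lit 76) (nat_lit 50687226461) (nat_lit 76) (nat_lit 48842789158) (nat_lit 3) (nat_lit 4) (nat_lit 4) (nat_lit 5) (nat_lit 4) (nat_lit 4) (nat_lit 448) (nat_lit 301) (nat_lit 271)) (XT.lf (nat_lit 0) (nat_lit 64287809824) (nat_lit 76) (nat_lit 49243093561) (nat_lit 76) (nat_lit 47372216803) (nat_lit 3) (nat_lit 4) (nat_lit 4) (nat_lit 5) (nat_lit 4) (nat_lit 4) (nat_lit 449) (nat_lit 301) (nat_lit 270))) (XT.nd (nat_lit 78) (nat_lit 0) (nat_lit 0) (XT.lf (nat_lit 0) (nat_lit 75087172998)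 (nat_lit 76) (nat_lit 47783927954) (nat_lit 76) (nat_lit 45887870762) (nat_lit 3) (nat_lit 4) (nat_lit 4) (nat_lit 5) (nat_lit 4) (nat_lit 4) (nat_lit 450) (nat_lit 301) (nat_lit 269)) (XT.lf (nat_lit 0) (nat_lit 86317855150) (nat_lit 76) (nat_lit 46306255436) (nat_lit 76) (nat_lit 44386216879) (nat_lit 3) (nat_lit 4) (nat_lit 4) (nat_lit 5) (nat_lit 4) (nat_lit 4) (nat_lit 451) (nat_lit 301) (nat_lit 268)))))) (XT.nd (nat_lit 546) (nat_lit 0) (nat_lit 0) (XT.nd (nat_lit 234) (nat_lit 0) (nat_lit 0) (XT.nd (nat_lit 78) (nat_lit 0) (nat_lit 0) (XT.lf (nat_lit 0) (nat_lit 98006595998) (nat_lit 76) (nat_lit 44806557740) (nat_lit 76) (nat_lit 42863679787) (nat_lit 3) (nat_lit 4) (nat_lit 4) (nat_lit 5) (nat_lit 4) (nat_lit 4) (nat_lit 452) (nat_lit 301) (nat_lit 267)) (XT.nd (nat_lit 78) (nat_lit 0) (nat_lit 0) (XT.lf (nat_lit 0) (nat_lit 110181225879) (nat_lit 76) (nat_lit 43281264156) (nat_lit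 76) (nat_lit 41316634397) (nat_lit 3) (nat_lit 4) (nat_lit 4) (nat_lit 5) (nat_lit 4) (nat_lit 4) (nat_lit 453) (nat_lit 301) (nat_lit 266)) (XT.lf (nat_lit 0) (nat_lit 122870732006) (nat_lit 76) (nat_lit 41726743033) (nat_lit 76) (nat_lit 39741397270) (nat_lit 3) (nat_lit 4) (nat_lit 4) (nat_lit 5) (nat_lit 4) (nat_lit 4) (nat_lit 454) (nat_lit 301) (nat_lit 265)))) (XT.nd (nat_lit 156) (nat_lit 0) (nat_lit 0) (XT.nd (nat_lit 78) (nat_lit 0) (nat_lit 0) (XT.lf (nat_lit 0) (nat_lit 136105327489) (nat_lit 76) (nat_lit 40139293131) (nat_lit 76) (nat_lit 38134217839) (nat_lit 3) (nat_lit 4) (nat_lit 4) (nat_lit 5) (nat_lit 4) (nat_lit 4) (nat_lit 455) (nat_lit 301) (nat_lit 264)) (XT.lf (nat_lit 0) (nat_lit 149916523271) (nat_lit 76) (nat_lit 38515134807) (nat_lit 76) (nat_lit 36491269487) (nat_lit 3) (nat_lit 4) (nat_lit 4) (nat_lit 5) (nat_lit 4) (nat_lit 4) (nat_lit 456) (nat_lit 301) (nat_lit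 263))) (XT.nd (nat_lit 78) (nat_lit 0) (nat_lit 0) (XT.lf (nat_lit 0) (nat_lit 164337203149) (nat_lit 76) (nat_lit 36850401017) (nat_lit 76) (nat_lit 34808640432) (nat_lit 3) (nat_lit 4) (nat_lit 4) (nat_lit 5) (nat_lit 4) (nat_lit 4) (nat_lit 457) (nat_lit 301) (nat_lit 262)) (XT.lf (nat_lit 0) (nat_lit 179401702077) (nat_lit 76) (nat_lit 35141128109) (nat_lit 76) (nat_lit 33082324416) (nat_lit 3) (nat_lit 4) (nat_lit 4) (nat_lit 5) (nat_lit 4) (nat_lit 4) (nat_lit 458) (nat_lit 301) (nat_lit 261))))) (XT.nd (nat_lit 234) (nat_lit 0) (nat_lit 0) (XT.nd (nat_lit 78) (nat_lit 0) (nat_lit 0) (XT.lf (nat_lit 0) (nat_lit 195145887909) (nat_lit 76) (nat_lit 33383246386) (nat_lit 76) (nat_lit 31308211160) (nat_lit 3) (nat_lit 4) (nat_lit 4) (nat_lit 5) (nat_lit 4) (nat_lit 4) (nat_lit 459) (nat_lit 301) (nat_lit 260)) (XT.nd (nat_lit 78) (nat_lit 0) (nat_lit 0) (XT.lf (nat_lit 0) (nat_lit 211607246802)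 (nat_lit 76) (nat_lit 31572570415) (nat_lit 76) (nat_lit 29482076588) (nat_lit 3) (nat_lit 4) (nat_lit 4) (nat_lit 5) (nat_lit 4) (nat_lit 4) (nat_lit 460) (nat_lit 301) (nat_lit 259)) (XT.lf (nat_lit 0) (nat_lit 228824972468) (nat_lit 76) (nat_lit 29704789063) (nat_lit 76) (nat_lit 27599572757) (nat_lit 3) (nat_lit 4) (nat_lit 4) (nat_lit 5) (nat_lit 4) (nat_lit 4) (nat_lit 461) (nat_lit 301) (nat_lit 258)))) (XT.nd (nat_lit 156) (nat_lit 0) (nat_lit 0) (XT.nd (nat_lit 78) (nat_lit 0) (nat_lit 0) (XT.lf (nat_lit 0) (nat_lit 246840059490) (nat_lit 76) (nat_lit 27775455231) (nat_lit 76) (nat_lit 25656217518) (nat_lit 3) (nat_lit 4) (nat_lit 4) (nat_lit 5) (nat_lit 4) (nat_lit 4) (nat_lit 462) (nat_lit 301) (nat_lit 257)) (XT.lf (nat_lit 0) (nat_lit 265695400934) (nat_lit 76) (nat_lit 25779975268) (nat_lit 76) (nat_lit 23647383834) (nat_lit 3) (nat_lit 4) (nat_lit 4) (nat_lit 5) (nat_lit 4)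 (nat_lit 4) (nat_lit 463) (nat_lit 301) (nat_lit 256))) (XT.nd (nat_lit 78) (nat_lit 0) (nat_lit 0) (XT.lf (nat_lit 0) (nat_lit 285435890470) (nat_lit 76) (nat_lit 23713598031) (nat_lit 76) (nat_lit 21568288766) (nat_lit 3) (nat_lit 4) (nat_lit 4) (nat_lit 5) (nat_lit 4) (nat_lit 4) (nat_lit 464) (nat_lit 301) (nat_lit 255)) (XT.lf (nat_lit 0) (nat_lit 306108529264) (nat_lit 76) (nat_lit 21571403574) (nat_lit 76) (nat_lit 19413982090) (nat_lit 3) (nat_lit 4) (nat_lit 4) (nat_lit 5) (nat_lit 4) (nat_lit 4) (nat_lit 465) (nat_lit 301) (nat_lit 254))))))))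
noncomputable def xc22 : XT := (XT.nd (nat_lit 49764) (nat_lit 0) (nat_lit 152) (XT.nd (nat_lit 1014) (nat_lit 0) (nat_lit 0) (XT.nd (nat_lit 468) (nat_lit 152) (nat_lit 0) (XT.nd (nat_lit 234) (nat_lit 0) (nat_lit 0) (XT.nd (nat_lit 78) (nat_lit 0) (nat_lit 0) (XT.lf (nat_lit 0) (nat_lit 327762537883) (nat_lit 76) (nat_lit 19348291434) (nat_lit 76) (nat_lit 17179334502) (nat_lit 3) (nat_lit 4) (nat_lit 4) (nat_lit 5) (nat_lit 4) (nat_lit 4) (nat_lit 466) (nat_lit 301) (nat_lit 253)) (XT.nd (nat_lit 78) (nat_lit 0) (nat_lit 0) (XT.lf (nat_lit 0) (nat_lit 350449473491) (nat_lit 76) (nat_lit 17038968486) (nat_lit 76) (nat_lit 14859025415) (nat_lit 3) (nat_lit 4) (nat_lit 4) (nat_lit 5) (nat_lit 4) (nat_lit 4) (nat_lit 467) (nat_lit 301) (nat_lit 252)) (XT.lf (nat_lit 0) (nat_lit 374223352602) (nat_lit 76) (nat_lit 14637936343) (nat_lit 76) (nat_lit 12447530282) (nat_lit 3) (nat_lit 4) (nat_lit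 4) (nat_lit 5) (nat_lit 4) (nat_lit 4) (nat_lit 468) (nat_lit 301) (nat_lit 251)))) (XT.nd (nat_lit 78) (nat_lit 0) (nat_lit 0) (XT.lf (nat_lit 0) (nat_lit 399140779690) (nat_lit 76) (nat_lit 12139478262) (nat_lit 76) (nat_lit 9939107448) (nat_lit 3) (nat_lit 4) (nat_lit 4) (nat_lit 5) (nat_lit 4) (nat_lit 4) (nat_lit 469) (nat_lit 301) (nat_lit 250)) (XT.nd (nat_lit 78) (nat_lit 0) (nat_lit 0) (XT.lf (nat_lit 0) (nat_lit 425261081962) (nat_lit 76) (nat_lit 9537645533) (nat_lit 76) (nat_lit 7327784478) (nat_lit 3) (nat_lit 4) (nat_lit 4) (nat_lit 5) (nat_lit 4) (nat_lit 4) (nat_lit 470) (nat_lit 301) (nat_lit 249)) (XT.lf (nat_lit 0) (nat_lit 452646450614) (nat_lit 76) (nat_lit 6826243316) (nat_lit 76) (nat_lit 4607343936) (nat_lit 3) (nat_lit 4) (nat_lit 4) (nat_lit 5) (nat_lit 4) (nat_lit 4) (nat_lit 471) (nat_lit 301) (nat_lit 248))))) (XT.nd (nat_lit 234) (nat_lit 0) (nat_lit 0) (XT.nd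 (nat_lit 78) (nat_lit 152) (nat_lit 0) (XT.lf (nat_lit 0) (nat_lit 481362088904) (nat_lit 76) (nat_lit 3998815891) (nat_lit 76) (nat_lit 1771308584) (nat_lit 3) (nat_lit 4) (nat_lit 4) (nat_lit 5) (nat_lit 4) (nat_lit 4) (nat_lit 472) (nat_lit 301) (nat_lit 247)) (XT.nd (nat_lit 78) (nat_lit 0) (nat_lit 0) (XT.lf (nat_lit 0) (nat_lit 123873942) (nat_lit 76) (nat_lit 1027140338) (nat_lit 152) (nat_lit 510185886985) (nat_lit 1) (nat_lit 5) (nat_lit 2) (nat_lit 5) (nat_lit 3) (nat_lit 4) (nat_lit 473) (nat_lit 301) (nat_lit 246)) (XT.lf (nat_lit 0) (nat_lit 4273120762) (nat_lit 152) (nat_lit 530335149949) (nat_lit 0) (nat_lit 2136441735) (nat_lit 1) (nat_lit 5) (nat_lit 3) (nat_lit 4) (nat_lit 1) (nat_lit 4) (nat_lit 474) (nat_lit 301) (nat_lit 245)))) (XT.nd (nat_lit 156) (nat_lit 0) (nat_lit 0) (XT.nd (nat_lit 78) (nat_lit 0) (nat_lit 0) (XT.lf (nat_lit 0) (nat_lit 7550260255) (nat_lit 152)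 (nat_lit 550466208601) (nat_lit 0) (nat_lit 5406499464) (nat_lit 1) (nat_lit 5) (nat_lit 3) (nat_lit 4) (nat_lit 1) (nat_lit 4) (nat_lit 475) (nat_lit 301) (nat_lit 244)) (XT.lf (nat_lit 0) (nat_lit 10974198935) (nat_lit 152) (nat_lit 571638097831) (nat_lit 0) (nat_lit 8823693607) (nat_lit 1) (nat_lit 5) (nat_lit 3) (nat_lit 4) (nat_lit 1) (nat_lit 4) (nat_lit 476) (nat_lit 301) (nat_lit 243))) (XT.nd (nat_lit 78) (nat_lit 0) (nat_lit 0) (XT.lf (nat_lit 0) (nat_lit 14553089035) (nat_lit 152) (nat_lit 593901226900) (nat_lit 0) (nat_lit 12396160338) (nat_lit 1) (nat_lit 5) (nat_lit 3) (nat_lit 4) (nat_lit 1) (nat_lit 4) (nat_lit 477) (nat_lit 301) (nat_lit 242)) (XT.lf (nat_lit 0) (nat_lit 18295451722) (nat_lit 152) (nat_lit 617308603259) (nat_lit 0) (nat_lit 16132405532) (nat_lit 1) (nat_lit 5) (nat_lit 3) (nat_lit 4) (nat_lit 1) (nat_lit 4) (nat_lit 478) (nat_lit 301) (nat_lit 241)))))) (XT.nd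 (nat_lit 48204) (nat_lit 0) (nat_lit 456) (XT.nd (nat_lit 234) (nat_lit 0) (nat_lit 0) (XT.nd (nat_lit 78) (nat_lit 0) (nat_lit 0) (XT.lf (nat_lit 0) (nat_lit 22210197385) (nat_lit 152) (nat_lit 641915958755) (nat_lit 0) (nat_lit 20041325011) (nat_lit 1) (nat_lit 5) (nat_lit 3) (nat_lit 4) (nat_lit 1) (nat_lit 4) (nat_lit 479) (nat_lit 301) (nat_lit 240)) (XT.nd (nat_lit 78) (nat_lit 0) (nat_lit 0) (XT.lf (nat_lit 0) (nat_lit 26306646846) (nat_lit 152) (nat_lit 667781882330) (nat_lit 0) (nat_lit 24132225724) (nat_lit 1) (nat_lit 5) (nat_lit 3) (nat_lit 4) (nat_lit 1) (nat_lit 4) (nat_lit 480) (nat_lit 301) (nat_lit 239)) (XT.lf (nat_lit 0) (nat_lit 30594553556) (nat_lit 152) (nat_lit 694967959517) (nat_lit 0) (nat_lit 28414847913) (nat_lit 1) (nat_lit 5) (nat_lit 3) (nat_lit 4) (nat_lit 1) (nat_lit 4) (nat_lit 481) (nat_lit 301) (nat_lit 238)))) (XT.nd (nat_lit 156) (nat_lit 0) (nat_lit 0)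 (XT.nd (nat_lit 78) (nat_lit 0) (nat_lit 0) (XT.lf (nat_lit 0) (nat_lit 35084126817) (nat_lit 152) (nat_lit 723538919071) (nat_lit 0) (nat_lit 32899388297) (nat_lit 1) (nat_lit 5) (nat_lit 3) (nat_lit 4) (nat_lit 1) (nat_lit 4) (nat_lit 482) (nat_lit 301) (nat_lit 237)) (XT.lf (nat_lit 0) (nat_lit 39786056089) (nat_lit 152) (nat_lit 753562787085) (nat_lit 0) (nat_lit 37596524353) (nat_lit 1) (nat_lit 5) (nat_lit 3) (nat_lit 4) (nat_lit 1) (nat_lit 4) (nat_lit 483) (nat_lit 301) (nat_lit 236))) (XT.nd (nat_lit 78) (nat_lit 0) (nat_lit 0) (XT.lf (nat_lit 0) (nat_lit 44711536442) (nat_lit 152) (nat_lit 785111048961) (nat_lit 0) (nat_lit 42517439737) (nat_lit 1) (nat_lit 5) (nat_lit 3) (nat_lit 4) (nat_lit 1) (nat_lit 4) (nat_lit 484) (nat_lit 301) (nat_lit 235)) (XT.lf (nat_lit 0) (nat_lit 49872295210) (nat_lit 152) (nat_lit 818258819606) (nat_lit 0) (nat_lit 47673850916) (nat_lit 1) (nat_lit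 5) (nat_lit 3) (nat_lit 4) (nat_lit 1) (nat_lit 4) (nat_lit 485) (nat_lit 301) (nat_lit 234))))) (XT.nd (nat_lit 234) (nat_lit 228) (nat_lit 0) (XT.nd (nat_lit 78) (nat_lit 0) (nat_lit 0) (XT.lf (nat_lit 0) (nat_lit 3130657569) (nat_lit 152) (nat_lit 11993839424) (nat_lit 0) (nat_lit 3130657569) (nat_lit 10) (nat_lit 5) (nat_lit 12) (nat_lit 4) (nat_lit 10) (nat_lit 4) (nat_lit 416) (nat_lit 302) (nat_lit 302)) (XT.nd (nat_lit 78) (nat_lit 0) (nat_lit 0) (XT.lf (nat_lit 0) (nat_lit 13004900333) (nat_lit 152) (nat_lit 12129541536) (nat_lit 0) (nat_lit 12872618752) (nat_lit 10) (nat_lit 5) (nat_lit 12) (nat_lit 4) (nat_lit 10) (nat_lit 4) (nat_lit 417) (nat_lit 302) (nat_lit 301)) (XT.lf (nat_lit 0) (nat_lit 19878793804) (nat_lit 152) (nat_lit 89678902) (nat_lit 0) (nat_lit 19620529765) (nat_lit 10) (nat_lit 5) (nat_lit 12) (nat_lit 4) (nat_lit 10) (nat_lit 4) (nat_lit 418) (nat_lit 302) (nat_lit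 300)))) (XT.nd (nat_lit 156) (nat_lit 152) (nat_lit 0) (XT.nd (nat_lit 78) (nat_lit 0) (nat_lit 0) (XT.lf (nat_lit 0) (nat_lit 12562658932) (nat_lit 76) (nat_lit 14532841346) (nat_lit 76) (nat_lit 14154594013) (nat_lit 9) (nat_lit 4) (nat_lit 10) (nat_lit 5) (nat_lit 10) (nat_lit 4) (nat_lit 419) (nat_lit 302) (nat_lit 299)) (XT.lf (nat_lit 0) (nat_lit 25465441789) (nat_lit 76) (nat_lit 9015465579) (nat_lit 76) (nat_lit 8522948443) (nat_lit 9) (nat_lit 4) (nat_lit 10) (nat_lit 5) (nat_lit 10) (nat_lit 4) (nat_lit 420) (nat_lit 302) (nat_lit 298))) (XT.nd (nat_lit 78) (nat_lit 152) (nat_lit 0) (XT.lf (nat_lit 0) (nat_lit 38646425391) (nat_lit 76) (nat_lit 3404727553) (nat_lit 76) (nat_lit 2803382033) (nat_lit 9) (nat_lit 4) (nat_lit 10) (nat_lit 5) (nat_lit 10) (nat_lit 4) (nat_lit 421) (nat_lit 302) (nat_lit 297)) (XT.lf (nat_lit 0) (nat_lit 3044629969) (nat_lit 152) (nat_lit 41380168409)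 (nat_lit 0) (nat_lit 2373209398) (nat_lit 7) (nat_lit 5) (nat_lit 9) (nat_lit 4) (nat_lit 7) (nat_lit 4) (nat_lit 422) (nat_lit 302) (nat_lit 296))))))) (XT.nd (nat_lit 1014) (nat_lit 76) (nat_lit 0) (XT.nd (nat_lit 468) (nat_lit 152) (nat_lit 0) (XT.nd (nat_lit 234) (nat_lit 76) (nat_lit 0) (XT.nd (nat_lit 78) (nat_lit 0) (nat_lit 0) (XT.lf (nat_lit 0) (nat_lit 9075294245) (nat_lit 152) (nat_lit 31451982195) (nat_lit 0) (nat_lit 8309863624) (nat_lit 7) (nat_lit 5) (nat_lit 9) (nat_lit 4) (nat_lit 7) (nat_lit 4) (nat_lit 423) (nat_lit 302) (nat_lit 295)) (XT.nd (nat_lit 78) (nat_lit 0) (nat_lit 0) (XT.lf (nat_lit 0) (nat_lit 15237765624) (nat_lit 152) (nat_lit 21366154590) (nat_lit 0) (nat_lit 14382801622) (nat_lit 7) (nat_lit 5) (nat_lit 9) (nat_lit 4) (nat_lit 7) (nat_lit 4) (nat_lit 424) (nat_lit 302) (nat_lit 294)) (XT.lf (nat_lit 0) (nat_lit 21546716656) (nat_lit 152) (nat_lit 11098671718)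 (nat_lit 0) (nat_lit 20606482767) (nat_lit 7) (nat_lit 5) (nat_lit 9) (nat_lit 4) (nat_lit 7) (nat_lit 4) (nat_lit 425) (nat_lit 302) (nat_lit 293)))) (XT.nd (nat_lit 78) (nat_lit 76) (nat_lit 0) (XT.lf (nat_lit 0) (nat_lit 28017168654) (nat_lit 152) (nat_lit 625087190) (nat_lit 0) (nat_lit 26995725349) (nat_lit 7) (nat_lit 5) (nat_lit 9) (nat_lit 4) (nat_lit 7) (nat_lit 4) (nat_lit 426) (nat_lit 302) (nat_lit 292)) (XT.nd (nat_lit 78) (nat_lit 0) (nat_lit 0) (XT.lf (nat_lit 0) (nat_lit 10412811082) (nat_lit 76) (nat_lit 24414289535) (nat_lit 76) (nat_lit 23315503929) (nat_lit 6) (nat_lit 4) (nat_lit 7) (nat_lit 5) (nat_lit 7) (nat_lit 4) (nat_lit 427) (nat_lit 302) (nat_lit 291)) (XT.lf (nat_lit 0) (nat_lit 21736385427) (nat_lit 76) (nat_lit 20107600569) (nat_lit 76) (nat_lit 18935155630) (nat_lit 6) (nat_lit 4) (nat_lit 7) (nat_lit 5) (nat_lit 7) (nat_lit 4) (nat_lit 428) (nat_lit 302)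 (nat_lit 290))))) (XT.nd (nat_lit 234) (nat_lit 152) (nat_lit 0) (XT.nd (nat_lit 78) (nat_lit 0) (nat_lit 0) (XT.lf (nat_lit 0) (nat_lit 33351928529) (nat_lit 76) (nat_lit 15722521079) (nat_lit 76) (nat_lit 14479924393) (nat_lit 6) (nat_lit 4) (nat_lit 7) (nat_lit 5) (nat_lit 7) (nat_lit 4) (nat_lit 429) (nat_lit 302) (nat_lit 289)) (XT.nd (nat_lit 78) (nat_lit 0) (nat_lit 0) (XT.lf (nat_lit 0) (nat_lit 45287096444) (nat_lit 76) (nat_lit 11248610400) (nat_lit 76) (nat_lit 9939202527) (nat_lit 6) (nat_lit 4) (nat_lit 7) (nat_lit 5) (nat_lit 7) (nat_lit 4) (nat_lit 430) (nat_lit 302) (nat_lit 288)) (XT.lf (nat_lit 0) (nat_lit 57570306237) (nat_lit 76) (nat_lit 6675216364) (nat_lit 76) (nat_lit 5302178788) (nat_lit 6) (nat_lit 4) (nat_lit 7) (nat_lit 5) (nat_lit 7) (nat_lit 4) (nat_lit 431) (nat_lit 302) (nat_lit 287)))) (XT.nd (nat_lit 156) (nat_lit 0) (nat_lit 0) (XT.nd (nat_lit 78) (nat_lit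 152) (nat_lit 0) (XT.lf (nat_lit 0) (nat_lit 70230803648) (nat_lit 76) (nat_lit 1991449936) (nat_lit 76) (nat_lit 557812644) (nat_lit 6) (nat_lit 4) (nat_lit 7) (nat_lit 5) (nat_lit 7) (nat_lit 4) (nat_lit 432) (nat_lit 302) (nat_lit 286)) (XT.lf (nat_lit 0) (nat_lit 4328036377) (nat_lit 152) (nat_lit 68932569143) (nat_lit 0) (nat_lit 2907701798) (nat_lit 4) (nat_lit 5) (nat_lit 6) (nat_lit 4) (nat_lit 4) (nat_lit 4) (nat_lit 433) (nat_lit 302) (nat_lit 285))) (XT.nd (nat_lit 78) (nat_lit 0) (nat_lit 0) (XT.lf (nat_lit 0) (nat_lit 9401354982) (nat_lit 152) (nat_lit 62397383840) (nat_lit 0) (nat_lit 7928672089) (nat_lit 4) (nat_lit 5) (nat_lit 6) (nat_lit 4) (nat_lit 4) (nat_lit 4) (nat_lit 434) (nat_lit 302) (nat_lit 284)) (XT.lf (nat_lit 0) (nat_lit 14619192683) (nat_lit 152) (nat_lit 55754083743) (nat_lit 0) (nat_lit 13096654254) (nat_lit 4) (nat_lit 5) (nat_lit 6) (nat_lit 4) (nat_lit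 4) (nat_lit 4) (nat_lit 435) (nat_lit 302) (nat_lit 283)))))) (XT.nd (nat_lit 546) (nat_lit 76) (nat_lit 0) (XT.nd (nat_lit 234) (nat_lit 0) (nat_lit 0) (XT.nd (nat_lit 78) (nat_lit 0) (nat_lit 0) (XT.lf (nat_lit 0) (nat_lit 19993972903) (nat_lit 152) (nat_lit 48986851470) (nat_lit 0) (nat_lit 18423953011) (nat_lit 4) (nat_lit 5) (nat_lit 6) (nat_lit 4) (nat_lit 4) (nat_lit 4) (nat_lit 436) (nat_lit 302) (nat_lit 282)) (XT.nd (nat_lit 78) (nat_lit 0) (nat_lit 0) (XT.lf (nat_lit 0) (nat_lit 25538492739) (nat_lit 152) (nat_lit 42079574564) (nat_lit 0) (nat_lit 23923252406) (nat_lit 4) (nat_lit 5) (nat_lit 6) (nat_lit 4) (nat_lit 4) (nat_lit 4) (nat_lit 437) (nat_lit 302) (nat_lit 281)) (XT.lf (nat_lit 0) (nat_lit 31265953429) (nat_lit 152) (nat_lit 35015807126) (nat_lit 0) (nat_lit 29607646008) (nat_lit 4) (nat_lit 5) (nat_lit 6) (nat_lit 4) (nat_lit 4) (nat_lit 4) (nat_lit 438) (nat_lit 302)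 (nat_lit 280)))) (XT.nd (nat_lit 156) (nat_lit 0) (nat_lit 0) (XT.nd (nat_lit 78) (nat_lit 0) (nat_lit 0) (XT.lf (nat_lit 0) (nat_lit 37189991782) (nat_lit 152) (nat_lit 27778730664) (nat_lit 0) (nat_lit 35490668088) (nat_lit 4) (nat_lit 5) (nat_lit 6) (nat_lit 4) (nat_lit 4) (nat_lit 4) (nat_lit 439) (nat_lit 302) (nat_lit 279)) (XT.lf (nat_lit 0) (nat_lit 43324712653) (nat_lit 152) (nat_lit 20351114043) (nat_lit 0) (nat_lit 41586325841) (nat_lit 4) (nat_lit 5) (nat_lit 6) (nat_lit 4) (nat_lit 4) (nat_lit 4) (nat_lit 440) (nat_lit 302) (nat_lit 278))) (XT.nd (nat_lit 78) (nat_lit 0) (nat_lit 0) (XT.lf (nat_lit 0) (nat_lit 49684722519) (nat_lit 152) (nat_lit 12715272460) (nat_lit 0) (nat_lit 47909132738) (nat_lit 4) (nat_lit 5) (nat_lit 6) (nat_lit 4) (nat_lit 4) (nat_lit 4) (nat_lit 441) (nat_lit 302) (nat_lit 277)) (XT.lf (nat_lit 0) (nat_lit 56285164262) (nat_lit 152) (nat_lit 4853025342)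 (nat_lit 0) (nat_lit 54474143082) (nat_lit 4) (nat_lit 5) (nat_lit 6) (nat_lit 4) (nat_lit 4) (nat_lit 4) (nat_lit 442) (nat_lit 302) (nat_lit 276))))) (XT.nd (nat_lit 234) (nat_lit 0) (nat_lit 0) (XT.nd (nat_lit 78) (nat_lit 0) (nat_lit 0) (XT.lf (nat_lit 0) (nat_lit 3361950355) (nat_lit 76) (nat_lit 59832292330) (nat_lit 76) (nat_lit 57987526961) (nat_lit 3) (nat_lit 4) (nat_lit 4) (nat_lit 5) (nat_lit 4) (nat_lit 4) (nat_lit 443) (nat_lit 302) (nat_lit 275)) (XT.nd (nat_lit 78) (nat_lit 0) (nat_lit 0) (XT.lf (nat_lit 0) (nat_lit 12010560624) (nat_lit 76) (nat_lit 58447772487) (nat_lit 76) (nat_lit 56570869794) (nat_lit 3) (nat_lit 4) (nat_lit 4) (nat_lit 5) (nat_lit 4) (nat_lit 4) (nat_lit 444) (nat_lit 302) (nat_lit 274)) (XT.lf (nat_lit 0) (nat_lit 20952934461) (nat_lit 76) (nat_lit 57063521930) (nat_lit 76) (nat_lit 55156012262) (nat_lit 3) (nat_lit 4) (nat_lit 4) (nat_lit 5) (nat_lit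 4) (nat_lit 4) (nat_lit 445) (nat_lit 302) (nat_lit 273)))) (XT.nd (nat_lit 156) (nat_lit 0) (nat_lit 0) (XT.nd (nat_lit 78) (nat_lit 0) (nat_lit 0) (XT.lf (nat_lit 0) (nat_lit 30210363231) (nat_lit 76) (nat_lit 55676244825) (nat_lit 76) (nat_lit 53739585658) (nat_lit 3) (nat_lit 4) (nat_lit 4) (nat_lit 5) (nat_lit 4) (nat_lit 4) (nat_lit 446) (nat_lit 302) (nat_lit 272)) (XT.lf (nat_lit 0) (nat_lit 39804888432) (nat_lit 76) (nat_lit 54282638132) (nat_lit 76) (nat_lit 52318217537) (nat_lit 3) (nat_lit 4) (nat_lit 4) (nat_lit 5) (nat_lit 4) (nat_lit 4) (nat_lit 447) (nat_lit 302) (nat_lit 271))) (XT.nd (nat_lit 78) (nat_lit 0) (nat_lit 0) (XT.lf (nat_lit 0) (nat_lit 49759354170) (nat_lit 76) (nat_lit 52879383740) (nat_lit 76) (nat_lit 50888523689) (nat_lit 3) (nat_lit 4) (nat_lit 4) (nat_lit 5) (nat_lit 4) (nat_lit 4) (nat_lit 448) (nat_lit 302) (nat_lit 270)) (XT.lf (nat_lit 0) (nat_lit 60097461555)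 (nat_lit 76) (nat_lit 51463140566) (nat_lit 76) (nat_lit 49447100081) (nat_lit 3) (nat_lit 4) (nat_lit 4) (nat_lit 5) (nat_lit 4) (nat_lit 4) (nat_lit 449) (nat_lit 302) (nat_lit 269))))))))
noncomputable def xc23 : XT := (XT.nd (nat_lit 2106) (nat_lit 0) (nat_lit 0) (XT.nd (nat_lit 1014) (nat_lit 152) (nat_lit 0) (XT.nd (nat_lit 468) (nat_lit 0) (nat_lit 0) (XT.nd (nat_lit 234) (nat_lit 0) (nat_lit 0) (XT.nd (nat_lit 78) (nat_lit 0) (nat_lit 0) (XT.lf (nat_lit 0) (nat_lit 70843825128) (nat_lit 76) (nat_lit 50030536603) (nat_lit 76) (nat_lit 47990514752) (nat_lit 3) (nat_lit 4) (nat_lit 4) (nat_lit 5) (nat_lit 4) (nat_lit 4) (nat_lit 450) (nat_lit 302) (nat_lit 268)) (XT.nd (nat_lit 78) (nat_lit 0) (nat_lit 0) (XT.lf (nat_lit 0) (nat_lit 82024031469) (nat_lit 76) (nat_lit 48578160888) (nat_lit 76) (nat_lit 46515299642) (nat_lit 3) (nat_lit 4) (nat_lit 4) (nat_lit 5) (nat_lit 4) (nat_lit 4)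 (nat_lit 451) (nat_lit 302) (nat_lit 267)) (XT.lf (nat_lit 0) (nat_lit 93664700118) (nat_lit 76) (nat_lit 47102555386) (nat_lit 76) (nat_lit 45017942334) (nat_lit 3) (nat_lit 4) (nat_lit 4) (nat_lit 5) (nat_lit 4) (nat_lit 4) (nat_lit 452) (nat_lit 302) (nat_lit 266)))) (XT.nd (nat_lit 78) (nat_lit 0) (nat_lit 0) (XT.lf (nat_lit 0) (nat_lit 105793546951) (nat_lit 76) (nat_lit 45600206749) (nat_lit 76) (nat_lit 43494877691) (nat_lit 3) (nat_lit 4) (nat_lit 4) (nat_lit 5) (nat_lit 4) (nat_lit 4) (nat_lit 453) (nat_lit 302) (nat_lit 265)) (XT.nd (nat_lit 78) (nat_lit 0) (nat_lit 0) (XT.lf (nat_lit 0) (nat_lit 118439450176) (nat_lit 76) (nat_lit 44067537956) (nat_lit 76) (nat_lit 41942479370) (nat_lit 3) (nat_lit 4) (nat_lit 4) (nat_lit 5) (nat_lit 4) (nat_lit 4) (nat_lit 454) (nat_lit 302) (nat_lit 264)) (XT.lf (nat_lit 0) (nat_lit 131632519085) (nat_lit 76) (nat_lit 42500899797) (nat_lit 76)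 (nat_lit 40357051183) (nat_lit 3) (nat_lit 4) (nat_lit 4) (nat_lit 5) (nat_lit 4) (nat_lit 4) (nat_lit 455) (nat_lit 302) (nat_lit 263))))) (XT.nd (nat_lit 234) (nat_lit 0) (nat_lit 0) (XT.nd (nat_lit 78) (nat_lit 0) (nat_lit 0) (XT.lf (nat_lit 0) (nat_lit 145404165749) (nat_lit 76) (nat_lit 40896562180) (nat_lit 76) (nat_lit 38734818302) (nat_lit 3) (nat_lit 4) (nat_lit 4) (nat_lit 5) (nat_lit 4) (nat_lit 4) (nat_lit 456) (nat_lit 302) (nat_lit 262)) (XT.nd (nat_lit 78) (nat_lit 0) (nat_lit 0) (XT.lf (nat_lit 0) (nat_lit 159787179801) (nat_lit 76) (nat_lit 39250705254) (nat_lit 76) (nat_lit 37071918268) (nat_lit 3) (nat_lit 4) (nat_lit 4) (nat_lit 5) (nat_lit 4) (nat_lit 4) (nat_lit 457) (nat_lit 302) (nat_lit 261)) (XT.lf (nat_lit 0) (nat_lit 174815806513) (nat_lit 76) (nat_lit 37559410312) (nat_lit 76) (nat_lit 35364391793) (nat_lit 3) (nat_lit 4) (nat_lit 4) (nat_lit 5) (nat_lit 4) (nat_lit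 4) (nat_lit 458) (nat_lit 302) (nat_lit 260)))) (XT.nd (nat_lit 156) (nat_lit 0) (nat_lit 0) (XT.nd (nat_lit 78) (nat_lit 0) (nat_lit 0) (XT.lf (nat_lit 0) (nat_lit 190525828330) (nat_lit 76) (nat_lit 35818650461) (nat_lit 76) (nat_lit 33608173341) (nat_lit 3) (nat_lit 4) (nat_lit 4) (nat_lit 5) (nat_lit 4) (nat_lit 4) (nat_lit 459) (nat_lit 302) (nat_lit 259)) (XT.lf (nat_lit 0) (nat_lit 206954650066) (nat_lit 76) (nat_lit 34024281036) (nat_lit 76) (nat_lit 31799081437) (nat_lit 3) (nat_lit 4) (nat_lit 4) (nat_lit 5) (nat_lit 4) (nat_lit 4) (nat_lit 460) (nat_lit 302) (nat_lit 258))) (XT.nd (nat_lit 78) (nat_lit 0) (nat_lit 0) (XT.lf (nat_lit 0) (nat_lit 224141387962) (nat_lit 76) (nat_lit 32172029727) (nat_lit 76) (nat_lit 29932808720) (nat_lit 3) (nat_lit 4) (nat_lit 4) (nat_lit 5) (nat_lit 4) (nat_lit 4) (nat_lit 461) (nat_lit 302) (nat_lit 257)) (XT.lf (nat_lit 0) (nat_lit 242126962824)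 (nat_lit 76) (nat_lit 30257486412) (nat_lit 76) (nat_lit 28004911684) (nat_lit 3) (nat_lit 4) (nat_lit 4) (nat_lit 5) (nat_lit 4) (nat_lit 4) (nat_lit 462) (nat_lit 302) (nat_lit 256)))))) (XT.nd (nat_lit 546) (nat_lit 152) (nat_lit 0) (XT.nd (nat_lit 234) (nat_lit 0) (nat_lit 0) (XT.nd (nat_lit 78) (nat_lit 0) (nat_lit 0) (XT.lf (nat_lit 0) (nat_lit 260954197448) (nat_lit 76) (nat_lit 28276092656) (nat_lit 76) (nat_lit 26010800098) (nat_lit 3) (nat_lit 4) (nat_lit 4) (nat_lit 5) (nat_lit 4) (nat_lit 4) (nat_lit 463) (nat_lit 302) (nat_lit 255)) (XT.nd (nat_lit 78) (nat_lit 0) (nat_lit 0) (XT.lf (nat_lit 0) (nat_lit 280667918585) (nat_lit 76) (nat_lit 26223130854) (nat_lit 76) (nat_lit 23945726076) (nat_lit 3) (nat_lit 4) (nat_lit 4) (nat_lit 5) (nat_lit 4) (nat_lit 4) (nat_lit 464) (nat_lit 302) (nat_lit 254)) (XT.lf (nat_lit 0) (nat_lit 301315063664) (nat_lit 76) (nat_lit 24093713001) (nat_lit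 76) (nat_lit 21804772777) (nat_lit 3) (nat_lit 4) (nat_lit 4) (nat_lit 5) (nat_lit 4) (nat_lit 4) (nat_lit 465) (nat_lit 302) (nat_lit 253)))) (XT.nd (nat_lit 156) (nat_lit 0) (nat_lit 0) (XT.nd (nat_lit 78) (nat_lit 0) (nat_lit 0) (XT.lf (nat_lit 0) (nat_lit 322944792555) (nat_lit 76) (nat_lit 21882769056) (nat_lit 76) (nat_lit 19582842692) (nat_lit 3) (nat_lit 4) (nat_lit 4) (nat_lit 5) (nat_lit 4) (nat_lit 4) (nat_lit 466) (nat_lit 302) (nat_lit 252)) (XT.lf (nat_lit 0) (nat_lit 345608604614) (nat_lit 76) (nat_lit 19585034866) (nat_lit 76) (nat_lit 17274645511) (nat_lit 3) (nat_lit 4) (nat_lit 4) (nat_lit 5) (nat_lit 4) (nat_lit 4) (nat_lit 467) (nat_lit 302) (nat_lit 251))) (XT.nd (nat_lit 78) (nat_lit 0) (nat_lit 0) (XT.lf (nat_lit 0) (nat_lit 369360461296) (nat_lit 76) (nat_lit 17195039634) (nat_lit 76) (nat_lit 14874685527) (nat_lit 3) (nat_lit 4) (nat_lit 4) (nat_lit 5) (nat_lit 4)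 (nat_lit 4) (nat_lit 468) (nat_lit 302) (nat_lit 250)) (XT.lf (nat_lit 0) (nat_lit 394256914642) (nat_lit 76) (nat_lit 14707092898) (nat_lit 76) (nat_lit 12377248549) (nat_lit 3) (nat_lit 4) (nat_lit 4) (nat_lit 5) (nat_lit 4) (nat_lit 4) (nat_lit 469) (nat_lit 302) (nat_lit 249))))) (XT.nd (nat_lit 234) (nat_lit 152) (nat_lit 0) (XT.nd (nat_lit 78) (nat_lit 0) (nat_lit 0) (XT.lf (nat_lit 0) (nat_lit 420357241922) (nat_lit 76) (nat_lit 12115270973) (nat_lit 76) (nat_lit 9776388300) (nat_lit 3) (nat_lit 4) (nat_lit 4) (nat_lit 5) (nat_lit 4) (nat_lit 4) (nat_lit 470) (nat_lit 302) (nat_lit 248)) (XT.nd (nat_lit 78) (nat_lit 0) (nat_lit 0) (XT.lf (nat_lit 0) (nat_lit 447723586772) (nat_lit 76) (nat_lit 9413402855) (nat_lit 76) (nat_lit 7065912254) (nat_lit 3) (nat_lit 4) (nat_lit 4) (nat_lit 5) (nat_lit 4) (nat_lit 4) (nat_lit 471) (nat_lit 302) (nat_lit 247)) (XT.lf (nat_lit 0) (nat_lit 476421107156)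 (nat_lit 76) (nat_lit 6595055525) (nat_lit 76) (nat_lit 4239366897) (nat_lit 3) (nat_lit 4) (nat_lit 4) (nat_lit 5) (nat_lit 4) (nat_lit 4) (nat_lit 472) (nat_lit 302) (nat_lit 246)))) (XT.nd (nat_lit 156) (nat_lit 0) (nat_lit 0) (XT.nd (nat_lit 78) (nat_lit 152) (nat_lit 0) (XT.lf (nat_lit 0) (nat_lit 506518130503) (nat_lit 76) (nat_lit 3653518631) (nat_lit 76) (nat_lit 1290022359) (nat_lit 3) (nat_lit 4) (nat_lit 4) (nat_lit 5) (nat_lit 4) (nat_lit 4) (nat_lit 473) (nat_lit 302) (nat_lit 245)) (XT.lf (nat_lit 0) (nat_lit 1218418548) (nat_lit 76) (nat_lit 532484218) (nat_lit 152) (nat_lit 535125710711) (nat_lit 1) (nat_lit 5) (nat_lit 2) (nat_lit 5) (nat_lit 3) (nat_lit 4) (nat_lit 474) (nat_lit 302) (nat_lit 244))) (XT.nd (nat_lit 78) (nat_lit 0) (nat_lit 0) (XT.lf (nat_lit 0) (nat_lit 5011407816) (nat_lit 152) (nat_lit 555797660814) (nat_lit 0) (nat_lit 2746632685) (nat_lit 1) (nat_lit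 5) (nat_lit 3) (nat_lit 4) (nat_lit 1) (nat_lit 4) (nat_lit 475) (nat_lit 302) (nat_lit 243)) (XT.lf (nat_lit 0) (nat_lit 8427421855) (nat_lit 152) (nat_lit 576985474618) (nat_lit 0) (nat_lit 6156223355) (nat_lit 1) (nat_lit 5) (nat_lit 3) (nat_lit 4) (nat_lit 1) (nat_lit 4) (nat_lit 476) (nat_lit 302) (nat_lit 242))))))) (XT.nd (nat_lit 48594) (nat_lit 0) (nat_lit 380) (XT.nd (nat_lit 546) (nat_lit 0) (nat_lit 0) (XT.nd (nat_lit 234) (nat_lit 0) (nat_lit 0) (XT.nd (nat_lit 78) (nat_lit 0) (nat_lit 0) (XT.lf (nat_lit 0) (nat_lit 11998764678) (nat_lit 152) (nat_lit 599263769949) (nat_lit 0) (nat_lit 9721448685) (nat_lit 1) (nat_lit 5) (nat_lit 3) (nat_lit 4) (nat_lit 1) (nat_lit 4) (nat_lit 477) (nat_lit 302) (nat_lit 241)) (XT.nd (nat_lit 78) (nat_lit 0) (nat_lit 0) (XT.lf (nat_lit 0) (nat_lit 15733939483) (nat_lit 152) (nat_lit 622685590366) (nat_lit 0) (nat_lit 13450797305) (nat_lit 1)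 (nat_lit 5) (nat_lit 3) (nat_lit 4) (nat_lit 1) (nat_lit 4) (nat_lit 478) (nat_lit 302) (nat_lit 240)) (XT.lf (nat_lit 0) (nat_lit 19641839544) (nat_lit 152) (nat_lit 647306702108) (nat_lit 0) (nat_lit 17353148619) (nat_lit 1) (nat_lit 5) (nat_lit 3) (nat_lit 4) (nat_lit 1) (nat_lit 4) (nat_lit 479) (nat_lit 302) (nat_lit 239)))) (XT.nd (nat_lit 156) (nat_lit 0) (nat_lit 0) (XT.nd (nat_lit 78) (nat_lit 0) (nat_lit 0) (XT.lf (nat_lit 0) (nat_lit 23731769383) (nat_lit 152) (nat_lit 673185726870) (nat_lit 0) (nat_lit 21437793937) (nat_lit 1) (nat_lit 5) (nat_lit 3) (nat_lit 4) (nat_lit 1) (nat_lit 4) (nat_lit 480) (nat_lit 302) (nat_lit 238)) (XT.lf (nat_lit 0) (nat_lit 28013466930) (nat_lit 152) (nat_lit 700384281378) (nat_lit 0) (nat_lit 25714458607) (nat_lit 1) (nat_lit 5) (nat_lit 3) (nat_lit 4) (nat_lit 1) (nat_lit 4) (nat_lit 481) (nat_lit 302) (nat_lit 237))) (XT.nd (nat_lit 78) (nat_lit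 0) (nat_lit 0) (XT.lf (nat_lit 0) (nat_lit 32497126702) (nat_lit 152) (nat_lit 728967124094) (nat_lit 0) (nat_lit 30193325162) (nat_lit 1) (nat_lit 5) (nat_lit 3) (nat_lit 4) (nat_lit 1) (nat_lit 4) (nat_lit 482) (nat_lit 302) (nat_lit 236)) (XT.lf (nat_lit 0) (nat_lit 37193424080) (nat_lit 152) (nat_lit 759002309406) (nat_lit 0) (nat_lit 34885057572) (nat_lit 1) (nat_lit 5) (nat_lit 3) (nat_lit 4) (nat_lit 1) (nat_lit 4) (nat_lit 483) (nat_lit 302) (nat_lit 235))))) (XT.nd (nat_lit 47736) (nat_lit 0) (nat_lit 684) (XT.nd (nat_lit 78) (nat_lit 0) (nat_lit 0) (XT.lf (nat_lit 0) (nat_lit 42113540724) (nat_lit 152) (nat_lit 790561349660) (nat_lit 0) (nat_lit 39800826628) (nat_lit 1) (nat_lit 5) (nat_lit 3) (nat_lit 4) (nat_lit 1) (nat_lit 4) (nat_lit 484) (nat_lit 302) (nat_lit 234)) (XT.nd (nat_lit 47580) (nat_lit 0) (nat_lit 836) (XT.lf (nat_lit 0) (nat_lit 47269191198) (nat_lit 152) (nat_lit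 823719385428) (nat_lit 0) (nat_lit 44952336541) (nat_lit 1) (nat_lit 5) (nat_lit 3) (nat_lit 4) (nat_lit 1) (nat_lit 4) (nat_lit 485) (nat_lit 302) (nat_lit 233)) (XT.lf (nat_lit 0) (nat_lit 10324412547) (nat_lit 76) (nat_lit 3270746762) (nat_lit 76) (nat_lit 3270746762) (nat_lit 12) (nat_lit 4) (nat_lit 13) (nat_lit 5) (nat_lit 13) (nat_lit 4) (nat_lit 414) (nat_lit 303) (nat_lit 303)))) (XT.nd (nat_lit 156) (nat_lit 0) (nat_lit 0) (XT.nd (nat_lit 78) (nat_lit 152) (nat_lit 0) (XT.lf (nat_lit 0) (nat_lit 34506735191) (nat_lit 76) (nat_lit 366674676) (nat_lit 76) (nat_lit 220834233) (nat_lit 12) (nat_lit 4) (nat_lit 13) (nat_lit 5) (nat_lit 13) (nat_lit 4) (nat_lit 415) (nat_lit 303) (nat_lit 302)) (XT.lf (nat_lit 0) (nat_lit 6294252491) (nat_lit 152) (nat_lit 24198284031) (nat_lit 0) (nat_lit 6023075250) (nat_lit 10) (nat_lit 5) (nat_lit 12) (nat_lit 4) (nat_lit 10) (nat_lit 4) (nat_lit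 416) (nat_lit 303) (nat_lit 301))) (XT.nd (nat_lit 78) (nat_lit 0) (nat_lit 0) (XT.lf (nat_lit 0) (nat_lit 12936925011) (nat_lit 152) (nat_lit 12540723081) (nat_lit 0) (nat_lit 12539765312) (nat_lit 10) (nat_lit 5) (nat_lit 12) (nat_lit 4) (nat_lit 10) (nat_lit 4) (nat_lit 417) (nat_lit 303) (nat_lit 300)) (XT.lf (nat_lit 0) (nat_lit 19714711173) (nat_lit 152) (nat_lit 691885555) (nat_lit 0) (nat_lit 19197568180) (nat_lit 10) (nat_lit 5) (nat_lit 12) (nat_lit 4) (nat_lit 10) (nat_lit 4) (nat_lit 418) (nat_lit 303) (nat_lit 299)))))) (XT.nd (nat_lit 546) (nat_lit 76) (nat_lit 0) (XT.nd (nat_lit 234) (nat_lit 152) (nat_lit 0) (XT.nd (nat_lit 78) (nat_lit 0) (nat_lit 0) (XT.lf (nat_lit 0) (nat_lit 11752596550) (nat_lit 76) (nat_lit 15074642983) (nat_lit 76) (nat_lit 14443230187) (nat_lit 9) (nat_lit 4) (nat_lit 10) (nat_lit 5) (nat_lit 10) (nat_lit 4) (nat_lit 419) (nat_lit 303) (nat_lit 298))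 (XT.nd (nat_lit 78) (nat_lit 0) (nat_lit 0) (XT.lf (nat_lit 0) (nat_lit 24476385066) (nat_lit 76) (nat_lit 9646294791) (nat_lit 76) (nat_lit 8906053611) (nat_lit 9) (nat_lit 4) (nat_lit 10) (nat_lit 5) (nat_lit 10) (nat_lit 4) (nat_lit 420) (nat_lit 303) (nat_lit 297)) (XT.lf (nat_lit 0) (nat_lit 37486897867) (nat_lit 76) (nat_lit 4120344932) (nat_lit 76) (nat_lit 3276457672) (nat_lit 9) (nat_lit 4) (nat_lit 10) (nat_lit 5) (nat_lit 10) (nat_lit 4) (nat_lit 421) (nat_lit 303) (nat_lit 296)))) (XT.nd (nat_lit 156) (nat_lit 0) (nat_lit 0) (XT.nd (nat_lit 78) (nat_lit 0) (nat_lit 0) (XT.lf (nat_lit 0) (nat_lit 2469103255) (nat_lit 152) (nat_lit 42792931247) (nat_lit 0) (nat_lit 1571391053) (nat_lit 7) (nat_lit 5) (nat_lit 9) (nat_lit 4) (nat_lit 7) (nat_lit 4) (nat_lit 422) (nat_lit 303) (nat_lit 295)) (XT.lf (nat_lit 0) (nat_lit 8416974306) (nat_lit 152) (nat_lit 33029997677) (nat_lit 0) (nat_lit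 7429728723) (nat_lit 7) (nat_lit 5) (nat_lit 9) (nat_lit 4) (nat_lit 7) (nat_lit 4) (nat_lit 423) (nat_lit 303) (nat_lit 294))) (XT.nd (nat_lit 78) (nat_lit 0) (nat_lit 0) (XT.lf (nat_lit 0) (nat_lit 14500594995) (nat_lit 152) (nat_lit 23101553542) (nat_lit 0) (nat_lit 13428079525) (nat_lit 7) (nat_lit 5) (nat_lit 9) (nat_lit 4) (nat_lit 7) (nat_lit 4) (nat_lit 424) (nat_lit 303) (nat_lit 293)) (XT.lf (nat_lit 0) (nat_lit 20734450131) (nat_lit 152) (nat_lit 12983959688) (nat_lit 0) (nat_lit 19580725245) (nat_lit 7) (nat_lit 5) (nat_lit 9) (nat_lit 4) (nat_lit 7) (nat_lit 4) (nat_lit 425) (nat_lit 303) (nat_lit 292))))) (XT.nd (nat_lit 234) (nat_lit 0) (nat_lit 0) (XT.nd (nat_lit 78) (nat_lit 76) (nat_lit 0) (XT.lf (nat_lit 0) (nat_lit 27133382228) (nat_lit 152) (nat_lit 2653126606) (nat_lit 0) (nat_lit 25902315041) (nat_lit 7) (nat_lit 5) (nat_lit 9) (nat_lit 4) (nat_lit 7) (nat_lit 4) (nat_lit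 426) (nat_lit 303) (nat_lit 291)) (XT.nd (nat_lit 78) (nat_lit 0) (nat_lit 0) (XT.lf (nat_lit 0) (nat_lit 8177266520) (nat_lit 76) (nat_lit 25663030364) (nat_lit 76) (nat_lit 24358303844) (nat_lit 6) (nat_lit 4) (nat_lit 7) (nat_lit 5) (nat_lit 7) (nat_lit 4) (nat_lit 427) (nat_lit 303) (nat_lit 290)) (XT.lf (nat_lit 0) (nat_lit 19367079909) (nat_lit 76) (nat_lit 21423143313) (nat_lit 76) (nat_lit 20048265046) (nat_lit 6) (nat_lit 4) (nat_lit 7) (nat_lit 5) (nat_lit 7) (nat_lit 4) (nat_lit 428) (nat_lit 303) (nat_lit 289)))) (XT.nd (nat_lit 156) (nat_lit 0) (nat_lit 0) (XT.nd (nat_lit 78) (nat_lit 0) (nat_lit 0) (XT.lf (nat_lit 0) (nat_lit 30855231624) (nat_lit 76) (nat_lit 17101684694) (nat_lit 76) (nat_lit 15659995239) (nat_lit 6) (nat_lit 4) (nat_lit 7) (nat_lit 5) (nat_lit 7) (nat_lit 4) (nat_lit 429) (nat_lit 303) (nat_lit 288)) (XT.lf (nat_lit 0) (nat_lit 42669074409) (nat_lit 76) (nat_lit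 12688365320) (nat_lit 76) (nat_lit 11183046164) (nat_lit 6) (nat_lit 4) (nat_lit 7) (nat_lit 5) (nat_lit 7) (nat_lit 4) (nat_lit 430) (nat_lit 303) (nat_lit 287))) (XT.nd (nat_lit 78) (nat_lit 0) (nat_lit 0) (XT.lf (nat_lit 0) (nat_lit 54836736460) (nat_lit 76) (nat_lit 8172677289) (nat_lit 76) (nat_lit 6606758416) (nat_lit 6) (nat_lit 4) (nat_lit 7) (nat_lit 5) (nat_lit 7) (nat_lit 4) (nat_lit 431) (nat_lit 303) (nat_lit 286)) (XT.lf (nat_lit 0) (nat_lit 67387188400) (nat_lit 76) (nat_lit 3543868962) (nat_lit 76) (nat_lit 1920236073) (nat_lit 6) (nat_lit 4) (nat_lit 7) (nat_lit 5) (nat_lit 7) (nat_lit 4) (nat_lit 432) (nat_lit 303) (nat_lit 285))))))))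
noncomputable def xc24 : XT := (XT.nd (nat_lit 2106) (nat_lit 152) (nat_lit 0) (XT.nd (nat_lit 1014) (nat_lit 0) (nat_lit 0) (XT.nd (nat_lit 468) (nat_lit 76) (nat_lit 0) (XT.nd (nat_lit 234) (nat_lit 0) (nat_lit 0) (XT.nd (nat_lit 78) (nat_lit 0) (nat_lit 0) (XT.lf (nat_lit 0) (nat_lit 2881292616) (nat_lit 152) (nat_lit 72083076396) (nat_lit 0) (nat_lit 1282627266) (nat_lit 4) (nat_lit 5) (nat_lit 6) (nat_lit 4) (nat_lit 4) (nat_lit 4) (nat_lit 433) (nat_lit 303) (nat_lit 284)) (XT.nd (nat_lit 78) (nat_lit 0) (nat_lit 0) (XT.lf (nat_lit 0) (nat_lit 7901368863) (nat_lit 152) (nat_lit 65654546933) (nat_lit 0) (nat_lit 6252847976) (nat_lit 4) (nat_lit 5) (nat_lit 6) (nat_lit 4) (nat_lit 4) (nat_lit 4) (nat_lit 434) (nat_lit 303) (nat_lit 283)) (XT.lf (nat_lit 0) (nat_lit 13068499557) (nat_lit 152) (nat_lit 59112823826) (nat_lit 0) (nat_lit 11372497206) (nat_lit 4) (nat_lit 5) (nat_lit 6) (nat_lit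 4) (nat_lit 4) (nat_lit 4) (nat_lit 435) (nat_lit 303) (nat_lit 282)))) (XT.nd (nat_lit 78) (nat_lit 0) (nat_lit 0) (XT.lf (nat_lit 0) (nat_lit 18394987389) (nat_lit 152) (nat_lit 52442331543) (nat_lit 0) (nat_lit 16653764597) (nat_lit 4) (nat_lit 5) (nat_lit 6) (nat_lit 4) (nat_lit 4) (nat_lit 4) (nat_lit 436) (nat_lit 303) (nat_lit 281)) (XT.nd (nat_lit 78) (nat_lit 0) (nat_lit 0) (XT.lf (nat_lit 0) (nat_lit 23893514475) (nat_lit 152) (nat_lit 45627187961) (nat_lit 0) (nat_lit 22109224596) (nat_lit 4) (nat_lit 5) (nat_lit 6) (nat_lit 4) (nat_lit 4) (nat_lit 4) (nat_lit 437) (nat_lit 303) (nat_lit 280)) (XT.lf (nat_lit 0) (nat_lit 29577172544) (nat_lit 152) (nat_lit 38651166546) (nat_lit 0) (nat_lit 27751866392) (nat_lit 4) (nat_lit 5) (nat_lit 6) (nat_lit 4) (nat_lit 4) (nat_lit 4) (nat_lit 438) (nat_lit 303) (nat_lit 279))))) (XT.nd (nat_lit 234) (nat_lit 76) (nat_lit 0) (XT.nd (nat_lit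 78) (nat_lit 0) (nat_lit 0) (XT.lf (nat_lit 0) (nat_lit 35459494117) (nat_lit 152) (nat_lit 31497657725) (nat_lit 0) (nat_lit 33595124847) (nat_lit 4) (nat_lit 5) (nat_lit 6) (nat_lit 4) (nat_lit 4) (nat_lit 4) (nat_lit 439) (nat_lit 303) (nat_lit 278)) (XT.nd (nat_lit 78) (nat_lit 0) (nat_lit 0) (XT.lf (nat_lit 0) (nat_lit 41554484720) (nat_lit 152) (nat_lit 24149629333) (nat_lit 0) (nat_lit 39652912481) (nat_lit 4) (nat_lit 5) (nat_lit 6) (nat_lit 4) (nat_lit 4) (nat_lit 4) (nat_lit 440) (nat_lit 303) (nat_lit 277)) (XT.lf (nat_lit 0) (nat_lit 47876656237) (nat_lit 152) (nat_lit 16589586064) (nat_lit 0) (nat_lit 45939652599) (nat_lit 4) (nat_lit 5) (nat_lit 6) (nat_lit 4) (nat_lit 4) (nat_lit 4) (nat_lit 441) (nat_lit 303) (nat_lit 276)))) (XT.nd (nat_lit 156) (nat_lit 76) (nat_lit 0) (XT.nd (nat_lit 78) (nat_lit 0) (nat_lit 0) (XT.lf (nat_lit 0) (nat_lit 54441061456) (nat_lit 152) (nat_lit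 8799527816) (nat_lit 0) (nat_lit 52470313629) (nat_lit 4) (nat_lit 5) (nat_lit 6) (nat_lit 4) (nat_lit 4) (nat_lit 4) (nat_lit 442) (nat_lit 303) (nat_lit 275)) (XT.lf (nat_lit 0) (nat_lit 61263329914) (nat_lit 152) (nat_lit 760906831) (nat_lit 0) (nat_lit 59260444763) (nat_lit 4) (nat_lit 5) (nat_lit 6) (nat_lit 4) (nat_lit 4) (nat_lit 4) (nat_lit 443) (nat_lit 303) (nat_lit 274))) (XT.nd (nat_lit 78) (nat_lit 0) (nat_lit 0) (XT.lf (nat_lit 0) (nat_lit 7794902009) (nat_lit 76) (nat_lit 60686503363) (nat_lit 76) (nat_lit 58653011237) (nat_lit 3) (nat_lit 4) (nat_lit 4) (nat_lit 5) (nat_lit 4) (nat_lit 4) (nat_lit 444) (nat_lit 303) (nat_lit 273)) (XT.lf (nat_lit 0) (nat_lit 16672854500) (nat_lit 76) (nat_lit 59334538650) (nat_lit 76) (nat_lit 57271897025) (nat_lit 3) (nat_lit 4) (nat_lit 4) (nat_lit 5) (nat_lit 4) (nat_lit 4) (nat_lit 445) (nat_lit 303) (nat_lit 272)))))) (XT.nd (nat_lit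 546) (nat_lit 0) (nat_lit 0) (XT.nd (nat_lit 234) (nat_lit 0) (nat_lit 0) (XT.nd (nat_lit 78) (nat_lit 0) (nat_lit 0) (XT.lf (nat_lit 0) (nat_lit 25868929608) (nat_lit 76) (nat_lit 57978009969) (nat_lit 76) (nat_lit 55887606915) (nat_lit 3) (nat_lit 4) (nat_lit 4) (nat_lit 5) (nat_lit 4) (nat_lit 4) (nat_lit 446) (nat_lit 303) (nat_lit 271)) (XT.nd (nat_lit 78) (nat_lit 0) (nat_lit 0) (XT.lf (nat_lit 0) (nat_lit 35405022749) (nat_lit 76) (nat_lit 56613687488) (nat_lit 76) (nat_lit 54496844978) (nat_lit 3) (nat_lit 4) (nat_lit 4) (nat_lit 5) (nat_lit 4) (nat_lit 4) (nat_lit 447) (nat_lit 303) (nat_lit 270)) (XT.lf (nat_lit 0) (nat_lit 45303838906) (nat_lit 76) (nat_lit 55238322821) (nat_lit 76) (nat_lit 53096299878) (nat_lit 3) (nat_lit 4) (nat_lit 4) (nat_lit 5) (nat_lit 4) (nat_lit 4) (nat_lit 448) (nat_lit 303) (nat_lit 269)))) (XT.nd (nat_lit 156) (nat_lit 0) (nat_lit 0) (XT.nd (nat_lit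 78) (nat_lit 0) (nat_lit 0) (XT.lf (nat_lit 0) (nat_lit 55588946691) (nat_lit 76) (nat_lit 53848641291) (nat_lit 76) (nat_lit 51682636982) (nat_lit 3) (nat_lit 4) (nat_lit 4) (nat_lit 5) (nat_lit 4) (nat_lit 4) (nat_lit 449) (nat_lit 303) (nat_lit 268)) (XT.lf (nat_lit 0) (nat_lit 66284834454) (nat_lit 76) (nat_lit 52441334131) (nat_lit 76) (nat_lit 50252490427) (nat_lit 3) (nat_lit 4) (nat_lit 4) (nat_lit 5) (nat_lit 4) (nat_lit 4) (nat_lit 450) (nat_lit 303) (nat_lit 267))) (XT.nd (nat_lit 78) (nat_lit 0) (nat_lit 0) (XT.lf (nat_lit 0) (nat_lit 77416968595) (nat_lit 76) (nat_lit 51013050611) (nat_lit 76) (nat_lit 48802455101) (nat_lit 3) (nat_lit 4) (nat_lit 4) (nat_lit 5) (nat_lit 4) (nat_lit 4) (nat_lit 451) (nat_lit 303) (nat_lit 266)) (XT.lf (nat_lit 0) (nat_lit 89011854196) (nat_lit 76) (nat_lit 49560390055) (nat_lit 76) (nat_lit 47329078540) (nat_lit 3) (nat_lit 4) (nat_lit 4) (nat_lit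 5) (nat_lit 4) (nat_lit 4) (nat_lit 452) (nat_lit 303) (nat_lit 265))))) (XT.nd (nat_lit 234) (nat_lit 0) (nat_lit 0) (XT.nd (nat_lit 78) (nat_lit 0) (nat_lit 0) (XT.lf (nat_lit 0) (nat_lit 101097098127) (nat_lit 76) (nat_lit 48079893748) (nat_lit 76) (nat_lit 45828852704) (nat_lit 3) (nat_lit 4) (nat_lit 4) (nat_lit 5) (nat_lit 4) (nat_lit 4) (nat_lit 453) (nat_lit 303) (nat_lit 264)) (XT.nd (nat_lit 78) (nat_lit 0) (nat_lit 0) (XT.lf (nat_lit 0) (nat_lit 113701474778) (nat_lit 76) (nat_lit 46568036698) (nat_lit 76) (nat_lit 44298205626) (nat_lit 3) (nat_lit 4) (nat_lit 4) (nat_lit 5) (nat_lit 4) (nat_lit 4) (nat_lit 454) (nat_lit 303) (nat_lit 263)) (XT.lf (nat_lit 0) (nat_lit 126854994569) (nat_lit 76) (nat_lit 45021219246) (nat_lit 76) (nat_lit 42733492910) (nat_lit 3) (nat_lit 4) (nat_lit 4) (nat_lit 5) (nat_lit 4) (nat_lit 4) (nat_lit 455) (nat_lit 303) (nat_lit 262)))) (XT.nd (nat_lit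 156) (nat_lit 0) (nat_lit 0) (XT.nd (nat_lit 78) (nat_lit 0) (nat_lit 0) (XT.lf (nat_lit 0) (nat_lit 140588975406) (nat_lit 76) (nat_lit 43435758494) (nat_lit 76) (nat_lit 41130989049) (nat_lit 3) (nat_lit 4) (nat_lit 4) (nat_lit 5) (nat_lit 4) (nat_lit 4) (nat_lit 456) (nat_lit 303) (nat_lit 261)) (XT.lf (nat_lit 0) (nat_lit 154936117242) (nat_lit 76) (nat_lit 41807879534) (nat_lit 76) (nat_lit 39486878557) (nat_lit 3) (nat_lit 4) (nat_lit 4) (nat_lit 5) (nat_lit 4) (nat_lit 4) (nat_lit 457) (nat_lit 303) (nat_lit 260))) (XT.nd (nat_lit 78) (nat_lit 0) (nat_lit 0) (XT.lf (nat_lit 0) (nat_lit 169930579940) (nat_lit 76) (nat_lit 40133706464) (nat_lit 76) (nat_lit 37797246885) (nat_lit 3) (nat_lit 4) (nat_lit 4) (nat_lit 5) (nat_lit 4) (nat_lit 4) (nat_lit 458) (nat_lit 303) (nat_lit 259)) (XT.lf (nat_lit 0) (nat_lit 185608064599) (nat_lit 76) (nat_lit 38409253158) (nat_lit 76) (nat_lit 36058071102)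 (nat_lit 3) (nat_lit 4) (nat_lit 4) (nat_lit 5) (nat_lit 4) (nat_lit 4) (nat_lit 459) (nat_lit 303) (nat_lit 258))))))) (XT.nd (nat_lit 1014) (nat_lit 152) (nat_lit 0) (XT.nd (nat_lit 468) (nat_lit 0) (nat_lit 0) (XT.nd (nat_lit 234) (nat_lit 0) (nat_lit 0) (XT.nd (nat_lit 78) (nat_lit 0) (nat_lit 0) (XT.lf (nat_lit 0) (nat_lit 202005898566) (nat_lit 76) (nat_lit 36630413776) (nat_lit 76) (nat_lit 34265210311) (nat_lit 3) (nat_lit 4) (nat_lit 4) (nat_lit 5) (nat_lit 4) (nat_lit 4) (nat_lit 460) (nat_lit 303) (nat_lit 257)) (XT.nd (nat_lit 78) (nat_lit 0) (nat_lit 0) (XT.lf (nat_lit 0) (nat_lit 219163124302) (nat_lit 76) (nat_lit 34792952984) (nat_lit 76) (nat_lit 32414395797) (nat_lit 3) (nat_lit 4) (nat_lit 4) (nat_lit 5) (nat_lit 4) (nat_lit 4) (nat_lit 461) (nat_lit 303) (nat_lit 256)) (XT.lf (nat_lit 0) (nat_lit 237120592344) (nat_lit 76) (nat_lit 32892495876) (nat_lit 76) (nat_lit 30501220860)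 (nat_lit 3) (nat_lit 4) (nat_lit 4) (nat_lit 5) (nat_lit 4) (nat_lit 4) (nat_lit 462) (nat_lit 303) (nat_lit 255)))) (XT.nd (nat_lit 78) (nat_lit 0) (nat_lit 0) (XT.lf (nat_lit 0) (nat_lit 255921058569) (nat_lit 76) (nat_lit 30924517555) (nat_lit 76) (nat_lit 28521130319) (nat_lit 3) (nat_lit 4) (nat_lit 4) (nat_lit 5) (nat_lit 4) (nat_lit 4) (nat_lit 463) (nat_lit 303) (nat_lit 254)) (XT.nd (nat_lit 78) (nat_lit 0) (nat_lit 0) (XT.lf (nat_lit 0) (nat_lit 275609285991) (nat_lit 76) (nat_lit 28884332358) (nat_lit 76) (nat_lit 26469409675) (nat_lit 3) (nat_lit 4) (nat_lit 4) (nat_lit 5) (nat_lit 4) (nat_lit 4) (nat_lit 464) (nat_lit 303) (nat_lit 253)) (XT.lf (nat_lit 0) (nat_lit 296232151343) (nat_lit 76) (nat_lit 26767082700) (nat_lit 76) (nat_lit 24341173878) (nat_lit 3) (nat_lit 4) (nat_lit 4) (nat_lit 5) (nat_lit 4) (nat_lit 4) (nat_lit 465) (nat_lit 303) (nat_lit 252))))) (XT.nd (nat_lit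 234) (nat_lit 0) (nat_lit 0) (XT.nd (nat_lit 78) (nat_lit 0) (nat_lit 0) (XT.lf (nat_lit 0) (nat_lit 317838756684) (nat_lit 76) (nat_lit 24567727512) (nat_lit 76) (nat_lit 22131355699) (nat_lit 3) (nat_lit 4) (nat_lit 4) (nat_lit 5) (nat_lit 4) (nat_lit 4) (nat_lit 466) (nat_lit 303) (nat_lit 251)) (XT.nd (nat_lit 78) (nat_lit 0) (nat_lit 0) (XT.lf (nat_lit 0) (nat_lit 340480546314) (nat_lit 76) (nat_lit 22281030233) (nat_lit 76) (nat_lit 19834693667) (nat_lit 3) (nat_lit 4) (nat_lit 4) (nat_lit 5) (nat_lit 4) (nat_lit 4) (nat_lit 467) (nat_lit 303) (nat_lit 250)) (XT.lf (nat_lit 0) (nat_lit 364211429254) (nat_lit 76) (nat_lit 19901546346) (nat_lit 76) (nat_lit 17445719540) (nat_lit 3) (nat_lit 4) (nat_lit 4) (nat_lit 5) (nat_lit 4) (nat_lit 4) (nat_lit 468) (nat_lit 303) (nat_lit 249)))) (XT.nd (nat_lit 156) (nat_lit 0) (nat_lit 0) (XT.nd (nat_lit 78) (nat_lit 0) (nat_lit 0) (XT.lf (nat_lit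 0) (nat_lit 389087907608) (nat_lit 76) (nat_lit 17423610414) (nat_lit 76) (nat_lit 14958745283) (nat_lit 3) (nat_lit 4) (nat_lit 4) (nat_lit 5) (nat_lit 4) (nat_lit 4) (nat_lit 469) (nat_lit 303) (nat_lit 248)) (XT.lf (nat_lit 0) (nat_lit 415169211086) (nat_lit 76) (nat_lit 14841322588) (nat_lit 76) (nat_lit 12367849529) (nat_lit 3) (nat_lit 4) (nat_lit 4) (nat_lit 5) (nat_lit 4) (nat_lit 4) (nat_lit 470) (nat_lit 303) (nat_lit 247))) (XT.nd (nat_lit 78) (nat_lit 0) (nat_lit 0) (XT.lf (nat_lit 0) (nat_lit 442517438029) (nat_lit 76) (nat_lit 12148534564) (nat_lit 76) (nat_lit 9666863479) (nat_lit 3) (nat_lit 4) (nat_lit 4) (nat_lit 5) (nat_lit 4) (nat_lit 4) (nat_lit 471) (nat_lit 303) (nat_lit 246)) (XT.lf (nat_lit 0) (nat_lit 471197703264) (nat_lit 76) (nat_lit 9338834943) (nat_lit 76) (nat_lit 6849356213) (nat_lit 3) (nat_lit 4) (nat_lit 4) (nat_lit 5) (nat_lit 4) (nat_lit 4) (nat_lit 472)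 (nat_lit 303) (nat_lit 245)))))) (XT.nd (nat_lit 546) (nat_lit 0) (nat_lit 0) (XT.nd (nat_lit 234) (nat_lit 0) (nat_lit 0) (XT.nd (nat_lit 78) (nat_lit 152) (nat_lit 0) (XT.lf (nat_lit 0) (nat_lit 501278293136) (nat_lit 76) (nat_lit 6405533963) (nat_lit 76) (nat_lit 3908619381) (nat_lit 3) (nat_lit 4) (nat_lit 4) (nat_lit 5) (nat_lit 4) (nat_lit 4) (nat_lit 473) (nat_lit 303) (nat_lit 244)) (XT.nd (nat_lit 78) (nat_lit 152) (nat_lit 0) (XT.lf (nat_lit 0) (nat_lit 532830828097) (nat_lit 76) (nat_lit 3341647575) (nat_lit 76) (nat_lit 837651229) (nat_lit 3) (nat_lit 4) (nat_lit 4) (nat_lit 5) (nat_lit 4) (nat_lit 4) (nat_lit 474) (nat_lit 303) (nat_lit 243)) (XT.lf (nat_lit 0) (nat_lit 2266505832) (nat_lit 76) (nat_lit 63858418) (nat_lit 152) (nat_lit 561365469605) (nat_lit 1) (nat_lit 5) (nat_lit 2) (nat_lit 5) (nat_lit 3) (nat_lit 4) (nat_lit 475) (nat_lit 303) (nat_lit 242)))) (XT.nd (nat_lit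 156) (nat_lit 0) (nat_lit 0) (XT.nd (nat_lit 78) (nat_lit 0) (nat_lit 0) (XT.lf (nat_lit 0) (nat_lit 5737834004) (nat_lit 152) (nat_lit 582631311081) (nat_lit 0) (nat_lit 3340534717) (nat_lit 1) (nat_lit 5) (nat_lit 3) (nat_lit 4) (nat_lit 1) (nat_lit 4) (nat_lit 476) (nat_lit 303) (nat_lit 241)) (XT.lf (nat_lit 0) (nat_lit 9301988944) (nat_lit 152) (nat_lit 604924050470) (nat_lit 0) (nat_lit 6898863473) (nat_lit 1) (nat_lit 5) (nat_lit 3) (nat_lit 4) (nat_lit 1) (nat_lit 4) (nat_lit 477) (nat_lit 303) (nat_lit 240))) (XT.nd (nat_lit 78) (nat_lit 0) (nat_lit 0) (XT.lf (nat_lit 0) (nat_lit 13030318147) (nat_lit 152) (nat_lit 628359627133) (nat_lit 0) (nat_lit 10621643929) (nat_lit 1) (nat_lit 5) (nat_lit 3) (nat_lit 4) (nat_lit 1) (nat_lit 4) (nat_lit 478) (nat_lit 303) (nat_lit 239)) (XT.lf (nat_lit 0) (nat_lit 16931698586) (nat_lit 152) (nat_lit 652993840062) (nat_lit 0) (nat_lit 14517739846)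 (nat_lit 1) (nat_lit 5) (nat_lit 3) (nat_lit 4) (nat_lit 1) (nat_lit 4) (nat_lit 479) (nat_lit 303) (nat_lit 238))))) (XT.nd (nat_lit 234) (nat_lit 0) (nat_lit 0) (XT.nd (nat_lit 78) (nat_lit 0) (nat_lit 0) (XT.lf (nat_lit 0) (nat_lit 21015419262) (nat_lit 152) (nat_lit 678885342144) (nat_lit 0) (nat_lit 18596427645) (nat_lit 1) (nat_lit 5) (nat_lit 3) (nat_lit 4) (nat_lit 1) (nat_lit 4) (nat_lit 480) (nat_lit 303) (nat_lit 237)) (XT.nd (nat_lit 78) (nat_lit 0) (nat_lit 0) (XT.lf (nat_lit 0) (nat_lit 25291203320) (nat_lit 152) (nat_lit 706095779814) (nat_lit 0) (nat_lit 22867418487) (nat_lit 1) (nat_lit 5) (nat_lit 3) (nat_lit 4) (nat_lit 1) (nat_lit 4) (nat_lit 481) (nat_lit 303) (nat_lit 236)) (XT.lf (nat_lit 0) (nat_lit 29769231199) (nat_lit 152) (nat_lit 734689939828) (nat_lit 0) (nat_lit 27340881397) (nat_lit 1) (nat_lit 5) (nat_lit 3) (nat_lit 4) (nat_lit 1) (nat_lit 4) (nat_lit 482)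 (nat_lit 303) (nat_lit 235)))) (XT.nd (nat_lit 156) (nat_lit 0) (nat_lit 0) (XT.nd (nat_lit 78) (nat_lit 0) (nat_lit 0) (XT.lf (nat_lit 0) (nat_lit 34460164868) (nat_lit 152) (nat_lit 764735903519) (nat_lit 0) (nat_lit 32027467478) (nat_lit 1) (nat_lit 5) (nat_lit 3) (nat_lit 4) (nat_lit 1) (nat_lit 4) (nat_lit 483) (nat_lit 303) (nat_lit 234)) (XT.lf (nat_lit 0) (nat_lit 39375173218) (nat_lit 152) (nat_lit 796305208896) (nat_lit 0) (nat_lit 36938335268) (nat_lit 1) (nat_lit 5) (nat_lit 3) (nat_lit 4) (nat_lit 1) (nat_lit 4) (nat_lit 484) (nat_lit 303) (nat_lit 233))) (XT.nd (nat_lit 47424) (nat_lit 0) (nat_lit 912) (XT.lf (nat_lit 0) (nat_lit 44525958650) (nat_lit 152) (nat_lit 829473020971) (nat_lit 0) (nat_lit 42085177308) (nat_lit 1) (nat_lit 5) (nat_lit 3) (nat_lit 4) (nat_lit 1) (nat_lit 4) (nat_lit 485) (nat_lit 303) (nat_lit 232)) (XT.lf (nat_lit 0) (nat_lit 6325117476) (nat_lit 152)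 (nat_lit 2959203471) (nat_lit 0) (nat_lit 6325117476) (nat_lit 13) (nat_lit 5) (nat_lit 15) (nat_lit 4) (nat_lit 13) (nat_lit 4) (nat_lit 412) (nat_lit 304) (nat_lit 304))))))))
noncomputable def xc25 : XT := (XT.nd (nat_lit 2106) (nat_lit 76) (nat_lit 0) (XT.nd (nat_lit 1014) (nat_lit 228) (nat_lit 0) (XT.nd (nat_lit 468) (nat_lit 228) (nat_lit 0) (XT.nd (nat_lit 234) (nat_lit 152) (nat_lit 0) (XT.nd (nat_lit 78) (nat_lit 0) (nat_lit 0) (XT.lf (nat_lit 0) (nat_lit 7046941268) (nat_lit 76) (nat_lit 12775328429) (nat_lit 76) (nat_lit 12622195964) (nat_lit 12) (nat_lit 4) (nat_lit 13) (nat_lit 5) (nat_lit 13) (nat_lit 4) (nat_lit 413) (nat_lit 304) (nat_lit 303)) (XT.nd (nat_lit 78) (nat_lit 0) (nat_lit 0) (XT.lf (nat_lit 0) (nat_lit 20441962694) (nat_lit 76) (nat_lit 6797025362) (nat_lit 76) (nat_lit 6498052453) (nat_lit 12) (nat_lit 4) (nat_lit 13) (nat_lit 5) (nat_lit 13) (nat_lit 4) (nat_lit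 414) (nat_lit 304) (nat_lit 302)) (XT.lf (nat_lit 0) (nat_lit 34102860980) (nat_lit 76) (nat_lit 719729724) (nat_lit 76) (nat_lit 281861156) (nat_lit 12) (nat_lit 4) (nat_lit 13) (nat_lit 5) (nat_lit 13) (nat_lit 4) (nat_lit 415) (nat_lit 304) (nat_lit 301)))) (XT.nd (nat_lit 78) (nat_lit 0) (nat_lit 0) (XT.lf (nat_lit 0) (nat_lit 6121965729) (nat_lit 152) (nat_lit 24830601016) (nat_lit 0) (nat_lit 5578965586) (nat_lit 10) (nat_lit 5) (nat_lit 12) (nat_lit 4) (nat_lit 10) (nat_lit 4) (nat_lit 416) (nat_lit 304) (nat_lit 300)) (XT.nd (nat_lit 78) (nat_lit 0) (nat_lit 0) (XT.lf (nat_lit 0) (nat_lit 12668530939) (nat_lit 152) (nat_lit 13364065174) (nat_lit 0) (nat_lit 12005547504) (nat_lit 10) (nat_lit 5) (nat_lit 12) (nat_lit 4) (nat_lit 10) (nat_lit 4) (nat_lit 417) (nat_lit 304) (nat_lit 299)) (XT.lf (nat_lit 0) (nat_lit 19354786331) (nat_lit 152) (nat_lit 1697156323) (nat_lit 0) (nat_lit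 18577533092) (nat_lit 10) (nat_lit 5) (nat_lit 12) (nat_lit 4) (nat_lit 10) (nat_lit 4) (nat_lit 418) (nat_lit 304) (nat_lit 298))))) (XT.nd (nat_lit 234) (nat_lit 152) (nat_lit 0) (XT.nd (nat_lit 78) (nat_lit 0) (nat_lit 0) (XT.lf (nat_lit 0) (nat_lit 10535092650) (nat_lit 76) (nat_lit 15826041231) (nat_lit 76) (nat_lit 14939959608) (nat_lit 9) (nat_lit 4) (nat_lit 10) (nat_lit 5) (nat_lit 10) (nat_lit 4) (nat_lit 419) (nat_lit 304) (nat_lit 297)) (XT.nd (nat_lit 78) (nat_lit 0) (nat_lit 0) (XT.lf (nat_lit 0) (nat_lit 23088410365) (nat_lit 76) (nat_lit 10482481206) (nat_lit 76) (nat_lit 9492753503) (nat_lit 9) (nat_lit 4) (nat_lit 10) (nat_lit 5) (nat_lit 10) (nat_lit 4) (nat_lit 420) (nat_lit 304) (nat_lit 296)) (XT.lf (nat_lit 0) (nat_lit 35936570023) (nat_lit 76) (nat_lit 5037281982) (nat_lit 76) (nat_lit 3948843727) (nat_lit 9) (nat_lit 4) (nat_lit 10) (nat_lit 5) (nat_lit 10) (nat_lit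 4) (nat_lit 421) (nat_lit 304) (nat_lit 295)))) (XT.nd (nat_lit 156) (nat_lit 0) (nat_lit 0) (XT.nd (nat_lit 78) (nat_lit 0) (nat_lit 0) (XT.lf (nat_lit 0) (nat_lit 1695074094) (nat_lit 152) (nat_lit 44615100146) (nat_lit 0) (nat_lit 568932851) (nat_lit 7) (nat_lit 5) (nat_lit 9) (nat_lit 4) (nat_lit 7) (nat_lit 4) (nat_lit 422) (nat_lit 304) (nat_lit 294)) (XT.lf (nat_lit 0) (nat_lit 7564094455) (nat_lit 152) (nat_lit 35009550046) (nat_lit 0) (nat_lit 6352683325) (nat_lit 7) (nat_lit 5) (nat_lit 9) (nat_lit 4) (nat_lit 7) (nat_lit 4) (nat_lit 423) (nat_lit 304) (nat_lit 293))) (XT.nd (nat_lit 78) (nat_lit 0) (nat_lit 0) (XT.lf (nat_lit 0) (nat_lit 13572619247) (nat_lit 152) (nat_lit 25230994929) (nat_lit 0) (nat_lit 12279998702) (nat_lit 7) (nat_lit 5) (nat_lit 9) (nat_lit 4) (nat_lit 7) (nat_lit 4) (nat_lit 424) (nat_lit 304) (nat_lit 292)) (XT.lf (nat_lit 0) (nat_lit 19734954483) (nat_lit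 152) (nat_lit 15256152521) (nat_lit 0) (nat_lit 18364991637) (nat_lit 7) (nat_lit 5) (nat_lit 9) (nat_lit 4) (nat_lit 7) (nat_lit 4) (nat_lit 425) (nat_lit 304) (nat_lit 291)))))) (XT.nd (nat_lit 546) (nat_lit 152) (nat_lit 0) (XT.nd (nat_lit 234) (nat_lit 0) (nat_lit 0) (XT.nd (nat_lit 78) (nat_lit 76) (nat_lit 0) (XT.lf (nat_lit 0) (nat_lit 26065772389) (nat_lit 152) (nat_lit 5061273199) (nat_lit 0) (nat_lit 24622150208) (nat_lit 7) (nat_lit 5) (nat_lit 9) (nat_lit 4) (nat_lit 7) (nat_lit 4) (nat_lit 426) (nat_lit 304) (nat_lit 290)) (XT.nd (nat_lit 78) (nat_lit 0) (nat_lit 0) (XT.lf (nat_lit 0) (nat_lit 5555734770) (nat_lit 76) (nat_lit 27111152159) (nat_lit 76) (nat_lit 25597378232) (nat_lit 6) (nat_lit 4) (nat_lit 7) (nat_lit 5) (nat_lit 7) (nat_lit 4) (nat_lit 427) (nat_lit 304) (nat_lit 289)) (XT.lf (nat_lit 0) (nat_lit 16618156772) (nat_lit 76) (nat_lit 22934885979) (nat_lit 76) (nat_lit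 21354300864) (nat_lit 6) (nat_lit 4) (nat_lit 7) (nat_lit 5) (nat_lit 7) (nat_lit 4) (nat_lit 428) (nat_lit 304) (nat_lit 288)))) (XT.nd (nat_lit 156) (nat_lit 0) (nat_lit 0) (XT.nd (nat_lit 78) (nat_lit 0) (nat_lit 0) (XT.lf (nat_lit 0) (nat_lit 27984983357) (nat_lit 76) (nat_lit 18674018665) (nat_lit 76) (nat_lit 17029803849) (nat_lit 6) (nat_lit 4) (nat_lit 7) (nat_lit 5) (nat_lit 7) (nat_lit 4) (nat_lit 429) (nat_lit 304) (nat_lit 287)) (XT.lf (nat_lit 0) (nat_lit 39683278399) (nat_lit 76) (nat_lit 14318405297) (nat_lit 76) (nat_lit 12613590764) (nat_lit 6) (nat_lit 4) (nat_lit 7) (nat_lit 5) (nat_lit 7) (nat_lit 4) (nat_lit 430) (nat_lit 304) (nat_lit 286))) (XT.nd (nat_lit 78) (nat_lit 0) (nat_lit 0) (XT.lf (nat_lit 0) (nat_lit 51740894980) (nat_lit 76) (nat_lit 9857675366) (nat_lit 76) (nat_lit 8095146817) (nat_lit 6) (nat_lit 4) (nat_lit 7) (nat_lit 5) (nat_lit 7) (nat_lit 4) (nat_lit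 431) (nat_lit 304) (nat_lit 285)) (XT.lf (nat_lit 0) (nat_lit 64186541712) (nat_lit 76) (nat_lit 5281208086) (nat_lit 76) (nat_lit 3463713809) (nat_lit 6) (nat_lit 4) (nat_lit 7) (nat_lit 5) (nat_lit 7) (nat_lit 4) (nat_lit 432) (nat_lit 304) (nat_lit 284))))) (XT.nd (nat_lit 234) (nat_lit 0) (nat_lit 0) (XT.nd (nat_lit 78) (nat_lit 0) (nat_lit 0) (XT.lf (nat_lit 0) (nat_lit 716389708) (nat_lit 76) (nat_lit 545187023) (nat_lit 152) (nat_lit 75073078357) (nat_lit 4) (nat_lit 5) (nat_lit 5) (nat_lit 5) (nat_lit 6) (nat_lit 4) (nat_lit 433) (nat_lit 304) (nat_lit 283)) (XT.nd (nat_lit 78) (nat_lit 0) (nat_lit 0) (XT.lf (nat_lit 0) (nat_lit 6222434073) (nat_lit 152) (nat_lit 69282801009) (nat_lit 0) (nat_lit 4394150142) (nat_lit 4) (nat_lit 5) (nat_lit 6) (nat_lit 4) (nat_lit 4) (nat_lit 4) (nat_lit 434) (nat_lit 304) (nat_lit 282)) (XT.lf (nat_lit 0) (nat_lit 11341272378) (nat_lit 152) (nat_lit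 62837817892) (nat_lit 0) (nat_lit 9467768006) (nat_lit 4) (nat_lit 5) (nat_lit 6) (nat_lit 4) (nat_lit 4) (nat_lit 4) (nat_lit 435) (nat_lit 304) (nat_lit 281)))) (XT.nd (nat_lit 156) (nat_lit 0) (nat_lit 0) (XT.nd (nat_lit 78) (nat_lit 0) (nat_lit 0) (XT.lf (nat_lit 0) (nat_lit 16621767460) (nat_lit 152) (nat_lit 56259458934) (nat_lit 0) (nat_lit 14705196000) (nat_lit 4) (nat_lit 5) (nat_lit 6) (nat_lit 4) (nat_lit 4) (nat_lit 4) (nat_lit 436) (nat_lit 304) (nat_lit 280)) (XT.lf (nat_lit 0) (nat_lit 22076491926) (nat_lit 152) (nat_lit 49532061374) (nat_lit 0) (nat_lit 20118904193) (nat_lit 4) (nat_lit 5) (nat_lit 6) (nat_lit 4) (nat_lit 4) (nat_lit 4) (nat_lit 437) (nat_lit 304) (nat_lit 279))) (XT.nd (nat_lit 78) (nat_lit 0) (nat_lit 0) (XT.lf (nat_lit 0) (nat_lit 27718433215) (nat_lit 152) (nat_lit 42639607601) (nat_lit 0) (nat_lit 25721782364) (nat_lit 4) (nat_lit 5) (nat_lit 6) (nat_lit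 4) (nat_lit 4) (nat_lit 4) (nat_lit 438) (nat_lit 304) (nat_lit 278)) (XT.lf (nat_lit 0) (nat_lit 33561024521) (nat_lit 152) (nat_lit 35565687009) (nat_lit 0) (nat_lit 31527170701) (nat_lit 4) (nat_lit 5) (nat_lit 6) (nat_lit 4) (nat_lit 4) (nat_lit 4) (nat_lit 439) (nat_lit 304) (nat_lit 277))))))) (XT.nd (nat_lit 1014) (nat_lit 0) (nat_lit 0) (XT.nd (nat_lit 468) (nat_lit 0) (nat_lit 0) (XT.nd (nat_lit 234) (nat_lit 76) (nat_lit 0) (XT.nd (nat_lit 78) (nat_lit 0) (nat_lit 0) (XT.lf (nat_lit 0) (nat_lit 39618176774) (nat_lit 152) (nat_lit 28293456930) (nat_lit 0) (nat_lit 37548891555) (nat_lit 4) (nat_lit 5) (nat_lit 6) (nat_lit 4) (nat_lit 4) (nat_lit 4) (nat_lit 440) (nat_lit 304) (nat_lit 276)) (XT.nd (nat_lit 78) (nat_lit 0) (nat_lit 0) (XT.lf (nat_lit 0) (nat_lit 45904311767) (nat_lit 152) (nat_lit 20805602532) (nat_lit 0) (nat_lit 43801282359) (nat_lit 4) (nat_lit 5) (nat_lit 6) (nat_lit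 4) (nat_lit 4) (nat_lit 4) (nat_lit 441) (nat_lit 304) (nat_lit 275)) (XT.lf (nat_lit 0) (nat_lit 52434396488) (nat_lit 152) (nat_lit 13084295589) (nat_lit 0) (nat_lit 50299229756) (nat_lit 4) (nat_lit 5) (nat_lit 6) (nat_lit 4) (nat_lit 4) (nat_lit 4) (nat_lit 442) (nat_lit 304) (nat_lit 274)))) (XT.nd (nat_lit 78) (nat_lit 76) (nat_lit 0) (XT.lf (nat_lit 0) (nat_lit 59223978757) (nat_lit 152) (nat_lit 5111152037) (nat_lit 0) (nat_lit 57058205050) (nat_lit 4) (nat_lit 5) (nat_lit 6) (nat_lit 4) (nat_lit 4) (nat_lit 4) (nat_lit 443) (nat_lit 304) (nat_lit 273)) (XT.nd (nat_lit 78) (nat_lit 0) (nat_lit 0) (XT.lf (nat_lit 0) (nat_lit 3236396704) (nat_lit 76) (nat_lit 63103356763) (nat_lit 76) (nat_lit 60908433557) (nat_lit 3) (nat_lit 4) (nat_lit 4) (nat_lit 5) (nat_lit 4) (nat_lit 4) (nat_lit 444) (nat_lit 304) (nat_lit 272)) (XT.lf (nat_lit 0) (nat_lit 12052995533) (nat_lit 76) (nat_lit 61782140473)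 (nat_lit 76) (nat_lit 59559455839) (nat_lit 3) (nat_lit 4) (nat_lit 4) (nat_lit 5) (nat_lit 4) (nat_lit 4) (nat_lit 445) (nat_lit 304) (nat_lit 271))))) (XT.nd (nat_lit 234) (nat_lit 0) (nat_lit 0) (XT.nd (nat_lit 78) (nat_lit 0) (nat_lit 0) (XT.lf (nat_lit 0) (nat_lit 21190638581) (nat_lit 76) (nat_lit 60454896004) (nat_lit 76) (nat_lit 58205771914) (nat_lit 3) (nat_lit 4) (nat_lit 4) (nat_lit 5) (nat_lit 4) (nat_lit 4) (nat_lit 446) (nat_lit 304) (nat_lit 270)) (XT.nd (nat_lit 78) (nat_lit 0) (nat_lit 0) (XT.lf (nat_lit 0) (nat_lit 30671082141) (nat_lit 76) (nat_lit 59118463249) (nat_lit 76) (nat_lit 56844158725) (nat_lit 3) (nat_lit 4) (nat_lit 4) (nat_lit 5) (nat_lit 4) (nat_lit 4) (nat_lit 447) (nat_lit 304) (nat_lit 269)) (XT.lf (nat_lit 0) (nat_lit 40516898698) (nat_lit 76) (nat_lit 57769660226) (nat_lit 76) (nat_lit 55471374336) (nat_lit 3) (nat_lit 4) (nat_lit 4) (nat_lit 5) (nat_lit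 4) (nat_lit 4) (nat_lit 448) (nat_lit 304) (nat_lit 268)))) (XT.nd (nat_lit 156) (nat_lit 0) (nat_lit 0) (XT.nd (nat_lit 78) (nat_lit 0) (nat_lit 0) (XT.lf (nat_lit 0) (nat_lit 50751530673) (nat_lit 76) (nat_lit 56405275499) (nat_lit 76) (nat_lit 54084150214) (nat_lit 3) (nat_lit 4) (nat_lit 4) (nat_lit 5) (nat_lit 4) (nat_lit 4) (nat_lit 449) (nat_lit 304) (nat_lit 267)) (XT.lf (nat_lit 0) (nat_lit 61399346236) (nat_lit 76) (nat_lit 55022060533) (nat_lit 76) (nat_lit 52679183442) (nat_lit 3) (nat_lit 4) (nat_lit 4) (nat_lit 5) (nat_lit 4) (nat_lit 4) (nat_lit 450) (nat_lit 304) (nat_lit 266))) (XT.nd (nat_lit 78) (nat_lit 0) (nat_lit 0) (XT.lf (nat_lit 0) (nat_lit 72485697330) (nat_lit 76) (nat_lit 53616721960) (nat_lit 76) (nat_lit 51253128863) (nat_lit 3) (nat_lit 4) (nat_lit 4) (nat_lit 5) (nat_lit 4) (nat_lit 4) (nat_lit 451) (nat_lit 304) (nat_lit 265)) (XT.lf (nat_lit 0) (nat_lit 84036980028)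 (nat_lit 76) (nat_lit 52185913734) (nat_lit 76) (nat_lit 49802591109) (nat_lit 3) (nat_lit 4) (nat_lit 4) (nat_lit 5) (nat_lit 4) (nat_lit 4) (nat_lit 452) (nat_lit 304) (nat_lit 264)))))) (XT.nd (nat_lit 546) (nat_lit 0) (nat_lit 0) (XT.nd (nat_lit 234) (nat_lit 0) (nat_lit 0) (XT.nd (nat_lit 78) (nat_lit 0) (nat_lit 0) (XT.lf (nat_lit 0) (nat_lit 96080697385) (nat_lit 76) (nat_lit 50726229169) (nat_lit 76) (nat_lit 48324116517) (nat_lit 3) (nat_lit 4) (nat_lit 4) (nat_lit 5) (nat_lit 4) (nat_lit 4) (nat_lit 453) (nat_lit 304) (nat_lit 263)) (XT.nd (nat_lit 78) (nat_lit 0) (nat_lit 0) (XT.lf (nat_lit 0) (nat_lit 108645524918) (nat_lit 76) (nat_lit 49234192827) (nat_lit 76) (nat_lit 46814184910) (nat_lit 3) (nat_lit 4) (nat_lit 4) (nat_lit 5) (nat_lit 4) (nat_lit 4) (nat_lit 454) (nat_lit 304) (nat_lit 262)) (XT.lf (nat_lit 0) (nat_lit 121761378883) (nat_lit 76) (nat_lit 47706252240) (nat_lit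 76) (nat_lit 45269201214) (nat_lit 3) (nat_lit 4) (nat_lit 4) (nat_lit 5) (nat_lit 4) (nat_lit 4) (nat_lit 455) (nat_lit 304) (nat_lit 261)))) (XT.nd (nat_lit 156) (nat_lit 0) (nat_lit 0) (XT.nd (nat_lit 78) (nat_lit 0) (nat_lit 0) (XT.lf (nat_lit 0) (nat_lit 135459487504) (nat_lit 76) (nat_lit 46138769453) (nat_lit 76) (nat_lit 43685486895) (nat_lit 3) (nat_lit 4) (nat_lit 4) (nat_lit 5) (nat_lit 4) (nat_lit 4) (nat_lit 456) (nat_lit 304) (nat_lit 260)) (XT.lf (nat_lit 0) (nat_lit 149772465325) (nat_lit 76) (nat_lit 44528012366) (nat_lit 76) (nat_lit 42059271206) (nat_lit 3) (nat_lit 4) (nat_lit 4) (nat_lit 5) (nat_lit 4) (nat_lit 4) (nat_lit 457) (nat_lit 304) (nat_lit 259))) (XT.nd (nat_lit 78) (nat_lit 0) (nat_lit 0) (XT.lf (nat_lit 0) (nat_lit 164734390865) (nat_lit 76) (nat_lit 42870145841) (nat_lit 76) (nat_lit 40386682203) (nat_lit 3) (nat_lit 4) (nat_lit 4) (nat_lit 5) (nat_lit 4)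 (nat_lit 4) (nat_lit 458) (nat_lit 304) (nat_lit 258)) (XT.lf (nat_lit 0) (nat_lit 180380887756) (nat_lit 76) (nat_lit 41161222578) (nat_lit 76) (nat_lit 38663737533) (nat_lit 3) (nat_lit 4) (nat_lit 4) (nat_lit 5) (nat_lit 4) (nat_lit 4) (nat_lit 459) (nat_lit 304) (nat_lit 257))))) (XT.nd (nat_lit 234) (nat_lit 0) (nat_lit 0) (XT.nd (nat_lit 78) (nat_lit 0) (nat_lit 0) (XT.lf (nat_lit 0) (nat_lit 196749209562) (nat_lit 76) (nat_lit 39397173713) (nat_lit 76) (nat_lit 36886334945) (nat_lit 3) (nat_lit 4) (nat_lit 4) (nat_lit 5) (nat_lit 4) (nat_lit 4) (nat_lit 460) (nat_lit 304) (nat_lit 256)) (XT.nd (nat_lit 78) (nat_lit 0) (nat_lit 0) (XT.lf (nat_lit 0) (nat_lit 213878328478) (nat_lit 76) (nat_lit 37573799128) (nat_lit 76) (nat_lit 35050242530) (nat_lit 3) (nat_lit 4) (nat_lit 4) (nat_lit 5) (nat_lit 4) (nat_lit 4) (nat_lit 461) (nat_lit 304) (nat_lit 255)) (XT.lf (nat_lit 0) (nat_lit 231809028121)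 (nat_lit 76) (nat_lit 35686757455) (nat_lit 76) (nat_lit 33151088638) (nat_lit 3) (nat_lit 4) (nat_lit 4) (nat_lit 5) (nat_lit 4) (nat_lit 4) (nat_lit 462) (nat_lit 304) (nat_lit 254)))) (XT.nd (nat_lit 156) (nat_lit 0) (nat_lit 0) (XT.nd (nat_lit 78) (nat_lit 0) (nat_lit 0) (XT.lf (nat_lit 0) (nat_lit 250584000631) (nat_lit 76) (nat_lit 33731555739) (nat_lit 76) (nat_lit 31184351475) (nat_lit 3) (nat_lit 4) (nat_lit 4) (nat_lit 5) (nat_lit 4) (nat_lit 4) (nat_lit 463) (nat_lit 304) (nat_lit 253)) (XT.lf (nat_lit 0) (nat_lit 270247948326) (nat_lit 76) (nat_lit 31703538736) (nat_lit 76) (nat_lit 29145348333) (nat_lit 3) (nat_lit 4) (nat_lit 4) (nat_lit 5) (nat_lit 4) (nat_lit 4) (nat_lit 464) (nat_lit 304) (nat_lit 252))) (XT.nd (nat_lit 78) (nat_lit 0) (nat_lit 0) (XT.lf (nat_lit 0) (nat_lit 290847690127) (nat_lit 76) (nat_lit 29597877836) (nat_lit 76) (nat_lit 27029224442) (nat_lit 3) (nat_lit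 4) (nat_lit 4) (nat_lit 5) (nat_lit 4) (nat_lit 4) (nat_lit 465) (nat_lit 304) (nat_lit 251)) (XT.lf (nat_lit 0) (nat_lit 312432273040) (nat_lit 76) (nat_lit 27409559559) (nat_lit 76) (nat_lit 24830941413) (nat_lit 3) (nat_lit 4) (nat_lit 4) (nat_lit 5) (nat_lit 4) (nat_lit 4) (nat_lit 466) (nat_lit 304) (nat_lit 250))))))))
noncomputable def xc26 : XT := (XT.nd (nat_lit 49296) (nat_lit 0) (nat_lit 228) (XT.nd (nat_lit 1014) (nat_lit 0) (nat_lit 0) (XT.nd (nat_lit 468) (nat_lit 152) (nat_lit 0) (XT.nd (nat_lit 234) (nat_lit 0) (nat_lit 0) (XT.nd (nat_lit 78) (nat_lit 0) (nat_lit 0) (XT.lf (nat_lit 0) (nat_lit 335053088928) (nat_lit 76) (nat_lit 25133373625) (nat_lit 76) (nat_lit 22545265238) (nat_lit 3) (nat_lit 4) (nat_lit 4) (nat_lit 5) (nat_lit 4) (nat_lit 4) (nat_lit 467) (nat_lit 304) (nat_lit 249)) (XT.nd (nat_lit 78) (nat_lit 0) (nat_lit 0) (XT.lf (nat_lit 0) (nat_lit 358763996877)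 (nat_lit 76) (nat_lit 22763900542) (nat_lit 76) (nat_lit 20166753830) (nat_lit 3) (nat_lit 4) (nat_lit 4) (nat_lit 5) (nat_lit 4) (nat_lit 4) (nat_lit 468) (nat_lit 304) (nat_lit 248)) (XT.lf (nat_lit 0) (nat_lit 383621451429) (nat_lit 76) (nat_lit 20295498709) (nat_lit 76) (nat_lit 17689744069) (nat_lit 3) (nat_lit 4) (nat_lit 4) (nat_lit 5) (nat_lit 4) (nat_lit 4) (nat_lit 469) (nat_lit 304) (nat_lit 247)))) (XT.nd (nat_lit 78) (nat_lit 0) (nat_lit 0) (XT.lf (nat_lit 0) (nat_lit 409684637000) (nat_lit 76) (nat_lit 17722290978) (nat_lit 76) (nat_lit 15108338311) (nat_lit 3) (nat_lit 4) (nat_lit 4) (nat_lit 5) (nat_lit 4) (nat_lit 4) (nat_lit 470) (nat_lit 304) (nat_lit 246)) (XT.nd (nat_lit 78) (nat_lit 0) (nat_lit 0) (XT.lf (nat_lit 0) (nat_lit 437015608794) (nat_lit 76) (nat_lit 15038150663) (nat_lit 76) (nat_lit 12416390352) (nat_lit 3) (nat_lit 4) (nat_lit 4) (nat_lit 5) (nat_lit 4)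 (nat_lit 4) (nat_lit 471) (nat_lit 304) (nat_lit 245)) (XT.lf (nat_lit 0) (nat_lit 465679440553) (nat_lit 76) (nat_lit 12236686955) (nat_lit 76) (nat_lit 9607490792) (nat_lit 3) (nat_lit 4) (nat_lit 4) (nat_lit 5) (nat_lit 4) (nat_lit 4) (nat_lit 472) (nat_lit 304) (nat_lit 244))))) (XT.nd (nat_lit 234) (nat_lit 152) (nat_lit 0) (XT.nd (nat_lit 78) (nat_lit 0) (nat_lit 0) (XT.lf (nat_lit 0) (nat_lit 495744379496) (nat_lit 76) (nat_lit 9311229702) (nat_lit 76) (nat_lit 6674951776) (nat_lit 3) (nat_lit 4) (nat_lit 4) (nat_lit 5) (nat_lit 4) (nat_lit 4) (nat_lit 473) (nat_lit 304) (nat_lit 243)) (XT.nd (nat_lit 78) (nat_lit 0) (nat_lit 0) (XT.lf (nat_lit 0) (nat_lit 527282008811) (nat_lit 76) (nat_lit 6254813530) (nat_lit 76) (nat_lit 3611791067) (nat_lit 3) (nat_lit 4) (nat_lit 4) (nat_lit 5) (nat_lit 4) (nat_lit 4) (nat_lit 474) (nat_lit 304) (nat_lit 242)) (XT.lf (nat_lit 0) (nat_lit 560367418091)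 (nat_lit 76) (nat_lit 3060161257) (nat_lit 76) (nat_lit 410715425) (nat_lit 3) (nat_lit 4) (nat_lit 4) (nat_lit 5) (nat_lit 4) (nat_lit 4) (nat_lit 475) (nat_lit 304) (nat_lit 241)))) (XT.nd (nat_lit 156) (nat_lit 0) (nat_lit 0) (XT.nd (nat_lit 78) (nat_lit 0) (nat_lit 0) (XT.lf (nat_lit 0) (nat_lit 2899031601) (nat_lit 152) (nat_lit 588589049686) (nat_lit 0) (nat_lit 369923671) (nat_lit 1) (nat_lit 5) (nat_lit 3) (nat_lit 4) (nat_lit 1) (nat_lit 4) (nat_lit 476) (nat_lit 304) (nat_lit 240)) (XT.lf (nat_lit 0) (nat_lit 6456340939) (nat_lit 152) (nat_lit 610895545321) (nat_lit 0) (nat_lit 3921684262) (nat_lit 1) (nat_lit 5) (nat_lit 3) (nat_lit 4) (nat_lit 1) (nat_lit 4) (nat_lit 477) (nat_lit 304) (nat_lit 239))) (XT.nd (nat_lit 78) (nat_lit 0) (nat_lit 0) (XT.lf (nat_lit 0) (nat_lit 10178150520) (nat_lit 152) (nat_lit 634344223171) (nat_lit 0) (nat_lit 7638209323) (nat_lit 1) (nat_lit 5)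 (nat_lit 3) (nat_lit 4) (nat_lit 1) (nat_lit 4) (nat_lit 478) (nat_lit 304) (nat_lit 238)) (XT.lf (nat_lit 0) (nat_lit 14073321796) (nat_lit 152) (nat_lit 658990913420) (nat_lit 0) (nat_lit 11528347721) (nat_lit 1) (nat_lit 5) (nat_lit 3) (nat_lit 4) (nat_lit 1) (nat_lit 4) (nat_lit 479) (nat_lit 304) (nat_lit 237)))))) (XT.nd (nat_lit 47736) (nat_lit 0) (nat_lit 684) (XT.nd (nat_lit 234) (nat_lit 0) (nat_lit 0) (XT.nd (nat_lit 78) (nat_lit 0) (nat_lit 0) (XT.lf (nat_lit 0) (nat_lit 18151128984) (nat_lit 152) (nat_lit 684894298665) (nat_lit 0) (nat_lit 15601361692) (nat_lit 1) (nat_lit 5) (nat_lit 3) (nat_lit 4) (nat_lit 1) (nat_lit 4) (nat_lit 480) (nat_lit 304) (nat_lit 236)) (XT.nd (nat_lit 78) (nat_lit 0) (nat_lit 0) (XT.lf (nat_lit 0) (nat_lit 22421281148) (nat_lit 152) (nat_lit 712116053633) (nat_lit 0) (nat_lit 19866948888) (nat_lit 1) (nat_lit 5) (nat_lit 3) (nat_lit 4) (nat_lit 1)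 (nat_lit 4) (nat_lit 481) (nat_lit 304) (nat_lit 235)) (XT.lf (nat_lit 0) (nat_lit 26893945317) (nat_lit 152) (nat_lit 740720992026) (nat_lit 0) (nat_lit 24335265469) (nat_lit 1) (nat_lit 5) (nat_lit 3) (nat_lit 4) (nat_lit 1) (nat_lit 4) (nat_lit 482) (nat_lit 304) (nat_lit 234)))) (XT.nd (nat_lit 156) (nat_lit 0) (nat_lit 0) (XT.nd (nat_lit 78) (nat_lit 0) (nat_lit 0) (XT.lf (nat_lit 0) (nat_lit 31579770692) (nat_lit 152) (nat_lit 770777220839) (nat_lit 0) (nat_lit 29016950284) (nat_lit 1) (nat_lit 5) (nat_lit 3) (nat_lit 4) (nat_lit 1) (nat_lit 4) (nat_lit 483) (nat_lit 304) (nat_lit 233)) (XT.lf (nat_lit 0) (nat_lit 36489914001) (nat_lit 152) (nat_lit 802356302523) (nat_lit 0) (nat_lit 33923150201) (nat_lit 1) (nat_lit 5) (nat_lit 3) (nat_lit 4) (nat_lit 1) (nat_lit 4) (nat_lit 484) (nat_lit 304) (nat_lit 232))) (XT.nd (nat_lit 47268) (nat_lit 0) (nat_lit 1064) (XT.lf (nat_lit 0) (nat_lit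 41636066059) (nat_lit 152) (nat_lit 835533425367) (nat_lit 0) (nat_lit 39065546649) (nat_lit 1) (nat_lit 5) (nat_lit 3) (nat_lit 4) (nat_lit 1) (nat_lit 4) (nat_lit 485) (nat_lit 304) (nat_lit 231)) (XT.lf (nat_lit 0) (nat_lit 13658166981) (nat_lit 76) (nat_lit 409105609) (nat_lit 76) (nat_lit 409105609) (nat_lit 15) (nat_lit 4) (nat_lit 16) (nat_lit 5) (nat_lit 16) (nat_lit 4) (nat_lit 410) (nat_lit 305) (nat_lit 305))))) (XT.nd (nat_lit 234) (nat_lit 152) (nat_lit 0) (XT.nd (nat_lit 78) (nat_lit 76) (nat_lit 0) (XT.lf (nat_lit 0) (nat_lit 5877769776) (nat_lit 152) (nat_lit 18462046882) (nat_lit 0) (nat_lit 5716980687) (nat_lit 13) (nat_lit 5) (nat_lit 15) (nat_lit 4) (nat_lit 13) (nat_lit 4) (nat_lit 411) (nat_lit 305) (nat_lit 304)) (XT.nd (nat_lit 78) (nat_lit 76) (nat_lit 0) (XT.lf (nat_lit 0) (nat_lit 12704729048) (nat_lit 152) (nat_lit 6128660530) (nat_lit 0) (nat_lit 12390807494)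 (nat_lit 13) (nat_lit 5) (nat_lit 15) (nat_lit 4) (nat_lit 13) (nat_lit 4) (nat_lit 412) (nat_lit 305) (nat_lit 303)) (XT.lf (nat_lit 0) (nat_lit 6622873347) (nat_lit 76) (nat_lit 13146036230) (nat_lit 76) (nat_lit 12686274233) (nat_lit 12) (nat_lit 4) (nat_lit 13) (nat_lit 5) (nat_lit 13) (nat_lit 4) (nat_lit 413) (nat_lit 305) (nat_lit 302)))) (XT.nd (nat_lit 156) (nat_lit 152) (nat_lit 0) (XT.nd (nat_lit 78) (nat_lit 0) (nat_lit 0) (XT.lf (nat_lit 0) (nat_lit 19820882962) (nat_lit 76) (nat_lit 7265256374) (nat_lit 76) (nat_lit 6666598717) (nat_lit 12) (nat_lit 4) (nat_lit 13) (nat_lit 5) (nat_lit 13) (nat_lit 4) (nat_lit 414) (nat_lit 305) (nat_lit 301)) (XT.lf (nat_lit 0) (nat_lit 33294150953) (nat_lit 76) (nat_lit 1280839986) (nat_lit 76) (nat_lit 549900748) (nat_lit 12) (nat_lit 4) (nat_lit 13) (nat_lit 5) (nat_lit 13) (nat_lit 4) (nat_lit 415) (nat_lit 305) (nat_lit 300))) (XT.nd (nat_lit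 78) (nat_lit 0) (nat_lit 0) (XT.lf (nat_lit 0) (nat_lit 5744044645) (nat_lit 152) (nat_lit 25886135322) (nat_lit 0) (nat_lit 4927928744) (nat_lit 10) (nat_lit 5) (nat_lit 12) (nat_lit 4) (nat_lit 10) (nat_lit 4) (nat_lit 416) (nat_lit 305) (nat_lit 299)) (XT.lf (nat_lit 0) (nat_lit 12199079085) (nat_lit 152) (nat_lit 14601528155) (nat_lit 0) (nat_lit 11268693381) (nat_lit 10) (nat_lit 5) (nat_lit 12) (nat_lit 4) (nat_lit 10) (nat_lit 4) (nat_lit 417) (nat_lit 305) (nat_lit 298))))))) (XT.nd (nat_lit 1014) (nat_lit 152) (nat_lit 0) (XT.nd (nat_lit 468) (nat_lit 76) (nat_lit 0) (XT.nd (nat_lit 234) (nat_lit 152) (nat_lit 0) (XT.nd (nat_lit 78) (nat_lit 76) (nat_lit 0) (XT.lf (nat_lit 0) (nat_lit 18798162314) (nat_lit 152) (nat_lit 3107884707) (nat_lit 0) (nat_lit 17758948226) (nat_lit 10) (nat_lit 5) (nat_lit 12) (nat_lit 4) (nat_lit 10) (nat_lit 4) (nat_lit 418) (nat_lit 305) (nat_lit 297))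 (XT.nd (nat_lit 78) (nat_lit 0) (nat_lit 0) (XT.lf (nat_lit 0) (nat_lit 8907248413) (nat_lit 76) (nat_lit 16788825133) (nat_lit 76) (nat_lit 15645964965) (nat_lit 9) (nat_lit 4) (nat_lit 10) (nat_lit 5) (nat_lit 10) (nat_lit 4) (nat_lit 419) (nat_lit 305) (nat_lit 296)) (XT.lf (nat_lit 0) (nat_lit 21298212985) (nat_lit 76) (nat_lit 11526015744) (nat_lit 76) (nat_lit 10284445023) (nat_lit 9) (nat_lit 4) (nat_lit 10) (nat_lit 5) (nat_lit 10) (nat_lit 4) (nat_lit 420) (nat_lit 305) (nat_lit 295)))) (XT.nd (nat_lit 78) (nat_lit 152) (nat_lit 0) (XT.lf (nat_lit 0) (nat_lit 33991750601) (nat_lit 76) (nat_lit 6157721887) (nat_lit 76) (nat_lit 4822141117) (nat_lit 9) (nat_lit 4) (nat_lit 10) (nat_lit 5) (nat_lit 10) (nat_lit 4) (nat_lit 421) (nat_lit 305) (nat_lit 294)) (XT.nd (nat_lit 78) (nat_lit 0) (nat_lit 0) (XT.lf (nat_lit 0) (nat_lit 73367230) (nat_lit 76) (nat_lit 657599297) (nat_lit 152)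 (nat_lit 46203681273) (nat_lit 7) (nat_lit 5) (nat_lit 8) (nat_lit 5) (nat_lit 9) (nat_lit 4) (nat_lit 422) (nat_lit 305) (nat_lit 293)) (XT.lf (nat_lit 0) (nat_lit 6514624024) (nat_lit 152) (nat_lit 37395352521) (nat_lit 0) (nat_lit 5076163036) (nat_lit 7) (nat_lit 5) (nat_lit 9) (nat_lit 4) (nat_lit 7) (nat_lit 4) (nat_lit 423) (nat_lit 305) (nat_lit 292))))) (XT.nd (nat_lit 234) (nat_lit 76) (nat_lit 0) (XT.nd (nat_lit 78) (nat_lit 0) (nat_lit 0) (XT.lf (nat_lit 0) (nat_lit 12451628916) (nat_lit 152) (nat_lit 27759548851) (nat_lit 0) (nat_lit 10935825627) (nat_lit 7) (nat_lit 5) (nat_lit 9) (nat_lit 4) (nat_lit 7) (nat_lit 4) (nat_lit 424) (nat_lit 305) (nat_lit 291)) (XT.nd (nat_lit 78) (nat_lit 0) (nat_lit 0) (XT.lf (nat_lit 0) (nat_lit 18545849961) (nat_lit 152) (nat_lit 17920660202) (nat_lit 0) (nat_lit 16956387337) (nat_lit 7) (nat_lit 5) (nat_lit 9) (nat_lit 4) (nat_lit 7) (nat_lit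 4) (nat_lit 425) (nat_lit 305) (nat_lit 290)) (XT.lf (nat_lit 0) (nat_lit 24811797208) (nat_lit 152) (nat_lit 7855260649) (nat_lit 0) (nat_lit 23152182838) (nat_lit 7) (nat_lit 5) (nat_lit 9) (nat_lit 4) (nat_lit 7) (nat_lit 4) (nat_lit 426) (nat_lit 305) (nat_lit 289)))) (XT.nd (nat_lit 156) (nat_lit 0) (nat_lit 0) (XT.nd (nat_lit 78) (nat_lit 0) (nat_lit 0) (XT.lf (nat_lit 0) (nat_lit 2541974090) (nat_lit 76) (nat_lit 28762102830) (nat_lit 76) (nat_lit 27035677272) (nat_lit 6) (nat_lit 4) (nat_lit 7) (nat_lit 5) (nat_lit 7) (nat_lit 4) (nat_lit 427) (nat_lit 305) (nat_lit 288)) (XT.lf (nat_lit 0) (nat_lit 13483070962) (nat_lit 76) (nat_lit 24646427954) (nat_lit 76) (nat_lit 22856372695) (nat_lit 6) (nat_lit 4) (nat_lit 7) (nat_lit 5) (nat_lit 7) (nat_lit 4) (nat_lit 428) (nat_lit 305) (nat_lit 287))) (XT.nd (nat_lit 78) (nat_lit 0) (nat_lit 0) (XT.lf (nat_lit 0) (nat_lit 24734349804) (nat_lit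 76) (nat_lit 20443266646) (nat_lit 76) (nat_lit 18592611670) (nat_lit 6) (nat_lit 4) (nat_lit 7) (nat_lit 5) (nat_lit 7) (nat_lit 4) (nat_lit 429) (nat_lit 305) (nat_lit 286)) (XT.lf (nat_lit 0) (nat_lit 36322599376) (nat_lit 76) (nat_lit 16142611378) (nat_lit 76) (nat_lit 14234242387) (nat_lit 6) (nat_lit 4) (nat_lit 7) (nat_lit 5) (nat_lit 7) (nat_lit 4) (nat_lit 430) (nat_lit 305) (nat_lit 285)))))) (XT.nd (nat_lit 546) (nat_lit 0) (nat_lit 0) (XT.nd (nat_lit 234) (nat_lit 152) (nat_lit 0) (XT.nd (nat_lit 78) (nat_lit 0) (nat_lit 0) (XT.lf (nat_lit 0) (nat_lit 48275410749) (nat_lit 76) (nat_lit 11734222495) (nat_lit 76) (nat_lit 9770887774) (nat_lit 6) (nat_lit 4) (nat_lit 7) (nat_lit 5) (nat_lit 7) (nat_lit 4) (nat_lit 431) (nat_lit 305) (nat_lit 284)) (XT.nd (nat_lit 78) (nat_lit 0) (nat_lit 0) (XT.lf (nat_lit 0) (nat_lit 60621242996) (nat_lit 76) (nat_lit 7207603832) (nat_lit 76) (nat_lit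 5191920798) (nat_lit 6) (nat_lit 4) (nat_lit 7) (nat_lit 5) (nat_lit 7) (nat_lit 4) (nat_lit 432) (nat_lit 305) (nat_lit 283)) (XT.lf (nat_lit 0) (nat_lit 73389490956) (nat_lit 76) (nat_lit 2551977727) (nat_lit 76) (nat_lit 486439156) (nat_lit 6) (nat_lit 4) (nat_lit 7) (nat_lit 5) (nat_lit 7) (nat_lit 4) (nat_lit 433) (nat_lit 305) (nat_lit 282)))) (XT.nd (nat_lit 156) (nat_lit 0) (nat_lit 0) (XT.nd (nat_lit 78) (nat_lit 0) (nat_lit 0) (XT.lf (nat_lit 0) (nat_lit 4360553148) (nat_lit 152) (nat_lit 73290784770) (nat_lit 0) (nat_lit 2348153115) (nat_lit 4) (nat_lit 5) (nat_lit 6) (nat_lit 4) (nat_lit 4) (nat_lit 4) (nat_lit 434) (nat_lit 305) (nat_lit 281)) (XT.lf (nat_lit 0) (nat_lit 9433398703) (nat_lit 152) (nat_lit 66937934977) (nat_lit 0) (nat_lit 7377931583) (nat_lit 4) (nat_lit 5) (nat_lit 6) (nat_lit 4) (nat_lit 4) (nat_lit 4) (nat_lit 435) (nat_lit 305) (nat_lit 280))) (XT.nd (nat_lit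 78) (nat_lit 0) (nat_lit 0) (XT.lf (nat_lit 0) (nat_lit 14670091165) (nat_lit 152) (nat_lit 60447322041) (nat_lit 0) (nat_lit 12573607772) (nat_lit 4) (nat_lit 5) (nat_lit 6) (nat_lit 4) (nat_lit 4) (nat_lit 4) (nat_lit 436) (nat_lit 305) (nat_lit 279)) (XT.lf (nat_lit 0) (nat_lit 20083098850) (nat_lit 152) (nat_lit 53803492123) (nat_lit 0) (nat_lit 17947552339) (nat_lit 4) (nat_lit 5) (nat_lit 6) (nat_lit 4) (nat_lit 4) (nat_lit 4) (nat_lit 437) (nat_lit 305) (nat_lit 278))))) (XT.nd (nat_lit 234) (nat_lit 0) (nat_lit 0) (XT.nd (nat_lit 78) (nat_lit 0) (nat_lit 0) (XT.lf (nat_lit 0) (nat_lit 25685309872) (nat_lit 152) (nat_lit 46990626578) (nat_lit 0) (nat_lit 23512560392) (nat_lit 4) (nat_lit 5) (nat_lit 6) (nat_lit 4) (nat_lit 4) (nat_lit 4) (nat_lit 438) (nat_lit 305) (nat_lit 277)) (XT.nd (nat_lit 78) (nat_lit 0) (nat_lit 0) (XT.lf (nat_lit 0) (nat_lit 31490062828) (nat_lit 152) (nat_lit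 39992504300) (nat_lit 0) (nat_lit 29281881948) (nat_lit 4) (nat_lit 5) (nat_lit 6) (nat_lit 4) (nat_lit 4) (nat_lit 4) (nat_lit 439) (nat_lit 305) (nat_lit 276)) (XT.lf (nat_lit 0) (nat_lit 37511178558) (nat_lit 152) (nat_lit 32792463092) (nat_lit 0) (nat_lit 35269253489) (nat_lit 4) (nat_lit 5) (nat_lit 6) (nat_lit 4) (nat_lit 4) (nat_lit 4) (nat_lit 440) (nat_lit 305) (nat_lit 275)))) (XT.nd (nat_lit 156) (nat_lit 0) (nat_lit 0) (XT.nd (nat_lit 78) (nat_lit 0) (nat_lit 0) (XT.lf (nat_lit 0) (nat_lit 43762993052) (nat_lit 152) (nat_lit 25373359999) (nat_lit 0) (nat_lit 41488930660) (nat_lit 4) (nat_lit 5) (nat_lit 6) (nat_lit 4) (nat_lit 4) (nat_lit 4) (nat_lit 441) (nat_lit 305) (nat_lit 274)) (XT.lf (nat_lit 0) (nat_lit 50260391584) (nat_lit 152) (nat_lit 17717530489) (nat_lit 0) (nat_lit 47955722217) (nat_lit 4) (nat_lit 5) (nat_lit 6) (nat_lit 4) (nat_lit 4) (nat_lit 4) (nat_lit 442)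 (nat_lit 305) (nat_lit 273))) (XT.nd (nat_lit 78) (nat_lit 0) (nat_lit 0) (XT.lf (nat_lit 0) (nat_lit 57018844148) (nat_lit 152) (nat_lit 9806746397) (nat_lit 0) (nat_lit 54685025282) (nat_lit 4) (nat_lit 5) (nat_lit 6) (nat_lit 4) (nat_lit 4) (nat_lit 4) (nat_lit 443) (nat_lit 305) (nat_lit 272)) (XT.lf (nat_lit 0) (nat_lit 64054442300) (nat_lit 152) (nat_lit 1622172523) (nat_lit 0) (nat_lit 61692862005) (nat_lit 4) (nat_lit 5) (nat_lit 6) (nat_lit 4) (nat_lit 4) (nat_lit 4) (nat_lit 444) (nat_lit 305) (nat_lit 271))))))))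
noncomputable def xc27 : XT := (XT.nd (nat_lit 2106) (nat_lit 152) (nat_lit 0) (XT.nd (nat_lit 1014) (nat_lit 0) (nat_lit 0) (XT.nd (nat_lit 468) (nat_lit 0) (nat_lit 0) (XT.nd (nat_lit 234) (nat_lit 0) (nat_lit 0) (XT.nd (nat_lit 78) (nat_lit 0) (nat_lit 0) (XT.lf (nat_lit 0) (nat_lit 7082357895) (nat_lit 76) (nat_lit 64412155023) (nat_lit 76) (nat_lit 62024135272) (nat_lit 3) (nat_lit 4) (nat_lit 4) (nat_lit 5) (nat_lit 4) (nat_lit 4) (nat_lit 445) (nat_lit 305) (nat_lit 270)) (XT.nd (nat_lit 78) (nat_lit 0) (nat_lit 0) (XT.lf (nat_lit 0) (nat_lit 16164351363) (nat_lit 76) (nat_lit 63112800279) (nat_lit 76) (nat_lit 60699600095) (nat_lit 3) (nat_lit 4) (nat_lit 4) (nat_lit 5) (nat_lit 4) (nat_lit 4) (nat_lit 446) (nat_lit 305) (nat_lit 269)) (XT.lf (nat_lit 0) (nat_lit 25591795322) (nat_lit 76) (nat_lit 61802929168) (nat_lit 76) (nat_lit 59365747618) (nat_lit 3) (nat_lit 4) (nat_lit 4)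 (nat_lit 5) (nat_lit 4) (nat_lit 4) (nat_lit 447) (nat_lit 305) (nat_lit 268)))) (XT.nd (nat_lit 78) (nat_lit 0) (nat_lit 0) (XT.lf (nat_lit 0) (nat_lit 35387136070) (nat_lit 76) (nat_lit 60479422949) (nat_lit 76) (nat_lit 58019402003) (nat_lit 3) (nat_lit 4) (nat_lit 4) (nat_lit 5) (nat_lit 4) (nat_lit 4) (nat_lit 448) (nat_lit 305) (nat_lit 267)) (XT.nd (nat_lit 78) (nat_lit 0) (nat_lit 0) (XT.lf (nat_lit 0) (nat_lit 45573695844) (nat_lit 76) (nat_lit 59139130416) (nat_lit 76) (nat_lit 56657357664) (nat_lit 3) (nat_lit 4) (nat_lit 4) (nat_lit 5) (nat_lit 4) (nat_lit 4) (nat_lit 449) (nat_lit 305) (nat_lit 266)) (XT.lf (nat_lit 0) (nat_lit 56175728360) (nat_lit 76) (nat_lit 57778860396) (nat_lit 76) (nat_lit 55276371640) (nat_lit 3) (nat_lit 4) (nat_lit 4) (nat_lit 5) (nat_lit 4) (nat_lit 4) (nat_lit 450) (nat_lit 305) (nat_lit 265))))) (XT.nd (nat_lit 234) (nat_lit 0) (nat_lit 0) (XT.nd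 (nat_lit 78) (nat_lit 0) (nat_lit 0) (XT.lf (nat_lit 0) (nat_lit 67218476551) (nat_lit 76) (nat_lit 56395374153) (nat_lit 76) (nat_lit 53873155867) (nat_lit 3) (nat_lit 4) (nat_lit 4) (nat_lit 5) (nat_lit 4) (nat_lit 4) (nat_lit 451) (nat_lit 305) (nat_lit 264)) (XT.nd (nat_lit 78) (nat_lit 0) (nat_lit 0) (XT.lf (nat_lit 0) (nat_lit 78728232675) (nat_lit 76) (nat_lit 54985377669) (nat_lit 76) (nat_lit 52444369357) (nat_lit 3) (nat_lit 4) (nat_lit 4) (nat_lit 5) (nat_lit 4) (nat_lit 4) (nat_lit 452) (nat_lit 305) (nat_lit 263)) (XT.lf (nat_lit 0) (nat_lit 90732400914) (nat_lit 76) (nat_lit 53545513813) (nat_lit 76) (nat_lit 50986610236) (nat_lit 3) (nat_lit 4) (nat_lit 4) (nat_lit 5) (nat_lit 4) (nat_lit 4) (nat_lit 453) (nat_lit 305) (nat_lit 262)))) (XT.nd (nat_lit 156) (nat_lit 0) (nat_lit 0) (XT.nd (nat_lit 78) (nat_lit 0) (nat_lit 0) (XT.lf (nat_lit 0) (nat_lit 103259562621) (nat_lit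 76) (nat_lit 52072354335) (nat_lit 76) (nat_lit 49496407649) (nat_lit 3) (nat_lit 4) (nat_lit 4) (nat_lit 5) (nat_lit 4) (nat_lit 4) (nat_lit 454) (nat_lit 305) (nat_lit 261)) (XT.lf (nat_lit 0) (nat_lit 116339544370) (nat_lit 76) (nat_lit 50562391713) (nat_lit 76) (nat_lit 47970213495) (nat_lit 3) (nat_lit 4) (nat_lit 4) (nat_lit 5) (nat_lit 4) (nat_lit 4) (nat_lit 455) (nat_lit 305) (nat_lit 260))) (XT.nd (nat_lit 78) (nat_lit 0) (nat_lit 0) (XT.lf (nat_lit 0) (nat_lit 130003488976) (nat_lit 76) (nat_lit 49012030799) (nat_lit 76) (nat_lit 46404393979) (nat_lit 3) (nat_lit 4) (nat_lit 4) (nat_lit 5) (nat_lit 4) (nat_lit 4) (nat_lit 456) (nat_lit 305) (nat_lit 259)) (XT.lf (nat_lit 0) (nat_lit 144283929640) (nat_lit 76) (nat_lit 47417580257) (nat_lit 76) (nat_lit 44795220959) (nat_lit 3) (nat_lit 4) (nat_lit 4) (nat_lit 5) (nat_lit 4) (nat_lit 4) (nat_lit 457) (nat_lit 305) (nat_lit 258))))))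 (XT.nd (nat_lit 546) (nat_lit 0) (nat_lit 0) (XT.nd (nat_lit 234) (nat_lit 0) (nat_lit 0) (XT.nd (nat_lit 78) (nat_lit 0) (nat_lit 0) (XT.lf (nat_lit 0) (nat_lit 159214867411) (nat_lit 76) (nat_lit 45775243775) (nat_lit 76) (nat_lit 43138863069) (nat_lit 3) (nat_lit 4) (nat_lit 4) (nat_lit 5) (nat_lit 4) (nat_lit 4) (nat_lit 458) (nat_lit 305) (nat_lit 257)) (XT.nd (nat_lit 78) (nat_lit 0) (nat_lit 0) (XT.lf (nat_lit 0) (nat_lit 174831852141) (nat_lit 76) (nat_lit 44081111030) (nat_lit 76) (nat_lit 41431376602) (nat_lit 3) (nat_lit 4) (nat_lit 4) (nat_lit 5) (nat_lit 4) (nat_lit 4) (nat_lit 459) (nat_lit 305) (nat_lit 256)) (XT.lf (nat_lit 0) (nat_lit 191172067128) (nat_lit 76) (nat_lit 42331148371) (nat_lit 76) (nat_lit 39668696113) (nat_lit 3) (nat_lit 4) (nat_lit 4) (nat_lit 5) (nat_lit 4) (nat_lit 4) (nat_lit 460) (nat_lit 305) (nat_lit 255)))) (XT.nd (nat_lit 156) (nat_lit 0) (nat_lit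 0) (XT.nd (nat_lit 78) (nat_lit 0) (nat_lit 0) (XT.lf (nat_lit 0) (nat_lit 208274417644) (nat_lit 76) (nat_lit 40521189221) (nat_lit 76) (nat_lit 37846624744) (nat_lit 3) (nat_lit 4) (nat_lit 4) (nat_lit 5) (nat_lit 4) (nat_lit 4) (nat_lit 461) (nat_lit 305) (nat_lit 254)) (XT.lf (nat_lit 0) (nat_lit 226179623572) (nat_lit 76) (nat_lit 38646924153) (nat_lit 76) (nat_lit 35960824229) (nat_lit 3) (nat_lit 4) (nat_lit 4) (nat_lit 5) (nat_lit 4) (nat_lit 4) (nat_lit 462) (nat_lit 305) (nat_lit 253))) (XT.nd (nat_lit 78) (nat_lit 0) (nat_lit 0) (XT.lf (nat_lit 0) (nat_lit 244930316356) (nat_lit 76) (nat_lit 36703890631) (nat_lit 76) (nat_lit 34006804568) (nat_lit 3) (nat_lit 4) (nat_lit 4) (nat_lit 5) (nat_lit 4) (nat_lit 4) (nat_lit 463) (nat_lit 305) (nat_lit 252)) (XT.lf (nat_lit 0) (nat_lit 264571140500) (nat_lit 76) (nat_lit 34687462386) (nat_lit 76) (nat_lit 31979913332) (nat_lit 3) (nat_lit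 4) (nat_lit 4) (nat_lit 5) (nat_lit 4) (nat_lit 4) (nat_lit 464) (nat_lit 305) (nat_lit 251))))) (XT.nd (nat_lit 234) (nat_lit 0) (nat_lit 0) (XT.nd (nat_lit 78) (nat_lit 0) (nat_lit 0) (XT.lf (nat_lit 0) (nat_lit 285148859873) (nat_lit 76) (nat_lit 32592838397) (nat_lit 76) (nat_lit 29875324591) (nat_lit 3) (nat_lit 4) (nat_lit 4) (nat_lit 5) (nat_lit 4) (nat_lit 4) (nat_lit 465) (nat_lit 305) (nat_lit 250)) (XT.nd (nat_lit 78) (nat_lit 0) (nat_lit 0) (XT.lf (nat_lit 0) (nat_lit 306712469044) (nat_lit 76) (nat_lit 30415031465) (nat_lit 76) (nat_lit 27688027418) (nat_lit 3) (nat_lit 4) (nat_lit 4) (nat_lit 5) (nat_lit 4) (nat_lit 4) (nat_lit 466) (nat_lit 305) (nat_lit 249)) (XT.lf (nat_lit 0) (nat_lit 329313309940) (nat_lit 76) (nat_lit 28148856335) (nat_lit 76) (nat_lit 25412813963) (nat_lit 3) (nat_lit 4) (nat_lit 4) (nat_lit 5) (nat_lit 4) (nat_lit 4) (nat_lit 467) (nat_lit 305) (nat_lit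 248)))) (XT.nd (nat_lit 156) (nat_lit 0) (nat_lit 0) (XT.nd (nat_lit 78) (nat_lit 0) (nat_lit 0) (XT.lf (nat_lit 0) (nat_lit 353005194086) (nat_lit 76) (nat_lit 25788917351) (nat_lit 76) (nat_lit 23044267052) (nat_lit 3) (nat_lit 4) (nat_lit 4) (nat_lit 5) (nat_lit 4) (nat_lit 4) (nat_lit 468) (nat_lit 305) (nat_lit 247)) (XT.lf (nat_lit 0) (nat_lit 377844530732) (nat_lit 76) (nat_lit 23329595613) (nat_lit 76) (nat_lit 20576747286) (nat_lit 3) (nat_lit 4) (nat_lit 4) (nat_lit 5) (nat_lit 4) (nat_lit 4) (nat_lit 469) (nat_lit 305) (nat_lit 246))) (XT.nd (nat_lit 78) (nat_lit 0) (nat_lit 0) (XT.lf (nat_lit 0) (nat_lit 403890461154) (nat_lit 76) (nat_lit 20765035590) (nat_lit 76) (nat_lit 18004379619) (nat_lit 3) (nat_lit 4) (nat_lit 4) (nat_lit 5) (nat_lit 4) (nat_lit 4) (nat_lit 470) (nat_lit 305) (nat_lit 245)) (XT.lf (nat_lit 0) (nat_lit 431204999473) (nat_lit 76) (nat_lit 18089131189) (nat_lit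 76) (nat_lit 15321039366) (nat_lit 3) (nat_lit 4) (nat_lit 4) (nat_lit 5) (nat_lit 4) (nat_lit 4) (nat_lit 471) (nat_lit 305) (nat_lit 244))))))) (XT.nd (nat_lit 48126) (nat_lit 0) (nat_lit 608) (XT.nd (nat_lit 546) (nat_lit 0) (nat_lit 0) (XT.nd (nat_lit 234) (nat_lit 152) (nat_lit 0) (XT.nd (nat_lit 78) (nat_lit 0) (nat_lit 0) (XT.lf (nat_lit 0) (nat_lit 459853180303) (nat_lit 76) (nat_lit 15295511208) (nat_lit 76) (nat_lit 12520337621) (nat_lit 3) (nat_lit 4) (nat_lit 4) (nat_lit 5) (nat_lit 4) (nat_lit 4) (nat_lit 472) (nat_lit 305) (nat_lit 243)) (XT.nd (nat_lit 78) (nat_lit 0) (nat_lit 0) (XT.lf (nat_lit 0) (nat_lit 489903213599) (nat_lit 76) (nat_lit 12377524172) (nat_lit 76) (nat_lit 9595606048) (nat_lit 3) (nat_lit 4) (nat_lit 4) (nat_lit 5) (nat_lit 4) (nat_lit 4) (nat_lit 473) (nat_lit 305) (nat_lit 242)) (XT.lf (nat_lit 0) (nat_lit 521426647060) (nat_lit 76) (nat_lit 9328222491)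 (nat_lit 76) (nat_lit 6539880999) (nat_lit 3) (nat_lit 4) (nat_lit 4) (nat_lit 5) (nat_lit 4) (nat_lit 4) (nat_lit 474) (nat_lit 305) (nat_lit 241)))) (XT.nd (nat_lit 156) (nat_lit 152) (nat_lit 0) (XT.nd (nat_lit 78) (nat_lit 0) (nat_lit 0) (XT.lf (nat_lit 0) (nat_lit 554498536479) (nat_lit 76) (nat_lit 6140345924) (nat_lit 76) (nat_lit 3345886938) (nat_lit 3) (nat_lit 4) (nat_lit 4) (nat_lit 5) (nat_lit 4) (nat_lit 4) (nat_lit 475) (nat_lit 305) (nat_lit 240)) (XT.lf (nat_lit 0) (nat_lit 589197624450) (nat_lit 76) (nat_lit 2806304289) (nat_lit 76) (nat_lit 6019119) (nat_lit 3) (nat_lit 4) (nat_lit 4) (nat_lit 5) (nat_lit 4) (nat_lit 4) (nat_lit 476) (nat_lit 305) (nat_lit 239))) (XT.nd (nat_lit 78) (nat_lit 0) (nat_lit 0) (XT.lf (nat_lit 0) (nat_lit 3455045309) (nat_lit 152) (nat_lit 617192472348) (nat_lit 0) (nat_lit 782822531) (nat_lit 1) (nat_lit 5) (nat_lit 3) (nat_lit 4) (nat_lit 1)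 (nat_lit 4) (nat_lit 477) (nat_lit 305) (nat_lit 238)) (XT.lf (nat_lit 0) (nat_lit 7170645728) (nat_lit 152) (nat_lit 640653627518) (nat_lit 0) (nat_lit 4493390072) (nat_lit 1) (nat_lit 5) (nat_lit 3) (nat_lit 4) (nat_lit 1) (nat_lit 4) (nat_lit 478) (nat_lit 305) (nat_lit 237))))) (XT.nd (nat_lit 234) (nat_lit 0) (nat_lit 0) (XT.nd (nat_lit 78) (nat_lit 0) (nat_lit 0) (XT.lf (nat_lit 0) (nat_lit 11059903514) (nat_lit 152) (nat_lit 665312200930) (nat_lit 0) (nat_lit 8377854642) (nat_lit 1) (nat_lit 5) (nat_lit 3) (nat_lit 4) (nat_lit 1) (nat_lit 4) (nat_lit 479) (nat_lit 305) (nat_lit 236)) (XT.nd (nat_lit 78) (nat_lit 0) (nat_lit 0) (XT.lf (nat_lit 0) (nat_lit 15132078808) (nat_lit 152) (nat_lit 691226903473) (nat_lit 0) (nat_lit 12445464967) (nat_lit 1) (nat_lit 5) (nat_lit 3) (nat_lit 4) (nat_lit 1) (nat_lit 4) (nat_lit 480) (nat_lit 305) (nat_lit 235)) (XT.lf (nat_lit 0) (nat_lit 19396867263)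 (nat_lit 152) (nat_lit 718459436819) (nat_lit 0) (nat_lit 16705905834) (nat_lit 1) (nat_lit 5) (nat_lit 3) (nat_lit 4) (nat_lit 1) (nat_lit 4) (nat_lit 481) (nat_lit 305) (nat_lit 234)))) (XT.nd (nat_lit 156) (nat_lit 0) (nat_lit 0) (XT.nd (nat_lit 78) (nat_lit 0) (nat_lit 0) (XT.lf (nat_lit 0) (nat_lit 23864423139) (nat_lit 152) (nat_lit 747074640334) (nat_lit 0) (nat_lit 21169321149) (nat_lit 1) (nat_lit 5) (nat_lit 3) (nat_lit 4) (nat_lit 1) (nat_lit 4) (nat_lit 482) (nat_lit 305) (nat_lit 233)) (XT.lf (nat_lit 0) (nat_lit 28545383472) (nat_lit 152) (nat_lit 777140645455) (nat_lit 0) (nat_lit 25846338092) (nat_lit 1) (nat_lit 5) (nat_lit 3) (nat_lit 4) (nat_lit 1) (nat_lit 4) (nat_lit 483) (nat_lit 305) (nat_lit 232))) (XT.nd (nat_lit 78) (nat_lit 0) (nat_lit 0) (XT.lf (nat_lit 0) (nat_lit 33450893407) (nat_lit 152) (nat_lit 808729037908) (nat_lit 0) (nat_lit 30748092416) (nat_lit 1) (nat_lit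 5) (nat_lit 3) (nat_lit 4) (nat_lit 1) (nat_lit 4) (nat_lit 484) (nat_lit 305) (nat_lit 231)) (XT.lf (nat_lit 0) (nat_lit 38592632730) (nat_lit 152) (nat_lit 841915028151) (nat_lit 0) (nat_lit 35886254967) (nat_lit 1) (nat_lit 5) (nat_lit 3) (nat_lit 4) (nat_lit 1) (nat_lit 4) (nat_lit 485) (nat_lit 305) (nat_lit 230)))))) (XT.nd (nat_lit 546) (nat_lit 228) (nat_lit 0) (XT.nd (nat_lit 234) (nat_lit 228) (nat_lit 0) (XT.nd (nat_lit 78) (nat_lit 76) (nat_lit 0) (XT.lf (nat_lit 0) (nat_lit 6718348045) (nat_lit 152) (nat_lit 8894443) (nat_lit 0) (nat_lit 6718348045) (nat_lit 16) (nat_lit 5) (nat_lit 18) (nat_lit 4) (nat_lit 16) (nat_lit 4) (nat_lit 408) (nat_lit 306) (nat_lit 306)) (XT.nd (nat_lit 78) (nat_lit 0) (nat_lit 0) (XT.lf (nat_lit 0) (nat_lit 13421377116) (nat_lit 76) (nat_lit 7325020031) (nat_lit 76) (nat_lit 7147750061) (nat_lit 15) (nat_lit 4) (nat_lit 16) (nat_lit 5) (nat_lit 16)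 (nat_lit 4) (nat_lit 409) (nat_lit 306) (nat_lit 305)) (XT.lf (nat_lit 0) (nat_lit 27109872010) (nat_lit 76) (nat_lit 1097115168) (nat_lit 76) (nat_lit 751016655) (nat_lit 15) (nat_lit 4) (nat_lit 16) (nat_lit 5) (nat_lit 16) (nat_lit 4) (nat_lit 410) (nat_lit 306) (nat_lit 304)))) (XT.nd (nat_lit 156) (nat_lit 76) (nat_lit 0) (XT.nd (nat_lit 78) (nat_lit 0) (nat_lit 0) (XT.lf (nat_lit 0) (nat_lit 5828693582) (nat_lit 152) (nat_lit 18893066737) (nat_lit 0) (nat_lit 5345943486) (nat_lit 13) (nat_lit 5) (nat_lit 15) (nat_lit 4) (nat_lit 13) (nat_lit 4) (nat_lit 411) (nat_lit 306) (nat_lit 303)) (XT.lf (nat_lit 0) (nat_lit 12554419528) (nat_lit 152) (nat_lit 6759921897) (nat_lit 0) (nat_lit 11925828988) (nat_lit 13) (nat_lit 5) (nat_lit 15) (nat_lit 4) (nat_lit 13) (nat_lit 4) (nat_lit 412) (nat_lit 306) (nat_lit 302))) (XT.nd (nat_lit 78) (nat_lit 0) (nat_lit 0) (XT.lf (nat_lit 0) (nat_lit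 5773727818) (nat_lit 76) (nat_lit 13735202004) (nat_lit 76) (nat_lit 12967715805) (nat_lit 12) (nat_lit 4) (nat_lit 13) (nat_lit 5) (nat_lit 13) (nat_lit 4) (nat_lit 413) (nat_lit 306) (nat_lit 301)) (XT.lf (nat_lit 0) (nat_lit 18784107139) (nat_lit 76) (nat_lit 7947301397) (nat_lit 76) (nat_lit 7047533616) (nat_lit 12) (nat_lit 4) (nat_lit 13) (nat_lit 5) (nat_lit 13) (nat_lit 4) (nat_lit 414) (nat_lit 306) (nat_lit 300))))) (XT.nd (nat_lit 234) (nat_lit 76) (nat_lit 0) (XT.nd (nat_lit 78) (nat_lit 152) (nat_lit 0) (XT.lf (nat_lit 0) (nat_lit 32078679610) (nat_lit 76) (nat_lit 2051341436) (nat_lit 76) (nat_lit 1025591197) (nat_lit 12) (nat_lit 4) (nat_lit 13) (nat_lit 5) (nat_lit 13) (nat_lit 4) (nat_lit 415) (nat_lit 306) (nat_lit 299)) (XT.nd (nat_lit 78) (nat_lit 0) (nat_lit 0) (XT.lf (nat_lit 0) (nat_lit 5159589427) (nat_lit 152) (nat_lit 27367400126) (nat_lit 0) (nat_lit 4068414635)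 (nat_lit 10) (nat_lit 5) (nat_lit 12) (nat_lit 4) (nat_lit 10) (nat_lit 4) (nat_lit 416) (nat_lit 306) (nat_lit 298)) (XT.lf (nat_lit 0) (nat_lit 11527451705) (nat_lit 152) (nat_lit 16256058363) (nat_lit 0) (nat_lit 10327448529) (nat_lit 10) (nat_lit 5) (nat_lit 12) (nat_lit 4) (nat_lit 10) (nat_lit 4) (nat_lit 417) (nat_lit 306) (nat_lit 297)))) (XT.nd (nat_lit 156) (nat_lit 0) (nat_lit 0) (XT.nd (nat_lit 78) (nat_lit 76) (nat_lit 0) (XT.lf (nat_lit 0) (nat_lit 18043513828) (nat_lit 152) (nat_lit 4927429586) (nat_lit 0) (nat_lit 16739864571) (nat_lit 10) (nat_lit 5) (nat_lit 12) (nat_lit 4) (nat_lit 10) (nat_lit 4) (nat_lit 418) (nat_lit 306) (nat_lit 296)) (XT.lf (nat_lit 0) (nat_lit 6865188020) (nat_lit 76) (nat_lit 17965287033) (nat_lit 76) (nat_lit 16562927224) (nat_lit 9) (nat_lit 4) (nat_lit 10) (nat_lit 5) (nat_lit 10) (nat_lit 4) (nat_lit 419) (nat_lit 306) (nat_lit 295))) (XT.nd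 (nat_lit 78) (nat_lit 0) (nat_lit 0) (XT.lf (nat_lit 0) (nat_lit 19101530551) (nat_lit 76) (nat_lit 12779383011) (nat_lit 76) (nat_lit 11283013152) (nat_lit 9) (nat_lit 4) (nat_lit 10) (nat_lit 5) (nat_lit 10) (nat_lit 4) (nat_lit 420) (nat_lit 306) (nat_lit 294)) (XT.lf (nat_lit 0) (nat_lit 31647809079) (nat_lit 76) (nat_lit 7484332360) (nat_lit 76) (nat_lit 5898429120) (nat_lit 9) (nat_lit 4) (nat_lit 10) (nat_lit 5) (nat_lit 10) (nat_lit 4) (nat_lit 421) (nat_lit 306) (nat_lit 293))))))))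
noncomputable def xc28 : XT := (XT.nd (nat_lit 2106) (nat_lit 0) (nat_lit 0) (XT.nd (nat_lit 1014) (nat_lit 76) (nat_lit 0) (XT.nd (nat_lit 468) (nat_lit 228) (nat_lit 0) (XT.nd (nat_lit 234) (nat_lit 0) (nat_lit 0) (XT.nd (nat_lit 78) (nat_lit 152) (nat_lit 0) (XT.lf (nat_lit 0) (nat_lit 44533895698) (nat_lit 76) (nat_lit 2067527819) (nat_lit 76) (nat_lit 396354692) (nat_lit 9) (nat_lit 4) (nat_lit 10) (nat_lit 5) (nat_lit 10) (nat_lit 4) (nat_lit 422) (nat_lit 306) (nat_lit 292)) (XT.nd (nat_lit 78) (nat_lit 0) (nat_lit 0) (XT.lf (nat_lit 0) (nat_lit 5266064276) (nat_lit 152) (nat_lit 40193085586) (nat_lit 0) (nat_lit 3597128522) (nat_lit 7) (nat_lit 5) (nat_lit 9) (nat_lit 4) (nat_lit 7) (nat_lit 4) (nat_lit 423) (nat_lit 306) (nat_lit 291)) (XT.lf (nat_lit 0) (nat_lit 11134954977) (nat_lit 152) (nat_lit 30693235674) (nat_lit 0) (nat_lit 9392359888) (nat_lit 7) (nat_lit 5) (nat_lit 9)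 (nat_lit 4) (nat_lit 7) (nat_lit 4) (nat_lit 424) (nat_lit 306) (nat_lit 290)))) (XT.nd (nat_lit 78) (nat_lit 0) (nat_lit 0) (XT.lf (nat_lit 0) (nat_lit 17164305363) (nat_lit 152) (nat_lit 20983826795) (nat_lit 0) (nat_lit 15351558528) (nat_lit 7) (nat_lit 5) (nat_lit 9) (nat_lit 4) (nat_lit 7) (nat_lit 4) (nat_lit 425) (nat_lit 306) (nat_lit 289)) (XT.nd (nat_lit 78) (nat_lit 0) (nat_lit 0) (XT.lf (nat_lit 0) (nat_lit 23368471031) (nat_lit 152) (nat_lit 11041741309) (nat_lit 0) (nat_lit 21488913008) (nat_lit 7) (nat_lit 5) (nat_lit 9) (nat_lit 4) (nat_lit 7) (nat_lit 4) (nat_lit 426) (nat_lit 306) (nat_lit 288)) (XT.lf (nat_lit 0) (nat_lit 29762223804) (nat_lit 152) (nat_lit 843307583) (nat_lit 0) (nat_lit 27819036079) (nat_lit 7) (nat_lit 5) (nat_lit 9) (nat_lit 4) (nat_lit 7) (nat_lit 4) (nat_lit 427) (nat_lit 306) (nat_lit 287))))) (XT.nd (nat_lit 234) (nat_lit 152) (nat_lit 0) (XT.nd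 (nat_lit 78) (nat_lit 0) (nat_lit 0) (XT.lf (nat_lit 0) (nat_lit 9954357988) (nat_lit 76) (nat_lit 26561844340) (nat_lit 76) (nat_lit 24558056898) (nat_lit 6) (nat_lit 4) (nat_lit 7) (nat_lit 5) (nat_lit 7) (nat_lit 4) (nat_lit 428) (nat_lit 306) (nat_lit 286)) (XT.nd (nat_lit 78) (nat_lit 0) (nat_lit 0) (XT.lf (nat_lit 0) (nat_lit 21095591361) (nat_lit 76) (nat_lit 22413641132) (nat_lit 76) (nat_lit 20352139675) (nat_lit 6) (nat_lit 4) (nat_lit 7) (nat_lit 5) (nat_lit 7) (nat_lit 4) (nat_lit 429) (nat_lit 306) (nat_lit 285)) (XT.lf (nat_lit 0) (nat_lit 32579035724) (nat_lit 76) (nat_lit 18165326912) (nat_lit 76) (nat_lit 16048859726) (nat_lit 6) (nat_lit 4) (nat_lit 7) (nat_lit 5) (nat_lit 7) (nat_lit 4) (nat_lit 430) (nat_lit 306) (nat_lit 284)))) (XT.nd (nat_lit 156) (nat_lit 152) (nat_lit 0) (XT.nd (nat_lit 78) (nat_lit 0) (nat_lit 0) (XT.lf (nat_lit 0) (nat_lit 44432032612) (nat_lit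 76) (nat_lit 13806786645) (nat_lit 76) (nat_lit 11637971146) (nat_lit 6) (nat_lit 4) (nat_lit 7) (nat_lit 5) (nat_lit 7) (nat_lit 4) (nat_lit 431) (nat_lit 306) (nat_lit 283)) (XT.lf (nat_lit 0) (nat_lit 56682803445) (nat_lit 76) (nat_lit 9327642856) (nat_lit 76) (nat_lit 7108971820) (nat_lit 6) (nat_lit 4) (nat_lit 7) (nat_lit 5) (nat_lit 7) (nat_lit 4) (nat_lit 432) (nat_lit 306) (nat_lit 282))) (XT.nd (nat_lit 78) (nat_lit 152) (nat_lit 0) (XT.lf (nat_lit 0) (nat_lit 69360516725) (nat_lit 76) (nat_lit 4717230916) (nat_lit 76) (nat_lit 2451078416) (nat_lit 6) (nat_lit 4) (nat_lit 7) (nat_lit 5) (nat_lit 7) (nat_lit 4) (nat_lit 433) (nat_lit 306) (nat_lit 281)) (XT.lf (nat_lit 0) (nat_lit 2311293038) (nat_lit 152) (nat_lit 77688041033) (nat_lit 0) (nat_lit 109985475) (nat_lit 4) (nat_lit 5) (nat_lit 6) (nat_lit 4) (nat_lit 4) (nat_lit 4) (nat_lit 434) (nat_lit 306) (nat_lit 280)))))) (XT.nd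 (nat_lit 546) (nat_lit 76) (nat_lit 0) (XT.nd (nat_lit 234) (nat_lit 0) (nat_lit 0) (XT.nd (nat_lit 78) (nat_lit 0) (nat_lit 0) (XT.lf (nat_lit 0) (nat_lit 7340335973) (nat_lit 152) (nat_lit 71422937262) (nat_lit 0) (nat_lit 5098012136) (nat_lit 4) (nat_lit 5) (nat_lit 6) (nat_lit 4) (nat_lit 4) (nat_lit 4) (nat_lit 435) (nat_lit 306) (nat_lit 279)) (XT.nd (nat_lit 78) (nat_lit 0) (nat_lit 0) (XT.lf (nat_lit 0) (nat_lit 12535311655) (nat_lit 152) (nat_lit 65015891968) (nat_lit 0) (nat_lit 10253924701) (nat_lit 4) (nat_lit 5) (nat_lit 6) (nat_lit 4) (nat_lit 4) (nat_lit 4) (nat_lit 436) (nat_lit 306) (nat_lit 278)) (XT.lf (nat_lit 0) (nat_lit 17908589072) (nat_lit 152) (nat_lit 58451650279) (nat_lit 0) (nat_lit 15589999149) (nat_lit 4) (nat_lit 5) (nat_lit 6) (nat_lit 4) (nat_lit 4) (nat_lit 4) (nat_lit 437) (nat_lit 306) (nat_lit 277)))) (XT.nd (nat_lit 156) (nat_lit 0) (nat_lit 0) (XT.nd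 (nat_lit 78) (nat_lit 0) (nat_lit 0) (XT.lf (nat_lit 0) (nat_lit 23472961744) (nat_lit 152) (nat_lit 51714583048) (nat_lit 0) (nat_lit 21118940422) (nat_lit 4) (nat_lit 5) (nat_lit 6) (nat_lit 4) (nat_lit 4) (nat_lit 4) (nat_lit 438) (nat_lit 306) (nat_lit 276)) (XT.lf (nat_lit 0) (nat_lit 29241678177) (nat_lit 152) (nat_lit 44788649640) (nat_lit 0) (nat_lit 26853912665) (nat_lit 4) (nat_lit 5) (nat_lit 6) (nat_lit 4) (nat_lit 4) (nat_lit 4) (nat_lit 439) (nat_lit 306) (nat_lit 275))) (XT.nd (nat_lit 78) (nat_lit 0) (nat_lit 0) (XT.lf (nat_lit 0) (nat_lit 35228473408) (nat_lit 152) (nat_lit 37657359737) (nat_lit 0) (nat_lit 32808570573) (nat_lit 4) (nat_lit 5) (nat_lit 6) (nat_lit 4) (nat_lit 4) (nat_lit 4) (nat_lit 440) (nat_lit 306) (nat_lit 274)) (XT.lf (nat_lit 0) (nat_lit 41447601713) (nat_lit 152) (nat_lit 30303734077) (nat_lit 0) (nat_lit 38997091903) (nat_lit 4) (nat_lit 5) (nat_lit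 6) (nat_lit 4) (nat_lit 4) (nat_lit 4) (nat_lit 441) (nat_lit 306) (nat_lit 273))))) (XT.nd (nat_lit 234) (nat_lit 76) (nat_lit 0) (XT.nd (nat_lit 78) (nat_lit 0) (nat_lit 0) (XT.lf (nat_lit 0) (nat_lit 47913870541) (nat_lit 152) (nat_lit 22710264027) (nat_lit 0) (nat_lit 45434211231) (nat_lit 4) (nat_lit 5) (nat_lit 6) (nat_lit 4) (nat_lit 4) (nat_lit 4) (nat_lit 442) (nat_lit 306) (nat_lit 272)) (XT.nd (nat_lit 78) (nat_lit 0) (nat_lit 0) (XT.lf (nat_lit 0) (nat_lit 54642675768) (nat_lit 152) (nat_lit 14858869898) (nat_lit 0) (nat_lit 52135255030) (nat_lit 4) (nat_lit 5) (nat_lit 6) (nat_lit 4) (nat_lit 4) (nat_lit 4) (nat_lit 443) (nat_lit 306) (nat_lit 271)) (XT.lf (nat_lit 0) (nat_lit 61650038361) (nat_lit 152) (nat_lit 6730857893) (nat_lit 0) (nat_lit 59116178168) (nat_lit 4) (nat_lit 5) (nat_lit 6) (nat_lit 4) (nat_lit 4) (nat_lit 4) (nat_lit 444) (nat_lit 306) (nat_lit 270)))) (XT.nd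 (nat_lit 156) (nat_lit 0) (nat_lit 0) (XT.nd (nat_lit 78) (nat_lit 0) (nat_lit 0) (XT.lf (nat_lit 0) (nat_lit 1749106736) (nat_lit 76) (nat_lit 67230844238) (nat_lit 76) (nat_lit 64671803610) (nat_lit 3) (nat_lit 4) (nat_lit 4) (nat_lit 5) (nat_lit 4) (nat_lit 4) (nat_lit 445) (nat_lit 306) (nat_lit 269)) (XT.lf (nat_lit 0) (nat_lit 10778100602) (nat_lit 76) (nat_lit 65958051138) (nat_lit 76) (nat_lit 63375029145) (nat_lit 3) (nat_lit 4) (nat_lit 4) (nat_lit 5) (nat_lit 4) (nat_lit 4) (nat_lit 446) (nat_lit 306) (nat_lit 268))) (XT.nd (nat_lit 78) (nat_lit 0) (nat_lit 0) (XT.lf (nat_lit 0) (nat_lit 20155068752) (nat_lit 76) (nat_lit 64673476830) (nat_lit 76) (nat_lit 62067615442) (nat_lit 3) (nat_lit 4) (nat_lit 4) (nat_lit 5) (nat_lit 4) (nat_lit 4) (nat_lit 447) (nat_lit 306) (nat_lit 267)) (XT.lf (nat_lit 0) (nat_lit 29902337299) (nat_lit 76) (nat_lit 63374062805) (nat_lit 76) (nat_lit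 60746449610) (nat_lit 3) (nat_lit 4) (nat_lit 4) (nat_lit 5) (nat_lit 4) (nat_lit 4) (nat_lit 448) (nat_lit 306) (nat_lit 266))))))) (XT.nd (nat_lit 1014) (nat_lit 0) (nat_lit 0) (XT.nd (nat_lit 468) (nat_lit 0) (nat_lit 0) (XT.nd (nat_lit 234) (nat_lit 0) (nat_lit 0) (XT.nd (nat_lit 78) (nat_lit 0) (nat_lit 0) (XT.lf (nat_lit 0) (nat_lit 40043114026) (nat_lit 76) (nat_lit 62056715218) (nat_lit 76) (nat_lit 59408386019) (nat_lit 3) (nat_lit 4) (nat_lit 4) (nat_lit 5) (nat_lit 4) (nat_lit 4) (nat_lit 449) (nat_lit 306) (nat_lit 265)) (XT.nd (nat_lit 78) (nat_lit 0) (nat_lit 0) (XT.lf (nat_lit 0) (nat_lit 50601543639) (nat_lit 76) (nat_lit 60718297529) (nat_lit 76) (nat_lit 58050238801) (nat_lit 3) (nat_lit 4) (nat_lit 4) (nat_lit 5) (nat_lit 4) (nat_lit 4) (nat_lit 450) (nat_lit 306) (nat_lit 264)) (XT.lf (nat_lit 0) (nat_lit 61602765257) (nat_lit 76) (nat_lit 59355623028) (nat_lit 76) (nat_lit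 56668774272) (nat_lit 3) (nat_lit 4) (nat_lit 4) (nat_lit 5) (nat_lit 4) (nat_lit 4) (nat_lit 451) (nat_lit 306) (nat_lit 263)))) (XT.nd (nat_lit 78) (nat_lit 0) (nat_lit 0) (XT.lf (nat_lit 0) (nat_lit 73072972263) (nat_lit 76) (nat_lit 57965447252) (nat_lit 76) (nat_lit 55260703232) (nat_lit 3) (nat_lit 4) (nat_lit 4) (nat_lit 5) (nat_lit 4) (nat_lit 4) (nat_lit 452) (nat_lit 306) (nat_lit 262)) (XT.nd (nat_lit 78) (nat_lit 0) (nat_lit 0) (XT.lf (nat_lit 0) (nat_lit 85039474675) (nat_lit 76) (nat_lit 56544460260) (nat_lit 76) (nat_lit 53822673131) (nat_lit 3) (nat_lit 4) (nat_lit 4) (nat_lit 5) (nat_lit 4) (nat_lit 4) (nat_lit 453) (nat_lit 306) (nat_lit 261)) (XT.lf (nat_lit 0) (nat_lit 97530764166) (nat_lit 76) (nat_lit 55089278748) (nat_lit 76) (nat_lit 52351260087) (nat_lit 3) (nat_lit 4) (nat_lit 4) (nat_lit 5) (nat_lit 4) (nat_lit 4) (nat_lit 454) (nat_lit 306) (nat_lit 260))))) (XT.nd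 (nat_lit 234) (nat_lit 0) (nat_lit 0) (XT.nd (nat_lit 78) (nat_lit 0) (nat_lit 0) (XT.lf (nat_lit 0) (nat_lit 110576581900) (nat_lit 76) (nat_lit 53596437999) (nat_lit 76) (nat_lit 50842960736) (nat_lit 3) (nat_lit 4) (nat_lit 4) (nat_lit 5) (nat_lit 4) (nat_lit 4) (nat_lit 455) (nat_lit 306) (nat_lit 259)) (XT.nd (nat_lit 78) (nat_lit 0) (nat_lit 0) (XT.lf (nat_lit 0) (nat_lit 124207989349) (nat_lit 76) (nat_lit 52062383630) (nat_lit 76) (nat_lit 49294183889) (nat_lit 3) (nat_lit 4) (nat_lit 4) (nat_lit 5) (nat_lit 4) (nat_lit 4) (nat_lit 456) (nat_lit 306) (nat_lit 258)) (XT.lf (nat_lit 0) (nat_lit 138457442244) (nat_lit 76) (nat_lit 50483463130) (nat_lit 76) (nat_lit 47701241981) (nat_lit 3) (nat_lit 4) (nat_lit 4) (nat_lit 5) (nat_lit 4) (nat_lit 4) (nat_lit 457) (nat_lit 306) (nat_lit 257)))) (XT.nd (nat_lit 156) (nat_lit 0) (nat_lit 0) (XT.nd (nat_lit 78) (nat_lit 0) (nat_lit 0) (XT.lf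 (nat_lit 0) (nat_lit 153358867855) (nat_lit 76) (nat_lit 48855917166) (nat_lit 76) (nat_lit 46060342295) (nat_lit 3) (nat_lit 4) (nat_lit 4) (nat_lit 5) (nat_lit 4) (nat_lit 4) (nat_lit 458) (nat_lit 306) (nat_lit 256)) (XT.lf (nat_lit 0) (nat_lit 168947745766) (nat_lit 76) (nat_lit 47175870627) (nat_lit 76) (nat_lit 44367577926) (nat_lit 3) (nat_lit 4) (nat_lit 4) (nat_lit 5) (nat_lit 4) (nat_lit 4) (nat_lit 459) (nat_lit 306) (nat_lit 255))) (XT.nd (nat_lit 78) (nat_lit 0) (nat_lit 0) (XT.lf (nat_lit 0) (nat_lit 185261192352) (nat_lit 76) (nat_lit 45439323403) (nat_lit 76) (nat_lit 42618918483) (nat_lit 3) (nat_lit 4) (nat_lit 4) (nat_lit 5) (nat_lit 4) (nat_lit 4) (nat_lit 460) (nat_lit 306) (nat_lit 254)) (XT.lf (nat_lit 0) (nat_lit 202338049154) (nat_lit 76) (nat_lit 43642140858) (nat_lit 76) (nat_lit 40810200491) (nat_lit 3) (nat_lit 4) (nat_lit 4) (nat_lit 5) (nat_lit 4) (nat_lit 4)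 (nat_lit 461) (nat_lit 306) (nat_lit 253)))))) (XT.nd (nat_lit 546) (nat_lit 0) (nat_lit 0) (XT.nd (nat_lit 234) (nat_lit 0) (nat_lit 0) (XT.nd (nat_lit 78) (nat_lit 0) (nat_lit 0) (XT.lf (nat_lit 0) (nat_lit 220218975355) (nat_lit 76) (nat_lit 41780043985) (nat_lit 76) (nat_lit 38937117478) (nat_lit 3) (nat_lit 4) (nat_lit 4) (nat_lit 5) (nat_lit 4) (nat_lit 4) (nat_lit 462) (nat_lit 306) (nat_lit 252)) (XT.nd (nat_lit 78) (nat_lit 0) (nat_lit 0) (XT.lf (nat_lit 0) (nat_lit 238946544588) (nat_lit 76) (nat_lit 39848599221) (nat_lit 76) (nat_lit 36995209724) (nat_lit 3) (nat_lit 4) (nat_lit 4) (nat_lit 5) (nat_lit 4) (nat_lit 4) (nat_lit 463) (nat_lit 306) (nat_lit 251)) (XT.lf (nat_lit 0) (nat_lit 258565346304) (nat_lit 76) (nat_lit 37843207887) (nat_lit 76) (nat_lit 34979853637) (nat_lit 3) (nat_lit 4) (nat_lit 4) (nat_lit 5) (nat_lit 4) (nat_lit 4) (nat_lit 464) (nat_lit 306) (nat_lit 250))))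 (XT.nd (nat_lit 156) (nat_lit 0) (nat_lit 0) (XT.nd (nat_lit 78) (nat_lit 0) (nat_lit 0) (XT.lf (nat_lit 0) (nat_lit 279122091935) (nat_lit 76) (nat_lit 35759095243) (nat_lit 76) (nat_lit 32886250752) (nat_lit 3) (nat_lit 4) (nat_lit 4) (nat_lit 5) (nat_lit 4) (nat_lit 4) (nat_lit 465) (nat_lit 306) (nat_lit 249)) (XT.lf (nat_lit 0) (nat_lit 300665726114) (nat_lit 76) (nat_lit 33591299115) (nat_lit 76) (nat_lit 30709416300) (nat_lit 3) (nat_lit 4) (nat_lit 4) (nat_lit 5) (nat_lit 4) (nat_lit 4) (nat_lit 466) (nat_lit 306) (nat_lit 248))) (XT.nd (nat_lit 78) (nat_lit 0) (nat_lit 0) (XT.lf (nat_lit 0) (nat_lit 323247543208) (nat_lit 76) (nat_lit 31334658084) (nat_lit 76) (nat_lit 28444167341) (nat_lit 3) (nat_lit 4) (nat_lit 4) (nat_lit 5) (nat_lit 4) (nat_lit 4) (nat_lit 467) (nat_lit 306) (nat_lit 247)) (XT.lf (nat_lit 0) (nat_lit 346921309448) (nat_lit 76) (nat_lit 28983799195) (nat_lit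 76) (nat_lit 26085110425) (nat_lit 3) (nat_lit 4) (nat_lit 4) (nat_lit 5) (nat_lit 4) (nat_lit 4) (nat_lit 468) (nat_lit 306) (nat_lit 246))))) (XT.nd (nat_lit 234) (nat_lit 0) (nat_lit 0) (XT.nd (nat_lit 78) (nat_lit 0) (nat_lit 0) (XT.lf (nat_lit 0) (nat_lit 371743390944) (nat_lit 76) (nat_lit 26533125165) (nat_lit 76) (nat_lit 23626628751) (nat_lit 3) (nat_lit 4) (nat_lit 4) (nat_lit 5) (nat_lit 4) (nat_lit 4) (nat_lit 469) (nat_lit 306) (nat_lit 245)) (XT.nd (nat_lit 78) (nat_lit 0) (nat_lit 0) (XT.lf (nat_lit 0) (nat_lit 397772887891) (nat_lit 76) (nat_lit 23976801056) (nat_lit 76) (nat_lit 21062868790) (nat_lit 3) (nat_lit 4) (nat_lit 4) (nat_lit 5) (nat_lit 4) (nat_lit 4) (nat_lit 470) (nat_lit 306) (nat_lit 244)) (XT.lf (nat_lit 0) (nat_lit 425071775281) (nat_lit 76) (nat_lit 21308740382) (nat_lit 76) (nat_lit 18387726352) (nat_lit 3) (nat_lit 4) (nat_lit 4) (nat_lit 5) (nat_lit 4)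 (nat_lit 4) (nat_lit 471) (nat_lit 306) (nat_lit 243)))) (XT.nd (nat_lit 156) (nat_lit 0) (nat_lit 0) (XT.nd (nat_lit 78) (nat_lit 0) (nat_lit 0) (XT.lf (nat_lit 0) (nat_lit 453705050465) (nat_lit 76) (nat_lit 18522590617) (nat_lit 76) (nat_lit 15594832050) (nat_lit 3) (nat_lit 4) (nat_lit 4) (nat_lit 5) (nat_lit 4) (nat_lit 4) (nat_lit 472) (nat_lit 306) (nat_lit 242)) (XT.lf (nat_lit 0) (nat_lit 483740887907) (nat_lit 76) (nat_lit 15611718072) (nat_lit 76) (nat_lit 12677536137) (nat_lit 3) (nat_lit 4) (nat_lit 4) (nat_lit 5) (nat_lit 4) (nat_lit 4) (nat_lit 473) (nat_lit 306) (nat_lit 241))) (XT.nd (nat_lit 78) (nat_lit 0) (nat_lit 0) (XT.lf (nat_lit 0) (nat_lit 515250801507) (nat_lit 76) (nat_lit 12569192098) (nat_lit 76) (nat_lit 9628892669) (nat_lit 3) (nat_lit 4) (nat_lit 4) (nat_lit 5) (nat_lit 4) (nat_lit 4) (nat_lit 474) (nat_lit 306) (nat_lit 240)) (XT.lf (nat_lit 0) (nat_lit 548309814868)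 (nat_lit 76) (nat_lit 9387768585) (nat_lit 76) (nat_lit 6441642971) (nat_lit 3) (nat_lit 4) (nat_lit 4) (nat_lit 5) (nat_lit 4) (nat_lit 4) (nat_lit 475) (nat_lit 306) (nat_lit 239))))))))
noncomputable def xc29 : XT := (XT.nd (nat_lit 48984) (nat_lit 0) (nat_lit 152) (XT.nd (nat_lit 47892) (nat_lit 0) (nat_lit 608) (XT.nd (nat_lit 468) (nat_lit 0) (nat_lit 0) (XT.nd (nat_lit 234) (nat_lit 0) (nat_lit 0) (XT.nd (nat_lit 78) (nat_lit 152) (nat_lit 0) (XT.lf (nat_lit 0) (nat_lit 582996639926) (nat_lit 76) (nat_lit 6059872715) (nat_lit 76) (nat_lit 3108198354) (nat_lit 3) (nat_lit 4) (nat_lit 4) (nat_lit 5) (nat_lit 4) (nat_lit 4) (nat_lit 476) (nat_lit 306) (nat_lit 238)) (XT.nd (nat_lit 78) (nat_lit 76) (nat_lit 0) (XT.lf (nat_lit 0) (nat_lit 367235490) (nat_lit 152) (nat_lit 2204126126) (nat_lit 76) (nat_lit 619020409560) (nat_lit 2) (nat_lit 5) (nat_lit 4) (nat_lit 5) (nat_lit 3) (nat_lit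 4) (nat_lit 477) (nat_lit 306) (nat_lit 237)) (XT.lf (nat_lit 0) (nat_lit 4000643043) (nat_lit 152) (nat_lit 647302862566) (nat_lit 0) (nat_lit 1179698511) (nat_lit 1) (nat_lit 5) (nat_lit 3) (nat_lit 4) (nat_lit 1) (nat_lit 4) (nat_lit 478) (nat_lit 306) (nat_lit 236)))) (XT.nd (nat_lit 78) (nat_lit 0) (nat_lit 0) (XT.lf (nat_lit 0) (nat_lit 7884268936) (nat_lit 152) (nat_lit 671972753275) (nat_lit 0) (nat_lit 5058759436) (nat_lit 1) (nat_lit 5) (nat_lit 3) (nat_lit 4) (nat_lit 1) (nat_lit 4) (nat_lit 479) (nat_lit 306) (nat_lit 235)) (XT.nd (nat_lit 78) (nat_lit 0) (nat_lit 0) (XT.lf (nat_lit 0) (nat_lit 11951080521) (nat_lit 152) (nat_lit 697898234197) (nat_lit 0) (nat_lit 9121223432) (nat_lit 1) (nat_lit 5) (nat_lit 3) (nat_lit 4) (nat_lit 1) (nat_lit 4) (nat_lit 480) (nat_lit 306) (nat_lit 234)) (XT.lf (nat_lit 0) (nat_lit 16210760682) (nat_lit 152) (nat_lit 725141032666) (nat_lit 0)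 (nat_lit 13376763033) (nat_lit 1) (nat_lit 5) (nat_lit 3) (nat_lit 4) (nat_lit 1) (nat_lit 4) (nat_lit 481) (nat_lit 306) (nat_lit 233))))) (XT.nd (nat_lit 234) (nat_lit 0) (nat_lit 0) (XT.nd (nat_lit 78) (nat_lit 0) (nat_lit 0) (XT.lf (nat_lit 0) (nat_lit 20673451516) (nat_lit 152) (nat_lit 753766012489) (nat_lit 0) (nat_lit 17835510475) (nat_lit 1) (nat_lit 5) (nat_lit 3) (nat_lit 4) (nat_lit 1) (nat_lit 4) (nat_lit 482) (nat_lit 306) (nat_lit 232)) (XT.nd (nat_lit 78) (nat_lit 0) (nat_lit 0) (XT.lf (nat_lit 0) (nat_lit 25349778476) (nat_lit 152) (nat_lit 783841328378) (nat_lit 0) (nat_lit 22508081825) (nat_lit 1) (nat_lit 5) (nat_lit 3) (nat_lit 4) (nat_lit 1) (nat_lit 4) (nat_lit 483) (nat_lit 306) (nat_lit 231)) (XT.lf (nat_lit 0) (nat_lit 30250875675) (nat_lit 152) (nat_lit 815438588230) (nat_lit 0) (nat_lit 27405602252) (nat_lit 1) (nat_lit 5) (nat_lit 3) (nat_lit 4) (nat_lit 1) (nat_lit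 4) (nat_lit 484) (nat_lit 306) (nat_lit 230)))) (XT.nd (nat_lit 47034) (nat_lit 0) (nat_lit 1140) (XT.nd (nat_lit 46956) (nat_lit 0) (nat_lit 1292) (XT.lf (nat_lit 0) (nat_lit 35388412391) (nat_lit 152) (nat_lit 848633023615) (nat_lit 0) (nat_lit 32539732519) (nat_lit 1) (nat_lit 5) (nat_lit 3) (nat_lit 4) (nat_lit 1) (nat_lit 4) (nat_lit 485) (nat_lit 306) (nat_lit 229)) (XT.lf (nat_lit 0) (nat_lit 12424964954) (nat_lit 76) (nat_lit 45562499) (nat_lit 76) (nat_lit 45562499) (nat_lit 18) (nat_lit 4) (nat_lit 19) (nat_lit 5) (nat_lit 19) (nat_lit 4) (nat_lit 406) (nat_lit 307) (nat_lit 307))) (XT.nd (nat_lit 78) (nat_lit 0) (nat_lit 0) (XT.lf (nat_lit 0) (nat_lit 6652487196) (nat_lit 152) (nat_lit 12817582787) (nat_lit 0) (nat_lit 6466353727) (nat_lit 16) (nat_lit 5) (nat_lit 18) (nat_lit 4) (nat_lit 16) (nat_lit 4) (nat_lit 407) (nat_lit 307) (nat_lit 306)) (XT.lf (nat_lit 0) (nat_lit 13516144811)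 (nat_lit 152) (nat_lit 227635461) (nat_lit 0) (nat_lit 13152741372) (nat_lit 16) (nat_lit 5) (nat_lit 18) (nat_lit 4) (nat_lit 16) (nat_lit 4) (nat_lit 408) (nat_lit 307) (nat_lit 305)))))) (XT.nd (nat_lit 546) (nat_lit 228) (nat_lit 0) (XT.nd (nat_lit 234) (nat_lit 76) (nat_lit 0) (XT.nd (nat_lit 78) (nat_lit 152) (nat_lit 0) (XT.lf (nat_lit 0) (nat_lit 12998130116) (nat_lit 76) (nat_lit 7719503157) (nat_lit 76) (nat_lit 7187271176) (nat_lit 15) (nat_lit 4) (nat_lit 16) (nat_lit 5) (nat_lit 16) (nat_lit 4) (nat_lit 409) (nat_lit 307) (nat_lit 304)) (XT.nd (nat_lit 78) (nat_lit 152) (nat_lit 0) (XT.lf (nat_lit 0) (nat_lit 26489994580) (nat_lit 76) (nat_lit 1588392560) (nat_lit 76) (nat_lit 895371490) (nat_lit 15) (nat_lit 4) (nat_lit 16) (nat_lit 5) (nat_lit 16) (nat_lit 4) (nat_lit 410) (nat_lit 307) (nat_lit 303)) (XT.lf (nat_lit 0) (nat_lit 5569635259) (nat_lit 152) (nat_lit 19756132683)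 (nat_lit 0) (nat_lit 4763774749) (nat_lit 13) (nat_lit 5) (nat_lit 15) (nat_lit 4) (nat_lit 13) (nat_lit 4) (nat_lit 411) (nat_lit 307) (nat_lit 302)))) (XT.nd (nat_lit 156) (nat_lit 0) (nat_lit 0) (XT.nd (nat_lit 78) (nat_lit 76) (nat_lit 0) (XT.lf (nat_lit 0) (nat_lit 12198948512) (nat_lit 152) (nat_lit 7813694045) (nat_lit 0) (nat_lit 11254192342) (nat_lit 13) (nat_lit 5) (nat_lit 15) (nat_lit 4) (nat_lit 13) (nat_lit 4) (nat_lit 412) (nat_lit 307) (nat_lit 301)) (XT.lf (nat_lit 0) (nat_lit 4497482908) (nat_lit 76) (nat_lit 14544228527) (nat_lit 76) (nat_lit 13467190777) (nat_lit 12) (nat_lit 4) (nat_lit 13) (nat_lit 5) (nat_lit 13) (nat_lit 4) (nat_lit 413) (nat_lit 307) (nat_lit 300))) (XT.nd (nat_lit 78) (nat_lit 0) (nat_lit 0) (XT.lf (nat_lit 0) (nat_lit 17329166709) (nat_lit 76) (nat_lit 8844784348) (nat_lit 76) (nat_lit 7641764139) (nat_lit 12) (nat_lit 4) (nat_lit 13) (nat_lit 5)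 (nat_lit 13) (nat_lit 4) (nat_lit 414) (nat_lit 307) (nat_lit 299)) (XT.lf (nat_lit 0) (nat_lit 30453552971) (nat_lit 76) (nat_lit 3033068604) (nat_lit 76) (nat_lit 1710065102) (nat_lit 12) (nat_lit 4) (nat_lit 13) (nat_lit 5) (nat_lit 13) (nat_lit 4) (nat_lit 415) (nat_lit 307) (nat_lit 298))))) (XT.nd (nat_lit 234) (nat_lit 76) (nat_lit 0) (XT.nd (nat_lit 78) (nat_lit 0) (nat_lit 0) (XT.lf (nat_lit 0) (nat_lit 4367208517) (nat_lit 152) (nat_lit 29277922248) (nat_lit 0) (nat_lit 2998376797) (nat_lit 10) (nat_lit 5) (nat_lit 12) (nat_lit 4) (nat_lit 10) (nat_lit 4) (nat_lit 416) (nat_lit 307) (nat_lit 297)) (XT.nd (nat_lit 78) (nat_lit 0) (nat_lit 0) (XT.lf (nat_lit 0) (nat_lit 10652049688) (nat_lit 152) (nat_lit 18331595155) (nat_lit 0) (nat_lit 9179571888) (nat_lit 10) (nat_lit 5) (nat_lit 12) (nat_lit 4) (nat_lit 10) (nat_lit 4) (nat_lit 417) (nat_lit 307) (nat_lit 296)) (XT.lf (nat_lit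 0) (nat_lit 17089044090) (nat_lit 152) (nat_lit 7160123207) (nat_lit 0) (nat_lit 15517855737) (nat_lit 10) (nat_lit 5) (nat_lit 12) (nat_lit 4) (nat_lit 10) (nat_lit 4) (nat_lit 418) (nat_lit 307) (nat_lit 295)))) (XT.nd (nat_lit 156) (nat_lit 0) (nat_lit 0) (XT.nd (nat_lit 78) (nat_lit 0) (nat_lit 0) (XT.lf (nat_lit 0) (nat_lit 4404049422) (nat_lit 76) (nat_lit 19358228030) (nat_lit 76) (nat_lit 17693029628) (nat_lit 9) (nat_lit 4) (nat_lit 10) (nat_lit 5) (nat_lit 10) (nat_lit 4) (nat_lit 419) (nat_lit 307) (nat_lit 294)) (XT.lf (nat_lit 0) (nat_lit 16493132866) (nat_lit 76) (nat_lit 14245567214) (nat_lit 76) (nat_lit 12490835431) (nat_lit 9) (nat_lit 4) (nat_lit 10) (nat_lit 5) (nat_lit 10) (nat_lit 4) (nat_lit 420) (nat_lit 307) (nat_lit 293))) (XT.nd (nat_lit 78) (nat_lit 0) (nat_lit 0) (XT.lf (nat_lit 0) (nat_lit 28899164645) (nat_lit 76) (nat_lit 9020271999) (nat_lit 76) (nat_lit 7180270329)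 (nat_lit 9) (nat_lit 4) (nat_lit 10) (nat_lit 5) (nat_lit 10) (nat_lit 4) (nat_lit 421) (nat_lit 307) (nat_lit 292)) (XT.lf (nat_lit 0) (nat_lit 41651682930) (nat_lit 76) (nat_lit 3669901205) (nat_lit 76) (nat_lit 1748690119) (nat_lit 9) (nat_lit 4) (nat_lit 10) (nat_lit 5) (nat_lit 10) (nat_lit 4) (nat_lit 422) (nat_lit 307) (nat_lit 291))))))) (XT.nd (nat_lit 1014) (nat_lit 76) (nat_lit 0) (XT.nd (nat_lit 468) (nat_lit 152) (nat_lit 0) (XT.nd (nat_lit 234) (nat_lit 76) (nat_lit 0) (XT.nd (nat_lit 78) (nat_lit 0) (nat_lit 0) (XT.lf (nat_lit 0) (nat_lit 3815442449) (nat_lit 152) (nat_lit 43409410508) (nat_lit 0) (nat_lit 1912058271) (nat_lit 7) (nat_lit 5) (nat_lit 9) (nat_lit 4) (nat_lit 7) (nat_lit 4) (nat_lit 423) (nat_lit 307) (nat_lit 290)) (XT.nd (nat_lit 78) (nat_lit 0) (nat_lit 0) (XT.lf (nat_lit 0) (nat_lit 9619462491) (nat_lit 152) (nat_lit 34039040366) (nat_lit 0) (nat_lit 7645926567)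 (nat_lit 7) (nat_lit 5) (nat_lit 9) (nat_lit 4) (nat_lit 7) (nat_lit 4) (nat_lit 424) (nat_lit 307) (nat_lit 289)) (XT.lf (nat_lit 0) (nat_lit 15587031298) (nat_lit 152) (nat_lit 24452945554) (nat_lit 0) (nat_lit 13546684187) (nat_lit 7) (nat_lit 5) (nat_lit 9) (nat_lit 4) (nat_lit 7) (nat_lit 4) (nat_lit 425) (nat_lit 307) (nat_lit 288)))) (XT.nd (nat_lit 78) (nat_lit 76) (nat_lit 0) (XT.lf (nat_lit 0) (nat_lit 21732357367) (nat_lit 152) (nat_lit 14628302036) (nat_lit 0) (nat_lit 19628380553) (nat_lit 7) (nat_lit 5) (nat_lit 9) (nat_lit 4) (nat_lit 7) (nat_lit 4) (nat_lit 426) (nat_lit 307) (nat_lit 287)) (XT.nd (nat_lit 78) (nat_lit 76) (nat_lit 0) (XT.lf (nat_lit 0) (nat_lit 28070072426) (nat_lit 152) (nat_lit 4541717804) (nat_lit 0) (nat_lit 25905495896) (nat_lit 7) (nat_lit 5) (nat_lit 9) (nat_lit 4) (nat_lit 7) (nat_lit 4) (nat_lit 427) (nat_lit 307) (nat_lit 286)) (XT.lf (nat_lit 0)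 (nat_lit 6023616153) (nat_lit 76) (nat_lit 28685695650) (nat_lit 76) (nat_lit 26463405104) (nat_lit 6) (nat_lit 4) (nat_lit 7) (nat_lit 5) (nat_lit 7) (nat_lit 4) (nat_lit 428) (nat_lit 307) (nat_lit 285))))) (XT.nd (nat_lit 234) (nat_lit 152) (nat_lit 0) (XT.nd (nat_lit 78) (nat_lit 0) (nat_lit 0) (XT.lf (nat_lit 0) (nat_lit 17060044317) (nat_lit 76) (nat_lit 24589833490) (nat_lit 76) (nat_lit 22312577215) (nat_lit 6) (nat_lit 4) (nat_lit 7) (nat_lit 5) (nat_lit 7) (nat_lit 4) (nat_lit 429) (nat_lit 307) (nat_lit 284)) (XT.nd (nat_lit 78) (nat_lit 0) (nat_lit 0) (XT.lf (nat_lit 0) (nat_lit 28443674195) (nat_lit 76) (nat_lit 20391367887) (nat_lit 76) (nat_lit 18061763298) (nat_lit 6) (nat_lit 4) (nat_lit 7) (nat_lit 5) (nat_lit 7) (nat_lit 4) (nat_lit 430) (nat_lit 307) (nat_lit 283)) (XT.lf (nat_lit 0) (nat_lit 40201609669) (nat_lit 76) (nat_lit 16080302494) (nat_lit 76) (nat_lit 13700842369)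 (nat_lit 6) (nat_lit 4) (nat_lit 7) (nat_lit 5) (nat_lit 7) (nat_lit 4) (nat_lit 431) (nat_lit 307) (nat_lit 282)))) (XT.nd (nat_lit 156) (nat_lit 152) (nat_lit 0) (XT.nd (nat_lit 78) (nat_lit 0) (nat_lit 0) (XT.lf (nat_lit 0) (nat_lit 52361845822) (nat_lit 76) (nat_lit 11646372869) (nat_lit 76) (nat_lit 9219431281) (nat_lit 6) (nat_lit 4) (nat_lit 7) (nat_lit 5) (nat_lit 7) (nat_lit 4) (nat_lit 432) (nat_lit 307) (nat_lit 281)) (XT.lf (nat_lit 0) (nat_lit 64953335597) (nat_lit 76) (nat_lit 7079022039) (nat_lit 76) (nat_lit 4606860009) (nat_lit 6) (nat_lit 4) (nat_lit 7) (nat_lit 5) (nat_lit 7) (nat_lit 4) (nat_lit 433) (nat_lit 307) (nat_lit 280))) (XT.nd (nat_lit 78) (nat_lit 76) (nat_lit 0) (XT.lf (nat_lit 0) (nat_lit 143121516) (nat_lit 152) (nat_lit 2221830008) (nat_lit 76) (nat_lit 77860513385) (nat_lit 5) (nat_lit 5) (nat_lit 7) (nat_lit 5) (nat_lit 6) (nat_lit 4) (nat_lit 434) (nat_lit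 307) (nat_lit 279)) (XT.lf (nat_lit 0) (nat_lit 5057100706) (nat_lit 152) (nat_lit 76303503326) (nat_lit 0) (nat_lit 2622581287) (nat_lit 4) (nat_lit 5) (nat_lit 6) (nat_lit 4) (nat_lit 4) (nat_lit 4) (nat_lit 435) (nat_lit 307) (nat_lit 278)))))) (XT.nd (nat_lit 546) (nat_lit 76) (nat_lit 0) (XT.nd (nat_lit 234) (nat_lit 0) (nat_lit 0) (XT.nd (nat_lit 78) (nat_lit 0) (nat_lit 0) (XT.lf (nat_lit 0) (nat_lit 10212346121) (nat_lit 152) (nat_lit 69976046261) (nat_lit 0) (nat_lit 7740623733) (nat_lit 4) (nat_lit 5) (nat_lit 6) (nat_lit 4) (nat_lit 4) (nat_lit 4) (nat_lit 436) (nat_lit 307) (nat_lit 277)) (XT.nd (nat_lit 78) (nat_lit 0) (nat_lit 0) (XT.lf (nat_lit 0) (nat_lit 15547785189) (nat_lit 152) (nat_lit 63487602885) (nat_lit 0) (nat_lit 13040631402) (nat_lit 4) (nat_lit 5) (nat_lit 6) (nat_lit 4) (nat_lit 4) (nat_lit 4) (nat_lit 437) (nat_lit 307) (nat_lit 276)) (XT.lf (nat_lit 0) (nat_lit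 21076121337) (nat_lit 152) (nat_lit 56822724525) (nat_lit 0) (nat_lit 18535223360) (nat_lit 4) (nat_lit 5) (nat_lit 6) (nat_lit 4) (nat_lit 4) (nat_lit 4) (nat_lit 438) (nat_lit 307) (nat_lit 275)))) (XT.nd (nat_lit 156) (nat_lit 0) (nat_lit 0) (XT.nd (nat_lit 78) (nat_lit 0) (nat_lit 0) (XT.lf (nat_lit 0) (nat_lit 26810517271) (nat_lit 152) (nat_lit 49965542422) (nat_lit 0) (nat_lit 24237481970) (nat_lit 4) (nat_lit 5) (nat_lit 6) (nat_lit 4) (nat_lit 4) (nat_lit 4) (nat_lit 439) (nat_lit 307) (nat_lit 274)) (XT.lf (nat_lit 0) (nat_lit 32764626313) (nat_lit 152) (nat_lit 42899729952) (nat_lit 0) (nat_lit 30160984038) (nat_lit 4) (nat_lit 5) (nat_lit 6) (nat_lit 4) (nat_lit 4) (nat_lit 4) (nat_lit 440) (nat_lit 307) (nat_lit 273))) (XT.nd (nat_lit 78) (nat_lit 0) (nat_lit 0) (XT.lf (nat_lit 0) (nat_lit 38952624914) (nat_lit 152) (nat_lit 35608463752) (nat_lit 0) (nat_lit 36319833140) (nat_lit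 4) (nat_lit 5) (nat_lit 6) (nat_lit 4) (nat_lit 4) (nat_lit 4) (nat_lit 441) (nat_lit 307) (nat_lit 272)) (XT.lf (nat_lit 0) (nat_lit 45389246405) (nat_lit 152) (nat_lit 28074383665) (nat_lit 0) (nat_lit 42728693202) (nat_lit 4) (nat_lit 5) (nat_lit 6) (nat_lit 4) (nat_lit 4) (nat_lit 4) (nat_lit 442) (nat_lit 307) (nat_lit 271))))) (XT.nd (nat_lit 234) (nat_lit 76) (nat_lit 0) (XT.nd (nat_lit 78) (nat_lit 0) (nat_lit 0) (XT.lf (nat_lit 0) (nat_lit 52089816073) (nat_lit 152) (nat_lit 20279551404) (nat_lit 0) (nat_lit 49402823415) (nat_lit 4) (nat_lit 5) (nat_lit 6) (nat_lit 4) (nat_lit 4) (nat_lit 4) (nat_lit 443) (nat_lit 307) (nat_lit 270)) (XT.nd (nat_lit 78) (nat_lit 0) (nat_lit 0) (XT.lf (nat_lit 0) (nat_lit 59070287657) (nat_lit 152) (nat_lit 12205407846) (nat_lit 0) (nat_lit 56358114565) (nat_lit 4) (nat_lit 5) (nat_lit 6) (nat_lit 4) (nat_lit 4) (nat_lit 4) (nat_lit 444) (nat_lit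 307) (nat_lit 269)) (XT.lf (nat_lit 0) (nat_lit 66347281327) (nat_lit 152) (nat_lit 3832728838) (nat_lit 0) (nat_lit 63611126869) (nat_lit 4) (nat_lit 5) (nat_lit 6) (nat_lit 4) (nat_lit 4) (nat_lit 4) (nat_lit 445) (nat_lit 307) (nat_lit 268)))) (XT.nd (nat_lit 156) (nat_lit 0) (nat_lit 0) (XT.nd (nat_lit 78) (nat_lit 0) (nat_lit 0) (XT.lf (nat_lit 0) (nat_lit 5019061894) (nat_lit 76) (nat_lit 68997422987) (nat_lit 76) (nat_lit 66238429133) (nat_lit 3) (nat_lit 4) (nat_lit 4) (nat_lit 5) (nat_lit 4) (nat_lit 4) (nat_lit 446) (nat_lit 307) (nat_lit 267)) (XT.lf (nat_lit 0) (nat_lit 14347957843) (nat_lit 76) (nat_lit 67736940873) (nat_lit 76) (nat_lit 64956195213) (nat_lit 3) (nat_lit 4) (nat_lit 4) (nat_lit 5) (nat_lit 4) (nat_lit 4) (nat_lit 447) (nat_lit 307) (nat_lit 266))) (XT.nd (nat_lit 78) (nat_lit 0) (nat_lit 0) (XT.lf (nat_lit 0) (nat_lit 24049443343) (nat_lit 76) (nat_lit 66460471794)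 (nat_lit 76) (nat_lit 63659010129) (nat_lit 3) (nat_lit 4) (nat_lit 4) (nat_lit 5) (nat_lit 4) (nat_lit 4) (nat_lit 448) (nat_lit 307) (nat_lit 265)) (XT.lf (nat_lit 0) (nat_lit 34146617167) (nat_lit 76) (nat_lit 65164976537) (nat_lit 76) (nat_lit 62343785344) (nat_lit 3) (nat_lit 4) (nat_lit 4) (nat_lit 5) (nat_lit 4) (nat_lit 4) (nat_lit 449) (nat_lit 307) (nat_lit 264))))))))
noncomputable def xc30 : XT := (XT.nd (nat_lit 2106) (nat_lit 152) (nat_lit 0) (XT.nd (nat_lit 1014) (nat_lit 0) (nat_lit 0) (XT.nd (nat_lit 468) (nat_lit 0) (nat_lit 0) (XT.nd (nat_lit 234) (nat_lit 0) (nat_lit 0) (XT.nd (nat_lit 78) (nat_lit 0) (nat_lit 0) (XT.lf (nat_lit 0) (nat_lit 44663520206) (nat_lit 76) (nat_lit 63847370591) (nat_lit 76) (nat_lit 61007389370) (nat_lit 3) (nat_lit 4) (nat_lit 4) (nat_lit 5) (nat_lit 4) (nat_lit 4) (nat_lit 450) (nat_lit 307) (nat_lit 263)) (XT.nd (nat_lit 78) (nat_lit 0) (nat_lit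 0) (XT.lf (nat_lit 0) (nat_lit 55625192706) (nat_lit 76) (nat_lit 62504516797) (nat_lit 76) (nat_lit 59646640312) (nat_lit 3) (nat_lit 4) (nat_lit 4) (nat_lit 5) (nat_lit 4) (nat_lit 4) (nat_lit 451) (nat_lit 307) (nat_lit 262)) (XT.lf (nat_lit 0) (nat_lit 67057733886) (nat_lit 76) (nat_lit 61133217886) (nat_lit 76) (nat_lit 58258298292) (nat_lit 3) (nat_lit 4) (nat_lit 4) (nat_lit 5) (nat_lit 4) (nat_lit 4) (nat_lit 452) (nat_lit 307) (nat_lit 261)))) (XT.nd (nat_lit 78) (nat_lit 0) (nat_lit 0) (XT.lf (nat_lit 0) (nat_lit 78988364082) (nat_lit 76) (nat_lit 59730208860) (nat_lit 76) (nat_lit 56839057734) (nat_lit 3) (nat_lit 4) (nat_lit 4) (nat_lit 5) (nat_lit 4) (nat_lit 4) (nat_lit 453) (nat_lit 307) (nat_lit 260)) (XT.nd (nat_lit 78) (nat_lit 0) (nat_lit 0) (XT.lf (nat_lit 0) (nat_lit 91445489558) (nat_lit 76) (nat_lit 58292149220) (nat_lit 76) (nat_lit 55385539492) (nat_lit 3) (nat_lit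 4) (nat_lit 4) (nat_lit 5) (nat_lit 4) (nat_lit 4) (nat_lit 454) (nat_lit 307) (nat_lit 259)) (XT.lf (nat_lit 0) (nat_lit 104458770135) (nat_lit 76) (nat_lit 56815615016) (nat_lit 76) (nat_lit 53894282810) (nat_lit 3) (nat_lit 4) (nat_lit 4) (nat_lit 5) (nat_lit 4) (nat_lit 4) (nat_lit 455) (nat_lit 307) (nat_lit 258))))) (XT.nd (nat_lit 234) (nat_lit 0) (nat_lit 0) (XT.nd (nat_lit 78) (nat_lit 0) (nat_lit 0) (XT.lf (nat_lit 0) (nat_lit 118059189815) (nat_lit 76) (nat_lit 55297090690) (nat_lit 76) (nat_lit 52361737076) (nat_lit 3) (nat_lit 4) (nat_lit 4) (nat_lit 5) (nat_lit 4) (nat_lit 4) (nat_lit 456) (nat_lit 307) (nat_lit 257)) (XT.nd (nat_lit 78) (nat_lit 0) (nat_lit 0) (XT.lf (nat_lit 0) (nat_lit 132279130550) (nat_lit 76) (nat_lit 53732960708) (nat_lit 76) (nat_lit 50784253372) (nat_lit 3) (nat_lit 4) (nat_lit 4) (nat_lit 5) (nat_lit 4) (nat_lit 4) (nat_lit 457) (nat_lit 307) (nat_lit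 256)) (XT.lf (nat_lit 0) (nat_lit 147152449340) (nat_lit 76) (nat_lit 52119500950) (nat_lit 76) (nat_lit 49158075784) (nat_lit 3) (nat_lit 4) (nat_lit 4) (nat_lit 5) (nat_lit 4) (nat_lit 4) (nat_lit 458) (nat_lit 307) (nat_lit 255)))) (XT.nd (nat_lit 156) (nat_lit 0) (nat_lit 0) (XT.nd (nat_lit 78) (nat_lit 0) (nat_lit 0) (XT.lf (nat_lit 0) (nat_lit 162714558851) (nat_lit 76) (nat_lit 50452869846) (nat_lit 76) (nat_lit 47479332461) (nat_lit 3) (nat_lit 4) (nat_lit 4) (nat_lit 5) (nat_lit 4) (nat_lit 4) (nat_lit 459) (nat_lit 307) (nat_lit 254)) (XT.lf (nat_lit 0) (nat_lit 179002511724) (nat_lit 76) (nat_lit 48729099227) (nat_lit 76) (nat_lit 45744026395) (nat_lit 3) (nat_lit 4) (nat_lit 4) (nat_lit 5) (nat_lit 4) (nat_lit 4) (nat_lit 460) (nat_lit 307) (nat_lit 253))) (XT.nd (nat_lit 78) (nat_lit 0) (nat_lit 0) (XT.lf (nat_lit 0) (nat_lit 196055088799) (nat_lit 76) (nat_lit 46944084877) (nat_lit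 76) (nat_lit 43948025905) (nat_lit 3) (nat_lit 4) (nat_lit 4) (nat_lit 5) (nat_lit 4) (nat_lit 4) (nat_lit 461) (nat_lit 307) (nat_lit 252)) (XT.lf (nat_lit 0) (nat_lit 213912891449) (nat_lit 76) (nat_lit 45093576761) (nat_lit 76) (nat_lit 42087054799) (nat_lit 3) (nat_lit 4) (nat_lit 4) (nat_lit 5) (nat_lit 4) (nat_lit 4) (nat_lit 462) (nat_lit 307) (nat_lit 251)))))) (XT.nd (nat_lit 546) (nat_lit 0) (nat_lit 0) (XT.nd (nat_lit 234) (nat_lit 0) (nat_lit 0) (XT.nd (nat_lit 78) (nat_lit 0) (nat_lit 0) (XT.lf (nat_lit 0) (nat_lit 232618438253) (nat_lit 76) (nat_lit 43173168909) (nat_lit 76) (nat_lit 40156682194) (nat_lit 3) (nat_lit 4) (nat_lit 4) (nat_lit 5) (nat_lit 4) (nat_lit 4) (nat_lit 463) (nat_lit 307) (nat_lit 250)) (XT.nd (nat_lit 78) (nat_lit 0) (nat_lit 0) (XT.lf (nat_lit 0) (nat_lit 252216266227) (nat_lit 76) (nat_lit 41178288919) (nat_lit 76) (nat_lit 38152311964) (nat_lit 3)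 (nat_lit 4) (nat_lit 4) (nat_lit 5) (nat_lit 4) (nat_lit 4) (nat_lit 464) (nat_lit 307) (nat_lit 249)) (XT.lf (nat_lit 0) (nat_lit 272753036866) (nat_lit 76) (nat_lit 39104187079) (nat_lit 76) (nat_lit 36069171799) (nat_lit 3) (nat_lit 4) (nat_lit 4) (nat_lit 5) (nat_lit 4) (nat_lit 4) (nat_lit 465) (nat_lit 307) (nat_lit 248)))) (XT.nd (nat_lit 156) (nat_lit 0) (nat_lit 0) (XT.nd (nat_lit 78) (nat_lit 0) (nat_lit 0) (XT.lf (nat_lit 0) (nat_lit 294277647243) (nat_lit 76) (nat_lit 36945925050) (nat_lit 76) (nat_lit 33902301842) (nat_lit 3) (nat_lit 4) (nat_lit 4) (nat_lit 5) (nat_lit 4) (nat_lit 4) (nat_lit 466) (nat_lit 307) (nat_lit 247)) (XT.lf (nat_lit 0) (nat_lit 316841346431) (nat_lit 76) (nat_lit 34698364114) (nat_lit 76) (nat_lit 31646542879) (nat_lit 3) (nat_lit 4) (nat_lit 4) (nat_lit 5) (nat_lit 4) (nat_lit 4) (nat_lit 467) (nat_lit 307) (nat_lit 246))) (XT.nd (nat_lit 78) (nat_lit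 0) (nat_lit 0) (XT.lf (nat_lit 0) (nat_lit 340497857522) (nat_lit 76) (nat_lit 32356152934) (nat_lit 76) (nat_lit 29296524054) (nat_lit 3) (nat_lit 4) (nat_lit 4) (nat_lit 5) (nat_lit 4) (nat_lit 4) (nat_lit 468) (nat_lit 307) (nat_lit 245)) (XT.lf (nat_lit 0) (nat_lit 365303505543) (nat_lit 76) (nat_lit 29913714817) (nat_lit 76) (nat_lit 26846650086) (nat_lit 3) (nat_lit 4) (nat_lit 4) (nat_lit 5) (nat_lit 4) (nat_lit 4) (nat_lit 469) (nat_lit 307) (nat_lit 244))))) (XT.nd (nat_lit 234) (nat_lit 0) (nat_lit 0) (XT.nd (nat_lit 78) (nat_lit 0) (nat_lit 0) (XT.lf (nat_lit 0) (nat_lit 391317351561) (nat_lit 76) (nat_lit 27365234435) (nat_lit 76) (nat_lit 24291087940) (nat_lit 3) (nat_lit 4) (nat_lit 4) (nat_lit 5) (nat_lit 4) (nat_lit 4) (nat_lit 470) (nat_lit 307) (nat_lit 243)) (XT.nd (nat_lit 78) (nat_lit 0) (nat_lit 0) (XT.lf (nat_lit 0) (nat_lit 418601333304) (nat_lit 76) (nat_lit 24704643977)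 (nat_lit 76) (nat_lit 21623752945) (nat_lit 3) (nat_lit 4) (nat_lit 4) (nat_lit 5) (nat_lit 4) (nat_lit 4) (nat_lit 471) (nat_lit 307) (nat_lit 242)) (XT.lf (nat_lit 0) (nat_lit 447220412634) (nat_lit 76) (nat_lit 21925608704) (nat_lit 76) (nat_lit 18838294304) (nat_lit 3) (nat_lit 4) (nat_lit 4) (nat_lit 5) (nat_lit 4) (nat_lit 4) (nat_lit 472) (nat_lit 307) (nat_lit 241)))) (XT.nd (nat_lit 156) (nat_lit 0) (nat_lit 0) (XT.nd (nat_lit 78) (nat_lit 0) (nat_lit 0) (XT.lf (nat_lit 0) (nat_lit 477242730215) (nat_lit 76) (nat_lit 19021511866) (nat_lit 76) (nat_lit 15928079971) (nat_lit 3) (nat_lit 4) (nat_lit 4) (nat_lit 5) (nat_lit 4) (nat_lit 4) (nat_lit 473) (nat_lit 307) (nat_lit 240)) (XT.lf (nat_lit 0) (nat_lit 508739767757) (nat_lit 76) (nat_lit 15985438945) (nat_lit 76) (nat_lit 12886180866) (nat_lit 3) (nat_lit 4) (nat_lit 4) (nat_lit 5) (nat_lit 4) (nat_lit 4) (nat_lit 474) (nat_lit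 307) (nat_lit 239))) (XT.nd (nat_lit 78) (nat_lit 0) (nat_lit 0) (XT.lf (nat_lit 0) (nat_lit 541786518205) (nat_lit 76) (nat_lit 12810161197) (nat_lit 76) (nat_lit 9705354371) (nat_lit 3) (nat_lit 4) (nat_lit 4) (nat_lit 5) (nat_lit 4) (nat_lit 4) (nat_lit 475) (nat_lit 307) (nat_lit 238)) (XT.lf (nat_lit 0) (nat_lit 576461664300) (nat_lit 76) (nat_lit 9488118437) (nat_lit 76) (nat_lit 6378027090) (nat_lit 3) (nat_lit 4) (nat_lit 4) (nat_lit 5) (nat_lit 4) (nat_lit 4) (nat_lit 476) (nat_lit 307) (nat_lit 237))))))) (XT.nd (nat_lit 47736) (nat_lit 0) (nat_lit 608) (XT.nd (nat_lit 468) (nat_lit 0) (nat_lit 0) (XT.nd (nat_lit 234) (nat_lit 0) (nat_lit 0) (XT.nd (nat_lit 78) (nat_lit 152) (nat_lit 0) (XT.lf (nat_lit 0) (nat_lit 612847765912) (nat_lit 76) (nat_lit 6011401040) (nat_lit 76) (nat_lit 2896276815) (nat_lit 3) (nat_lit 4) (nat_lit 4) (nat_lit 5) (nat_lit 4) (nat_lit 4) (nat_lit 477)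 (nat_lit 307) (nat_lit 236)) (XT.nd (nat_lit 78) (nat_lit 76) (nat_lit 0) (XT.lf (nat_lit 0) (nat_lit 724239699) (nat_lit 152) (nat_lit 1635226056) (nat_lit 76) (nat_lit 650294951568) (nat_lit 2) (nat_lit 5) (nat_lit 4) (nat_lit 5) (nat_lit 3) (nat_lit 4) (nat_lit 478) (nat_lit 307) (nat_lit 235)) (XT.lf (nat_lit 0) (nat_lit 4538857026) (nat_lit 152) (nat_lit 678988428915) (nat_lit 0) (nat_lit 1563159494) (nat_lit 1) (nat_lit 5) (nat_lit 3) (nat_lit 4) (nat_lit 1) (nat_lit 4) (nat_lit 479) (nat_lit 307) (nat_lit 234)))) (XT.nd (nat_lit 78) (nat_lit 0) (nat_lit 0) (XT.lf (nat_lit 0) (nat_lit 8600560317) (nat_lit 152) (nat_lit 704924174959) (nat_lit 0) (nat_lit 5620722224) (nat_lit 1) (nat_lit 5) (nat_lit 3) (nat_lit 4) (nat_lit 1) (nat_lit 4) (nat_lit 480) (nat_lit 307) (nat_lit 233)) (XT.nd (nat_lit 78) (nat_lit 0) (nat_lit 0) (XT.lf (nat_lit 0) (nat_lit 12855375436) (nat_lit 152) (nat_lit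 732176749735) (nat_lit 0) (nat_lit 9871593952) (nat_lit 1) (nat_lit 5) (nat_lit 3) (nat_lit 4) (nat_lit 1) (nat_lit 4) (nat_lit 481) (nat_lit 307) (nat_lit 232)) (XT.lf (nat_lit 0) (nat_lit 17313432897) (nat_lit 152) (nat_lit 760811040326) (nat_lit 0) (nat_lit 14325895802) (nat_lit 1) (nat_lit 5) (nat_lit 3) (nat_lit 4) (nat_lit 1) (nat_lit 4) (nat_lit 482) (nat_lit 307) (nat_lit 231))))) (XT.nd (nat_lit 46956) (nat_lit 0) (nat_lit 1140) (XT.nd (nat_lit 78) (nat_lit 0) (nat_lit 0) (XT.lf (nat_lit 0) (nat_lit 21985347121) (nat_lit 152) (nat_lit 790895223615) (nat_lit 0) (nat_lit 18994233254) (nat_lit 1) (nat_lit 5) (nat_lit 3) (nat_lit 4) (nat_lit 1) (nat_lit 4) (nat_lit 483) (nat_lit 307) (nat_lit 230)) (XT.nd (nat_lit 78) (nat_lit 0) (nat_lit 0) (XT.lf (nat_lit 0) (nat_lit 26882241713) (nat_lit 152) (nat_lit 822500928608) (nat_lit 0) (nat_lit 23887721398) (nat_lit 1) (nat_lit 5) (nat_lit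 3) (nat_lit 4) (nat_lit 1) (nat_lit 4) (nat_lit 484) (nat_lit 307) (nat_lit 229)) (XT.lf (nat_lit 0) (nat_lit 32015775947) (nat_lit 152) (nat_lit 855703406985) (nat_lit 0) (nat_lit 29018011394) (nat_lit 1) (nat_lit 5) (nat_lit 3) (nat_lit 4) (nat_lit 1) (nat_lit 4) (nat_lit 485) (nat_lit 307) (nat_lit 228)))) (XT.nd (nat_lit 156) (nat_lit 152) (nat_lit 0) (XT.nd (nat_lit 78) (nat_lit 76) (nat_lit 0) (XT.lf (nat_lit 0) (nat_lit 5301663151) (nat_lit 152) (nat_lit 1064699088) (nat_lit 0) (nat_lit 5301663151) (nat_lit 19) (nat_lit 5) (nat_lit 21) (nat_lit 4) (nat_lit 19) (nat_lit 4) (nat_lit 404) (nat_lit 308) (nat_lit 308)) (XT.lf (nat_lit 0) (nat_lit 11100698647) (nat_lit 76) (nat_lit 6633062448) (nat_lit 76) (nat_lit 6427850299) (nat_lit 18) (nat_lit 4) (nat_lit 19) (nat_lit 5) (nat_lit 19) (nat_lit 4) (nat_lit 405) (nat_lit 308) (nat_lit 307))) (XT.nd (nat_lit 78) (nat_lit 76) (nat_lit 0)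 (XT.lf (nat_lit 0) (nat_lit 3453028) (nat_lit 152) (nat_lit 393573581) (nat_lit 76) (nat_lit 24640420019) (nat_lit 17) (nat_lit 5) (nat_lit 19) (nat_lit 5) (nat_lit 18) (nat_lit 4) (nat_lit 406) (nat_lit 308) (nat_lit 306)) (XT.lf (nat_lit 0) (nat_lit 6629223603) (nat_lit 152) (nat_lit 13247768263) (nat_lit 0) (nat_lit 6070380022) (nat_lit 16) (nat_lit 5) (nat_lit 18) (nat_lit 4) (nat_lit 16) (nat_lit 4) (nat_lit 407) (nat_lit 308) (nat_lit 305)))))) (XT.nd (nat_lit 546) (nat_lit 228) (nat_lit 0) (XT.nd (nat_lit 234) (nat_lit 228) (nat_lit 0) (XT.nd (nat_lit 78) (nat_lit 76) (nat_lit 0) (XT.lf (nat_lit 0) (nat_lit 13391276695) (nat_lit 152) (nat_lit 857674816) (nat_lit 0) (nat_lit 12663604572) (nat_lit 16) (nat_lit 5) (nat_lit 18) (nat_lit 4) (nat_lit 16) (nat_lit 4) (nat_lit 408) (nat_lit 308) (nat_lit 304)) (XT.nd (nat_lit 78) (nat_lit 0) (nat_lit 0) (XT.lf (nat_lit 0) (nat_lit 12150628384)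 (nat_lit 76) (nat_lit 8332138685) (nat_lit 76) (nat_lit 7443677473) (nat_lit 15) (nat_lit 4) (nat_lit 16) (nat_lit 5) (nat_lit 16) (nat_lit 4) (nat_lit 409) (nat_lit 308) (nat_lit 303)) (XT.lf (nat_lit 0) (nat_lit 25455225772) (nat_lit 76) (nat_lit 2293213103) (nat_lit 76) (nat_lit 1251619426) (nat_lit 15) (nat_lit 4) (nat_lit 16) (nat_lit 5) (nat_lit 16) (nat_lit 4) (nat_lit 410) (nat_lit 308) (nat_lit 302)))) (XT.nd (nat_lit 156) (nat_lit 76) (nat_lit 0) (XT.nd (nat_lit 78) (nat_lit 0) (nat_lit 0) (XT.lf (nat_lit 0) (nat_lit 5099978001) (nat_lit 152) (nat_lit 21053299641) (nat_lit 0) (nat_lit 3969088362) (nat_lit 13) (nat_lit 5) (nat_lit 15) (nat_lit 4) (nat_lit 13) (nat_lit 4) (nat_lit 411) (nat_lit 308) (nat_lit 301)) (XT.lf (nat_lit 0) (nat_lit 11637469642) (nat_lit 152) (nat_lit 9292485957) (nat_lit 0) (nat_lit 10374298423) (nat_lit 13) (nat_lit 5) (nat_lit 15) (nat_lit 4) (nat_lit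 13) (nat_lit 4) (nat_lit 412) (nat_lit 308) (nat_lit 300))) (XT.nd (nat_lit 78) (nat_lit 0) (nat_lit 0) (XT.lf (nat_lit 0) (nat_lit 2791099938) (nat_lit 76) (nat_lit 15575042053) (nat_lit 76) (nat_lit 14185888376) (nat_lit 12) (nat_lit 4) (nat_lit 13) (nat_lit 5) (nat_lit 13) (nat_lit 4) (nat_lit 413) (nat_lit 308) (nat_lit 299)) (XT.lf (nat_lit 0) (nat_lit 15452597529) (nat_lit 76) (nat_lit 9959842091) (nat_lit 76) (nat_lit 8450705120) (nat_lit 12) (nat_lit 4) (nat_lit 13) (nat_lit 5) (nat_lit 13) (nat_lit 4) (nat_lit 414) (nat_lit 308) (nat_lit 298))))) (XT.nd (nat_lit 234) (nat_lit 76) (nat_lit 0) (XT.nd (nat_lit 78) (nat_lit 152) (nat_lit 0) (XT.lf (nat_lit 0) (nat_lit 28414901688) (nat_lit 76) (nat_lit 4228358934) (nat_lit 76) (nat_lit 2604952160) (nat_lit 12) (nat_lit 4) (nat_lit 13) (nat_lit 5) (nat_lit 13) (nat_lit 4) (nat_lit 415) (nat_lit 308) (nat_lit 297)) (XT.nd (nat_lit 78)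 (nat_lit 0) (nat_lit 0) (XT.lf (nat_lit 0) (nat_lit 3365015291) (nat_lit 152) (nat_lit 31622250551) (nat_lit 0) (nat_lit 1715267522) (nat_lit 10) (nat_lit 5) (nat_lit 12) (nat_lit 4) (nat_lit 10) (nat_lit 4) (nat_lit 416) (nat_lit 308) (nat_lit 296)) (XT.lf (nat_lit 0) (nat_lit 9570788741) (nat_lit 152) (nat_lit 20833080287) (nat_lit 0) (nat_lit 7822330419) (nat_lit 10) (nat_lit 5) (nat_lit 12) (nat_lit 4) (nat_lit 10) (nat_lit 4) (nat_lit 417) (nat_lit 308) (nat_lit 295)))) (XT.nd (nat_lit 156) (nat_lit 0) (nat_lit 0) (XT.nd (nat_lit 78) (nat_lit 76) (nat_lit 0) (XT.lf (nat_lit 0) (nat_lit 15932480552) (nat_lit 152) (nat_lit 9811281510) (nat_lit 0) (nat_lit 14090012180) (nat_lit 10) (nat_lit 5) (nat_lit 12) (nat_lit 4) (nat_lit 10) (nat_lit 4) (nat_lit 418) (nat_lit 308) (nat_lit 294)) (XT.lf (nat_lit 0) (nat_lit 1517972766) (nat_lit 76) (nat_lit 20970964650) (nat_lit 76) (nat_lit 19038962897)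 (nat_lit 9) (nat_lit 4) (nat_lit 10) (nat_lit 5) (nat_lit 10) (nat_lit 4) (nat_lit 419) (nat_lit 308) (nat_lit 293))) (XT.nd (nat_lit 78) (nat_lit 0) (nat_lit 0) (XT.lf (nat_lit 0) (nat_lit 13466809460) (nat_lit 76) (nat_lit 15928059269) (nat_lit 76) (nat_lit 13910787630) (nat_lit 9) (nat_lit 4) (nat_lit 10) (nat_lit 5) (nat_lit 10) (nat_lit 4) (nat_lit 420) (nat_lit 308) (nat_lit 292)) (XT.lf (nat_lit 0) (nat_lit 25739272906) (nat_lit 76) (nat_lit 10769197801) (nat_lit 76) (nat_lit 8670716746) (nat_lit 9) (nat_lit 4) (nat_lit 10) (nat_lit 5) (nat_lit 10) (nat_lit 4) (nat_lit 421) (nat_lit 308) (nat_lit 291))))))))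
noncomputable def xc31 : XT := (XT.nd (nat_lit 2106) (nat_lit 0) (nat_lit 0) (XT.nd (nat_lit 1014) (nat_lit 228) (nat_lit 0) (XT.nd (nat_lit 468) (nat_lit 76) (nat_lit 0) (XT.nd (nat_lit 234) (nat_lit 0) (nat_lit 0) (XT.nd (nat_lit 78) (nat_lit 152) (nat_lit 0) (XT.lf (nat_lit 0) (nat_lit 38364583255) (nat_lit 76) (nat_lit 5482097243) (nat_lit 76) (nat_lit 3306273887) (nat_lit 9) (nat_lit 4) (nat_lit 10) (nat_lit 5) (nat_lit 10) (nat_lit 4) (nat_lit 422) (nat_lit 308) (nat_lit 290)) (XT.nd (nat_lit 78) (nat_lit 0) (nat_lit 0) (XT.lf (nat_lit 0) (nat_lit 2159304680) (nat_lit 152) (nat_lit 47051985205) (nat_lit 0) (nat_lit 16940214) (nat_lit 7) (nat_lit 5) (nat_lit 9) (nat_lit 4) (nat_lit 7) (nat_lit 4) (nat_lit 423) (nat_lit 308) (nat_lit 289)) (XT.lf (nat_lit 0) (nat_lit 7901543143) (nat_lit 152) (nat_lit 37804929130) (nat_lit 0) (nat_lit 5692367489) (nat_lit 7) (nat_lit 5) (nat_lit 9) (nat_lit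 4) (nat_lit 7) (nat_lit 4) (nat_lit 424) (nat_lit 308) (nat_lit 288)))) (XT.nd (nat_lit 78) (nat_lit 0) (nat_lit 0) (XT.lf (nat_lit 0) (nat_lit 13810272351) (nat_lit 152) (nat_lit 28336276286) (nat_lit 0) (nat_lit 11537466995) (nat_lit 7) (nat_lit 5) (nat_lit 9) (nat_lit 4) (nat_lit 7) (nat_lit 4) (nat_lit 425) (nat_lit 308) (nat_lit 287)) (XT.nd (nat_lit 78) (nat_lit 0) (nat_lit 0) (XT.lf (nat_lit 0) (nat_lit 19899560706) (nat_lit 152) (nat_lit 18623482262) (nat_lit 0) (nat_lit 17566155634) (nat_lit 7) (nat_lit 5) (nat_lit 9) (nat_lit 4) (nat_lit 7) (nat_lit 4) (nat_lit 426) (nat_lit 308) (nat_lit 286)) (XT.lf (nat_lit 0) (nat_lit 26183906515) (nat_lit 152) (nat_lit 8643421357) (nat_lit 0) (nat_lit 23792787426) (nat_lit 7) (nat_lit 5) (nat_lit 9) (nat_lit 4) (nat_lit 7) (nat_lit 4) (nat_lit 427) (nat_lit 308) (nat_lit 285))))) (XT.nd (nat_lit 234) (nat_lit 0) (nat_lit 0) (XT.nd (nat_lit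 78) (nat_lit 0) (nat_lit 0) (XT.lf (nat_lit 0) (nat_lit 1681486548) (nat_lit 76) (nat_lit 31023038673) (nat_lit 76) (nat_lit 28576953856) (nat_lit 6) (nat_lit 4) (nat_lit 7) (nat_lit 5) (nat_lit 7) (nat_lit 4) (nat_lit 428) (nat_lit 308) (nat_lit 284)) (XT.nd (nat_lit 78) (nat_lit 0) (nat_lit 0) (XT.lf (nat_lit 0) (nat_lit 12618100227) (nat_lit 76) (nat_lit 26977025130) (nat_lit 76) (nat_lit 24478591999) (nat_lit 6) (nat_lit 4) (nat_lit 7) (nat_lit 5) (nat_lit 7) (nat_lit 4) (nat_lit 429) (nat_lit 308) (nat_lit 283)) (XT.lf (nat_lit 0) (nat_lit 23906668691) (nat_lit 76) (nat_lit 22826034400) (nat_lit 76) (nat_lit 20277745733) (nat_lit 6) (nat_lit 4) (nat_lit 7) (nat_lit 5) (nat_lit 7) (nat_lit 4) (nat_lit 430) (nat_lit 308) (nat_lit 282)))) (XT.nd (nat_lit 156) (nat_lit 0) (nat_lit 0) (XT.nd (nat_lit 78) (nat_lit 0) (nat_lit 0) (XT.lf (nat_lit 0) (nat_lit 35574069485) (nat_lit 76) (nat_lit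 18560183173) (nat_lit 76) (nat_lit 15964413041) (nat_lit 6) (nat_lit 4) (nat_lit 7) (nat_lit 5) (nat_lit 7) (nat_lit 4) (nat_lit 431) (nat_lit 308) (nat_lit 281)) (XT.lf (nat_lit 0) (nat_lit 47648082133) (nat_lit 76) (nat_lit 14169314658) (nat_lit 76) (nat_lit 11528324085) (nat_lit 6) (nat_lit 4) (nat_lit 7) (nat_lit 5) (nat_lit 7) (nat_lit 4) (nat_lit 432) (nat_lit 308) (nat_lit 280))) (XT.nd (nat_lit 78) (nat_lit 0) (nat_lit 0) (XT.lf (nat_lit 0) (nat_lit 60157454285) (nat_lit 76) (nat_lit 9642974408) (nat_lit 76) (nat_lit 6958916748) (nat_lit 6) (nat_lit 4) (nat_lit 7) (nat_lit 5) (nat_lit 7) (nat_lit 4) (nat_lit 433) (nat_lit 308) (nat_lit 279)) (XT.lf (nat_lit 0) (nat_lit 73131970160) (nat_lit 76) (nat_lit 4970385421) (nat_lit 76) (nat_lit 2245311488) (nat_lit 6) (nat_lit 4) (nat_lit 7) (nat_lit 5) (nat_lit 7) (nat_lit 4) (nat_lit 434) (nat_lit 308) (nat_lit 278)))))) (XT.nd (nat_lit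 546) (nat_lit 76) (nat_lit 0) (XT.nd (nat_lit 234) (nat_lit 0) (nat_lit 0) (XT.nd (nat_lit 78) (nat_lit 0) (nat_lit 0) (XT.lf (nat_lit 0) (nat_lit 2523082949) (nat_lit 76) (nat_lit 56048757) (nat_lit 152) (nat_lit 81536079884) (nat_lit 4) (nat_lit 5) (nat_lit 5) (nat_lit 5) (nat_lit 6) (nat_lit 4) (nat_lit 435) (nat_lit 308) (nat_lit 277)) (XT.nd (nat_lit 78) (nat_lit 0) (nat_lit 0) (XT.lf (nat_lit 0) (nat_lit 7695663693) (nat_lit 152) (nat_lit 75339594812) (nat_lit 0) (nat_lit 5027720817) (nat_lit 4) (nat_lit 5) (nat_lit 6) (nat_lit 4) (nat_lit 4) (nat_lit 4) (nat_lit 436) (nat_lit 308) (nat_lit 276)) (XT.lf (nat_lit 0) (nat_lit 12995066238) (nat_lit 152) (nat_lit 68923340307) (nat_lit 0) (nat_lit 10293379172) (nat_lit 4) (nat_lit 5) (nat_lit 6) (nat_lit 4) (nat_lit 4) (nat_lit 4) (nat_lit 437) (nat_lit 308) (nat_lit 275)))) (XT.nd (nat_lit 156) (nat_lit 0) (nat_lit 0) (XT.nd (nat_lit 78)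 (nat_lit 0) (nat_lit 0) (XT.lf (nat_lit 0) (nat_lit 18489081888) (nat_lit 152) (nat_lit 62327213251) (nat_lit 0) (nat_lit 15755257499) (nat_lit 4) (nat_lit 5) (nat_lit 6) (nat_lit 4) (nat_lit 4) (nat_lit 4) (nat_lit 438) (nat_lit 308) (nat_lit 274)) (XT.lf (nat_lit 0) (nat_lit 24190791632) (nat_lit 152) (nat_lit 55535508582) (nat_lit 0) (nat_lit 21426360268) (nat_lit 4) (nat_lit 5) (nat_lit 6) (nat_lit 4) (nat_lit 4) (nat_lit 4) (nat_lit 439) (nat_lit 308) (nat_lit 273))) (XT.nd (nat_lit 78) (nat_lit 0) (nat_lit 0) (XT.lf (nat_lit 0) (nat_lit 30113770970) (nat_lit 152) (nat_lit 48532055572) (nat_lit 0) (nat_lit 27320190107) (nat_lit 4) (nat_lit 5) (nat_lit 6) (nat_lit 4) (nat_lit 4) (nat_lit 4) (nat_lit 440) (nat_lit 308) (nat_lit 272)) (XT.lf (nat_lit 0) (nat_lit 36272122235) (nat_lit 152) (nat_lit 41300179334) (nat_lit 0) (nat_lit 33450779943) (nat_lit 4) (nat_lit 5) (nat_lit 6) (nat_lit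 4) (nat_lit 4) (nat_lit 4) (nat_lit 441) (nat_lit 308) (nat_lit 271))))) (XT.nd (nat_lit 234) (nat_lit 76) (nat_lit 0) (XT.nd (nat_lit 78) (nat_lit 0) (nat_lit 0) (XT.lf (nat_lit 0) (nat_lit 42680508166) (nat_lit 152) (nat_lit 33822661116) (nat_lit 0) (nat_lit 39832726418) (nat_lit 4) (nat_lit 5) (nat_lit 6) (nat_lit 4) (nat_lit 4) (nat_lit 4) (nat_lit 442) (nat_lit 308) (nat_lit 270)) (XT.nd (nat_lit 78) (nat_lit 0) (nat_lit 0) (XT.lf (nat_lit 0) (nat_lit 49354186825) (nat_lit 152) (nat_lit 26081697301) (nat_lit 0) (nat_lit 46481224644) (nat_lit 4) (nat_lit 5) (nat_lit 6) (nat_lit 4) (nat_lit 4) (nat_lit 4) (nat_lit 443) (nat_lit 308) (nat_lit 269)) (XT.lf (nat_lit 0) (nat_lit 56309047925) (nat_lit 152) (nat_lit 18058857025) (nat_lit 0) (nat_lit 53412104378) (nat_lit 4) (nat_lit 5) (nat_lit 6) (nat_lit 4) (nat_lit 4) (nat_lit 4) (nat_lit 444) (nat_lit 308) (nat_lit 268)))) (XT.nd (nat_lit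 156) (nat_lit 76) (nat_lit 0) (XT.nd (nat_lit 78) (nat_lit 0) (nat_lit 0) (XT.lf (nat_lit 0) (nat_lit 63561650657) (nat_lit 152) (nat_lit 9735038286) (nat_lit 0) (nat_lit 60641867715) (nat_lit 4) (nat_lit 5) (nat_lit 6) (nat_lit 4) (nat_lit 4) (nat_lit 4) (nat_lit 445) (nat_lit 308) (nat_lit 267)) (XT.lf (nat_lit 0) (nat_lit 71129263124) (nat_lit 152) (nat_lit 1090422468) (nat_lit 0) (nat_lit 68187728376) (nat_lit 4) (nat_lit 5) (nat_lit 6) (nat_lit 4) (nat_lit 4) (nat_lit 4) (nat_lit 446) (nat_lit 308) (nat_lit 266))) (XT.nd (nat_lit 78) (nat_lit 0) (nat_lit 0) (XT.lf (nat_lit 0) (nat_lit 8156636141) (nat_lit 76) (nat_lit 71000615258) (nat_lit 76) (nat_lit 68038364505) (nat_lit 3) (nat_lit 4) (nat_lit 4) (nat_lit 5) (nat_lit 4) (nat_lit 4) (nat_lit 447) (nat_lit 308) (nat_lit 265)) (XT.lf (nat_lit 0) (nat_lit 17814518738) (nat_lit 76) (nat_lit 69745998509) (nat_lit 76) (nat_lit 66764018227)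 (nat_lit 3) (nat_lit 4) (nat_lit 4) (nat_lit 5) (nat_lit 4) (nat_lit 4) (nat_lit 448) (nat_lit 308) (nat_lit 264))))))) (XT.nd (nat_lit 1092) (nat_lit 0) (nat_lit 0) (XT.nd (nat_lit 546) (nat_lit 0) (nat_lit 0) (XT.nd (nat_lit 234) (nat_lit 0) (nat_lit 0) (XT.nd (nat_lit 78) (nat_lit 0) (nat_lit 0) (XT.lf (nat_lit 0) (nat_lit 27870165989) (nat_lit 76) (nat_lit 68471314995) (nat_lit 76) (nat_lit 65470544686) (nat_lit 3) (nat_lit 4) (nat_lit 4) (nat_lit 5) (nat_lit 4) (nat_lit 4) (nat_lit 449) (nat_lit 308) (nat_lit 263)) (XT.nd (nat_lit 78) (nat_lit 0) (nat_lit 0) (XT.lf (nat_lit 0) (nat_lit 38347519910) (nat_lit 76) (nat_lit 67173529756) (nat_lit 76) (nat_lit 64154864183) (nat_lit 3) (nat_lit 4) (nat_lit 4) (nat_lit 5) (nat_lit 4) (nat_lit 4) (nat_lit 450) (nat_lit 308) (nat_lit 262)) (XT.lf (nat_lit 0) (nat_lit 49271526583) (nat_lit 76) (nat_lit 65849552827) (nat_lit 76) (nat_lit 62813844145)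 (nat_lit 3) (nat_lit 4) (nat_lit 4) (nat_lit 5) (nat_lit 4) (nat_lit 4) (nat_lit 451) (nat_lit 308) (nat_lit 261)))) (XT.nd (nat_lit 156) (nat_lit 0) (nat_lit 0) (XT.nd (nat_lit 78) (nat_lit 0) (nat_lit 0) (XT.lf (nat_lit 0) (nat_lit 60668195547) (nat_lit 76) (nat_lit 64496231882) (nat_lit 76) (nat_lit 61444291667) (nat_lit 3) (nat_lit 4) (nat_lit 4) (nat_lit 5) (nat_lit 4) (nat_lit 4) (nat_lit 452) (nat_lit 308) (nat_lit 260)) (XT.lf (nat_lit 0) (nat_lit 72564661729) (nat_lit 76) (nat_lit 63110344728) (nat_lit 76) (nat_lit 60042945911) (nat_lit 3) (nat_lit 4) (nat_lit 4) (nat_lit 5) (nat_lit 4) (nat_lit 4) (nat_lit 453) (nat_lit 308) (nat_lit 259))) (XT.nd (nat_lit 78) (nat_lit 0) (nat_lit 0) (XT.lf (nat_lit 0) (nat_lit 84989250047) (nat_lit 76) (nat_lit 61688591633) (nat_lit 76) (nat_lit 58606470339) (nat_lit 3) (nat_lit 4) (nat_lit 4) (nat_lit 5) (nat_lit 4) (nat_lit 4) (nat_lit 454) (nat_lit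 308) (nat_lit 258)) (XT.lf (nat_lit 0) (nat_lit 97971542856) (nat_lit 76) (nat_lit 60227587472) (nat_lit 76) (nat_lit 57131444770) (nat_lit 3) (nat_lit 4) (nat_lit 4) (nat_lit 5) (nat_lit 4) (nat_lit 4) (nat_lit 455) (nat_lit 308) (nat_lit 257))))) (XT.nd (nat_lit 234) (nat_lit 0) (nat_lit 0) (XT.nd (nat_lit 78) (nat_lit 0) (nat_lit 0) (XT.lf (nat_lit 0) (nat_lit 111542450375) (nat_lit 76) (nat_lit 58723853663) (nat_lit 76) (nat_lit 55614357239) (nat_lit 3) (nat_lit 4) (nat_lit 4) (nat_lit 5) (nat_lit 4) (nat_lit 4) (nat_lit 456) (nat_lit 308) (nat_lit 256)) (XT.nd (nat_lit 78) (nat_lit 0) (nat_lit 0) (XT.lf (nat_lit 0) (nat_lit 125734284290) (nat_lit 76) (nat_lit 57173809888) (nat_lit 76) (nat_lit 54051595633) (nat_lit 3) (nat_lit 4) (nat_lit 4) (nat_lit 5) (nat_lit 4) (nat_lit 4) (nat_lit 457) (nat_lit 308) (nat_lit 255)) (XT.lf (nat_lit 0) (nat_lit 140580834681) (nat_lit 76) (nat_lit 55573765565)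 (nat_lit 76) (nat_lit 52439439091) (nat_lit 3) (nat_lit 4) (nat_lit 4) (nat_lit 5) (nat_lit 4) (nat_lit 4) (nat_lit 458) (nat_lit 308) (nat_lit 254)))) (XT.nd (nat_lit 156) (nat_lit 0) (nat_lit 0) (XT.nd (nat_lit 78) (nat_lit 0) (nat_lit 0) (XT.lf (nat_lit 0) (nat_lit 156117450478) (nat_lit 76) (nat_lit 53919911066) (nat_lit 76) (nat_lit 50774049146) (nat_lit 3) (nat_lit 4) (nat_lit 4) (nat_lit 5) (nat_lit 4) (nat_lit 4) (nat_lit 459) (nat_lit 308) (nat_lit 253)) (XT.lf (nat_lit 0) (nat_lit 172381123623) (nat_lit 76) (nat_lit 52208308642) (nat_lit 76) (nat_lit 49051460582) (nat_lit 3) (nat_lit 4) (nat_lit 4) (nat_lit 5) (nat_lit 4) (nat_lit 4) (nat_lit 460) (nat_lit 308) (nat_lit 252))) (XT.nd (nat_lit 78) (nat_lit 0) (nat_lit 0) (XT.lf (nat_lit 0) (nat_lit 189410577147) (nat_lit 76) (nat_lit 50434883049) (nat_lit 76) (nat_lit 47267571998) (nat_lit 3) (nat_lit 4) (nat_lit 4) (nat_lit 5) (nat_lit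 4) (nat_lit 4) (nat_lit 461) (nat_lit 308) (nat_lit 251)) (XT.lf (nat_lit 0) (nat_lit 207246357369) (nat_lit 76) (nat_lit 48595411845) (nat_lit 76) (nat_lit 45418136041) (nat_lit 3) (nat_lit 4) (nat_lit 4) (nat_lit 5) (nat_lit 4) (nat_lit 4) (nat_lit 462) (nat_lit 308) (nat_lit 250)))))) (XT.nd (nat_lit 546) (nat_lit 0) (nat_lit 0) (XT.nd (nat_lit 234) (nat_lit 0) (nat_lit 0) (XT.nd (nat_lit 78) (nat_lit 0) (nat_lit 0) (XT.lf (nat_lit 0) (nat_lit 225930930431) (nat_lit 76) (nat_lit 46685515337) (nat_lit 76) (nat_lit 43498749292) (nat_lit 3) (nat_lit 4) (nat_lit 4) (nat_lit 5) (nat_lit 4) (nat_lit 4) (nat_lit 463) (nat_lit 308) (nat_lit 249)) (XT.nd (nat_lit 78) (nat_lit 0) (nat_lit 0) (XT.lf (nat_lit 0) (nat_lit 245508783413) (nat_lit 76) (nat_lit 44700646152) (nat_lit 76) (nat_lit 41504841783) (nat_lit 3) (nat_lit 4) (nat_lit 4) (nat_lit 5) (nat_lit 4) (nat_lit 4) (nat_lit 464) (nat_lit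 308) (nat_lit 248)) (XT.lf (nat_lit 0) (nat_lit 266026530251) (nat_lit 76) (nat_lit 42636078411) (nat_lit 76) (nat_lit 39431666114) (nat_lit 3) (nat_lit 4) (nat_lit 4) (nat_lit 5) (nat_lit 4) (nat_lit 4) (nat_lit 465) (nat_lit 308) (nat_lit 247)))) (XT.nd (nat_lit 156) (nat_lit 0) (nat_lit 0) (XT.nd (nat_lit 78) (nat_lit 0) (nat_lit 0) (XT.lf (nat_lit 0) (nat_lit 287533022721) (nat_lit 76) (nat_lit 40486896476) (nat_lit 76) (nat_lit 37274286153) (nat_lit 3) (nat_lit 4) (nat_lit 4) (nat_lit 5) (nat_lit 4) (nat_lit 4) (nat_lit 466) (nat_lit 308) (nat_lit 246)) (XT.lf (nat_lit 0) (nat_lit 310079466759) (nat_lit 76) (nat_lit 38247983249) (nat_lit 76) (nat_lit 35027565281) (nat_lit 3) (nat_lit 4) (nat_lit 4) (nat_lit 5) (nat_lit 4) (nat_lit 4) (nat_lit 467) (nat_lit 308) (nat_lit 245))) (XT.nd (nat_lit 78) (nat_lit 0) (nat_lit 0) (XT.lf (nat_lit 0) (nat_lit 333719544375) (nat_lit 76) (nat_lit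 35914007982) (nat_lit 76) (nat_lit 32686154162) (nat_lit 3) (nat_lit 4) (nat_lit 4) (nat_lit 5) (nat_lit 4) (nat_lit 4) (nat_lit 468) (nat_lit 308) (nat_lit 244)) (XT.lf (nat_lit 0) (nat_lit 358509541467) (nat_lit 76) (nat_lit 33479413592) (nat_lit 76) (nat_lit 30244478009) (nat_lit 3) (nat_lit 4) (nat_lit 4) (nat_lit 5) (nat_lit 4) (nat_lit 4) (nat_lit 469) (nat_lit 308) (nat_lit 243))))) (XT.nd (nat_lit 234) (nat_lit 0) (nat_lit 0) (XT.nd (nat_lit 78) (nat_lit 0) (nat_lit 0) (XT.lf (nat_lit 0) (nat_lit 384508481838) (nat_lit 76) (nat_lit 30938403427) (nat_lit 76) (nat_lit 27696723306) (nat_lit 3) (nat_lit 4) (nat_lit 4) (nat_lit 5) (nat_lit 4) (nat_lit 4) (nat_lit 470) (nat_lit 308) (nat_lit 242)) (XT.nd (nat_lit 78) (nat_lit 0) (nat_lit 0) (XT.lf (nat_lit 0) (nat_lit 411778267727) (nat_lit 76) (nat_lit 28284927460) (nat_lit 76) (nat_lit 25036823972) (nat_lit 3) (nat_lit 4) (nat_lit 4)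 (nat_lit 5) (nat_lit 4) (nat_lit 4) (nat_lit 471) (nat_lit 308) (nat_lit 241)) (XT.lf (nat_lit 0) (nat_lit 440383827196) (nat_lit 76) (nat_lit 25512667894) (nat_lit 76) (nat_lit 22258446911) (nat_lit 3) (nat_lit 4) (nat_lit 4) (nat_lit 5) (nat_lit 4) (nat_lit 4) (nat_lit 472) (nat_lit 308) (nat_lit 240)))) (XT.nd (nat_lit 156) (nat_lit 0) (nat_lit 0) (XT.nd (nat_lit 78) (nat_lit 0) (nat_lit 0) (XT.lf (nat_lit 0) (nat_lit 470393268720) (nat_lit 76) (nat_lit 22615024109) (nat_lit 76) (nat_lit 19354976941) (nat_lit 3) (nat_lit 4) (nat_lit 4) (nat_lit 5) (nat_lit 4) (nat_lit 4) (nat_lit 473) (nat_lit 308) (nat_lit 239)) (XT.lf (nat_lit 0) (nat_lit 501878043349) (nat_lit 76) (nat_lit 19585096953) (nat_lit 76) (nat_lit 16319501039) (nat_lit 3) (nat_lit 4) (nat_lit 4) (nat_lit 5) (nat_lit 4) (nat_lit 4) (nat_lit 474) (nat_lit 308) (nat_lit 238))) (XT.nd (nat_lit 78) (nat_lit 0) (nat_lit 0) (XT.lf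 (nat_lit 0) (nat_lit 534913114834) (nat_lit 76) (nat_lit 16415672315) (nat_lit 76) (nat_lit 13144791880) (nat_lit 3) (nat_lit 4) (nat_lit 4) (nat_lit 5) (nat_lit 4) (nat_lit 4) (nat_lit 475) (nat_lit 308) (nat_lit 237)) (XT.lf (nat_lit 0) (nat_lit 569577138105) (nat_lit 76) (nat_lit 13099203946) (nat_lit 76) (nat_lit 9823290633) (nat_lit 3) (nat_lit 4) (nat_lit 4) (nat_lit 5) (nat_lit 4) (nat_lit 4) (nat_lit 476) (nat_lit 308) (nat_lit 236))))))))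
noncomputable def xc32 : XT := (XT.nd (nat_lit 48672) (nat_lit 0) (nat_lit 228) (XT.nd (nat_lit 47580) (nat_lit 0) (nat_lit 684) (XT.nd (nat_lit 468) (nat_lit 0) (nat_lit 0) (XT.nd (nat_lit 234) (nat_lit 76) (nat_lit 0) (XT.nd (nat_lit 78) (nat_lit 76) (nat_lit 0) (XT.lf (nat_lit 0) (nat_lit 605952646553) (nat_lit 76) (nat_lit 9627795491) (nat_lit 76) (nat_lit 6347088962) (nat_lit 3) (nat_lit 4) (nat_lit 4) (nat_lit 5) (nat_lit 4) (nat_lit 4) (nat_lit 477) (nat_lit 308) (nat_lit 235)) (XT.nd (nat_lit 78) (nat_lit 76) (nat_lit 0) (XT.lf (nat_lit 0) (nat_lit 644126248529) (nat_lit 76) (nat_lit 5993181694) (nat_lit 76) (nat_lit 2707910196) (nat_lit 3) (nat_lit 4) (nat_lit 4) (nat_lit 5) (nat_lit 4) (nat_lit 4) (nat_lit 478) (nat_lit 308) (nat_lit 234)) (XT.lf (nat_lit 0) (nat_lit 1067610355) (nat_lit 152) (nat_lit 1101017857) (nat_lit 76) (nat_lit 683103142711) (nat_lit 2) (nat_lit 5) (nat_lit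 4) (nat_lit 5) (nat_lit 3) (nat_lit 4) (nat_lit 479) (nat_lit 308) (nat_lit 233)))) (XT.nd (nat_lit 78) (nat_lit 0) (nat_lit 0) (XT.lf (nat_lit 0) (nat_lit 5072540767) (nat_lit 152) (nat_lit 712321454189) (nat_lit 0) (nat_lit 1935626818) (nat_lit 1) (nat_lit 5) (nat_lit 3) (nat_lit 4) (nat_lit 1) (nat_lit 4) (nat_lit 480) (nat_lit 308) (nat_lit 232)) (XT.nd (nat_lit 78) (nat_lit 0) (nat_lit 0) (XT.lf (nat_lit 0) (nat_lit 9322722513) (nat_lit 152) (nat_lit 739583339734) (nat_lit 0) (nat_lit 6182052953) (nat_lit 1) (nat_lit 5) (nat_lit 3) (nat_lit 4) (nat_lit 1) (nat_lit 4) (nat_lit 481) (nat_lit 308) (nat_lit 231)) (XT.lf (nat_lit 0) (nat_lit 13776367237) (nat_lit 152) (nat_lit 768226497724) (nat_lit 0) (nat_lit 10632120906) (nat_lit 1) (nat_lit 5) (nat_lit 3) (nat_lit 4) (nat_lit 1) (nat_lit 4) (nat_lit 482) (nat_lit 308) (nat_lit 230))))) (XT.nd (nat_lit 46800) (nat_lit 0) (nat_lit 1292)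 (XT.nd (nat_lit 78) (nat_lit 0) (nat_lit 0) (XT.lf (nat_lit 0) (nat_lit 18444078855) (nat_lit 152) (nat_lit 798319126154) (nat_lit 0) (nat_lit 15296426074) (nat_lit 1) (nat_lit 5) (nat_lit 3) (nat_lit 4) (nat_lit 1) (nat_lit 4) (nat_lit 483) (nat_lit 308) (nat_lit 229)) (XT.nd (nat_lit 78) (nat_lit 0) (nat_lit 0) (XT.lf (nat_lit 0) (nat_lit 23336970965) (nat_lit 152) (nat_lit 829932874140) (nat_lit 0) (nat_lit 20186073947) (nat_lit 1) (nat_lit 5) (nat_lit 3) (nat_lit 4) (nat_lit 1) (nat_lit 4) (nat_lit 484) (nat_lit 308) (nat_lit 228)) (XT.lf (nat_lit 0) (nat_lit 28466693312) (nat_lit 152) (nat_lit 863143012509) (nat_lit 0) (nat_lit 25312706544) (nat_lit 1) (nat_lit 5) (nat_lit 3) (nat_lit 4) (nat_lit 1) (nat_lit 4) (nat_lit 485) (nat_lit 308) (nat_lit 227)))) (XT.nd (nat_lit 156) (nat_lit 76) (nat_lit 0) (XT.nd (nat_lit 78) (nat_lit 152) (nat_lit 0) (XT.lf (nat_lit 0) (nat_lit 8310804959)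 (nat_lit 76) (nat_lit 1295198012) (nat_lit 76) (nat_lit 1295198012) (nat_lit 21) (nat_lit 4) (nat_lit 22) (nat_lit 5) (nat_lit 22) (nat_lit 4) (nat_lit 402) (nat_lit 309) (nat_lit 309)) (XT.lf (nat_lit 0) (nat_lit 3983798626) (nat_lit 152) (nat_lit 14799897910) (nat_lit 0) (nat_lit 3768325870) (nat_lit 19) (nat_lit 5) (nat_lit 21) (nat_lit 4) (nat_lit 19) (nat_lit 4) (nat_lit 403) (nat_lit 309) (nat_lit 308))) (XT.nd (nat_lit 78) (nat_lit 76) (nat_lit 0) (XT.lf (nat_lit 0) (nat_lit 10711663119) (nat_lit 152) (nat_lit 2338773580) (nat_lit 0) (nat_lit 10290978214) (nat_lit 19) (nat_lit 5) (nat_lit 21) (nat_lit 4) (nat_lit 19) (nat_lit 4) (nat_lit 404) (nat_lit 309) (nat_lit 307)) (XT.lf (nat_lit 0) (nat_lit 10678401965) (nat_lit 76) (nat_lit 7055068485) (nat_lit 76) (nat_lit 6438943437) (nat_lit 18) (nat_lit 4) (nat_lit 19) (nat_lit 5) (nat_lit 19) (nat_lit 4) (nat_lit 405) (nat_lit 309) (nat_lit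 306)))))) (XT.nd (nat_lit 546) (nat_lit 228) (nat_lit 0) (XT.nd (nat_lit 234) (nat_lit 228) (nat_lit 0) (XT.nd (nat_lit 78) (nat_lit 152) (nat_lit 0) (XT.lf (nat_lit 0) (nat_lit 24025445910) (nat_lit 76) (nat_lit 915041547) (nat_lit 76) (nat_lit 112783031) (nat_lit 18) (nat_lit 4) (nat_lit 19) (nat_lit 5) (nat_lit 19) (nat_lit 4) (nat_lit 406) (nat_lit 309) (nat_lit 305)) (XT.nd (nat_lit 78) (nat_lit 0) (nat_lit 0) (XT.lf (nat_lit 0) (nat_lit 6396507560) (nat_lit 152) (nat_lit 14109163466) (nat_lit 0) (nat_lit 5463623287) (nat_lit 16) (nat_lit 5) (nat_lit 18) (nat_lit 4) (nat_lit 16) (nat_lit 4) (nat_lit 407) (nat_lit 309) (nat_lit 304)) (XT.lf (nat_lit 0) (nat_lit 13061794440) (nat_lit 152) (nat_lit 1909407048) (nat_lit 0) (nat_lit 11968121079) (nat_lit 16) (nat_lit 5) (nat_lit 18) (nat_lit 4) (nat_lit 16) (nat_lit 4) (nat_lit 408) (nat_lit 309) (nat_lit 303)))) (XT.nd (nat_lit 156) (nat_lit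 152) (nat_lit 0) (XT.nd (nat_lit 78) (nat_lit 0) (nat_lit 0) (XT.lf (nat_lit 0) (nat_lit 10876854059) (nat_lit 76) (nat_lit 9164385271) (nat_lit 76) (nat_lit 7917579445) (nat_lit 15) (nat_lit 4) (nat_lit 16) (nat_lit 5) (nat_lit 16) (nat_lit 4) (nat_lit 409) (nat_lit 309) (nat_lit 302)) (XT.lf (nat_lit 0) (nat_lit 24003101851) (nat_lit 76) (nat_lit 3213254941) (nat_lit 76) (nat_lit 1820608672) (nat_lit 15) (nat_lit 4) (nat_lit 16) (nat_lit 5) (nat_lit 16) (nat_lit 4) (nat_lit 410) (nat_lit 309) (nat_lit 301))) (XT.nd (nat_lit 78) (nat_lit 0) (nat_lit 0) (XT.lf (nat_lit 0) (nat_lit 4418603575) (nat_lit 152) (nat_lit 22787656103) (nat_lit 0) (nat_lit 2959992214) (nat_lit 13) (nat_lit 5) (nat_lit 15) (nat_lit 4) (nat_lit 13) (nat_lit 4) (nat_lit 411) (nat_lit 309) (nat_lit 300)) (XT.lf (nat_lit 0) (nat_lit 10868646062) (nat_lit 152) (nat_lit 11199818566) (nat_lit 0) (nat_lit 9284052243) (nat_lit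 13) (nat_lit 5) (nat_lit 15) (nat_lit 4) (nat_lit 13) (nat_lit 4) (nat_lit 412) (nat_lit 309) (nat_lit 299))))) (XT.nd (nat_lit 234) (nat_lit 152) (nat_lit 0) (XT.nd (nat_lit 78) (nat_lit 0) (nat_lit 0) (XT.lf (nat_lit 0) (nat_lit 650516090) (nat_lit 76) (nat_lit 16830096900) (nat_lit 76) (nat_lit 15125519787) (nat_lit 12) (nat_lit 4) (nat_lit 13) (nat_lit 5) (nat_lit 13) (nat_lit 4) (nat_lit 413) (nat_lit 309) (nat_lit 298)) (XT.nd (nat_lit 78) (nat_lit 0) (nat_lit 0) (XT.lf (nat_lit 0) (nat_lit 13149931578) (nat_lit 76) (nat_lit 11295129524) (nat_lit 76) (nat_lit 9476282608) (nat_lit 12) (nat_lit 4) (nat_lit 13) (nat_lit 5) (nat_lit 13) (nat_lit 4) (nat_lit 414) (nat_lit 309) (nat_lit 297)) (XT.lf (nat_lit 0) (nat_lit 25957871828) (nat_lit 76) (nat_lit 5640058355) (nat_lit 76) (nat_lit 3712383055) (nat_lit 12) (nat_lit 4) (nat_lit 13) (nat_lit 5) (nat_lit 13) (nat_lit 4) (nat_lit 415) (nat_lit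 309) (nat_lit 296)))) (XT.nd (nat_lit 156) (nat_lit 0) (nat_lit 0) (XT.nd (nat_lit 78) (nat_lit 0) (nat_lit 0) (XT.lf (nat_lit 0) (nat_lit 2150623577) (nat_lit 152) (nat_lit 34405966769) (nat_lit 0) (nat_lit 216031786) (nat_lit 10) (nat_lit 5) (nat_lit 12) (nat_lit 4) (nat_lit 10) (nat_lit 4) (nat_lit 416) (nat_lit 309) (nat_lit 295)) (XT.lf (nat_lit 0) (nat_lit 8281094436) (nat_lit 152) (nat_lit 23766469675) (nat_lit 0) (nat_lit 6252492595) (nat_lit 10) (nat_lit 5) (nat_lit 12) (nat_lit 4) (nat_lit 10) (nat_lit 4) (nat_lit 417) (nat_lit 309) (nat_lit 294))) (XT.nd (nat_lit 78) (nat_lit 0) (nat_lit 0) (XT.lf (nat_lit 0) (nat_lit 14571069493) (nat_lit 152) (nat_lit 12887216775) (nat_lit 0) (nat_lit 12452934271) (nat_lit 10) (nat_lit 5) (nat_lit 12) (nat_lit 4) (nat_lit 10) (nat_lit 4) (nat_lit 418) (nat_lit 309) (nat_lit 293)) (XT.lf (nat_lit 0) (nat_lit 21035524879) (nat_lit 152) (nat_lit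 1742305084) (nat_lit 0) (nat_lit 18832119771) (nat_lit 10) (nat_lit 5) (nat_lit 12) (nat_lit 4) (nat_lit 10) (nat_lit 4) (nat_lit 419) (nat_lit 309) (nat_lit 292))))))) (XT.nd (nat_lit 1014) (nat_lit 152) (nat_lit 0) (XT.nd (nat_lit 468) (nat_lit 76) (nat_lit 0) (XT.nd (nat_lit 234) (nat_lit 152) (nat_lit 0) (XT.nd (nat_lit 78) (nat_lit 0) (nat_lit 0) (XT.lf (nat_lit 0) (nat_lit 10015354802) (nat_lit 76) (nat_lit 17830865109) (nat_lit 76) (nat_lit 15546250585) (nat_lit 9) (nat_lit 4) (nat_lit 10) (nat_lit 5) (nat_lit 10) (nat_lit 4) (nat_lit 420) (nat_lit 309) (nat_lit 291)) (XT.nd (nat_lit 78) (nat_lit 0) (nat_lit 0) (XT.lf (nat_lit 0) (nat_lit 22160610311) (nat_lit 76) (nat_lit 12735273877) (nat_lit 76) (nat_lit 10373317052) (nat_lit 9) (nat_lit 4) (nat_lit 10) (nat_lit 5) (nat_lit 10) (nat_lit 4) (nat_lit 421) (nat_lit 309) (nat_lit 290)) (XT.lf (nat_lit 0) (nat_lit 34664770245) (nat_lit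 76) (nat_lit 7508430685) (nat_lit 76) (nat_lit 5072814527) (nat_lit 9) (nat_lit 4) (nat_lit 10) (nat_lit 5) (nat_lit 10) (nat_lit 4) (nat_lit 422) (nat_lit 309) (nat_lit 289)))) (XT.nd (nat_lit 78) (nat_lit 76) (nat_lit 0) (XT.lf (nat_lit 0) (nat_lit 356102865) (nat_lit 152) (nat_lit 1775757031) (nat_lit 76) (nat_lit 47195472772) (nat_lit 8) (nat_lit 5) (nat_lit 10) (nat_lit 5) (nat_lit 9) (nat_lit 4) (nat_lit 423) (nat_lit 309) (nat_lit 288)) (XT.nd (nat_lit 78) (nat_lit 0) (nat_lit 0) (XT.lf (nat_lit 0) (nat_lit 5977106650) (nat_lit 152) (nat_lit 41999868367) (nat_lit 0) (nat_lit 3527031324) (nat_lit 7) (nat_lit 5) (nat_lit 9) (nat_lit 4) (nat_lit 7) (nat_lit 4) (nat_lit 424) (nat_lit 309) (nat_lit 287)) (XT.lf (nat_lit 0) (nat_lit 11829798144) (nat_lit 152) (nat_lit 32643065017) (nat_lit 0) (nat_lit 9319123101) (nat_lit 7) (nat_lit 5) (nat_lit 9) (nat_lit 4) (nat_lit 7) (nat_lit 4) (nat_lit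 425) (nat_lit 309) (nat_lit 286))))) (XT.nd (nat_lit 234) (nat_lit 76) (nat_lit 0) (XT.nd (nat_lit 78) (nat_lit 0) (nat_lit 0) (XT.lf (nat_lit 0) (nat_lit 17865717248) (nat_lit 152) (nat_lit 23036794319) (nat_lit 0) (nat_lit 15297328190) (nat_lit 7) (nat_lit 5) (nat_lit 9) (nat_lit 4) (nat_lit 7) (nat_lit 4) (nat_lit 426) (nat_lit 309) (nat_lit 285)) (XT.nd (nat_lit 78) (nat_lit 0) (nat_lit 0) (XT.lf (nat_lit 0) (nat_lit 24099235198) (nat_lit 152) (nat_lit 13158184202) (nat_lit 0) (nat_lit 21475880411) (nat_lit 7) (nat_lit 5) (nat_lit 9) (nat_lit 4) (nat_lit 7) (nat_lit 4) (nat_lit 427) (nat_lit 309) (nat_lit 284)) (XT.lf (nat_lit 0) (nat_lit 30545193704) (nat_lit 152) (nat_lit 2983714165) (nat_lit 0) (nat_lit 27869490603) (nat_lit 7) (nat_lit 5) (nat_lit 9) (nat_lit 4) (nat_lit 7) (nat_lit 4) (nat_lit 428) (nat_lit 309) (nat_lit 283)))) (XT.nd (nat_lit 156) (nat_lit 0) (nat_lit 0) (XT.nd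 (nat_lit 78) (nat_lit 0) (nat_lit 0) (XT.lf (nat_lit 0) (nat_lit 7759183034) (nat_lit 76) (nat_lit 29580899843) (nat_lit 76) (nat_lit 26855341205) (nat_lit 6) (nat_lit 4) (nat_lit 7) (nat_lit 5) (nat_lit 7) (nat_lit 4) (nat_lit 429) (nat_lit 309) (nat_lit 282)) (XT.lf (nat_lit 0) (nat_lit 18957216818) (nat_lit 76) (nat_lit 25475123278) (nat_lit 76) (nat_lit 22702083177) (nat_lit 6) (nat_lit 4) (nat_lit 7) (nat_lit 5) (nat_lit 7) (nat_lit 4) (nat_lit 430) (nat_lit 309) (nat_lit 281))) (XT.nd (nat_lit 78) (nat_lit 0) (nat_lit 0) (XT.lf (nat_lit 0) (nat_lit 30538394106) (nat_lit 76) (nat_lit 21252333160) (nat_lit 76) (nat_lit 18434072618) (nat_lit 6) (nat_lit 4) (nat_lit 7) (nat_lit 5) (nat_lit 7) (nat_lit 4) (nat_lit 431) (nat_lit 309) (nat_lit 280)) (XT.lf (nat_lit 0) (nat_lit 42530289131) (nat_lit 76) (nat_lit 16902475226) (nat_lit 76) (nat_lit 14041147596) (nat_lit 6) (nat_lit 4) (nat_lit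 7) (nat_lit 5) (nat_lit 7) (nat_lit 4) (nat_lit 432) (nat_lit 309) (nat_lit 279)))))) (XT.nd (nat_lit 546) (nat_lit 0) (nat_lit 0) (XT.nd (nat_lit 234) (nat_lit 152) (nat_lit 0) (XT.nd (nat_lit 78) (nat_lit 0) (nat_lit 0) (XT.lf (nat_lit 0) (nat_lit 54961454022) (nat_lit 76) (nat_lit 12415192672) (nat_lit 76) (nat_lit 9512848769) (nat_lit 6) (nat_lit 4) (nat_lit 7) (nat_lit 5) (nat_lit 7) (nat_lit 4) (nat_lit 433) (nat_lit 309) (nat_lit 278)) (XT.nd (nat_lit 78) (nat_lit 0) (nat_lit 0) (XT.lf (nat_lit 0) (nat_lit 67861486792) (nat_lit 76) (nat_lit 7779801491) (nat_lit 76) (nat_lit 4838394470) (nat_lit 6) (nat_lit 4) (nat_lit 7) (nat_lit 5) (nat_lit 7) (nat_lit 4) (nat_lit 434) (nat_lit 309) (nat_lit 277)) (XT.lf (nat_lit 0) (nat_lit 81261101804) (nat_lit 76) (nat_lit 2985265038) (nat_lit 76) (nat_lit 6655048) (nat_lit 6) (nat_lit 4) (nat_lit 7) (nat_lit 5) (nat_lit 7) (nat_lit 4) (nat_lit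 435) (nat_lit 309) (nat_lit 276)))) (XT.nd (nat_lit 156) (nat_lit 0) (nat_lit 0) (XT.nd (nat_lit 78) (nat_lit 0) (nat_lit 0) (XT.lf (nat_lit 0) (nat_lit 4979272271) (nat_lit 152) (nat_lit 81119307974) (nat_lit 0) (nat_lit 2108756663) (nat_lit 4) (nat_lit 5) (nat_lit 6) (nat_lit 4) (nat_lit 4) (nat_lit 4) (nat_lit 436) (nat_lit 309) (nat_lit 275)) (XT.lf (nat_lit 0) (nat_lit 10244354317) (nat_lit 152) (nat_lit 74771804774) (nat_lit 0) (nat_lit 7341701385) (nat_lit 4) (nat_lit 5) (nat_lit 6) (nat_lit 4) (nat_lit 4) (nat_lit 4) (nat_lit 437) (nat_lit 309) (nat_lit 274))) (XT.nd (nat_lit 78) (nat_lit 0) (nat_lit 0) (XT.lf (nat_lit 0) (nat_lit 15705683778) (nat_lit 152) (nat_lit 68241155152) (nat_lit 0) (nat_lit 12772423871) (nat_lit 4) (nat_lit 5) (nat_lit 6) (nat_lit 4) (nat_lit 4) (nat_lit 4) (nat_lit 438) (nat_lit 309) (nat_lit 273)) (XT.lf (nat_lit 0) (nat_lit 21376263818) (nat_lit 152) (nat_lit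 61511809943) (nat_lit 0) (nat_lit 18413854412) (nat_lit 4) (nat_lit 5) (nat_lit 6) (nat_lit 4) (nat_lit 4) (nat_lit 4) (nat_lit 439) (nat_lit 309) (nat_lit 272))))) (XT.nd (nat_lit 234) (nat_lit 0) (nat_lit 0) (XT.nd (nat_lit 78) (nat_lit 0) (nat_lit 0) (XT.lf (nat_lit 0) (nat_lit 27269595819) (nat_lit 152) (nat_lit 54567746895) (nat_lit 0) (nat_lit 24279424985) (nat_lit 4) (nat_lit 5) (nat_lit 6) (nat_lit 4) (nat_lit 4) (nat_lit 4) (nat_lit 440) (nat_lit 309) (nat_lit 271)) (XT.nd (nat_lit 78) (nat_lit 0) (nat_lit 0) (XT.lf (nat_lit 0) (nat_lit 33399711524) (nat_lit 152) (nat_lit 47392432526) (nat_lit 0) (nat_lit 30383101234) (nat_lit 4) (nat_lit 5) (nat_lit 6) (nat_lit 4) (nat_lit 4) (nat_lit 4) (nat_lit 441) (nat_lit 309) (nat_lit 270)) (XT.lf (nat_lit 0) (nat_lit 39781206447) (nat_lit 152) (nat_lit 39968782754) (nat_lit 0) (nat_lit 36739415723) (nat_lit 4) (nat_lit 5) (nat_lit 6) (nat_lit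 4) (nat_lit 4) (nat_lit 4) (nat_lit 442) (nat_lit 309) (nat_lit 269)))) (XT.nd (nat_lit 156) (nat_lit 0) (nat_lit 0) (XT.nd (nat_lit 78) (nat_lit 0) (nat_lit 0) (XT.lf (nat_lit 0) (nat_lit 46429274622) (nat_lit 152) (nat_lit 32279122222) (nat_lit 0) (nat_lit 43363502532) (nat_lit 4) (nat_lit 5) (nat_lit 6) (nat_lit 4) (nat_lit 4) (nat_lit 4) (nat_lit 443) (nat_lit 309) (nat_lit 268)) (XT.lf (nat_lit 0) (nat_lit 53359744784) (nat_lit 152) (nat_lit 24305142215) (nat_lit 0) (nat_lit 50271133299) (nat_lit 4) (nat_lit 5) (nat_lit 6) (nat_lit 4) (nat_lit 4) (nat_lit 4) (nat_lit 444) (nat_lit 309) (nat_lit 267))) (XT.nd (nat_lit 78) (nat_lit 0) (nat_lit 0) (XT.lf (nat_lit 0) (nat_lit 60589118052) (nat_lit 152) (nat_lit 16027857065) (nat_lit 0) (nat_lit 57478754761) (nat_lit 4) (nat_lit 5) (nat_lit 6) (nat_lit 4) (nat_lit 4) (nat_lit 4) (nat_lit 445) (nat_lit 309) (nat_lit 266)) (XT.lf (nat_lit 0)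 (nat_lit 68134607219) (nat_lit 152) (nat_lit 7427558951) (nat_lit 0) (nat_lit 65003527923) (nat_lit 4) (nat_lit 5) (nat_lit 6) (nat_lit 4) (nat_lit 4) (nat_lit 4) (nat_lit 446) (nat_lit 309) (nat_lit 265))))))))
noncomputable def xc33 : XT := (XT.nd (nat_lit 2106) (nat_lit 152) (nat_lit 0) (XT.nd (nat_lit 1014) (nat_lit 0) (nat_lit 0) (XT.nd (nat_lit 468) (nat_lit 0) (nat_lit 0) (XT.nd (nat_lit 234) (nat_lit 0) (nat_lit 0) (XT.nd (nat_lit 78) (nat_lit 0) (nat_lit 0) (XT.lf (nat_lit 0) (nat_lit 1566362404) (nat_lit 76) (nat_lit 74472270639) (nat_lit 76) (nat_lit 71321461814) (nat_lit 3) (nat_lit 4) (nat_lit 4) (nat_lit 5) (nat_lit 4) (nat_lit 4) (nat_lit 447) (nat_lit 309) (nat_lit 264)) (XT.nd (nat_lit 78) (nat_lit 0) (nat_lit 0) (XT.lf (nat_lit 0) (nat_lit 11182718428) (nat_lit 76) (nat_lit 73238465633) (nat_lit 76) (nat_lit 70068866780) (nat_lit 3) (nat_lit 4) (nat_lit 4) (nat_lit 5) (nat_lit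 4) (nat_lit 4) (nat_lit 448) (nat_lit 309) (nat_lit 263)) (XT.lf (nat_lit 0) (nat_lit 21198816560) (nat_lit 76) (nat_lit 71983602827) (nat_lit 76) (nat_lit 68796108710) (nat_lit 3) (nat_lit 4) (nat_lit 4) (nat_lit 5) (nat_lit 4) (nat_lit 4) (nat_lit 449) (nat_lit 309) (nat_lit 262)))) (XT.nd (nat_lit 78) (nat_lit 0) (nat_lit 0) (XT.lf (nat_lit 0) (nat_lit 31638504655) (nat_lit 76) (nat_lit 70704694452) (nat_lit 76) (nat_lit 67500157227) (nat_lit 3) (nat_lit 4) (nat_lit 4) (nat_lit 5) (nat_lit 4) (nat_lit 4) (nat_lit 450) (nat_lit 309) (nat_lit 261)) (XT.nd (nat_lit 78) (nat_lit 0) (nat_lit 0) (XT.lf (nat_lit 0) (nat_lit 42526639112) (nat_lit 76) (nat_lit 69398695489) (nat_lit 76) (nat_lit 66177926731) (nat_lit 3) (nat_lit 4) (nat_lit 4) (nat_lit 5) (nat_lit 4) (nat_lit 4) (nat_lit 451) (nat_lit 309) (nat_lit 260)) (XT.lf (nat_lit 0) (nat_lit 53889144061) (nat_lit 76) (nat_lit 68062496416)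 (nat_lit 76) (nat_lit 64826269056) (nat_lit 3) (nat_lit 4) (nat_lit 4) (nat_lit 5) (nat_lit 4) (nat_lit 4) (nat_lit 452) (nat_lit 309) (nat_lit 259))))) (XT.nd (nat_lit 234) (nat_lit 0) (nat_lit 0) (XT.nd (nat_lit 78) (nat_lit 0) (nat_lit 0) (XT.lf (nat_lit 0) (nat_lit 65753073085) (nat_lit 76) (nat_lit 66692915807) (nat_lit 76) (nat_lit 63441965969) (nat_lit 3) (nat_lit 4) (nat_lit 4) (nat_lit 5) (nat_lit 4) (nat_lit 4) (nat_lit 453) (nat_lit 309) (nat_lit 258)) (XT.nd (nat_lit 78) (nat_lit 0) (nat_lit 0) (XT.lf (nat_lit 0) (nat_lit 78146673635) (nat_lit 76) (nat_lit 65286692755) (nat_lit 76) (nat_lit 62021721510) (nat_lit 3) (nat_lit 4) (nat_lit 4) (nat_lit 5) (nat_lit 4) (nat_lit 4) (nat_lit 454) (nat_lit 309) (nat_lit 257)) (XT.lf (nat_lit 0) (nat_lit 91099454283) (nat_lit 76) (nat_lit 63840479111) (nat_lit 76) (nat_lit 60562154144) (nat_lit 3) (nat_lit 4) (nat_lit 4) (nat_lit 5) (nat_lit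 4) (nat_lit 4) (nat_lit 455) (nat_lit 309) (nat_lit 256)))) (XT.nd (nat_lit 156) (nat_lit 0) (nat_lit 0) (XT.nd (nat_lit 78) (nat_lit 0) (nat_lit 0) (XT.lf (nat_lit 0) (nat_lit 104642254982) (nat_lit 76) (nat_lit 62350831509) (nat_lit 76) (nat_lit 59059788712) (nat_lit 3) (nat_lit 4) (nat_lit 4) (nat_lit 5) (nat_lit 4) (nat_lit 4) (nat_lit 456) (nat_lit 309) (nat_lit 255)) (XT.lf (nat_lit 0) (nat_lit 118807320497) (nat_lit 76) (nat_lit 60814203169) (nat_lit 76) (nat_lit 57511048152) (nat_lit 3) (nat_lit 4) (nat_lit 4) (nat_lit 5) (nat_lit 4) (nat_lit 4) (nat_lit 457) (nat_lit 309) (nat_lit 254))) (XT.nd (nat_lit 78) (nat_lit 0) (nat_lit 0) (XT.lf (nat_lit 0) (nat_lit 133628377174) (nat_lit 76) (nat_lit 59226935451) (nat_lit 76) (nat_lit 55912244987) (nat_lit 3) (nat_lit 4) (nat_lit 4) (nat_lit 5) (nat_lit 4) (nat_lit 4) (nat_lit 458) (nat_lit 309) (nat_lit 253)) (XT.lf (nat_lit 0) (nat_lit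 149140713244) (nat_lit 76) (nat_lit 57585249147) (nat_lit 76) (nat_lit 54259572543) (nat_lit 3) (nat_lit 4) (nat_lit 4) (nat_lit 5) (nat_lit 4) (nat_lit 4) (nat_lit 459) (nat_lit 309) (nat_lit 252)))))) (XT.nd (nat_lit 546) (nat_lit 0) (nat_lit 0) (XT.nd (nat_lit 234) (nat_lit 0) (nat_lit 0) (XT.nd (nat_lit 78) (nat_lit 0) (nat_lit 0) (XT.lf (nat_lit 0) (nat_lit 165381262838) (nat_lit 76) (nat_lit 55885235480) (nat_lit 76) (nat_lit 52549095886) (nat_lit 3) (nat_lit 4) (nat_lit 4) (nat_lit 5) (nat_lit 4) (nat_lit 4) (nat_lit 460) (nat_lit 309) (nat_lit 251)) (XT.nd (nat_lit 78) (nat_lit 0) (nat_lit 0) (XT.lf (nat_lit 0) (nat_lit 182388693934) (nat_lit 76) (nat_lit 54122846798) (nat_lit 76) (nat_lit 50776742452) (nat_lit 3) (nat_lit 4) (nat_lit 4) (nat_lit 5) (nat_lit 4) (nat_lit 4) (nat_lit 461) (nat_lit 309) (nat_lit 250)) (XT.lf (nat_lit 0) (nat_lit 200203500414) (nat_lit 76) (nat_lit 52293886939)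 (nat_lit 76) (nat_lit 48938292352) (nat_lit 3) (nat_lit 4) (nat_lit 4) (nat_lit 5) (nat_lit 4) (nat_lit 4) (nat_lit 462) (nat_lit 309) (nat_lit 249)))) (XT.nd (nat_lit 156) (nat_lit 0) (nat_lit 0) (XT.nd (nat_lit 78) (nat_lit 0) (nat_lit 0) (XT.lf (nat_lit 0) (nat_lit 218868098485) (nat_lit 76) (nat_lit 50394001235) (nat_lit 76) (nat_lit 47029368323) (nat_lit 3) (nat_lit 4) (nat_lit 4) (nat_lit 5) (nat_lit 4) (nat_lit 4) (nat_lit 463) (nat_lit 309) (nat_lit 248)) (XT.lf (nat_lit 0) (nat_lit 238426927665) (nat_lit 76) (nat_lit 48418666149) (nat_lit 76) (nat_lit 45045425309) (nat_lit 3) (nat_lit 4) (nat_lit 4) (nat_lit 5) (nat_lit 4) (nat_lit 4) (nat_lit 464) (nat_lit 309) (nat_lit 247))) (XT.nd (nat_lit 78) (nat_lit 0) (nat_lit 0) (XT.lf (nat_lit 0) (nat_lit 258926556595) (nat_lit 76) (nat_lit 46363178502) (nat_lit 76) (nat_lit 42981739636) (nat_lit 3) (nat_lit 4) (nat_lit 4) (nat_lit 5) (nat_lit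 4) (nat_lit 4) (nat_lit 465) (nat_lit 309) (nat_lit 246)) (XT.lf (nat_lit 0) (nat_lit 280415793917) (nat_lit 76) (nat_lit 44222644277) (nat_lit 76) (nat_lit 40833397766) (nat_lit 3) (nat_lit 4) (nat_lit 4) (nat_lit 5) (nat_lit 4) (nat_lit 4) (nat_lit 466) (nat_lit 309) (nat_lit 245))))) (XT.nd (nat_lit 234) (nat_lit 0) (nat_lit 0) (XT.nd (nat_lit 78) (nat_lit 0) (nat_lit 0) (XT.lf (nat_lit 0) (nat_lit 302945804480) (nat_lit 76) (nat_lit 41991966963) (nat_lit 76) (nat_lit 38595284600) (nat_lit 3) (nat_lit 4) (nat_lit 4) (nat_lit 5) (nat_lit 4) (nat_lit 4) (nat_lit 467) (nat_lit 309) (nat_lit 244)) (XT.nd (nat_lit 78) (nat_lit 0) (nat_lit 0) (XT.lf (nat_lit 0) (nat_lit 326570231166) (nat_lit 76) (nat_lit 39665835423) (nat_lit 76) (nat_lit 36262071297) (nat_lit 3) (nat_lit 4) (nat_lit 4) (nat_lit 5) (nat_lit 4) (nat_lit 4) (nat_lit 468) (nat_lit 309) (nat_lit 243)) (XT.lf (nat_lit 0) (nat_lit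 351345322612) (nat_lit 76) (nat_lit 37238711250) (nat_lit 76) (nat_lit 33828202586) (nat_lit 3) (nat_lit 4) (nat_lit 4) (nat_lit 5) (nat_lit 4) (nat_lit 4) (nat_lit 469) (nat_lit 309) (nat_lit 242)))) (XT.nd (nat_lit 156) (nat_lit 0) (nat_lit 0) (XT.nd (nat_lit 78) (nat_lit 0) (nat_lit 0) (XT.lf (nat_lit 0) (nat_lit 377330067129) (nat_lit 76) (nat_lit 34704815576) (nat_lit 76) (nat_lit 31287883544) (nat_lit 3) (nat_lit 4) (nat_lit 4) (nat_lit 5) (nat_lit 4) (nat_lit 4) (nat_lit 470) (nat_lit 309) (nat_lit 241)) (XT.lf (nat_lit 0) (nat_lit 404586333158) (nat_lit 76) (nat_lit 32058115316) (nat_lit 76) (nat_lit 28635065790) (nat_lit 3) (nat_lit 4) (nat_lit 4) (nat_lit 5) (nat_lit 4) (nat_lit 4) (nat_lit 471) (nat_lit 309) (nat_lit 240))) (XT.nd (nat_lit 78) (nat_lit 0) (nat_lit 0) (XT.lf (nat_lit 0) (nat_lit 433179016568) (nat_lit 76) (nat_lit 29292308803) (nat_lit 76) (nat_lit 25863433092)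 (nat_lit 3) (nat_lit 4) (nat_lit 4) (nat_lit 5) (nat_lit 4) (nat_lit 4) (nat_lit 472) (nat_lit 309) (nat_lit 239)) (XT.lf (nat_lit 0) (nat_lit 463176195180) (nat_lit 76) (nat_lit 26400810783) (nat_lit 76) (nat_lit 22966386326) (nat_lit 3) (nat_lit 4) (nat_lit 4) (nat_lit 5) (nat_lit 4) (nat_lit 4) (nat_lit 473) (nat_lit 309) (nat_lit 238))))))) (XT.nd (nat_lit 47424) (nat_lit 0) (nat_lit 836) (XT.nd (nat_lit 468) (nat_lit 152) (nat_lit 0) (XT.nd (nat_lit 234) (nat_lit 0) (nat_lit 0) (XT.nd (nat_lit 78) (nat_lit 0) (nat_lit 0) (XT.lf (nat_lit 0) (nat_lit 494649290845) (nat_lit 76) (nat_lit 23376736737) (nat_lit 76) (nat_lit 19937027759) (nat_lit 3) (nat_lit 4) (nat_lit 4) (nat_lit 5) (nat_lit 4) (nat_lit 4) (nat_lit 474) (nat_lit 309) (nat_lit 237)) (XT.nd (nat_lit 78) (nat_lit 0) (nat_lit 0) (XT.lf (nat_lit 0) (nat_lit 527673239506) (nat_lit 76) (nat_lit 20212886490) (nat_lit 76) (nat_lit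 16768144634) (nat_lit 3) (nat_lit 4) (nat_lit 4) (nat_lit 5) (nat_lit 4) (nat_lit 4) (nat_lit 475) (nat_lit 309) (nat_lit 236)) (XT.lf (nat_lit 0) (nat_lit 562326669613) (nat_lit 76) (nat_lit 16901727063) (nat_lit 76) (nat_lit 13452191991) (nat_lit 3) (nat_lit 4) (nat_lit 4) (nat_lit 5) (nat_lit 4) (nat_lit 4) (nat_lit 476) (nat_lit 309) (nat_lit 235)))) (XT.nd (nat_lit 78) (nat_lit 0) (nat_lit 0) (XT.lf (nat_lit 0) (nat_lit 598692089332) (nat_lit 76) (nat_lit 13435374745) (nat_lit 76) (nat_lit 9981274705) (nat_lit 3) (nat_lit 4) (nat_lit 4) (nat_lit 5) (nat_lit 4) (nat_lit 4) (nat_lit 477) (nat_lit 309) (nat_lit 234)) (XT.nd (nat_lit 78) (nat_lit 0) (nat_lit 0) (XT.lf (nat_lit 0) (nat_lit 636856082996) (nat_lit 76) (nat_lit 9805576316) (nat_lit 76) (nat_lit 6347128687) (nat_lit 3) (nat_lit 4) (nat_lit 4) (nat_lit 5) (nat_lit 4) (nat_lit 4) (nat_lit 478) (nat_lit 309) (nat_lit 233)) (XT.lf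 (nat_lit 0) (nat_lit 676909517256) (nat_lit 76) (nat_lit 6003689397) (nat_lit 76) (nat_lit 2541101208) (nat_lit 3) (nat_lit 4) (nat_lit 4) (nat_lit 5) (nat_lit 4) (nat_lit 4) (nat_lit 479) (nat_lit 309) (nat_lit 232))))) (XT.nd (nat_lit 234) (nat_lit 0) (nat_lit 0) (XT.nd (nat_lit 78) (nat_lit 76) (nat_lit 0) (XT.lf (nat_lit 0) (nat_lit 1399592841) (nat_lit 152) (nat_lit 597366254) (nat_lit 76) (nat_lit 717524461809) (nat_lit 2) (nat_lit 5) (nat_lit 4) (nat_lit 5) (nat_lit 3) (nat_lit 4) (nat_lit 480) (nat_lit 309) (nat_lit 231)) (XT.nd (nat_lit 78) (nat_lit 0) (nat_lit 0) (XT.lf (nat_lit 0) (nat_lit 5604390834) (nat_lit 152) (nat_lit 747378437400) (nat_lit 0) (nat_lit 2299355414) (nat_lit 1) (nat_lit 5) (nat_lit 3) (nat_lit 4) (nat_lit 1) (nat_lit 4) (nat_lit 481) (nat_lit 309) (nat_lit 230)) (XT.lf (nat_lit 0) (nat_lit 10053832952) (nat_lit 152) (nat_lit 776030040532) (nat_lit 0) (nat_lit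 6745391083) (nat_lit 1) (nat_lit 5) (nat_lit 3) (nat_lit 4) (nat_lit 1) (nat_lit 4) (nat_lit 482) (nat_lit 309) (nat_lit 229)))) (XT.nd (nat_lit 156) (nat_lit 0) (nat_lit 0) (XT.nd (nat_lit 78) (nat_lit 0) (nat_lit 0) (XT.lf (nat_lit 0) (nat_lit 14717542088) (nat_lit 152) (nat_lit 806130711954) (nat_lit 0) (nat_lit 11405855981) (nat_lit 1) (nat_lit 5) (nat_lit 3) (nat_lit 4) (nat_lit 1) (nat_lit 4) (nat_lit 483) (nat_lit 309) (nat_lit 228)) (XT.lf (nat_lit 0) (nat_lit 19606622311) (nat_lit 152) (nat_lit 837752119932) (nat_lit 0) (nat_lit 16291846454) (nat_lit 1) (nat_lit 5) (nat_lit 3) (nat_lit 4) (nat_lit 1) (nat_lit 4) (nat_lit 484) (nat_lit 309) (nat_lit 227))) (XT.nd (nat_lit 46488) (nat_lit 0) (nat_lit 1596) (XT.lf (nat_lit 0) (nat_lit 24732714288) (nat_lit 152) (nat_lit 870969553533) (nat_lit 0) (nat_lit 21414995812) (nat_lit 1) (nat_lit 5) (nat_lit 3) (nat_lit 4) (nat_lit 1) (nat_lit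 4) (nat_lit 485) (nat_lit 309) (nat_lit 226)) (XT.lf (nat_lit 0) (nat_lit 2778092858) (nat_lit 152) (nat_lit 4645734315) (nat_lit 0) (nat_lit 2778092858) (nat_lit 22) (nat_lit 5) (nat_lit 24) (nat_lit 4) (nat_lit 22) (nat_lit 4) (nat_lit 400) (nat_lit 310) (nat_lit 310)))))) (XT.nd (nat_lit 546) (nat_lit 304) (nat_lit 0) (XT.nd (nat_lit 234) (nat_lit 228) (nat_lit 0) (XT.nd (nat_lit 78) (nat_lit 152) (nat_lit 0) (XT.lf (nat_lit 0) (nat_lit 3296938474) (nat_lit 76) (nat_lit 9013905728) (nat_lit 76) (nat_lit 8776347014) (nat_lit 21) (nat_lit 4) (nat_lit 22) (nat_lit 5) (nat_lit 22) (nat_lit 4) (nat_lit 401) (nat_lit 310) (nat_lit 309)) (XT.nd (nat_lit 78) (nat_lit 152) (nat_lit 0) (XT.lf (nat_lit 0) (nat_lit 16416148177) (nat_lit 76) (nat_lit 2927676980) (nat_lit 76) (nat_lit 2463871872) (nat_lit 21) (nat_lit 4) (nat_lit 22) (nat_lit 5) (nat_lit 22) (nat_lit 4) (nat_lit 402) (nat_lit 310) (nat_lit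 308)) (XT.lf (nat_lit 0) (nat_lit 3990416346) (nat_lit 152) (nat_lit 15229117488) (nat_lit 0) (nat_lit 3343485046) (nat_lit 19) (nat_lit 5) (nat_lit 21) (nat_lit 4) (nat_lit 19) (nat_lit 4) (nat_lit 403) (nat_lit 310) (nat_lit 307)))) (XT.nd (nat_lit 156) (nat_lit 152) (nat_lit 0) (XT.nd (nat_lit 78) (nat_lit 76) (nat_lit 0) (XT.lf (nat_lit 0) (nat_lit 10616246611) (nat_lit 152) (nat_lit 2967398305) (nat_lit 0) (nat_lit 9773875169) (nat_lit 19) (nat_lit 5) (nat_lit 21) (nat_lit 4) (nat_lit 19) (nat_lit 4) (nat_lit 404) (nat_lit 310) (nat_lit 306)) (XT.lf (nat_lit 0) (nat_lit 9832803133) (nat_lit 76) (nat_lit 7694873186) (nat_lit 76) (nat_lit 6666368276) (nat_lit 18) (nat_lit 4) (nat_lit 19) (nat_lit 5) (nat_lit 19) (nat_lit 4) (nat_lit 405) (nat_lit 310) (nat_lit 305))) (XT.nd (nat_lit 78) (nat_lit 152) (nat_lit 0) (XT.lf (nat_lit 0) (nat_lit 22993000474) (nat_lit 76) (nat_lit 1646227601)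 (nat_lit 76) (nat_lit 440452720) (nat_lit 18) (nat_lit 4) (nat_lit 19) (nat_lit 5) (nat_lit 19) (nat_lit 4) (nat_lit 406) (nat_lit 310) (nat_lit 304)) (XT.lf (nat_lit 0) (nat_lit 5953784980) (nat_lit 152) (nat_lit 15403819336) (nat_lit 0) (nat_lit 4644638863) (nat_lit 16) (nat_lit 5) (nat_lit 18) (nat_lit 4) (nat_lit 16) (nat_lit 4) (nat_lit 407) (nat_lit 310) (nat_lit 303))))) (XT.nd (nat_lit 234) (nat_lit 228) (nat_lit 0) (XT.nd (nat_lit 78) (nat_lit 76) (nat_lit 0) (XT.lf (nat_lit 0) (nat_lit 12526913564) (nat_lit 152) (nat_lit 3385336279) (nat_lit 0) (nat_lit 11064634981) (nat_lit 16) (nat_lit 5) (nat_lit 18) (nat_lit 4) (nat_lit 16) (nat_lit 4) (nat_lit 408) (nat_lit 310) (nat_lit 302)) (XT.nd (nat_lit 78) (nat_lit 0) (nat_lit 0) (XT.lf (nat_lit 0) (nat_lit 9173774346) (nat_lit 76) (nat_lit 10218224453) (nat_lit 76) (nat_lit 8610105428) (nat_lit 15) (nat_lit 4) (nat_lit 16) (nat_lit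 5) (nat_lit 16) (nat_lit 4) (nat_lit 409) (nat_lit 310) (nat_lit 301)) (XT.lf (nat_lit 0) (nat_lit 22130165379) (nat_lit 76) (nat_lit 4350708650) (nat_lit 76) (nat_lit 2603693964) (nat_lit 15) (nat_lit 4) (nat_lit 16) (nat_lit 5) (nat_lit 16) (nat_lit 4) (nat_lit 410) (nat_lit 310) (nat_lit 300)))) (XT.nd (nat_lit 156) (nat_lit 76) (nat_lit 0) (XT.nd (nat_lit 78) (nat_lit 0) (nat_lit 0) (XT.lf (nat_lit 0) (nat_lit 3523889662) (nat_lit 152) (nat_lit 24963331489) (nat_lit 0) (nat_lit 1734083694) (nat_lit 13) (nat_lit 5) (nat_lit 15) (nat_lit 4) (nat_lit 13) (nat_lit 4) (nat_lit 411) (nat_lit 310) (nat_lit 299)) (XT.lf (nat_lit 0) (nat_lit 9890647241) (nat_lit 152) (nat_lit 13540233140) (nat_lit 0) (nat_lit 7980857979) (nat_lit 13) (nat_lit 5) (nat_lit 15) (nat_lit 4) (nat_lit 13) (nat_lit 4) (nat_lit 412) (nat_lit 310) (nat_lit 298))) (XT.nd (nat_lit 78) (nat_lit 76) (nat_lit 0) (XT.lf (nat_lit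 0) (nat_lit 16413138829) (nat_lit 152) (nat_lit 1867613524) (nat_lit 0) (nat_lit 14389079764) (nat_lit 13) (nat_lit 5) (nat_lit 15) (nat_lit 4) (nat_lit 13) (nat_lit 4) (nat_lit 413) (nat_lit 310) (nat_lit 297)) (XT.lf (nat_lit 0) (nat_lit 10415686317) (nat_lit 76) (nat_lit 12853825905) (nat_lit 76) (nat_lit 10720938456) (nat_lit 12) (nat_lit 4) (nat_lit 13) (nat_lit 5) (nat_lit 13) (nat_lit 4) (nat_lit 414) (nat_lit 310) (nat_lit 296))))))))
noncomputable def xc34 : XT := (XT.nd (nat_lit 2106) (nat_lit 76) (nat_lit 0) (XT.nd (nat_lit 1014) (nat_lit 228) (nat_lit 0) (XT.nd (nat_lit 468) (nat_lit 152) (nat_lit 0) (XT.nd (nat_lit 234) (nat_lit 76) (nat_lit 0) (XT.nd (nat_lit 78) (nat_lit 152) (nat_lit 0) (XT.lf (nat_lit 0) (nat_lit 23076613321) (nat_lit 76) (nat_lit 7271528058) (nat_lit 76) (nat_lit 5034994529) (nat_lit 12) (nat_lit 4) (nat_lit 13) (nat_lit 5) (nat_lit 13) (nat_lit 4) (nat_lit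 415) (nat_lit 310) (nat_lit 295)) (XT.nd (nat_lit 78) (nat_lit 76) (nat_lit 0) (XT.lf (nat_lit 0) (nat_lit 757985104) (nat_lit 152) (nat_lit 781374617) (nat_lit 76) (nat_lit 35312738866) (nat_lit 11) (nat_lit 5) (nat_lit 13) (nat_lit 5) (nat_lit 12) (nat_lit 4) (nat_lit 416) (nat_lit 310) (nat_lit 294)) (XT.lf (nat_lit 0) (nat_lit 6779896070) (nat_lit 152) (nat_lit 27138747580) (nat_lit 0) (nat_lit 4466320706) (nat_lit 10) (nat_lit 5) (nat_lit 12) (nat_lit 4) (nat_lit 10) (nat_lit 4) (nat_lit 417) (nat_lit 310) (nat_lit 293)))) (XT.nd (nat_lit 78) (nat_lit 76) (nat_lit 0) (XT.lf (nat_lit 0) (nat_lit 13001569457) (nat_lit 152) (nat_lit 16395252658) (nat_lit 0) (nat_lit 10602724207) (nat_lit 10) (nat_lit 5) (nat_lit 12) (nat_lit 4) (nat_lit 10) (nat_lit 4) (nat_lit 418) (nat_lit 310) (nat_lit 292)) (XT.nd (nat_lit 78) (nat_lit 76) (nat_lit 0) (XT.lf (nat_lit 0) (nat_lit 19400975633) (nat_lit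 152) (nat_lit 5379634279) (nat_lit 0) (nat_lit 16920920968) (nat_lit 10) (nat_lit 5) (nat_lit 12) (nat_lit 4) (nat_lit 10) (nat_lit 4) (nat_lit 419) (nat_lit 310) (nat_lit 291)) (XT.lf (nat_lit 0) (nat_lit 6130551141) (nat_lit 76) (nat_lit 19958515224) (nat_lit 76) (nat_lit 17401118257) (nat_lit 9) (nat_lit 4) (nat_lit 10) (nat_lit 5) (nat_lit 10) (nat_lit 4) (nat_lit 420) (nat_lit 310) (nat_lit 290))))) (XT.nd (nat_lit 234) (nat_lit 152) (nat_lit 0) (XT.nd (nat_lit 78) (nat_lit 0) (nat_lit 0) (XT.lf (nat_lit 0) (nat_lit 18154656235) (nat_lit 76) (nat_lit 14923181359) (nat_lit 76) (nat_lit 12292125058) (nat_lit 9) (nat_lit 4) (nat_lit 10) (nat_lit 5) (nat_lit 10) (nat_lit 4) (nat_lit 421) (nat_lit 310) (nat_lit 289)) (XT.nd (nat_lit 78) (nat_lit 0) (nat_lit 0) (XT.lf (nat_lit 0) (nat_lit 30543434820) (nat_lit 76) (nat_lit 9753726136) (nat_lit 76) (nat_lit 7052518089) (nat_lit 9) (nat_lit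 4) (nat_lit 10) (nat_lit 5) (nat_lit 10) (nat_lit 4) (nat_lit 422) (nat_lit 310) (nat_lit 288)) (XT.lf (nat_lit 0) (nat_lit 43326383989) (nat_lit 76) (nat_lit 4437841330) (nat_lit 76) (nat_lit 1669822095) (nat_lit 9) (nat_lit 4) (nat_lit 10) (nat_lit 5) (nat_lit 10) (nat_lit 4) (nat_lit 423) (nat_lit 310) (nat_lit 287)))) (XT.nd (nat_lit 156) (nat_lit 0) (nat_lit 0) (XT.nd (nat_lit 78) (nat_lit 0) (nat_lit 0) (XT.lf (nat_lit 0) (nat_lit 3841571019) (nat_lit 152) (nat_lit 46633846028) (nat_lit 0) (nat_lit 1144762508) (nat_lit 7) (nat_lit 5) (nat_lit 9) (nat_lit 4) (nat_lit 7) (nat_lit 4) (nat_lit 424) (nat_lit 310) (nat_lit 286)) (XT.lf (nat_lit 0) (nat_lit 9640893262) (nat_lit 152) (nat_lit 37383566004) (nat_lit 0) (nat_lit 6886370735) (nat_lit 7) (nat_lit 5) (nat_lit 9) (nat_lit 4) (nat_lit 7) (nat_lit 4) (nat_lit 425) (nat_lit 310) (nat_lit 285))) (XT.nd (nat_lit 78) (nat_lit 0) (nat_lit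 0) (XT.lf (nat_lit 0) (nat_lit 15625984508) (nat_lit 152) (nat_lit 27878746095) (nat_lit 0) (nat_lit 12816496252) (nat_lit 7) (nat_lit 5) (nat_lit 9) (nat_lit 4) (nat_lit 7) (nat_lit 4) (nat_lit 426) (nat_lit 310) (nat_lit 284)) (XT.lf (nat_lit 0) (nat_lit 21811094974) (nat_lit 152) (nat_lit 18096755776) (nat_lit 0) (nat_lit 18949258404) (nat_lit 7) (nat_lit 5) (nat_lit 9) (nat_lit 4) (nat_lit 7) (nat_lit 4) (nat_lit 427) (nat_lit 310) (nat_lit 283)))))) (XT.nd (nat_lit 546) (nat_lit 152) (nat_lit 0) (XT.nd (nat_lit 234) (nat_lit 0) (nat_lit 0) (XT.nd (nat_lit 78) (nat_lit 76) (nat_lit 0) (XT.lf (nat_lit 0) (nat_lit 28210951114) (nat_lit 152) (nat_lit 8014304594) (nat_lit 0) (nat_lit 25299259008) (nat_lit 7) (nat_lit 5) (nat_lit 9) (nat_lit 4) (nat_lit 7) (nat_lit 4) (nat_lit 428) (nat_lit 310) (nat_lit 282)) (XT.nd (nat_lit 78) (nat_lit 0) (nat_lit 0) (XT.lf (nat_lit 0) (nat_lit 2471723886)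 (nat_lit 76) (nat_lit 32407657330) (nat_lit 76) (nat_lit 29448483760) (nat_lit 6) (nat_lit 4) (nat_lit 7) (nat_lit 5) (nat_lit 7) (nat_lit 4) (nat_lit 429) (nat_lit 310) (nat_lit 281)) (XT.lf (nat_lit 0) (nat_lit 13583534166) (nat_lit 76) (nat_lit 28344941875) (nat_lit 76) (nat_lit 25340547864) (nat_lit 6) (nat_lit 4) (nat_lit 7) (nat_lit 5) (nat_lit 7) (nat_lit 4) (nat_lit 430) (nat_lit 310) (nat_lit 280)))) (XT.nd (nat_lit 156) (nat_lit 0) (nat_lit 0) (XT.nd (nat_lit 78) (nat_lit 0) (nat_lit 0) (XT.lf (nat_lit 0) (nat_lit 25082593831) (nat_lit 76) (nat_lit 24163162337) (nat_lit 76) (nat_lit 21115701239) (nat_lit 6) (nat_lit 4) (nat_lit 7) (nat_lit 5) (nat_lit 7) (nat_lit 4) (nat_lit 431) (nat_lit 310) (nat_lit 279)) (XT.lf (nat_lit 0) (nat_lit 36996281594) (nat_lit 76) (nat_lit 19852362099) (nat_lit 76) (nat_lit 16763884727) (nat_lit 6) (nat_lit 4) (nat_lit 7) (nat_lit 5) (nat_lit 7) (nat_lit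 4) (nat_lit 432) (nat_lit 310) (nat_lit 278))) (XT.nd (nat_lit 78) (nat_lit 0) (nat_lit 0) (XT.lf (nat_lit 0) (nat_lit 49352963380) (nat_lit 76) (nat_lit 15402277350) (nat_lit 76) (nat_lit 12274736861) (nat_lit 6) (nat_lit 4) (nat_lit 7) (nat_lit 5) (nat_lit 7) (nat_lit 4) (nat_lit 433) (nat_lit 310) (nat_lit 277)) (XT.lf (nat_lit 0) (nat_lit 62182059859) (nat_lit 76) (nat_lit 10802312651) (nat_lit 76) (nat_lit 7637569193) (nat_lit 6) (nat_lit 4) (nat_lit 7) (nat_lit 5) (nat_lit 7) (nat_lit 4) (nat_lit 434) (nat_lit 310) (nat_lit 276))))) (XT.nd (nat_lit 234) (nat_lit 0) (nat_lit 0) (XT.nd (nat_lit 78) (nat_lit 152) (nat_lit 0) (XT.lf (nat_lit 0) (nat_lit 75514116499) (nat_lit 76) (nat_lit 6041515704) (nat_lit 76) (nat_lit 2841340847) (nat_lit 6) (nat_lit 4) (nat_lit 7) (nat_lit 5) (nat_lit 7) (nat_lit 4) (nat_lit 435) (nat_lit 310) (nat_lit 275)) (XT.nd (nat_lit 78) (nat_lit 0) (nat_lit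 0) (XT.lf (nat_lit 0) (nat_lit 1016156907) (nat_lit 76) (nat_lit 1057050875) (nat_lit 152) (nat_lit 86288399622) (nat_lit 4) (nat_lit 5) (nat_lit 5) (nat_lit 5) (nat_lit 6) (nat_lit 4) (nat_lit 436) (nat_lit 310) (nat_lit 274)) (XT.lf (nat_lit 0) (nat_lit 7289100113) (nat_lit 152) (nat_lit 81046921203) (nat_lit 0) (nat_lit 4178570236) (nat_lit 4) (nat_lit 5) (nat_lit 6) (nat_lit 4) (nat_lit 4) (nat_lit 4) (nat_lit 437) (nat_lit 310) (nat_lit 273)))) (XT.nd (nat_lit 156) (nat_lit 0) (nat_lit 0) (XT.nd (nat_lit 78) (nat_lit 0) (nat_lit 0) (XT.lf (nat_lit 0) (nat_lit 12719299869) (nat_lit 152) (nat_lit 74578631042) (nat_lit 0) (nat_lit 9579620493) (nat_lit 4) (nat_lit 5) (nat_lit 6) (nat_lit 4) (nat_lit 4) (nat_lit 4) (nat_lit 438) (nat_lit 310) (nat_lit 272)) (XT.lf (nat_lit 0) (nat_lit 18360232572) (nat_lit 152) (nat_lit 67908675794) (nat_lit 0) (nat_lit 15192791768) (nat_lit 4) (nat_lit 5)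 (nat_lit 6) (nat_lit 4) (nat_lit 4) (nat_lit 4) (nat_lit 439) (nat_lit 310) (nat_lit 271))) (XT.nd (nat_lit 78) (nat_lit 0) (nat_lit 0) (XT.lf (nat_lit 0) (nat_lit 24225329014) (nat_lit 152) (nat_lit 61021174615) (nat_lit 0) (nat_lit 21031448754) (nat_lit 4) (nat_lit 5) (nat_lit 6) (nat_lit 4) (nat_lit 4) (nat_lit 4) (nat_lit 440) (nat_lit 310) (nat_lit 270)) (XT.lf (nat_lit 0) (nat_lit 30328553711) (nat_lit 152) (nat_lit 53899728693) (nat_lit 0) (nat_lit 27109493017) (nat_lit 4) (nat_lit 5) (nat_lit 6) (nat_lit 4) (nat_lit 4) (nat_lit 4) (nat_lit 441) (nat_lit 310) (nat_lit 269))))))) (XT.nd (nat_lit 1014) (nat_lit 0) (nat_lit 0) (XT.nd (nat_lit 468) (nat_lit 76) (nat_lit 0) (XT.nd (nat_lit 234) (nat_lit 0) (nat_lit 0) (XT.nd (nat_lit 78) (nat_lit 0) (nat_lit 0) (XT.lf (nat_lit 0) (nat_lit 36684438149) (nat_lit 152) (nat_lit 46527382203) (nat_lit 0) (nat_lit 33441396089) (nat_lit 4) (nat_lit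 5) (nat_lit 6) (nat_lit 4) (nat_lit 4) (nat_lit 4) (nat_lit 442) (nat_lit 310) (nat_lit 268)) (XT.nd (nat_lit 78) (nat_lit 0) (nat_lit 0) (XT.lf (nat_lit 0) (nat_lit 43308115386) (nat_lit 152) (nat_lit 38886581940) (nat_lit 0) (nat_lit 40042233931) (nat_lit 4) (nat_lit 5) (nat_lit 6) (nat_lit 4) (nat_lit 4) (nat_lit 4) (nat_lit 443) (nat_lit 310) (nat_lit 267)) (XT.lf (nat_lit 0) (nat_lit 50215356084) (nat_lit 152) (nat_lit 30959135522) (nat_lit 0) (nat_lit 46927722823) (nat_lit 4) (nat_lit 5) (nat_lit 6) (nat_lit 4) (nat_lit 4) (nat_lit 4) (nat_lit 444) (nat_lit 310) (nat_lit 266)))) (XT.nd (nat_lit 78) (nat_lit 0) (nat_lit 0) (XT.lf (nat_lit 0) (nat_lit 57422606052) (nat_lit 152) (nat_lit 22726168076) (nat_lit 0) (nat_lit 54114256786) (nat_lit 4) (nat_lit 5) (nat_lit 6) (nat_lit 4) (nat_lit 4) (nat_lit 4) (nat_lit 445) (nat_lit 310) (nat_lit 265)) (XT.nd (nat_lit 78) (nat_lit 0) (nat_lit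 0) (XT.lf (nat_lit 0) (nat_lit 64947025411) (nat_lit 152) (nat_lit 14168077300) (nat_lit 0) (nat_lit 61618946616) (nat_lit 4) (nat_lit 5) (nat_lit 6) (nat_lit 4) (nat_lit 4) (nat_lit 4) (nat_lit 446) (nat_lit 310) (nat_lit 264)) (XT.lf (nat_lit 0) (nat_lit 72806529444) (nat_lit 152) (nat_lit 5264486787) (nat_lit 0) (nat_lit 69459660621) (nat_lit 4) (nat_lit 5) (nat_lit 6) (nat_lit 4) (nat_lit 4) (nat_lit 4) (nat_lit 447) (nat_lit 310) (nat_lit 263))))) (XT.nd (nat_lit 234) (nat_lit 0) (nat_lit 0) (XT.nd (nat_lit 78) (nat_lit 0) (nat_lit 0) (XT.lf (nat_lit 0) (nat_lit 4138252409) (nat_lit 76) (nat_lit 76946188563) (nat_lit 76) (nat_lit 73581424477) (nat_lit 3) (nat_lit 4) (nat_lit 4) (nat_lit 5) (nat_lit 4) (nat_lit 4) (nat_lit 448) (nat_lit 310) (nat_lit 262)) (XT.nd (nat_lit 78) (nat_lit 0) (nat_lit 0) (XT.lf (nat_lit 0) (nat_lit 14116684715) (nat_lit 76) (nat_lit 75710202621) (nat_lit 76)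 (nat_lit 72328395426) (nat_lit 3) (nat_lit 4) (nat_lit 4) (nat_lit 5) (nat_lit 4) (nat_lit 4) (nat_lit 449) (nat_lit 310) (nat_lit 261)) (XT.lf (nat_lit 0) (nat_lit 24520500594) (nat_lit 76) (nat_lit 74449272213) (nat_lit 76) (nat_lit 71051233485) (nat_lit 3) (nat_lit 4) (nat_lit 4) (nat_lit 5) (nat_lit 4) (nat_lit 4) (nat_lit 450) (nat_lit 310) (nat_lit 260)))) (XT.nd (nat_lit 156) (nat_lit 0) (nat_lit 0) (XT.nd (nat_lit 78) (nat_lit 0) (nat_lit 0) (XT.lf (nat_lit 0) (nat_lit 35374471036) (nat_lit 76) (nat_lit 73160395122) (nat_lit 76) (nat_lit 69746897792) (nat_lit 3) (nat_lit 4) (nat_lit 4) (nat_lit 5) (nat_lit 4) (nat_lit 4) (nat_lit 451) (nat_lit 310) (nat_lit 259)) (XT.lf (nat_lit 0) (nat_lit 46704438828) (nat_lit 76) (nat_lit 71840502594) (nat_lit 76) (nat_lit 68412282786) (nat_lit 3) (nat_lit 4) (nat_lit 4) (nat_lit 5) (nat_lit 4) (nat_lit 4) (nat_lit 452) (nat_lit 310) (nat_lit 258)))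 (XT.nd (nat_lit 78) (nat_lit 0) (nat_lit 0) (XT.lf (nat_lit 0) (nat_lit 58537380084) (nat_lit 76) (nat_lit 70486452028) (nat_lit 76) (nat_lit 67044210812) (nat_lit 3) (nat_lit 4) (nat_lit 4) (nat_lit 5) (nat_lit 4) (nat_lit 4) (nat_lit 453) (nat_lit 310) (nat_lit 257)) (XT.lf (nat_lit 0) (nat_lit 70901468473) (nat_lit 76) (nat_lit 69095019494) (nat_lit 76) (nat_lit 65639424556) (nat_lit 3) (nat_lit 4) (nat_lit 4) (nat_lit 5) (nat_lit 4) (nat_lit 4) (nat_lit 454) (nat_lit 310) (nat_lit 256)))))) (XT.nd (nat_lit 546) (nat_lit 0) (nat_lit 0) (XT.nd (nat_lit 234) (nat_lit 0) (nat_lit 0) (XT.nd (nat_lit 78) (nat_lit 0) (nat_lit 0) (XT.lf (nat_lit 0) (nat_lit 83826142301) (nat_lit 76) (nat_lit 67662892056) (nat_lit 76) (nat_lit 64194579289) (nat_lit 3) (nat_lit 4) (nat_lit 4) (nat_lit 5) (nat_lit 4) (nat_lit 4) (nat_lit 455) (nat_lit 310) (nat_lit 255)) (XT.nd (nat_lit 78) (nat_lit 0) (nat_lit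 0) (XT.lf (nat_lit 0) (nat_lit 97342174600) (nat_lit 76) (nat_lit 66186659889) (nat_lit 76) (nat_lit 62706234902) (nat_lit 3) (nat_lit 4) (nat_lit 4) (nat_lit 5) (nat_lit 4) (nat_lit 4) (nat_lit 456) (nat_lit 310) (nat_lit 254)) (XT.lf (nat_lit 0) (nat_lit 111481746402) (nat_lit 76) (nat_lit 64662808153) (nat_lit 76) (nat_lit 61170847720) (nat_lit 3) (nat_lit 4) (nat_lit 4) (nat_lit 5) (nat_lit 4) (nat_lit 4) (nat_lit 457) (nat_lit 310) (nat_lit 253)))) (XT.nd (nat_lit 156) (nat_lit 0) (nat_lit 0) (XT.nd (nat_lit 78) (nat_lit 0) (nat_lit 0) (XT.lf (nat_lit 0) (nat_lit 126278523351) (nat_lit 76) (nat_lit 63087708630) (nat_lit 76) (nat_lit 59584762057) (nat_lit 3) (nat_lit 4) (nat_lit 4) (nat_lit 5) (nat_lit 4) (nat_lit 4) (nat_lit 458) (nat_lit 310) (nat_lit 252)) (XT.lf (nat_lit 0) (nat_lit 141767735870) (nat_lit 76) (nat_lit 61457611084) (nat_lit 76) (nat_lit 57944201520) (nat_lit 3) (nat_lit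 4) (nat_lit 4) (nat_lit 5) (nat_lit 4) (nat_lit 4) (nat_lit 459) (nat_lit 310) (nat_lit 251))) (XT.nd (nat_lit 78) (nat_lit 0) (nat_lit 0) (XT.lf (nat_lit 0) (nat_lit 157986263036) (nat_lit 76) (nat_lit 59768634328) (nat_lit 76) (nat_lit 56245260012) (nat_lit 3) (nat_lit 4) (nat_lit 4) (nat_lit 5) (nat_lit 4) (nat_lit 4) (nat_lit 460) (nat_lit 310) (nat_lit 250)) (XT.lf (nat_lit 0) (nat_lit 174972720390) (nat_lit 76) (nat_lit 58016756991) (nat_lit 76) (nat_lit 54483892434) (nat_lit 3) (nat_lit 4) (nat_lit 4) (nat_lit 5) (nat_lit 4) (nat_lit 4) (nat_lit 461) (nat_lit 310) (nat_lit 249))))) (XT.nd (nat_lit 234) (nat_lit 0) (nat_lit 0) (XT.nd (nat_lit 78) (nat_lit 0) (nat_lit 0) (XT.lf (nat_lit 0) (nat_lit 192767551878) (nat_lit 76) (nat_lit 56197807936) (nat_lit 76) (nat_lit 52655905054) (nat_lit 3) (nat_lit 4) (nat_lit 4) (nat_lit 5) (nat_lit 4) (nat_lit 4) (nat_lit 462) (nat_lit 310) (nat_lit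 248)) (XT.nd (nat_lit 78) (nat_lit 0) (nat_lit 0) (XT.lf (nat_lit 0) (nat_lit 211413126147) (nat_lit 76) (nat_lit 54307456331) (nat_lit 76) (nat_lit 50756945521) (nat_lit 3) (nat_lit 4) (nat_lit 4) (nat_lit 5) (nat_lit 4) (nat_lit 4) (nat_lit 463) (nat_lit 310) (nat_lit 247)) (XT.lf (nat_lit 0) (nat_lit 230953837420) (nat_lit 76) (nat_lit 52341201339) (nat_lit 76) (nat_lit 48782492503) (nat_lit 3) (nat_lit 4) (nat_lit 4) (nat_lit 5) (nat_lit 4) (nat_lit 4) (nat_lit 464) (nat_lit 310) (nat_lit 246)))) (XT.nd (nat_lit 156) (nat_lit 0) (nat_lit 0) (XT.nd (nat_lit 78) (nat_lit 0) (nat_lit 0) (XT.lf (nat_lit 0) (nat_lit 251436211202) (nat_lit 76) (nat_lit 50294361402) (nat_lit 76) (nat_lit 46727844921) (nat_lit 3) (nat_lit 4) (nat_lit 4) (nat_lit 5) (nat_lit 4) (nat_lit 4) (nat_lit 465) (nat_lit 310) (nat_lit 245)) (XT.lf (nat_lit 0) (nat_lit 272909015048) (nat_lit 76) (nat_lit 48162063090) (nat_lit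 76) (nat_lit 44588110757) (nat_lit 3) (nat_lit 4) (nat_lit 4) (nat_lit 5) (nat_lit 4) (nat_lit 4) (nat_lit 466) (nat_lit 310) (nat_lit 244))) (XT.nd (nat_lit 78) (nat_lit 0) (nat_lit 0) (XT.lf (nat_lit 0) (nat_lit 295423374682) (nat_lit 76) (nat_lit 45939229503) (nat_lit 76) (nat_lit 42358195406) (nat_lit 3) (nat_lit 4) (nat_lit 4) (nat_lit 5) (nat_lit 4) (nat_lit 4) (nat_lit 467) (nat_lit 310) (nat_lit 243)) (XT.lf (nat_lit 0) (nat_lit 319032895722) (nat_lit 76) (nat_lit 43620568179) (nat_lit 76) (nat_lit 40032789546) (nat_lit 3) (nat_lit 4) (nat_lit 4) (nat_lit 5) (nat_lit 4) (nat_lit 4) (nat_lit 468) (nat_lit 310) (nat_lit 242))))))))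
noncomputable def xc35 : XT := (XT.nd (nat_lit 48360) (nat_lit 0) (nat_lit 380) (XT.nd (nat_lit 1014) (nat_lit 76) (nat_lit 0) (XT.nd (nat_lit 468) (nat_lit 76) (nat_lit 0) (XT.nd (nat_lit 234) (nat_lit 0) (nat_lit 0) (XT.nd (nat_lit 78) (nat_lit 0) (nat_lit 0) (XT.lf (nat_lit 0) (nat_lit 343793791313) (nat_lit 76) (nat_lit 41200558498) (nat_lit 76) (nat_lit 37606356496) (nat_lit 3) (nat_lit 4) (nat_lit 4) (nat_lit 5) (nat_lit 4) (nat_lit 4) (nat_lit 469) (nat_lit 310) (nat_lit 241)) (XT.nd (nat_lit 78) (nat_lit 0) (nat_lit 0) (XT.lf (nat_lit 0) (nat_lit 369765015970) (nat_lit 76) (nat_lit 38673438530) (nat_lit 76) (nat_lit 35073119034) (nat_lit 3) (nat_lit 4) (nat_lit 4) (nat_lit 5) (nat_lit 4) (nat_lit 4) (nat_lit 470) (nat_lit 310) (nat_lit 240)) (XT.lf (nat_lit 0) (nat_lit 397008405940) (nat_lit 76) (nat_lit 36033191323) (nat_lit 76) (nat_lit 32427045643) (nat_lit 3) (nat_lit 4) (nat_lit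 4) (nat_lit 5) (nat_lit 4) (nat_lit 4) (nat_lit 471) (nat_lit 310) (nat_lit 239)))) (XT.nd (nat_lit 78) (nat_lit 0) (nat_lit 0) (XT.lf (nat_lit 0) (nat_lit 425588826439) (nat_lit 76) (nat_lit 33273530576) (nat_lit 76) (nat_lit 29661836148) (nat_lit 3) (nat_lit 4) (nat_lit 4) (nat_lit 5) (nat_lit 4) (nat_lit 4) (nat_lit 472) (nat_lit 310) (nat_lit 238)) (XT.nd (nat_lit 78) (nat_lit 0) (nat_lit 0) (XT.lf (nat_lit 0) (nat_lit 455574326086) (nat_lit 76) (nat_lit 30387885666) (nat_lit 76) (nat_lit 26770906718) (nat_lit 3) (nat_lit 4) (nat_lit 4) (nat_lit 5) (nat_lit 4) (nat_lit 4) (nat_lit 473) (nat_lit 310) (nat_lit 237)) (XT.lf (nat_lit 0) (nat_lit 487036298928) (nat_lit 76) (nat_lit 27369386011) (nat_lit 76) (nat_lit 23747374185) (nat_lit 3) (nat_lit 4) (nat_lit 4) (nat_lit 5) (nat_lit 4) (nat_lit 4) (nat_lit 474) (nat_lit 310) (nat_lit 236))))) (XT.nd (nat_lit 234) (nat_lit 76) (nat_lit 0)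 (XT.nd (nat_lit 78) (nat_lit 0) (nat_lit 0) (XT.lf (nat_lit 0) (nat_lit 520049654425) (nat_lit 76) (nat_lit 24210844706) (nat_lit 76) (nat_lit 20584039664) (nat_lit 3) (nat_lit 4) (nat_lit 4) (nat_lit 5) (nat_lit 4) (nat_lit 4) (nat_lit 475) (nat_lit 310) (nat_lit 235)) (XT.nd (nat_lit 78) (nat_lit 0) (nat_lit 0) (XT.lf (nat_lit 0) (nat_lit 554692995803) (nat_lit 76) (nat_lit 20904741416) (nat_lit 76) (nat_lit 17273371406) (nat_lit 3) (nat_lit 4) (nat_lit 4) (nat_lit 5) (nat_lit 4) (nat_lit 4) (nat_lit 476) (nat_lit 310) (nat_lit 234)) (XT.lf (nat_lit 0) (nat_lit 591048807210) (nat_lit 76) (nat_lit 17443204466) (nat_lit 76) (nat_lit 13807486867) (nat_lit 3) (nat_lit 4) (nat_lit 4) (nat_lit 5) (nat_lit 4) (nat_lit 4) (nat_lit 477) (nat_lit 310) (nat_lit 233)))) (XT.nd (nat_lit 156) (nat_lit 76) (nat_lit 0) (XT.nd (nat_lit 78) (nat_lit 0) (nat_lit 0) (XT.lf (nat_lit 0) (nat_lit 629203650100)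 (nat_lit 76) (nat_lit 13817992101) (nat_lit 76) (nat_lit 10178133942) (nat_lit 3) (nat_lit 4) (nat_lit 4) (nat_lit 5) (nat_lit 4) (nat_lit 4) (nat_lit 478) (nat_lit 310) (nat_lit 232)) (XT.lf (nat_lit 0) (nat_lit 669248369337) (nat_lit 76) (nat_lit 10020472863) (nat_lit 76) (nat_lit 6376671313) (nat_lit 3) (nat_lit 4) (nat_lit 4) (nat_lit 5) (nat_lit 4) (nat_lit 4) (nat_lit 479) (nat_lit 310) (nat_lit 231))) (XT.nd (nat_lit 78) (nat_lit 76) (nat_lit 0) (XT.lf (nat_lit 0) (nat_lit 711278309492) (nat_lit 76) (nat_lit 6041605040) (nat_lit 76) (nat_lit 2394047879) (nat_lit 3) (nat_lit 4) (nat_lit 4) (nat_lit 5) (nat_lit 4) (nat_lit 4) (nat_lit 480) (nat_lit 310) (nat_lit 230)) (XT.lf (nat_lit 0) (nat_lit 1722272682) (nat_lit 152) (nat_lit 120474933) (nat_lit 76) (nat_lit 753642101646) (nat_lit 2) (nat_lit 5) (nat_lit 4) (nat_lit 5) (nat_lit 3) (nat_lit 4) (nat_lit 481) (nat_lit 310) (nat_lit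 229)))))) (XT.nd (nat_lit 46800) (nat_lit 0) (nat_lit 1140) (XT.nd (nat_lit 234) (nat_lit 0) (nat_lit 0) (XT.nd (nat_lit 78) (nat_lit 0) (nat_lit 0) (XT.lf (nat_lit 0) (nat_lit 6136966864) (nat_lit 152) (nat_lit 784240248614) (nat_lit 0) (nat_lit 2656452215) (nat_lit 1) (nat_lit 5) (nat_lit 3) (nat_lit 4) (nat_lit 1) (nat_lit 4) (nat_lit 482) (nat_lit 310) (nat_lit 228)) (XT.nd (nat_lit 78) (nat_lit 0) (nat_lit 0) (XT.lf (nat_lit 0) (nat_lit 10796864113) (nat_lit 152) (nat_lit 814348580029) (nat_lit 0) (nat_lit 7313259713) (nat_lit 1) (nat_lit 5) (nat_lit 3) (nat_lit 4) (nat_lit 1) (nat_lit 4) (nat_lit 483) (nat_lit 310) (nat_lit 227)) (XT.lf (nat_lit 0) (nat_lit 15682313967) (nat_lit 152) (nat_lit 845977283238) (nat_lit 0) (nat_lit 12195766948) (nat_lit 1) (nat_lit 5) (nat_lit 3) (nat_lit 4) (nat_lit 1) (nat_lit 4) (nat_lit 484) (nat_lit 310) (nat_lit 226)))) (XT.nd (nat_lit 46410) (nat_lit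 0) (nat_lit 1596) (XT.nd (nat_lit 46332) (nat_lit 0) (nat_lit 1748) (XT.lf (nat_lit 0) (nat_lit 20804948450) (nat_lit 152) (nat_lit 879201664678) (nat_lit 0) (nat_lit 17315598936) (nat_lit 1) (nat_lit 5) (nat_lit 3) (nat_lit 4) (nat_lit 1) (nat_lit 4) (nat_lit 485) (nat_lit 310) (nat_lit 225)) (XT.lf (nat_lit 0) (nat_lit 2505255084) (nat_lit 76) (nat_lit 3530314482) (nat_lit 76) (nat_lit 3530314482) (nat_lit 24) (nat_lit 4) (nat_lit 25) (nat_lit 5) (nat_lit 25) (nat_lit 4) (nat_lit 398) (nat_lit 311) (nat_lit 311))) (XT.nd (nat_lit 78) (nat_lit 152) (nat_lit 0) (XT.lf (nat_lit 0) (nat_lit 17961147479) (nat_lit 76) (nat_lit 1029494736) (nat_lit 76) (nat_lit 767586253) (nat_lit 24) (nat_lit 4) (nat_lit 25) (nat_lit 5) (nat_lit 25) (nat_lit 4) (nat_lit 399) (nat_lit 311) (nat_lit 310)) (XT.lf (nat_lit 0) (nat_lit 5697964119) (nat_lit 152) (nat_lit 9500298597) (nat_lit 0) (nat_lit 5210968755)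 (nat_lit 22) (nat_lit 5) (nat_lit 24) (nat_lit 4) (nat_lit 22) (nat_lit 4) (nat_lit 400) (nat_lit 311) (nat_lit 309))))) (XT.nd (nat_lit 234) (nat_lit 228) (nat_lit 0) (XT.nd (nat_lit 78) (nat_lit 152) (nat_lit 0) (XT.lf (nat_lit 0) (nat_lit 2875741905) (nat_lit 76) (nat_lit 9467772975) (nat_lit 76) (nat_lit 8754531217) (nat_lit 21) (nat_lit 4) (nat_lit 22) (nat_lit 5) (nat_lit 22) (nat_lit 4) (nat_lit 401) (nat_lit 311) (nat_lit 308)) (XT.nd (nat_lit 78) (nat_lit 152) (nat_lit 0) (XT.lf (nat_lit 0) (nat_lit 15799273758) (nat_lit 76) (nat_lit 3476517791) (nat_lit 76) (nat_lit 2547803277) (nat_lit 21) (nat_lit 4) (nat_lit 22) (nat_lit 5) (nat_lit 22) (nat_lit 4) (nat_lit 402) (nat_lit 311) (nat_lit 307)) (XT.lf (nat_lit 0) (nat_lit 3788194784) (nat_lit 152) (nat_lit 16088578596) (nat_lit 0) (nat_lit 2708264628) (nat_lit 19) (nat_lit 5) (nat_lit 21) (nat_lit 4) (nat_lit 19) (nat_lit 4) (nat_lit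 403) (nat_lit 311) (nat_lit 306)))) (XT.nd (nat_lit 156) (nat_lit 152) (nat_lit 0) (XT.nd (nat_lit 78) (nat_lit 76) (nat_lit 0) (XT.lf (nat_lit 0) (nat_lit 10316849595) (nat_lit 152) (nat_lit 4016769077) (nat_lit 0) (nat_lit 9050785970) (nat_lit 19) (nat_lit 5) (nat_lit 21) (nat_lit 4) (nat_lit 19) (nat_lit 4) (nat_lit 404) (nat_lit 311) (nat_lit 305)) (XT.lf (nat_lit 0) (nat_lit 8561888820) (nat_lit 76) (nat_lit 8553999896) (nat_lit 76) (nat_lit 7110666302) (nat_lit 18) (nat_lit 4) (nat_lit 19) (nat_lit 5) (nat_lit 19) (nat_lit 4) (nat_lit 405) (nat_lit 311) (nat_lit 304))) (XT.nd (nat_lit 78) (nat_lit 152) (nat_lit 0) (XT.lf (nat_lit 0) (nat_lit 21544137014) (nat_lit 76) (nat_lit 2592384171) (nat_lit 76) (nat_lit 980222034) (nat_lit 18) (nat_lit 4) (nat_lit 19) (nat_lit 5) (nat_lit 19) (nat_lit 4) (nat_lit 406) (nat_lit 311) (nat_lit 303)) (XT.lf (nat_lit 0) (nat_lit 5300001763) (nat_lit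 152) (nat_lit 17134818389) (nat_lit 0) (nat_lit 3611476785) (nat_lit 16) (nat_lit 5) (nat_lit 18) (nat_lit 4) (nat_lit 16) (nat_lit 4) (nat_lit 407) (nat_lit 311) (nat_lit 302))))))) (XT.nd (nat_lit 1014) (nat_lit 228) (nat_lit 0) (XT.nd (nat_lit 468) (nat_lit 304) (nat_lit 0) (XT.nd (nat_lit 234) (nat_lit 152) (nat_lit 0) (XT.nd (nat_lit 78) (nat_lit 76) (nat_lit 0) (XT.lf (nat_lit 0) (nat_lit 11785360540) (nat_lit 152) (nat_lit 5288976627) (nat_lit 0) (nat_lit 9950995119) (nat_lit 16) (nat_lit 5) (nat_lit 18) (nat_lit 4) (nat_lit 16) (nat_lit 4) (nat_lit 408) (nat_lit 311) (nat_lit 301)) (XT.nd (nat_lit 78) (nat_lit 0) (nat_lit 0) (XT.lf (nat_lit 0) (nat_lit 7037334292) (nat_lit 76) (nat_lit 11496165374) (nat_lit 76) (nat_lit 9522904294) (nat_lit 15) (nat_lit 4) (nat_lit 16) (nat_lit 5) (nat_lit 16) (nat_lit 4) (nat_lit 409) (nat_lit 311) (nat_lit 300)) (XT.lf (nat_lit 0) (nat_lit 19831956984)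 (nat_lit 76) (nat_lit 5708282453) (nat_lit 76) (nat_lit 3602739792) (nat_lit 15) (nat_lit 4) (nat_lit 16) (nat_lit 5) (nat_lit 16) (nat_lit 4) (nat_lit 410) (nat_lit 311) (nat_lit 299)))) (XT.nd (nat_lit 78) (nat_lit 0) (nat_lit 0) (XT.lf (nat_lit 0) (nat_lit 2413705991) (nat_lit 152) (nat_lit 27585505979) (nat_lit 0) (nat_lit 288443973) (nat_lit 13) (nat_lit 5) (nat_lit 15) (nat_lit 4) (nat_lit 13) (nat_lit 4) (nat_lit 411) (nat_lit 311) (nat_lit 298)) (XT.nd (nat_lit 78) (nat_lit 0) (nat_lit 0) (XT.lf (nat_lit 0) (nat_lit 8701144609) (nat_lit 152) (nat_lit 16319302093) (nat_lit 0) (nat_lit 6461612788) (nat_lit 13) (nat_lit 5) (nat_lit 15) (nat_lit 4) (nat_lit 13) (nat_lit 4) (nat_lit 412) (nat_lit 311) (nat_lit 297)) (XT.lf (nat_lit 0) (nat_lit 15148094331) (nat_lit 152) (nat_lit 4796105777) (nat_lit 0) (nat_lit 12799734125) (nat_lit 13) (nat_lit 5) (nat_lit 15) (nat_lit 4) (nat_lit 13)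 (nat_lit 4) (nat_lit 413) (nat_lit 311) (nat_lit 296))))) (XT.nd (nat_lit 234) (nat_lit 228) (nat_lit 0) (XT.nd (nat_lit 78) (nat_lit 0) (nat_lit 0) (XT.lf (nat_lit 0) (nat_lit 7243351639) (nat_lit 76) (nat_lit 14639642415) (nat_lit 76) (nat_lit 12187636129) (nat_lit 12) (nat_lit 4) (nat_lit 13) (nat_lit 5) (nat_lit 13) (nat_lit 4) (nat_lit 414) (nat_lit 311) (nat_lit 295)) (XT.nd (nat_lit 78) (nat_lit 0) (nat_lit 0) (XT.lf (nat_lit 0) (nat_lit 19764266028) (nat_lit 76) (nat_lit 9126652493) (nat_lit 76) (nat_lit 6575935655) (nat_lit 12) (nat_lit 4) (nat_lit 13) (nat_lit 5) (nat_lit 13) (nat_lit 4) (nat_lit 415) (nat_lit 311) (nat_lit 294)) (XT.lf (nat_lit 0) (nat_lit 32637868173) (nat_lit 76) (nat_lit 3473328549) (nat_lit 76) (nat_lit 828601661) (nat_lit 12) (nat_lit 4) (nat_lit 13) (nat_lit 5) (nat_lit 13) (nat_lit 4) (nat_lit 416) (nat_lit 311) (nat_lit 293)))) (XT.nd (nat_lit 156) (nat_lit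 76) (nat_lit 0) (XT.nd (nat_lit 78) (nat_lit 0) (nat_lit 0) (XT.lf (nat_lit 0) (nat_lit 5063619362) (nat_lit 152) (nat_lit 30957943235) (nat_lit 0) (nat_lit 2459561963) (nat_lit 10) (nat_lit 5) (nat_lit 12) (nat_lit 4) (nat_lit 10) (nat_lit 4) (nat_lit 417) (nat_lit 311) (nat_lit 292)) (XT.lf (nat_lit 0) (nat_lit 11220243539) (nat_lit 152) (nat_lit 20343741624) (nat_lit 0) (nat_lit 8534976725) (nat_lit 10) (nat_lit 5) (nat_lit 12) (nat_lit 4) (nat_lit 10) (nat_lit 4) (nat_lit 418) (nat_lit 311) (nat_lit 291))) (XT.nd (nat_lit 78) (nat_lit 76) (nat_lit 0) (XT.lf (nat_lit 0) (nat_lit 17557698088) (nat_lit 152) (nat_lit 9451259733) (nat_lit 0) (nat_lit 14795088972) (nat_lit 10) (nat_lit 5) (nat_lit 12) (nat_lit 4) (nat_lit 10) (nat_lit 4) (nat_lit 419) (nat_lit 311) (nat_lit 290)) (XT.lf (nat_lit 0) (nat_lit 1803148945) (nat_lit 76) (nat_lit 22316075448) (nat_lit 76) (nat_lit 19479806998) (nat_lit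 9) (nat_lit 4) (nat_lit 10) (nat_lit 5) (nat_lit 10) (nat_lit 4) (nat_lit 420) (nat_lit 311) (nat_lit 289)))))) (XT.nd (nat_lit 546) (nat_lit 76) (nat_lit 0) (XT.nd (nat_lit 234) (nat_lit 152) (nat_lit 0) (XT.nd (nat_lit 78) (nat_lit 0) (nat_lit 0) (XT.lf (nat_lit 0) (nat_lit 13711872691) (nat_lit 76) (nat_lit 17338129551) (nat_lit 76) (nat_lit 14431709355) (nat_lit 9) (nat_lit 4) (nat_lit 10) (nat_lit 5) (nat_lit 10) (nat_lit 4) (nat_lit 421) (nat_lit 311) (nat_lit 288)) (XT.nd (nat_lit 78) (nat_lit 0) (nat_lit 0) (XT.lf (nat_lit 0) (nat_lit 25990764279) (nat_lit 76) (nat_lit 12223329537) (nat_lit 76) (nat_lit 9250098153) (nat_lit 9) (nat_lit 4) (nat_lit 10) (nat_lit 5) (nat_lit 10) (nat_lit 4) (nat_lit 422) (nat_lit 311) (nat_lit 287)) (XT.lf (nat_lit 0) (nat_lit 38669059163) (nat_lit 76) (nat_lit 6959497310) (nat_lit 76) (nat_lit 3922636224) (nat_lit 9) (nat_lit 4) (nat_lit 10) (nat_lit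 5) (nat_lit 10) (nat_lit 4) (nat_lit 423) (nat_lit 311) (nat_lit 286)))) (XT.nd (nat_lit 156) (nat_lit 0) (nat_lit 0) (XT.nd (nat_lit 78) (nat_lit 0) (nat_lit 0) (XT.lf (nat_lit 0) (nat_lit 5012928) (nat_lit 76) (nat_lit 1508388891) (nat_lit 152) (nat_lit 50233056678) (nat_lit 7) (nat_lit 5) (nat_lit 8) (nat_lit 5) (nat_lit 9) (nat_lit 4) (nat_lit 424) (nat_lit 311) (nat_lit 285)) (XT.lf (nat_lit 0) (nat_lit 7238346026) (nat_lit 152) (nat_lit 42569066157) (nat_lit 0) (nat_lit 4233417628) (nat_lit 7) (nat_lit 5) (nat_lit 9) (nat_lit 4) (nat_lit 7) (nat_lit 4) (nat_lit 425) (nat_lit 311) (nat_lit 284))) (XT.nd (nat_lit 78) (nat_lit 0) (nat_lit 0) (XT.lf (nat_lit 0) (nat_lit 13175029789) (nat_lit 152) (nat_lit 33160866045) (nat_lit 0) (nat_lit 10117753077) (nat_lit 7) (nat_lit 5) (nat_lit 9) (nat_lit 4) (nat_lit 7) (nat_lit 4) (nat_lit 426) (nat_lit 311) (nat_lit 283)) (XT.lf (nat_lit 0) (nat_lit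 19314037889) (nat_lit 152) (nat_lit 23470894581) (nat_lit 0) (nat_lit 16206905641) (nat_lit 7) (nat_lit 5) (nat_lit 9) (nat_lit 4) (nat_lit 7) (nat_lit 4) (nat_lit 427) (nat_lit 311) (nat_lit 282))))) (XT.nd (nat_lit 234) (nat_lit 0) (nat_lit 0) (XT.nd (nat_lit 78) (nat_lit 76) (nat_lit 0) (XT.lf (nat_lit 0) (nat_lit 25669987014) (nat_lit 152) (nat_lit 13476080404) (nat_lit 0) (nat_lit 22515373302) (nat_lit 7) (nat_lit 5) (nat_lit 9) (nat_lit 4) (nat_lit 7) (nat_lit 4) (nat_lit 428) (nat_lit 311) (nat_lit 281)) (XT.nd (nat_lit 78) (nat_lit 76) (nat_lit 0) (XT.lf (nat_lit 0) (nat_lit 32258010375) (nat_lit 152) (nat_lit 3152626338) (nat_lit 0) (nat_lit 29058176222) (nat_lit 7) (nat_lit 5) (nat_lit 9) (nat_lit 4) (nat_lit 7) (nat_lit 4) (nat_lit 429) (nat_lit 311) (nat_lit 280)) (XT.lf (nat_lit 0) (nat_lit 7772826253) (nat_lit 76) (nat_lit 31442323092) (nat_lit 76) (nat_lit 28199421851) (nat_lit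 6) (nat_lit 4) (nat_lit 7) (nat_lit 5) (nat_lit 7) (nat_lit 4) (nat_lit 430) (nat_lit 311) (nat_lit 279)))) (XT.nd (nat_lit 156) (nat_lit 0) (nat_lit 0) (XT.nd (nat_lit 78) (nat_lit 0) (nat_lit 0) (XT.lf (nat_lit 0) (nat_lit 19193678657) (nat_lit 76) (nat_lit 27299601250) (nat_lit 76) (nat_lit 24015683736) (nat_lit 6) (nat_lit 4) (nat_lit 7) (nat_lit 5) (nat_lit 7) (nat_lit 4) (nat_lit 431) (nat_lit 311) (nat_lit 278)) (XT.lf (nat_lit 0) (nat_lit 31032883315) (nat_lit 76) (nat_lit 23025998817) (nat_lit 76) (nat_lit 19703018186) (nat_lit 6) (nat_lit 4) (nat_lit 7) (nat_lit 5) (nat_lit 7) (nat_lit 4) (nat_lit 432) (nat_lit 311) (nat_lit 277))) (XT.nd (nat_lit 78) (nat_lit 0) (nat_lit 0) (XT.lf (nat_lit 0) (nat_lit 43318628810) (nat_lit 76) (nat_lit 18611340550) (nat_lit 76) (nat_lit 15251156949) (nat_lit 6) (nat_lit 4) (nat_lit 7) (nat_lit 5) (nat_lit 7) (nat_lit 4) (nat_lit 433) (nat_lit 311)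 (nat_lit 276)) (XT.lf (nat_lit 0) (nat_lit 56080166917) (nat_lit 76) (nat_lit 14045115356) (nat_lit 76) (nat_lit 10649500357) (nat_lit 6) (nat_lit 4) (nat_lit 7) (nat_lit 5) (nat_lit 7) (nat_lit 4) (nat_lit 434) (nat_lit 311) (nat_lit 275))))))))
noncomputable def xc36 : XT := (XT.nd (nat_lit 2106) (nat_lit 152) (nat_lit 0) (XT.nd (nat_lit 1014) (nat_lit 76) (nat_lit 0) (XT.nd (nat_lit 468) (nat_lit 0) (nat_lit 0) (XT.nd (nat_lit 234) (nat_lit 0) (nat_lit 0) (XT.nd (nat_lit 78) (nat_lit 152) (nat_lit 0) (XT.lf (nat_lit 0) (nat_lit 69347882250) (nat_lit 76) (nat_lit 9316451273) (nat_lit 76) (nat_lit 5887092084) (nat_lit 6) (nat_lit 4) (nat_lit 7) (nat_lit 5) (nat_lit 7) (nat_lit 4) (nat_lit 435) (nat_lit 311) (nat_lit 274)) (XT.nd (nat_lit 78) (nat_lit 152) (nat_lit 0) (XT.lf (nat_lit 0) (nat_lit 83153364608) (nat_lit 76) (nat_lit 4414089574) (nat_lit 76) (nat_lit 952593062) (nat_lit 6) (nat_lit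 4) (nat_lit 7) (nat_lit 5) (nat_lit 7) (nat_lit 4) (nat_lit 436) (nat_lit 311) (nat_lit 273)) (XT.lf (nat_lit 0) (nat_lit 4122267304) (nat_lit 152) (nat_lit 87763630347) (nat_lit 0) (nat_lit 796454460) (nat_lit 4) (nat_lit 5) (nat_lit 6) (nat_lit 4) (nat_lit 4) (nat_lit 4) (nat_lit 437) (nat_lit 311) (nat_lit 272)))) (XT.nd (nat_lit 78) (nat_lit 0) (nat_lit 0) (XT.lf (nat_lit 0) (nat_lit 9522819724) (nat_lit 152) (nat_lit 81354730148) (nat_lit 0) (nat_lit 6169245451) (nat_lit 4) (nat_lit 5) (nat_lit 6) (nat_lit 4) (nat_lit 4) (nat_lit 4) (nat_lit 438) (nat_lit 311) (nat_lit 271)) (XT.nd (nat_lit 78) (nat_lit 0) (nat_lit 0) (XT.lf (nat_lit 0) (nat_lit 15135516868) (nat_lit 152) (nat_lit 74741336769) (nat_lit 0) (nat_lit 11755503139) (nat_lit 4) (nat_lit 5) (nat_lit 6) (nat_lit 4) (nat_lit 4) (nat_lit 4) (nat_lit 439) (nat_lit 311) (nat_lit 270)) (XT.lf (nat_lit 0) (nat_lit 20973722301) (nat_lit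 152) (nat_lit 67907704037) (nat_lit 0) (nat_lit 17568528139) (nat_lit 4) (nat_lit 5) (nat_lit 6) (nat_lit 4) (nat_lit 4) (nat_lit 4) (nat_lit 440) (nat_lit 311) (nat_lit 269))))) (XT.nd (nat_lit 234) (nat_lit 0) (nat_lit 0) (XT.nd (nat_lit 78) (nat_lit 0) (nat_lit 0) (XT.lf (nat_lit 0) (nat_lit 27051336513) (nat_lit 152) (nat_lit 60837561397) (nat_lit 0) (nat_lit 23622160985) (nat_lit 4) (nat_lit 5) (nat_lit 6) (nat_lit 4) (nat_lit 4) (nat_lit 4) (nat_lit 441) (nat_lit 311) (nat_lit 268)) (XT.nd (nat_lit 78) (nat_lit 0) (nat_lit 0) (XT.lf (nat_lit 0) (nat_lit 33382830013) (nat_lit 152) (nat_lit 53514075176) (nat_lit 0) (nat_lit 29930815089) (nat_lit 4) (nat_lit 5) (nat_lit 6) (nat_lit 4) (nat_lit 4) (nat_lit 4) (nat_lit 442) (nat_lit 311) (nat_lit 267)) (XT.lf (nat_lit 0) (nat_lit 39983277787) (nat_lit 152) (nat_lit 45919808502) (nat_lit 0) (nat_lit 36509511057) (nat_lit 4) (nat_lit 5) (nat_lit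 6) (nat_lit 4) (nat_lit 4) (nat_lit 4) (nat_lit 443) (nat_lit 311) (nat_lit 266)))) (XT.nd (nat_lit 156) (nat_lit 0) (nat_lit 0) (XT.nd (nat_lit 78) (nat_lit 0) (nat_lit 0) (XT.lf (nat_lit 0) (nat_lit 46868395185) (nat_lit 152) (nat_lit 38036679788) (nat_lit 0) (nat_lit 43373912450) (nat_lit 4) (nat_lit 5) (nat_lit 6) (nat_lit 4) (nat_lit 4) (nat_lit 4) (nat_lit 444) (nat_lit 311) (nat_lit 265)) (XT.lf (nat_lit 0) (nat_lit 54054575344) (nat_lit 152) (nat_lit 29845919680) (nat_lit 0) (nat_lit 50540363081) (nat_lit 4) (nat_lit 5) (nat_lit 6) (nat_lit 4) (nat_lit 4) (nat_lit 4) (nat_lit 445) (nat_lit 311) (nat_lit 264))) (XT.nd (nat_lit 78) (nat_lit 0) (nat_lit 0) (XT.lf (nat_lit 0) (nat_lit 61558928218) (nat_lit 152) (nat_lit 21328026368) (nat_lit 0) (nat_lit 58025925927) (nat_lit 4) (nat_lit 5) (nat_lit 6) (nat_lit 4) (nat_lit 4) (nat_lit 4) (nat_lit 446) (nat_lit 311) (nat_lit 263)) (XT.lf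 (nat_lit 0) (nat_lit 69399321313) (nat_lit 152) (nat_lit 12462719153) (nat_lit 0) (nat_lit 65848423758) (nat_lit 4) (nat_lit 5) (nat_lit 6) (nat_lit 4) (nat_lit 4) (nat_lit 4) (nat_lit 447) (nat_lit 311) (nat_lit 262)))))) (XT.nd (nat_lit 546) (nat_lit 0) (nat_lit 0) (XT.nd (nat_lit 234) (nat_lit 0) (nat_lit 0) (XT.nd (nat_lit 78) (nat_lit 76) (nat_lit 0) (XT.lf (nat_lit 0) (nat_lit 77594422232) (nat_lit 152) (nat_lit 3228890162) (nat_lit 0) (nat_lit 74026481568) (nat_lit 4) (nat_lit 5) (nat_lit 6) (nat_lit 4) (nat_lit 4) (nat_lit 4) (nat_lit 448) (nat_lit 311) (nat_lit 261)) (XT.nd (nat_lit 78) (nat_lit 0) (nat_lit 0) (XT.lf (nat_lit 0) (nat_lit 6606908236) (nat_lit 76) (nat_lit 79659987236) (nat_lit 76) (nat_lit 76075815040) (nat_lit 3) (nat_lit 4) (nat_lit 4) (nat_lit 5) (nat_lit 4) (nat_lit 4) (nat_lit 449) (nat_lit 311) (nat_lit 260)) (XT.lf (nat_lit 0) (nat_lit 16976560100) (nat_lit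 76) (nat_lit 78416178700) (nat_lit 76) (nat_lit 74816547901) (nat_lit 3) (nat_lit 4) (nat_lit 4) (nat_lit 5) (nat_lit 4) (nat_lit 4) (nat_lit 450) (nat_lit 311) (nat_lit 259)))) (XT.nd (nat_lit 156) (nat_lit 0) (nat_lit 0) (XT.nd (nat_lit 78) (nat_lit 0) (nat_lit 0) (XT.lf (nat_lit 0) (nat_lit 27797993385) (nat_lit 76) (nat_lit 77143608154) (nat_lit 76) (nat_lit 73529254878) (nat_lit 3) (nat_lit 4) (nat_lit 4) (nat_lit 5) (nat_lit 4) (nat_lit 4) (nat_lit 451) (nat_lit 311) (nat_lit 258)) (XT.lf (nat_lit 0) (nat_lit 39096973408) (nat_lit 76) (nat_lit 75839245669) (nat_lit 76) (nat_lit 72210870985) (nat_lit 3) (nat_lit 4) (nat_lit 4) (nat_lit 5) (nat_lit 4) (nat_lit 4) (nat_lit 452) (nat_lit 311) (nat_lit 257))) (XT.nd (nat_lit 78) (nat_lit 0) (nat_lit 0) (XT.lf (nat_lit 0) (nat_lit 50900402503) (nat_lit 76) (nat_lit 74499985620) (nat_lit 76) (nat_lit 70858257214) (nat_lit 3) (nat_lit 4) (nat_lit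 4) (nat_lit 5) (nat_lit 4) (nat_lit 4) (nat_lit 453) (nat_lit 311) (nat_lit 256)) (XT.lf (nat_lit 0) (nat_lit 63236384072) (nat_lit 76) (nat_lit 73122639292) (nat_lit 76) (nat_lit 69468193057) (nat_lit 3) (nat_lit 4) (nat_lit 4) (nat_lit 5) (nat_lit 4) (nat_lit 4) (nat_lit 454) (nat_lit 311) (nat_lit 255))))) (XT.nd (nat_lit 234) (nat_lit 0) (nat_lit 0) (XT.nd (nat_lit 78) (nat_lit 0) (nat_lit 0) (XT.lf (nat_lit 0) (nat_lit 76134289500) (nat_lit 76) (nat_lit 71703927290) (nat_lit 76) (nat_lit 68037368835) (nat_lit 3) (nat_lit 4) (nat_lit 4) (nat_lit 5) (nat_lit 4) (nat_lit 4) (nat_lit 455) (nat_lit 311) (nat_lit 254)) (XT.nd (nat_lit 78) (nat_lit 0) (nat_lit 0) (XT.lf (nat_lit 0) (nat_lit 89624828086) (nat_lit 76) (nat_lit 70240471728) (nat_lit 76) (nat_lit 66562377826) (nat_lit 3) (nat_lit 4) (nat_lit 4) (nat_lit 5) (nat_lit 4) (nat_lit 4) (nat_lit 456) (nat_lit 311) (nat_lit 253)) (XT.lf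 (nat_lit 0) (nat_lit 103740120159) (nat_lit 76) (nat_lit 68728788187) (nat_lit 76) (nat_lit 65039708145) (nat_lit 3) (nat_lit 4) (nat_lit 4) (nat_lit 5) (nat_lit 4) (nat_lit 4) (nat_lit 457) (nat_lit 311) (nat_lit 252)))) (XT.nd (nat_lit 156) (nat_lit 0) (nat_lit 0) (XT.nd (nat_lit 78) (nat_lit 0) (nat_lit 0) (XT.lf (nat_lit 0) (nat_lit 118513773558) (nat_lit 76) (nat_lit 67165277421) (nat_lit 76) (nat_lit 63465734389) (nat_lit 3) (nat_lit 4) (nat_lit 4) (nat_lit 5) (nat_lit 4) (nat_lit 4) (nat_lit 458) (nat_lit 311) (nat_lit 251)) (XT.lf (nat_lit 0) (nat_lit 133980963649) (nat_lit 76) (nat_lit 65546216786) (nat_lit 76) (nat_lit 61836709001) (nat_lit 3) (nat_lit 4) (nat_lit 4) (nat_lit 5) (nat_lit 4) (nat_lit 4) (nat_lit 459) (nat_lit 311) (nat_lit 250))) (XT.nd (nat_lit 78) (nat_lit 0) (nat_lit 0) (XT.lf (nat_lit 0) (nat_lit 150178517073) (nat_lit 76) (nat_lit 63867751375) (nat_lit 76) (nat_lit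 60148753350) (nat_lit 3) (nat_lit 4) (nat_lit 4) (nat_lit 5) (nat_lit 4) (nat_lit 4) (nat_lit 460) (nat_lit 311) (nat_lit 249)) (XT.lf (nat_lit 0) (nat_lit 167144999435) (nat_lit 76) (nat_lit 62125884842) (nat_lit 76) (nat_lit 58397848492) (nat_lit 3) (nat_lit 4) (nat_lit 4) (nat_lit 5) (nat_lit 4) (nat_lit 4) (nat_lit 461) (nat_lit 311) (nat_lit 248))))))) (XT.nd (nat_lit 1014) (nat_lit 152) (nat_lit 0) (XT.nd (nat_lit 468) (nat_lit 0) (nat_lit 0) (XT.nd (nat_lit 234) (nat_lit 0) (nat_lit 0) (XT.nd (nat_lit 78) (nat_lit 0) (nat_lit 0) (XT.lf (nat_lit 0) (nat_lit 184920807122) (nat_lit 76) (nat_lit 60316469886) (nat_lit 76) (nat_lit 56579825608) (nat_lit 3) (nat_lit 4) (nat_lit 4) (nat_lit 5) (nat_lit 4) (nat_lit 4) (nat_lit 462) (nat_lit 311) (nat_lit 247)) (XT.nd (nat_lit 78) (nat_lit 0) (nat_lit 0) (XT.lf (nat_lit 0) (nat_lit 203548263484) (nat_lit 76) (nat_lit 58435198376) (nat_lit 76)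 (nat_lit 54690356071) (nat_lit 3) (nat_lit 4) (nat_lit 4) (nat_lit 5) (nat_lit 4) (nat_lit 4) (nat_lit 463) (nat_lit 311) (nat_lit 246)) (XT.lf (nat_lit 0) (nat_lit 223071719608) (nat_lit 76) (nat_lit 56477591093) (nat_lit 76) (nat_lit 52724941144) (nat_lit 3) (nat_lit 4) (nat_lit 4) (nat_lit 5) (nat_lit 4) (nat_lit 4) (nat_lit 464) (nat_lit 311) (nat_lit 245)))) (XT.nd (nat_lit 78) (nat_lit 0) (nat_lit 0) (XT.lf (nat_lit 0) (nat_lit 243537659914) (nat_lit 76) (nat_lit 54438987069) (nat_lit 76) (nat_lit 50678901268) (nat_lit 3) (nat_lit 4) (nat_lit 4) (nat_lit 5) (nat_lit 4) (nat_lit 4) (nat_lit 465) (nat_lit 311) (nat_lit 244)) (XT.nd (nat_lit 78) (nat_lit 0) (nat_lit 0) (XT.lf (nat_lit 0) (nat_lit 264994812831) (nat_lit 76) (nat_lit 52314532484) (nat_lit 76) (nat_lit 48547364919) (nat_lit 3) (nat_lit 4) (nat_lit 4) (nat_lit 5) (nat_lit 4) (nat_lit 4) (nat_lit 466) (nat_lit 311) (nat_lit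 243)) (XT.lf (nat_lit 0) (nat_lit 287494266818) (nat_lit 76) (nat_lit 50099169113) (nat_lit 76) (nat_lit 46325257011) (nat_lit 3) (nat_lit 4) (nat_lit 4) (nat_lit 5) (nat_lit 4) (nat_lit 4) (nat_lit 467) (nat_lit 311) (nat_lit 242))))) (XT.nd (nat_lit 234) (nat_lit 0) (nat_lit 0) (XT.nd (nat_lit 78) (nat_lit 0) (nat_lit 0) (XT.lf (nat_lit 0) (nat_lit 311089592005) (nat_lit 76) (nat_lit 47787622281) (nat_lit 76) (nat_lit 44007286811) (nat_lit 3) (nat_lit 4) (nat_lit 4) (nat_lit 5) (nat_lit 4) (nat_lit 4) (nat_lit 468) (nat_lit 311) (nat_lit 241)) (XT.nd (nat_lit 78) (nat_lit 0) (nat_lit 0) (XT.lf (nat_lit 0) (nat_lit 335836967735) (nat_lit 76) (nat_lit 45374388306) (nat_lit 76) (nat_lit 41587935342) (nat_lit 3) (nat_lit 4) (nat_lit 4) (nat_lit 5) (nat_lit 4) (nat_lit 4) (nat_lit 469) (nat_lit 311) (nat_lit 240)) (XT.lf (nat_lit 0) (nat_lit 361795316334) (nat_lit 76) (nat_lit 42853721392) (nat_lit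 76) (nat_lit 39061442243) (nat_lit 3) (nat_lit 4) (nat_lit 4) (nat_lit 5) (nat_lit 4) (nat_lit 4) (nat_lit 470) (nat_lit 311) (nat_lit 239)))) (XT.nd (nat_lit 156) (nat_lit 0) (nat_lit 0) (XT.nd (nat_lit 78) (nat_lit 0) (nat_lit 0) (XT.lf (nat_lit 0) (nat_lit 389026443392) (nat_lit 76) (nat_lit 40219619951) (nat_lit 76) (nat_lit 36421792055) (nat_lit 3) (nat_lit 4) (nat_lit 4) (nat_lit 5) (nat_lit 4) (nat_lit 4) (nat_lit 471) (nat_lit 311) (nat_lit 238)) (XT.lf (nat_lit 0) (nat_lit 417595184926) (nat_lit 76) (nat_lit 37465812313) (nat_lit 76) (nat_lit 33662699896) (nat_lit 3) (nat_lit 4) (nat_lit 4) (nat_lit 5) (nat_lit 4) (nat_lit 4) (nat_lit 472) (nat_lit 311) (nat_lit 237))) (XT.nd (nat_lit 78) (nat_lit 0) (nat_lit 0) (XT.lf (nat_lit 0) (nat_lit 447569561750) (nat_lit 76) (nat_lit 34585741793) (nat_lit 76) (nat_lit 30777596499) (nat_lit 3) (nat_lit 4) (nat_lit 4) (nat_lit 5) (nat_lit 4)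 (nat_lit 4) (nat_lit 473) (nat_lit 311) (nat_lit 236)) (XT.lf (nat_lit 0) (nat_lit 479020941428) (nat_lit 76) (nat_lit 31572551081) (nat_lit 76) (nat_lit 27759612571) (nat_lit 3) (nat_lit 4) (nat_lit 4) (nat_lit 5) (nat_lit 4) (nat_lit 4) (nat_lit 474) (nat_lit 311) (nat_lit 235)))))) (XT.nd (nat_lit 546) (nat_lit 152) (nat_lit 0) (XT.nd (nat_lit 234) (nat_lit 0) (nat_lit 0) (XT.nd (nat_lit 78) (nat_lit 0) (nat_lit 0) (XT.lf (nat_lit 0) (nat_lit 512024208196) (nat_lit 76) (nat_lit 28419065913) (nat_lit 76) (nat_lit 24601562435) (nat_lit 3) (nat_lit 4) (nat_lit 4) (nat_lit 5) (nat_lit 4) (nat_lit 4) (nat_lit 475) (nat_lit 311) (nat_lit 234)) (XT.nd (nat_lit 78) (nat_lit 0) (nat_lit 0) (XT.lf (nat_lit 0) (nat_lit 546657941262) (nat_lit 76) (nat_lit 25117777991) (nat_lit 76) (nat_lit 21295926924) (nat_lit 3) (nat_lit 4) (nat_lit 4) (nat_lit 5) (nat_lit 4) (nat_lit 4) (nat_lit 476) (nat_lit 311)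 (nat_lit 233)) (XT.lf (nat_lit 0) (nat_lit 583004601894) (nat_lit 76) (nat_lit 21660827106) (nat_lit 76) (nat_lit 17834835478) (nat_lit 3) (nat_lit 4) (nat_lit 4) (nat_lit 5) (nat_lit 4) (nat_lit 4) (nat_lit 477) (nat_lit 311) (nat_lit 232)))) (XT.nd (nat_lit 156) (nat_lit 0) (nat_lit 0) (XT.nd (nat_lit 78) (nat_lit 0) (nat_lit 0) (XT.lf (nat_lit 0) (nat_lit 621150729761) (nat_lit 76) (nat_lit 18039982422) (nat_lit 76) (nat_lit 14210047403) (nat_lit 3) (nat_lit 4) (nat_lit 4) (nat_lit 5) (nat_lit 4) (nat_lit 4) (nat_lit 478) (nat_lit 311) (nat_lit 231)) (XT.lf (nat_lit 0) (nat_lit 661187148977) (nat_lit 76) (nat_lit 14246622880) (nat_lit 76) (nat_lit 10412932250) (nat_lit 3) (nat_lit 4) (nat_lit 4) (nat_lit 5) (nat_lit 4) (nat_lit 4) (nat_lit 479) (nat_lit 311) (nat_lit 230))) (XT.nd (nat_lit 78) (nat_lit 0) (nat_lit 0) (XT.lf (nat_lit 0) (nat_lit 703209184349) (nat_lit 76) (nat_lit 10271716672)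 (nat_lit 76) (nat_lit 6434449270) (nat_lit 3) (nat_lit 4) (nat_lit 4) (nat_lit 5) (nat_lit 4) (nat_lit 4) (nat_lit 480) (nat_lit 311) (nat_lit 229)) (XT.lf (nat_lit 0) (nat_lit 747316888343) (nat_lit 76) (nat_lit 6105799735) (nat_lit 76) (nat_lit 2265125885) (nat_lit 3) (nat_lit 4) (nat_lit 4) (nat_lit 5) (nat_lit 4) (nat_lit 4) (nat_lit 481) (nat_lit 311) (nat_lit 228))))) (XT.nd (nat_lit 234) (nat_lit 0) (nat_lit 0) (XT.nd (nat_lit 78) (nat_lit 0) (nat_lit 0) (XT.lf (nat_lit 0) (nat_lit 344162597) (nat_lit 76) (nat_lit 1698803590) (nat_lit 152) (nat_lit 791204389579) (nat_lit 1) (nat_lit 5) (nat_lit 2) (nat_lit 5) (nat_lit 3) (nat_lit 4) (nat_lit 482) (nat_lit 311) (nat_lit 227)) (XT.nd (nat_lit 78) (nat_lit 0) (nat_lit 0) (XT.lf (nat_lit 0) (nat_lit 6672709982) (nat_lit 152) (nat_lit 822992296731) (nat_lit 0) (nat_lit 3008892993) (nat_lit 1) (nat_lit 5) (nat_lit 3) (nat_lit 4) (nat_lit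 1) (nat_lit 4) (nat_lit 483) (nat_lit 311) (nat_lit 226)) (XT.lf (nat_lit 0) (nat_lit 11554702342) (nat_lit 152) (nat_lit 854627947779) (nat_lit 0) (nat_lit 7888082858) (nat_lit 1) (nat_lit 5) (nat_lit 3) (nat_lit 4) (nat_lit 1) (nat_lit 4) (nat_lit 484) (nat_lit 311) (nat_lit 225)))) (XT.nd (nat_lit 46254) (nat_lit 0) (nat_lit 1748) (XT.nd (nat_lit 46176) (nat_lit 0) (nat_lit 1976) (XT.lf (nat_lit 0) (nat_lit 16674043973) (nat_lit 152) (nat_lit 887858946208) (nat_lit 0) (nat_lit 13004755447) (nat_lit 1) (nat_lit 5) (nat_lit 3) (nat_lit 4) (nat_lit 1) (nat_lit 4) (nat_lit 485) (nat_lit 311) (nat_lit 224)) (XT.lf (nat_lit 0) (nat_lit 8280451423) (nat_lit 76) (nat_lit 353430179) (nat_lit 76) (nat_lit 353430179) (nat_lit 27) (nat_lit 4) (nat_lit 28) (nat_lit 5) (nat_lit 28) (nat_lit 4) (nat_lit 396) (nat_lit 312) (nat_lit 312))) (XT.nd (nat_lit 78) (nat_lit 76) (nat_lit 0) (XT.lf (nat_lit 0)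 (nat_lit 5669174231) (nat_lit 152) (nat_lit 7476161191) (nat_lit 0) (nat_lit 5394170325) (nat_lit 25) (nat_lit 5) (nat_lit 27) (nat_lit 4) (nat_lit 25) (nat_lit 4) (nat_lit 397) (nat_lit 312) (nat_lit 311)) (XT.lf (nat_lit 0) (nat_lit 4805669655) (nat_lit 76) (nat_lit 7434167738) (nat_lit 76) (nat_lit 6897255350) (nat_lit 24) (nat_lit 4) (nat_lit 25) (nat_lit 5) (nat_lit 25) (nat_lit 4) (nat_lit 398) (nat_lit 312) (nat_lit 310))))))))
noncomputable def xc37 : XT := (XT.nd (nat_lit 2106) (nat_lit 304) (nat_lit 0) (XT.nd (nat_lit 1014) (nat_lit 532) (nat_lit 0) (XT.nd (nat_lit 468) (nat_lit 380) (nat_lit 0) (XT.nd (nat_lit 234) (nat_lit 152) (nat_lit 0) (XT.nd (nat_lit 78) (nat_lit 228) (nat_lit 0) (XT.lf (nat_lit 0) (nat_lit 17561220763) (nat_lit 76) (nat_lit 1496876240) (nat_lit 76) (nat_lit 710527202) (nat_lit 24) (nat_lit 4) (nat_lit 25) (nat_lit 5) (nat_lit 25) (nat_lit 4) (nat_lit 399)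 (nat_lit 312) (nat_lit 309)) (XT.nd (nat_lit 78) (nat_lit 76) (nat_lit 0) (XT.lf (nat_lit 0) (nat_lit 5636641527) (nat_lit 152) (nat_lit 10127285711) (nat_lit 0) (nat_lit 4661491286) (nat_lit 22) (nat_lit 5) (nat_lit 24) (nat_lit 4) (nat_lit 22) (nat_lit 4) (nat_lit 400) (nat_lit 312) (nat_lit 308)) (XT.lf (nat_lit 0) (nat_lit 2032345917) (nat_lit 76) (nat_lit 10139029391) (nat_lit 76) (nat_lit 8948406394) (nat_lit 21) (nat_lit 4) (nat_lit 22) (nat_lit 5) (nat_lit 22) (nat_lit 4) (nat_lit 401) (nat_lit 312) (nat_lit 307)))) (XT.nd (nat_lit 78) (nat_lit 152) (nat_lit 0) (XT.lf (nat_lit 0) (nat_lit 14769517915) (nat_lit 76) (nat_lit 4238225221) (nat_lit 76) (nat_lit 2842390074) (nat_lit 21) (nat_lit 4) (nat_lit 22) (nat_lit 5) (nat_lit 22) (nat_lit 4) (nat_lit 402) (nat_lit 312) (nat_lit 306)) (XT.nd (nat_lit 78) (nat_lit 0) (nat_lit 0) (XT.lf (nat_lit 0) (nat_lit 3376652462) (nat_lit 152)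 (nat_lit 17380327570) (nat_lit 0) (nat_lit 1861152188) (nat_lit 19) (nat_lit 5) (nat_lit 21) (nat_lit 4) (nat_lit 19) (nat_lit 4) (nat_lit 403) (nat_lit 312) (nat_lit 305)) (XT.lf (nat_lit 0) (nat_lit 9812759220) (nat_lit 152) (nat_lit 5489384396) (nat_lit 0) (nat_lit 8119988976) (nat_lit 19) (nat_lit 5) (nat_lit 21) (nat_lit 4) (nat_lit 19) (nat_lit 4) (nat_lit 404) (nat_lit 312) (nat_lit 304))))) (XT.nd (nat_lit 234) (nat_lit 152) (nat_lit 0) (XT.nd (nat_lit 78) (nat_lit 152) (nat_lit 0) (XT.lf (nat_lit 0) (nat_lit 6862633041) (nat_lit 76) (nat_lit 9634494155) (nat_lit 76) (nat_lit 7772895368) (nat_lit 18) (nat_lit 4) (nat_lit 19) (nat_lit 5) (nat_lit 19) (nat_lit 4) (nat_lit 405) (nat_lit 312) (nat_lit 303)) (XT.nd (nat_lit 78) (nat_lit 152) (nat_lit 0) (XT.lf (nat_lit 0) (nat_lit 19675405856) (nat_lit 76) (nat_lit 3755764011) (nat_lit 76) (nat_lit 1733376135) (nat_lit 18) (nat_lit 4)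 (nat_lit 19) (nat_lit 5) (nat_lit 19) (nat_lit 4) (nat_lit 406) (nat_lit 312) (nat_lit 302)) (XT.lf (nat_lit 0) (nat_lit 4433601280) (nat_lit 152) (nat_lit 19306282050) (nat_lit 0) (nat_lit 2361677146) (nat_lit 16) (nat_lit 5) (nat_lit 18) (nat_lit 4) (nat_lit 16) (nat_lit 4) (nat_lit 407) (nat_lit 312) (nat_lit 301)))) (XT.nd (nat_lit 156) (nat_lit 76) (nat_lit 0) (XT.nd (nat_lit 78) (nat_lit 76) (nat_lit 0) (XT.lf (nat_lit 0) (nat_lit 10835369765) (nat_lit 152) (nat_lit 7624860569) (nat_lit 0) (nat_lit 8624549971) (nat_lit 16) (nat_lit 5) (nat_lit 18) (nat_lit 4) (nat_lit 16) (nat_lit 4) (nat_lit 408) (nat_lit 312) (nat_lit 300)) (XT.lf (nat_lit 0) (nat_lit 4462447136) (nat_lit 76) (nat_lit 13001250750) (nat_lit 76) (nat_lit 10658149374) (nat_lit 15) (nat_lit 4) (nat_lit 16) (nat_lit 5) (nat_lit 16) (nat_lit 4) (nat_lit 409) (nat_lit 312) (nat_lit 299))) (XT.nd (nat_lit 78) (nat_lit 76)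 (nat_lit 0) (XT.lf (nat_lit 0) (nat_lit 17103004741) (nat_lit 76) (nat_lit 7289208669) (nat_lit 76) (nat_lit 4820124835) (nat_lit 15) (nat_lit 4) (nat_lit 16) (nat_lit 5) (nat_lit 16) (nat_lit 4) (nat_lit 410) (nat_lit 312) (nat_lit 298)) (XT.lf (nat_lit 0) (nat_lit 1112643414) (nat_lit 152) (nat_lit 308148126) (nat_lit 76) (nat_lit 28943309916) (nat_lit 14) (nat_lit 5) (nat_lit 16) (nat_lit 5) (nat_lit 15) (nat_lit 4) (nat_lit 411) (nat_lit 312) (nat_lit 297)))))) (XT.nd (nat_lit 546) (nat_lit 228) (nat_lit 0) (XT.nd (nat_lit 234) (nat_lit 152) (nat_lit 0) (XT.nd (nat_lit 78) (nat_lit 76) (nat_lit 0) (XT.lf (nat_lit 0) (nat_lit 7297306019) (nat_lit 152) (nat_lit 19543642258) (nat_lit 0) (nat_lit 4722699419) (nat_lit 13) (nat_lit 5) (nat_lit 15) (nat_lit 4) (nat_lit 13) (nat_lit 4) (nat_lit 412) (nat_lit 312) (nat_lit 296)) (XT.nd (nat_lit 78) (nat_lit 76) (nat_lit 0) (XT.lf (nat_lit 0) (nat_lit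 13672311104) (nat_lit 152) (nat_lit 8162753846) (nat_lit 0) (nat_lit 10994058424) (nat_lit 13) (nat_lit 5) (nat_lit 15) (nat_lit 4) (nat_lit 13) (nat_lit 4) (nat_lit 413) (nat_lit 312) (nat_lit 295)) (XT.lf (nat_lit 0) (nat_lit 3625374365) (nat_lit 76) (nat_lit 16656830997) (nat_lit 76) (nat_lit 13879867765) (nat_lit 12) (nat_lit 4) (nat_lit 13) (nat_lit 5) (nat_lit 13) (nat_lit 4) (nat_lit 414) (nat_lit 312) (nat_lit 294)))) (XT.nd (nat_lit 156) (nat_lit 152) (nat_lit 0) (XT.nd (nat_lit 78) (nat_lit 0) (nat_lit 0) (XT.lf (nat_lit 0) (nat_lit 16012943406) (nat_lit 76) (nat_lit 11209848624) (nat_lit 76) (nat_lit 8338875341) (nat_lit 12) (nat_lit 4) (nat_lit 13) (nat_lit 5) (nat_lit 13) (nat_lit 4) (nat_lit 415) (nat_lit 312) (nat_lit 293)) (XT.lf (nat_lit 0) (nat_lit 28759549982) (nat_lit 76) (nat_lit 5619389012) (nat_lit 76) (nat_lit 2658882348) (nat_lit 12) (nat_lit 4) (nat_lit 13) (nat_lit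 5) (nat_lit 13) (nat_lit 4) (nat_lit 416) (nat_lit 312) (nat_lit 292))) (XT.nd (nat_lit 78) (nat_lit 0) (nat_lit 0) (XT.lf (nat_lit 0) (nat_lit 3128177939) (nat_lit 152) (nat_lit 35233149962) (nat_lit 0) (nat_lit 227438368) (nat_lit 10) (nat_lit 5) (nat_lit 12) (nat_lit 4) (nat_lit 10) (nat_lit 4) (nat_lit 417) (nat_lit 312) (nat_lit 291)) (XT.lf (nat_lit 0) (nat_lit 9222850488) (nat_lit 152) (nat_lit 24742084840) (nat_lit 0) (nat_lit 6244768616) (nat_lit 10) (nat_lit 5) (nat_lit 12) (nat_lit 4) (nat_lit 10) (nat_lit 4) (nat_lit 418) (nat_lit 312) (nat_lit 290))))) (XT.nd (nat_lit 234) (nat_lit 152) (nat_lit 0) (XT.nd (nat_lit 78) (nat_lit 76) (nat_lit 0) (XT.lf (nat_lit 0) (nat_lit 15501303486) (nat_lit 152) (nat_lit 13966875794) (nat_lit 0) (nat_lit 12449562280) (nat_lit 10) (nat_lit 5) (nat_lit 12) (nat_lit 4) (nat_lit 10) (nat_lit 4) (nat_lit 419) (nat_lit 312) (nat_lit 289)) (XT.nd (nat_lit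 78) (nat_lit 76) (nat_lit 0) (XT.lf (nat_lit 0) (nat_lit 21978485630) (nat_lit 152) (nat_lit 2881867566) (nat_lit 0) (nat_lit 18856592677) (nat_lit 10) (nat_lit 5) (nat_lit 12) (nat_lit 4) (nat_lit 10) (nat_lit 4) (nat_lit 420) (nat_lit 312) (nat_lit 288)) (XT.lf (nat_lit 0) (nat_lit 8821681624) (nat_lit 76) (nat_lit 19985868330) (nat_lit 76) (nat_lit 16797164190) (nat_lit 9) (nat_lit 4) (nat_lit 10) (nat_lit 5) (nat_lit 10) (nat_lit 4) (nat_lit 421) (nat_lit 312) (nat_lit 287)))) (XT.nd (nat_lit 156) (nat_lit 152) (nat_lit 0) (XT.nd (nat_lit 78) (nat_lit 0) (nat_lit 0) (XT.lf (nat_lit 0) (nat_lit 20995918928) (nat_lit 76) (nat_lit 14923120896) (nat_lit 76) (nat_lit 11670787053) (nat_lit 9) (nat_lit 4) (nat_lit 10) (nat_lit 5) (nat_lit 10) (nat_lit 4) (nat_lit 422) (nat_lit 312) (nat_lit 286)) (XT.lf (nat_lit 0) (nat_lit 33574543066) (nat_lit 76) (nat_lit 9708862554) (nat_lit 76) (nat_lit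 6395928995) (nat_lit 9) (nat_lit 4) (nat_lit 10) (nat_lit 5) (nat_lit 10) (nat_lit 4) (nat_lit 423) (nat_lit 312) (nat_lit 285))) (XT.nd (nat_lit 78) (nat_lit 152) (nat_lit 0) (XT.lf (nat_lit 0) (nat_lit 46587503144) (nat_lit 76) (nat_lit 4330678405) (nat_lit 76) (nat_lit 960030830) (nat_lit 9) (nat_lit 4) (nat_lit 10) (nat_lit 5) (nat_lit 10) (nat_lit 4) (nat_lit 424) (nat_lit 312) (nat_lit 284)) (XT.lf (nat_lit 0) (nat_lit 4616436087) (nat_lit 152) (nat_lit 48211911902) (nat_lit 0) (nat_lit 1353947226) (nat_lit 7) (nat_lit 5) (nat_lit 9) (nat_lit 4) (nat_lit 7) (nat_lit 4) (nat_lit 425) (nat_lit 312) (nat_lit 283))))))) (XT.nd (nat_lit 1014) (nat_lit 76) (nat_lit 0) (XT.nd (nat_lit 468) (nat_lit 152) (nat_lit 0) (XT.nd (nat_lit 234) (nat_lit 76) (nat_lit 0) (XT.nd (nat_lit 78) (nat_lit 0) (nat_lit 0) (XT.lf (nat_lit 0) (nat_lit 10507017483) (nat_lit 152) (nat_lit 38895730646) (nat_lit 0)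 (nat_lit 7194673086) (nat_lit 7) (nat_lit 5) (nat_lit 9) (nat_lit 4) (nat_lit 7) (nat_lit 4) (nat_lit 426) (nat_lit 312) (nat_lit 282)) (XT.nd (nat_lit 78) (nat_lit 0) (nat_lit 0) (XT.lf (nat_lit 0) (nat_lit 16602118569) (nat_lit 152) (nat_lit 29293396187) (nat_lit 0) (nat_lit 13242292708) (nat_lit 7) (nat_lit 5) (nat_lit 9) (nat_lit 4) (nat_lit 7) (nat_lit 4) (nat_lit 427) (nat_lit 312) (nat_lit 281)) (XT.lf (nat_lit 0) (nat_lit 22916251489) (nat_lit 152) (nat_lit 19382045824) (nat_lit 0) (nat_lit 19511205187) (nat_lit 7) (nat_lit 5) (nat_lit 9) (nat_lit 4) (nat_lit 7) (nat_lit 4) (nat_lit 428) (nat_lit 312) (nat_lit 280)))) (XT.nd (nat_lit 78) (nat_lit 76) (nat_lit 0) (XT.lf (nat_lit 0) (nat_lit 29464449894) (nat_lit 152) (nat_lit 9138081105) (nat_lit 0) (nat_lit 26016336505) (nat_lit 7) (nat_lit 5) (nat_lit 9) (nat_lit 4) (nat_lit 7) (nat_lit 4) (nat_lit 429) (nat_lit 312) (nat_lit 279))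 (XT.nd (nat_lit 78) (nat_lit 0) (nat_lit 0) (XT.lf (nat_lit 0) (nat_lit 1511258059) (nat_lit 76) (nat_lit 34774641645) (nat_lit 76) (nat_lit 31285511983) (nat_lit 6) (nat_lit 4) (nat_lit 7) (nat_lit 5) (nat_lit 7) (nat_lit 4) (nat_lit 430) (nat_lit 312) (nat_lit 278)) (XT.lf (nat_lit 0) (nat_lit 12857627358) (nat_lit 76) (nat_lit 30669117609) (nat_lit 76) (nat_lit 27140924829) (nat_lit 6) (nat_lit 4) (nat_lit 7) (nat_lit 5) (nat_lit 7) (nat_lit 4) (nat_lit 431) (nat_lit 312) (nat_lit 277))))) (XT.nd (nat_lit 234) (nat_lit 152) (nat_lit 0) (XT.nd (nat_lit 78) (nat_lit 0) (nat_lit 0) (XT.lf (nat_lit 0) (nat_lit 24625895726) (nat_lit 76) (nat_lit 26430941658) (nat_lit 76) (nat_lit 22865545908) (nat_lit 6) (nat_lit 4) (nat_lit 7) (nat_lit 5) (nat_lit 7) (nat_lit 4) (nat_lit 432) (nat_lit 312) (nat_lit 276)) (XT.nd (nat_lit 78) (nat_lit 0) (nat_lit 0) (XT.lf (nat_lit 0) (nat_lit 36844082849) (nat_lit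 76) (nat_lit 22050022896) (nat_lit 76) (nat_lit 18449195748) (nat_lit 6) (nat_lit 4) (nat_lit 7) (nat_lit 5) (nat_lit 7) (nat_lit 4) (nat_lit 433) (nat_lit 312) (nat_lit 275)) (XT.lf (nat_lit 0) (nat_lit 49541279649) (nat_lit 76) (nat_lit 17515930566) (nat_lit 76) (nat_lit 13881359228) (nat_lit 6) (nat_lit 4) (nat_lit 7) (nat_lit 5) (nat_lit 7) (nat_lit 4) (nat_lit 434) (nat_lit 312) (nat_lit 274)))) (XT.nd (nat_lit 156) (nat_lit 152) (nat_lit 0) (XT.nd (nat_lit 78) (nat_lit 0) (nat_lit 0) (XT.lf (nat_lit 0) (nat_lit 62747717547) (nat_lit 76) (nat_lit 12817869209) (nat_lit 76) (nat_lit 9151160548) (nat_lit 6) (nat_lit 4) (nat_lit 7) (nat_lit 5) (nat_lit 7) (nat_lit 4) (nat_lit 435) (nat_lit 312) (nat_lit 273)) (XT.lf (nat_lit 0) (nat_lit 76494840443) (nat_lit 76) (nat_lit 7944652965) (nat_lit 76) (nat_lit 4247337328) (nat_lit 6) (nat_lit 4) (nat_lit 7) (nat_lit 5) (nat_lit 7) (nat_lit 4)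 (nat_lit 436) (nat_lit 312) (nat_lit 272))) (XT.nd (nat_lit 78) (nat_lit 76) (nat_lit 0) (XT.lf (nat_lit 0) (nat_lit 814843782) (nat_lit 152) (nat_lit 2056035381) (nat_lit 76) (nat_lit 89986736025) (nat_lit 5) (nat_lit 5) (nat_lit 7) (nat_lit 5) (nat_lit 6) (nat_lit 4) (nat_lit 437) (nat_lit 312) (nat_lit 271)) (XT.lf (nat_lit 0) (nat_lit 6108632675) (nat_lit 152) (nat_lit 88585586040) (nat_lit 0) (nat_lit 2533178804) (nat_lit 4) (nat_lit 5) (nat_lit 6) (nat_lit 4) (nat_lit 4) (nat_lit 4) (nat_lit 438) (nat_lit 312) (nat_lit 270)))))) (XT.nd (nat_lit 546) (nat_lit 76) (nat_lit 0) (XT.nd (nat_lit 234) (nat_lit 0) (nat_lit 0) (XT.nd (nat_lit 78) (nat_lit 0) (nat_lit 0) (XT.lf (nat_lit 0) (nat_lit 11694438810) (nat_lit 152) (nat_lit 82026061108) (nat_lit 0) (nat_lit 8093804506) (nat_lit 4) (nat_lit 5) (nat_lit 6) (nat_lit 4) (nat_lit 4) (nat_lit 4) (nat_lit 439) (nat_lit 312) (nat_lit 269))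 (XT.nd (nat_lit 78) (nat_lit 0) (nat_lit 0) (XT.lf (nat_lit 0) (nat_lit 17507033759) (nat_lit 152) (nat_lit 75243731658) (nat_lit 0) (nat_lit 13882418089) (nat_lit 4) (nat_lit 5) (nat_lit 6) (nat_lit 4) (nat_lit 4) (nat_lit 4) (nat_lit 440) (nat_lit 312) (nat_lit 268)) (XT.lf (nat_lit 0) (nat_lit 23560257034) (nat_lit 152) (nat_lit 68222449287) (nat_lit 0) (nat_lit 19912801968) (nat_lit 4) (nat_lit 5) (nat_lit 6) (nat_lit 4) (nat_lit 4) (nat_lit 4) (nat_lit 441) (nat_lit 312) (nat_lit 267)))) (XT.nd (nat_lit 156) (nat_lit 0) (nat_lit 0) (XT.nd (nat_lit 78) (nat_lit 0) (nat_lit 0) (XT.lf (nat_lit 0) (nat_lit 29868521069) (nat_lit 152) (nat_lit 60945496655) (nat_lit 0) (nat_lit 26199314198) (nat_lit 4) (nat_lit 5) (nat_lit 6) (nat_lit 4) (nat_lit 4) (nat_lit 4) (nat_lit 442) (nat_lit 312) (nat_lit 266)) (XT.lf (nat_lit 0) (nat_lit 36446845543) (nat_lit 152) (nat_lit 53395547686) (nat_lit 0)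 (nat_lit 32756922667) (nat_lit 4) (nat_lit 5) (nat_lit 6) (nat_lit 4) (nat_lit 4) (nat_lit 4) (nat_lit 443) (nat_lit 312) (nat_lit 265))) (XT.nd (nat_lit 78) (nat_lit 0) (nat_lit 0) (XT.lf (nat_lit 0) (nat_lit 43310893132) (nat_lit 152) (nat_lit 45554626309) (nat_lit 0) (nat_lit 39601240727) (nat_lit 4) (nat_lit 5) (nat_lit 6) (nat_lit 4) (nat_lit 4) (nat_lit 4) (nat_lit 444) (nat_lit 312) (nat_lit 264)) (XT.lf (nat_lit 0) (nat_lit 50477006807) (nat_lit 152) (nat_lit 37404063665) (nat_lit 0) (nat_lit 46748564374) (nat_lit 4) (nat_lit 5) (nat_lit 6) (nat_lit 4) (nat_lit 4) (nat_lit 4) (nat_lit 445) (nat_lit 312) (nat_lit 263))))) (XT.nd (nat_lit 234) (nat_lit 76) (nat_lit 0) (XT.nd (nat_lit 78) (nat_lit 0) (nat_lit 0) (XT.lf (nat_lit 0) (nat_lit 57962248743) (nat_lit 152) (nat_lit 28924453652) (nat_lit 0) (nat_lit 54215911046) (nat_lit 4) (nat_lit 5) (nat_lit 6) (nat_lit 4) (nat_lit 4) (nat_lit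 4) (nat_lit 446) (nat_lit 312) (nat_lit 262)) (XT.nd (nat_lit 78) (nat_lit 0) (nat_lit 0) (XT.lf (nat_lit 0) (nat_lit 65784440945) (nat_lit 152) (nat_lit 20095606723) (nat_lit 0) (nat_lit 62021060139) (nat_lit 4) (nat_lit 5) (nat_lit 6) (nat_lit 4) (nat_lit 4) (nat_lit 4) (nat_lit 447) (nat_lit 312) (nat_lit 261)) (XT.lf (nat_lit 0) (nat_lit 73962207679) (nat_lit 152) (nat_lit 10896501812) (nat_lit 0) (nat_lit 70182595341) (nat_lit 4) (nat_lit 5) (nat_lit 6) (nat_lit 4) (nat_lit 4) (nat_lit 4) (nat_lit 448) (nat_lit 312) (nat_lit 260)))) (XT.nd (nat_lit 156) (nat_lit 0) (nat_lit 0) (XT.nd (nat_lit 78) (nat_lit 76) (nat_lit 0) (XT.lf (nat_lit 0) (nat_lit 82515019820) (nat_lit 152) (nat_lit 1305236291) (nat_lit 0) (nat_lit 78719948880) (nat_lit 4) (nat_lit 5) (nat_lit 6) (nat_lit 4) (nat_lit 4) (nat_lit 4) (nat_lit 449) (nat_lit 312) (nat_lit 259)) (XT.lf (nat_lit 0) (nat_lit 8988721409) (nat_lit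 76) (nat_lit 82614858928) (nat_lit 76) (nat_lit 78805065510) (nat_lit 3) (nat_lit 4) (nat_lit 4) (nat_lit 5) (nat_lit 4) (nat_lit 4) (nat_lit 450) (nat_lit 312) (nat_lit 258))) (XT.nd (nat_lit 78) (nat_lit 0) (nat_lit 0) (XT.lf (nat_lit 0) (nat_lit 19779166925) (nat_lit 76) (nat_lit 81357818426) (nat_lit 76) (nat_lit 77534003600) (nat_lit 3) (nat_lit 4) (nat_lit 4) (nat_lit 5) (nat_lit 4) (nat_lit 4) (nat_lit 451) (nat_lit 312) (nat_lit 257)) (XT.lf (nat_lit 0) (nat_lit 31048634787) (nat_lit 76) (nat_lit 80068246458) (nat_lit 76) (nat_lit 76231077910) (nat_lit 3) (nat_lit 4) (nat_lit 4) (nat_lit 5) (nat_lit 4) (nat_lit 4) (nat_lit 452) (nat_lit 312) (nat_lit 256))))))))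
noncomputable def xc38 : XT := (XT.nd (nat_lit 2106) (nat_lit 152) (nat_lit 0) (XT.nd (nat_lit 1014) (nat_lit 0) (nat_lit 0) (XT.nd (nat_lit 468) (nat_lit 0) (nat_lit 0) (XT.nd (nat_lit 234) (nat_lit 0) (nat_lit 0) (XT.nd (nat_lit 78) (nat_lit 0) (nat_lit 0) (XT.lf (nat_lit 0) (nat_lit 42823957062) (nat_lit 76) (nat_lit 78743072616) (nat_lit 76) (nat_lit 74893186238) (nat_lit 3) (nat_lit 4) (nat_lit 4) (nat_lit 5) (nat_lit 4) (nat_lit 4) (nat_lit 453) (nat_lit 312) (nat_lit 255)) (XT.nd (nat_lit 78) (nat_lit 0) (nat_lit 0) (XT.lf (nat_lit 0) (nat_lit 55133170232) (nat_lit 76) (nat_lit 77379141723) (nat_lit 76) (nat_lit 73517143126) (nat_lit 3) (nat_lit 4) (nat_lit 4) (nat_lit 5) (nat_lit 4) (nat_lit 4) (nat_lit 454) (nat_lit 312) (nat_lit 254)) (XT.lf (nat_lit 0) (nat_lit 68005581946) (nat_lit 76) (nat_lit 75973206326) (nat_lit 76) (nat_lit 72099672282) (nat_lit 3) (nat_lit 4) (nat_lit 4)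 (nat_lit 5) (nat_lit 4) (nat_lit 4) (nat_lit 455) (nat_lit 312) (nat_lit 253)))) (XT.nd (nat_lit 78) (nat_lit 0) (nat_lit 0) (XT.lf (nat_lit 0) (nat_lit 81471840804) (nat_lit 76) (nat_lit 74521918958) (nat_lit 76) (nat_lit 70637398774) (nat_lit 3) (nat_lit 4) (nat_lit 4) (nat_lit 5) (nat_lit 4) (nat_lit 4) (nat_lit 456) (nat_lit 312) (nat_lit 252)) (XT.nd (nat_lit 78) (nat_lit 0) (nat_lit 0) (XT.lf (nat_lit 0) (nat_lit 95564009327) (nat_lit 76) (nat_lit 73021824175) (nat_lit 76) (nat_lit 69126841000) (nat_lit 3) (nat_lit 4) (nat_lit 4) (nat_lit 5) (nat_lit 4) (nat_lit 4) (nat_lit 457) (nat_lit 312) (nat_lit 251)) (XT.lf (nat_lit 0) (nat_lit 110315640298) (nat_lit 76) (nat_lit 71469350321) (nat_lit 76) (nat_lit 67564402394) (nat_lit 3) (nat_lit 4) (nat_lit 4) (nat_lit 5) (nat_lit 4) (nat_lit 4) (nat_lit 458) (nat_lit 312) (nat_lit 250))))) (XT.nd (nat_lit 234) (nat_lit 0) (nat_lit 0) (XT.nd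 (nat_lit 78) (nat_lit 0) (nat_lit 0) (XT.lf (nat_lit 0) (nat_lit 125761856646) (nat_lit 76) (nat_lit 69860801030) (nat_lit 76) (nat_lit 65946362862) (nat_lit 3) (nat_lit 4) (nat_lit 4) (nat_lit 5) (nat_lit 4) (nat_lit 4) (nat_lit 459) (nat_lit 312) (nat_lit 249)) (XT.nd (nat_lit 78) (nat_lit 0) (nat_lit 0) (XT.lf (nat_lit 0) (nat_lit 141939435079) (nat_lit 76) (nat_lit 68192346423) (nat_lit 76) (nat_lit 64268869931) (nat_lit 3) (nat_lit 4) (nat_lit 4) (nat_lit 5) (nat_lit 4) (nat_lit 4) (nat_lit 460) (nat_lit 312) (nat_lit 248)) (XT.lf (nat_lit 0) (nat_lit 158886893639) (nat_lit 76) (nat_lit 66460013989) (nat_lit 76) (nat_lit 62527929569) (nat_lit 3) (nat_lit 4) (nat_lit 4) (nat_lit 5) (nat_lit 4) (nat_lit 4) (nat_lit 461) (nat_lit 312) (nat_lit 247)))) (XT.nd (nat_lit 156) (nat_lit 0) (nat_lit 0) (XT.nd (nat_lit 78) (nat_lit 0) (nat_lit 0) (XT.lf (nat_lit 0) (nat_lit 176644583419) (nat_lit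 76) (nat_lit 64659679128) (nat_lit 76) (nat_lit 60719396681) (nat_lit 3) (nat_lit 4) (nat_lit 4) (nat_lit 5) (nat_lit 4) (nat_lit 4) (nat_lit 462) (nat_lit 312) (nat_lit 246)) (XT.lf (nat_lit 0) (nat_lit 195254784631) (nat_lit 76) (nat_lit 62787055326) (nat_lit 76) (nat_lit 58838965235) (nat_lit 3) (nat_lit 4) (nat_lit 4) (nat_lit 5) (nat_lit 4) (nat_lit 4) (nat_lit 463) (nat_lit 312) (nat_lit 245))) (XT.nd (nat_lit 78) (nat_lit 0) (nat_lit 0) (XT.lf (nat_lit 0) (nat_lit 214761807280) (nat_lit 76) (nat_lit 60837683957) (nat_lit 76) (nat_lit 56882158014) (nat_lit 3) (nat_lit 4) (nat_lit 4) (nat_lit 5) (nat_lit 4) (nat_lit 4) (nat_lit 464) (nat_lit 312) (nat_lit 244)) (XT.lf (nat_lit 0) (nat_lit 235212096657) (nat_lit 76) (nat_lit 58806923660) (nat_lit 76) (nat_lit 54844315953) (nat_lit 3) (nat_lit 4) (nat_lit 4) (nat_lit 5) (nat_lit 4) (nat_lit 4) (nat_lit 465) (nat_lit 312) (nat_lit 243))))))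 (XT.nd (nat_lit 546) (nat_lit 0) (nat_lit 0) (XT.nd (nat_lit 234) (nat_lit 0) (nat_lit 0) (XT.nd (nat_lit 78) (nat_lit 0) (nat_lit 0) (XT.lf (nat_lit 0) (nat_lit 256654343928) (nat_lit 76) (nat_lit 56689939291) (nat_lit 76) (nat_lit 52720587047) (nat_lit 3) (nat_lit 4) (nat_lit 4) (nat_lit 5) (nat_lit 4) (nat_lit 4) (nat_lit 466) (nat_lit 312) (nat_lit 242)) (XT.nd (nat_lit 78) (nat_lit 0) (nat_lit 0) (XT.lf (nat_lit 0) (nat_lit 279139602061) (nat_lit 76) (nat_lit 54481690412) (nat_lit 76) (nat_lit 50505914799) (nat_lit 3) (nat_lit 4) (nat_lit 4) (nat_lit 5) (nat_lit 4) (nat_lit 4) (nat_lit 467) (nat_lit 312) (nat_lit 241)) (XT.lf (nat_lit 0) (nat_lit 302721407387) (nat_lit 76) (nat_lit 52176919286) (nat_lit 76) (nat_lit 48195026180) (nat_lit 3) (nat_lit 4) (nat_lit 4) (nat_lit 5) (nat_lit 4) (nat_lit 4) (nat_lit 468) (nat_lit 312) (nat_lit 240)))) (XT.nd (nat_lit 156) (nat_lit 0) (nat_lit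 0) (XT.nd (nat_lit 78) (nat_lit 0) (nat_lit 0) (XT.lf (nat_lit 0) (nat_lit 327455907059) (nat_lit 76) (nat_lit 49770138365) (nat_lit 76) (nat_lit 45782419074) (nat_lit 3) (nat_lit 4) (nat_lit 4) (nat_lit 5) (nat_lit 4) (nat_lit 4) (nat_lit 469) (nat_lit 312) (nat_lit 239)) (XT.lf (nat_lit 0) (nat_lit 353401992745) (nat_lit 76) (nat_lit 47255617216) (nat_lit 76) (nat_lit 43262349178) (nat_lit 3) (nat_lit 4) (nat_lit 4) (nat_lit 5) (nat_lit 4) (nat_lit 4) (nat_lit 470) (nat_lit 312) (nat_lit 238))) (XT.nd (nat_lit 78) (nat_lit 0) (nat_lit 0) (XT.lf (nat_lit 0) (nat_lit 380621440839) (nat_lit 76) (nat_lit 44627368885) (nat_lit 76) (nat_lit 40628816326) (nat_lit 3) (nat_lit 4) (nat_lit 4) (nat_lit 5) (nat_lit 4) (nat_lit 4) (nat_lit 471) (nat_lit 312) (nat_lit 237)) (XT.lf (nat_lit 0) (nat_lit 409179059551) (nat_lit 76) (nat_lit 41879135637) (nat_lit 76) (nat_lit 37875550201) (nat_lit 3) (nat_lit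 4) (nat_lit 4) (nat_lit 5) (nat_lit 4) (nat_lit 4) (nat_lit 472) (nat_lit 312) (nat_lit 236))))) (XT.nd (nat_lit 234) (nat_lit 0) (nat_lit 0) (XT.nd (nat_lit 78) (nat_lit 0) (nat_lit 0) (XT.lf (nat_lit 0) (nat_lit 439142843210) (nat_lit 76) (nat_lit 39004374061) (nat_lit 76) (nat_lit 34995995408) (nat_lit 3) (nat_lit 4) (nat_lit 4) (nat_lit 5) (nat_lit 4) (nat_lit 4) (nat_lit 473) (nat_lit 312) (nat_lit 235)) (XT.nd (nat_lit 78) (nat_lit 0) (nat_lit 0) (XT.lf (nat_lit 0) (nat_lit 470584134159) (nat_lit 76) (nat_lit 35996239485) (nat_lit 76) (nat_lit 31983295864) (nat_lit 3) (nat_lit 4) (nat_lit 4) (nat_lit 5) (nat_lit 4) (nat_lit 4) (nat_lit 474) (nat_lit 312) (nat_lit 234)) (XT.lf (nat_lit 0) (nat_lit 503577792615) (nat_lit 76) (nat_lit 32847569685) (nat_lit 76) (nat_lit 28830278476) (nat_lit 3) (nat_lit 4) (nat_lit 4) (nat_lit 5) (nat_lit 4) (nat_lit 4) (nat_lit 475) (nat_lit 312) (nat_lit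 233)))) (XT.nd (nat_lit 156) (nat_lit 0) (nat_lit 0) (XT.nd (nat_lit 78) (nat_lit 0) (nat_lit 0) (XT.lf (nat_lit 0) (nat_lit 538202374907) (nat_lit 76) (nat_lit 29550867828) (nat_lit 76) (nat_lit 25529436058) (nat_lit 3) (nat_lit 4) (nat_lit 4) (nat_lit 5) (nat_lit 4) (nat_lit 4) (nat_lit 476) (nat_lit 312) (nat_lit 232)) (XT.lf (nat_lit 0) (nat_lit 574540320516) (nat_lit 76) (nat_lit 26098284623) (nat_lit 76) (nat_lit 22072909462) (nat_lit 3) (nat_lit 4) (nat_lit 4) (nat_lit 5) (nat_lit 4) (nat_lit 4) (nat_lit 477) (nat_lit 312) (nat_lit 231))) (XT.nd (nat_lit 78) (nat_lit 0) (nat_lit 0) (XT.lf (nat_lit 0) (nat_lit 612678148362) (nat_lit 76) (nat_lit 22481599635) (nat_lit 76) (nat_lit 18452468863) (nat_lit 3) (nat_lit 4) (nat_lit 4) (nat_lit 5) (nat_lit 4) (nat_lit 4) (nat_lit 478) (nat_lit 312) (nat_lit 230)) (XT.lf (nat_lit 0) (nat_lit 652706662795) (nat_lit 76) (nat_lit 18692201708) (nat_lit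 76) (nat_lit 14659494165) (nat_lit 3) (nat_lit 4) (nat_lit 4) (nat_lit 5) (nat_lit 4) (nat_lit 4) (nat_lit 479) (nat_lit 312) (nat_lit 229))))))) (XT.nd (nat_lit 46956) (nat_lit 0) (nat_lit 912) (XT.nd (nat_lit 46410) (nat_lit 0) (nat_lit 1596) (XT.nd (nat_lit 234) (nat_lit 152) (nat_lit 0) (XT.nd (nat_lit 78) (nat_lit 0) (nat_lit 0) (XT.lf (nat_lit 0) (nat_lit 694721169802) (nat_lit 76) (nat_lit 14721068467) (nat_lit 76) (nat_lit 10684954474) (nat_lit 3) (nat_lit 4) (nat_lit 4) (nat_lit 5) (nat_lit 4) (nat_lit 4) (nat_lit 480) (nat_lit 312) (nat_lit 228)) (XT.nd (nat_lit 78) (nat_lit 0) (nat_lit 0) (XT.lf (nat_lit 0) (nat_lit 738821703925) (nat_lit 76) (nat_lit 10558744832) (nat_lit 76) (nat_lit 6519386602) (nat_lit 3) (nat_lit 4) (nat_lit 4) (nat_lit 5) (nat_lit 4) (nat_lit 4) (nat_lit 481) (nat_lit 312) (nat_lit 227)) (XT.lf (nat_lit 0) (nat_lit 785113266435) (nat_lit 76) (nat_lit 6195320509)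 (nat_lit 76) (nat_lit 2152872529) (nat_lit 3) (nat_lit 4) (nat_lit 4) (nat_lit 5) (nat_lit 4) (nat_lit 4) (nat_lit 482) (nat_lit 312) (nat_lit 226)))) (XT.nd (nat_lit 78) (nat_lit 0) (nat_lit 0) (XT.lf (nat_lit 0) (nat_lit 792068139) (nat_lit 76) (nat_lit 1567667830) (nat_lit 152) (nat_lit 830539250195) (nat_lit 1) (nat_lit 5) (nat_lit 2) (nat_lit 5) (nat_lit 3) (nat_lit 4) (nat_lit 483) (nat_lit 312) (nat_lit 225)) (XT.nd (nat_lit 78) (nat_lit 0) (nat_lit 0) (XT.lf (nat_lit 0) (nat_lit 7213959789) (nat_lit 152) (nat_lit 863724710376) (nat_lit 0) (nat_lit 3358537795) (nat_lit 1) (nat_lit 5) (nat_lit 3) (nat_lit 4) (nat_lit 1) (nat_lit 4) (nat_lit 484) (nat_lit 312) (nat_lit 224)) (XT.lf (nat_lit 0) (nat_lit 12330165371) (nat_lit 152) (nat_lit 896962010700) (nat_lit 0) (nat_lit 8472201432) (nat_lit 1) (nat_lit 5) (nat_lit 3) (nat_lit 4) (nat_lit 1) (nat_lit 4) (nat_lit 485) (nat_lit 312) (nat_lit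 223))))) (XT.nd (nat_lit 234) (nat_lit 380) (nat_lit 0) (XT.nd (nat_lit 78) (nat_lit 76) (nat_lit 0) (XT.lf (nat_lit 0) (nat_lit 2212741998) (nat_lit 152) (nat_lit 4029488504) (nat_lit 0) (nat_lit 2212741998) (nat_lit 28) (nat_lit 5) (nat_lit 30) (nat_lit 4) (nat_lit 28) (nat_lit 4) (nat_lit 394) (nat_lit 313) (nat_lit 313)) (XT.nd (nat_lit 78) (nat_lit 0) (nat_lit 0) (XT.lf (nat_lit 0) (nat_lit 3913809202) (nat_lit 76) (nat_lit 6909698878) (nat_lit 76) (nat_lit 6606507071) (nat_lit 27) (nat_lit 4) (nat_lit 28) (nat_lit 5) (nat_lit 28) (nat_lit 4) (nat_lit 395) (nat_lit 313) (nat_lit 312)) (XT.lf (nat_lit 0) (nat_lit 16366501547) (nat_lit 76) (nat_lit 1102585815) (nat_lit 76) (nat_lit 510639907) (nat_lit 27) (nat_lit 4) (nat_lit 28) (nat_lit 5) (nat_lit 28) (nat_lit 4) (nat_lit 396) (nat_lit 313) (nat_lit 311)))) (XT.nd (nat_lit 156) (nat_lit 152) (nat_lit 0) (XT.nd (nat_lit 78) (nat_lit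 76) (nat_lit 0) (XT.lf (nat_lit 0) (nat_lit 5746557935) (nat_lit 152) (nat_lit 7882644082) (nat_lit 0) (nat_lit 4920891445) (nat_lit 25) (nat_lit 5) (nat_lit 27) (nat_lit 4) (nat_lit 25) (nat_lit 4) (nat_lit 397) (nat_lit 313) (nat_lit 310)) (XT.lf (nat_lit 0) (nat_lit 4190660401) (nat_lit 76) (nat_lit 8018761049) (nat_lit 76) (nat_lit 6943657909) (nat_lit 24) (nat_lit 4) (nat_lit 25) (nat_lit 5) (nat_lit 25) (nat_lit 4) (nat_lit 398) (nat_lit 313) (nat_lit 309))) (XT.nd (nat_lit 78) (nat_lit 152) (nat_lit 0) (XT.lf (nat_lit 0) (nat_lit 16760415125) (nat_lit 76) (nat_lit 2170843580) (nat_lit 76) (nat_lit 858181726) (nat_lit 24) (nat_lit 4) (nat_lit 25) (nat_lit 5) (nat_lit 25) (nat_lit 4) (nat_lit 399) (nat_lit 313) (nat_lit 308)) (XT.lf (nat_lit 0) (nat_lit 5372071935) (nat_lit 152) (nat_lit 11173922798) (nat_lit 0) (nat_lit 3906445032) (nat_lit 22) (nat_lit 5) (nat_lit 24) (nat_lit 4) (nat_lit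 22) (nat_lit 4) (nat_lit 400) (nat_lit 313) (nat_lit 307)))))) (XT.nd (nat_lit 546) (nat_lit 228) (nat_lit 0) (XT.nd (nat_lit 234) (nat_lit 228) (nat_lit 0) (XT.nd (nat_lit 78) (nat_lit 152) (nat_lit 0) (XT.lf (nat_lit 0) (nat_lit 764742426) (nat_lit 76) (nat_lit 11029273205) (nat_lit 76) (nat_lit 9358434152) (nat_lit 21) (nat_lit 4) (nat_lit 22) (nat_lit 5) (nat_lit 22) (nat_lit 4) (nat_lit 401) (nat_lit 313) (nat_lit 306)) (XT.nd (nat_lit 78) (nat_lit 152) (nat_lit 0) (XT.lf (nat_lit 0) (nat_lit 13324428846) (nat_lit 76) (nat_lit 5214612857) (nat_lit 76) (nat_lit 3348333663) (nat_lit 21) (nat_lit 4) (nat_lit 22) (nat_lit 5) (nat_lit 22) (nat_lit 4) (nat_lit 402) (nat_lit 313) (nat_lit 305)) (XT.lf (nat_lit 0) (nat_lit 2754809517) (nat_lit 152) (nat_lit 19107440002) (nat_lit 0) (nat_lit 800130790) (nat_lit 19) (nat_lit 5) (nat_lit 21) (nat_lit 4) (nat_lit 19) (nat_lit 4) (nat_lit 403) (nat_lit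 313) (nat_lit 304)))) (XT.nd (nat_lit 156) (nat_lit 152) (nat_lit 0) (XT.nd (nat_lit 78) (nat_lit 76) (nat_lit 0) (XT.lf (nat_lit 0) (nat_lit 9102775273) (nat_lit 152) (nat_lit 7388750491) (nat_lit 0) (nat_lit 6979268003) (nat_lit 19) (nat_lit 5) (nat_lit 21) (nat_lit 4) (nat_lit 19) (nat_lit 4) (nat_lit 404) (nat_lit 313) (nat_lit 303)) (XT.lf (nat_lit 0) (nat_lit 4730989946) (nat_lit 76) (nat_lit 10938928567) (nat_lit 76) (nat_lit 8654632209) (nat_lit 18) (nat_lit 4) (nat_lit 19) (nat_lit 5) (nat_lit 19) (nat_lit 4) (nat_lit 405) (nat_lit 313) (nat_lit 302))) (XT.nd (nat_lit 78) (nat_lit 152) (nat_lit 0) (XT.lf (nat_lit 0) (nat_lit 17382357640) (nat_lit 76) (nat_lit 5139137072) (nat_lit 76) (nat_lit 2701708248) (nat_lit 18) (nat_lit 4) (nat_lit 19) (nat_lit 5) (nat_lit 19) (nat_lit 4) (nat_lit 406) (nat_lit 313) (nat_lit 301)) (XT.lf (nat_lit 0) (nat_lit 3352520676) (nat_lit 152) (nat_lit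 21923380471) (nat_lit 0) (nat_lit 892264231) (nat_lit 16) (nat_lit 5) (nat_lit 18) (nat_lit 4) (nat_lit 16) (nat_lit 4) (nat_lit 407) (nat_lit 313) (nat_lit 300))))) (XT.nd (nat_lit 234) (nat_lit 152) (nat_lit 0) (XT.nd (nat_lit 78) (nat_lit 76) (nat_lit 0) (XT.lf (nat_lit 0) (nat_lit 9674679359) (nat_lit 152) (nat_lit 10398549734) (nat_lit 0) (nat_lit 7082141333) (nat_lit 16) (nat_lit 5) (nat_lit 18) (nat_lit 4) (nat_lit 16) (nat_lit 4) (nat_lit 408) (nat_lit 313) (nat_lit 299)) (XT.nd (nat_lit 78) (nat_lit 0) (nat_lit 0) (XT.lf (nat_lit 0) (nat_lit 1442982194) (nat_lit 76) (nat_lit 14737064116) (nat_lit 76) (nat_lit 12018543633) (nat_lit 15) (nat_lit 4) (nat_lit 16) (nat_lit 5) (nat_lit 16) (nat_lit 4) (nat_lit 409) (nat_lit 313) (nat_lit 298)) (XT.lf (nat_lit 0) (nat_lit 13936811145) (nat_lit 76) (nat_lit 9097251407) (nat_lit 76) (nat_lit 6258747630) (nat_lit 15) (nat_lit 4) (nat_lit 16)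 (nat_lit 5) (nat_lit 16) (nat_lit 4) (nat_lit 410) (nat_lit 313) (nat_lit 297)))) (XT.nd (nat_lit 156) (nat_lit 0) (nat_lit 0) (XT.nd (nat_lit 78) (nat_lit 152) (nat_lit 0) (XT.lf (nat_lit 0) (nat_lit 26768861314) (nat_lit 76) (nat_lit 3316467311) (nat_lit 76) (nat_lit 363693732) (nat_lit 15) (nat_lit 4) (nat_lit 16) (nat_lit 5) (nat_lit 16) (nat_lit 4) (nat_lit 411) (nat_lit 313) (nat_lit 296)) (XT.lf (nat_lit 0) (nat_lit 5675788996) (nat_lit 152) (nat_lit 23220930635) (nat_lit 0) (nat_lit 2759977601) (nat_lit 13) (nat_lit 5) (nat_lit 15) (nat_lit 4) (nat_lit 13) (nat_lit 4) (nat_lit 412) (nat_lit 313) (nat_lit 295))) (XT.nd (nat_lit 78) (nat_lit 0) (nat_lit 0) (XT.lf (nat_lit 0) (nat_lit 11982275381) (nat_lit 152) (nat_lit 11975573560) (nat_lit 0) (nat_lit 8967753434) (nat_lit 13) (nat_lit 5) (nat_lit 15) (nat_lit 4) (nat_lit 13) (nat_lit 4) (nat_lit 413) (nat_lit 313) (nat_lit 294)) (XT.lf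 (nat_lit 0) (nat_lit 18470311480) (nat_lit 152) (nat_lit 432557433) (nat_lit 0) (nat_lit 15361779483) (nat_lit 13) (nat_lit 5) (nat_lit 15) (nat_lit 4) (nat_lit 13) (nat_lit 4) (nat_lit 414) (nat_lit 313) (nat_lit 293))))))))
noncomputable def xc39 : XT := (XT.nd (nat_lit 2106) (nat_lit 76) (nat_lit 0) (XT.nd (nat_lit 1014) (nat_lit 228) (nat_lit 0) (XT.nd (nat_lit 468) (nat_lit 228) (nat_lit 0) (XT.nd (nat_lit 234) (nat_lit 76) (nat_lit 0) (XT.nd (nat_lit 78) (nat_lit 76) (nat_lit 0) (XT.lf (nat_lit 0) (nat_lit 11813713736) (nat_lit 76) (nat_lit 13526076441) (nat_lit 76) (nat_lit 10328011063) (nat_lit 12) (nat_lit 4) (nat_lit 13) (nat_lit 5) (nat_lit 13) (nat_lit 4) (nat_lit 415) (nat_lit 313) (nat_lit 292)) (XT.nd (nat_lit 78) (nat_lit 76) (nat_lit 0) (XT.lf (nat_lit 0) (nat_lit 24439372150) (nat_lit 76) (nat_lit 7995487620) (nat_lit 76) (nat_lit 4712152356) (nat_lit 12) (nat_lit 4) (nat_lit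 13) (nat_lit 5) (nat_lit 13) (nat_lit 4) (nat_lit 416) (nat_lit 313) (nat_lit 291)) (XT.lf (nat_lit 0) (nat_lit 1025380999) (nat_lit 152) (nat_lit 1262513630) (nat_lit 76) (nat_lit 36417430276) (nat_lit 11) (nat_lit 5) (nat_lit 13) (nat_lit 5) (nat_lit 12) (nat_lit 4) (nat_lit 417) (nat_lit 313) (nat_lit 290)))) (XT.nd (nat_lit 78) (nat_lit 0) (nat_lit 0) (XT.lf (nat_lit 0) (nat_lit 7004634606) (nat_lit 152) (nat_lit 29600754549) (nat_lit 0) (nat_lit 3726647005) (nat_lit 10) (nat_lit 5) (nat_lit 12) (nat_lit 4) (nat_lit 10) (nat_lit 4) (nat_lit 418) (nat_lit 313) (nat_lit 289)) (XT.nd (nat_lit 78) (nat_lit 0) (nat_lit 0) (XT.lf (nat_lit 0) (nat_lit 13226895651) (nat_lit 152) (nat_lit 18937233928) (nat_lit 0) (nat_lit 9878756303) (nat_lit 10) (nat_lit 5) (nat_lit 12) (nat_lit 4) (nat_lit 10) (nat_lit 4) (nat_lit 419) (nat_lit 313) (nat_lit 288)) (XT.lf (nat_lit 0) (nat_lit 19650561649) (nat_lit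 152) (nat_lit 7958595628) (nat_lit 0) (nat_lit 16235611114) (nat_lit 10) (nat_lit 5) (nat_lit 12) (nat_lit 4) (nat_lit 10) (nat_lit 4) (nat_lit 420) (nat_lit 313) (nat_lit 287))))) (XT.nd (nat_lit 234) (nat_lit 152) (nat_lit 0) (XT.nd (nat_lit 78) (nat_lit 0) (nat_lit 0) (XT.lf (nat_lit 0) (nat_lit 3472439722) (nat_lit 76) (nat_lit 22872701836) (nat_lit 76) (nat_lit 19394121599) (nat_lit 9) (nat_lit 4) (nat_lit 10) (nat_lit 5) (nat_lit 10) (nat_lit 4) (nat_lit 421) (nat_lit 313) (nat_lit 286)) (XT.nd (nat_lit 78) (nat_lit 0) (nat_lit 0) (XT.lf (nat_lit 0) (nat_lit 15547006279) (nat_lit 76) (nat_lit 17859528287) (nat_lit 76) (nat_lit 14320348334) (nat_lit 9) (nat_lit 4) (nat_lit 10) (nat_lit 5) (nat_lit 10) (nat_lit 4) (nat_lit 422) (nat_lit 313) (nat_lit 285)) (XT.lf (nat_lit 0) (nat_lit 28030705896) (nat_lit 76) (nat_lit 12692483169) (nat_lit 76) (nat_lit 9095589200) (nat_lit 9) (nat_lit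 4) (nat_lit 10) (nat_lit 5) (nat_lit 10) (nat_lit 4) (nat_lit 423) (nat_lit 313) (nat_lit 284)))) (XT.nd (nat_lit 156) (nat_lit 76) (nat_lit 0) (XT.nd (nat_lit 78) (nat_lit 76) (nat_lit 0) (XT.lf (nat_lit 0) (nat_lit 40953261669) (nat_lit 76) (nat_lit 7359263995) (nat_lit 76) (nat_lit 3707404297) (nat_lit 9) (nat_lit 4) (nat_lit 10) (nat_lit 5) (nat_lit 10) (nat_lit 4) (nat_lit 424) (nat_lit 313) (nat_lit 283)) (XT.lf (nat_lit 0) (nat_lit 1797598658) (nat_lit 152) (nat_lit 19130761) (nat_lit 76) (nat_lit 52517399725) (nat_lit 8) (nat_lit 5) (nat_lit 10) (nat_lit 5) (nat_lit 9) (nat_lit 4) (nat_lit 425) (nat_lit 313) (nat_lit 282))) (XT.nd (nat_lit 78) (nat_lit 0) (nat_lit 0) (XT.lf (nat_lit 0) (nat_lit 7615595183) (nat_lit 152) (nat_lit 45096994337) (nat_lit 0) (nat_lit 4040296565) (nat_lit 7) (nat_lit 5) (nat_lit 9) (nat_lit 4) (nat_lit 7) (nat_lit 4) (nat_lit 426) (nat_lit 313) (nat_lit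 281)) (XT.lf (nat_lit 0) (nat_lit 13668880064) (nat_lit 152) (nat_lit 35578123692) (nat_lit 0) (nat_lit 10048361005) (nat_lit 7) (nat_lit 5) (nat_lit 9) (nat_lit 4) (nat_lit 7) (nat_lit 4) (nat_lit 427) (nat_lit 313) (nat_lit 280)))))) (XT.nd (nat_lit 546) (nat_lit 152) (nat_lit 0) (XT.nd (nat_lit 234) (nat_lit 76) (nat_lit 0) (XT.nd (nat_lit 78) (nat_lit 0) (nat_lit 0) (XT.lf (nat_lit 0) (nat_lit 19943188027) (nat_lit 152) (nat_lit 25746262676) (nat_lit 0) (nat_lit 16279601881) (nat_lit 7) (nat_lit 5) (nat_lit 9) (nat_lit 4) (nat_lit 7) (nat_lit 4) (nat_lit 428) (nat_lit 313) (nat_lit 279)) (XT.nd (nat_lit 78) (nat_lit 0) (nat_lit 0) (XT.lf (nat_lit 0) (nat_lit 26453457901) (nat_lit 152) (nat_lit 15578002096) (nat_lit 0) (nat_lit 22748855482) (nat_lit 7) (nat_lit 5) (nat_lit 9) (nat_lit 4) (nat_lit 7) (nat_lit 4) (nat_lit 429) (nat_lit 313) (nat_lit 278)) (XT.lf (nat_lit 0) (nat_lit 33215190329)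 (nat_lit 152) (nat_lit 5049131808) (nat_lit 0) (nat_lit 29471524792) (nat_lit 7) (nat_lit 5) (nat_lit 9) (nat_lit 4) (nat_lit 7) (nat_lit 4) (nat_lit 430) (nat_lit 313) (nat_lit 277)))) (XT.nd (nat_lit 156) (nat_lit 0) (nat_lit 0) (XT.nd (nat_lit 78) (nat_lit 0) (nat_lit 0) (XT.lf (nat_lit 0) (nat_lit 6059354099) (nat_lit 76) (nat_lit 34279734073) (nat_lit 76) (nat_lit 30498865567) (nat_lit 6) (nat_lit 4) (nat_lit 7) (nat_lit 5) (nat_lit 7) (nat_lit 4) (nat_lit 431) (nat_lit 313) (nat_lit 276)) (XT.lf (nat_lit 0) (nat_lit 17760064094) (nat_lit 76) (nat_lit 30075297628) (nat_lit 76) (nat_lit 26258997723) (nat_lit 6) (nat_lit 4) (nat_lit 7) (nat_lit 5) (nat_lit 7) (nat_lit 4) (nat_lit 432) (nat_lit 313) (nat_lit 275))) (XT.nd (nat_lit 78) (nat_lit 0) (nat_lit 0) (XT.lf (nat_lit 0) (nat_lit 29913909910) (nat_lit 76) (nat_lit 25726511730) (nat_lit 76) (nat_lit 21876467635) (nat_lit 6) (nat_lit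 4) (nat_lit 7) (nat_lit 5) (nat_lit 7) (nat_lit 4) (nat_lit 433) (nat_lit 313) (nat_lit 274)) (XT.lf (nat_lit 0) (nat_lit 42549829275) (nat_lit 76) (nat_lit 21223022126) (nat_lit 76) (nat_lit 17340840708) (nat_lit 6) (nat_lit 4) (nat_lit 7) (nat_lit 5) (nat_lit 7) (nat_lit 4) (nat_lit 434) (nat_lit 313) (nat_lit 273))))) (XT.nd (nat_lit 234) (nat_lit 152) (nat_lit 0) (XT.nd (nat_lit 78) (nat_lit 0) (nat_lit 0) (XT.lf (nat_lit 0) (nat_lit 55697907711) (nat_lit 76) (nat_lit 16554106223) (nat_lit 76) (nat_lit 12641317830) (nat_lit 6) (nat_lit 4) (nat_lit 7) (nat_lit 5) (nat_lit 7) (nat_lit 4) (nat_lit 435) (nat_lit 313) (nat_lit 272)) (XT.nd (nat_lit 78) (nat_lit 0) (nat_lit 0) (XT.lf (nat_lit 0) (nat_lit 69389450167) (nat_lit 76) (nat_lit 11708647554) (nat_lit 76) (nat_lit 7766709661) (nat_lit 6) (nat_lit 4) (nat_lit 7) (nat_lit 5) (nat_lit 7) (nat_lit 4) (nat_lit 436) (nat_lit 313) (nat_lit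 271)) (XT.lf (nat_lit 0) (nat_lit 83657055553) (nat_lit 76) (nat_lit 6675109312) (nat_lit 76) (nat_lit 2705409991) (nat_lit 6) (nat_lit 4) (nat_lit 7) (nat_lit 5) (nat_lit 7) (nat_lit 4) (nat_lit 437) (nat_lit 313) (nat_lit 270)))) (XT.nd (nat_lit 156) (nat_lit 0) (nat_lit 0) (XT.nd (nat_lit 78) (nat_lit 0) (nat_lit 0) (XT.lf (nat_lit 0) (nat_lit 1108726208) (nat_lit 76) (nat_lit 1381451832) (nat_lit 152) (nat_lit 94928531544) (nat_lit 4) (nat_lit 5) (nat_lit 5) (nat_lit 5) (nat_lit 6) (nat_lit 4) (nat_lit 438) (nat_lit 313) (nat_lit 269)) (XT.lf (nat_lit 0) (nat_lit 8028805357) (nat_lit 152) (nat_lit 89780193393) (nat_lit 0) (nat_lit 4198977538) (nat_lit 4) (nat_lit 5) (nat_lit 6) (nat_lit 4) (nat_lit 4) (nat_lit 4) (nat_lit 439) (nat_lit 313) (nat_lit 268))) (XT.nd (nat_lit 78) (nat_lit 0) (nat_lit 0) (XT.lf (nat_lit 0) (nat_lit 13817009368) (nat_lit 152) (nat_lit 83046724212) (nat_lit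 0) (nat_lit 9964342153) (nat_lit 4) (nat_lit 5) (nat_lit 6) (nat_lit 4) (nat_lit 4) (nat_lit 4) (nat_lit 440) (nat_lit 313) (nat_lit 267)) (XT.lf (nat_lit 0) (nat_lit 19847003178) (nat_lit 152) (nat_lit 76071975430) (nat_lit 0) (nat_lit 15972584157) (nat_lit 4) (nat_lit 5) (nat_lit 6) (nat_lit 4) (nat_lit 4) (nat_lit 4) (nat_lit 441) (nat_lit 313) (nat_lit 266))))))) (XT.nd (nat_lit 1092) (nat_lit 0) (nat_lit 0) (XT.nd (nat_lit 546) (nat_lit 76) (nat_lit 0) (XT.nd (nat_lit 234) (nat_lit 0) (nat_lit 0) (XT.nd (nat_lit 78) (nat_lit 0) (nat_lit 0) (XT.lf (nat_lit 0) (nat_lit 26133143914) (nat_lit 152) (nat_lit 68839340502) (nat_lit 0) (nat_lit 22238008889) (nat_lit 4) (nat_lit 5) (nat_lit 6) (nat_lit 4) (nat_lit 4) (nat_lit 4) (nat_lit 442) (nat_lit 313) (nat_lit 265)) (XT.nd (nat_lit 78) (nat_lit 0) (nat_lit 0) (XT.lf (nat_lit 0) (nat_lit 32690398579) (nat_lit 152) (nat_lit 61331598870) (nat_lit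 0) (nat_lit 28775534025) (nat_lit 4) (nat_lit 5) (nat_lit 6) (nat_lit 4) (nat_lit 4) (nat_lit 4) (nat_lit 443) (nat_lit 313) (nat_lit 264)) (XT.lf (nat_lit 0) (nat_lit 39534379684) (nat_lit 152) (nat_lit 53530874958) (nat_lit 0) (nat_lit 35600725102) (nat_lit 4) (nat_lit 5) (nat_lit 6) (nat_lit 4) (nat_lit 4) (nat_lit 4) (nat_lit 444) (nat_lit 313) (nat_lit 263)))) (XT.nd (nat_lit 156) (nat_lit 0) (nat_lit 0) (XT.nd (nat_lit 78) (nat_lit 0) (nat_lit 0) (XT.lf (nat_lit 0) (nat_lit 46681382421) (nat_lit 152) (nat_lit 45418595613) (nat_lit 0) (nat_lit 42729832574) (nat_lit 4) (nat_lit 5) (nat_lit 6) (nat_lit 4) (nat_lit 4) (nat_lit 4) (nat_lit 445) (nat_lit 313) (nat_lit 262)) (XT.lf (nat_lit 0) (nat_lit 54148423463) (nat_lit 152) (nat_lit 36975445885) (nat_lit 0) (nat_lit 50179830508) (nat_lit 4) (nat_lit 5) (nat_lit 6) (nat_lit 4) (nat_lit 4) (nat_lit 4) (nat_lit 446) (nat_lit 313) (nat_lit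 261))) (XT.nd (nat_lit 78) (nat_lit 0) (nat_lit 0) (XT.lf (nat_lit 0) (nat_lit 61953281481) (nat_lit 152) (nat_lit 28181323036) (nat_lit 0) (nat_lit 57968456994) (nat_lit 4) (nat_lit 5) (nat_lit 6) (nat_lit 4) (nat_lit 4) (nat_lit 4) (nat_lit 447) (nat_lit 313) (nat_lit 260)) (XT.lf (nat_lit 0) (nat_lit 70114539469) (nat_lit 152) (nat_lit 19015288679) (nat_lit 0) (nat_lit 66114256380) (nat_lit 4) (nat_lit 5) (nat_lit 6) (nat_lit 4) (nat_lit 4) (nat_lit 4) (nat_lit 448) (nat_lit 313) (nat_lit 259))))) (XT.nd (nat_lit 234) (nat_lit 0) (nat_lit 0) (XT.nd (nat_lit 78) (nat_lit 76) (nat_lit 0) (XT.lf (nat_lit 0) (nat_lit 78651628994) (nat_lit 152) (nat_lit 9455518922) (nat_lit 0) (nat_lit 74636623427) (nat_lit 4) (nat_lit 5) (nat_lit 6) (nat_lit 4) (nat_lit 4) (nat_lit 4) (nat_lit 449) (nat_lit 313) (nat_lit 258)) (XT.nd (nat_lit 78) (nat_lit 0) (nat_lit 0) (XT.lf (nat_lit 0) (nat_lit 537965857)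 (nat_lit 76) (nat_lit 87055309757) (nat_lit 76) (nat_lit 83026282782) (nat_lit 3) (nat_lit 4) (nat_lit 4) (nat_lit 5) (nat_lit 4) (nat_lit 4) (nat_lit 450) (nat_lit 313) (nat_lit 257)) (XT.lf (nat_lit 0) (nat_lit 11298899212) (nat_lit 76) (nat_lit 85813059771) (nat_lit 76) (nat_lit 81770679074) (nat_lit 3) (nat_lit 4) (nat_lit 4) (nat_lit 5) (nat_lit 4) (nat_lit 4) (nat_lit 451) (nat_lit 313) (nat_lit 256)))) (XT.nd (nat_lit 156) (nat_lit 0) (nat_lit 0) (XT.nd (nat_lit 78) (nat_lit 0) (nat_lit 0) (XT.lf (nat_lit 0) (nat_lit 22540260255) (nat_lit 76) (nat_lit 84537574010) (nat_lit 76) (nat_lit 80482475483) (nat_lit 3) (nat_lit 4) (nat_lit 4) (nat_lit 5) (nat_lit 4) (nat_lit 4) (nat_lit 452) (nat_lit 313) (nat_lit 255)) (XT.lf (nat_lit 0) (nat_lit 34288814130) (nat_lit 76) (nat_lit 83225815603) (nat_lit 76) (nat_lit 79158604857) (nat_lit 3) (nat_lit 4) (nat_lit 4) (nat_lit 5) (nat_lit 4) (nat_lit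 4) (nat_lit 453) (nat_lit 313) (nat_lit 254))) (XT.nd (nat_lit 78) (nat_lit 0) (nat_lit 0) (XT.lf (nat_lit 0) (nat_lit 46572533585) (nat_lit 76) (nat_lit 81874661315) (nat_lit 76) (nat_lit 77795915122) (nat_lit 3) (nat_lit 4) (nat_lit 4) (nat_lit 5) (nat_lit 4) (nat_lit 4) (nat_lit 454) (nat_lit 313) (nat_lit 253)) (XT.lf (nat_lit 0) (nat_lit 59420665572) (nat_lit 76) (nat_lit 80480894113) (nat_lit 76) (nat_lit 76391161780) (nat_lit 3) (nat_lit 4) (nat_lit 4) (nat_lit 5) (nat_lit 4) (nat_lit 4) (nat_lit 455) (nat_lit 313) (nat_lit 252)))))) (XT.nd (nat_lit 546) (nat_lit 0) (nat_lit 0) (XT.nd (nat_lit 234) (nat_lit 0) (nat_lit 0) (XT.nd (nat_lit 78) (nat_lit 0) (nat_lit 0) (XT.lf (nat_lit 0) (nat_lit 72863800880) (nat_lit 76) (nat_lit 79041195503) (nat_lit 76) (nat_lit 74941000179) (nat_lit 3) (nat_lit 4) (nat_lit 4) (nat_lit 5) (nat_lit 4) (nat_lit 4) (nat_lit 456) (nat_lit 313) (nat_lit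 251)) (XT.nd (nat_lit 78) (nat_lit 0) (nat_lit 0) (XT.lf (nat_lit 0) (nat_lit 86933946974) (nat_lit 76) (nat_lit 77552137631) (nat_lit 76) (nat_lit 73441977554) (nat_lit 3) (nat_lit 4) (nat_lit 4) (nat_lit 5) (nat_lit 4) (nat_lit 4) (nat_lit 457) (nat_lit 313) (nat_lit 250)) (XT.lf (nat_lit 0) (nat_lit 101664604203) (nat_lit 76) (nat_lit 76010175121) (nat_lit 76) (nat_lit 71890524804) (nat_lit 3) (nat_lit 4) (nat_lit 4) (nat_lit 5) (nat_lit 4) (nat_lit 4) (nat_lit 458) (nat_lit 313) (nat_lit 249)))) (XT.nd (nat_lit 156) (nat_lit 0) (nat_lit 0) (XT.nd (nat_lit 78) (nat_lit 0) (nat_lit 0) (XT.lf (nat_lit 0) (nat_lit 117090845560) (nat_lit 76) (nat_lit 74411636634) (nat_lit 76) (nat_lit 70282947993) (nat_lit 3) (nat_lit 4) (nat_lit 4) (nat_lit 5) (nat_lit 4) (nat_lit 4) (nat_lit 459) (nat_lit 313) (nat_lit 248)) (XT.lf (nat_lit 0) (nat_lit 133249400191) (nat_lit 76) (nat_lit 72752716127) (nat_lit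 76) (nat_lit 68615419557) (nat_lit 3) (nat_lit 4) (nat_lit 4) (nat_lit 5) (nat_lit 4) (nat_lit 4) (nat_lit 460) (nat_lit 313) (nat_lit 247))) (XT.nd (nat_lit 78) (nat_lit 0) (nat_lit 0) (XT.lf (nat_lit 0) (nat_lit 150178740844) (nat_lit 76) (nat_lit 71029463787) (nat_lit 76) (nat_lit 66883969191) (nat_lit 3) (nat_lit 4) (nat_lit 4) (nat_lit 5) (nat_lit 4) (nat_lit 4) (nat_lit 461) (nat_lit 313) (nat_lit 246)) (XT.lf (nat_lit 0) (nat_lit 167919175475) (nat_lit 76) (nat_lit 69237776635) (nat_lit 76) (nat_lit 65084474394) (nat_lit 3) (nat_lit 4) (nat_lit 4) (nat_lit 5) (nat_lit 4) (nat_lit 4) (nat_lit 462) (nat_lit 313) (nat_lit 245))))) (XT.nd (nat_lit 234) (nat_lit 0) (nat_lit 0) (XT.nd (nat_lit 78) (nat_lit 0) (nat_lit 0) (XT.lf (nat_lit 0) (nat_lit 186512943212) (nat_lit 76) (nat_lit 67373388747) (nat_lit 76) (nat_lit 63212650654) (nat_lit 3) (nat_lit 4) (nat_lit 4) (nat_lit 5) (nat_lit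 4) (nat_lit 4) (nat_lit 463) (nat_lit 313) (nat_lit 244)) (XT.nd (nat_lit 78) (nat_lit 0) (nat_lit 0) (XT.lf (nat_lit 0) (nat_lit 206004314932) (nat_lit 76) (nat_lit 65431861105) (nat_lit 76) (nat_lit 61264041248) (nat_lit 3) (nat_lit 4) (nat_lit 4) (nat_lit 5) (nat_lit 4) (nat_lit 4) (nat_lit 464) (nat_lit 313) (nat_lit 243)) (XT.lf (nat_lit 0) (nat_lit 226439698663) (nat_lit 76) (nat_lit 63408571024) (nat_lit 76) (nat_lit 59234006631) (nat_lit 3) (nat_lit 4) (nat_lit 4) (nat_lit 5) (nat_lit 4) (nat_lit 4) (nat_lit 465) (nat_lit 313) (nat_lit 242)))) (XT.nd (nat_lit 156) (nat_lit 0) (nat_lit 0) (XT.nd (nat_lit 78) (nat_lit 0) (nat_lit 0) (XT.lf (nat_lit 0) (nat_lit 247867750079) (nat_lit 76) (nat_lit 61298701146) (nat_lit 76) (nat_lit 57117713385) (nat_lit 3) (nat_lit 4) (nat_lit 4) (nat_lit 5) (nat_lit 4) (nat_lit 4) (nat_lit 466) (nat_lit 313) (nat_lit 241)) (XT.lf (nat_lit 0) (nat_lit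 270339488352) (nat_lit 76) (nat_lit 59097227973) (nat_lit 76) (nat_lit 54910122718) (nat_lit 3) (nat_lit 4) (nat_lit 4) (nat_lit 5) (nat_lit 4) (nat_lit 4) (nat_lit 467) (nat_lit 313) (nat_lit 240))) (XT.nd (nat_lit 78) (nat_lit 0) (nat_lit 0) (XT.lf (nat_lit 0) (nat_lit 293908417619) (nat_lit 76) (nat_lit 56798909902) (nat_lit 76) (nat_lit 52605978462) (nat_lit 3) (nat_lit 4) (nat_lit 4) (nat_lit 5) (nat_lit 4) (nat_lit 4) (nat_lit 468) (nat_lit 313) (nat_lit 239)) (XT.lf (nat_lit 0) (nat_lit 318630654379) (nat_lit 76) (nat_lit 54398274745) (nat_lit 76) (nat_lit 50199794558) (nat_lit 3) (nat_lit 4) (nat_lit 4) (nat_lit 5) (nat_lit 4) (nat_lit 4) (nat_lit 469) (nat_lit 313) (nat_lit 238))))))))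
noncomputable def xc40 : XT := (XT.nd (nat_lit 47892) (nat_lit 0) (nat_lit 456) (XT.nd (nat_lit 1014) (nat_lit 152) (nat_lit 0) (XT.nd (nat_lit 468) (nat_lit 0) (nat_lit 0) (XT.nd (nat_lit 234) (nat_lit 0) (nat_lit 0) (XT.nd (nat_lit 78) (nat_lit 0) (nat_lit 0) (XT.lf (nat_lit 0) (nat_lit 344565061101) (nat_lit 76) (nat_lit 51889606706) (nat_lit 76) (nat_lit 47685841998) (nat_lit 3) (nat_lit 4) (nat_lit 4) (nat_lit 5) (nat_lit 4) (nat_lit 4) (nat_lit 470) (nat_lit 313) (nat_lit 237)) (XT.nd (nat_lit 78) (nat_lit 0) (nat_lit 0) (XT.lf (nat_lit 0) (nat_lit 371773386372) (nat_lit 76) (nat_lit 49266932765) (nat_lit 76) (nat_lit 45058135180) (nat_lit 3) (nat_lit 4) (nat_lit 4) (nat_lit 5) (nat_lit 4) (nat_lit 4) (nat_lit 471) (nat_lit 313) (nat_lit 236)) (XT.lf (nat_lit 0) (nat_lit 400320411919) (nat_lit 76) (nat_lit 46524008461) (nat_lit 76) (nat_lit 42310417659) (nat_lit 3) (nat_lit 4) (nat_lit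 4) (nat_lit 5) (nat_lit 4) (nat_lit 4) (nat_lit 472) (nat_lit 313) (nat_lit 235)))) (XT.nd (nat_lit 78) (nat_lit 0) (nat_lit 0) (XT.lf (nat_lit 0) (nat_lit 430274106850) (nat_lit 76) (nat_lit 43654303021) (nat_lit 76) (nat_lit 39436147251) (nat_lit 3) (nat_lit 4) (nat_lit 4) (nat_lit 5) (nat_lit 4) (nat_lit 4) (nat_lit 473) (nat_lit 313) (nat_lit 234)) (XT.nd (nat_lit 78) (nat_lit 0) (nat_lit 0) (XT.lf (nat_lit 0) (nat_lit 461705789487) (nat_lit 76) (nat_lit 40650983813) (nat_lit 76) (nat_lit 36428480455) (nat_lit 3) (nat_lit 4) (nat_lit 4) (nat_lit 5) (nat_lit 4) (nat_lit 4) (nat_lit 474) (nat_lit 313) (nat_lit 233)) (XT.lf (nat_lit 0) (nat_lit 494690297168) (nat_lit 76) (nat_lit 37506900078) (nat_lit 76) (nat_lit 33280256159) (nat_lit 3) (nat_lit 4) (nat_lit 4) (nat_lit 5) (nat_lit 4) (nat_lit 4) (nat_lit 475) (nat_lit 313) (nat_lit 232))))) (XT.nd (nat_lit 234) (nat_lit 0) (nat_lit 0)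 (XT.nd (nat_lit 78) (nat_lit 0) (nat_lit 0) (XT.lf (nat_lit 0) (nat_lit 529306164437) (nat_lit 76) (nat_lit 34214565902) (nat_lit 76) (nat_lit 29983978592) (nat_lit 3) (nat_lit 4) (nat_lit 4) (nat_lit 5) (nat_lit 4) (nat_lit 4) (nat_lit 476) (nat_lit 313) (nat_lit 231)) (XT.nd (nat_lit 78) (nat_lit 0) (nat_lit 0) (XT.lf (nat_lit 0) (nat_lit 565635810025) (nat_lit 76) (nat_lit 30766142393) (nat_lit 76) (nat_lit 26531799472) (nat_lit 3) (nat_lit 4) (nat_lit 4) (nat_lit 5) (nat_lit 4) (nat_lit 4) (nat_lit 477) (nat_lit 313) (nat_lit 230)) (XT.lf (nat_lit 0) (nat_lit 603765733087) (nat_lit 76) (nat_lit 27153419019) (nat_lit 76) (nat_lit 22915499327) (nat_lit 3) (nat_lit 4) (nat_lit 4) (nat_lit 5) (nat_lit 4) (nat_lit 4) (nat_lit 478) (nat_lit 313) (nat_lit 229)))) (XT.nd (nat_lit 156) (nat_lit 0) (nat_lit 0) (XT.nd (nat_lit 78) (nat_lit 0) (nat_lit 0) (XT.lf (nat_lit 0) (nat_lit 643786719156)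 (nat_lit 76) (nat_lit 23367794059) (nat_lit 76) (nat_lit 19126467918) (nat_lit 3) (nat_lit 4) (nat_lit 4) (nat_lit 5) (nat_lit 4) (nat_lit 4) (nat_lit 479) (nat_lit 313) (nat_lit 228)) (XT.lf (nat_lit 0) (nat_lit 685794056293) (nat_lit 76) (nat_lit 19400254120) (nat_lit 76) (nat_lit 15155683741) (nat_lit 3) (nat_lit 4) (nat_lit 4) (nat_lit 5) (nat_lit 4) (nat_lit 4) (nat_lit 480) (nat_lit 313) (nat_lit 227))) (XT.nd (nat_lit 78) (nat_lit 0) (nat_lit 0) (XT.lf (nat_lit 0) (nat_lit 729887761967) (nat_lit 76) (nat_lit 15241352677) (nat_lit 76) (nat_lit 10993692548) (nat_lit 3) (nat_lit 4) (nat_lit 4) (nat_lit 5) (nat_lit 4) (nat_lit 4) (nat_lit 481) (nat_lit 313) (nat_lit 226)) (XT.lf (nat_lit 0) (nat_lit 776172821193) (nat_lit 76) (nat_lit 10881187585) (nat_lit 76) (nat_lit 6630584837) (nat_lit 3) (nat_lit 4) (nat_lit 4) (nat_lit 5) (nat_lit 4) (nat_lit 4) (nat_lit 482) (nat_lit 313) (nat_lit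 225)))))) (XT.nd (nat_lit 46332) (nat_lit 0) (nat_lit 1520) (XT.nd (nat_lit 46020) (nat_lit 0) (nat_lit 1976) (XT.nd (nat_lit 78) (nat_lit 152) (nat_lit 0) (XT.lf (nat_lit 0) (nat_lit 824759436491) (nat_lit 76) (nat_lit 6309377498) (nat_lit 76) (nat_lit 2055972255) (nat_lit 3) (nat_lit 4) (nat_lit 4) (nat_lit 5) (nat_lit 4) (nat_lit 4) (nat_lit 483) (nat_lit 313) (nat_lit 224)) (XT.nd (nat_lit 78) (nat_lit 0) (nat_lit 0) (XT.lf (nat_lit 0) (nat_lit 1222326794) (nat_lit 76) (nat_lit 1450063975) (nat_lit 152) (nat_lit 871861805573) (nat_lit 1) (nat_lit 5) (nat_lit 2) (nat_lit 5) (nat_lit 3) (nat_lit 4) (nat_lit 484) (nat_lit 313) (nat_lit 223)) (XT.lf (nat_lit 0) (nat_lit 7762970076) (nat_lit 152) (nat_lit 906532532115) (nat_lit 0) (nat_lit 3707145095) (nat_lit 1) (nat_lit 5) (nat_lit 3) (nat_lit 4) (nat_lit 1) (nat_lit 4) (nat_lit 485) (nat_lit 313) (nat_lit 222)))) (XT.nd (nat_lit 156) (nat_lit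 228) (nat_lit 0) (XT.nd (nat_lit 78) (nat_lit 0) (nat_lit 0) (XT.lf (nat_lit 0) (nat_lit 552411541) (nat_lit 76) (nat_lit 3708424408) (nat_lit 76) (nat_lit 3708424408) (nat_lit 30) (nat_lit 4) (nat_lit 31) (nat_lit 5) (nat_lit 31) (nat_lit 4) (nat_lit 392) (nat_lit 314) (nat_lit 314)) (XT.lf (nat_lit 0) (nat_lit 13163787308) (nat_lit 76) (nat_lit 1793578915) (nat_lit 76) (nat_lit 1459309948) (nat_lit 30) (nat_lit 4) (nat_lit 31) (nat_lit 5) (nat_lit 31) (nat_lit 4) (nat_lit 393) (nat_lit 314) (nat_lit 313))) (XT.nd (nat_lit 78) (nat_lit 76) (nat_lit 0) (XT.lf (nat_lit 0) (nat_lit 4640061270) (nat_lit 152) (nat_lit 8256565214) (nat_lit 0) (nat_lit 4018518066) (nat_lit 28) (nat_lit 5) (nat_lit 30) (nat_lit 4) (nat_lit 28) (nat_lit 4) (nat_lit 394) (nat_lit 314) (nat_lit 312)) (XT.lf (nat_lit 0) (nat_lit 3515286540) (nat_lit 76) (nat_lit 7417744257) (nat_lit 76) (nat_lit 6507446951) (nat_lit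 27) (nat_lit 4) (nat_lit 28) (nat_lit 5) (nat_lit 28) (nat_lit 4) (nat_lit 395) (nat_lit 314) (nat_lit 311))))) (XT.nd (nat_lit 234) (nat_lit 228) (nat_lit 0) (XT.nd (nat_lit 78) (nat_lit 228) (nat_lit 0) (XT.lf (nat_lit 0) (nat_lit 15782834791) (nat_lit 76) (nat_lit 1698758479) (nat_lit 76) (nat_lit 513457267) (nat_lit 27) (nat_lit 4) (nat_lit 28) (nat_lit 5) (nat_lit 28) (nat_lit 4) (nat_lit 396) (nat_lit 314) (nat_lit 310)) (XT.nd (nat_lit 78) (nat_lit 76) (nat_lit 0) (XT.lf (nat_lit 0) (nat_lit 5626505683) (nat_lit 152) (nat_lit 8696577681) (nat_lit 0) (nat_lit 4248210736) (nat_lit 25) (nat_lit 5) (nat_lit 27) (nat_lit 4) (nat_lit 25) (nat_lit 4) (nat_lit 397) (nat_lit 314) (nat_lit 309)) (XT.lf (nat_lit 0) (nat_lit 3164018097) (nat_lit 76) (nat_lit 8815800785) (nat_lit 76) (nat_lit 7199947124) (nat_lit 24) (nat_lit 4) (nat_lit 25) (nat_lit 5) (nat_lit 25) (nat_lit 4) (nat_lit 398) (nat_lit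 314) (nat_lit 308)))) (XT.nd (nat_lit 156) (nat_lit 76) (nat_lit 0) (XT.nd (nat_lit 78) (nat_lit 152) (nat_lit 0) (XT.lf (nat_lit 0) (nat_lit 15556823885) (nat_lit 76) (nat_lit 3053001439) (nat_lit 76) (nat_lit 1210901383) (nat_lit 24) (nat_lit 4) (nat_lit 25) (nat_lit 5) (nat_lit 25) (nat_lit 4) (nat_lit 399) (nat_lit 314) (nat_lit 307)) (XT.lf (nat_lit 0) (nat_lit 4903625416) (nat_lit 152) (nat_lit 12642701851) (nat_lit 0) (nat_lit 2944032262) (nat_lit 22) (nat_lit 5) (nat_lit 24) (nat_lit 4) (nat_lit 22) (nat_lit 4) (nat_lit 400) (nat_lit 314) (nat_lit 306))) (XT.nd (nat_lit 78) (nat_lit 76) (nat_lit 0) (XT.lf (nat_lit 0) (nat_lit 11225058632) (nat_lit 152) (nat_lit 900318090) (nat_lit 0) (nat_lit 9070025336) (nat_lit 22) (nat_lit 5) (nat_lit 24) (nat_lit 4) (nat_lit 22) (nat_lit 4) (nat_lit 401) (nat_lit 314) (nat_lit 305)) (XT.lf (nat_lit 0) (nat_lit 11460565864) (nat_lit 76) (nat_lit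 6408005434) (nat_lit 76) (nat_lit 4066838669) (nat_lit 21) (nat_lit 4) (nat_lit 22) (nat_lit 5) (nat_lit 22) (nat_lit 4) (nat_lit 402) (nat_lit 314) (nat_lit 304))))))) (XT.nd (nat_lit 1014) (nat_lit 380) (nat_lit 0) (XT.nd (nat_lit 468) (nat_lit 304) (nat_lit 0) (XT.nd (nat_lit 234) (nat_lit 152) (nat_lit 0) (XT.nd (nat_lit 78) (nat_lit 76) (nat_lit 0) (XT.lf (nat_lit 0) (nat_lit 1435775821) (nat_lit 76) (nat_lit 493108352) (nat_lit 152) (nat_lit 20788618516) (nat_lit 19) (nat_lit 5) (nat_lit 20) (nat_lit 5) (nat_lit 21) (nat_lit 4) (nat_lit 403) (nat_lit 314) (nat_lit 303)) (XT.nd (nat_lit 78) (nat_lit 76) (nat_lit 0) (XT.lf (nat_lit 0) (nat_lit 8185207314) (nat_lit 152) (nat_lit 9719389662) (nat_lit 0) (nat_lit 5625907050) (nat_lit 19) (nat_lit 5) (nat_lit 21) (nat_lit 4) (nat_lit 19) (nat_lit 4) (nat_lit 404) (nat_lit 314) (nat_lit 302)) (XT.lf (nat_lit 0) (nat_lit 2161884197) (nat_lit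 76) (nat_lit 12470408930) (nat_lit 76) (nat_lit 9757976201) (nat_lit 18) (nat_lit 4) (nat_lit 19) (nat_lit 5) (nat_lit 19) (nat_lit 4) (nat_lit 405) (nat_lit 314) (nat_lit 301)))) (XT.nd (nat_lit 78) (nat_lit 152) (nat_lit 0) (XT.lf (nat_lit 0) (nat_lit 14659532727) (nat_lit 76) (nat_lit 6745797100) (nat_lit 76) (nat_lit 3887523927) (nat_lit 18) (nat_lit 4) (nat_lit 19) (nat_lit 5) (nat_lit 19) (nat_lit 4) (nat_lit 406) (nat_lit 314) (nat_lit 300)) (XT.nd (nat_lit 78) (nat_lit 0) (nat_lit 0) (XT.lf (nat_lit 0) (nat_lit 1240372586) (nat_lit 76) (nat_lit 826720788) (nat_lit 152) (nat_lit 24178531478) (nat_lit 16) (nat_lit 5) (nat_lit 17) (nat_lit 5) (nat_lit 18) (nat_lit 4) (nat_lit 407) (nat_lit 314) (nat_lit 299)) (XT.lf (nat_lit 0) (nat_lit 8300525770) (nat_lit 152) (nat_lit 13616648144) (nat_lit 0) (nat_lit 5320096805) (nat_lit 16) (nat_lit 5) (nat_lit 18) (nat_lit 4) (nat_lit 16) (nat_lit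 4) (nat_lit 408) (nat_lit 314) (nat_lit 298))))) (XT.nd (nat_lit 234) (nat_lit 228) (nat_lit 0) (XT.nd (nat_lit 78) (nat_lit 76) (nat_lit 0) (XT.lf (nat_lit 0) (nat_lit 14711155289) (nat_lit 152) (nat_lit 1963333077) (nat_lit 0) (nat_lit 11610743030) (nat_lit 16) (nat_lit 5) (nat_lit 18) (nat_lit 4) (nat_lit 16) (nat_lit 4) (nat_lit 409) (nat_lit 314) (nat_lit 297)) (XT.nd (nat_lit 78) (nat_lit 0) (nat_lit 0) (XT.lf (nat_lit 0) (nat_lit 10325837639) (nat_lit 76) (nat_lit 11136715531) (nat_lit 76) (nat_lit 7922033469) (nat_lit 15) (nat_lit 4) (nat_lit 16) (nat_lit 5) (nat_lit 16) (nat_lit 4) (nat_lit 410) (nat_lit 314) (nat_lit 296)) (XT.lf (nat_lit 0) (nat_lit 23024800593) (nat_lit 76) (nat_lit 5421445605) (nat_lit 76) (nat_lit 2097935159) (nat_lit 15) (nat_lit 4) (nat_lit 16) (nat_lit 5) (nat_lit 16) (nat_lit 4) (nat_lit 411) (nat_lit 314) (nat_lit 295)))) (XT.nd (nat_lit 156) (nat_lit 76)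 (nat_lit 0) (XT.nd (nat_lit 78) (nat_lit 0) (nat_lit 0) (XT.lf (nat_lit 0) (nat_lit 3832732786) (nat_lit 152) (nat_lit 27359922672) (nat_lit 0) (nat_lit 568774189) (nat_lit 13) (nat_lit 5) (nat_lit 15) (nat_lit 4) (nat_lit 13) (nat_lit 4) (nat_lit 412) (nat_lit 314) (nat_lit 294)) (XT.lf (nat_lit 0) (nat_lit 10073963266) (nat_lit 152) (nat_lit 16243643061) (nat_lit 0) (nat_lit 6715994619) (nat_lit 13) (nat_lit 5) (nat_lit 15) (nat_lit 4) (nat_lit 13) (nat_lit 4) (nat_lit 413) (nat_lit 314) (nat_lit 293))) (XT.nd (nat_lit 78) (nat_lit 76) (nat_lit 0) (XT.lf (nat_lit 0) (nat_lit 16499850884) (nat_lit 152) (nat_lit 4823557851) (nat_lit 0) (nat_lit 13052348856) (nat_lit 13) (nat_lit 5) (nat_lit 15) (nat_lit 4) (nat_lit 13) (nat_lit 4) (nat_lit 414) (nat_lit 314) (nat_lit 292)) (XT.lf (nat_lit 0) (nat_lit 7156578851) (nat_lit 76) (nat_lit 16080850772) (nat_lit 76) (nat_lit 12548078858) (nat_lit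 12) (nat_lit 4) (nat_lit 13) (nat_lit 5) (nat_lit 13) (nat_lit 4) (nat_lit 415) (nat_lit 314) (nat_lit 291)))))) (XT.nd (nat_lit 546) (nat_lit 152) (nat_lit 0) (XT.nd (nat_lit 234) (nat_lit 76) (nat_lit 0) (XT.nd (nat_lit 78) (nat_lit 152) (nat_lit 0) (XT.lf (nat_lit 0) (nat_lit 19667048541) (nat_lit 76) (nat_lit 10607281754) (nat_lit 76) (nat_lit 6993300424) (nat_lit 12) (nat_lit 4) (nat_lit 13) (nat_lit 5) (nat_lit 13) (nat_lit 4) (nat_lit 416) (nat_lit 314) (nat_lit 290)) (XT.nd (nat_lit 78) (nat_lit 152) (nat_lit 0) (XT.lf (nat_lit 0) (nat_lit 32578149442) (nat_lit 76) (nat_lit 4971358659) (nat_lit 76) (nat_lit 1280035029) (nat_lit 12) (nat_lit 4) (nat_lit 13) (nat_lit 5) (nat_lit 13) (nat_lit 4) (nat_lit 417) (nat_lit 314) (nat_lit 289)) (XT.lf (nat_lit 0) (nat_lit 4560314426) (nat_lit 152) (nat_lit 34931319014) (nat_lit 0) (nat_lit 974616364) (nat_lit 10) (nat_lit 5) (nat_lit 12) (nat_lit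 4) (nat_lit 10) (nat_lit 4) (nat_lit 418) (nat_lit 314) (nat_lit 288)))) (XT.nd (nat_lit 156) (nat_lit 76) (nat_lit 0) (XT.nd (nat_lit 78) (nat_lit 0) (nat_lit 0) (XT.lf (nat_lit 0) (nat_lit 10729059324) (nat_lit 152) (nat_lit 24374168320) (nat_lit 0) (nat_lit 7076550076) (nat_lit 10) (nat_lit 5) (nat_lit 12) (nat_lit 4) (nat_lit 10) (nat_lit 4) (nat_lit 419) (nat_lit 314) (nat_lit 287)) (XT.lf (nat_lit 0) (nat_lit 17101757565) (nat_lit 152) (nat_lit 13496834714) (nat_lit 0) (nat_lit 13385618614) (nat_lit 10) (nat_lit 5) (nat_lit 12) (nat_lit 4) (nat_lit 10) (nat_lit 4) (nat_lit 420) (nat_lit 314) (nat_lit 286))) (XT.nd (nat_lit 78) (nat_lit 76) (nat_lit 0) (XT.lf (nat_lit 0) (nat_lit 23693582237) (nat_lit 152) (nat_lit 2273419780) (nat_lit 0) (nat_lit 19916843570) (nat_lit 10) (nat_lit 5) (nat_lit 12) (nat_lit 4) (nat_lit 10) (nat_lit 4) (nat_lit 421) (nat_lit 314) (nat_lit 285)) (XT.lf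 (nat_lit 0) (nat_lit 9631052730) (nat_lit 76) (nat_lit 21039543157) (nat_lit 76) (nat_lit 17205090474) (nat_lit 9) (nat_lit 4) (nat_lit 10) (nat_lit 5) (nat_lit 10) (nat_lit 4) (nat_lit 422) (nat_lit 314) (nat_lit 284))))) (XT.nd (nat_lit 234) (nat_lit 152) (nat_lit 0) (XT.nd (nat_lit 78) (nat_lit 0) (nat_lit 0) (XT.lf (nat_lit 0) (nat_lit 22024348042) (nat_lit 76) (nat_lit 15917463014) (nat_lit 76) (nat_lit 12028044602) (nat_lit 9) (nat_lit 4) (nat_lit 10) (nat_lit 5) (nat_lit 10) (nat_lit 4) (nat_lit 423) (nat_lit 314) (nat_lit 283)) (XT.nd (nat_lit 78) (nat_lit 0) (nat_lit 0) (XT.lf (nat_lit 0) (nat_lit 34860804477) (nat_lit 76) (nat_lit 10627067626) (nat_lit 76) (nat_lit 6685300900) (nat_lit 9) (nat_lit 4) (nat_lit 10) (nat_lit 5) (nat_lit 10) (nat_lit 4) (nat_lit 424) (nat_lit 314) (nat_lit 282)) (XT.lf (nat_lit 0) (nat_lit 48170985024) (nat_lit 76) (nat_lit 5155760812) (nat_lit 76)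 (nat_lit 1164138550) (nat_lit 9) (nat_lit 4) (nat_lit 10) (nat_lit 5) (nat_lit 10) (nat_lit 4) (nat_lit 425) (nat_lit 314) (nat_lit 281)))) (XT.nd (nat_lit 156) (nat_lit 0) (nat_lit 0) (XT.nd (nat_lit 78) (nat_lit 0) (nat_lit 0) (XT.lf (nat_lit 0) (nat_lit 4493878547) (nat_lit 152) (nat_lit 51779422032) (nat_lit 0) (nat_lit 647113094) (nat_lit 7) (nat_lit 5) (nat_lit 9) (nat_lit 4) (nat_lit 7) (nat_lit 4) (nat_lit 426) (nat_lit 314) (nat_lit 280)) (XT.lf (nat_lit 0) (nat_lit 10507338471) (nat_lit 152) (nat_lit 42340040734) (nat_lit 0) (nat_lit 6617505931) (nat_lit 7) (nat_lit 5) (nat_lit 9) (nat_lit 4) (nat_lit 7) (nat_lit 4) (nat_lit 427) (nat_lit 314) (nat_lit 279))) (XT.nd (nat_lit 78) (nat_lit 0) (nat_lit 0) (XT.lf (nat_lit 0) (nat_lit 16743717904) (nat_lit 152) (nat_lit 32583883858) (nat_lit 0) (nat_lit 12812869091) (nat_lit 7) (nat_lit 5) (nat_lit 9) (nat_lit 4) (nat_lit 7) (nat_lit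 4) (nat_lit 428) (nat_lit 314) (nat_lit 278)) (XT.lf (nat_lit 0) (nat_lit 23217865369) (nat_lit 152) (nat_lit 22487722459) (nat_lit 0) (nat_lit 19247953438) (nat_lit 7) (nat_lit 5) (nat_lit 9) (nat_lit 4) (nat_lit 7) (nat_lit 4) (nat_lit 429) (nat_lit 314) (nat_lit 277))))))))
noncomputable def xc41 : XT := (XT.nd (nat_lit 2106) (nat_lit 0) (nat_lit 0) (XT.nd (nat_lit 1014) (nat_lit 76) (nat_lit 0) (XT.nd (nat_lit 468) (nat_lit 152) (nat_lit 0) (XT.nd (nat_lit 234) (nat_lit 0) (nat_lit 0) (XT.nd (nat_lit 78) (nat_lit 76) (nat_lit 0) (XT.lf (nat_lit 0) (nat_lit 29945195502) (nat_lit 152) (nat_lit 12027518057) (nat_lit 0) (nat_lit 25938080601) (nat_lit 7) (nat_lit 5) (nat_lit 9) (nat_lit 4) (nat_lit 7) (nat_lit 4) (nat_lit 430) (nat_lit 314) (nat_lit 276)) (XT.nd (nat_lit 78) (nat_lit 76) (nat_lit 0) (XT.lf (nat_lit 0) (nat_lit 36941725755) (nat_lit 152) (nat_lit 1178365404) (nat_lit 0) (nat_lit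 32899179456) (nat_lit 7) (nat_lit 5) (nat_lit 9) (nat_lit 4) (nat_lit 7) (nat_lit 4) (nat_lit 431) (nat_lit 314) (nat_lit 275)) (XT.lf (nat_lit 0) (nat_lit 10419041202) (nat_lit 76) (nat_lit 33967743766) (nat_lit 76) (nat_lit 29891453277) (nat_lit 6) (nat_lit 4) (nat_lit 7) (nat_lit 5) (nat_lit 7) (nat_lit 4) (nat_lit 432) (nat_lit 314) (nat_lit 274)))) (XT.nd (nat_lit 78) (nat_lit 0) (nat_lit 0) (XT.lf (nat_lit 0) (nat_lit 22511609582) (nat_lit 76) (nat_lit 29649560594) (nat_lit 76) (nat_lit 25541132782) (nat_lit 6) (nat_lit 4) (nat_lit 7) (nat_lit 5) (nat_lit 7) (nat_lit 4) (nat_lit 433) (nat_lit 314) (nat_lit 273)) (XT.nd (nat_lit 78) (nat_lit 0) (nat_lit 0) (XT.lf (nat_lit 0) (nat_lit 35089169485) (nat_lit 76) (nat_lit 25175216445) (nat_lit 76) (nat_lit 21036181658) (nat_lit 6) (nat_lit 4) (nat_lit 7) (nat_lit 5) (nat_lit 7) (nat_lit 4) (nat_lit 434) (nat_lit 314) (nat_lit 272)) (XT.lf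 (nat_lit 0) (nat_lit 48181667481) (nat_lit 76) (nat_lit 20534058117) (nat_lit 76) (nat_lit 16365873830) (nat_lit 6) (nat_lit 4) (nat_lit 7) (nat_lit 5) (nat_lit 7) (nat_lit 4) (nat_lit 435) (nat_lit 314) (nat_lit 271))))) (XT.nd (nat_lit 234) (nat_lit 152) (nat_lit 0) (XT.nd (nat_lit 78) (nat_lit 0) (nat_lit 0) (XT.lf (nat_lit 0) (nat_lit 61820276185) (nat_lit 76) (nat_lit 15715035233) (nat_lit 76) (nat_lit 11519089518) (nat_lit 6) (nat_lit 4) (nat_lit 7) (nat_lit 5) (nat_lit 7) (nat_lit 4) (nat_lit 436) (nat_lit 314) (nat_lit 270)) (XT.nd (nat_lit 78) (nat_lit 0) (nat_lit 0) (XT.lf (nat_lit 0) (nat_lit 76037468473) (nat_lit 76) (nat_lit 10706673931) (nat_lit 76) (nat_lit 6484288760) (nat_lit 6) (nat_lit 4) (nat_lit 7) (nat_lit 5) (nat_lit 7) (nat_lit 4) (nat_lit 437) (nat_lit 314) (nat_lit 269)) (XT.lf (nat_lit 0) (nat_lit 90867094805) (nat_lit 76) (nat_lit 5497049539) (nat_lit 76) (nat_lit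 1249483935) (nat_lit 6) (nat_lit 4) (nat_lit 7) (nat_lit 5) (nat_lit 7) (nat_lit 4) (nat_lit 438) (nat_lit 314) (nat_lit 268)))) (XT.nd (nat_lit 156) (nat_lit 0) (nat_lit 0) (XT.nd (nat_lit 78) (nat_lit 0) (nat_lit 0) (XT.lf (nat_lit 0) (nat_lit 4129888809) (nat_lit 152) (nat_lit 98022195843) (nat_lit 0) (nat_lit 61748837) (nat_lit 4) (nat_lit 5) (nat_lit 6) (nat_lit 4) (nat_lit 4) (nat_lit 4) (nat_lit 439) (nat_lit 314) (nat_lit 267)) (XT.lf (nat_lit 0) (nat_lit 9894863355) (nat_lit 152) (nat_lit 91335260251) (nat_lit 0) (nat_lit 5804971578) (nat_lit 4) (nat_lit 5) (nat_lit 6) (nat_lit 4) (nat_lit 4) (nat_lit 4) (nat_lit 440) (nat_lit 314) (nat_lit 266))) (XT.nd (nat_lit 78) (nat_lit 0) (nat_lit 0) (XT.lf (nat_lit 0) (nat_lit 15902733866) (nat_lit 152) (nat_lit 84404829173) (nat_lit 0) (nat_lit 11792126084) (nat_lit 4) (nat_lit 5) (nat_lit 6) (nat_lit 4) (nat_lit 4) (nat_lit 4) (nat_lit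 441) (nat_lit 314) (nat_lit 265)) (XT.lf (nat_lit 0) (nat_lit 22167804793) (nat_lit 152) (nat_lit 77214401583) (nat_lit 0) (nat_lit 18037467482) (nat_lit 4) (nat_lit 5) (nat_lit 6) (nat_lit 4) (nat_lit 4) (nat_lit 4) (nat_lit 442) (nat_lit 314) (nat_lit 264)))))) (XT.nd (nat_lit 546) (nat_lit 76) (nat_lit 0) (XT.nd (nat_lit 234) (nat_lit 0) (nat_lit 0) (XT.nd (nat_lit 78) (nat_lit 0) (nat_lit 0) (XT.lf (nat_lit 0) (nat_lit 28704992973) (nat_lit 152) (nat_lit 69746857415) (nat_lit 0) (nat_lit 24555865635) (nat_lit 4) (nat_lit 5) (nat_lit 6) (nat_lit 4) (nat_lit 4) (nat_lit 4) (nat_lit 443) (nat_lit 314) (nat_lit 263)) (XT.nd (nat_lit 78) (nat_lit 0) (nat_lit 0) (XT.lf (nat_lit 0) (nat_lit 35529863140) (nat_lit 152) (nat_lit 61984416802) (nat_lit 0) (nat_lit 31362840537) (nat_lit 4) (nat_lit 5) (nat_lit 6) (nat_lit 4) (nat_lit 4) (nat_lit 4) (nat_lit 444) (nat_lit 314) (nat_lit 262)) (XT.lf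 (nat_lit 0) (nat_lit 42658664984) (nat_lit 152) (nat_lit 53908597742) (nat_lit 0) (nat_lit 38474599272) (nat_lit 4) (nat_lit 5) (nat_lit 6) (nat_lit 4) (nat_lit 4) (nat_lit 4) (nat_lit 445) (nat_lit 314) (nat_lit 261)))) (XT.nd (nat_lit 156) (nat_lit 0) (nat_lit 0) (XT.nd (nat_lit 78) (nat_lit 0) (nat_lit 0) (XT.lf (nat_lit 0) (nat_lit 50108371842) (nat_lit 152) (nat_lit 45500172095) (nat_lit 0) (nat_lit 45908074599) (nat_lit 4) (nat_lit 5) (nat_lit 6) (nat_lit 4) (nat_lit 4) (nat_lit 4) (nat_lit 446) (nat_lit 314) (nat_lit 260)) (XT.lf (nat_lit 0) (nat_lit 57896721113) (nat_lit 152) (nat_lit 36739119799) (nat_lit 0) (nat_lit 53680965268) (nat_lit 4) (nat_lit 5) (nat_lit 6) (nat_lit 4) (nat_lit 4) (nat_lit 4) (nat_lit 447) (nat_lit 314) (nat_lit 259))) (XT.nd (nat_lit 78) (nat_lit 0) (nat_lit 0) (XT.lf (nat_lit 0) (nat_lit 66042256486) (nat_lit 152) (nat_lit 27604581207) (nat_lit 0) (nat_lit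 61811778162) (nat_lit 4) (nat_lit 5) (nat_lit 6) (nat_lit 4) (nat_lit 4) (nat_lit 4) (nat_lit 448) (nat_lit 314) (nat_lit 258)) (XT.lf (nat_lit 0) (nat_lit 74564372090) (nat_lit 152) (nat_lit 18074807417) (nat_lit 0) (nat_lit 70319872359) (nat_lit 4) (nat_lit 5) (nat_lit 6) (nat_lit 4) (nat_lit 4) (nat_lit 4) (nat_lit 449) (nat_lit 314) (nat_lit 257))))) (XT.nd (nat_lit 234) (nat_lit 0) (nat_lit 0) (XT.nd (nat_lit 78) (nat_lit 76) (nat_lit 0) (XT.lf (nat_lit 0) (nat_lit 83483358680) (nat_lit 152) (nat_lit 8127108492) (nat_lit 0) (nat_lit 79225505226) (nat_lit 4) (nat_lit 5) (nat_lit 6) (nat_lit 4) (nat_lit 4) (nat_lit 4) (nat_lit 450) (nat_lit 314) (nat_lit 256)) (XT.nd (nat_lit 78) (nat_lit 0) (nat_lit 0) (XT.lf (nat_lit 0) (nat_lit 2336999133) (nat_lit 76) (nat_lit 90519939908) (nat_lit 76) (nat_lit 86249368624) (nat_lit 3) (nat_lit 4) (nat_lit 4) (nat_lit 5) (nat_lit 4) (nat_lit 4) (nat_lit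 451) (nat_lit 314) (nat_lit 255)) (XT.lf (nat_lit 0) (nat_lit 13551591776) (nat_lit 76) (nat_lit 89257869582) (nat_lit 76) (nat_lit 84975186079) (nat_lit 3) (nat_lit 4) (nat_lit 4) (nat_lit 5) (nat_lit 4) (nat_lit 4) (nat_lit 452) (nat_lit 314) (nat_lit 254)))) (XT.nd (nat_lit 156) (nat_lit 0) (nat_lit 0) (XT.nd (nat_lit 78) (nat_lit 0) (nat_lit 0) (XT.lf (nat_lit 0) (nat_lit 25274651938) (nat_lit 76) (nat_lit 87958887779) (nat_lit 76) (nat_lit 83664668830) (nat_lit 3) (nat_lit 4) (nat_lit 4) (nat_lit 5) (nat_lit 4) (nat_lit 4) (nat_lit 453) (nat_lit 314) (nat_lit 253)) (XT.lf (nat_lit 0) (nat_lit 37534091665) (nat_lit 76) (nat_lit 86619901687) (nat_lit 76) (nat_lit 82314696597) (nat_lit 3) (nat_lit 4) (nat_lit 4) (nat_lit 5) (nat_lit 4) (nat_lit 4) (nat_lit 454) (nat_lit 314) (nat_lit 252))) (XT.nd (nat_lit 78) (nat_lit 0) (nat_lit 0) (XT.lf (nat_lit 0) (nat_lit 50359100102) (nat_lit 76)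 (nat_lit 85237723241) (nat_lit 76) (nat_lit 80922055162) (nat_lit 3) (nat_lit 4) (nat_lit 4) (nat_lit 5) (nat_lit 4) (nat_lit 4) (nat_lit 455) (nat_lit 314) (nat_lit 251)) (XT.lf (nat_lit 0) (nat_lit 63780212981) (nat_lit 76) (nat_lit 83809061543) (nat_lit 76) (nat_lit 79483428710) (nat_lit 3) (nat_lit 4) (nat_lit 4) (nat_lit 5) (nat_lit 4) (nat_lit 4) (nat_lit 456) (nat_lit 314) (nat_lit 250))))))) (XT.nd (nat_lit 1014) (nat_lit 0) (nat_lit 0) (XT.nd (nat_lit 468) (nat_lit 0) (nat_lit 0) (XT.nd (nat_lit 234) (nat_lit 0) (nat_lit 0) (XT.nd (nat_lit 78) (nat_lit 0) (nat_lit 0) (XT.lf (nat_lit 0) (nat_lit 77829385334) (nat_lit 76) (nat_lit 82330515015) (nat_lit 76) (nat_lit 77995391942) (nat_lit 3) (nat_lit 4) (nat_lit 4) (nat_lit 5) (nat_lit 4) (nat_lit 4) (nat_lit 457) (nat_lit 314) (nat_lit 249)) (XT.nd (nat_lit 78) (nat_lit 0) (nat_lit 0) (XT.lf (nat_lit 0) (nat_lit 92540067571) (nat_lit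 76) (nat_lit 80798563310) (nat_lit 76) (nat_lit 76454401912) (nat_lit 3) (nat_lit 4) (nat_lit 4) (nat_lit 5) (nat_lit 4) (nat_lit 4) (nat_lit 458) (nat_lit 314) (nat_lit 248)) (XT.lf (nat_lit 0) (nat_lit 107947285125) (nat_lit 76) (nat_lit 79209558922) (nat_lit 76) (nat_lit 74856789596) (nat_lit 3) (nat_lit 4) (nat_lit 4) (nat_lit 5) (nat_lit 4) (nat_lit 4) (nat_lit 459) (nat_lit 314) (nat_lit 247)))) (XT.nd (nat_lit 78) (nat_lit 0) (nat_lit 0) (XT.lf (nat_lit 0) (nat_lit 124087721849) (nat_lit 76) (nat_lit 77559718509) (nat_lit 76) (nat_lit 73198751157) (nat_lit 3) (nat_lit 4) (nat_lit 4) (nat_lit 5) (nat_lit 4) (nat_lit 4) (nat_lit 460) (nat_lit 314) (nat_lit 246)) (XT.nd (nat_lit 78) (nat_lit 0) (nat_lit 0) (XT.lf (nat_lit 0) (nat_lit 140999807354) (nat_lit 76) (nat_lit 75845113879) (nat_lit 76) (nat_lit 71476338882) (nat_lit 3) (nat_lit 4) (nat_lit 4) (nat_lit 5) (nat_lit 4) (nat_lit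 4) (nat_lit 461) (nat_lit 314) (nat_lit 245)) (XT.lf (nat_lit 0) (nat_lit 158723808509) (nat_lit 76) (nat_lit 74061662639) (nat_lit 76) (nat_lit 69685451790) (nat_lit 3) (nat_lit 4) (nat_lit 4) (nat_lit 5) (nat_lit 4) (nat_lit 4) (nat_lit 462) (nat_lit 314) (nat_lit 244))))) (XT.nd (nat_lit 234) (nat_lit 0) (nat_lit 0) (XT.nd (nat_lit 78) (nat_lit 0) (nat_lit 0) (XT.lf (nat_lit 0) (nat_lit 177301925317) (nat_lit 76) (nat_lit 72205118478) (nat_lit 76) (nat_lit 67821825866) (nat_lit 3) (nat_lit 4) (nat_lit 4) (nat_lit 5) (nat_lit 4) (nat_lit 4) (nat_lit 463) (nat_lit 314) (nat_lit 243)) (XT.nd (nat_lit 78) (nat_lit 0) (nat_lit 0) (XT.lf (nat_lit 0) (nat_lit 196778391391) (nat_lit 76) (nat_lit 70271061053) (nat_lit 76) (nat_lit 65881023903) (nat_lit 3) (nat_lit 4) (nat_lit 4) (nat_lit 5) (nat_lit 4) (nat_lit 4) (nat_lit 464) (nat_lit 314) (nat_lit 242)) (XT.lf (nat_lit 0) (nat_lit 217199579267)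 (nat_lit 76) (nat_lit 68254885463) (nat_lit 76) (nat_lit 63858424945) (nat_lit 3) (nat_lit 4) (nat_lit 4) (nat_lit 5) (nat_lit 4) (nat_lit 4) (nat_lit 465) (nat_lit 314) (nat_lit 241)))) (XT.nd (nat_lit 156) (nat_lit 0) (nat_lit 0) (XT.nd (nat_lit 78) (nat_lit 0) (nat_lit 0) (XT.lf (nat_lit 0) (nat_lit 238614110823) (nat_lit 76) (nat_lit 66151791292) (nat_lit 76) (nat_lit 61749213281) (nat_lit 3) (nat_lit 4) (nat_lit 4) (nat_lit 5) (nat_lit 4) (nat_lit 4) (nat_lit 466) (nat_lit 314) (nat_lit 240)) (XT.lf (nat_lit 0) (nat_lit 261072973038) (nat_lit 76) (nat_lit 63956771173) (nat_lit 76) (nat_lit 59548366977) (nat_lit 3) (nat_lit 4) (nat_lit 4) (nat_lit 5) (nat_lit 4) (nat_lit 4) (nat_lit 467) (nat_lit 314) (nat_lit 239))) (XT.nd (nat_lit 78) (nat_lit 0) (nat_lit 0) (XT.lf (nat_lit 0) (nat_lit 284629639393) (nat_lit 76) (nat_lit 61664598866) (nat_lit 76) (nat_lit 57250645923) (nat_lit 3) (nat_lit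 4) (nat_lit 4) (nat_lit 5) (nat_lit 4) (nat_lit 4) (nat_lit 468) (nat_lit 314) (nat_lit 238)) (XT.lf (nat_lit 0) (nat_lit 309340197189) (nat_lit 76) (nat_lit 59269816820) (nat_lit 76) (nat_lit 54850579355) (nat_lit 3) (nat_lit 4) (nat_lit 4) (nat_lit 5) (nat_lit 4) (nat_lit 4) (nat_lit 469) (nat_lit 314) (nat_lit 237)))))) (XT.nd (nat_lit 546) (nat_lit 0) (nat_lit 0) (XT.nd (nat_lit 234) (nat_lit 0) (nat_lit 0) (XT.nd (nat_lit 78) (nat_lit 0) (nat_lit 0) (XT.lf (nat_lit 0) (nat_lit 335263481088) (nat_lit 76) (nat_lit 56766723171) (nat_lit 76) (nat_lit 52342452829) (nat_lit 3) (nat_lit 4) (nat_lit 4) (nat_lit 5) (nat_lit 4) (nat_lit 4) (nat_lit 470) (nat_lit 314) (nat_lit 236)) (XT.nd (nat_lit 78) (nat_lit 0) (nat_lit 0) (XT.lf (nat_lit 0) (nat_lit 362461213194) (nat_lit 76) (nat_lit 54149358174) (nat_lit 76) (nat_lit 49720294615) (nat_lit 3) (nat_lit 4) (nat_lit 4) (nat_lit 5) (nat_lit 4)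 (nat_lit 4) (nat_lit 471) (nat_lit 314) (nat_lit 235)) (XT.lf (nat_lit 0) (nat_lit 390998150013) (nat_lit 76) (nat_lit 51411490006) (nat_lit 76) (nat_lit 46977861479) (nat_lit 3) (nat_lit 4) (nat_lit 4) (nat_lit 5) (nat_lit 4) (nat_lit 4) (nat_lit 472) (nat_lit 314) (nat_lit 234)))) (XT.nd (nat_lit 156) (nat_lit 0) (nat_lit 0) (XT.nd (nat_lit 78) (nat_lit 0) (nat_lit 0) (XT.lf (nat_lit 0) (nat_lit 420942236631) (nat_lit 76) (nat_lit 48546599934) (nat_lit 76) (nat_lit 44108623819) (nat_lit 3) (nat_lit 4) (nat_lit 4) (nat_lit 5) (nat_lit 4) (nat_lit 4) (nat_lit 473) (nat_lit 314) (nat_lit 233)) (XT.lf (nat_lit 0) (nat_lit 452364768493) (nat_lit 76) (nat_lit 45547866791) (nat_lit 76) (nat_lit 41105750115) (nat_lit 3) (nat_lit 4) (nat_lit 4) (nat_lit 5) (nat_lit 4) (nat_lit 4) (nat_lit 474) (nat_lit 314) (nat_lit 232))) (XT.nd (nat_lit 78) (nat_lit 0) (nat_lit 0) (XT.lf (nat_lit 0) (nat_lit 485340561152)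 (nat_lit 76) (nat_lit 42408150736) (nat_lit 76) (nat_lit 37962090670) (nat_lit 3) (nat_lit 4) (nat_lit 4) (nat_lit 5) (nat_lit 4) (nat_lit 4) (nat_lit 475) (nat_lit 314) (nat_lit 231)) (XT.lf (nat_lit 0) (nat_lit 519948128399) (nat_lit 76) (nat_lit 39119976255) (nat_lit 76) (nat_lit 34670160578) (nat_lit 3) (nat_lit 4) (nat_lit 4) (nat_lit 5) (nat_lit 4) (nat_lit 4) (nat_lit 476) (nat_lit 314) (nat_lit 230))))) (XT.nd (nat_lit 234) (nat_lit 0) (nat_lit 0) (XT.nd (nat_lit 78) (nat_lit 0) (nat_lit 0) (XT.lf (nat_lit 0) (nat_lit 556269869204) (nat_lit 76) (nat_lit 35675514362) (nat_lit 76) (nat_lit 31222121913) (nat_lit 3) (nat_lit 4) (nat_lit 4) (nat_lit 5) (nat_lit 4) (nat_lit 4) (nat_lit 477) (nat_lit 314) (nat_lit 229)) (XT.nd (nat_lit 78) (nat_lit 0) (nat_lit 0) (XT.lf (nat_lit 0) (nat_lit 594392263902) (nat_lit 76) (nat_lit 32066563955) (nat_lit 76) (nat_lit 27609765057) (nat_lit 3) (nat_lit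 4) (nat_lit 4) (nat_lit 5) (nat_lit 4) (nat_lit 4) (nat_lit 478) (nat_lit 314) (nat_lit 228)) (XT.lf (nat_lit 0) (nat_lit 634406080100) (nat_lit 76) (nat_lit 28284532297) (nat_lit 76) (nat_lit 23824489161) (nat_lit 3) (nat_lit 4) (nat_lit 4) (nat_lit 5) (nat_lit 4) (nat_lit 4) (nat_lit 479) (nat_lit 314) (nat_lit 227)))) (XT.nd (nat_lit 156) (nat_lit 0) (nat_lit 0) (XT.nd (nat_lit 78) (nat_lit 0) (nat_lit 0) (XT.lf (nat_lit 0) (nat_lit 676406588789) (nat_lit 76) (nat_lit 24320414550) (nat_lit 76) (nat_lit 19857281664) (nat_lit 3) (nat_lit 4) (nat_lit 4) (nat_lit 5) (nat_lit 4) (nat_lit 4) (nat_lit 480) (nat_lit 314) (nat_lit 226)) (XT.lf (nat_lit 0) (nat_lit 720493791179) (nat_lit 76) (nat_lit 20164772338) (nat_lit 76) (nat_lit 15698696833) (nat_lit 3) (nat_lit 4) (nat_lit 4) (nat_lit 5) (nat_lit 4) (nat_lit 4) (nat_lit 481) (nat_lit 314) (nat_lit 225))) (XT.nd (nat_lit 78) (nat_lit 0) (nat_lit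 0) (XT.lf (nat_lit 0) (nat_lit 766772656800) (nat_lit 76) (nat_lit 15807711275) (nat_lit 76) (nat_lit 11338833275) (nat_lit 3) (nat_lit 4) (nat_lit 4) (nat_lit 5) (nat_lit 4) (nat_lit 4) (nat_lit 482) (nat_lit 314) (nat_lit 224)) (XT.lf (nat_lit 0) (nat_lit 815353373428) (nat_lit 76) (nat_lit 11238857406) (nat_lit 76) (nat_lit 6767310364) (nat_lit 3) (nat_lit 4) (nat_lit 4) (nat_lit 5) (nat_lit 4) (nat_lit 4) (nat_lit 483) (nat_lit 314) (nat_lit 223))))))))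
noncomputable def xc42 : XT := (XT.nd (nat_lit 47736) (nat_lit 0) (nat_lit 228) (XT.nd (nat_lit 46644) (nat_lit 0) (nat_lit 912) (XT.nd (nat_lit 46098) (nat_lit 0) (nat_lit 1596) (XT.nd (nat_lit 45864) (nat_lit 0) (nat_lit 2204) (XT.nd (nat_lit 78) (nat_lit 152) (nat_lit 0) (XT.lf (nat_lit 0) (nat_lit 866351609436) (nat_lit 76) (nat_lit 6447332508) (nat_lit 76) (nat_lit 1973243521) (nat_lit 3) (nat_lit 4) (nat_lit 4) (nat_lit 5) (nat_lit 4) (nat_lit 4) (nat_lit 484) (nat_lit 314) (nat_lit 222)) (XT.nd (nat_lit 45708) (nat_lit 0) (nat_lit 2432) (XT.lf (nat_lit 0) (nat_lit 1637778960) (nat_lit 76) (nat_lit 1344800964) (nat_lit 152) (nat_lit 915269492558) (nat_lit 1) (nat_lit 5) (nat_lit 2) (nat_lit 5) (nat_lit 3) (nat_lit 4) (nat_lit 485) (nat_lit 314) (nat_lit 221)) (XT.lf (nat_lit 0) (nat_lit 4335351019) (nat_lit 152) (nat_lit 1593974728) (nat_lit 152) (nat_lit 1593974728) (nat_lit 33) (nat_lit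 4) (nat_lit 35) (nat_lit 5) (nat_lit 35) (nat_lit 4) (nat_lit 390) (nat_lit 315) (nat_lit 315)))) (XT.nd (nat_lit 78) (nat_lit 76) (nat_lit 0) (XT.lf (nat_lit 0) (nat_lit 2711087451) (nat_lit 152) (nat_lit 10413582121) (nat_lit 0) (nat_lit 2360105035) (nat_lit 31) (nat_lit 5) (nat_lit 33) (nat_lit 4) (nat_lit 31) (nat_lit 4) (nat_lit 391) (nat_lit 315) (nat_lit 314)) (XT.nd (nat_lit 78) (nat_lit 0) (nat_lit 0) (XT.lf (nat_lit 0) (nat_lit 911214645) (nat_lit 76) (nat_lit 7858849456) (nat_lit 76) (nat_lit 7173598074) (nat_lit 30) (nat_lit 4) (nat_lit 31) (nat_lit 5) (nat_lit 31) (nat_lit 4) (nat_lit 392) (nat_lit 315) (nat_lit 313)) (XT.lf (nat_lit 0) (nat_lit 12785789884) (nat_lit 76) (nat_lit 2322263578) (nat_lit 76) (nat_lit 1318660799) (nat_lit 30) (nat_lit 4) (nat_lit 31) (nat_lit 5) (nat_lit 31) (nat_lit 4) (nat_lit 393) (nat_lit 315) (nat_lit 312))))) (XT.nd (nat_lit 234) (nat_lit 380)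 (nat_lit 0) (XT.nd (nat_lit 78) (nat_lit 76) (nat_lit 0) (XT.lf (nat_lit 0) (nat_lit 4662760780) (nat_lit 152) (nat_lit 8849800278) (nat_lit 0) (nat_lit 3418194508) (nat_lit 28) (nat_lit 5) (nat_lit 30) (nat_lit 4) (nat_lit 28) (nat_lit 4) (nat_lit 394) (nat_lit 315) (nat_lit 311)) (XT.nd (nat_lit 78) (nat_lit 0) (nat_lit 0) (XT.lf (nat_lit 0) (nat_lit 2717292352) (nat_lit 76) (nat_lit 8131852840) (nat_lit 76) (nat_lit 6612282661) (nat_lit 27) (nat_lit 4) (nat_lit 28) (nat_lit 5) (nat_lit 28) (nat_lit 4) (nat_lit 395) (nat_lit 315) (nat_lit 310)) (XT.lf (nat_lit 0) (nat_lit 14808512894) (nat_lit 76) (nat_lit 2496797810) (nat_lit 76) (nat_lit 715319149) (nat_lit 27) (nat_lit 4) (nat_lit 28) (nat_lit 5) (nat_lit 28) (nat_lit 4) (nat_lit 396) (nat_lit 315) (nat_lit 309)))) (XT.nd (nat_lit 156) (nat_lit 152) (nat_lit 0) (XT.nd (nat_lit 78) (nat_lit 76) (nat_lit 0) (XT.lf (nat_lit 0) (nat_lit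 5308731637) (nat_lit 152) (nat_lit 9919899926) (nat_lit 0) (nat_lit 3374526579) (nat_lit 25) (nat_lit 5) (nat_lit 27) (nat_lit 4) (nat_lit 25) (nat_lit 4) (nat_lit 397) (nat_lit 315) (nat_lit 308)) (XT.lf (nat_lit 0) (nat_lit 1723298358) (nat_lit 76) (nat_lit 9827184660) (nat_lit 76) (nat_lit 7666733207) (nat_lit 24) (nat_lit 4) (nat_lit 25) (nat_lit 5) (nat_lit 25) (nat_lit 4) (nat_lit 398) (nat_lit 315) (nat_lit 307))) (XT.nd (nat_lit 78) (nat_lit 152) (nat_lit 0) (XT.lf (nat_lit 0) (nat_lit 13947581349) (nat_lit 76) (nat_lit 4145450193) (nat_lit 76) (nat_lit 1769525984) (nat_lit 24) (nat_lit 4) (nat_lit 25) (nat_lit 5) (nat_lit 25) (nat_lit 4) (nat_lit 399) (nat_lit 315) (nat_lit 306)) (XT.lf (nat_lit 0) (nat_lit 4230186621) (nat_lit 152) (nat_lit 14537119964) (nat_lit 0) (nat_lit 1771961518) (nat_lit 22) (nat_lit 5) (nat_lit 24) (nat_lit 4) (nat_lit 22) (nat_lit 4) (nat_lit 400) (nat_lit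 315) (nat_lit 305)))))) (XT.nd (nat_lit 546) (nat_lit 304) (nat_lit 0) (XT.nd (nat_lit 234) (nat_lit 228) (nat_lit 0) (XT.nd (nat_lit 78) (nat_lit 152) (nat_lit 0) (XT.lf (nat_lit 0) (nat_lit 10467266783) (nat_lit 152) (nat_lit 2958359946) (nat_lit 0) (nat_lit 7822908211) (nat_lit 22) (nat_lit 5) (nat_lit 24) (nat_lit 4) (nat_lit 22) (nat_lit 4) (nat_lit 401) (nat_lit 315) (nat_lit 304)) (XT.nd (nat_lit 78) (nat_lit 76) (nat_lit 0) (XT.lf (nat_lit 0) (nat_lit 9173491200) (nat_lit 76) (nat_lit 7821244361) (nat_lit 76) (nat_lit 4999615819) (nat_lit 21) (nat_lit 4) (nat_lit 22) (nat_lit 5) (nat_lit 22) (nat_lit 4) (nat_lit 402) (nat_lit 315) (nat_lit 303)) (XT.lf (nat_lit 0) (nat_lit 923341433) (nat_lit 152) (nat_lit 1097607146) (nat_lit 76) (nat_lit 20761360449) (nat_lit 20) (nat_lit 5) (nat_lit 22) (nat_lit 5) (nat_lit 21) (nat_lit 4) (nat_lit 403) (nat_lit 315) (nat_lit 302)))) (XT.nd (nat_lit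 156) (nat_lit 152) (nat_lit 0) (XT.nd (nat_lit 78) (nat_lit 0) (nat_lit 0) (XT.lf (nat_lit 0) (nat_lit 7057870659) (nat_lit 152) (nat_lit 12486851049) (nat_lit 0) (nat_lit 4056683828) (nat_lit 19) (nat_lit 5) (nat_lit 21) (nat_lit 4) (nat_lit 19) (nat_lit 4) (nat_lit 404) (nat_lit 315) (nat_lit 301)) (XT.lf (nat_lit 0) (nat_lit 13395063890) (nat_lit 152) (nat_lit 823570175) (nat_lit 0) (nat_lit 10248036615) (nat_lit 19) (nat_lit 5) (nat_lit 21) (nat_lit 4) (nat_lit 19) (nat_lit 4) (nat_lit 405) (nat_lit 315) (nat_lit 300))) (XT.nd (nat_lit 78) (nat_lit 76) (nat_lit 0) (XT.lf (nat_lit 0) (nat_lit 11500448200) (nat_lit 76) (nat_lit 8579569476) (nat_lit 76) (nat_lit 5293646541) (nat_lit 18) (nat_lit 4) (nat_lit 19) (nat_lit 5) (nat_lit 19) (nat_lit 4) (nat_lit 406) (nat_lit 315) (nat_lit 299)) (XT.lf (nat_lit 0) (nat_lit 614199725) (nat_lit 152) (nat_lit 2159095078) (nat_lit 76) (nat_lit 23558831480)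 (nat_lit 17) (nat_lit 5) (nat_lit 19) (nat_lit 5) (nat_lit 18) (nat_lit 4) (nat_lit 407) (nat_lit 315) (nat_lit 298))))) (XT.nd (nat_lit 234) (nat_lit 152) (nat_lit 0) (XT.nd (nat_lit 78) (nat_lit 76) (nat_lit 0) (XT.lf (nat_lit 0) (nat_lit 6709637207) (nat_lit 152) (nat_lit 17286817937) (nat_lit 0) (nat_lit 3334221041) (nat_lit 16) (nat_lit 5) (nat_lit 18) (nat_lit 4) (nat_lit 16) (nat_lit 4) (nat_lit 408) (nat_lit 315) (nat_lit 297)) (XT.nd (nat_lit 78) (nat_lit 76) (nat_lit 0) (XT.lf (nat_lit 0) (nat_lit 13051496785) (nat_lit 152) (nat_lit 5768771843) (nat_lit 0) (nat_lit 9561810817) (nat_lit 16) (nat_lit 5) (nat_lit 18) (nat_lit 4) (nat_lit 16) (nat_lit 4) (nat_lit 409) (nat_lit 315) (nat_lit 296)) (XT.lf (nat_lit 0) (nat_lit 6261486667) (nat_lit 76) (nat_lit 13412456909) (nat_lit 76) (nat_lit 9813942556) (nat_lit 15) (nat_lit 4) (nat_lit 16) (nat_lit 5) (nat_lit 16) (nat_lit 4) (nat_lit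 410) (nat_lit 315) (nat_lit 295)))) (XT.nd (nat_lit 156) (nat_lit 76) (nat_lit 0) (XT.nd (nat_lit 78) (nat_lit 76) (nat_lit 0) (XT.lf (nat_lit 0) (nat_lit 18833699893) (nat_lit 76) (nat_lit 7759581429) (nat_lit 76) (nat_lit 4057420997) (nat_lit 15) (nat_lit 4) (nat_lit 16) (nat_lit 5) (nat_lit 16) (nat_lit 4) (nat_lit 411) (nat_lit 315) (nat_lit 294)) (XT.lf (nat_lit 0) (nat_lit 1795619779) (nat_lit 152) (nat_lit 119850437) (nat_lit 76) (nat_lit 29961030555) (nat_lit 14) (nat_lit 5) (nat_lit 16) (nat_lit 5) (nat_lit 15) (nat_lit 4) (nat_lit 412) (nat_lit 315) (nat_lit 293))) (XT.nd (nat_lit 78) (nat_lit 0) (nat_lit 0) (XT.lf (nat_lit 0) (nat_lit 7942831159) (nat_lit 152) (nat_lit 20977124419) (nat_lit 0) (nat_lit 4233420649) (nat_lit 13) (nat_lit 5) (nat_lit 15) (nat_lit 4) (nat_lit 13) (nat_lit 4) (nat_lit 413) (nat_lit 315) (nat_lit 292)) (XT.lf (nat_lit 0) (nat_lit 14309529747) (nat_lit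 152) (nat_lit 9674116274) (nat_lit 0) (nat_lit 10514849351) (nat_lit 13) (nat_lit 5) (nat_lit 15) (nat_lit 4) (nat_lit 13) (nat_lit 4) (nat_lit 414) (nat_lit 315) (nat_lit 291))))))) (XT.nd (nat_lit 1014) (nat_lit 228) (nat_lit 0) (XT.nd (nat_lit 468) (nat_lit 228) (nat_lit 0) (XT.nd (nat_lit 234) (nat_lit 152) (nat_lit 0) (XT.nd (nat_lit 78) (nat_lit 0) (nat_lit 0) (XT.lf (nat_lit 0) (nat_lit 2030450336) (nat_lit 76) (nat_lit 18880254414) (nat_lit 76) (nat_lit 15004364602) (nat_lit 12) (nat_lit 4) (nat_lit 13) (nat_lit 5) (nat_lit 13) (nat_lit 4) (nat_lit 415) (nat_lit 315) (nat_lit 290)) (XT.nd (nat_lit 78) (nat_lit 0) (nat_lit 0) (XT.lf (nat_lit 0) (nat_lit 14431216478) (nat_lit 76) (nat_lit 13460989969) (nat_lit 76) (nat_lit 9507757856) (nat_lit 12) (nat_lit 4) (nat_lit 13) (nat_lit 5) (nat_lit 13) (nat_lit 4) (nat_lit 416) (nat_lit 315) (nat_lit 289)) (XT.lf (nat_lit 0) (nat_lit 27237837810)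 (nat_lit 76) (nat_lit 7876785516) (nat_lit 76) (nat_lit 3849894069) (nat_lit 12) (nat_lit 4) (nat_lit 13) (nat_lit 5) (nat_lit 13) (nat_lit 4) (nat_lit 417) (nat_lit 315) (nat_lit 288)))) (XT.nd (nat_lit 78) (nat_lit 76) (nat_lit 0) (XT.lf (nat_lit 0) (nat_lit 1919239149) (nat_lit 152) (nat_lit 162602937) (nat_lit 76) (nat_lit 38529063894) (nat_lit 11) (nat_lit 5) (nat_lit 13) (nat_lit 5) (nat_lit 12) (nat_lit 4) (nat_lit 418) (nat_lit 315) (nat_lit 287)) (XT.nd (nat_lit 78) (nat_lit 0) (nat_lit 0) (XT.lf (nat_lit 0) (nat_lit 8001847279) (nat_lit 152) (nat_lit 30290624054) (nat_lit 0) (nat_lit 4036271678) (nat_lit 10) (nat_lit 5) (nat_lit 12) (nat_lit 4) (nat_lit 10) (nat_lit 4) (nat_lit 419) (nat_lit 315) (nat_lit 286)) (XT.lf (nat_lit 0) (nat_lit 14326004797) (nat_lit 152) (nat_lit 19509771107) (nat_lit 0) (nat_lit 10299829480) (nat_lit 10) (nat_lit 5) (nat_lit 12) (nat_lit 4) (nat_lit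 10) (nat_lit 4) (nat_lit 420) (nat_lit 315) (nat_lit 285))))) (XT.nd (nat_lit 234) (nat_lit 152) (nat_lit 0) (XT.nd (nat_lit 78) (nat_lit 76) (nat_lit 0) (XT.lf (nat_lit 0) (nat_lit 20871600211) (nat_lit 152) (nat_lit 8378242517) (nat_lit 0) (nat_lit 16787710878) (nat_lit 10) (nat_lit 5) (nat_lit 12) (nat_lit 4) (nat_lit 10) (nat_lit 4) (nat_lit 421) (nat_lit 315) (nat_lit 284)) (XT.nd (nat_lit 78) (nat_lit 0) (nat_lit 0) (XT.lf (nat_lit 0) (nat_lit 3233972678) (nat_lit 76) (nat_lit 24470736969) (nat_lit 76) (nat_lit 20331881907) (nat_lit 9) (nat_lit 4) (nat_lit 10) (nat_lit 5) (nat_lit 10) (nat_lit 4) (nat_lit 422) (nat_lit 315) (nat_lit 283)) (XT.lf (nat_lit 0) (nat_lit 15541168652) (nat_lit 76) (nat_lit 19391480613) (nat_lit 76) (nat_lit 15200277237) (nat_lit 9) (nat_lit 4) (nat_lit 10) (nat_lit 5) (nat_lit 10) (nat_lit 4) (nat_lit 423) (nat_lit 315) (nat_lit 282)))) (XT.nd (nat_lit 156)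 (nat_lit 152) (nat_lit 0) (XT.nd (nat_lit 78) (nat_lit 0) (nat_lit 0) (XT.lf (nat_lit 0) (nat_lit 28295625716) (nat_lit 76) (nat_lit 14141869782) (nat_lit 76) (nat_lit 9900810870) (nat_lit 9) (nat_lit 4) (nat_lit 10) (nat_lit 5) (nat_lit 10) (nat_lit 4) (nat_lit 424) (nat_lit 315) (nat_lit 281)) (XT.lf (nat_lit 0) (nat_lit 41527711626) (nat_lit 76) (nat_lit 8709405404) (nat_lit 76) (nat_lit 4420865029) (nat_lit 9) (nat_lit 4) (nat_lit 10) (nat_lit 5) (nat_lit 10) (nat_lit 4) (nat_lit 425) (nat_lit 315) (nat_lit 280))) (XT.nd (nat_lit 78) (nat_lit 76) (nat_lit 0) (XT.lf (nat_lit 0) (nat_lit 1212516504) (nat_lit 152) (nat_lit 1848101982) (nat_lit 76) (nat_lit 54035880289) (nat_lit 8) (nat_lit 5) (nat_lit 10) (nat_lit 5) (nat_lit 9) (nat_lit 4) (nat_lit 426) (nat_lit 315) (nat_lit 279)) (XT.lf (nat_lit 0) (nat_lit 7109966312) (nat_lit 152) (nat_lit 49595247114) (nat_lit 0) (nat_lit 2941558784)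 (nat_lit 7) (nat_lit 5) (nat_lit 9) (nat_lit 4) (nat_lit 7) (nat_lit 4) (nat_lit 427) (nat_lit 315) (nat_lit 278)))))) (XT.nd (nat_lit 546) (nat_lit 152) (nat_lit 0) (XT.nd (nat_lit 234) (nat_lit 76) (nat_lit 0) (XT.nd (nat_lit 78) (nat_lit 0) (nat_lit 0) (XT.lf (nat_lit 0) (nat_lit 13310223335) (nat_lit 152) (nat_lit 39911189419) (nat_lit 0) (nat_lit 9102752690) (nat_lit 7) (nat_lit 5) (nat_lit 9) (nat_lit 4) (nat_lit 7) (nat_lit 4) (nat_lit 428) (nat_lit 315) (nat_lit 277)) (XT.nd (nat_lit 78) (nat_lit 0) (nat_lit 0) (XT.lf (nat_lit 0) (nat_lit 19749968505) (nat_lit 152) (nat_lit 29883693906) (nat_lit 0) (nat_lit 15505294890) (nat_lit 7) (nat_lit 5) (nat_lit 9) (nat_lit 4) (nat_lit 7) (nat_lit 4) (nat_lit 429) (nat_lit 315) (nat_lit 276)) (XT.lf (nat_lit 0) (nat_lit 26444534547) (nat_lit 152) (nat_lit 19488885587) (nat_lit 0) (nat_lit 22164429534) (nat_lit 7) (nat_lit 5) (nat_lit 9) (nat_lit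 4) (nat_lit 7) (nat_lit 4) (nat_lit 430) (nat_lit 315) (nat_lit 275)))) (XT.nd (nat_lit 156) (nat_lit 0) (nat_lit 0) (XT.nd (nat_lit 78) (nat_lit 76) (nat_lit 0) (XT.lf (nat_lit 0) (nat_lit 33409860905) (nat_lit 152) (nat_lit 8702014917) (nat_lit 0) (nat_lit 29096011702) (nat_lit 7) (nat_lit 5) (nat_lit 9) (nat_lit 4) (nat_lit 7) (nat_lit 4) (nat_lit 431) (nat_lit 315) (nat_lit 274)) (XT.lf (nat_lit 0) (nat_lit 2585348422) (nat_lit 76) (nat_lit 38117547801) (nat_lit 76) (nat_lit 33771561274) (nat_lit 6) (nat_lit 4) (nat_lit 7) (nat_lit 5) (nat_lit 7) (nat_lit 4) (nat_lit 432) (nat_lit 315) (nat_lit 273))) (XT.nd (nat_lit 78) (nat_lit 0) (nat_lit 0) (XT.lf (nat_lit 0) (nat_lit 14619557341) (nat_lit 76) (nat_lit 33828510083) (nat_lit 76) (nat_lit 29451916582) (nat_lit 6) (nat_lit 4) (nat_lit 7) (nat_lit 5) (nat_lit 7) (nat_lit 4) (nat_lit 433) (nat_lit 315) (nat_lit 272)) (XT.lf (nat_lit 0)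 (nat_lit 27141536804) (nat_lit 76) (nat_lit 29381923508) (nat_lit 76) (nat_lit 24976180507) (nat_lit 6) (nat_lit 4) (nat_lit 7) (nat_lit 5) (nat_lit 7) (nat_lit 4) (nat_lit 434) (nat_lit 315) (nat_lit 271))))) (XT.nd (nat_lit 234) (nat_lit 152) (nat_lit 0) (XT.nd (nat_lit 78) (nat_lit 0) (nat_lit 0) (XT.lf (nat_lit 0) (nat_lit 40181101048) (nat_lit 76) (nat_lit 24767200966) (nat_lit 76) (nat_lit 20333696537) (nat_lit 6) (nat_lit 4) (nat_lit 7) (nat_lit 5) (nat_lit 7) (nat_lit 4) (nat_lit 435) (nat_lit 315) (nat_lit 270)) (XT.nd (nat_lit 78) (nat_lit 0) (nat_lit 0) (XT.lf (nat_lit 0) (nat_lit 53769296654) (nat_lit 76) (nat_lit 19973355022) (nat_lit 76) (nat_lit 15513411137) (nat_lit 6) (nat_lit 4) (nat_lit 7) (nat_lit 5) (nat_lit 7) (nat_lit 4) (nat_lit 436) (nat_lit 315) (nat_lit 269)) (XT.lf (nat_lit 0) (nat_lit 67938476469) (nat_lit 76) (nat_lit 14988971756) (nat_lit 76) (nat_lit 10503847438)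 (nat_lit 6) (nat_lit 4) (nat_lit 7) (nat_lit 5) (nat_lit 7) (nat_lit 4) (nat_lit 437) (nat_lit 315) (nat_lit 268)))) (XT.nd (nat_lit 156) (nat_lit 76) (nat_lit 0) (XT.nd (nat_lit 78) (nat_lit 76) (nat_lit 0) (XT.lf (nat_lit 0) (nat_lit 82722376635) (nat_lit 76) (nat_lit 9802183590) (nat_lit 76) (nat_lit 5293077906) (nat_lit 6) (nat_lit 4) (nat_lit 7) (nat_lit 5) (nat_lit 7) (nat_lit 4) (nat_lit 438) (nat_lit 315) (nat_lit 267)) (XT.lf (nat_lit 0) (nat_lit 127101501) (nat_lit 152) (nat_lit 4271387002) (nat_lit 76) (nat_lit 98026942888) (nat_lit 5) (nat_lit 5) (nat_lit 7) (nat_lit 5) (nat_lit 6) (nat_lit 4) (nat_lit 439) (nat_lit 315) (nat_lit 266))) (XT.nd (nat_lit 78) (nat_lit 0) (nat_lit 0) (XT.lf (nat_lit 0) (nat_lit 5731257278) (nat_lit 152) (nat_lit 100129074386) (nat_lit 0) (nat_lit 1394403102) (nat_lit 4) (nat_lit 5) (nat_lit 6) (nat_lit 4) (nat_lit 4) (nat_lit 4) (nat_lit 440) (nat_lit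 315) (nat_lit 265)) (XT.lf (nat_lit 0) (nat_lit 11718057980) (nat_lit 152) (nat_lit 93240850646) (nat_lit 0) (nat_lit 7361474274) (nat_lit 4) (nat_lit 5) (nat_lit 6) (nat_lit 4) (nat_lit 4) (nat_lit 4) (nat_lit 441) (nat_lit 315) (nat_lit 264))))))))
noncomputable def xc43 : XT := (XT.nd (nat_lit 2106) (nat_lit 0) (nat_lit 0) (XT.nd (nat_lit 1014) (nat_lit 0) (nat_lit 0) (XT.nd (nat_lit 468) (nat_lit 76) (nat_lit 0) (XT.nd (nat_lit 234) (nat_lit 0) (nat_lit 0) (XT.nd (nat_lit 78) (nat_lit 0) (nat_lit 0) (XT.lf (nat_lit 0) (nat_lit 17963062422) (nat_lit 152) (nat_lit 86090620520) (nat_lit 0) (nat_lit 13587688689) (nat_lit 4) (nat_lit 5) (nat_lit 6) (nat_lit 4) (nat_lit 4) (nat_lit 4) (nat_lit 442) (nat_lit 315) (nat_lit 263)) (XT.nd (nat_lit 78) (nat_lit 0) (nat_lit 0) (XT.lf (nat_lit 0) (nat_lit 24481139664) (nat_lit 152) (nat_lit 78661359651) (nat_lit 0) (nat_lit 20087870667) (nat_lit 4)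 (nat_lit 5) (nat_lit 6) (nat_lit 4) (nat_lit 4) (nat_lit 4) (nat_lit 443) (nat_lit 315) (nat_lit 262)) (XT.lf (nat_lit 0) (nat_lit 31287808938) (nat_lit 152) (nat_lit 70935379322) (nat_lit 0) (nat_lit 26877496832) (nat_lit 4) (nat_lit 5) (nat_lit 6) (nat_lit 4) (nat_lit 4) (nat_lit 4) (nat_lit 444) (nat_lit 315) (nat_lit 261)))) (XT.nd (nat_lit 78) (nat_lit 0) (nat_lit 0) (XT.lf (nat_lit 0) (nat_lit 38399276598) (nat_lit 152) (nat_lit 62894284343) (nat_lit 0) (nat_lit 33972732960) (nat_lit 4) (nat_lit 5) (nat_lit 6) (nat_lit 4) (nat_lit 4) (nat_lit 4) (nat_lit 445) (nat_lit 315) (nat_lit 260)) (XT.nd (nat_lit 78) (nat_lit 0) (nat_lit 0) (XT.lf (nat_lit 0) (nat_lit 45832474710) (nat_lit 152) (nat_lit 54518929249) (nat_lit 0) (nat_lit 41390472470) (nat_lit 4) (nat_lit 5) (nat_lit 6) (nat_lit 4) (nat_lit 4) (nat_lit 4) (nat_lit 446) (nat_lit 315) (nat_lit 259)) (XT.lf (nat_lit 0) (nat_lit 53605101365)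 (nat_lit 152) (nat_lit 45789372719) (nat_lit 0) (nat_lit 49148376647) (nat_lit 4) (nat_lit 5) (nat_lit 6) (nat_lit 4) (nat_lit 4) (nat_lit 4) (nat_lit 447) (nat_lit 315) (nat_lit 258))))) (XT.nd (nat_lit 234) (nat_lit 76) (nat_lit 0) (XT.nd (nat_lit 78) (nat_lit 0) (nat_lit 0) (XT.lf (nat_lit 0) (nat_lit 61735662817) (nat_lit 152) (nat_lit 36684830093) (nat_lit 0) (nat_lit 57264916691) (nat_lit 4) (nat_lit 5) (nat_lit 6) (nat_lit 4) (nat_lit 4) (nat_lit 4) (nat_lit 448) (nat_lit 315) (nat_lit 257)) (XT.nd (nat_lit 78) (nat_lit 0) (nat_lit 0) (XT.lf (nat_lit 0) (nat_lit 70243517546) (nat_lit 152) (nat_lit 27183623891) (nat_lit 0) (nat_lit 65759417698) (nat_lit 4) (nat_lit 5) (nat_lit 6) (nat_lit 4) (nat_lit 4) (nat_lit 4) (nat_lit 449) (nat_lit 315) (nat_lit 256)) (XT.lf (nat_lit 0) (nat_lit 79148922349) (nat_lit 152) (nat_lit 17263132191) (nat_lit 0) (nat_lit 74652104671) (nat_lit 4) (nat_lit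 5) (nat_lit 6) (nat_lit 4) (nat_lit 4) (nat_lit 4) (nat_lit 450) (nat_lit 315) (nat_lit 255)))) (XT.nd (nat_lit 156) (nat_lit 0) (nat_lit 0) (XT.nd (nat_lit 78) (nat_lit 76) (nat_lit 0) (XT.lf (nat_lit 0) (nat_lit 88473080569) (nat_lit 152) (nat_lit 6899734776) (nat_lit 0) (nat_lit 83964150672) (nat_lit 4) (nat_lit 5) (nat_lit 6) (nat_lit 4) (nat_lit 4) (nat_lit 4) (nat_lit 451) (nat_lit 315) (nat_lit 254)) (XT.lf (nat_lit 0) (nat_lit 4061227760) (nat_lit 76) (nat_lit 94240371972) (nat_lit 76) (nat_lit 89719906628) (nat_lit 3) (nat_lit 4) (nat_lit 4) (nat_lit 5) (nat_lit 4) (nat_lit 4) (nat_lit 452) (nat_lit 315) (nat_lit 253))) (XT.nd (nat_lit 78) (nat_lit 0) (nat_lit 0) (XT.lf (nat_lit 0) (nat_lit 15760008194) (nat_lit 76) (nat_lit 92953558364) (nat_lit 76) (nat_lit 88422106881) (nat_lit 3) (nat_lit 4) (nat_lit 4) (nat_lit 5) (nat_lit 4) (nat_lit 4) (nat_lit 453) (nat_lit 315) (nat_lit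 252)) (XT.lf (nat_lit 0) (nat_lit 27996324371) (nat_lit 76) (nat_lit 91626161029) (nat_lit 76) (nat_lit 87084246555) (nat_lit 3) (nat_lit 4) (nat_lit 4) (nat_lit 5) (nat_lit 4) (nat_lit 4) (nat_lit 454) (nat_lit 315) (nat_lit 251)))))) (XT.nd (nat_lit 546) (nat_lit 0) (nat_lit 0) (XT.nd (nat_lit 234) (nat_lit 0) (nat_lit 0) (XT.nd (nat_lit 78) (nat_lit 0) (nat_lit 0) (XT.lf (nat_lit 0) (nat_lit 40799310379) (nat_lit 76) (nat_lit 90255019495) (nat_lit 76) (nat_lit 85703140268) (nat_lit 3) (nat_lit 4) (nat_lit 4) (nat_lit 5) (nat_lit 4) (nat_lit 4) (nat_lit 455) (nat_lit 315) (nat_lit 250)) (XT.nd (nat_lit 78) (nat_lit 0) (nat_lit 0) (XT.lf (nat_lit 0) (nat_lit 54199449517) (nat_lit 76) (nat_lit 88836869141) (nat_lit 76) (nat_lit 84275499673) (nat_lit 3) (nat_lit 4) (nat_lit 4) (nat_lit 5) (nat_lit 4) (nat_lit 4) (nat_lit 456) (nat_lit 315) (nat_lit 249)) (XT.lf (nat_lit 0) (nat_lit 68228646877)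 (nat_lit 76) (nat_lit 87368333417) (nat_lit 76) (nat_lit 82797925625) (nat_lit 3) (nat_lit 4) (nat_lit 4) (nat_lit 5) (nat_lit 4) (nat_lit 4) (nat_lit 457) (nat_lit 315) (nat_lit 248)))) (XT.nd (nat_lit 156) (nat_lit 0) (nat_lit 0) (XT.nd (nat_lit 78) (nat_lit 0) (nat_lit 0) (XT.lf (nat_lit 0) (nat_lit 82920305312) (nat_lit 76) (nat_lit 85845915811) (nat_lit 76) (nat_lit 81266900091) (nat_lit 3) (nat_lit 4) (nat_lit 4) (nat_lit 5) (nat_lit 4) (nat_lit 4) (nat_lit 458) (nat_lit 315) (nat_lit 247)) (XT.lf (nat_lit 0) (nat_lit 98309404961) (nat_lit 76) (nat_lit 84265991518) (nat_lit 76) (nat_lit 79678777771) (nat_lit 3) (nat_lit 4) (nat_lit 4) (nat_lit 5) (nat_lit 4) (nat_lit 4) (nat_lit 459) (nat_lit 315) (nat_lit 246))) (XT.nd (nat_lit 78) (nat_lit 0) (nat_lit 0) (XT.lf (nat_lit 0) (nat_lit 114432586535) (nat_lit 76) (nat_lit 82624798814) (nat_lit 76) (nat_lit 78029777423) (nat_lit 3) (nat_lit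 4) (nat_lit 4) (nat_lit 5) (nat_lit 4) (nat_lit 4) (nat_lit 460) (nat_lit 315) (nat_lit 245)) (XT.lf (nat_lit 0) (nat_lit 131328238564) (nat_lit 76) (nat_lit 80918430097) (nat_lit 76) (nat_lit 76315972854) (nat_lit 3) (nat_lit 4) (nat_lit 4) (nat_lit 5) (nat_lit 4) (nat_lit 4) (nat_lit 461) (nat_lit 315) (nat_lit 244))))) (XT.nd (nat_lit 234) (nat_lit 0) (nat_lit 0) (XT.nd (nat_lit 78) (nat_lit 0) (nat_lit 0) (XT.lf (nat_lit 0) (nat_lit 149036588790) (nat_lit 76) (nat_lit 79142822585) (nat_lit 76) (nat_lit 74533283578) (nat_lit 3) (nat_lit 4) (nat_lit 4) (nat_lit 5) (nat_lit 4) (nat_lit 4) (nat_lit 462) (nat_lit 315) (nat_lit 243)) (XT.nd (nat_lit 78) (nat_lit 0) (nat_lit 0) (XT.lf (nat_lit 0) (nat_lit 167599799952) (nat_lit 76) (nat_lit 77293748640) (nat_lit 76) (nat_lit 72677465096) (nat_lit 3) (nat_lit 4) (nat_lit 4) (nat_lit 5) (nat_lit 4) (nat_lit 4) (nat_lit 463) (nat_lit 315) (nat_lit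 242)) (XT.lf (nat_lit 0) (nat_lit 187062070172) (nat_lit 76) (nat_lit 75366805706) (nat_lit 76) (nat_lit 70744098793) (nat_lit 3) (nat_lit 4) (nat_lit 4) (nat_lit 5) (nat_lit 4) (nat_lit 4) (nat_lit 464) (nat_lit 315) (nat_lit 241)))) (XT.nd (nat_lit 156) (nat_lit 0) (nat_lit 0) (XT.nd (nat_lit 78) (nat_lit 0) (nat_lit 0) (XT.lf (nat_lit 0) (nat_lit 207469738188) (nat_lit 76) (nat_lit 73357405823) (nat_lit 76) (nat_lit 68728581417) (nat_lit 3) (nat_lit 4) (nat_lit 4) (nat_lit 5) (nat_lit 4) (nat_lit 4) (nat_lit 465) (nat_lit 315) (nat_lit 240)) (XT.lf (nat_lit 0) (nat_lit 228871393685) (nat_lit 76) (nat_lit 71260764706) (nat_lit 76) (nat_lit 66626114115) (nat_lit 3) (nat_lit 4) (nat_lit 4) (nat_lit 5) (nat_lit 4) (nat_lit 4) (nat_lit 466) (nat_lit 315) (nat_lit 239))) (XT.nd (nat_lit 78) (nat_lit 0) (nat_lit 0) (XT.lf (nat_lit 0) (nat_lit 251317992988) (nat_lit 76) (nat_lit 69071890351) (nat_lit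 76) (nat_lit 64431691014) (nat_lit 3) (nat_lit 4) (nat_lit 4) (nat_lit 5) (nat_lit 4) (nat_lit 4) (nat_lit 467) (nat_lit 315) (nat_lit 238)) (XT.lf (nat_lit 0) (nat_lit 274862980379) (nat_lit 76) (nat_lit 66785571155) (nat_lit 76) (nat_lit 62140087296) (nat_lit 3) (nat_lit 4) (nat_lit 4) (nat_lit 5) (nat_lit 4) (nat_lit 4) (nat_lit 468) (nat_lit 315) (nat_lit 237))))))) (XT.nd (nat_lit 1092) (nat_lit 0) (nat_lit 0) (XT.nd (nat_lit 546) (nat_lit 0) (nat_lit 0) (XT.nd (nat_lit 234) (nat_lit 0) (nat_lit 0) (XT.nd (nat_lit 78) (nat_lit 0) (nat_lit 0) (XT.lf (nat_lit 0) (nat_lit 299562415352) (nat_lit 76) (nat_lit 64396363499) (nat_lit 76) (nat_lit 59745846762) (nat_lit 3) (nat_lit 4) (nat_lit 4) (nat_lit 5) (nat_lit 4) (nat_lit 4) (nat_lit 469) (nat_lit 315) (nat_lit 236)) (XT.nd (nat_lit 78) (nat_lit 0) (nat_lit 0) (XT.lf (nat_lit 0) (nat_lit 325475106086) (nat_lit 76) (nat_lit 61898578793)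 (nat_lit 76) (nat_lit 57243268840) (nat_lit 3) (nat_lit 4) (nat_lit 4) (nat_lit 5) (nat_lit 4) (nat_lit 4) (nat_lit 470) (nat_lit 315) (nat_lit 235)) (XT.lf (nat_lit 0) (nat_lit 352662749464) (nat_lit 76) (nat_lit 59286269932) (nat_lit 76) (nat_lit 54626395011) (nat_lit 3) (nat_lit 4) (nat_lit 4) (nat_lit 5) (nat_lit 4) (nat_lit 4) (nat_lit 471) (nat_lit 315) (nat_lit 234)))) (XT.nd (nat_lit 156) (nat_lit 0) (nat_lit 0) (XT.nd (nat_lit 78) (nat_lit 0) (nat_lit 0) (XT.lf (nat_lit 0) (nat_lit 381190077970) (nat_lit 76) (nat_lit 56553217132) (nat_lit 76) (nat_lit 51888994623) (nat_lit 3) (nat_lit 4) (nat_lit 4) (nat_lit 5) (nat_lit 4) (nat_lit 4) (nat_lit 472) (nat_lit 315) (nat_lit 233)) (XT.lf (nat_lit 0) (nat_lit 411125013814) (nat_lit 76) (nat_lit 53692913125) (nat_lit 76) (nat_lit 49024550055) (nat_lit 3) (nat_lit 4) (nat_lit 4) (nat_lit 5) (nat_lit 4) (nat_lit 4) (nat_lit 473) (nat_lit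 315) (nat_lit 232))) (XT.nd (nat_lit 78) (nat_lit 0) (nat_lit 0) (XT.lf (nat_lit 0) (nat_lit 442538830654) (nat_lit 76) (nat_lit 50698547662) (nat_lit 76) (nat_lit 46026241202) (nat_lit 3) (nat_lit 4) (nat_lit 4) (nat_lit 5) (nat_lit 4) (nat_lit 4) (nat_lit 474) (nat_lit 315) (nat_lit 231)) (XT.lf (nat_lit 0) (nat_lit 475506323291) (nat_lit 76) (nat_lit 47562991304) (nat_lit 76) (nat_lit 42886929232) (nat_lit 3) (nat_lit 4) (nat_lit 4) (nat_lit 5) (nat_lit 4) (nat_lit 4) (nat_lit 475) (nat_lit 315) (nat_lit 230))))) (XT.nd (nat_lit 234) (nat_lit 0) (nat_lit 0) (XT.nd (nat_lit 78) (nat_lit 0) (nat_lit 0) (XT.lf (nat_lit 0) (nat_lit 510105985755) (nat_lit 76) (nat_lit 44278778438) (nat_lit 76) (nat_lit 39599139595) (nat_lit 3) (nat_lit 4) (nat_lit 4) (nat_lit 5) (nat_lit 4) (nat_lit 4) (nat_lit 476) (nat_lit 315) (nat_lit 229)) (XT.nd (nat_lit 78) (nat_lit 0) (nat_lit 0) (XT.lf (nat_lit 0)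 (nat_lit 546420198196) (nat_lit 76) (nat_lit 40838089511) (nat_lit 76) (nat_lit 36155044219) (nat_lit 3) (nat_lit 4) (nat_lit 4) (nat_lit 5) (nat_lit 4) (nat_lit 4) (nat_lit 477) (nat_lit 315) (nat_lit 228)) (XT.lf (nat_lit 0) (nat_lit 584535423023) (nat_lit 76) (nat_lit 37232732407) (nat_lit 76) (nat_lit 32546442876) (nat_lit 3) (nat_lit 4) (nat_lit 4) (nat_lit 5) (nat_lit 4) (nat_lit 4) (nat_lit 478) (nat_lit 315) (nat_lit 227)))) (XT.nd (nat_lit 156) (nat_lit 0) (nat_lit 0) (XT.nd (nat_lit 78) (nat_lit 0) (nat_lit 0) (XT.lf (nat_lit 0) (nat_lit 624542410772) (nat_lit 76) (nat_lit 33454122940) (nat_lit 76) (nat_lit 28764743660) (nat_lit 3) (nat_lit 4) (nat_lit 4) (nat_lit 5) (nat_lit 4) (nat_lit 4) (nat_lit 479) (nat_lit 315) (nat_lit 226)) (XT.lf (nat_lit 0) (nat_lit 666536416177) (nat_lit 76) (nat_lit 29493264424) (nat_lit 76) (nat_lit 24800942524) (nat_lit 3) (nat_lit 4) (nat_lit 4)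 (nat_lit 5) (nat_lit 4) (nat_lit 4) (nat_lit 480) (nat_lit 315) (nat_lit 225))) (XT.nd (nat_lit 78) (nat_lit 0) (nat_lit 0) (XT.lf (nat_lit 0) (nat_lit 710617424963) (nat_lit 76) (nat_lit 25340726241) (nat_lit 76) (nat_lit 20645601847) (nat_lit 3) (nat_lit 4) (nat_lit 4) (nat_lit 5) (nat_lit 4) (nat_lit 4) (nat_lit 481) (nat_lit 315) (nat_lit 224)) (XT.lf (nat_lit 0) (nat_lit 756890391914) (nat_lit 76) (nat_lit 20986621396) (nat_lit 76) (nat_lit 16288827960) (nat_lit 3) (nat_lit 4) (nat_lit 4) (nat_lit 5) (nat_lit 4) (nat_lit 4) (nat_lit 482) (nat_lit 315) (nat_lit 223)))))) (XT.nd (nat_lit 46020) (nat_lit 0) (nat_lit 1672) (XT.nd (nat_lit 45708) (nat_lit 0) (nat_lit 2128) (XT.nd (nat_lit 78) (nat_lit 0) (nat_lit 0) (XT.lf (nat_lit 0) (nat_lit 805465490760) (nat_lit 76) (nat_lit 16420582973) (nat_lit 76) (nat_lit 11720247592) (nat_lit 3) (nat_lit 4) (nat_lit 4) (nat_lit 5) (nat_lit 4) (nat_lit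 4) (nat_lit 483) (nat_lit 315) (nat_lit 222)) (XT.nd (nat_lit 78) (nat_lit 0) (nat_lit 0) (XT.lf (nat_lit 0) (nat_lit 856458376499) (nat_lit 76) (nat_lit 11631739452) (nat_lit 76) (nat_lit 6928983171) (nat_lit 3) (nat_lit 4) (nat_lit 4) (nat_lit 5) (nat_lit 4) (nat_lit 4) (nat_lit 484) (nat_lit 315) (nat_lit 221)) (XT.lf (nat_lit 0) (nat_lit 909990460764) (nat_lit 76) (nat_lit 6608688825) (nat_lit 76) (nat_lit 1903626925) (nat_lit 3) (nat_lit 4) (nat_lit 4) (nat_lit 5) (nat_lit 4) (nat_lit 4) (nat_lit 485) (nat_lit 315) (nat_lit 220)))) (XT.nd (nat_lit 156) (nat_lit 304) (nat_lit 0) (XT.nd (nat_lit 78) (nat_lit 0) (nat_lit 0) (XT.lf (nat_lit 0) (nat_lit 127176579) (nat_lit 152) (nat_lit 6860499927) (nat_lit 0) (nat_lit 127176579) (nat_lit 35) (nat_lit 5) (nat_lit 37) (nat_lit 4) (nat_lit 35) (nat_lit 4) (nat_lit 388) (nat_lit 316) (nat_lit 316)) (XT.lf (nat_lit 0) (nat_lit 6086694973) (nat_lit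 152) (nat_lit 2842605427) (nat_lit 0) (nat_lit 5699736860) (nat_lit 35) (nat_lit 5) (nat_lit 37) (nat_lit 4) (nat_lit 35) (nat_lit 4) (nat_lit 389) (nat_lit 316) (nat_lit 315))) (XT.nd (nat_lit 78) (nat_lit 152) (nat_lit 0) (XT.lf (nat_lit 0) (nat_lit 8487187183) (nat_lit 152) (nat_lit 3659920836) (nat_lit 152) (nat_lit 2904431187) (nat_lit 33) (nat_lit 4) (nat_lit 35) (nat_lit 5) (nat_lit 35) (nat_lit 4) (nat_lit 390) (nat_lit 316) (nat_lit 314)) (XT.lf (nat_lit 0) (nat_lit 2875505731) (nat_lit 152) (nat_lit 10797776224) (nat_lit 0) (nat_lit 1821722813) (nat_lit 31) (nat_lit 5) (nat_lit 33) (nat_lit 4) (nat_lit 31) (nat_lit 4) (nat_lit 391) (nat_lit 316) (nat_lit 313))))) (XT.nd (nat_lit 234) (nat_lit 228) (nat_lit 0) (XT.nd (nat_lit 78) (nat_lit 152) (nat_lit 0) (XT.lf (nat_lit 0) (nat_lit 329928363) (nat_lit 76) (nat_lit 8500652377) (nat_lit 76) (nat_lit 7128518061) (nat_lit 30) (nat_lit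 4) (nat_lit 31) (nat_lit 5) (nat_lit 31) (nat_lit 4) (nat_lit 392) (nat_lit 316) (nat_lit 312)) (XT.nd (nat_lit 78) (nat_lit 152) (nat_lit 0) (XT.lf (nat_lit 0) (nat_lit 12028895042) (nat_lit 76) (nat_lit 3046622711) (nat_lit 76) (nat_lit 1371296589) (nat_lit 30) (nat_lit 4) (nat_lit 31) (nat_lit 5) (nat_lit 31) (nat_lit 4) (nat_lit 393) (nat_lit 316) (nat_lit 311)) (XT.lf (nat_lit 0) (nat_lit 4493636576) (nat_lit 152) (nat_lit 9840094665) (nat_lit 0) (nat_lit 2623083982) (nat_lit 28) (nat_lit 5) (nat_lit 30) (nat_lit 4) (nat_lit 28) (nat_lit 4) (nat_lit 394) (nat_lit 316) (nat_lit 310)))) (XT.nd (nat_lit 156) (nat_lit 152) (nat_lit 0) (XT.nd (nat_lit 78) (nat_lit 0) (nat_lit 0) (XT.lf (nat_lit 0) (nat_lit 1517926651) (nat_lit 76) (nat_lit 9053724885) (nat_lit 76) (nat_lit 6921263808) (nat_lit 27) (nat_lit 4) (nat_lit 28) (nat_lit 5) (nat_lit 28) (nat_lit 4) (nat_lit 395) (nat_lit 316) (nat_lit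 309)) (XT.lf (nat_lit 0) (nat_lit 13441216043) (nat_lit 76) (nat_lit 3498603901) (nat_lit 76) (nat_lit 1116706175) (nat_lit 27) (nat_lit 4) (nat_lit 28) (nat_lit 5) (nat_lit 28) (nat_lit 4) (nat_lit 396) (nat_lit 316) (nat_lit 308))) (XT.nd (nat_lit 78) (nat_lit 0) (nat_lit 0) (XT.lf (nat_lit 0) (nat_lit 4792479191) (nat_lit 152) (nat_lit 11555523487) (nat_lit 0) (nat_lit 2297758772) (nat_lit 25) (nat_lit 5) (nat_lit 27) (nat_lit 4) (nat_lit 25) (nat_lit 4) (nat_lit 397) (nat_lit 316) (nat_lit 307)) (XT.lf (nat_lit 0) (nat_lit 10922498251) (nat_lit 152) (nat_lit 130610527) (nat_lit 0) (nat_lit 8212305075) (nat_lit 25) (nat_lit 5) (nat_lit 27) (nat_lit 4) (nat_lit 25) (nat_lit 4) (nat_lit 398) (nat_lit 316) (nat_lit 306))))))))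
noncomputable def xc44 : XT := (XT.nd (nat_lit 2106) (nat_lit 380) (nat_lit 0) (XT.nd (nat_lit 1014) (nat_lit 456) (nat_lit 0) (XT.nd (nat_lit 468) (nat_lit 304) (nat_lit 0) (XT.nd (nat_lit 234) (nat_lit 228) (nat_lit 0) (XT.nd (nat_lit 78) (nat_lit 152) (nat_lit 0) (XT.lf (nat_lit 0) (nat_lit 11928855987) (nat_lit 76) (nat_lit 5450790911) (nat_lit 76) (nat_lit 2535385586) (nat_lit 24) (nat_lit 4) (nat_lit 25) (nat_lit 5) (nat_lit 25) (nat_lit 4) (nat_lit 399) (nat_lit 316) (nat_lit 305)) (XT.nd (nat_lit 78) (nat_lit 0) (nat_lit 0) (XT.lf (nat_lit 0) (nat_lit 3350152124) (nat_lit 152) (nat_lit 16861687656) (nat_lit 0) (nat_lit 387442156) (nat_lit 22) (nat_lit 5) (nat_lit 24) (nat_lit 4) (nat_lit 22) (nat_lit 4) (nat_lit 400) (nat_lit 316) (nat_lit 304)) (XT.lf (nat_lit 0) (nat_lit 9506896043) (nat_lit 152) (nat_lit 5438759774) (nat_lit 0) (nat_lit 6366916105) (nat_lit 22) (nat_lit 5) (nat_lit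 24) (nat_lit 4) (nat_lit 22) (nat_lit 4) (nat_lit 401) (nat_lit 316) (nat_lit 303)))) (XT.nd (nat_lit 78) (nat_lit 152) (nat_lit 0) (XT.lf (nat_lit 0) (nat_lit 6457759437) (nat_lit 76) (nat_lit 9457694494) (nat_lit 76) (nat_lit 6148886012) (nat_lit 21) (nat_lit 4) (nat_lit 22) (nat_lit 5) (nat_lit 22) (nat_lit 4) (nat_lit 402) (nat_lit 316) (nat_lit 302)) (XT.nd (nat_lit 78) (nat_lit 152) (nat_lit 0) (XT.lf (nat_lit 0) (nat_lit 18838589530) (nat_lit 76) (nat_lit 3743906681) (nat_lit 76) (nat_lit 274309111) (nat_lit 21) (nat_lit 4) (nat_lit 22) (nat_lit 5) (nat_lit 22) (nat_lit 4) (nat_lit 403) (nat_lit 316) (nat_lit 301)) (XT.lf (nat_lit 0) (nat_lit 5718081172) (nat_lit 152) (nat_lit 15697723846) (nat_lit 0) (nat_lit 2267862091) (nat_lit 19) (nat_lit 5) (nat_lit 21) (nat_lit 4) (nat_lit 19) (nat_lit 4) (nat_lit 404) (nat_lit 316) (nat_lit 300))))) (XT.nd (nat_lit 234) (nat_lit 228) (nat_lit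 0) (XT.nd (nat_lit 78) (nat_lit 76) (nat_lit 0) (XT.lf (nat_lit 0) (nat_lit 11982760582) (nat_lit 152) (nat_lit 4176156487) (nat_lit 0) (nat_lit 8393645841) (nat_lit 19) (nat_lit 5) (nat_lit 21) (nat_lit 4) (nat_lit 19) (nat_lit 4) (nat_lit 405) (nat_lit 316) (nat_lit 299)) (XT.nd (nat_lit 78) (nat_lit 0) (nat_lit 0) (XT.lf (nat_lit 0) (nat_lit 7897582431) (nat_lit 76) (nat_lit 10644820324) (nat_lit 76) (nat_lit 6923424002) (nat_lit 18) (nat_lit 4) (nat_lit 19) (nat_lit 5) (nat_lit 19) (nat_lit 4) (nat_lit 406) (nat_lit 316) (nat_lit 298)) (XT.lf (nat_lit 0) (nat_lit 20447778813) (nat_lit 76) (nat_lit 4913890443) (nat_lit 76) (nat_lit 1066511662) (nat_lit 18) (nat_lit 4) (nat_lit 19) (nat_lit 5) (nat_lit 19) (nat_lit 4) (nat_lit 407) (nat_lit 316) (nat_lit 297)))) (XT.nd (nat_lit 156) (nat_lit 76) (nat_lit 0) (XT.nd (nat_lit 78) (nat_lit 0) (nat_lit 0) (XT.lf (nat_lit 0) (nat_lit 4898225837)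 (nat_lit 152) (nat_lit 21417797613) (nat_lit 0) (nat_lit 1119785767) (nat_lit 16) (nat_lit 5) (nat_lit 18) (nat_lit 4) (nat_lit 16) (nat_lit 4) (nat_lit 408) (nat_lit 316) (nat_lit 296)) (XT.lf (nat_lit 0) (nat_lit 11174590235) (nat_lit 152) (nat_lit 10028579111) (nat_lit 0) (nat_lit 7287321781) (nat_lit 16) (nat_lit 5) (nat_lit 18) (nat_lit 4) (nat_lit 16) (nat_lit 4) (nat_lit 409) (nat_lit 316) (nat_lit 295))) (XT.nd (nat_lit 78) (nat_lit 0) (nat_lit 0) (XT.lf (nat_lit 0) (nat_lit 1734081204) (nat_lit 76) (nat_lit 15929893971) (nat_lit 76) (nat_lit 11938979437) (nat_lit 15) (nat_lit 4) (nat_lit 16) (nat_lit 5) (nat_lit 16) (nat_lit 4) (nat_lit 410) (nat_lit 316) (nat_lit 294)) (XT.lf (nat_lit 0) (nat_lit 14185580403) (nat_lit 76) (nat_lit 10336441775) (nat_lit 76) (nat_lit 6246816688) (nat_lit 15) (nat_lit 4) (nat_lit 16) (nat_lit 5) (nat_lit 16) (nat_lit 4) (nat_lit 411) (nat_lit 316)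 (nat_lit 293)))))) (XT.nd (nat_lit 546) (nat_lit 228) (nat_lit 0) (XT.nd (nat_lit 234) (nat_lit 76) (nat_lit 0) (XT.nd (nat_lit 78) (nat_lit 152) (nat_lit 0) (XT.lf (nat_lit 0) (nat_lit 27023974794) (nat_lit 76) (nat_lit 4579333854) (nat_lit 76) (nat_lit 395698717) (nat_lit 15) (nat_lit 4) (nat_lit 16) (nat_lit 5) (nat_lit 16) (nat_lit 4) (nat_lit 412) (nat_lit 316) (nat_lit 292)) (XT.nd (nat_lit 78) (nat_lit 0) (nat_lit 0) (XT.lf (nat_lit 0) (nat_lit 5583804935) (nat_lit 152) (nat_lit 26187287828) (nat_lit 0) (nat_lit 1514120633) (nat_lit 13) (nat_lit 5) (nat_lit 15) (nat_lit 4) (nat_lit 13) (nat_lit 4) (nat_lit 413) (nat_lit 316) (nat_lit 291)) (XT.lf (nat_lit 0) (nat_lit 11894133019) (nat_lit 152) (nat_lit 14995781650) (nat_lit 0) (nat_lit 7743239301) (nat_lit 13) (nat_lit 5) (nat_lit 15) (nat_lit 4) (nat_lit 13) (nat_lit 4) (nat_lit 414) (nat_lit 316) (nat_lit 290)))) (XT.nd (nat_lit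 156) (nat_lit 0) (nat_lit 0) (XT.nd (nat_lit 78) (nat_lit 76) (nat_lit 0) (XT.lf (nat_lit 0) (nat_lit 18409920808) (nat_lit 152) (nat_lit 3462394478) (nat_lit 0) (nat_lit 14181684789) (nat_lit 13) (nat_lit 5) (nat_lit 15) (nat_lit 4) (nat_lit 13) (nat_lit 4) (nat_lit 415) (nat_lit 316) (nat_lit 289)) (XT.lf (nat_lit 0) (nat_lit 8719409695) (nat_lit 76) (nat_lit 16563406809) (nat_lit 76) (nat_lit 12261511456) (nat_lit 12) (nat_lit 4) (nat_lit 13) (nat_lit 5) (nat_lit 13) (nat_lit 4) (nat_lit 416) (nat_lit 316) (nat_lit 288))) (XT.nd (nat_lit 78) (nat_lit 0) (nat_lit 0) (XT.lf (nat_lit 0) (nat_lit 21426526675) (nat_lit 76) (nat_lit 11028458205) (nat_lit 76) (nat_lit 6656411105) (nat_lit 12) (nat_lit 4) (nat_lit 13) (nat_lit 5) (nat_lit 13) (nat_lit 4) (nat_lit 417) (nat_lit 316) (nat_lit 287)) (XT.lf (nat_lit 0) (nat_lit 34574729103) (nat_lit 76) (nat_lit 5312928351) (nat_lit 76) (nat_lit 874070064)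 (nat_lit 12) (nat_lit 4) (nat_lit 13) (nat_lit 5) (nat_lit 13) (nat_lit 4) (nat_lit 418) (nat_lit 316) (nat_lit 286))))) (XT.nd (nat_lit 234) (nat_lit 76) (nat_lit 0) (XT.nd (nat_lit 78) (nat_lit 0) (nat_lit 0) (XT.lf (nat_lit 0) (nat_lit 5038766151) (nat_lit 152) (nat_lit 36700687928) (nat_lit 0) (nat_lit 750682351) (nat_lit 10) (nat_lit 5) (nat_lit 12) (nat_lit 4) (nat_lit 10) (nat_lit 4) (nat_lit 419) (nat_lit 316) (nat_lit 285)) (XT.nd (nat_lit 78) (nat_lit 0) (nat_lit 0) (XT.lf (nat_lit 0) (nat_lit 11316694410) (nat_lit 152) (nat_lit 26011721324) (nat_lit 0) (nat_lit 6970896595) (nat_lit 10) (nat_lit 5) (nat_lit 12) (nat_lit 4) (nat_lit 10) (nat_lit 4) (nat_lit 420) (nat_lit 316) (nat_lit 284)) (XT.lf (nat_lit 0) (nat_lit 17818261959) (nat_lit 152) (nat_lit 14967703537) (nat_lit 0) (nat_lit 13417498415) (nat_lit 10) (nat_lit 5) (nat_lit 12) (nat_lit 4) (nat_lit 10) (nat_lit 4) (nat_lit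 421) (nat_lit 316) (nat_lit 283)))) (XT.nd (nat_lit 156) (nat_lit 0) (nat_lit 0) (XT.nd (nat_lit 78) (nat_lit 76) (nat_lit 0) (XT.lf (nat_lit 0) (nat_lit 24558948719) (nat_lit 152) (nat_lit 3542339285) (nat_lit 0) (nat_lit 20105836861) (nat_lit 10) (nat_lit 5) (nat_lit 12) (nat_lit 4) (nat_lit 10) (nat_lit 4) (nat_lit 422) (nat_lit 316) (nat_lit 282)) (XT.lf (nat_lit 0) (nat_lit 8565731584) (nat_lit 76) (nat_lit 23122807435) (nat_lit 76) (nat_lit 18619840041) (nat_lit 9) (nat_lit 4) (nat_lit 10) (nat_lit 5) (nat_lit 10) (nat_lit 4) (nat_lit 423) (nat_lit 316) (nat_lit 281))) (XT.nd (nat_lit 78) (nat_lit 0) (nat_lit 0) (XT.lf (nat_lit 0) (nat_lit 21242094010) (nat_lit 76) (nat_lit 17912039041) (nat_lit 76) (nat_lit 13361590183) (nat_lit 9) (nat_lit 4) (nat_lit 10) (nat_lit 5) (nat_lit 10) (nat_lit 4) (nat_lit 424) (nat_lit 316) (nat_lit 280)) (XT.lf (nat_lit 0) (nat_lit 34399804074) (nat_lit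 76) (nat_lit 12516567459) (nat_lit 76) (nat_lit 7920898160) (nat_lit 9) (nat_lit 4) (nat_lit 10) (nat_lit 5) (nat_lit 10) (nat_lit 4) (nat_lit 425) (nat_lit 316) (nat_lit 279))))))) (XT.nd (nat_lit 1014) (nat_lit 152) (nat_lit 0) (XT.nd (nat_lit 468) (nat_lit 76) (nat_lit 0) (XT.nd (nat_lit 234) (nat_lit 0) (nat_lit 0) (XT.nd (nat_lit 78) (nat_lit 152) (nat_lit 0) (XT.lf (nat_lit 0) (nat_lit 48070189657) (nat_lit 76) (nat_lit 6923546330) (nat_lit 76) (nat_lit 2284809944) (nat_lit 9) (nat_lit 4) (nat_lit 10) (nat_lit 5) (nat_lit 10) (nat_lit 4) (nat_lit 426) (nat_lit 316) (nat_lit 278)) (XT.nd (nat_lit 78) (nat_lit 0) (nat_lit 0) (XT.lf (nat_lit 0) (nat_lit 2463705716) (nat_lit 76) (nat_lit 1020908125) (nat_lit 152) (nat_lit 56356048246) (nat_lit 7) (nat_lit 5) (nat_lit 8) (nat_lit 5) (nat_lit 9) (nat_lit 4) (nat_lit 427) (nat_lit 316) (nat_lit 277)) (XT.lf (nat_lit 0) (nat_lit 9634529333)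 (nat_lit 152) (nat_lit 47745625325) (nat_lit 0) (nat_lit 5140419069) (nat_lit 7) (nat_lit 5) (nat_lit 9) (nat_lit 4) (nat_lit 7) (nat_lit 4) (nat_lit 428) (nat_lit 316) (nat_lit 276)))) (XT.nd (nat_lit 78) (nat_lit 0) (nat_lit 0) (XT.lf (nat_lit 0) (nat_lit 16041510412) (nat_lit 152) (nat_lit 37783525895) (nat_lit 0) (nat_lit 11511968749) (nat_lit 7) (nat_lit 5) (nat_lit 9) (nat_lit 4) (nat_lit 7) (nat_lit 4) (nat_lit 429) (nat_lit 316) (nat_lit 275)) (XT.nd (nat_lit 78) (nat_lit 0) (nat_lit 0) (XT.lf (nat_lit 0) (nat_lit 22704872558) (nat_lit 152) (nat_lit 27450999559) (nat_lit 0) (nat_lit 18141586705) (nat_lit 7) (nat_lit 5) (nat_lit 9) (nat_lit 4) (nat_lit 7) (nat_lit 4) (nat_lit 430) (nat_lit 316) (nat_lit 274)) (XT.lf (nat_lit 0) (nat_lit 29640480920) (nat_lit 152) (nat_lit 16723445064) (nat_lit 0) (nat_lit 25045057744) (nat_lit 7) (nat_lit 5) (nat_lit 9) (nat_lit 4) (nat_lit 7) (nat_lit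 4) (nat_lit 431) (nat_lit 316) (nat_lit 273))))) (XT.nd (nat_lit 234) (nat_lit 0) (nat_lit 0) (XT.nd (nat_lit 78) (nat_lit 76) (nat_lit 0) (XT.lf (nat_lit 0) (nat_lit 36864848851) (nat_lit 152) (nat_lit 5575320613) (nat_lit 0) (nat_lit 32238818700) (nat_lit 7) (nat_lit 5) (nat_lit 9) (nat_lit 4) (nat_lit 7) (nat_lit 4) (nat_lit 432) (nat_lit 316) (nat_lit 272)) (XT.nd (nat_lit 78) (nat_lit 0) (nat_lit 0) (XT.lf (nat_lit 0) (nat_lit 6218962586) (nat_lit 76) (nat_lit 38273310075) (nat_lit 76) (nat_lit 33618130424) (nat_lit 6) (nat_lit 4) (nat_lit 7) (nat_lit 5) (nat_lit 7) (nat_lit 4) (nat_lit 433) (nat_lit 316) (nat_lit 271)) (XT.lf (nat_lit 0) (nat_lit 18688008297) (nat_lit 76) (nat_lit 33853159286) (nat_lit 76) (nat_lit 29170218207) (nat_lit 6) (nat_lit 4) (nat_lit 7) (nat_lit 5) (nat_lit 7) (nat_lit 4) (nat_lit 434) (nat_lit 316) (nat_lit 270)))) (XT.nd (nat_lit 156) (nat_lit 0) (nat_lit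 0) (XT.nd (nat_lit 78) (nat_lit 0) (nat_lit 0) (XT.lf (nat_lit 0) (nat_lit 31677159443) (nat_lit 76) (nat_lit 29263613683) (nat_lit 76) (nat_lit 24554233149) (nat_lit 6) (nat_lit 4) (nat_lit 7) (nat_lit 5) (nat_lit 7) (nat_lit 4) (nat_lit 435) (nat_lit 316) (nat_lit 269)) (XT.lf (nat_lit 0) (nat_lit 45217342575) (nat_lit 76) (nat_lit 24493745776) (nat_lit 76) (nat_lit 19759184807) (nat_lit 6) (nat_lit 4) (nat_lit 7) (nat_lit 5) (nat_lit 7) (nat_lit 4) (nat_lit 436) (nat_lit 316) (nat_lit 268))) (XT.nd (nat_lit 78) (nat_lit 0) (nat_lit 0) (XT.lf (nat_lit 0) (nat_lit 59340796224) (nat_lit 76) (nat_lit 19532198736) (nat_lit 76) (nat_lit 14773656402) (nat_lit 6) (nat_lit 4) (nat_lit 7) (nat_lit 5) (nat_lit 7) (nat_lit 4) (nat_lit 437) (nat_lit 316) (nat_lit 267)) (XT.lf (nat_lit 0) (nat_lit 74081147661) (nat_lit 76) (nat_lit 14367159357) (nat_lit 76) (nat_lit 9585777627) (nat_lit 6) (nat_lit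 4) (nat_lit 7) (nat_lit 5) (nat_lit 7) (nat_lit 4) (nat_lit 438) (nat_lit 316) (nat_lit 266)))))) (XT.nd (nat_lit 546) (nat_lit 0) (nat_lit 0) (XT.nd (nat_lit 234) (nat_lit 0) (nat_lit 0) (XT.nd (nat_lit 78) (nat_lit 152) (nat_lit 0) (XT.lf (nat_lit 0) (nat_lit 89473492961) (nat_lit 76) (nat_lit 8986329925) (nat_lit 76) (nat_lit 4183196389) (nat_lit 6) (nat_lit 4) (nat_lit 7) (nat_lit 5) (nat_lit 7) (nat_lit 4) (nat_lit 439) (nat_lit 316) (nat_lit 265)) (XT.nd (nat_lit 78) (nat_lit 76) (nat_lit 0) (XT.lf (nat_lit 0) (nat_lit 1400639142) (nat_lit 152) (nat_lit 1952539297) (nat_lit 76) (nat_lit 104130120920) (nat_lit 5) (nat_lit 5) (nat_lit 7) (nat_lit 5) (nat_lit 6) (nat_lit 4) (nat_lit 440) (nat_lit 316) (nat_lit 264)) (XT.lf (nat_lit 0) (nat_lit 7283012005) (nat_lit 152) (nat_lit 102601077993) (nat_lit 0) (nat_lit 2670079558) (nat_lit 4) (nat_lit 5) (nat_lit 6) (nat_lit 4) (nat_lit 4) (nat_lit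 4) (nat_lit 441) (nat_lit 316) (nat_lit 263)))) (XT.nd (nat_lit 156) (nat_lit 0) (nat_lit 0) (XT.nd (nat_lit 78) (nat_lit 0) (nat_lit 0) (XT.lf (nat_lit 0) (nat_lit 13508905510) (nat_lit 152) (nat_lit 95489131166) (nat_lit 0) (nat_lit 8878077799) (nat_lit 4) (nat_lit 5) (nat_lit 6) (nat_lit 4) (nat_lit 4) (nat_lit 4) (nat_lit 442) (nat_lit 316) (nat_lit 262)) (XT.lf (nat_lit 0) (nat_lit 20008781859) (nat_lit 152) (nat_lit 88096330582) (nat_lit 0) (nat_lit 15360911039) (nat_lit 4) (nat_lit 5) (nat_lit 6) (nat_lit 4) (nat_lit 4) (nat_lit 4) (nat_lit 443) (nat_lit 316) (nat_lit 261))) (XT.nd (nat_lit 78) (nat_lit 0) (nat_lit 0) (XT.lf (nat_lit 0) (nat_lit 26798116949) (nat_lit 152) (nat_lit 80405074335) (nat_lit 0) (nat_lit 22134014596) (nat_lit 4) (nat_lit 5) (nat_lit 6) (nat_lit 4) (nat_lit 4) (nat_lit 4) (nat_lit 444) (nat_lit 316) (nat_lit 260)) (XT.lf (nat_lit 0) (nat_lit 33893075862) (nat_lit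 152) (nat_lit 72397049909) (nat_lit 0) (nat_lit 29213514908) (nat_lit 4) (nat_lit 5) (nat_lit 6) (nat_lit 4) (nat_lit 4) (nat_lit 4) (nat_lit 445) (nat_lit 316) (nat_lit 259))))) (XT.nd (nat_lit 234) (nat_lit 0) (nat_lit 0) (XT.nd (nat_lit 78) (nat_lit 0) (nat_lit 0) (XT.lf (nat_lit 0) (nat_lit 41310551358) (nat_lit 152) (nat_lit 64053190580) (nat_lit 0) (nat_lit 36616267926) (nat_lit 4) (nat_lit 5) (nat_lit 6) (nat_lit 4) (nat_lit 4) (nat_lit 4) (nat_lit 446) (nat_lit 316) (nat_lit 258)) (XT.nd (nat_lit 78) (nat_lit 0) (nat_lit 0) (XT.lf (nat_lit 0) (nat_lit 49068204093) (nat_lit 152) (nat_lit 55353630016) (nat_lit 0) (nat_lit 44359899253) (nat_lit 4) (nat_lit 5) (nat_lit 6) (nat_lit 4) (nat_lit 4) (nat_lit 4) (nat_lit 447) (nat_lit 316) (nat_lit 257)) (XT.lf (nat_lit 0) (nat_lit 57184504669) (nat_lit 152) (nat_lit 46277654978) (nat_lit 0) (nat_lit 52462846108) (nat_lit 4) (nat_lit 5) (nat_lit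 6) (nat_lit 4) (nat_lit 4) (nat_lit 4) (nat_lit 448) (nat_lit 316) (nat_lit 256)))) (XT.nd (nat_lit 156) (nat_lit 0) (nat_lit 0) (XT.nd (nat_lit 78) (nat_lit 0) (nat_lit 0) (XT.lf (nat_lit 0) (nat_lit 65678777612) (nat_lit 152) (nat_lit 36803656001) (nat_lit 0) (nat_lit 60944401220) (nat_lit 4) (nat_lit 5) (nat_lit 6) (nat_lit 4) (nat_lit 4) (nat_lit 4) (nat_lit 449) (nat_lit 316) (nat_lit 255)) (XT.lf (nat_lit 0) (nat_lit 74571247379) (nat_lit 152) (nat_lit 26909075945) (nat_lit 0) (nat_lit 69824758768) (nat_lit 4) (nat_lit 5) (nat_lit 6) (nat_lit 4) (nat_lit 4) (nat_lit 4) (nat_lit 450) (nat_lit 316) (nat_lit 254))) (XT.nd (nat_lit 78) (nat_lit 0) (nat_lit 0) (XT.lf (nat_lit 0) (nat_lit 83883086519) (nat_lit 152) (nat_lit 16570356286) (nat_lit 0) (nat_lit 79125062461) (nat_lit 4) (nat_lit 5) (nat_lit 6) (nat_lit 4) (nat_lit 4) (nat_lit 4) (nat_lit 451) (nat_lit 316) (nat_lit 253)) (XT.lf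 (nat_lit 0) (nat_lit 93636466077) (nat_lit 152) (nat_lit 5762881025) (nat_lit 0) (nat_lit 88867455879) (nat_lit 4) (nat_lit 5) (nat_lit 6) (nat_lit 4) (nat_lit 4) (nat_lit 4) (nat_lit 452) (nat_lit 316) (nat_lit 252))))))))
noncomputable def xc45 : XT := (XT.nd (nat_lit 2106) (nat_lit 0) (nat_lit 0) (XT.nd (nat_lit 1014) (nat_lit 0) (nat_lit 0) (XT.nd (nat_lit 468) (nat_lit 0) (nat_lit 0) (XT.nd (nat_lit 234) (nat_lit 0) (nat_lit 0) (XT.nd (nat_lit 78) (nat_lit 0) (nat_lit 0) (XT.lf (nat_lit 0) (nat_lit 5722228985) (nat_lit 76) (nat_lit 98221719431) (nat_lit 76) (nat_lit 93442246243) (nat_lit 3) (nat_lit 4) (nat_lit 4) (nat_lit 5) (nat_lit 4) (nat_lit 4) (nat_lit 453) (nat_lit 316) (nat_lit 251)) (XT.nd (nat_lit 78) (nat_lit 0) (nat_lit 0) (XT.lf (nat_lit 0) (nat_lit 17936522734) (nat_lit 76) (nat_lit 96905359007) (nat_lit 76) (nat_lit 92115921066) (nat_lit 3) (nat_lit 4) (nat_lit 4) (nat_lit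 5) (nat_lit 4) (nat_lit 4) (nat_lit 454) (nat_lit 316) (nat_lit 250)) (XT.lf (nat_lit 0) (nat_lit 30718535000) (nat_lit 76) (nat_lit 95544728818) (nat_lit 76) (nat_lit 90745800636) (nat_lit 3) (nat_lit 4) (nat_lit 4) (nat_lit 5) (nat_lit 4) (nat_lit 4) (nat_lit 455) (nat_lit 316) (nat_lit 249)))) (XT.nd (nat_lit 78) (nat_lit 0) (nat_lit 0) (XT.lf (nat_lit 0) (nat_lit 44098699145) (nat_lit 76) (nat_lit 94136589268) (nat_lit 76) (nat_lit 89328622761) (nat_lit 3) (nat_lit 4) (nat_lit 4) (nat_lit 5) (nat_lit 4) (nat_lit 4) (nat_lit 456) (nat_lit 316) (nat_lit 248)) (XT.nd (nat_lit 78) (nat_lit 0) (nat_lit 0) (XT.lf (nat_lit 0) (nat_lit 58108872704) (nat_lit 76) (nat_lit 92677587643) (nat_lit 76) (nat_lit 87861013209) (nat_lit 3) (nat_lit 4) (nat_lit 4) (nat_lit 5) (nat_lit 4) (nat_lit 4) (nat_lit 457) (nat_lit 316) (nat_lit 247)) (XT.lf (nat_lit 0) (nat_lit 72782413233) (nat_lit 76) (nat_lit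 91164250131) (nat_lit 76) (nat_lit 86339477670) (nat_lit 3) (nat_lit 4) (nat_lit 4) (nat_lit 5) (nat_lit 4) (nat_lit 4) (nat_lit 458) (nat_lit 316) (nat_lit 246))))) (XT.nd (nat_lit 234) (nat_lit 0) (nat_lit 0) (XT.nd (nat_lit 78) (nat_lit 0) (nat_lit 0) (XT.lf (nat_lit 0) (nat_lit 88154257732) (nat_lit 76) (nat_lit 89592973547) (nat_lit 76) (nat_lit 84760393442) (nat_lit 3) (nat_lit 4) (nat_lit 4) (nat_lit 5) (nat_lit 4) (nat_lit 4) (nat_lit 459) (nat_lit 316) (nat_lit 245)) (XT.nd (nat_lit 78) (nat_lit 0) (nat_lit 0) (XT.lf (nat_lit 0) (nat_lit 104261005831) (nat_lit 76) (nat_lit 87960016757) (nat_lit 76) (nat_lit 83120000799) (nat_lit 3) (nat_lit 4) (nat_lit 4) (nat_lit 5) (nat_lit 4) (nat_lit 4) (nat_lit 460) (nat_lit 316) (nat_lit 244)) (XT.lf (nat_lit 0) (nat_lit 121141006931) (nat_lit 76) (nat_lit 86261491767) (nat_lit 76) (nat_lit 81414394046) (nat_lit 3) (nat_lit 4) (nat_lit 4) (nat_lit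 5) (nat_lit 4) (nat_lit 4) (nat_lit 461) (nat_lit 316) (nat_lit 243)))) (XT.nd (nat_lit 156) (nat_lit 0) (nat_lit 0) (XT.nd (nat_lit 78) (nat_lit 0) (nat_lit 0) (XT.lf (nat_lit 0) (nat_lit 138834451511) (nat_lit 76) (nat_lit 84493354471) (nat_lit 76) (nat_lit 79639512213) (nat_lit 3) (nat_lit 4) (nat_lit 4) (nat_lit 5) (nat_lit 4) (nat_lit 4) (nat_lit 462) (nat_lit 316) (nat_lit 242)) (XT.lf (nat_lit 0) (nat_lit 157383466819) (nat_lit 76) (nat_lit 82651395017) (nat_lit 76) (nat_lit 77791129391) (nat_lit 3) (nat_lit 4) (nat_lit 4) (nat_lit 5) (nat_lit 4) (nat_lit 4) (nat_lit 463) (nat_lit 316) (nat_lit 241))) (XT.nd (nat_lit 78) (nat_lit 0) (nat_lit 0) (XT.lf (nat_lit 0) (nat_lit 176832217177) (nat_lit 76) (nat_lit 80731227790) (nat_lit 76) (nat_lit 75864844669) (nat_lit 3) (nat_lit 4) (nat_lit 4) (nat_lit 5) (nat_lit 4) (nat_lit 4) (nat_lit 464) (nat_lit 316) (nat_lit 240)) (XT.lf (nat_lit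 0) (nat_lit 197227009135) (nat_lit 76) (nat_lit 78728280960) (nat_lit 76) (nat_lit 73856071656) (nat_lit 3) (nat_lit 4) (nat_lit 4) (nat_lit 5) (nat_lit 4) (nat_lit 4) (nat_lit 465) (nat_lit 316) (nat_lit 239)))))) (XT.nd (nat_lit 546) (nat_lit 0) (nat_lit 0) (XT.nd (nat_lit 234) (nat_lit 0) (nat_lit 0) (XT.nd (nat_lit 78) (nat_lit 0) (nat_lit 0) (XT.lf (nat_lit 0) (nat_lit 218616401721) (nat_lit 76) (nat_lit 76637785608) (nat_lit 76) (nat_lit 71760027556) (nat_lit 3) (nat_lit 4) (nat_lit 4) (nat_lit 5) (nat_lit 4) (nat_lit 4) (nat_lit 466) (nat_lit 316) (nat_lit 238)) (XT.nd (nat_lit 78) (nat_lit 0) (nat_lit 0) (XT.lf (nat_lit 0) (nat_lit 241051322059) (nat_lit 76) (nat_lit 74454764364) (nat_lit 76) (nat_lit 69571721791) (nat_lit 3) (nat_lit 4) (nat_lit 4) (nat_lit 5) (nat_lit 4) (nat_lit 4) (nat_lit 467) (nat_lit 316) (nat_lit 237)) (XT.lf (nat_lit 0) (nat_lit 264585186627) (nat_lit 76)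 (nat_lit 72174019558) (nat_lit 76) (nat_lit 67285944108) (nat_lit 3) (nat_lit 4) (nat_lit 4) (nat_lit 5) (nat_lit 4) (nat_lit 4) (nat_lit 468) (nat_lit 316) (nat_lit 236)))) (XT.nd (nat_lit 156) (nat_lit 0) (nat_lit 0) (XT.nd (nat_lit 78) (nat_lit 0) (nat_lit 0) (XT.lf (nat_lit 0) (nat_lit 289274028435) (nat_lit 76) (nat_lit 69790120845) (nat_lit 76) (nat_lit 64897252178) (nat_lit 3) (nat_lit 4) (nat_lit 4) (nat_lit 5) (nat_lit 4) (nat_lit 4) (nat_lit 469) (nat_lit 316) (nat_lit 235)) (XT.lf (nat_lit 0) (nat_lit 315176630441) (nat_lit 76) (nat_lit 67297392276) (nat_lit 76) (nat_lit 62399958641) (nat_lit 3) (nat_lit 4) (nat_lit 4) (nat_lit 5) (nat_lit 4) (nat_lit 4) (nat_lit 470) (nat_lit 316) (nat_lit 234))) (XT.nd (nat_lit 78) (nat_lit 0) (nat_lit 0) (XT.lf (nat_lit 0) (nat_lit 342354665506) (nat_lit 76) (nat_lit 64689898782) (nat_lit 76) (nat_lit 59788117559) (nat_lit 3) (nat_lit 4) (nat_lit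 4) (nat_lit 5) (nat_lit 4) (nat_lit 4) (nat_lit 471) (nat_lit 316) (nat_lit 233)) (XT.lf (nat_lit 0) (nat_lit 370872843238) (nat_lit 76) (nat_lit 61961432047) (nat_lit 76) (nat_lit 57055510263) (nat_lit 3) (nat_lit 4) (nat_lit 4) (nat_lit 5) (nat_lit 4) (nat_lit 4) (nat_lit 472) (nat_lit 316) (nat_lit 232))))) (XT.nd (nat_lit 234) (nat_lit 0) (nat_lit 0) (XT.nd (nat_lit 78) (nat_lit 0) (nat_lit 0) (XT.lf (nat_lit 0) (nat_lit 400799064059) (nat_lit 76) (nat_lit 59105495721) (nat_lit 76) (nat_lit 54195630546) (nat_lit 3) (nat_lit 4) (nat_lit 4) (nat_lit 5) (nat_lit 4) (nat_lit 4) (nat_lit 473) (nat_lit 316) (nat_lit 231)) (XT.nd (nat_lit 78) (nat_lit 0) (nat_lit 0) (XT.lf (nat_lit 0) (nat_lit 432204580877) (nat_lit 76) (nat_lit 56115289954) (nat_lit 76) (nat_lit 51201669169) (nat_lit 3) (nat_lit 4) (nat_lit 4) (nat_lit 5) (nat_lit 4) (nat_lit 4) (nat_lit 474) (nat_lit 316) (nat_lit 230)) (XT.lf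 (nat_lit 0) (nat_lit 465164168732) (nat_lit 76) (nat_lit 52983695211) (nat_lit 76) (nat_lit 48066497653) (nat_lit 3) (nat_lit 4) (nat_lit 4) (nat_lit 5) (nat_lit 4) (nat_lit 4) (nat_lit 475) (nat_lit 316) (nat_lit 229)))) (XT.nd (nat_lit 156) (nat_lit 0) (nat_lit 0) (XT.nd (nat_lit 78) (nat_lit 0) (nat_lit 0) (XT.lf (nat_lit 0) (nat_lit 499756302832) (nat_lit 76) (nat_lit 49703255312) (nat_lit 76) (nat_lit 44782651305) (nat_lit 3) (nat_lit 4) (nat_lit 4) (nat_lit 5) (nat_lit 4) (nat_lit 4) (nat_lit 476) (nat_lit 316) (nat_lit 228)) (XT.lf (nat_lit 0) (nat_lit 536063345401) (nat_lit 76) (nat_lit 46266159687) (nat_lit 76) (nat_lit 41342311442) (nat_lit 3) (nat_lit 4) (nat_lit 4) (nat_lit 5) (nat_lit 4) (nat_lit 4) (nat_lit 477) (nat_lit 316) (nat_lit 227))) (XT.nd (nat_lit 78) (nat_lit 0) (nat_lit 0) (XT.lf (nat_lit 0) (nat_lit 574171741780) (nat_lit 76) (nat_lit 42664224774) (nat_lit 76) (nat_lit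 37737286780) (nat_lit 3) (nat_lit 4) (nat_lit 4) (nat_lit 5) (nat_lit 4) (nat_lit 4) (nat_lit 478) (nat_lit 316) (nat_lit 226)) (XT.lf (nat_lit 0) (nat_lit 614172226245) (nat_lit 76) (nat_lit 38888874539) (nat_lit 76) (nat_lit 33958993925) (nat_lit 3) (nat_lit 4) (nat_lit 4) (nat_lit 5) (nat_lit 4) (nat_lit 4) (nat_lit 479) (nat_lit 316) (nat_lit 225))))))) (XT.nd (nat_lit 46410) (nat_lit 0) (nat_lit 1140) (XT.nd (nat_lit 45864) (nat_lit 0) (nat_lit 2052) (XT.nd (nat_lit 234) (nat_lit 0) (nat_lit 0) (XT.nd (nat_lit 78) (nat_lit 0) (nat_lit 0) (XT.lf (nat_lit 0) (nat_lit 656160038046) (nat_lit 76) (nat_lit 34931120051) (nat_lit 76) (nat_lit 29998436943) (nat_lit 3) (nat_lit 4) (nat_lit 4) (nat_lit 5) (nat_lit 4) (nat_lit 4) (nat_lit 480) (nat_lit 316) (nat_lit 224)) (XT.nd (nat_lit 78) (nat_lit 0) (nat_lit 0) (XT.lf (nat_lit 0) (nat_lit 700235148161) (nat_lit 76) (nat_lit 30781538086) (nat_lit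 76) (nat_lit 25846185936) (nat_lit 3) (nat_lit 4) (nat_lit 4) (nat_lit 5) (nat_lit 4) (nat_lit 4) (nat_lit 481) (nat_lit 316) (nat_lit 223)) (XT.lf (nat_lit 0) (nat_lit 746502497331) (nat_lit 76) (nat_lit 26430248688) (nat_lit 76) (nat_lit 21492354592) (nat_lit 3) (nat_lit 4) (nat_lit 4) (nat_lit 5) (nat_lit 4) (nat_lit 4) (nat_lit 482) (nat_lit 316) (nat_lit 222)))) (XT.nd (nat_lit 78) (nat_lit 0) (nat_lit 0) (XT.lf (nat_lit 0) (nat_lit 795072245909) (nat_lit 76) (nat_lit 21866891642) (nat_lit 76) (nat_lit 16926576647) (nat_lit 3) (nat_lit 4) (nat_lit 4) (nat_lit 5) (nat_lit 4) (nat_lit 4) (nat_lit 483) (nat_lit 316) (nat_lit 221)) (XT.nd (nat_lit 45474) (nat_lit 0) (nat_lit 2736) (XT.lf (nat_lit 0) (nat_lit 846060036155) (nat_lit 76) (nat_lit 17080601813) (nat_lit 76) (nat_lit 12137981199) (nat_lit 3) (nat_lit 4) (nat_lit 4) (nat_lit 5) (nat_lit 4) (nat_lit 4) (nat_lit 484) (nat_lit 316)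 (nat_lit 220)) (XT.lf (nat_lit 0) (nat_lit 1549957942) (nat_lit 152) (nat_lit 3636062176) (nat_lit 0) (nat_lit 1549957942) (nat_lit 39) (nat_lit 5) (nat_lit 41) (nat_lit 4) (nat_lit 39) (nat_lit 4) (nat_lit 386) (nat_lit 317) (nat_lit 317))))) (XT.nd (nat_lit 234) (nat_lit 380) (nat_lit 0) (XT.nd (nat_lit 78) (nat_lit 152) (nat_lit 0) (XT.lf (nat_lit 0) (nat_lit 3426980069) (nat_lit 152) (nat_lit 5421096836) (nat_lit 152) (nat_lit 4994475517) (nat_lit 37) (nat_lit 4) (nat_lit 39) (nat_lit 5) (nat_lit 39) (nat_lit 4) (nat_lit 387) (nat_lit 317) (nat_lit 316)) (XT.nd (nat_lit 78) (nat_lit 0) (nat_lit 0) (XT.lf (nat_lit 0) (nat_lit 323271406) (nat_lit 76) (nat_lit 240727981) (nat_lit 152) (nat_lit 13670553609) (nat_lit 35) (nat_lit 5) (nat_lit 36) (nat_lit 5) (nat_lit 37) (nat_lit 4) (nat_lit 388) (nat_lit 317) (nat_lit 315)) (XT.lf (nat_lit 0) (nat_lit 6296946355) (nat_lit 152) (nat_lit 3206769959)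 (nat_lit 0) (nat_lit 5135150687) (nat_lit 35) (nat_lit 5) (nat_lit 37) (nat_lit 4) (nat_lit 35) (nat_lit 4) (nat_lit 389) (nat_lit 317) (nat_lit 314)))) (XT.nd (nat_lit 156) (nat_lit 76) (nat_lit 0) (XT.nd (nat_lit 78) (nat_lit 152) (nat_lit 0) (XT.lf (nat_lit 0) (nat_lit 7936205672) (nat_lit 152) (nat_lit 4321469069) (nat_lit 152) (nat_lit 2808690987) (nat_lit 33) (nat_lit 4) (nat_lit 35) (nat_lit 5) (nat_lit 35) (nat_lit 4) (nat_lit 390) (nat_lit 317) (nat_lit 313)) (XT.lf (nat_lit 0) (nat_lit 2853751349) (nat_lit 152) (nat_lit 11567079178) (nat_lit 0) (nat_lit 1094658921) (nat_lit 31) (nat_lit 5) (nat_lit 33) (nat_lit 4) (nat_lit 31) (nat_lit 4) (nat_lit 391) (nat_lit 317) (nat_lit 312))) (XT.nd (nat_lit 78) (nat_lit 76) (nat_lit 0) (XT.lf (nat_lit 0) (nat_lit 8713364647) (nat_lit 152) (nat_lit 619922347) (nat_lit 0) (nat_lit 6651080412) (nat_lit 31) (nat_lit 5) (nat_lit 33) (nat_lit 4)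 (nat_lit 31) (nat_lit 4) (nat_lit 392) (nat_lit 317) (nat_lit 311)) (XT.lf (nat_lit 0) (nat_lit 10891300652) (nat_lit 76) (nat_lit 3968380978) (nat_lit 76) (nat_lit 1617342641) (nat_lit 30) (nat_lit 4) (nat_lit 31) (nat_lit 5) (nat_lit 31) (nat_lit 4) (nat_lit 393) (nat_lit 317) (nat_lit 310)))))) (XT.nd (nat_lit 546) (nat_lit 304) (nat_lit 0) (XT.nd (nat_lit 234) (nat_lit 380) (nat_lit 0) (XT.nd (nat_lit 78) (nat_lit 76) (nat_lit 0) (XT.lf (nat_lit 0) (nat_lit 4132285980) (nat_lit 152) (nat_lit 11229806219) (nat_lit 0) (nat_lit 1631293368) (nat_lit 28) (nat_lit 5) (nat_lit 30) (nat_lit 4) (nat_lit 28) (nat_lit 4) (nat_lit 394) (nat_lit 317) (nat_lit 309)) (XT.nd (nat_lit 78) (nat_lit 76) (nat_lit 0) (XT.lf (nat_lit 0) (nat_lit 10101226622) (nat_lit 152) (nat_lit 82924339) (nat_lit 0) (nat_lit 7350797360) (nat_lit 28) (nat_lit 5) (nat_lit 30) (nat_lit 4) (nat_lit 28) (nat_lit 4) (nat_lit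 395) (nat_lit 317) (nat_lit 308)) (XT.lf (nat_lit 0) (nat_lit 11677688768) (nat_lit 76) (nat_lit 4706562005) (nat_lit 76) (nat_lit 1718574028) (nat_lit 27) (nat_lit 4) (nat_lit 28) (nat_lit 5) (nat_lit 28) (nat_lit 4) (nat_lit 396) (nat_lit 317) (nat_lit 307)))) (XT.nd (nat_lit 156) (nat_lit 228) (nat_lit 0) (XT.nd (nat_lit 78) (nat_lit 0) (nat_lit 0) (XT.lf (nat_lit 0) (nat_lit 4076519174) (nat_lit 152) (nat_lit 13607342707) (nat_lit 0) (nat_lit 1015343582) (nat_lit 25) (nat_lit 5) (nat_lit 27) (nat_lit 4) (nat_lit 25) (nat_lit 4) (nat_lit 397) (nat_lit 317) (nat_lit 306)) (XT.lf (nat_lit 0) (nat_lit 10125750800) (nat_lit 152) (nat_lit 2337790713) (nat_lit 0) (nat_lit 6859363060) (nat_lit 25) (nat_lit 5) (nat_lit 27) (nat_lit 4) (nat_lit 25) (nat_lit 4) (nat_lit 398) (nat_lit 317) (nat_lit 305))) (XT.nd (nat_lit 78) (nat_lit 152) (nat_lit 0) (XT.lf (nat_lit 0) (nat_lit 9495841311) (nat_lit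 76) (nat_lit 6972131546) (nat_lit 76) (nat_lit 3510303664) (nat_lit 24) (nat_lit 4) (nat_lit 25) (nat_lit 5) (nat_lit 25) (nat_lit 4) (nat_lit 399) (nat_lit 317) (nat_lit 304)) (XT.lf (nat_lit 0) (nat_lit 1028064574) (nat_lit 76) (nat_lit 1252923681) (nat_lit 152) (nat_lit 18388577579) (nat_lit 22) (nat_lit 5) (nat_lit 23) (nat_lit 5) (nat_lit 24) (nat_lit 4) (nat_lit 400) (nat_lit 317) (nat_lit 303))))) (XT.nd (nat_lit 234) (nat_lit 228) (nat_lit 0) (XT.nd (nat_lit 78) (nat_lit 76) (nat_lit 0) (XT.lf (nat_lit 0) (nat_lit 8341659817) (nat_lit 152) (nat_lit 8347423288) (nat_lit 0) (nat_lit 4698582369) (nat_lit 22) (nat_lit 5) (nat_lit 24) (nat_lit 4) (nat_lit 22) (nat_lit 4) (nat_lit 401) (nat_lit 317) (nat_lit 302)) (XT.nd (nat_lit 78) (nat_lit 0) (nat_lit 0) (XT.lf (nat_lit 0) (nat_lit 3306904548) (nat_lit 76) (nat_lit 11321252141) (nat_lit 76) (nat_lit 7517385604) (nat_lit 21) (nat_lit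 4) (nat_lit 22) (nat_lit 5) (nat_lit 22) (nat_lit 4) (nat_lit 402) (nat_lit 317) (nat_lit 301)) (XT.lf (nat_lit 0) (nat_lit 15548670047) (nat_lit 76) (nat_lit 5674960268) (nat_lit 76) (nat_lit 1717961266) (nat_lit 21) (nat_lit 4) (nat_lit 22) (nat_lit 5) (nat_lit 22) (nat_lit 4) (nat_lit 403) (nat_lit 317) (nat_lit 300)))) (XT.nd (nat_lit 156) (nat_lit 76) (nat_lit 0) (XT.nd (nat_lit 78) (nat_lit 0) (nat_lit 0) (XT.lf (nat_lit 0) (nat_lit 4162648878) (nat_lit 152) (nat_lit 19359652989) (nat_lit 0) (nat_lit 255182740) (nat_lit 19) (nat_lit 5) (nat_lit 21) (nat_lit 4) (nat_lit 19) (nat_lit 4) (nat_lit 404) (nat_lit 317) (nat_lit 299)) (XT.lf (nat_lit 0) (nat_lit 10358267507) (nat_lit 152) (nat_lit 7973050882) (nat_lit 0) (nat_lit 6318519788) (nat_lit 19) (nat_lit 5) (nat_lit 21) (nat_lit 4) (nat_lit 19) (nat_lit 4) (nat_lit 405) (nat_lit 317) (nat_lit 298))) (XT.nd (nat_lit 78) (nat_lit 0)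 (nat_lit 0) (XT.lf (nat_lit 0) (nat_lit 3842357167) (nat_lit 76) (nat_lit 12946466909) (nat_lit 76) (nat_lit 8780736732) (nat_lit 18) (nat_lit 4) (nat_lit 19) (nat_lit 5) (nat_lit 19) (nat_lit 4) (nat_lit 406) (nat_lit 317) (nat_lit 297)) (XT.lf (nat_lit 0) (nat_lit 16266088412) (nat_lit 76) (nat_lit 7277387524) (nat_lit 76) (nat_lit 2991674053) (nat_lit 18) (nat_lit 4) (nat_lit 19) (nat_lit 5) (nat_lit 19) (nat_lit 4) (nat_lit 407) (nat_lit 317) (nat_lit 296))))))))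
noncomputable def xc46 : XT := (XT.nd (nat_lit 2106) (nat_lit 228) (nat_lit 0) (XT.nd (nat_lit 1014) (nat_lit 304) (nat_lit 0) (XT.nd (nat_lit 468) (nat_lit 228) (nat_lit 0) (XT.nd (nat_lit 234) (nat_lit 228) (nat_lit 0) (XT.nd (nat_lit 78) (nat_lit 0) (nat_lit 0) (XT.lf (nat_lit 0) (nat_lit 1510998819) (nat_lit 76) (nat_lit 1372407079) (nat_lit 152) (nat_lit 24668442879) (nat_lit 16) (nat_lit 5) (nat_lit 17) (nat_lit 5) (nat_lit 18) (nat_lit 4) (nat_lit 408) (nat_lit 317) (nat_lit 295)) (XT.nd (nat_lit 78) (nat_lit 0) (nat_lit 0) (XT.lf (nat_lit 0) (nat_lit 9075966813) (nat_lit 152) (nat_lit 14752897282) (nat_lit 0) (nat_lit 4781860472) (nat_lit 16) (nat_lit 5) (nat_lit 18) (nat_lit 4) (nat_lit 16) (nat_lit 4) (nat_lit 409) (nat_lit 317) (nat_lit 294)) (XT.lf (nat_lit 0) (nat_lit 15478871827) (nat_lit 152) (nat_lit 3162588818) (nat_lit 0) (nat_lit 11086054933) (nat_lit 16) (nat_lit 5) (nat_lit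 18) (nat_lit 4) (nat_lit 16) (nat_lit 4) (nat_lit 410) (nat_lit 317) (nat_lit 293)))) (XT.nd (nat_lit 78) (nat_lit 152) (nat_lit 0) (XT.lf (nat_lit 0) (nat_lit 9069375171) (nat_lit 76) (nat_lit 13158162023) (nat_lit 76) (nat_lit 8671335079) (nat_lit 15) (nat_lit 4) (nat_lit 16) (nat_lit 5) (nat_lit 16) (nat_lit 4) (nat_lit 411) (nat_lit 317) (nat_lit 292)) (XT.nd (nat_lit 78) (nat_lit 152) (nat_lit 0) (XT.lf (nat_lit 0) (nat_lit 21798278381) (nat_lit 76) (nat_lit 7454952771) (nat_lit 76) (nat_lit 2878592447) (nat_lit 15) (nat_lit 4) (nat_lit 16) (nat_lit 5) (nat_lit 16) (nat_lit 4) (nat_lit 412) (nat_lit 317) (nat_lit 291)) (XT.lf (nat_lit 0) (nat_lit 1518358899) (nat_lit 76) (nat_lit 1496269935) (nat_lit 152) (nat_lit 30413629470) (nat_lit 13) (nat_lit 5) (nat_lit 14) (nat_lit 5) (nat_lit 15) (nat_lit 4) (nat_lit 413) (nat_lit 317) (nat_lit 290))))) (XT.nd (nat_lit 234) (nat_lit 152) (nat_lit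 0) (XT.nd (nat_lit 78) (nat_lit 76) (nat_lit 0) (XT.lf (nat_lit 0) (nat_lit 9247909756) (nat_lit 152) (nat_lit 20801224609) (nat_lit 0) (nat_lit 4730919635) (nat_lit 13) (nat_lit 5) (nat_lit 15) (nat_lit 4) (nat_lit 13) (nat_lit 4) (nat_lit 414) (nat_lit 317) (nat_lit 289)) (XT.nd (nat_lit 78) (nat_lit 76) (nat_lit 0) (XT.lf (nat_lit 0) (nat_lit 15712567836) (nat_lit 152) (nat_lit 9368973009) (nat_lit 0) (nat_lit 11121918381) (nat_lit 13) (nat_lit 5) (nat_lit 15) (nat_lit 4) (nat_lit 13) (nat_lit 4) (nat_lit 415) (nat_lit 317) (nat_lit 288)) (XT.lf (nat_lit 0) (nat_lit 2518028652) (nat_lit 76) (nat_lit 19921918981) (nat_lit 76) (nat_lit 15261117779) (nat_lit 12) (nat_lit 4) (nat_lit 13) (nat_lit 5) (nat_lit 13) (nat_lit 4) (nat_lit 416) (nat_lit 317) (nat_lit 287)))) (XT.nd (nat_lit 156) (nat_lit 152) (nat_lit 0) (XT.nd (nat_lit 78) (nat_lit 0) (nat_lit 0) (XT.lf (nat_lit 0) (nat_lit 15130379583)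 (nat_lit 76) (nat_lit 14433880709) (nat_lit 76) (nat_lit 9706268320) (nat_lit 12) (nat_lit 4) (nat_lit 13) (nat_lit 5) (nat_lit 13) (nat_lit 4) (nat_lit 417) (nat_lit 317) (nat_lit 286)) (XT.lf (nat_lit 0) (nat_lit 28188328631) (nat_lit 76) (nat_lit 8763027362) (nat_lit 76) (nat_lit 3971785271) (nat_lit 12) (nat_lit 4) (nat_lit 13) (nat_lit 5) (nat_lit 13) (nat_lit 4) (nat_lit 418) (nat_lit 317) (nat_lit 285))) (XT.nd (nat_lit 78) (nat_lit 76) (nat_lit 0) (XT.lf (nat_lit 0) (nat_lit 1893381166) (nat_lit 152) (nat_lit 970410416) (nat_lit 76) (nat_lit 39797519658) (nat_lit 11) (nat_lit 5) (nat_lit 13) (nat_lit 5) (nat_lit 12) (nat_lit 4) (nat_lit 419) (nat_lit 317) (nat_lit 284)) (XT.lf (nat_lit 0) (nat_lit 8066661380) (nat_lit 152) (nat_lit 33018166198) (nat_lit 0) (nat_lit 3390893930) (nat_lit 10) (nat_lit 5) (nat_lit 12) (nat_lit 4) (nat_lit 10) (nat_lit 4) (nat_lit 420) (nat_lit 317) (nat_lit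 283)))))) (XT.nd (nat_lit 546) (nat_lit 228) (nat_lit 0) (XT.nd (nat_lit 234) (nat_lit 0) (nat_lit 0) (XT.nd (nat_lit 78) (nat_lit 76) (nat_lit 0) (XT.lf (nat_lit 0) (nat_lit 14526297628) (nat_lit 152) (nat_lit 22057492032) (nat_lit 0) (nat_lit 9798181864) (nat_lit 10) (nat_lit 5) (nat_lit 12) (nat_lit 4) (nat_lit 10) (nat_lit 4) (nat_lit 421) (nat_lit 317) (nat_lit 282)) (XT.nd (nat_lit 78) (nat_lit 76) (nat_lit 0) (XT.lf (nat_lit 0) (nat_lit 21227049816) (nat_lit 152) (nat_lit 10711502658) (nat_lit 0) (nat_lit 16449078515) (nat_lit 10) (nat_lit 5) (nat_lit 12) (nat_lit 4) (nat_lit 10) (nat_lit 4) (nat_lit 422) (nat_lit 317) (nat_lit 281)) (XT.lf (nat_lit 0) (nat_lit 1081428654) (nat_lit 76) (nat_lit 27120327593) (nat_lit 76) (nat_lit 22294874828) (nat_lit 9) (nat_lit 4) (nat_lit 10) (nat_lit 5) (nat_lit 10) (nat_lit 4) (nat_lit 423) (nat_lit 317) (nat_lit 280)))) (XT.nd (nat_lit 156) (nat_lit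 0) (nat_lit 0) (XT.nd (nat_lit 78) (nat_lit 0) (nat_lit 0) (XT.lf (nat_lit 0) (nat_lit 13683415235) (nat_lit 76) (nat_lit 21946551995) (nat_lit 76) (nat_lit 17075878789) (nat_lit 9) (nat_lit 4) (nat_lit 10) (nat_lit 5) (nat_lit 10) (nat_lit 4) (nat_lit 424) (nat_lit 317) (nat_lit 279)) (XT.lf (nat_lit 0) (nat_lit 26770291160) (nat_lit 76) (nat_lit 16586311648) (nat_lit 76) (nat_lit 11672571355) (nat_lit 9) (nat_lit 4) (nat_lit 10) (nat_lit 5) (nat_lit 10) (nat_lit 4) (nat_lit 425) (nat_lit 317) (nat_lit 278))) (XT.nd (nat_lit 78) (nat_lit 0) (nat_lit 0) (XT.lf (nat_lit 0) (nat_lit 40373215658) (nat_lit 76) (nat_lit 11026844075) (nat_lit 76) (nat_lit 6072087509) (nat_lit 9) (nat_lit 4) (nat_lit 10) (nat_lit 5) (nat_lit 10) (nat_lit 4) (nat_lit 426) (nat_lit 317) (nat_lit 277)) (XT.lf (nat_lit 0) (nat_lit 54524576645) (nat_lit 76) (nat_lit 5254912449) (nat_lit 76) (nat_lit 261092766) (nat_lit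 9) (nat_lit 4) (nat_lit 10) (nat_lit 5) (nat_lit 10) (nat_lit 4) (nat_lit 427) (nat_lit 317) (nat_lit 276))))) (XT.nd (nat_lit 234) (nat_lit 76) (nat_lit 0) (XT.nd (nat_lit 78) (nat_lit 0) (nat_lit 0) (XT.lf (nat_lit 0) (nat_lit 5707884245) (nat_lit 152) (nat_lit 56105844996) (nat_lit 0) (nat_lit 916434099) (nat_lit 7) (nat_lit 5) (nat_lit 9) (nat_lit 4) (nat_lit 7) (nat_lit 4) (nat_lit 428) (nat_lit 317) (nat_lit 275)) (XT.nd (nat_lit 78) (nat_lit 0) (nat_lit 0) (XT.lf (nat_lit 0) (nat_lit 12083661428) (nat_lit 152) (nat_lit 46206027549) (nat_lit 0) (nat_lit 7258467093) (nat_lit 7) (nat_lit 5) (nat_lit 9) (nat_lit 4) (nat_lit 7) (nat_lit 4) (nat_lit 429) (nat_lit 317) (nat_lit 274)) (XT.lf (nat_lit 0) (nat_lit 18717305578) (nat_lit 152) (nat_lit 35932817388) (nat_lit 0) (nat_lit 13859973920) (nat_lit 7) (nat_lit 5) (nat_lit 9) (nat_lit 4) (nat_lit 7) (nat_lit 4) (nat_lit 430) (nat_lit 317)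 (nat_lit 273)))) (XT.nd (nat_lit 156) (nat_lit 76) (nat_lit 0) (XT.nd (nat_lit 78) (nat_lit 0) (nat_lit 0) (XT.lf (nat_lit 0) (nat_lit 25624611087) (nat_lit 152) (nat_lit 25261754487) (nat_lit 0) (nat_lit 20736672454) (nat_lit 7) (nat_lit 5) (nat_lit 9) (nat_lit 4) (nat_lit 7) (nat_lit 4) (nat_lit 431) (nat_lit 317) (nat_lit 272)) (XT.lf (nat_lit 0) (nat_lit 32822023920) (nat_lit 152) (nat_lit 14167431555) (nat_lit 0) (nat_lit 27904935787) (nat_lit 7) (nat_lit 5) (nat_lit 9) (nat_lit 4) (nat_lit 7) (nat_lit 4) (nat_lit 432) (nat_lit 317) (nat_lit 271))) (XT.nd (nat_lit 78) (nat_lit 76) (nat_lit 0) (XT.lf (nat_lit 0) (nat_lit 40326680773) (nat_lit 152) (nat_lit 2623433538) (nat_lit 0) (nat_lit 35381831212) (nat_lit 7) (nat_lit 5) (nat_lit 9) (nat_lit 4) (nat_lit 7) (nat_lit 4) (nat_lit 433) (nat_lit 317) (nat_lit 270)) (XT.lf (nat_lit 0) (nat_lit 9708456514) (nat_lit 76) (nat_lit 38599569578)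 (nat_lit 76) (nat_lit 33628280561) (nat_lit 6) (nat_lit 4) (nat_lit 7) (nat_lit 5) (nat_lit 7) (nat_lit 4) (nat_lit 434) (nat_lit 317) (nat_lit 269))))))) (XT.nd (nat_lit 1014) (nat_lit 76) (nat_lit 0) (XT.nd (nat_lit 468) (nat_lit 152) (nat_lit 0) (XT.nd (nat_lit 234) (nat_lit 0) (nat_lit 0) (XT.nd (nat_lit 78) (nat_lit 0) (nat_lit 0) (XT.lf (nat_lit 0) (nat_lit 22649595186) (nat_lit 76) (nat_lit 34034002012) (nat_lit 76) (nat_lit 29037532561) (nat_lit 6) (nat_lit 4) (nat_lit 7) (nat_lit 5) (nat_lit 7) (nat_lit 4) (nat_lit 435) (nat_lit 317) (nat_lit 268)) (XT.nd (nat_lit 78) (nat_lit 0) (nat_lit 0) (XT.lf (nat_lit 0) (nat_lit 36144052153) (nat_lit 76) (nat_lit 29286970330) (nat_lit 76) (nat_lit 24266519514) (nat_lit 6) (nat_lit 4) (nat_lit 7) (nat_lit 5) (nat_lit 7) (nat_lit 4) (nat_lit 436) (nat_lit 317) (nat_lit 267)) (XT.lf (nat_lit 0) (nat_lit 50223957073) (nat_lit 76) (nat_lit 24347172077)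 (nat_lit 76) (nat_lit 19303881865) (nat_lit 6) (nat_lit 4) (nat_lit 7) (nat_lit 5) (nat_lit 7) (nat_lit 4) (nat_lit 437) (nat_lit 317) (nat_lit 266)))) (XT.nd (nat_lit 78) (nat_lit 0) (nat_lit 0) (XT.lf (nat_lit 0) (nat_lit 64922833530) (nat_lit 76) (nat_lit 19202845828) (nat_lit 76) (nat_lit 14137803810) (nat_lit 6) (nat_lit 4) (nat_lit 7) (nat_lit 5) (nat_lit 7) (nat_lit 4) (nat_lit 438) (nat_lit 317) (nat_lit 265)) (XT.nd (nat_lit 78) (nat_lit 0) (nat_lit 0) (XT.lf (nat_lit 0) (nat_lit 80275678849) (nat_lit 76) (nat_lit 13841743186) (nat_lit 76) (nat_lit 8755985163) (nat_lit 6) (nat_lit 4) (nat_lit 7) (nat_lit 5) (nat_lit 7) (nat_lit 4) (nat_lit 439) (nat_lit 317) (nat_lit 264)) (XT.lf (nat_lit 0) (nat_lit 96319047423) (nat_lit 76) (nat_lit 8251099622) (nat_lit 76) (nat_lit 3145612071) (nat_lit 6) (nat_lit 4) (nat_lit 7) (nat_lit 5) (nat_lit 7) (nat_lit 4) (nat_lit 440) (nat_lit 317) (nat_lit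 263))))) (XT.nd (nat_lit 234) (nat_lit 0) (nat_lit 0) (XT.nd (nat_lit 78) (nat_lit 0) (nat_lit 0) (XT.lf (nat_lit 0) (nat_lit 254971332) (nat_lit 76) (nat_lit 2369052526) (nat_lit 152) (nat_lit 110175732494) (nat_lit 4) (nat_lit 5) (nat_lit 5) (nat_lit 5) (nat_lit 6) (nat_lit 4) (nat_lit 441) (nat_lit 317) (nat_lit 262)) (XT.nd (nat_lit 78) (nat_lit 0) (nat_lit 0) (XT.lf (nat_lit 0) (nat_lit 8794728921) (nat_lit 152) (nat_lit 105432310929) (nat_lit 0) (nat_lit 3897421452) (nat_lit 4) (nat_lit 5) (nat_lit 6) (nat_lit 4) (nat_lit 4) (nat_lit 4) (nat_lit 442) (nat_lit 317) (nat_lit 261)) (XT.lf (nat_lit 0) (nat_lit 15277271086) (nat_lit 152) (nat_lit 98074234426) (nat_lit 0) (nat_lit 10363732085) (nat_lit 4) (nat_lit 5) (nat_lit 6) (nat_lit 4) (nat_lit 4) (nat_lit 4) (nat_lit 443) (nat_lit 317) (nat_lit 260)))) (XT.nd (nat_lit 156) (nat_lit 0) (nat_lit 0) (XT.nd (nat_lit 78) (nat_lit 0) (nat_lit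 0) (XT.lf (nat_lit 0) (nat_lit 22050097429) (nat_lit 152) (nat_lit 90416048732) (nat_lit 0) (nat_lit 17121099825) (nat_lit 4) (nat_lit 5) (nat_lit 6) (nat_lit 4) (nat_lit 4) (nat_lit 4) (nat_lit 444) (nat_lit 317) (nat_lit 259)) (XT.lf (nat_lit 0) (nat_lit 29129333726) (nat_lit 152) (nat_lit 82439520071) (nat_lit 0) (nat_lit 24185613644) (nat_lit 4) (nat_lit 5) (nat_lit 6) (nat_lit 4) (nat_lit 4) (nat_lit 4) (nat_lit 445) (nat_lit 317) (nat_lit 258))) (XT.nd (nat_lit 78) (nat_lit 0) (nat_lit 0) (XT.lf (nat_lit 0) (nat_lit 36531835303) (nat_lit 152) (nat_lit 74125656708) (nat_lit 0) (nat_lit 31574093813) (nat_lit 4) (nat_lit 5) (nat_lit 6) (nat_lit 4) (nat_lit 4) (nat_lit 4) (nat_lit 446) (nat_lit 317) (nat_lit 257)) (XT.lf (nat_lit 0) (nat_lit 44275227162) (nat_lit 152) (nat_lit 65454663732) (nat_lit 0) (nat_lit 39304131950) (nat_lit 4) (nat_lit 5) (nat_lit 6) (nat_lit 4) (nat_lit 4) (nat_lit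 4) (nat_lit 447) (nat_lit 317) (nat_lit 256)))))) (XT.nd (nat_lit 546) (nat_lit 0) (nat_lit 0) (XT.nd (nat_lit 234) (nat_lit 76) (nat_lit 0) (XT.nd (nat_lit 78) (nat_lit 0) (nat_lit 0) (XT.lf (nat_lit 0) (nat_lit 52377945951) (nat_lit 152) (nat_lit 56405895920) (nat_lit 0) (nat_lit 47394132910) (nat_lit 4) (nat_lit 5) (nat_lit 6) (nat_lit 4) (nat_lit 4) (nat_lit 4) (nat_lit 448) (nat_lit 317) (nat_lit 255)) (XT.nd (nat_lit 78) (nat_lit 0) (nat_lit 0) (XT.lf (nat_lit 0) (nat_lit 60859283859) (nat_lit 152) (nat_lit 46957808587) (nat_lit 0) (nat_lit 55863358598) (nat_lit 4) (nat_lit 5) (nat_lit 6) (nat_lit 4) (nat_lit 4) (nat_lit 4) (nat_lit 449) (nat_lit 317) (nat_lit 254)) (XT.lf (nat_lit 0) (nat_lit 69739434545) (nat_lit 152) (nat_lit 37087906287) (nat_lit 0) (nat_lit 64731973837) (nat_lit 4) (nat_lit 5) (nat_lit 6) (nat_lit 4) (nat_lit 4) (nat_lit 4) (nat_lit 450) (nat_lit 317) (nat_lit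 253)))) (XT.nd (nat_lit 156) (nat_lit 76) (nat_lit 0) (XT.nd (nat_lit 78) (nat_lit 0) (nat_lit 0) (XT.lf (nat_lit 0) (nat_lit 79039541227) (nat_lit 152) (nat_lit 26772689252) (nat_lit 0) (nat_lit 74021094380) (nat_lit 4) (nat_lit 5) (nat_lit 6) (nat_lit 4) (nat_lit 4) (nat_lit 4) (nat_lit 451) (nat_lit 317) (nat_lit 252)) (XT.lf (nat_lit 0) (nat_lit 88781747016) (nat_lit 152) (nat_lit 15987597443) (nat_lit 0) (nat_lit 83752837178) (nat_lit 4) (nat_lit 5) (nat_lit 6) (nat_lit 4) (nat_lit 4) (nat_lit 4) (nat_lit 452) (nat_lit 317) (nat_lit 251))) (XT.nd (nat_lit 78) (nat_lit 76) (nat_lit 0) (XT.lf (nat_lit 0) (nat_lit 98989247639) (nat_lit 152) (nat_lit 4706952069) (nat_lit 0) (nat_lit 93950373048) (nat_lit 4) (nat_lit 5) (nat_lit 6) (nat_lit 4) (nat_lit 4) (nat_lit 4) (nat_lit 453) (nat_lit 317) (nat_lit 250)) (XT.lf (nat_lit 0) (nat_lit 7330734844) (nat_lit 76) (nat_lit 102470065140) (nat_lit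 76) (nat_lit 97421700308) (nat_lit 3) (nat_lit 4) (nat_lit 4) (nat_lit 5) (nat_lit 4) (nat_lit 4) (nat_lit 454) (nat_lit 317) (nat_lit 249))))) (XT.nd (nat_lit 234) (nat_lit 0) (nat_lit 0) (XT.nd (nat_lit 78) (nat_lit 0) (nat_lit 0) (XT.lf (nat_lit 0) (nat_lit 20092772118) (nat_lit 76) (nat_lit 101119445755) (nat_lit 76) (nat_lit 96062042599) (nat_lit 3) (nat_lit 4) (nat_lit 4) (nat_lit 5) (nat_lit 4) (nat_lit 4) (nat_lit 455) (nat_lit 317) (nat_lit 248)) (XT.nd (nat_lit 78) (nat_lit 0) (nat_lit 0) (XT.lf (nat_lit 0) (nat_lit 33453912462) (nat_lit 76) (nat_lit 99720840304) (nat_lit 76) (nat_lit 94654829220) (nat_lit 3) (nat_lit 4) (nat_lit 4) (nat_lit 5) (nat_lit 4) (nat_lit 4) (nat_lit 456) (nat_lit 317) (nat_lit 247)) (XT.lf (nat_lit 0) (nat_lit 47445968114) (nat_lit 76) (nat_lit 98270918774) (nat_lit 76) (nat_lit 93196709663) (nat_lit 3) (nat_lit 4) (nat_lit 4) (nat_lit 5) (nat_lit 4)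 (nat_lit 4) (nat_lit 457) (nat_lit 317) (nat_lit 246)))) (XT.nd (nat_lit 156) (nat_lit 0) (nat_lit 0) (XT.nd (nat_lit 78) (nat_lit 0) (nat_lit 0) (XT.lf (nat_lit 0) (nat_lit 62102253493) (nat_lit 76) (nat_lit 96766228971) (nat_lit 76) (nat_lit 91684212216) (nat_lit 3) (nat_lit 4) (nat_lit 4) (nat_lit 5) (nat_lit 4) (nat_lit 4) (nat_lit 458) (nat_lit 317) (nat_lit 245)) (XT.lf (nat_lit 0) (nat_lit 77457664517) (nat_lit 76) (nat_lit 95203188301) (nat_lit 76) (nat_lit 90113735694) (nat_lit 3) (nat_lit 4) (nat_lit 4) (nat_lit 5) (nat_lit 4) (nat_lit 4) (nat_lit 459) (nat_lit 317) (nat_lit 244))) (XT.nd (nat_lit 78) (nat_lit 0) (nat_lit 0) (XT.lf (nat_lit 0) (nat_lit 93548761687) (nat_lit 76) (nat_lit 93578075237) (nat_lit 76) (nat_lit 88481540866) (nat_lit 3) (nat_lit 4) (nat_lit 4) (nat_lit 5) (nat_lit 4) (nat_lit 4) (nat_lit 460) (nat_lit 317) (nat_lit 243)) (XT.lf (nat_lit 0) (nat_lit 110413857141)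 (nat_lit 76) (nat_lit 91887020463) (nat_lit 76) (nat_lit 86783741556) (nat_lit 3) (nat_lit 4) (nat_lit 4) (nat_lit 5) (nat_lit 4) (nat_lit 4) (nat_lit 461) (nat_lit 317) (nat_lit 242))))))))
noncomputable def xc47 : XT := (XT.nd (nat_lit 47346) (nat_lit 0) (nat_lit 760) (XT.nd (nat_lit 1014) (nat_lit 0) (nat_lit 0) (XT.nd (nat_lit 468) (nat_lit 0) (nat_lit 0) (XT.nd (nat_lit 234) (nat_lit 0) (nat_lit 0) (XT.nd (nat_lit 78) (nat_lit 0) (nat_lit 0) (XT.lf (nat_lit 0) (nat_lit 128093105866) (nat_lit 76) (nat_lit 90125997659) (nat_lit 76) (nat_lit 85016295382) (nat_lit 3) (nat_lit 4) (nat_lit 4) (nat_lit 5) (nat_lit 4) (nat_lit 4) (nat_lit 462) (nat_lit 317) (nat_lit 241)) (XT.nd (nat_lit 78) (nat_lit 0) (nat_lit 0) (XT.lf (nat_lit 0) (nat_lit 146628601314) (nat_lit 76) (nat_lit 88290813912) (nat_lit 76) (nat_lit 83174994142) (nat_lit 3) (nat_lit 4) (nat_lit 4) (nat_lit 5) (nat_lit 4) (nat_lit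 4) (nat_lit 463) (nat_lit 317) (nat_lit 240)) (XT.lf (nat_lit 0) (nat_lit 166064475614) (nat_lit 76) (nat_lit 86377099738) (nat_lit 76) (nat_lit 81255453783) (nat_lit 3) (nat_lit 4) (nat_lit 4) (nat_lit 5) (nat_lit 4) (nat_lit 4) (nat_lit 464) (nat_lit 317) (nat_lit 239)))) (XT.nd (nat_lit 78) (nat_lit 0) (nat_lit 0) (XT.lf (nat_lit 0) (nat_lit 186447004660) (nat_lit 76) (nat_lit 84380298673) (nat_lit 76) (nat_lit 79253103972) (nat_lit 3) (nat_lit 4) (nat_lit 4) (nat_lit 5) (nat_lit 4) (nat_lit 4) (nat_lit 465) (nat_lit 317) (nat_lit 238)) (XT.nd (nat_lit 78) (nat_lit 0) (nat_lit 0) (XT.lf (nat_lit 0) (nat_lit 207824718281) (nat_lit 76) (nat_lit 82295656431) (nat_lit 76) (nat_lit 77163177209) (nat_lit 3) (nat_lit 4) (nat_lit 4) (nat_lit 5) (nat_lit 4) (nat_lit 4) (nat_lit 466) (nat_lit 317) (nat_lit 237)) (XT.lf (nat_lit 0) (nat_lit 230248515796) (nat_lit 76) (nat_lit 80118209578) (nat_lit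 76) (nat_lit 74980697478) (nat_lit 3) (nat_lit 4) (nat_lit 4) (nat_lit 5) (nat_lit 4) (nat_lit 4) (nat_lit 467) (nat_lit 317) (nat_lit 236))))) (XT.nd (nat_lit 234) (nat_lit 0) (nat_lit 0) (XT.nd (nat_lit 78) (nat_lit 0) (nat_lit 0) (XT.lf (nat_lit 0) (nat_lit 253771787199) (nat_lit 76) (nat_lit 77842773714) (nat_lit 76) (nat_lit 72700468398) (nat_lit 3) (nat_lit 4) (nat_lit 4) (nat_lit 5) (nat_lit 4) (nat_lit 4) (nat_lit 468) (nat_lit 317) (nat_lit 235)) (XT.nd (nat_lit 78) (nat_lit 0) (nat_lit 0) (XT.lf (nat_lit 0) (nat_lit 278450540279) (nat_lit 76) (nat_lit 75463931138) (nat_lit 76) (nat_lit 70317060853) (nat_lit 3) (nat_lit 4) (nat_lit 4) (nat_lit 5) (nat_lit 4) (nat_lit 4) (nat_lit 469) (nat_lit 317) (nat_lit 234)) (XT.lf (nat_lit 0) (nat_lit 304343533973) (nat_lit 76) (nat_lit 72976017937) (nat_lit 76) (nat_lit 67824800064) (nat_lit 3) (nat_lit 4) (nat_lit 4) (nat_lit 5) (nat_lit 4)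 (nat_lit 4) (nat_lit 470) (nat_lit 317) (nat_lit 233)))) (XT.nd (nat_lit 156) (nat_lit 0) (nat_lit 0) (XT.nd (nat_lit 78) (nat_lit 0) (nat_lit 0) (XT.lf (nat_lit 0) (nat_lit 331512418264) (nat_lit 76) (nat_lit 70373110508) (nat_lit 76) (nat_lit 65217752074) (nat_lit 3) (nat_lit 4) (nat_lit 4) (nat_lit 5) (nat_lit 4) (nat_lit 4) (nat_lit 471) (nat_lit 317) (nat_lit 232)) (XT.lf (nat_lit 0) (nat_lit 360021880973) (nat_lit 76) (nat_lit 67649011454) (nat_lit 76) (nat_lit 62489709629) (nat_lit 3) (nat_lit 4) (nat_lit 4) (nat_lit 5) (nat_lit 4) (nat_lit 4) (nat_lit 472) (nat_lit 317) (nat_lit 231))) (XT.nd (nat_lit 78) (nat_lit 0) (nat_lit 0) (XT.lf (nat_lit 0) (nat_lit 389939801772) (nat_lit 76) (nat_lit 64797234823) (nat_lit 76) (nat_lit 59634177388) (nat_lit 3) (nat_lit 4) (nat_lit 4) (nat_lit 5) (nat_lit 4) (nat_lit 4) (nat_lit 473) (nat_lit 317) (nat_lit 230)) (XT.lf (nat_lit 0) (nat_lit 421337413808)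 (nat_lit 76) (nat_lit 61810990672) (nat_lit 76) (nat_lit 56644356465) (nat_lit 3) (nat_lit 4) (nat_lit 4) (nat_lit 5) (nat_lit 4) (nat_lit 4) (nat_lit 474) (nat_lit 317) (nat_lit 229)))))) (XT.nd (nat_lit 546) (nat_lit 0) (nat_lit 0) (XT.nd (nat_lit 234) (nat_lit 0) (nat_lit 0) (XT.nd (nat_lit 78) (nat_lit 0) (nat_lit 0) (XT.lf (nat_lit 0) (nat_lit 454289473298) (nat_lit 76) (nat_lit 58683168895) (nat_lit 76) (nat_lit 53513128238) (nat_lit 3) (nat_lit 4) (nat_lit 4) (nat_lit 5) (nat_lit 4) (nat_lit 4) (nat_lit 475) (nat_lit 317) (nat_lit 228)) (XT.nd (nat_lit 78) (nat_lit 0) (nat_lit 0) (XT.lf (nat_lit 0) (nat_lit 488874437527) (nat_lit 76) (nat_lit 55406322298) (nat_lit 76) (nat_lit 50233037404) (nat_lit 3) (nat_lit 4) (nat_lit 4) (nat_lit 5) (nat_lit 4) (nat_lit 4) (nat_lit 476) (nat_lit 317) (nat_lit 227)) (XT.lf (nat_lit 0) (nat_lit 525174651648) (nat_lit 76) (nat_lit 51972648865) (nat_lit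 76) (nat_lit 46796274221) (nat_lit 3) (nat_lit 4) (nat_lit 4) (nat_lit 5) (nat_lit 4) (nat_lit 4) (nat_lit 477) (nat_lit 317) (nat_lit 226)))) (XT.nd (nat_lit 156) (nat_lit 0) (nat_lit 0) (XT.nd (nat_lit 78) (nat_lit 0) (nat_lit 0) (XT.lf (nat_lit 0) (nat_lit 563276544743) (nat_lit 76) (nat_lit 48373973183) (nat_lit 76) (nat_lit 43194655920) (nat_lit 3) (nat_lit 4) (nat_lit 4) (nat_lit 5) (nat_lit 4) (nat_lit 4) (nat_lit 478) (nat_lit 317) (nat_lit 225)) (XT.lf (nat_lit 0) (nat_lit 603270835604) (nat_lit 76) (nat_lit 44601726976) (nat_lit 76) (nat_lit 39419607219) (nat_lit 3) (nat_lit 4) (nat_lit 4) (nat_lit 5) (nat_lit 4) (nat_lit 4) (nat_lit 479) (nat_lit 317) (nat_lit 224))) (XT.nd (nat_lit 78) (nat_lit 0) (nat_lit 0) (XT.lf (nat_lit 0) (nat_lit 645252748733) (nat_lit 76) (nat_lit 40646928707) (nat_lit 76) (nat_lit 35462139907) (nat_lit 3) (nat_lit 4) (nat_lit 4) (nat_lit 5) (nat_lit 4)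 (nat_lit 4) (nat_lit 480) (nat_lit 317) (nat_lit 223)) (XT.lf (nat_lit 0) (nat_lit 689322241068) (nat_lit 76) (nat_lit 36500162188) (nat_lit 76) (nat_lit 31312831443) (nat_lit 3) (nat_lit 4) (nat_lit 4) (nat_lit 5) (nat_lit 4) (nat_lit 4) (nat_lit 481) (nat_lit 317) (nat_lit 222))))) (XT.nd (nat_lit 45474) (nat_lit 0) (nat_lit 2584) (XT.nd (nat_lit 78) (nat_lit 0) (nat_lit 0) (XT.lf (nat_lit 0) (nat_lit 735584239969) (nat_lit 76) (nat_lit 32151554167) (nat_lit 76) (nat_lit 26961802522) (nat_lit 3) (nat_lit 4) (nat_lit 4) (nat_lit 5) (nat_lit 4) (nat_lit 4) (nat_lit 482) (nat_lit 317) (nat_lit 221)) (XT.nd (nat_lit 78) (nat_lit 0) (nat_lit 0) (XT.lf (nat_lit 0) (nat_lit 784148893054) (nat_lit 76) (nat_lit 27590750813) (nat_lit 76) (nat_lit 22398693549) (nat_lit 3) (nat_lit 4) (nat_lit 4) (nat_lit 5) (nat_lit 4) (nat_lit 4) (nat_lit 483) (nat_lit 317) (nat_lit 220)) (XT.lf (nat_lit 0) (nat_lit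 835131830449) (nat_lit 76) (nat_lit 22806893073) (nat_lit 76) (nat_lit 17612639981) (nat_lit 3) (nat_lit 4) (nat_lit 4) (nat_lit 5) (nat_lit 4) (nat_lit 4) (nat_lit 484) (nat_lit 317) (nat_lit 219)))) (XT.nd (nat_lit 156) (nat_lit 304) (nat_lit 0) (XT.nd (nat_lit 78) (nat_lit 152) (nat_lit 0) (XT.lf (nat_lit 0) (nat_lit 2712090784) (nat_lit 152) (nat_lit 963823348) (nat_lit 0) (nat_lit 2712090784) (nat_lit 43) (nat_lit 5) (nat_lit 45) (nat_lit 4) (nat_lit 43) (nat_lit 4) (nat_lit 384) (nat_lit 318) (nat_lit 318)) (XT.lf (nat_lit 0) (nat_lit 8616242129) (nat_lit 152) (nat_lit 2486409609) (nat_lit 152) (nat_lit 2016059605) (nat_lit 41) (nat_lit 4) (nat_lit 43) (nat_lit 5) (nat_lit 43) (nat_lit 4) (nat_lit 385) (nat_lit 318) (nat_lit 317))) (XT.nd (nat_lit 78) (nat_lit 152) (nat_lit 0) (XT.lf (nat_lit 0) (nat_lit 3451293869) (nat_lit 152) (nat_lit 7448786061) (nat_lit 0) (nat_lit 2576720165)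 (nat_lit 39) (nat_lit 5) (nat_lit 41) (nat_lit 4) (nat_lit 39) (nat_lit 4) (nat_lit 386) (nat_lit 318) (nat_lit 316)) (XT.lf (nat_lit 0) (nat_lit 3070664802) (nat_lit 152) (nat_lit 6031251388) (nat_lit 152) (nat_lit 4750371664) (nat_lit 37) (nat_lit 4) (nat_lit 39) (nat_lit 5) (nat_lit 39) (nat_lit 4) (nat_lit 387) (nat_lit 318) (nat_lit 315))))))) (XT.nd (nat_lit 1092) (nat_lit 684) (nat_lit 0) (XT.nd (nat_lit 546) (nat_lit 456) (nat_lit 0) (XT.nd (nat_lit 234) (nat_lit 380) (nat_lit 0) (XT.nd (nat_lit 78) (nat_lit 228) (nat_lit 0) (XT.lf (nat_lit 0) (nat_lit 703571160) (nat_lit 228) (nat_lit 225516958) (nat_lit 76) (nat_lit 13319858890) (nat_lit 36) (nat_lit 5) (nat_lit 39) (nat_lit 5) (nat_lit 37) (nat_lit 4) (nat_lit 388) (nat_lit 318) (nat_lit 314)) (XT.nd (nat_lit 78) (nat_lit 152) (nat_lit 0) (XT.lf (nat_lit 0) (nat_lit 6330991604) (nat_lit 152) (nat_lit 3935966082) (nat_lit 0) (nat_lit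 4391592202) (nat_lit 35) (nat_lit 5) (nat_lit 37) (nat_lit 4) (nat_lit 35) (nat_lit 4) (nat_lit 389) (nat_lit 318) (nat_lit 313)) (XT.lf (nat_lit 0) (nat_lit 7016445647) (nat_lit 152) (nat_lit 5174169270) (nat_lit 152) (nat_lit 2900500901) (nat_lit 33) (nat_lit 4) (nat_lit 35) (nat_lit 5) (nat_lit 35) (nat_lit 4) (nat_lit 390) (nat_lit 318) (nat_lit 312)))) (XT.nd (nat_lit 156) (nat_lit 228) (nat_lit 0) (XT.nd (nat_lit 78) (nat_lit 0) (nat_lit 0) (XT.lf (nat_lit 0) (nat_lit 2645772508) (nat_lit 152) (nat_lit 12723322656) (nat_lit 0) (nat_lit 177182255) (nat_lit 31) (nat_lit 5) (nat_lit 33) (nat_lit 4) (nat_lit 31) (nat_lit 4) (nat_lit 391) (nat_lit 318) (nat_lit 311)) (XT.lf (nat_lit 0) (nat_lit 8419375706) (nat_lit 152) (nat_lit 1938059148) (nat_lit 0) (nat_lit 5662031351) (nat_lit 31) (nat_lit 5) (nat_lit 33) (nat_lit 4) (nat_lit 31) (nat_lit 4) (nat_lit 392) (nat_lit 318) (nat_lit 310)))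 (XT.nd (nat_lit 78) (nat_lit 152) (nat_lit 0) (XT.lf (nat_lit 0) (nat_lit 9370298156) (nat_lit 76) (nat_lit 5089733042) (nat_lit 76) (nat_lit 2057384780) (nat_lit 30) (nat_lit 4) (nat_lit 31) (nat_lit 5) (nat_lit 31) (nat_lit 4) (nat_lit 393) (nat_lit 318) (nat_lit 309)) (XT.lf (nat_lit 0) (nat_lit 3577848634) (nat_lit 152) (nat_lit 13022243777) (nat_lit 0) (nat_lit 440461259) (nat_lit 28) (nat_lit 5) (nat_lit 30) (nat_lit 4) (nat_lit 28) (nat_lit 4) (nat_lit 394) (nat_lit 318) (nat_lit 308))))) (XT.nd (nat_lit 234) (nat_lit 228) (nat_lit 0) (XT.nd (nat_lit 78) (nat_lit 228) (nat_lit 0) (XT.lf (nat_lit 0) (nat_lit 9465479534) (nat_lit 152) (nat_lit 2030177426) (nat_lit 0) (nat_lit 6090533445) (nat_lit 28) (nat_lit 5) (nat_lit 30) (nat_lit 4) (nat_lit 28) (nat_lit 4) (nat_lit 395) (nat_lit 318) (nat_lit 307)) (XT.nd (nat_lit 78) (nat_lit 152) (nat_lit 0) (XT.lf (nat_lit 0) (nat_lit 9513732196)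 (nat_lit 76) (nat_lit 6123548212) (nat_lit 76) (nat_lit 2522355728) (nat_lit 27) (nat_lit 4) (nat_lit 28) (nat_lit 5) (nat_lit 28) (nat_lit 4) (nat_lit 396) (nat_lit 318) (nat_lit 306)) (XT.lf (nat_lit 0) (nat_lit 2675317124) (nat_lit 76) (nat_lit 491503541) (nat_lit 152) (nat_lit 15596413076) (nat_lit 25) (nat_lit 5) (nat_lit 26) (nat_lit 5) (nat_lit 27) (nat_lit 4) (nat_lit 397) (nat_lit 318) (nat_lit 305)))) (XT.nd (nat_lit 156) (nat_lit 152) (nat_lit 0) (XT.nd (nat_lit 78) (nat_lit 76) (nat_lit 0) (XT.lf (nat_lit 0) (nat_lit 9131438132) (nat_lit 152) (nat_lit 4958653702) (nat_lit 0) (nat_lit 5301078714) (nat_lit 25) (nat_lit 5) (nat_lit 27) (nat_lit 4) (nat_lit 25) (nat_lit 4) (nat_lit 398) (nat_lit 318) (nat_lit 304)) (XT.lf (nat_lit 0) (nat_lit 6642744428) (nat_lit 76) (nat_lit 8713094339) (nat_lit 76) (nat_lit 4696601453) (nat_lit 24) (nat_lit 4) (nat_lit 25) (nat_lit 5) (nat_lit 25)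 (nat_lit 4) (nat_lit 399) (nat_lit 318) (nat_lit 303))) (XT.nd (nat_lit 78) (nat_lit 76) (nat_lit 0) (XT.lf (nat_lit 0) (nat_lit 1043470917) (nat_lit 152) (nat_lit 2054647475) (nat_lit 76) (nat_lit 17651002672) (nat_lit 23) (nat_lit 5) (nat_lit 25) (nat_lit 5) (nat_lit 24) (nat_lit 4) (nat_lit 400) (nat_lit 318) (nat_lit 302)) (XT.lf (nat_lit 0) (nat_lit 6968783733) (nat_lit 152) (nat_lit 11691275877) (nat_lit 0) (nat_lit 2813934780) (nat_lit 22) (nat_lit 5) (nat_lit 24) (nat_lit 4) (nat_lit 22) (nat_lit 4) (nat_lit 401) (nat_lit 318) (nat_lit 301)))))) (XT.nd (nat_lit 546) (nat_lit 304) (nat_lit 0) (XT.nd (nat_lit 234) (nat_lit 152) (nat_lit 0) (XT.nd (nat_lit 78) (nat_lit 228) (nat_lit 0) (XT.lf (nat_lit 0) (nat_lit 13134253091) (nat_lit 152) (nat_lit 277403296) (nat_lit 0) (nat_lit 8826271673) (nat_lit 22) (nat_lit 5) (nat_lit 24) (nat_lit 4) (nat_lit 22) (nat_lit 4) (nat_lit 402) (nat_lit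 318) (nat_lit 300)) (XT.nd (nat_lit 78) (nat_lit 152) (nat_lit 0) (XT.lf (nat_lit 0) (nat_lit 11822747526) (nat_lit 76) (nat_lit 7834344320) (nat_lit 76) (nat_lit 3380522459) (nat_lit 21) (nat_lit 4) (nat_lit 22) (nat_lit 5) (nat_lit 22) (nat_lit 4) (nat_lit 403) (nat_lit 318) (nat_lit 299)) (XT.lf (nat_lit 0) (nat_lit 368087701) (nat_lit 76) (nat_lit 2051817285) (nat_lit 152) (nat_lit 21461574689) (nat_lit 19) (nat_lit 5) (nat_lit 20) (nat_lit 5) (nat_lit 21) (nat_lit 4) (nat_lit 404) (nat_lit 318) (nat_lit 298)))) (XT.nd (nat_lit 156) (nat_lit 152) (nat_lit 0) (XT.nd (nat_lit 78) (nat_lit 0) (nat_lit 0) (XT.lf (nat_lit 0) (nat_lit 8517716824) (nat_lit 152) (nat_lit 12223293585) (nat_lit 0) (nat_lit 4017717679) (nat_lit 19) (nat_lit 5) (nat_lit 21) (nat_lit 4) (nat_lit 19) (nat_lit 4) (nat_lit 405) (nat_lit 318) (nat_lit 297)) (XT.lf (nat_lit 0) (nat_lit 14825643265) (nat_lit 152) (nat_lit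 653282422) (nat_lit 0) (nat_lit 10205660827) (nat_lit 19) (nat_lit 5) (nat_lit 21) (nat_lit 4) (nat_lit 19) (nat_lit 4) (nat_lit 406) (nat_lit 318) (nat_lit 296))) (XT.nd (nat_lit 78) (nat_lit 76) (nat_lit 0) (XT.lf (nat_lit 0) (nat_lit 11628405367) (nat_lit 76) (nat_lit 9879815192) (nat_lit 76) (nat_lit 5145562951) (nat_lit 18) (nat_lit 4) (nat_lit 19) (nat_lit 5) (nat_lit 19) (nat_lit 4) (nat_lit 407) (nat_lit 318) (nat_lit 295)) (XT.lf (nat_lit 0) (nat_lit 715292046) (nat_lit 152) (nat_lit 3376731930) (nat_lit 76) (nat_lit 23584301581) (nat_lit 17) (nat_lit 5) (nat_lit 19) (nat_lit 5) (nat_lit 18) (nat_lit 4) (nat_lit 408) (nat_lit 318) (nat_lit 294))))) (XT.nd (nat_lit 234) (nat_lit 152) (nat_lit 0) (XT.nd (nat_lit 78) (nat_lit 76) (nat_lit 0) (XT.lf (nat_lit 0) (nat_lit 6750629797) (nat_lit 152) (nat_lit 19952974730) (nat_lit 0) (nat_lit 2039461506) (nat_lit 16) (nat_lit 5) (nat_lit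 18) (nat_lit 4) (nat_lit 16) (nat_lit 4) (nat_lit 409) (nat_lit 318) (nat_lit 293)) (XT.nd (nat_lit 78) (nat_lit 76) (nat_lit 0) (XT.lf (nat_lit 0) (nat_lit 13096957611) (nat_lit 152) (nat_lit 8473952385) (nat_lit 0) (nat_lit 8291779270) (nat_lit 16) (nat_lit 5) (nat_lit 18) (nat_lit 4) (nat_lit 16) (nat_lit 4) (nat_lit 410) (nat_lit 318) (nat_lit 292)) (XT.lf (nat_lit 0) (nat_lit 3472902757) (nat_lit 76) (nat_lit 16231460555) (nat_lit 76) (nat_lit 11336748834) (nat_lit 15) (nat_lit 4) (nat_lit 16) (nat_lit 5) (nat_lit 16) (nat_lit 4) (nat_lit 411) (nat_lit 318) (nat_lit 291)))) (XT.nd (nat_lit 156) (nat_lit 76) (nat_lit 0) (XT.nd (nat_lit 78) (nat_lit 76) (nat_lit 0) (XT.lf (nat_lit 0) (nat_lit 16097528652) (nat_lit 76) (nat_lit 10579583370) (nat_lit 76) (nat_lit 5599601761) (nat_lit 15) (nat_lit 4) (nat_lit 16) (nat_lit 5) (nat_lit 16) (nat_lit 4) (nat_lit 412) (nat_lit 318) (nat_lit 290))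 (XT.lf (nat_lit 0) (nat_lit 305749492) (nat_lit 152) (nat_lit 4434404564) (nat_lit 76) (nat_lit 28838869290) (nat_lit 14) (nat_lit 5) (nat_lit 16) (nat_lit 5) (nat_lit 15) (nat_lit 4) (nat_lit 413) (nat_lit 318) (nat_lit 289))) (XT.nd (nat_lit 78) (nat_lit 0) (nat_lit 0) (XT.lf (nat_lit 0) (nat_lit 6364559426) (nat_lit 152) (nat_lit 27104267637) (nat_lit 0) (nat_lit 1470718164) (nat_lit 13) (nat_lit 5) (nat_lit 15) (nat_lit 4) (nat_lit 13) (nat_lit 4) (nat_lit 414) (nat_lit 318) (nat_lit 288)) (XT.lf (nat_lit 0) (nat_lit 12780522544) (nat_lit 152) (nat_lit 15768335627) (nat_lit 0) (nat_lit 7816529536) (nat_lit 13) (nat_lit 5) (nat_lit 15) (nat_lit 4) (nat_lit 13) (nat_lit 4) (nat_lit 415) (nat_lit 318) (nat_lit 287))))))))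
noncomputable def xc48 : XT := (XT.nd (nat_lit 2106) (nat_lit 76) (nat_lit 0) (XT.nd (nat_lit 1014) (nat_lit 304) (nat_lit 0) (XT.nd (nat_lit 468) (nat_lit 152) (nat_lit 0) (XT.nd (nat_lit 234) (nat_lit 152) (nat_lit 0) (XT.nd (nat_lit 78) (nat_lit 76) (nat_lit 0) (XT.lf (nat_lit 0) (nat_lit 19422212704) (nat_lit 152) (nat_lit 4053659551) (nat_lit 0) (nat_lit 14391408509) (nat_lit 13) (nat_lit 5) (nat_lit 15) (nat_lit 4) (nat_lit 13) (nat_lit 4) (nat_lit 416) (nat_lit 318) (nat_lit 286)) (XT.nd (nat_lit 78) (nat_lit 0) (nat_lit 0) (XT.lf (nat_lit 0) (nat_lit 8334405706) (nat_lit 76) (nat_lit 18101161177) (nat_lit 76) (nat_lit 13006727279) (nat_lit 12) (nat_lit 4) (nat_lit 13) (nat_lit 5) (nat_lit 13) (nat_lit 4) (nat_lit 417) (nat_lit 318) (nat_lit 285)) (XT.lf (nat_lit 0) (nat_lit 21306399154) (nat_lit 76) (nat_lit 12472856884) (nat_lit 76) (nat_lit 7317823270) (nat_lit 12) (nat_lit 4) (nat_lit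 13) (nat_lit 5) (nat_lit 13) (nat_lit 4) (nat_lit 418) (nat_lit 318) (nat_lit 284)))) (XT.nd (nat_lit 78) (nat_lit 152) (nat_lit 0) (XT.lf (nat_lit 0) (nat_lit 34759174198) (nat_lit 76) (nat_lit 6646209340) (nat_lit 76) (nat_lit 1433461710) (nat_lit 12) (nat_lit 4) (nat_lit 13) (nat_lit 5) (nat_lit 13) (nat_lit 4) (nat_lit 419) (nat_lit 318) (nat_lit 283)) (XT.nd (nat_lit 78) (nat_lit 0) (nat_lit 0) (XT.lf (nat_lit 0) (nat_lit 4111866208) (nat_lit 76) (nat_lit 463538458) (nat_lit 152) (nat_lit 40089486416) (nat_lit 10) (nat_lit 5) (nat_lit 11) (nat_lit 5) (nat_lit 12) (nat_lit 4) (nat_lit 420) (nat_lit 318) (nat_lit 282)) (XT.lf (nat_lit 0) (nat_lit 10987869208) (nat_lit 152) (nat_lit 29664488452) (nat_lit 0) (nat_lit 5921143806) (nat_lit 10) (nat_lit 5) (nat_lit 12) (nat_lit 4) (nat_lit 10) (nat_lit 4) (nat_lit 421) (nat_lit 318) (nat_lit 281))))) (XT.nd (nat_lit 234) (nat_lit 76) (nat_lit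 0) (XT.nd (nat_lit 78) (nat_lit 76) (nat_lit 0) (XT.lf (nat_lit 0) (nat_lit 17650588470) (nat_lit 152) (nat_lit 18394094200) (nat_lit 0) (nat_lit 12536381605) (nat_lit 10) (nat_lit 5) (nat_lit 12) (nat_lit 4) (nat_lit 10) (nat_lit 4) (nat_lit 422) (nat_lit 318) (nat_lit 280)) (XT.nd (nat_lit 78) (nat_lit 76) (nat_lit 0) (XT.lf (nat_lit 0) (nat_lit 24572188936) (nat_lit 152) (nat_lit 6707770711) (nat_lit 0) (nat_lit 19412761629) (nat_lit 10) (nat_lit 5) (nat_lit 12) (nat_lit 4) (nat_lit 10) (nat_lit 4) (nat_lit 423) (nat_lit 318) (nat_lit 279)) (XT.lf (nat_lit 0) (nat_lit 5601592537) (nat_lit 76) (nat_lit 26255014627) (nat_lit 76) (nat_lit 21052520233) (nat_lit 9) (nat_lit 4) (nat_lit 10) (nat_lit 5) (nat_lit 10) (nat_lit 4) (nat_lit 424) (nat_lit 318) (nat_lit 278)))) (XT.nd (nat_lit 156) (nat_lit 76) (nat_lit 0) (XT.nd (nat_lit 78) (nat_lit 0) (nat_lit 0) (XT.lf (nat_lit 0) (nat_lit 18621007377)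 (nat_lit 76) (nat_lit 20928327838) (nat_lit 76) (nat_lit 15684817170) (nat_lit 9) (nat_lit 4) (nat_lit 10) (nat_lit 5) (nat_lit 10) (nat_lit 4) (nat_lit 425) (nat_lit 318) (nat_lit 277)) (XT.lf (nat_lit 0) (nat_lit 32159683223) (nat_lit 76) (nat_lit 15400816033) (nat_lit 76) (nat_lit 10118242248) (nat_lit 9) (nat_lit 4) (nat_lit 10) (nat_lit 5) (nat_lit 10) (nat_lit 4) (nat_lit 426) (nat_lit 318) (nat_lit 276))) (XT.nd (nat_lit 78) (nat_lit 76) (nat_lit 0) (XT.lf (nat_lit 0) (nat_lit 46249855017) (nat_lit 76) (nat_lit 9659318472) (nat_lit 76) (nat_lit 4339541718) (nat_lit 9) (nat_lit 4) (nat_lit 10) (nat_lit 5) (nat_lit 10) (nat_lit 4) (nat_lit 427) (nat_lit 318) (nat_lit 275)) (XT.lf (nat_lit 0) (nat_lit 1611751448) (nat_lit 152) (nat_lit 2051117683) (nat_lit 76) (nat_lit 59286023548) (nat_lit 8) (nat_lit 5) (nat_lit 10) (nat_lit 5) (nat_lit 9) (nat_lit 4) (nat_lit 428) (nat_lit 318) (nat_lit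 274)))))) (XT.nd (nat_lit 546) (nat_lit 152) (nat_lit 0) (XT.nd (nat_lit 234) (nat_lit 76) (nat_lit 0) (XT.nd (nat_lit 78) (nat_lit 0) (nat_lit 0) (XT.lf (nat_lit 0) (nat_lit 7866998103) (nat_lit 152) (nat_lit 55171252444) (nat_lit 0) (nat_lit 2734662538) (nat_lit 7) (nat_lit 5) (nat_lit 9) (nat_lit 4) (nat_lit 7) (nat_lit 4) (nat_lit 429) (nat_lit 318) (nat_lit 273)) (XT.nd (nat_lit 78) (nat_lit 0) (nat_lit 0) (XT.lf (nat_lit 0) (nat_lit 14472339400) (nat_lit 152) (nat_lit 44954533877) (nat_lit 0) (nat_lit 9309396861) (nat_lit 7) (nat_lit 5) (nat_lit 9) (nat_lit 4) (nat_lit 7) (nat_lit 4) (nat_lit 430) (nat_lit 318) (nat_lit 272)) (XT.lf (nat_lit 0) (nat_lit 21352689811) (nat_lit 152) (nat_lit 34337272495) (nat_lit 0) (nat_lit 16160597771) (nat_lit 7) (nat_lit 5) (nat_lit 9) (nat_lit 4) (nat_lit 7) (nat_lit 4) (nat_lit 431) (nat_lit 318) (nat_lit 271)))) (XT.nd (nat_lit 156) (nat_lit 76)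 (nat_lit 0) (XT.nd (nat_lit 78) (nat_lit 0) (nat_lit 0) (XT.lf (nat_lit 0) (nat_lit 28524431121) (nat_lit 152) (nat_lit 23294189105) (nat_lit 0) (nat_lit 23304577653) (nat_lit 7) (nat_lit 5) (nat_lit 9) (nat_lit 4) (nat_lit 7) (nat_lit 4) (nat_lit 432) (nat_lit 318) (nat_lit 270)) (XT.lf (nat_lit 0) (nat_lit 36004638905) (nat_lit 152) (nat_lit 11798990651) (nat_lit 0) (nat_lit 30758345982) (nat_lit 7) (nat_lit 5) (nat_lit 9) (nat_lit 4) (nat_lit 7) (nat_lit 4) (nat_lit 433) (nat_lit 318) (nat_lit 269))) (XT.nd (nat_lit 78) (nat_lit 0) (nat_lit 0) (XT.lf (nat_lit 0) (nat_lit 181501571) (nat_lit 76) (nat_lit 43632455360) (nat_lit 76) (nat_lit 38360982003) (nat_lit 6) (nat_lit 4) (nat_lit 7) (nat_lit 5) (nat_lit 7) (nat_lit 4) (nat_lit 434) (nat_lit 318) (nat_lit 268)) (XT.lf (nat_lit 0) (nat_lit 13076914077) (nat_lit 76) (nat_lit 39089724020) (nat_lit 76) (nat_lit 33794269297) (nat_lit 6) (nat_lit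 4) (nat_lit 7) (nat_lit 5) (nat_lit 7) (nat_lit 4) (nat_lit 435) (nat_lit 318) (nat_lit 267))))) (XT.nd (nat_lit 234) (nat_lit 152) (nat_lit 0) (XT.nd (nat_lit 78) (nat_lit 0) (nat_lit 0) (XT.lf (nat_lit 0) (nat_lit 26527822315) (nat_lit 76) (nat_lit 34364441125) (nat_lit 76) (nat_lit 29046147007) (nat_lit 6) (nat_lit 4) (nat_lit 7) (nat_lit 5) (nat_lit 7) (nat_lit 4) (nat_lit 436) (nat_lit 318) (nat_lit 266)) (XT.nd (nat_lit 78) (nat_lit 0) (nat_lit 0) (XT.lf (nat_lit 0) (nat_lit 40566252255) (nat_lit 76) (nat_lit 29445356002) (nat_lit 76) (nat_lit 24105310078) (nat_lit 6) (nat_lit 4) (nat_lit 7) (nat_lit 5) (nat_lit 7) (nat_lit 4) (nat_lit 437) (nat_lit 318) (nat_lit 265)) (XT.lf (nat_lit 0) (nat_lit 55225628731) (nat_lit 76) (nat_lit 24320756543) (nat_lit 76) (nat_lit 18959994614) (nat_lit 6) (nat_lit 4) (nat_lit 7) (nat_lit 5) (nat_lit 7) (nat_lit 4) (nat_lit 438) (nat_lit 318) (nat_lit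 264)))) (XT.nd (nat_lit 156) (nat_lit 152) (nat_lit 0) (XT.nd (nat_lit 78) (nat_lit 0) (nat_lit 0) (XT.lf (nat_lit 0) (nat_lit 70540855020) (nat_lit 76) (nat_lit 18978441321) (nat_lit 76) (nat_lit 13597949863) (nat_lit 6) (nat_lit 4) (nat_lit 7) (nat_lit 5) (nat_lit 7) (nat_lit 4) (nat_lit 439) (nat_lit 318) (nat_lit 263)) (XT.lf (nat_lit 0) (nat_lit 86548395947) (nat_lit 76) (nat_lit 13405690537) (nat_lit 76) (nat_lit 8006409052) (nat_lit 6) (nat_lit 4) (nat_lit 7) (nat_lit 5) (nat_lit 7) (nat_lit 4) (nat_lit 440) (nat_lit 318) (nat_lit 262))) (XT.nd (nat_lit 78) (nat_lit 152) (nat_lit 0) (XT.lf (nat_lit 0) (nat_lit 103286364704) (nat_lit 76) (nat_lit 7589235739) (nat_lit 76) (nat_lit 2172058989) (nat_lit 6) (nat_lit 4) (nat_lit 7) (nat_lit 5) (nat_lit 7) (nat_lit 4) (nat_lit 441) (nat_lit 318) (nat_lit 261)) (XT.lf (nat_lit 0) (nat_lit 2420033142) (nat_lit 76) (nat_lit 1411309784) (nat_lit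 152) (nat_lit 114554558763) (nat_lit 4) (nat_lit 5) (nat_lit 5) (nat_lit 5) (nat_lit 6) (nat_lit 4) (nat_lit 442) (nat_lit 318) (nat_lit 260))))))) (XT.nd (nat_lit 1014) (nat_lit 0) (nat_lit 0) (XT.nd (nat_lit 468) (nat_lit 76) (nat_lit 0) (XT.nd (nat_lit 234) (nat_lit 0) (nat_lit 0) (XT.nd (nat_lit 78) (nat_lit 0) (nat_lit 0) (XT.lf (nat_lit 0) (nat_lit 10275341844) (nat_lit 152) (nat_lit 108618828096) (nat_lit 0) (nat_lit 5084435758) (nat_lit 4) (nat_lit 5) (nat_lit 6) (nat_lit 4) (nat_lit 4) (nat_lit 4) (nat_lit 443) (nat_lit 318) (nat_lit 259)) (XT.nd (nat_lit 78) (nat_lit 0) (nat_lit 0) (XT.lf (nat_lit 0) (nat_lit 17032445571) (nat_lit 152) (nat_lit 100992138167) (nat_lit 0) (nat_lit 11826817007) (nat_lit 4) (nat_lit 5) (nat_lit 6) (nat_lit 4) (nat_lit 4) (nat_lit 4) (nat_lit 444) (nat_lit 318) (nat_lit 258)) (XT.lf (nat_lit 0) (nat_lit 24096707949) (nat_lit 152) (nat_lit 93045605472)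 (nat_lit 0) (nat_lit 18877057977) (nat_lit 4) (nat_lit 5) (nat_lit 6) (nat_lit 4) (nat_lit 4) (nat_lit 4) (nat_lit 445) (nat_lit 318) (nat_lit 257)))) (XT.nd (nat_lit 78) (nat_lit 0) (nat_lit 0) (XT.lf (nat_lit 0) (nat_lit 31484948649) (nat_lit 152) (nat_lit 84760309697) (nat_lit 0) (nat_lit 26251944955) (nat_lit 4) (nat_lit 5) (nat_lit 6) (nat_lit 4) (nat_lit 4) (nat_lit 4) (nat_lit 446) (nat_lit 318) (nat_lit 256)) (XT.nd (nat_lit 78) (nat_lit 0) (nat_lit 0) (XT.lf (nat_lit 0) (nat_lit 39214758721) (nat_lit 152) (nat_lit 76116523947) (nat_lit 0) (nat_lit 33969037197) (nat_lit 4) (nat_lit 5) (nat_lit 6) (nat_lit 4) (nat_lit 4) (nat_lit 4) (nat_lit 447) (nat_lit 318) (nat_lit 255)) (XT.lf (nat_lit 0) (nat_lit 47304542476) (nat_lit 152) (nat_lit 67093667778) (nat_lit 0) (nat_lit 42046708733) (nat_lit 4) (nat_lit 5) (nat_lit 6) (nat_lit 4) (nat_lit 4) (nat_lit 4) (nat_lit 448) (nat_lit 318)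 (nat_lit 254))))) (XT.nd (nat_lit 234) (nat_lit 76) (nat_lit 0) (XT.nd (nat_lit 78) (nat_lit 0) (nat_lit 0) (XT.lf (nat_lit 0) (nat_lit 55773561302) (nat_lit 152) (nat_lit 57670258201) (nat_lit 0) (nat_lit 50504192112) (nat_lit 4) (nat_lit 5) (nat_lit 6) (nat_lit 4) (nat_lit 4) (nat_lit 4) (nat_lit 449) (nat_lit 318) (nat_lit 253)) (XT.nd (nat_lit 78) (nat_lit 0) (nat_lit 0) (XT.lf (nat_lit 0) (nat_lit 64641979531) (nat_lit 152) (nat_lit 47823858526) (nat_lit 0) (nat_lit 59361624201) (nat_lit 4) (nat_lit 5) (nat_lit 6) (nat_lit 4) (nat_lit 4) (nat_lit 4) (nat_lit 450) (nat_lit 318) (nat_lit 252)) (XT.lf (nat_lit 0) (nat_lit 73930912443) (nat_lit 152) (nat_lit 37531024944) (nat_lit 0) (nat_lit 68640094123) (nat_lit 4) (nat_lit 5) (nat_lit 6) (nat_lit 4) (nat_lit 4) (nat_lit 4) (nat_lit 451) (nat_lit 318) (nat_lit 251)))) (XT.nd (nat_lit 156) (nat_lit 76) (nat_lit 0) (XT.nd (nat_lit 78) (nat_lit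 0) (nat_lit 0) (XT.lf (nat_lit 0) (nat_lit 83662476546) (nat_lit 152) (nat_lit 26767250708) (nat_lit 0) (nat_lit 78361693473) (nat_lit 4) (nat_lit 5) (nat_lit 6) (nat_lit 4) (nat_lit 4) (nat_lit 4) (nat_lit 452) (nat_lit 318) (nat_lit 250)) (XT.lf (nat_lit 0) (nat_lit 93859842231) (nat_lit 152) (nat_lit 15506907785) (nat_lit 0) (nat_lit 88549568917) (nat_lit 4) (nat_lit 5) (nat_lit 6) (nat_lit 4) (nat_lit 4) (nat_lit 4) (nat_lit 453) (nat_lit 318) (nat_lit 249))) (XT.nd (nat_lit 78) (nat_lit 76) (nat_lit 0) (XT.lf (nat_lit 0) (nat_lit 104547288939) (nat_lit 152) (nat_lit 3723185835) (nat_lit 0) (nat_lit 99227977301) (nat_lit 4) (nat_lit 5) (nat_lit 6) (nat_lit 4) (nat_lit 4) (nat_lit 4) (nat_lit 454) (nat_lit 318) (nat_lit 248)) (XT.lf (nat_lit 0) (nat_lit 8896722298) (nat_lit 76) (nat_lit 106992443442) (nat_lit 76) (nat_lit 101664523876) (nat_lit 3) (nat_lit 4) (nat_lit 4) (nat_lit 5) (nat_lit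 4) (nat_lit 4) (nat_lit 455) (nat_lit 318) (nat_lit 247)))))) (XT.nd (nat_lit 546) (nat_lit 0) (nat_lit 0) (XT.nd (nat_lit 234) (nat_lit 0) (nat_lit 0) (XT.nd (nat_lit 78) (nat_lit 0) (nat_lit 0) (XT.lf (nat_lit 0) (nat_lit 22239744735) (nat_lit 76) (nat_lit 105602918086) (nat_lit 76) (nat_lit 100266800493) (nat_lit 3) (nat_lit 4) (nat_lit 4) (nat_lit 5) (nat_lit 4) (nat_lit 4) (nat_lit 456) (nat_lit 318) (nat_lit 246)) (XT.nd (nat_lit 78) (nat_lit 0) (nat_lit 0) (XT.lf (nat_lit 0) (nat_lit 36214545239) (nat_lit 76) (nat_lit 104161644265) (nat_lit 76) (nat_lit 98817719027) (nat_lit 3) (nat_lit 4) (nat_lit 4) (nat_lit 5) (nat_lit 4) (nat_lit 4) (nat_lit 457) (nat_lit 318) (nat_lit 245)) (XT.lf (nat_lit 0) (nat_lit 50854397142) (nat_lit 76) (nat_lit 102665190375) (nat_lit 76) (nat_lit 97313829286) (nat_lit 3) (nat_lit 4) (nat_lit 4) (nat_lit 5) (nat_lit 4) (nat_lit 4) (nat_lit 458) (nat_lit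 318) (nat_lit 244)))) (XT.nd (nat_lit 156) (nat_lit 0) (nat_lit 0) (XT.nd (nat_lit 78) (nat_lit 0) (nat_lit 0) (XT.lf (nat_lit 0) (nat_lit 66194157237) (nat_lit 76) (nat_lit 101109993432) (nat_lit 76) (nat_lit 95751550579) (nat_lit 3) (nat_lit 4) (nat_lit 4) (nat_lit 5) (nat_lit 4) (nat_lit 4) (nat_lit 459) (nat_lit 318) (nat_lit 243)) (XT.lf (nat_lit 0) (nat_lit 82270348761) (nat_lit 76) (nat_lit 99492350584) (nat_lit 76) (nat_lit 94127163194) (nat_lit 3) (nat_lit 4) (nat_lit 4) (nat_lit 5) (nat_lit 4) (nat_lit 4) (nat_lit 460) (nat_lit 318) (nat_lit 242))) (XT.nd (nat_lit 78) (nat_lit 0) (nat_lit 0) (XT.lf (nat_lit 0) (nat_lit 99121248360) (nat_lit 76) (nat_lit 97808410302) (nat_lit 76) (nat_lit 92436799544) (nat_lit 3) (nat_lit 4) (nat_lit 4) (nat_lit 5) (nat_lit 4) (nat_lit 4) (nat_lit 461) (nat_lit 318) (nat_lit 241)) (XT.lf (nat_lit 0) (nat_lit 116786977225) (nat_lit 76) (nat_lit 96054163204)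 (nat_lit 76) (nat_lit 90676434952) (nat_lit 3) (nat_lit 4) (nat_lit 4) (nat_lit 5) (nat_lit 4) (nat_lit 4) (nat_lit 462) (nat_lit 318) (nat_lit 240))))) (XT.nd (nat_lit 234) (nat_lit 0) (nat_lit 0) (XT.nd (nat_lit 78) (nat_lit 0) (nat_lit 0) (XT.lf (nat_lit 0) (nat_lit 135309596614) (nat_lit 76) (nat_lit 94225432511) (nat_lit 76) (nat_lit 88841878074) (nat_lit 3) (nat_lit 4) (nat_lit 4) (nat_lit 5) (nat_lit 4) (nat_lit 4) (nat_lit 463) (nat_lit 318) (nat_lit 239)) (XT.nd (nat_lit 78) (nat_lit 0) (nat_lit 0) (XT.lf (nat_lit 0) (nat_lit 154733208003) (nat_lit 76) (nat_lit 92317864102) (nat_lit 76) (nat_lit 86928760918) (nat_lit 3) (nat_lit 4) (nat_lit 4) (nat_lit 5) (nat_lit 4) (nat_lit 4) (nat_lit 464) (nat_lit 318) (nat_lit 238)) (XT.lf (nat_lit 0) (nat_lit 175104058084) (nat_lit 76) (nat_lit 90326916148) (nat_lit 76) (nat_lit 84932528443) (nat_lit 3) (nat_lit 4) (nat_lit 4) (nat_lit 5) (nat_lit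 4) (nat_lit 4) (nat_lit 465) (nat_lit 318) (nat_lit 237)))) (XT.nd (nat_lit 156) (nat_lit 0) (nat_lit 0) (XT.nd (nat_lit 78) (nat_lit 0) (nat_lit 0) (XT.lf (nat_lit 0) (nat_lit 196470648882) (nat_lit 76) (nat_lit 88247848296) (nat_lit 76) (nat_lit 82848427714) (nat_lit 3) (nat_lit 4) (nat_lit 4) (nat_lit 5) (nat_lit 4) (nat_lit 4) (nat_lit 466) (nat_lit 318) (nat_lit 236)) (XT.lf (nat_lit 0) (nat_lit 218883853233) (nat_lit 76) (nat_lit 86075710385) (nat_lit 76) (nat_lit 80671496587) (nat_lit 3) (nat_lit 4) (nat_lit 4) (nat_lit 5) (nat_lit 4) (nat_lit 4) (nat_lit 467) (nat_lit 318) (nat_lit 235))) (XT.nd (nat_lit 78) (nat_lit 0) (nat_lit 0) (XT.lf (nat_lit 0) (nat_lit 242397035907) (nat_lit 76) (nat_lit 83805330659) (nat_lit 76) (nat_lit 78396551892) (nat_lit 3) (nat_lit 4) (nat_lit 4) (nat_lit 5) (nat_lit 4) (nat_lit 4) (nat_lit 468) (nat_lit 318) (nat_lit 234)) (XT.lf (nat_lit 0) (nat_lit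 267066180675) (nat_lit 76) (nat_lit 81431303450) (nat_lit 76) (nat_lit 76018177094) (nat_lit 3) (nat_lit 4) (nat_lit 4) (nat_lit 5) (nat_lit 4) (nat_lit 4) (nat_lit 469) (nat_lit 318) (nat_lit 233))))))))
noncomputable def xc49 : XT := (XT.nd (nat_lit 47190) (nat_lit 0) (nat_lit 608) (XT.nd (nat_lit 1014) (nat_lit 0) (nat_lit 0) (XT.nd (nat_lit 468) (nat_lit 0) (nat_lit 0) (XT.nd (nat_lit 234) (nat_lit 0) (nat_lit 0) (XT.nd (nat_lit 78) (nat_lit 0) (nat_lit 0) (XT.lf (nat_lit 0) (nat_lit 292950023594) (nat_lit 76) (nat_lit 78947976313) (nat_lit 76) (nat_lit 73530709397) (nat_lit 3) (nat_lit 4) (nat_lit 4) (nat_lit 5) (nat_lit 4) (nat_lit 4) (nat_lit 470) (nat_lit 318) (nat_lit 232)) (XT.nd (nat_lit 78) (nat_lit 0) (nat_lit 0) (XT.lf (nat_lit 0) (nat_lit 320110192862) (nat_lit 76) (nat_lit 76349436566) (nat_lit 76) (nat_lit 70928226259) (nat_lit 3) (nat_lit 4) (nat_lit 4) (nat_lit 5) (nat_lit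 4) (nat_lit 4) (nat_lit 471) (nat_lit 318) (nat_lit 231)) (XT.lf (nat_lit 0) (nat_lit 348611355550) (nat_lit 76) (nat_lit 73629497207) (nat_lit 76) (nat_lit 68204531289) (nat_lit 3) (nat_lit 4) (nat_lit 4) (nat_lit 5) (nat_lit 4) (nat_lit 4) (nat_lit 472) (nat_lit 318) (nat_lit 230)))) (XT.nd (nat_lit 78) (nat_lit 0) (nat_lit 0) (XT.lf (nat_lit 0) (nat_lit 378521371567) (nat_lit 76) (nat_lit 70781682191) (nat_lit 76) (nat_lit 65353139502) (nat_lit 3) (nat_lit 4) (nat_lit 4) (nat_lit 5) (nat_lit 4) (nat_lit 4) (nat_lit 473) (nat_lit 318) (nat_lit 229)) (XT.nd (nat_lit 78) (nat_lit 0) (nat_lit 0) (XT.lf (nat_lit 0) (nat_lit 409911455237) (nat_lit 76) (nat_lit 67799211007) (nat_lit 76) (nat_lit 62367261868) (nat_lit 3) (nat_lit 4) (nat_lit 4) (nat_lit 5) (nat_lit 4) (nat_lit 4) (nat_lit 474) (nat_lit 318) (nat_lit 228)) (XT.lf (nat_lit 0) (nat_lit 442856344857) (nat_lit 76) (nat_lit 64674982532)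 (nat_lit 76) (nat_lit 59239789156) (nat_lit 3) (nat_lit 4) (nat_lit 4) (nat_lit 5) (nat_lit 4) (nat_lit 4) (nat_lit 475) (nat_lit 318) (nat_lit 227))))) (XT.nd (nat_lit 234) (nat_lit 0) (nat_lit 0) (XT.nd (nat_lit 78) (nat_lit 0) (nat_lit 0) (XT.lf (nat_lit 0) (nat_lit 477434480637) (nat_lit 76) (nat_lit 61401558127) (nat_lit 76) (nat_lit 55963275001) (nat_lit 3) (nat_lit 4) (nat_lit 4) (nat_lit 5) (nat_lit 4) (nat_lit 4) (nat_lit 476) (nat_lit 318) (nat_lit 226)) (XT.nd (nat_lit 78) (nat_lit 0) (nat_lit 0) (XT.lf (nat_lit 0) (nat_lit 513728191474) (nat_lit 76) (nat_lit 57971143925) (nat_lit 76) (nat_lit 52529918179) (nat_lit 3) (nat_lit 4) (nat_lit 4) (nat_lit 5) (nat_lit 4) (nat_lit 4) (nat_lit 477) (nat_lit 318) (nat_lit 225)) (XT.lf (nat_lit 0) (nat_lit 551823890965) (nat_lit 76) (nat_lit 54375572272) (nat_lit 76) (nat_lit 48931544032) (nat_lit 3) (nat_lit 4) (nat_lit 4) (nat_lit 5) (nat_lit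 4) (nat_lit 4) (nat_lit 478) (nat_lit 318) (nat_lit 224)))) (XT.nd (nat_lit 156) (nat_lit 0) (nat_lit 0) (XT.nd (nat_lit 78) (nat_lit 0) (nat_lit 0) (XT.lf (nat_lit 0) (nat_lit 591812283156) (nat_lit 76) (nat_lit 50606282283) (nat_lit 76) (nat_lit 45159585001) (nat_lit 3) (nat_lit 4) (nat_lit 4) (nat_lit 5) (nat_lit 4) (nat_lit 4) (nat_lit 479) (nat_lit 318) (nat_lit 223)) (XT.lf (nat_lit 0) (nat_lit 633788578504) (nat_lit 76) (nat_lit 46654299460) (nat_lit 76) (nat_lit 41205060233) (nat_lit 3) (nat_lit 4) (nat_lit 4) (nat_lit 5) (nat_lit 4) (nat_lit 4) (nat_lit 480) (nat_lit 318) (nat_lit 222))) (XT.nd (nat_lit 78) (nat_lit 0) (nat_lit 0) (XT.lf (nat_lit 0) (nat_lit 677852720570) (nat_lit 76) (nat_lit 42510214318) (nat_lit 76) (nat_lit 37058554191) (nat_lit 3) (nat_lit 4) (nat_lit 4) (nat_lit 5) (nat_lit 4) (nat_lit 4) (nat_lit 481) (nat_lit 318) (nat_lit 221)) (XT.lf (nat_lit 0) (nat_lit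 724109623978) (nat_lit 76) (nat_lit 38164159989) (nat_lit 76) (nat_lit 32710194243) (nat_lit 3) (nat_lit 4) (nat_lit 4) (nat_lit 5) (nat_lit 4) (nat_lit 4) (nat_lit 482) (nat_lit 318) (nat_lit 220)))))) (XT.nd (nat_lit 45630) (nat_lit 0) (nat_lit 2052) (XT.nd (nat_lit 45318) (nat_lit 0) (nat_lit 2736) (XT.nd (nat_lit 78) (nat_lit 0) (nat_lit 0) (XT.lf (nat_lit 0) (nat_lit 772669424212) (nat_lit 76) (nat_lit 33605788724) (nat_lit 76) (nat_lit 28149627150) (nat_lit 3) (nat_lit 4) (nat_lit 4) (nat_lit 5) (nat_lit 4) (nat_lit 4) (nat_lit 483) (nat_lit 318) (nat_lit 219)) (XT.nd (nat_lit 45162) (nat_lit 0) (nat_lit 3192) (XT.lf (nat_lit 0) (nat_lit 823647739845) (nat_lit 76) (nat_lit 28824247258) (nat_lit 76) (nat_lit 23365994419) (nat_lit 3) (nat_lit 4) (nat_lit 4) (nat_lit 5) (nat_lit 4) (nat_lit 4) (nat_lit 484) (nat_lit 318) (nat_lit 218)) (XT.lf (nat_lit 0) (nat_lit 1306817157) (nat_lit 152)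 (nat_lit 2379967336) (nat_lit 152) (nat_lit 2379967336) (nat_lit 45) (nat_lit 4) (nat_lit 47) (nat_lit 5) (nat_lit 47) (nat_lit 4) (nat_lit 382) (nat_lit 319) (nat_lit 319)))) (XT.nd (nat_lit 156) (nat_lit 304) (nat_lit 0) (XT.nd (nat_lit 78) (nat_lit 0) (nat_lit 0) (XT.lf (nat_lit 0) (nat_lit 418518951) (nat_lit 76) (nat_lit 38593161) (nat_lit 152) (nat_lit 11995191669) (nat_lit 43) (nat_lit 5) (nat_lit 44) (nat_lit 5) (nat_lit 45) (nat_lit 4) (nat_lit 383) (nat_lit 319) (nat_lit 318)) (XT.lf (nat_lit 0) (nat_lit 5825039317) (nat_lit 152) (nat_lit 2094816012) (nat_lit 0) (nat_lit 4860821807) (nat_lit 43) (nat_lit 5) (nat_lit 45) (nat_lit 4) (nat_lit 43) (nat_lit 4) (nat_lit 384) (nat_lit 319) (nat_lit 317))) (XT.nd (nat_lit 78) (nat_lit 152) (nat_lit 0) (XT.lf (nat_lit 0) (nat_lit 8279072403) (nat_lit 152) (nat_lit 3130592198) (nat_lit 152) (nat_lit 1718422303) (nat_lit 41) (nat_lit 4) (nat_lit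 43) (nat_lit 5) (nat_lit 43) (nat_lit 4) (nat_lit 385) (nat_lit 319) (nat_lit 316)) (XT.lf (nat_lit 0) (nat_lit 3631690733) (nat_lit 152) (nat_lit 7979191807) (nat_lit 0) (nat_lit 1880461005) (nat_lit 39) (nat_lit 5) (nat_lit 41) (nat_lit 4) (nat_lit 39) (nat_lit 4) (nat_lit 386) (nat_lit 319) (nat_lit 315))))) (XT.nd (nat_lit 234) (nat_lit 380) (nat_lit 0) (XT.nd (nat_lit 78) (nat_lit 152) (nat_lit 0) (XT.lf (nat_lit 0) (nat_lit 2357185899) (nat_lit 152) (nat_lit 6826391921) (nat_lit 152) (nat_lit 4688204080) (nat_lit 37) (nat_lit 4) (nat_lit 39) (nat_lit 5) (nat_lit 39) (nat_lit 4) (nat_lit 387) (nat_lit 319) (nat_lit 314)) (XT.nd (nat_lit 78) (nat_lit 76) (nat_lit 0) (XT.lf (nat_lit 0) (nat_lit 676442270) (nat_lit 228) (nat_lit 1120012722) (nat_lit 76) (nat_lit 12476315414) (nat_lit 36) (nat_lit 5) (nat_lit 39) (nat_lit 5) (nat_lit 37) (nat_lit 4) (nat_lit 388) (nat_lit 319) (nat_lit 313))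 (XT.lf (nat_lit 0) (nat_lit 6188911780) (nat_lit 152) (nat_lit 5031929978) (nat_lit 0) (nat_lit 3467291026) (nat_lit 35) (nat_lit 5) (nat_lit 37) (nat_lit 4) (nat_lit 35) (nat_lit 4) (nat_lit 389) (nat_lit 319) (nat_lit 312)))) (XT.nd (nat_lit 156) (nat_lit 76) (nat_lit 0) (XT.nd (nat_lit 78) (nat_lit 152) (nat_lit 0) (XT.lf (nat_lit 0) (nat_lit 5725717202) (nat_lit 152) (nat_lit 6220051678) (nat_lit 152) (nat_lit 3180079526) (nat_lit 33) (nat_lit 4) (nat_lit 35) (nat_lit 5) (nat_lit 35) (nat_lit 4) (nat_lit 390) (nat_lit 319) (nat_lit 311)) (XT.lf (nat_lit 0) (nat_lit 1302383396) (nat_lit 76) (nat_lit 963737264) (nat_lit 152) (nat_lit 13320568995) (nat_lit 31) (nat_lit 5) (nat_lit 32) (nat_lit 5) (nat_lit 33) (nat_lit 4) (nat_lit 391) (nat_lit 319) (nat_lit 310))) (XT.nd (nat_lit 78) (nat_lit 76) (nat_lit 0) (XT.lf (nat_lit 0) (nat_lit 7942762838) (nat_lit 152) (nat_lit 3638180228) (nat_lit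 0) (nat_lit 4483793257) (nat_lit 31) (nat_lit 5) (nat_lit 33) (nat_lit 4) (nat_lit 31) (nat_lit 4) (nat_lit 392) (nat_lit 319) (nat_lit 309)) (XT.lf (nat_lit 0) (nat_lit 7462266118) (nat_lit 76) (nat_lit 6413348787) (nat_lit 76) (nat_lit 2692470724) (nat_lit 30) (nat_lit 4) (nat_lit 31) (nat_lit 5) (nat_lit 31) (nat_lit 4) (nat_lit 393) (nat_lit 319) (nat_lit 308))))))) (XT.nd (nat_lit 1014) (nat_lit 608) (nat_lit 0) (XT.nd (nat_lit 468) (nat_lit 380) (nat_lit 0) (XT.nd (nat_lit 234) (nat_lit 228) (nat_lit 0) (XT.nd (nat_lit 78) (nat_lit 76) (nat_lit 0) (XT.lf (nat_lit 0) (nat_lit 1860630016) (nat_lit 76) (nat_lit 983733266) (nat_lit 152) (nat_lit 14253300613) (nat_lit 28) (nat_lit 5) (nat_lit 29) (nat_lit 5) (nat_lit 30) (nat_lit 4) (nat_lit 394) (nat_lit 319) (nat_lit 307)) (XT.nd (nat_lit 78) (nat_lit 76) (nat_lit 0) (XT.lf (nat_lit 0) (nat_lit 8639197499) (nat_lit 152) (nat_lit 4377052057)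 (nat_lit 0) (nat_lit 4631698997) (nat_lit 28) (nat_lit 5) (nat_lit 30) (nat_lit 4) (nat_lit 28) (nat_lit 4) (nat_lit 395) (nat_lit 319) (nat_lit 306)) (XT.lf (nat_lit 0) (nat_lit 6944194049) (nat_lit 76) (nat_lit 7752936300) (nat_lit 76) (nat_lit 3529965041) (nat_lit 27) (nat_lit 4) (nat_lit 28) (nat_lit 5) (nat_lit 28) (nat_lit 4) (nat_lit 396) (nat_lit 319) (nat_lit 305)))) (XT.nd (nat_lit 78) (nat_lit 152) (nat_lit 0) (XT.lf (nat_lit 0) (nat_lit 2076102597) (nat_lit 152) (nat_lit 172173082) (nat_lit 76) (nat_lit 16588978809) (nat_lit 26) (nat_lit 5) (nat_lit 28) (nat_lit 5) (nat_lit 27) (nat_lit 4) (nat_lit 397) (nat_lit 319) (nat_lit 304)) (XT.nd (nat_lit 78) (nat_lit 76) (nat_lit 0) (XT.lf (nat_lit 0) (nat_lit 7937192835) (nat_lit 152) (nat_lit 7999439641) (nat_lit 0) (nat_lit 3533741835) (nat_lit 25) (nat_lit 5) (nat_lit 27) (nat_lit 4) (nat_lit 25) (nat_lit 4) (nat_lit 398) (nat_lit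 319) (nat_lit 303)) (XT.lf (nat_lit 0) (nat_lit 3362772251) (nat_lit 76) (nat_lit 10677824439) (nat_lit 76) (nat_lit 6097103470) (nat_lit 24) (nat_lit 4) (nat_lit 25) (nat_lit 5) (nat_lit 25) (nat_lit 4) (nat_lit 399) (nat_lit 319) (nat_lit 302))))) (XT.nd (nat_lit 234) (nat_lit 228) (nat_lit 0) (XT.nd (nat_lit 78) (nat_lit 152) (nat_lit 0) (XT.lf (nat_lit 0) (nat_lit 15300131077) (nat_lit 76) (nat_lit 5144036632) (nat_lit 76) (nat_lit 394487119) (nat_lit 24) (nat_lit 4) (nat_lit 25) (nat_lit 5) (nat_lit 25) (nat_lit 4) (nat_lit 400) (nat_lit 319) (nat_lit 301)) (XT.nd (nat_lit 78) (nat_lit 0) (nat_lit 0) (XT.lf (nat_lit 0) (nat_lit 5384999037) (nat_lit 152) (nat_lit 15478279095) (nat_lit 0) (nat_lit 708486083) (nat_lit 22) (nat_lit 5) (nat_lit 24) (nat_lit 4) (nat_lit 22) (nat_lit 4) (nat_lit 401) (nat_lit 319) (nat_lit 300)) (XT.lf (nat_lit 0) (nat_lit 11484375570) (nat_lit 152) (nat_lit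 4192609998) (nat_lit 0) (nat_lit 6662022173) (nat_lit 22) (nat_lit 5) (nat_lit 24) (nat_lit 4) (nat_lit 22) (nat_lit 4) (nat_lit 402) (nat_lit 319) (nat_lit 299)))) (XT.nd (nat_lit 156) (nat_lit 76) (nat_lit 0) (XT.nd (nat_lit 78) (nat_lit 76) (nat_lit 0) (XT.lf (nat_lit 0) (nat_lit 7651950723) (nat_lit 76) (nat_lit 10227200227) (nat_lit 76) (nat_lit 5265951170) (nat_lit 21) (nat_lit 4) (nat_lit 22) (nat_lit 5) (nat_lit 22) (nat_lit 4) (nat_lit 403) (nat_lit 319) (nat_lit 298)) (XT.lf (nat_lit 0) (nat_lit 526233112) (nat_lit 152) (nat_lit 4014752757) (nat_lit 76) (nat_lit 19452887398) (nat_lit 20) (nat_lit 5) (nat_lit 22) (nat_lit 5) (nat_lit 21) (nat_lit 4) (nat_lit 404) (nat_lit 319) (nat_lit 297))) (XT.nd (nat_lit 78) (nat_lit 0) (nat_lit 0) (XT.lf (nat_lit 0) (nat_lit 6456726268) (nat_lit 152) (nat_lit 16937004220) (nat_lit 0) (nat_lit 1485761415) (nat_lit 19) (nat_lit 5) (nat_lit 21)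 (nat_lit 4) (nat_lit 19) (nat_lit 4) (nat_lit 405) (nat_lit 319) (nat_lit 296)) (XT.lf (nat_lit 0) (nat_lit 12704995410) (nat_lit 152) (nat_lit 5483581117) (nat_lit 0) (nat_lit 7619760753) (nat_lit 19) (nat_lit 5) (nat_lit 21) (nat_lit 4) (nat_lit 19) (nat_lit 4) (nat_lit 406) (nat_lit 319) (nat_lit 295)))))) (XT.nd (nat_lit 546) (nat_lit 304) (nat_lit 0) (XT.nd (nat_lit 234) (nat_lit 76) (nat_lit 0) (XT.nd (nat_lit 78) (nat_lit 152) (nat_lit 0) (XT.lf (nat_lit 0) (nat_lit 6523687577) (nat_lit 76) (nat_lit 12727369701) (nat_lit 76) (nat_lit 7533306661) (nat_lit 18) (nat_lit 4) (nat_lit 19) (nat_lit 5) (nat_lit 19) (nat_lit 4) (nat_lit 407) (nat_lit 319) (nat_lit 294)) (XT.nd (nat_lit 78) (nat_lit 152) (nat_lit 0) (XT.lf (nat_lit 0) (nat_lit 19097744314) (nat_lit 76) (nat_lit 7005121087) (nat_lit 76) (nat_lit 1707411967) (nat_lit 18) (nat_lit 4) (nat_lit 19) (nat_lit 5) (nat_lit 19) (nat_lit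 4) (nat_lit 408) (nat_lit 319) (nat_lit 293)) (XT.lf (nat_lit 0) (nat_lit 3230610213) (nat_lit 76) (nat_lit 977697048) (nat_lit 152) (nat_lit 24678760137) (nat_lit 16) (nat_lit 5) (nat_lit 17) (nat_lit 5) (nat_lit 18) (nat_lit 4) (nat_lit 409) (nat_lit 319) (nat_lit 292)))) (XT.nd (nat_lit 156) (nat_lit 76) (nat_lit 0) (XT.nd (nat_lit 78) (nat_lit 0) (nat_lit 0) (XT.lf (nat_lit 0) (nat_lit 10485487437) (nat_lit 152) (nat_lit 14268157028) (nat_lit 0) (nat_lit 5256506748) (nat_lit 16) (nat_lit 5) (nat_lit 18) (nat_lit 4) (nat_lit 16) (nat_lit 4) (nat_lit 410) (nat_lit 319) (nat_lit 291)) (XT.lf (nat_lit 0) (nat_lit 16987354205) (nat_lit 152) (nat_lit 2533396252) (nat_lit 0) (nat_lit 11673103630) (nat_lit 16) (nat_lit 5) (nat_lit 18) (nat_lit 4) (nat_lit 16) (nat_lit 4) (nat_lit 411) (nat_lit 319) (nat_lit 290))) (XT.nd (nat_lit 78) (nat_lit 0) (nat_lit 0) (XT.lf (nat_lit 0) (nat_lit 9908152392)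 (nat_lit 76) (nat_lit 13960665245) (nat_lit 76) (nat_lit 8565205254) (nat_lit 15) (nat_lit 4) (nat_lit 16) (nat_lit 5) (nat_lit 16) (nat_lit 4) (nat_lit 412) (nat_lit 319) (nat_lit 289)) (XT.lf (nat_lit 0) (nat_lit 22865837940) (nat_lit 76) (nat_lit 8172973645) (nat_lit 76) (nat_lit 2700171353) (nat_lit 15) (nat_lit 4) (nat_lit 16) (nat_lit 5) (nat_lit 16) (nat_lit 4) (nat_lit 413) (nat_lit 319) (nat_lit 288))))) (XT.nd (nat_lit 234) (nat_lit 152) (nat_lit 0) (XT.nd (nat_lit 78) (nat_lit 0) (nat_lit 0) (XT.lf (nat_lit 0) (nat_lit 1157454189) (nat_lit 76) (nat_lit 2112748647) (nat_lit 152) (nat_lit 31840155257) (nat_lit 13) (nat_lit 5) (nat_lit 14) (nat_lit 5) (nat_lit 15) (nat_lit 4) (nat_lit 414) (nat_lit 319) (nat_lit 287)) (XT.nd (nat_lit 78) (nat_lit 0) (nat_lit 0) (XT.lf (nat_lit 0) (nat_lit 9606803874) (nat_lit 152) (nat_lit 22675718911) (nat_lit 0) (nat_lit 4257648281) (nat_lit 13)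 (nat_lit 5) (nat_lit 15) (nat_lit 4) (nat_lit 13) (nat_lit 4) (nat_lit 415) (nat_lit 319) (nat_lit 286)) (XT.lf (nat_lit 0) (nat_lit 16204326269) (nat_lit 152) (nat_lit 11048407544) (nat_lit 0) (nat_lit 10791540974) (nat_lit 13) (nat_lit 5) (nat_lit 15) (nat_lit 4) (nat_lit 13) (nat_lit 4) (nat_lit 416) (nat_lit 319) (nat_lit 285)))) (XT.nd (nat_lit 156) (nat_lit 76) (nat_lit 0) (XT.nd (nat_lit 78) (nat_lit 0) (nat_lit 0) (XT.lf (nat_lit 0) (nat_lit 1022424156) (nat_lit 76) (nat_lit 22039031230) (nat_lit 76) (nat_lit 16565646218) (nat_lit 12) (nat_lit 4) (nat_lit 13) (nat_lit 5) (nat_lit 13) (nat_lit 4) (nat_lit 417) (nat_lit 319) (nat_lit 284)) (XT.lf (nat_lit 0) (nat_lit 13912555127) (nat_lit 76) (nat_lit 16451249845) (nat_lit 76) (nat_lit 10920150818) (nat_lit 12) (nat_lit 4) (nat_lit 13) (nat_lit 5) (nat_lit 13) (nat_lit 4) (nat_lit 418) (nat_lit 319) (nat_lit 283))) (XT.nd (nat_lit 78)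 (nat_lit 76) (nat_lit 0) (XT.lf (nat_lit 0) (nat_lit 27287365908) (nat_lit 76) (nat_lit 10663195547) (nat_lit 76) (nat_lit 5077130791) (nat_lit 12) (nat_lit 4) (nat_lit 13) (nat_lit 5) (nat_lit 13) (nat_lit 4) (nat_lit 419) (nat_lit 319) (nat_lit 282)) (XT.lf (nat_lit 0) (nat_lit 946045286) (nat_lit 152) (nat_lit 3699020232) (nat_lit 76) (nat_lit 40216634263) (nat_lit 11) (nat_lit 5) (nat_lit 13) (nat_lit 5) (nat_lit 12) (nat_lit 4) (nat_lit 420) (nat_lit 319) (nat_lit 281))))))))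
noncomputable def xc50 : XT := (XT.nd (nat_lit 2106) (nat_lit 76) (nat_lit 0) (XT.nd (nat_lit 1014) (nat_lit 228) (nat_lit 0) (XT.nd (nat_lit 468) (nat_lit 152) (nat_lit 0) (XT.nd (nat_lit 234) (nat_lit 76) (nat_lit 0) (XT.nd (nat_lit 78) (nat_lit 0) (nat_lit 0) (XT.lf (nat_lit 0) (nat_lit 7194551870) (nat_lit 152) (nat_lit 37806804693) (nat_lit 0) (nat_lit 1777153197) (nat_lit 10) (nat_lit 5) (nat_lit 12) (nat_lit 4) (nat_lit 10) (nat_lit 4) (nat_lit 421) (nat_lit 319) (nat_lit 280)) (XT.nd (nat_lit 78) (nat_lit 0) (nat_lit 0) (XT.lf (nat_lit 0) (nat_lit 13821049298) (nat_lit 152) (nat_lit 26608405795) (nat_lit 0) (nat_lit 8358430184) (nat_lit 10) (nat_lit 5) (nat_lit 12) (nat_lit 4) (nat_lit 10) (nat_lit 4) (nat_lit 422) (nat_lit 319) (nat_lit 279)) (XT.lf (nat_lit 0) (nat_lit 20708152779) (nat_lit 152) (nat_lit 14990649310) (nat_lit 0) (nat_lit 15202466578) (nat_lit 10) (nat_lit 5) (nat_lit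 12) (nat_lit 4) (nat_lit 10) (nat_lit 4) (nat_lit 423) (nat_lit 319) (nat_lit 278)))) (XT.nd (nat_lit 78) (nat_lit 76) (nat_lit 0) (XT.lf (nat_lit 0) (nat_lit 27872260179) (nat_lit 152) (nat_lit 2925873914) (nat_lit 0) (nat_lit 22325557704) (nat_lit 10) (nat_lit 5) (nat_lit 12) (nat_lit 4) (nat_lit 10) (nat_lit 4) (nat_lit 424) (nat_lit 319) (nat_lit 277)) (XT.nd (nat_lit 78) (nat_lit 0) (nat_lit 0) (XT.lf (nat_lit 0) (nat_lit 9932549669) (nat_lit 76) (nat_lit 25552954162) (nat_lit 76) (nat_lit 19967188570) (nat_lit 9) (nat_lit 4) (nat_lit 10) (nat_lit 5) (nat_lit 10) (nat_lit 4) (nat_lit 425) (nat_lit 319) (nat_lit 276)) (XT.lf (nat_lit 0) (nat_lit 23410036322) (nat_lit 76) (nat_lit 20055876423) (nat_lit 76) (nat_lit 14432907862) (nat_lit 9) (nat_lit 4) (nat_lit 10) (nat_lit 5) (nat_lit 10) (nat_lit 4) (nat_lit 426) (nat_lit 319) (nat_lit 275))))) (XT.nd (nat_lit 234) (nat_lit 0) (nat_lit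 0) (XT.nd (nat_lit 78) (nat_lit 152) (nat_lit 0) (XT.lf (nat_lit 0) (nat_lit 37441932695) (nat_lit 76) (nat_lit 14343363686) (nat_lit 76) (nat_lit 8684963725) (nat_lit 9) (nat_lit 4) (nat_lit 10) (nat_lit 5) (nat_lit 10) (nat_lit 4) (nat_lit 427) (nat_lit 319) (nat_lit 274)) (XT.nd (nat_lit 78) (nat_lit 152) (nat_lit 0) (XT.lf (nat_lit 0) (nat_lit 52061648064) (nat_lit 76) (nat_lit 8401814730) (nat_lit 76) (nat_lit 2709670580) (nat_lit 9) (nat_lit 4) (nat_lit 10) (nat_lit 5) (nat_lit 10) (nat_lit 4) (nat_lit 428) (nat_lit 319) (nat_lit 273)) (XT.lf (nat_lit 0) (nat_lit 1276204777) (nat_lit 76) (nat_lit 2138666564) (nat_lit 152) (nat_lit 62595270366) (nat_lit 7) (nat_lit 5) (nat_lit 8) (nat_lit 5) (nat_lit 9) (nat_lit 4) (nat_lit 429) (nat_lit 319) (nat_lit 272)))) (XT.nd (nat_lit 156) (nat_lit 0) (nat_lit 0) (XT.nd (nat_lit 78) (nat_lit 0) (nat_lit 0) (XT.lf (nat_lit 0) (nat_lit 9959866961)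 (nat_lit 152) (nat_lit 54537629304) (nat_lit 0) (nat_lit 4479020820) (nat_lit 7) (nat_lit 5) (nat_lit 9) (nat_lit 4) (nat_lit 7) (nat_lit 4) (nat_lit 430) (nat_lit 319) (nat_lit 271)) (XT.lf (nat_lit 0) (nat_lit 16814545849) (nat_lit 152) (nat_lit 43971607464) (nat_lit 0) (nat_lit 11305938280) (nat_lit 7) (nat_lit 5) (nat_lit 9) (nat_lit 4) (nat_lit 7) (nat_lit 4) (nat_lit 431) (nat_lit 319) (nat_lit 270))) (XT.nd (nat_lit 78) (nat_lit 0) (nat_lit 0) (XT.lf (nat_lit 0) (nat_lit 23961838091) (nat_lit 152) (nat_lit 32977323638) (nat_lit 0) (nat_lit 18426791066) (nat_lit 7) (nat_lit 5) (nat_lit 9) (nat_lit 4) (nat_lit 7) (nat_lit 4) (nat_lit 432) (nat_lit 319) (nat_lit 269)) (XT.lf (nat_lit 0) (nat_lit 31418761048) (nat_lit 152) (nat_lit 21528600958) (nat_lit 0) (nat_lit 25858533589) (nat_lit 7) (nat_lit 5) (nat_lit 9) (nat_lit 4) (nat_lit 7) (nat_lit 4) (nat_lit 433) (nat_lit 319) (nat_lit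 268)))))) (XT.nd (nat_lit 546) (nat_lit 152) (nat_lit 0) (XT.nd (nat_lit 234) (nat_lit 0) (nat_lit 0) (XT.nd (nat_lit 78) (nat_lit 76) (nat_lit 0) (XT.lf (nat_lit 0) (nat_lit 39203069300) (nat_lit 152) (nat_lit 9598180562) (nat_lit 0) (nat_lit 33618860475) (nat_lit 7) (nat_lit 5) (nat_lit 9) (nat_lit 4) (nat_lit 7) (nat_lit 4) (nat_lit 434) (nat_lit 319) (nat_lit 267)) (XT.nd (nat_lit 78) (nat_lit 0) (nat_lit 0) (XT.lf (nat_lit 0) (nat_lit 2936324018) (nat_lit 76) (nat_lit 44442817141) (nat_lit 76) (nat_lit 38835768921) (nat_lit 6) (nat_lit 4) (nat_lit 7) (nat_lit 5) (nat_lit 7) (nat_lit 4) (nat_lit 435) (nat_lit 319) (nat_lit 266)) (XT.lf (nat_lit 0) (nat_lit 16345757276) (nat_lit 76) (nat_lit 39738247376) (nat_lit 76) (nat_lit 34109447350) (nat_lit 6) (nat_lit 4) (nat_lit 7) (nat_lit 5) (nat_lit 7) (nat_lit 4) (nat_lit 436) (nat_lit 319) (nat_lit 265)))) (XT.nd (nat_lit 156) (nat_lit 0)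 (nat_lit 0) (XT.nd (nat_lit 78) (nat_lit 0) (nat_lit 0) (XT.lf (nat_lit 0) (nat_lit 30344687235) (nat_lit 76) (nat_lit 34838889043) (nat_lit 76) (nat_lit 29189373012) (nat_lit 6) (nat_lit 4) (nat_lit 7) (nat_lit 5) (nat_lit 7) (nat_lit 4) (nat_lit 437) (nat_lit 319) (nat_lit 264)) (XT.lf (nat_lit 0) (nat_lit 44966444681) (nat_lit 76) (nat_lit 29733077003) (nat_lit 76) (nat_lit 24063831444) (nat_lit 6) (nat_lit 4) (nat_lit 7) (nat_lit 5) (nat_lit 7) (nat_lit 4) (nat_lit 438) (nat_lit 319) (nat_lit 263))) (XT.nd (nat_lit 78) (nat_lit 0) (nat_lit 0) (XT.lf (nat_lit 0) (nat_lit 60245843323) (nat_lit 76) (nat_lit 24408654562) (nat_lit 76) (nat_lit 18720618975) (nat_lit 6) (nat_lit 4) (nat_lit 7) (nat_lit 5) (nat_lit 7) (nat_lit 4) (nat_lit 439) (nat_lit 319) (nat_lit 262)) (XT.lf (nat_lit 0) (nat_lit 76219262681) (nat_lit 76) (nat_lit 18852944522) (nat_lit 76) (nat_lit 13147013671) (nat_lit 6)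 (nat_lit 4) (nat_lit 7) (nat_lit 5) (nat_lit 7) (nat_lit 4) (nat_lit 440) (nat_lit 319) (nat_lit 261))))) (XT.nd (nat_lit 234) (nat_lit 0) (nat_lit 0) (XT.nd (nat_lit 78) (nat_lit 152) (nat_lit 0) (XT.lf (nat_lit 0) (nat_lit 92924734707) (nat_lit 76) (nat_lit 13052719003) (nat_lit 76) (nat_lit 7329745043) (nat_lit 6) (nat_lit 4) (nat_lit 7) (nat_lit 5) (nat_lit 7) (nat_lit 4) (nat_lit 441) (nat_lit 319) (nat_lit 260)) (XT.nd (nat_lit 78) (nat_lit 152) (nat_lit 0) (XT.lf (nat_lit 0) (nat_lit 110402034332) (nat_lit 76) (nat_lit 6994167943) (nat_lit 76) (nat_lit 1254962451) (nat_lit 6) (nat_lit 4) (nat_lit 7) (nat_lit 5) (nat_lit 7) (nat_lit 4) (nat_lit 442) (nat_lit 319) (nat_lit 259)) (XT.lf (nat_lit 0) (nat_lit 4493246358) (nat_lit 76) (nat_lit 505734350) (nat_lit 152) (nat_lit 119257379348) (nat_lit 4) (nat_lit 5) (nat_lit 5) (nat_lit 5) (nat_lit 6) (nat_lit 4) (nat_lit 443) (nat_lit 319)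 (nat_lit 258)))) (XT.nd (nat_lit 156) (nat_lit 0) (nat_lit 0) (XT.nd (nat_lit 78) (nat_lit 0) (nat_lit 0) (XT.lf (nat_lit 0) (nat_lit 11733214585) (nat_lit 152) (nat_lit 112158523805) (nat_lit 0) (nat_lit 6238560706) (nat_lit 4) (nat_lit 5) (nat_lit 6) (nat_lit 4) (nat_lit 4) (nat_lit 4) (nat_lit 444) (nat_lit 319) (nat_lit 257)) (XT.lf (nat_lit 0) (nat_lit 18783216086) (nat_lit 152) (nat_lit 104240558698) (nat_lit 0) (nat_lit 13275208486) (nat_lit 4) (nat_lit 5) (nat_lit 6) (nat_lit 4) (nat_lit 4) (nat_lit 4) (nat_lit 445) (nat_lit 319) (nat_lit 256))) (XT.nd (nat_lit 78) (nat_lit 0) (nat_lit 0) (XT.lf (nat_lit 0) (nat_lit 26157875000) (nat_lit 152) (nat_lit 95982470149) (nat_lit 0) (nat_lit 20637149569) (nat_lit 4) (nat_lit 5) (nat_lit 6) (nat_lit 4) (nat_lit 4) (nat_lit 4) (nat_lit 446) (nat_lit 319) (nat_lit 255)) (XT.lf (nat_lit 0) (nat_lit 33874750037) (nat_lit 152) (nat_lit 87364596042)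 (nat_lit 0) (nat_lit 28341912388) (nat_lit 4) (nat_lit 5) (nat_lit 6) (nat_lit 4) (nat_lit 4) (nat_lit 4) (nat_lit 447) (nat_lit 319) (nat_lit 254))))))) (XT.nd (nat_lit 1014) (nat_lit 0) (nat_lit 0) (XT.nd (nat_lit 468) (nat_lit 76) (nat_lit 0) (XT.nd (nat_lit 234) (nat_lit 0) (nat_lit 0) (XT.nd (nat_lit 78) (nat_lit 0) (nat_lit 0) (XT.lf (nat_lit 0) (nat_lit 41952214711) (nat_lit 152) (nat_lit 78366417630) (nat_lit 0) (nat_lit 36407841614) (nat_lit 4) (nat_lit 5) (nat_lit 6) (nat_lit 4) (nat_lit 4) (nat_lit 4) (nat_lit 448) (nat_lit 319) (nat_lit 253)) (XT.nd (nat_lit 78) (nat_lit 0) (nat_lit 0) (XT.lf (nat_lit 0) (nat_lit 50409501079) (nat_lit 152) (nat_lit 68966510677) (nat_lit 0) (nat_lit 44854141843) (nat_lit 4) (nat_lit 5) (nat_lit 6) (nat_lit 4) (nat_lit 4) (nat_lit 4) (nat_lit 449) (nat_lit 319) (nat_lit 252)) (XT.lf (nat_lit 0) (nat_lit 59266745538) (nat_lit 152) (nat_lit 59142494454)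 (nat_lit 0) (nat_lit 53700923311) (nat_lit 4) (nat_lit 5) (nat_lit 6) (nat_lit 4) (nat_lit 4) (nat_lit 4) (nat_lit 450) (nat_lit 319) (nat_lit 251)))) (XT.nd (nat_lit 78) (nat_lit 0) (nat_lit 0) (XT.lf (nat_lit 0) (nat_lit 68545036765) (nat_lit 152) (nat_lit 48870978446) (nat_lit 0) (nat_lit 62969249786) (nat_lit 4) (nat_lit 5) (nat_lit 6) (nat_lit 4) (nat_lit 4) (nat_lit 4) (nat_lit 451) (nat_lit 319) (nat_lit 250)) (XT.nd (nat_lit 78) (nat_lit 0) (nat_lit 0) (XT.lf (nat_lit 0) (nat_lit 78266465930) (nat_lit 152) (nat_lit 38127506661) (nat_lit 0) (nat_lit 72681188710) (nat_lit 4) (nat_lit 5) (nat_lit 6) (nat_lit 4) (nat_lit 4) (nat_lit 4) (nat_lit 452) (nat_lit 319) (nat_lit 249)) (XT.lf (nat_lit 0) (nat_lit 88454179292) (nat_lit 152) (nat_lit 26886499405) (nat_lit 0) (nat_lit 82859863748) (nat_lit 4) (nat_lit 5) (nat_lit 6) (nat_lit 4) (nat_lit 4) (nat_lit 4) (nat_lit 453) (nat_lit 319)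 (nat_lit 248))))) (XT.nd (nat_lit 234) (nat_lit 0) (nat_lit 0) (XT.nd (nat_lit 78) (nat_lit 76) (nat_lit 0) (XT.lf (nat_lit 0) (nat_lit 99132433313) (nat_lit 152) (nat_lit 15121192376) (nat_lit 0) (nat_lit 93529509840) (nat_lit 4) (nat_lit 5) (nat_lit 6) (nat_lit 4) (nat_lit 4) (nat_lit 4) (nat_lit 454) (nat_lit 319) (nat_lit 247)) (XT.nd (nat_lit 78) (nat_lit 76) (nat_lit 0) (XT.lf (nat_lit 0) (nat_lit 110326652405) (nat_lit 152) (nat_lit 2803572937) (nat_lit 0) (nat_lit 104715530906) (nat_lit 4) (nat_lit 5) (nat_lit 6) (nat_lit 4) (nat_lit 4) (nat_lit 4) (nat_lit 455) (nat_lit 319) (nat_lit 246)) (XT.lf (nat_lit 0) (nat_lit 10429495567) (nat_lit 76) (nat_lit 111796827560) (nat_lit 76) (nat_lit 106177898416) (nat_lit 3) (nat_lit 4) (nat_lit 4) (nat_lit 5) (nat_lit 4) (nat_lit 4) (nat_lit 456) (nat_lit 319) (nat_lit 245)))) (XT.nd (nat_lit 156) (nat_lit 0) (nat_lit 0) (XT.nd (nat_lit 78)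 (nat_lit 0) (nat_lit 0) (XT.lf (nat_lit 0) (nat_lit 24387862595) (nat_lit 76) (nat_lit 110363789653) (nat_lit 76) (nat_lit 104737424657) (nat_lit 3) (nat_lit 4) (nat_lit 4) (nat_lit 5) (nat_lit 4) (nat_lit 4) (nat_lit 457) (nat_lit 319) (nat_lit 244)) (XT.lf (nat_lit 0) (nat_lit 39012063570) (nat_lit 76) (nat_lit 108875179490) (nat_lit 76) (nat_lit 103241732731) (nat_lit 3) (nat_lit 4) (nat_lit 4) (nat_lit 5) (nat_lit 4) (nat_lit 4) (nat_lit 458) (nat_lit 319) (nat_lit 243))) (XT.nd (nat_lit 78) (nat_lit 0) (nat_lit 0) (XT.lf (nat_lit 0) (nat_lit 54336918018) (nat_lit 76) (nat_lit 107327452763) (nat_lit 76) (nat_lit 101687261466) (nat_lit 3) (nat_lit 4) (nat_lit 4) (nat_lit 5) (nat_lit 4) (nat_lit 4) (nat_lit 459) (nat_lit 319) (nat_lit 242)) (XT.lf (nat_lit 0) (nat_lit 70398913688) (nat_lit 76) (nat_lit 105716924407) (nat_lit 76) (nat_lit 100070309742) (nat_lit 3) (nat_lit 4) (nat_lit 4)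 (nat_lit 5) (nat_lit 4) (nat_lit 4) (nat_lit 460) (nat_lit 319) (nat_lit 241)))))) (XT.nd (nat_lit 546) (nat_lit 0) (nat_lit 0) (XT.nd (nat_lit 234) (nat_lit 0) (nat_lit 0) (XT.nd (nat_lit 78) (nat_lit 0) (nat_lit 0) (XT.lf (nat_lit 0) (nat_lit 87236293426) (nat_lit 76) (nat_lit 104039759831) (nat_lit 76) (nat_lit 98387027673) (nat_lit 3) (nat_lit 4) (nat_lit 4) (nat_lit 5) (nat_lit 4) (nat_lit 4) (nat_lit 461) (nat_lit 319) (nat_lit 240)) (XT.nd (nat_lit 78) (nat_lit 0) (nat_lit 0) (XT.lf (nat_lit 0) (nat_lit 104889146233) (nat_lit 76) (nat_lit 102291965786) (nat_lit 76) (nat_lit 96633407443) (nat_lit 3) (nat_lit 4) (nat_lit 4) (nat_lit 5) (nat_lit 4) (nat_lit 4) (nat_lit 462) (nat_lit 319) (nat_lit 239)) (XT.lf (nat_lit 0) (nat_lit 123399502710) (nat_lit 76) (nat_lit 100469380859) (nat_lit 76) (nat_lit 94805273768) (nat_lit 3) (nat_lit 4) (nat_lit 4) (nat_lit 5) (nat_lit 4) (nat_lit 4)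 (nat_lit 463) (nat_lit 319) (nat_lit 238)))) (XT.nd (nat_lit 156) (nat_lit 0) (nat_lit 0) (XT.nd (nat_lit 78) (nat_lit 0) (nat_lit 0) (XT.lf (nat_lit 0) (nat_lit 142811435134) (nat_lit 76) (nat_lit 98567665560) (nat_lit 76) (nat_lit 92898273948) (nat_lit 3) (nat_lit 4) (nat_lit 4) (nat_lit 5) (nat_lit 4) (nat_lit 4) (nat_lit 464) (nat_lit 319) (nat_lit 237)) (XT.lf (nat_lit 0) (nat_lit 163171162392) (nat_lit 76) (nat_lit 96582291996) (nat_lit 76) (nat_lit 90907867507) (nat_lit 3) (nat_lit 4) (nat_lit 4) (nat_lit 5) (nat_lit 4) (nat_lit 4) (nat_lit 465) (nat_lit 319) (nat_lit 236))) (XT.nd (nat_lit 78) (nat_lit 0) (nat_lit 0) (XT.lf (nat_lit 0) (nat_lit 184527160026) (nat_lit 76) (nat_lit 94508533087) (nat_lit 76) (nat_lit 88829315382) (nat_lit 3) (nat_lit 4) (nat_lit 4) (nat_lit 5) (nat_lit 4) (nat_lit 4) (nat_lit 466) (nat_lit 319) (nat_lit 235)) (XT.lf (nat_lit 0) (nat_lit 206930275648)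 (nat_lit 76) (nat_lit 92341451313) (nat_lit 76) (nat_lit 86657668640) (nat_lit 3) (nat_lit 4) (nat_lit 4) (nat_lit 5) (nat_lit 4) (nat_lit 4) (nat_lit 467) (nat_lit 319) (nat_lit 234))))) (XT.nd (nat_lit 234) (nat_lit 0) (nat_lit 0) (XT.nd (nat_lit 78) (nat_lit 0) (nat_lit 0) (XT.lf (nat_lit 0) (nat_lit 230433850010) (nat_lit 76) (nat_lit 90075886954) (nat_lit 76) (nat_lit 84387756692) (nat_lit 3) (nat_lit 4) (nat_lit 4) (nat_lit 5) (nat_lit 4) (nat_lit 4) (nat_lit 468) (nat_lit 319) (nat_lit 233)) (XT.nd (nat_lit 78) (nat_lit 0) (nat_lit 0) (XT.lf (nat_lit 0) (nat_lit 255093844004) (nat_lit 76) (nat_lit 87706445810) (nat_lit 76) (nat_lit 82014174988) (nat_lit 3) (nat_lit 4) (nat_lit 4) (nat_lit 5) (nat_lit 4) (nat_lit 4) (nat_lit 469) (nat_lit 319) (nat_lit 232)) (XT.lf (nat_lit 0) (nat_lit 280968971900) (nat_lit 76) (nat_lit 85227486354) (nat_lit 76) (nat_lit 79531272141) (nat_lit 3) (nat_lit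 4) (nat_lit 4) (nat_lit 5) (nat_lit 4) (nat_lit 4) (nat_lit 470) (nat_lit 319) (nat_lit 231)))) (XT.nd (nat_lit 156) (nat_lit 0) (nat_lit 0) (XT.nd (nat_lit 78) (nat_lit 0) (nat_lit 0) (XT.lf (nat_lit 0) (nat_lit 308120841146) (nat_lit 76) (nat_lit 82633106302) (nat_lit 76) (nat_lit 76933136479) (nat_lit 3) (nat_lit 4) (nat_lit 4) (nat_lit 5) (nat_lit 4) (nat_lit 4) (nat_lit 471) (nat_lit 319) (nat_lit 230)) (XT.lf (nat_lit 0) (nat_lit 336614099051) (nat_lit 76) (nat_lit 79917128559) (nat_lit 76) (nat_lit 74213581963) (nat_lit 3) (nat_lit 4) (nat_lit 4) (nat_lit 5) (nat_lit 4) (nat_lit 4) (nat_lit 472) (nat_lit 319) (nat_lit 229))) (XT.nd (nat_lit 78) (nat_lit 0) (nat_lit 0) (XT.lf (nat_lit 0) (nat_lit 366516586704) (nat_lit 76) (nat_lit 77073086510) (nat_lit 76) (nat_lit 71366133465) (nat_lit 3) (nat_lit 4) (nat_lit 4) (nat_lit 5) (nat_lit 4) (nat_lit 4) (nat_lit 473) (nat_lit 319) (nat_lit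 228)) (XT.lf (nat_lit 0) (nat_lit 397899500503) (nat_lit 76) (nat_lit 74094208628) (nat_lit 76) (nat_lit 68384011345) (nat_lit 3) (nat_lit 4) (nat_lit 4) (nat_lit 5) (nat_lit 4) (nat_lit 4) (nat_lit 474) (nat_lit 319) (nat_lit 227))))))))
noncomputable def xc51 : XT := (XT.nd (nat_lit 47034) (nat_lit 0) (nat_lit 532) (XT.nd (nat_lit 45942) (nat_lit 0) (nat_lit 1824) (XT.nd (nat_lit 468) (nat_lit 0) (nat_lit 0) (XT.nd (nat_lit 234) (nat_lit 0) (nat_lit 0) (XT.nd (nat_lit 78) (nat_lit 0) (nat_lit 0) (XT.lf (nat_lit 0) (nat_lit 430837561674) (nat_lit 76) (nat_lit 70973402345) (nat_lit 76) (nat_lit 65260115312) (nat_lit 3) (nat_lit 4) (nat_lit 4) (nat_lit 5) (nat_lit 4) (nat_lit 4) (nat_lit 475) (nat_lit 319) (nat_lit 226)) (XT.nd (nat_lit 78) (nat_lit 0) (nat_lit 0) (XT.lf (nat_lit 0) (nat_lit 465409194171) (nat_lit 76) (nat_lit 67703237170) (nat_lit 76) (nat_lit 61987007518) (nat_lit 3) (nat_lit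 4) (nat_lit 4) (nat_lit 5) (nat_lit 4) (nat_lit 4) (nat_lit 476) (nat_lit 319) (nat_lit 225)) (XT.lf (nat_lit 0) (nat_lit 501696711404) (nat_lit 76) (nat_lit 64275926997) (nat_lit 76) (nat_lit 58556894851) (nat_lit 3) (nat_lit 4) (nat_lit 4) (nat_lit 5) (nat_lit 4) (nat_lit 4) (nat_lit 477) (nat_lit 319) (nat_lit 224)))) (XT.nd (nat_lit 78) (nat_lit 0) (nat_lit 0) (XT.lf (nat_lit 0) (nat_lit 539786512224) (nat_lit 76) (nat_lit 60683311562) (nat_lit 76) (nat_lit 54961610374) (nat_lit 3) (nat_lit 4) (nat_lit 4) (nat_lit 5) (nat_lit 4) (nat_lit 4) (nat_lit 478) (nat_lit 319) (nat_lit 223)) (XT.nd (nat_lit 78) (nat_lit 0) (nat_lit 0) (XT.lf (nat_lit 0) (nat_lit 579769286633) (nat_lit 76) (nat_lit 56916837020) (nat_lit 76) (nat_lit 51192593886) (nat_lit 3) (nat_lit 4) (nat_lit 4) (nat_lit 5) (nat_lit 4) (nat_lit 4) (nat_lit 479) (nat_lit 319) (nat_lit 222)) (XT.lf (nat_lit 0) (nat_lit 621740231713)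 (nat_lit 76) (nat_lit 52967535574) (nat_lit 76) (nat_lit 47240871540) (nat_lit 3) (nat_lit 4) (nat_lit 4) (nat_lit 5) (nat_lit 4) (nat_lit 4) (nat_lit 480) (nat_lit 319) (nat_lit 221))))) (XT.nd (nat_lit 234) (nat_lit 0) (nat_lit 0) (XT.nd (nat_lit 78) (nat_lit 0) (nat_lit 0) (XT.lf (nat_lit 0) (nat_lit 665799278286) (nat_lit 76) (nat_lit 48826004124) (nat_lit 76) (nat_lit 43097034472) (nat_lit 3) (nat_lit 4) (nat_lit 4) (nat_lit 5) (nat_lit 4) (nat_lit 4) (nat_lit 481) (nat_lit 319) (nat_lit 220)) (XT.nd (nat_lit 78) (nat_lit 0) (nat_lit 0) (XT.lf (nat_lit 0) (nat_lit 712051328843) (nat_lit 76) (nat_lit 44482381883) (nat_lit 76) (nat_lit 38751216403) (nat_lit 3) (nat_lit 4) (nat_lit 4) (nat_lit 5) (nat_lit 4) (nat_lit 4) (nat_lit 482) (nat_lit 319) (nat_lit 219)) (XT.lf (nat_lit 0) (nat_lit 760606507315) (nat_lit 76) (nat_lit 39926326892) (nat_lit 76) (nat_lit 34193070147) (nat_lit 3) (nat_lit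 4) (nat_lit 4) (nat_lit 5) (nat_lit 4) (nat_lit 4) (nat_lit 483) (nat_lit 319) (nat_lit 218)))) (XT.nd (nat_lit 45084) (nat_lit 0) (nat_lit 3192) (XT.nd (nat_lit 45006) (nat_lit 0) (nat_lit 3496) (XT.lf (nat_lit 0) (nat_lit 811580421268) (nat_lit 76) (nat_lit 35146991402) (nat_lit 76) (nat_lit 29411742976) (nat_lit 3) (nat_lit 4) (nat_lit 4) (nat_lit 5) (nat_lit 4) (nat_lit 4) (nat_lit 484) (nat_lit 319) (nat_lit 217)) (XT.lf (nat_lit 0) (nat_lit 3244402127) (nat_lit 152) (nat_lit 1262846721) (nat_lit 152) (nat_lit 1262846721) (nat_lit 49) (nat_lit 4) (nat_lit 51) (nat_lit 5) (nat_lit 51) (nat_lit 4) (nat_lit 380) (nat_lit 320) (nat_lit 320))) (XT.nd (nat_lit 78) (nat_lit 152) (nat_lit 0) (XT.lf (nat_lit 0) (nat_lit 2573661214) (nat_lit 152) (nat_lit 7229606908) (nat_lit 0) (nat_lit 2029172290) (nat_lit 47) (nat_lit 5) (nat_lit 49) (nat_lit 4) (nat_lit 47) (nat_lit 4) (nat_lit 381) (nat_lit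 320) (nat_lit 319)) (XT.lf (nat_lit 0) (nat_lit 2450391268) (nat_lit 152) (nat_lit 5375397107) (nat_lit 152) (nat_lit 4312347303) (nat_lit 45) (nat_lit 4) (nat_lit 47) (nat_lit 5) (nat_lit 47) (nat_lit 4) (nat_lit 382) (nat_lit 320) (nat_lit 318)))))) (XT.nd (nat_lit 546) (nat_lit 608) (nat_lit 0) (XT.nd (nat_lit 234) (nat_lit 456) (nat_lit 0) (XT.nd (nat_lit 78) (nat_lit 152) (nat_lit 0) (XT.lf (nat_lit 0) (nat_lit 74195130) (nat_lit 76) (nat_lit 721469474) (nat_lit 152) (nat_lit 11665674068) (nat_lit 43) (nat_lit 5) (nat_lit 44) (nat_lit 5) (nat_lit 45) (nat_lit 4) (nat_lit 383) (nat_lit 320) (nat_lit 317)) (XT.nd (nat_lit 78) (nat_lit 152) (nat_lit 0) (XT.lf (nat_lit 0) (nat_lit 6064349476) (nat_lit 152) (nat_lit 2596721983) (nat_lit 0) (nat_lit 4133618700) (nat_lit 43) (nat_lit 5) (nat_lit 45) (nat_lit 4) (nat_lit 43) (nat_lit 4) (nat_lit 384) (nat_lit 320) (nat_lit 316)) (XT.lf (nat_lit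 0) (nat_lit 7603930167) (nat_lit 152) (nat_lit 3950141140) (nat_lit 152) (nat_lit 1592789045) (nat_lit 41) (nat_lit 4) (nat_lit 43) (nat_lit 5) (nat_lit 43) (nat_lit 4) (nat_lit 385) (nat_lit 320) (nat_lit 315)))) (XT.nd (nat_lit 156) (nat_lit 152) (nat_lit 0) (XT.nd (nat_lit 78) (nat_lit 152) (nat_lit 0) (XT.lf (nat_lit 0) (nat_lit 3641535991) (nat_lit 152) (nat_lit 8864604462) (nat_lit 0) (nat_lit 1009480645) (nat_lit 39) (nat_lit 5) (nat_lit 41) (nat_lit 4) (nat_lit 39) (nat_lit 4) (nat_lit 386) (nat_lit 320) (nat_lit 314)) (XT.lf (nat_lit 0) (nat_lit 1284844600) (nat_lit 152) (nat_lit 7808411627) (nat_lit 152) (nat_lit 4807824745) (nat_lit 37) (nat_lit 4) (nat_lit 39) (nat_lit 5) (nat_lit 39) (nat_lit 4) (nat_lit 387) (nat_lit 320) (nat_lit 313))) (XT.nd (nat_lit 78) (nat_lit 76) (nat_lit 0) (XT.lf (nat_lit 0) (nat_lit 477500953) (nat_lit 228) (nat_lit 2372692341) (nat_lit 76) (nat_lit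 11456138977) (nat_lit 36) (nat_lit 5) (nat_lit 39) (nat_lit 5) (nat_lit 37) (nat_lit 4) (nat_lit 388) (nat_lit 320) (nat_lit 312)) (XT.lf (nat_lit 0) (nat_lit 5870368599) (nat_lit 152) (nat_lit 6497271083) (nat_lit 0) (nat_lit 2360046442) (nat_lit 35) (nat_lit 5) (nat_lit 37) (nat_lit 4) (nat_lit 35) (nat_lit 4) (nat_lit 389) (nat_lit 320) (nat_lit 311))))) (XT.nd (nat_lit 234) (nat_lit 304) (nat_lit 0) (XT.nd (nat_lit 78) (nat_lit 152) (nat_lit 0) (XT.lf (nat_lit 0) (nat_lit 4060947175) (nat_lit 152) (nat_lit 7461606488) (nat_lit 152) (nat_lit 3648092525) (nat_lit 33) (nat_lit 4) (nat_lit 35) (nat_lit 5) (nat_lit 35) (nat_lit 4) (nat_lit 390) (nat_lit 320) (nat_lit 310)) (XT.nd (nat_lit 78) (nat_lit 76) (nat_lit 0) (XT.lf (nat_lit 0) (nat_lit 1714299358) (nat_lit 228) (nat_lit 587954380) (nat_lit 76) (nat_lit 13334548262) (nat_lit 32) (nat_lit 5) (nat_lit 35) (nat_lit 5) (nat_lit 33) (nat_lit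 4) (nat_lit 391) (nat_lit 320) (nat_lit 309)) (XT.lf (nat_lit 0) (nat_lit 7282391250) (nat_lit 152) (nat_lit 5724333495) (nat_lit 0) (nat_lit 3113560801) (nat_lit 31) (nat_lit 5) (nat_lit 33) (nat_lit 4) (nat_lit 31) (nat_lit 4) (nat_lit 392) (nat_lit 320) (nat_lit 308)))) (XT.nd (nat_lit 156) (nat_lit 152) (nat_lit 0) (XT.nd (nat_lit 78) (nat_lit 76) (nat_lit 0) (XT.lf (nat_lit 0) (nat_lit 5162661607) (nat_lit 76) (nat_lit 7942379682) (nat_lit 76) (nat_lit 3524112583) (nat_lit 30) (nat_lit 4) (nat_lit 31) (nat_lit 5) (nat_lit 31) (nat_lit 4) (nat_lit 393) (nat_lit 320) (nat_lit 307)) (XT.lf (nat_lit 0) (nat_lit 1936177109) (nat_lit 152) (nat_lit 686662738) (nat_lit 76) (nat_lit 14541707694) (nat_lit 29) (nat_lit 5) (nat_lit 31) (nat_lit 5) (nat_lit 30) (nat_lit 4) (nat_lit 394) (nat_lit 320) (nat_lit 306))) (XT.nd (nat_lit 78) (nat_lit 76) (nat_lit 0) (XT.lf (nat_lit 0) (nat_lit 7620413179)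 (nat_lit 152) (nat_lit 7129136029) (nat_lit 0) (nat_lit 2970820601) (nat_lit 28) (nat_lit 5) (nat_lit 30) (nat_lit 4) (nat_lit 28) (nat_lit 4) (nat_lit 395) (nat_lit 320) (nat_lit 305)) (XT.lf (nat_lit 0) (nat_lit 3962956378) (nat_lit 76) (nat_lit 9598605763) (nat_lit 76) (nat_lit 4743801035) (nat_lit 27) (nat_lit 4) (nat_lit 28) (nat_lit 5) (nat_lit 28) (nat_lit 4) (nat_lit 396) (nat_lit 320) (nat_lit 304))))))) (XT.nd (nat_lit 1092) (nat_lit 456) (nat_lit 0) (XT.nd (nat_lit 546) (nat_lit 380) (nat_lit 0) (XT.nd (nat_lit 234) (nat_lit 304) (nat_lit 0) (XT.nd (nat_lit 78) (nat_lit 76) (nat_lit 0) (XT.lf (nat_lit 0) (nat_lit 831031841) (nat_lit 152) (nat_lit 3346629593) (nat_lit 76) (nat_lit 14742319319) (nat_lit 26) (nat_lit 5) (nat_lit 28) (nat_lit 5) (nat_lit 27) (nat_lit 4) (nat_lit 397) (nat_lit 320) (nat_lit 303)) (XT.nd (nat_lit 78) (nat_lit 0) (nat_lit 0) (XT.lf (nat_lit 0) (nat_lit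 6540171467) (nat_lit 152) (nat_lit 11467388498) (nat_lit 0) (nat_lit 1553144479) (nat_lit 25) (nat_lit 5) (nat_lit 27) (nat_lit 4) (nat_lit 25) (nat_lit 4) (nat_lit 398) (nat_lit 320) (nat_lit 302)) (XT.lf (nat_lit 0) (nat_lit 12524609004) (nat_lit 152) (nat_lit 340622170) (nat_lit 0) (nat_lit 7368753472) (nat_lit 25) (nat_lit 5) (nat_lit 27) (nat_lit 4) (nat_lit 25) (nat_lit 4) (nat_lit 399) (nat_lit 320) (nat_lit 301)))) (XT.nd (nat_lit 156) (nat_lit 76) (nat_lit 0) (XT.nd (nat_lit 78) (nat_lit 152) (nat_lit 0) (XT.lf (nat_lit 0) (nat_lit 11459719842) (nat_lit 76) (nat_lit 7397703828) (nat_lit 76) (nat_lit 2081059208) (nat_lit 24) (nat_lit 4) (nat_lit 25) (nat_lit 5) (nat_lit 25) (nat_lit 4) (nat_lit 400) (nat_lit 320) (nat_lit 300)) (XT.lf (nat_lit 0) (nat_lit 1936275611) (nat_lit 76) (nat_lit 1676433021) (nat_lit 152) (nat_lit 18067190413) (nat_lit 22) (nat_lit 5) (nat_lit 23) (nat_lit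 5) (nat_lit 24) (nat_lit 4) (nat_lit 401) (nat_lit 320) (nat_lit 299))) (XT.nd (nat_lit 78) (nat_lit 76) (nat_lit 0) (XT.lf (nat_lit 0) (nat_lit 9622965799) (nat_lit 152) (nat_lit 8553879076) (nat_lit 0) (nat_lit 4274758629) (nat_lit 22) (nat_lit 5) (nat_lit 24) (nat_lit 4) (nat_lit 22) (nat_lit 4) (nat_lit 402) (nat_lit 320) (nat_lit 298)) (XT.lf (nat_lit 0) (nat_lit 3026349169) (nat_lit 76) (nat_lit 12859225265) (nat_lit 76) (nat_lit 7378736515) (nat_lit 21) (nat_lit 4) (nat_lit 22) (nat_lit 5) (nat_lit 22) (nat_lit 4) (nat_lit 403) (nat_lit 320) (nat_lit 297))))) (XT.nd (nat_lit 234) (nat_lit 228) (nat_lit 0) (XT.nd (nat_lit 78) (nat_lit 152) (nat_lit 0) (XT.lf (nat_lit 0) (nat_lit 15248022183) (nat_lit 76) (nat_lit 7237451996) (nat_lit 76) (nat_lit 1630980788) (nat_lit 21) (nat_lit 4) (nat_lit 22) (nat_lit 5) (nat_lit 22) (nat_lit 4) (nat_lit 404) (nat_lit 320) (nat_lit 296)) (XT.nd (nat_lit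 78) (nat_lit 0) (nat_lit 0) (XT.lf (nat_lit 0) (nat_lit 2865276632) (nat_lit 76) (nat_lit 1325811725) (nat_lit 152) (nat_lit 20820293820) (nat_lit 19) (nat_lit 5) (nat_lit 20) (nat_lit 5) (nat_lit 21) (nat_lit 4) (nat_lit 405) (nat_lit 320) (nat_lit 295)) (XT.lf (nat_lit 0) (nat_lit 10361841387) (nat_lit 152) (nat_lit 10783019053) (nat_lit 0) (nat_lit 4799246810) (nat_lit 19) (nat_lit 5) (nat_lit 21) (nat_lit 4) (nat_lit 19) (nat_lit 4) (nat_lit 406) (nat_lit 320) (nat_lit 294)))) (XT.nd (nat_lit 156) (nat_lit 152) (nat_lit 0) (XT.nd (nat_lit 78) (nat_lit 0) (nat_lit 0) (XT.lf (nat_lit 0) (nat_lit 939780950) (nat_lit 76) (nat_lit 15826830944) (nat_lit 76) (nat_lit 10160590288) (nat_lit 18) (nat_lit 4) (nat_lit 19) (nat_lit 5) (nat_lit 19) (nat_lit 4) (nat_lit 407) (nat_lit 320) (nat_lit 293)) (XT.lf (nat_lit 0) (nat_lit 13409794506) (nat_lit 76) (nat_lit 10155466887) (nat_lit 76) (nat_lit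 4390515678) (nat_lit 18) (nat_lit 4) (nat_lit 19) (nat_lit 5) (nat_lit 19) (nat_lit 4) (nat_lit 408) (nat_lit 320) (nat_lit 292))) (XT.nd (nat_lit 78) (nat_lit 76) (nat_lit 0) (XT.lf (nat_lit 0) (nat_lit 1509180276) (nat_lit 152) (nat_lit 2765141691) (nat_lit 76) (nat_lit 24765437841) (nat_lit 17) (nat_lit 5) (nat_lit 19) (nat_lit 5) (nat_lit 18) (nat_lit 4) (nat_lit 409) (nat_lit 320) (nat_lit 291)) (XT.lf (nat_lit 0) (nat_lit 7638243518) (nat_lit 152) (nat_lit 20558998472) (nat_lit 0) (nat_lit 1973010527) (nat_lit 16) (nat_lit 5) (nat_lit 18) (nat_lit 4) (nat_lit 16) (nat_lit 4) (nat_lit 410) (nat_lit 320) (nat_lit 290)))))) (XT.nd (nat_lit 546) (nat_lit 228) (nat_lit 0) (XT.nd (nat_lit 234) (nat_lit 152) (nat_lit 0) (XT.nd (nat_lit 78) (nat_lit 76) (nat_lit 0) (XT.lf (nat_lit 0) (nat_lit 14091236774) (nat_lit 152) (nat_lit 8920370830) (nat_lit 0) (nat_lit 8344794368) (nat_lit 16) (nat_lit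 5) (nat_lit 18) (nat_lit 4) (nat_lit 16) (nat_lit 4) (nat_lit 411) (nat_lit 320) (nat_lit 289)) (XT.nd (nat_lit 78) (nat_lit 0) (nat_lit 0) (XT.lf (nat_lit 0) (nat_lit 3215412992) (nat_lit 76) (nat_lit 17606248594) (nat_lit 76) (nat_lit 11782463887) (nat_lit 15) (nat_lit 4) (nat_lit 16) (nat_lit 5) (nat_lit 16) (nat_lit 4) (nat_lit 412) (nat_lit 320) (nat_lit 288)) (XT.lf (nat_lit 0) (nat_lit 16083019874) (nat_lit 76) (nat_lit 11862899562) (nat_lit 76) (nat_lit 5965455521) (nat_lit 15) (nat_lit 4) (nat_lit 16) (nat_lit 5) (nat_lit 16) (nat_lit 4) (nat_lit 413) (nat_lit 320) (nat_lit 287)))) (XT.nd (nat_lit 156) (nat_lit 0) (nat_lit 0) (XT.nd (nat_lit 78) (nat_lit 76) (nat_lit 0) (XT.lf (nat_lit 0) (nat_lit 47082366) (nat_lit 152) (nat_lit 5871076935) (nat_lit 76) (nat_lit 29370259499) (nat_lit 14) (nat_lit 5) (nat_lit 16) (nat_lit 5) (nat_lit 15) (nat_lit 4) (nat_lit 414) (nat_lit 320) (nat_lit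 286)) (XT.lf (nat_lit 0) (nat_lit 6183855351) (nat_lit 152) (nat_lit 30107569011) (nat_lit 0) (nat_lit 436801089) (nat_lit 13) (nat_lit 5) (nat_lit 15) (nat_lit 4) (nat_lit 13) (nat_lit 4) (nat_lit 415) (nat_lit 320) (nat_lit 285))) (XT.nd (nat_lit 78) (nat_lit 0) (nat_lit 0) (XT.lf (nat_lit 0) (nat_lit 12739313208) (nat_lit 152) (nat_lit 18563462129) (nat_lit 0) (nat_lit 6931659229) (nat_lit 13) (nat_lit 5) (nat_lit 15) (nat_lit 4) (nat_lit 13) (nat_lit 4) (nat_lit 416) (nat_lit 320) (nat_lit 284)) (XT.lf (nat_lit 0) (nat_lit 19540417953) (nat_lit 152) (nat_lit 6604596752) (nat_lit 0) (nat_lit 13675049960) (nat_lit 13) (nat_lit 5) (nat_lit 15) (nat_lit 4) (nat_lit 13) (nat_lit 4) (nat_lit 417) (nat_lit 320) (nat_lit 283))))) (XT.nd (nat_lit 234) (nat_lit 152) (nat_lit 0) (XT.nd (nat_lit 78) (nat_lit 0) (nat_lit 0) (XT.lf (nat_lit 0) (nat_lit 5989192160) (nat_lit 76) (nat_lit 20707678610)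 (nat_lit 76) (nat_lit 14787344887) (nat_lit 12) (nat_lit 4) (nat_lit 13) (nat_lit 5) (nat_lit 13) (nat_lit 4) (nat_lit 418) (nat_lit 320) (nat_lit 282)) (XT.nd (nat_lit 78) (nat_lit 0) (nat_lit 0) (XT.lf (nat_lit 0) (nat_lit 19289751261) (nat_lit 76) (nat_lit 14956379784) (nat_lit 76) (nat_lit 8983697747) (nat_lit 12) (nat_lit 4) (nat_lit 13) (nat_lit 5) (nat_lit 13) (nat_lit 4) (nat_lit 419) (nat_lit 320) (nat_lit 281)) (XT.lf (nat_lit 0) (nat_lit 33110370752) (nat_lit 76) (nat_lit 8989276702) (nat_lit 76) (nat_lit 2966739129) (nat_lit 12) (nat_lit 4) (nat_lit 13) (nat_lit 5) (nat_lit 13) (nat_lit 4) (nat_lit 420) (nat_lit 320) (nat_lit 280)))) (XT.nd (nat_lit 156) (nat_lit 0) (nat_lit 0) (XT.nd (nat_lit 78) (nat_lit 0) (nat_lit 0) (XT.lf (nat_lit 0) (nat_lit 448885696) (nat_lit 76) (nat_lit 2731067831) (nat_lit 152) (nat_lit 43815399013) (nat_lit 10) (nat_lit 5) (nat_lit 11) (nat_lit 5)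 (nat_lit 12) (nat_lit 4) (nat_lit 421) (nat_lit 320) (nat_lit 279)) (XT.lf (nat_lit 0) (nat_lit 9729314349) (nat_lit 152) (nat_lit 35373995328) (nat_lit 0) (nat_lit 3905276751) (nat_lit 10) (nat_lit 5) (nat_lit 12) (nat_lit 4) (nat_lit 10) (nat_lit 4) (nat_lit 422) (nat_lit 320) (nat_lit 278))) (XT.nd (nat_lit 78) (nat_lit 0) (nat_lit 0) (XT.lf (nat_lit 0) (nat_lit 16583563559) (nat_lit 152) (nat_lit 23821540752) (nat_lit 0) (nat_lit 10718509687) (nat_lit 10) (nat_lit 5) (nat_lit 12) (nat_lit 4) (nat_lit 10) (nat_lit 4) (nat_lit 423) (nat_lit 320) (nat_lit 277)) (XT.lf (nat_lit 0) (nat_lit 23716381176) (nat_lit 152) (nat_lit 11818957649) (nat_lit 0) (nat_lit 17812264187) (nat_lit 10) (nat_lit 5) (nat_lit 12) (nat_lit 4) (nat_lit 10) (nat_lit 4) (nat_lit 424) (nat_lit 320) (nat_lit 276))))))))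
noncomputable def xc52 : XT := (XT.nd (nat_lit 2106) (nat_lit 76) (nat_lit 0) (XT.nd (nat_lit 1014) (nat_lit 152) (nat_lit 0) (XT.nd (nat_lit 468) (nat_lit 76) (nat_lit 0) (XT.nd (nat_lit 234) (nat_lit 152) (nat_lit 0) (XT.nd (nat_lit 78) (nat_lit 0) (nat_lit 0) (XT.lf (nat_lit 0) (nat_lit 684231230) (nat_lit 76) (nat_lit 30471201636) (nat_lit 76) (nat_lit 24529881678) (nat_lit 9) (nat_lit 4) (nat_lit 10) (nat_lit 5) (nat_lit 10) (nat_lit 4) (nat_lit 425) (nat_lit 320) (nat_lit 275)) (XT.nd (nat_lit 78) (nat_lit 0) (nat_lit 0) (XT.lf (nat_lit 0) (nat_lit 14103442463) (nat_lit 76) (nat_lit 25003108721) (nat_lit 76) (nat_lit 19026357363) (nat_lit 9) (nat_lit 4) (nat_lit 10) (nat_lit 5) (nat_lit 10) (nat_lit 4) (nat_lit 426) (nat_lit 320) (nat_lit 274)) (XT.lf (nat_lit 0) (nat_lit 28079838435) (nat_lit 76) (nat_lit 19318200578) (nat_lit 76) (nat_lit 13307705031) (nat_lit 9) (nat_lit 4) (nat_lit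 10) (nat_lit 5) (nat_lit 10) (nat_lit 4) (nat_lit 427) (nat_lit 320) (nat_lit 273)))) (XT.nd (nat_lit 78) (nat_lit 152) (nat_lit 0) (XT.lf (nat_lit 0) (nat_lit 42646696279) (nat_lit 76) (nat_lit 13402941712) (nat_lit 76) (nat_lit 7360308842) (nat_lit 9) (nat_lit 4) (nat_lit 10) (nat_lit 5) (nat_lit 10) (nat_lit 4) (nat_lit 428) (nat_lit 320) (nat_lit 272)) (XT.nd (nat_lit 78) (nat_lit 152) (nat_lit 0) (XT.lf (nat_lit 0) (nat_lit 57838698990) (nat_lit 76) (nat_lit 7243248173) (nat_lit 76) (nat_lit 1170008328) (nat_lit 9) (nat_lit 4) (nat_lit 10) (nat_lit 5) (nat_lit 10) (nat_lit 4) (nat_lit 429) (nat_lit 320) (nat_lit 271)) (XT.lf (nat_lit 0) (nat_lit 4515605509) (nat_lit 76) (nat_lit 663904175) (nat_lit 152) (nat_lit 64051381793) (nat_lit 7) (nat_lit 5) (nat_lit 8) (nat_lit 5) (nat_lit 9) (nat_lit 4) (nat_lit 430) (nat_lit 320) (nat_lit 270))))) (XT.nd (nat_lit 234) (nat_lit 76) (nat_lit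 0) (XT.nd (nat_lit 78) (nat_lit 0) (nat_lit 0) (XT.lf (nat_lit 0) (nat_lit 11999374099) (nat_lit 152) (nat_lit 54187698287) (nat_lit 0) (nat_lit 6161135268) (nat_lit 7) (nat_lit 5) (nat_lit 9) (nat_lit 4) (nat_lit 7) (nat_lit 4) (nat_lit 431) (nat_lit 320) (nat_lit 269)) (XT.nd (nat_lit 78) (nat_lit 0) (nat_lit 0) (XT.lf (nat_lit 0) (nat_lit 19123381513) (nat_lit 152) (nat_lit 43239890235) (nat_lit 0) (nat_lit 13259962248) (nat_lit 7) (nat_lit 5) (nat_lit 9) (nat_lit 4) (nat_lit 7) (nat_lit 4) (nat_lit 432) (nat_lit 320) (nat_lit 268)) (XT.lf (nat_lit 0) (nat_lit 26558128444) (nat_lit 152) (nat_lit 31835430198) (nat_lit 0) (nat_lit 20670727813) (nat_lit 7) (nat_lit 5) (nat_lit 9) (nat_lit 4) (nat_lit 7) (nat_lit 4) (nat_lit 433) (nat_lit 320) (nat_lit 267)))) (XT.nd (nat_lit 156) (nat_lit 76) (nat_lit 0) (XT.nd (nat_lit 78) (nat_lit 0) (nat_lit 0) (XT.lf (nat_lit 0) (nat_lit 34321316671)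 (nat_lit 152) (nat_lit 19947164700) (nat_lit 0) (nat_lit 28411076644) (nat_lit 7) (nat_lit 5) (nat_lit 9) (nat_lit 4) (nat_lit 7) (nat_lit 4) (nat_lit 434) (nat_lit 320) (nat_lit 266)) (XT.lf (nat_lit 0) (nat_lit 42431429974) (nat_lit 152) (nat_lit 7546788347) (nat_lit 0) (nat_lit 36499438142) (nat_lit 7) (nat_lit 5) (nat_lit 9) (nat_lit 4) (nat_lit 7) (nat_lit 4) (nat_lit 435) (nat_lit 320) (nat_lit 265))) (XT.nd (nat_lit 78) (nat_lit 0) (nat_lit 0) (XT.lf (nat_lit 0) (nat_lit 5573614024) (nat_lit 76) (nat_lit 45421183859) (nat_lit 76) (nat_lit 39468476022) (nat_lit 6) (nat_lit 4) (nat_lit 7) (nat_lit 5) (nat_lit 7) (nat_lit 4) (nat_lit 436) (nat_lit 320) (nat_lit 264)) (XT.lf (nat_lit 0) (nat_lit 19534924953) (nat_lit 76) (nat_lit 40540612946) (nat_lit 76) (nat_lit 34568175580) (nat_lit 6) (nat_lit 4) (nat_lit 7) (nat_lit 5) (nat_lit 7) (nat_lit 4) (nat_lit 437) (nat_lit 320) (nat_lit 263))))))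 (XT.nd (nat_lit 546) (nat_lit 0) (nat_lit 0) (XT.nd (nat_lit 234) (nat_lit 152) (nat_lit 0) (XT.nd (nat_lit 78) (nat_lit 0) (nat_lit 0) (XT.lf (nat_lit 0) (nat_lit 34120854752) (nat_lit 76) (nat_lit 35452693687) (nat_lit 76) (nat_lit 29461466293) (nat_lit 6) (nat_lit 4) (nat_lit 7) (nat_lit 5) (nat_lit 7) (nat_lit 4) (nat_lit 438) (nat_lit 320) (nat_lit 262)) (XT.nd (nat_lit 78) (nat_lit 0) (nat_lit 0) (XT.lf (nat_lit 0) (nat_lit 49366131826) (nat_lit 76) (nat_lit 30145311989) (nat_lit 76) (nat_lit 24136189331) (nat_lit 6) (nat_lit 4) (nat_lit 7) (nat_lit 5) (nat_lit 7) (nat_lit 4) (nat_lit 439) (nat_lit 320) (nat_lit 261)) (XT.lf (nat_lit 0) (nat_lit 65307054452) (nat_lit 76) (nat_lit 24605831228) (nat_lit 76) (nat_lit 18579665461) (nat_lit 6) (nat_lit 4) (nat_lit 7) (nat_lit 5) (nat_lit 7) (nat_lit 4) (nat_lit 440) (nat_lit 320) (nat_lit 260)))) (XT.nd (nat_lit 156) (nat_lit 152) (nat_lit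 0) (XT.nd (nat_lit 78) (nat_lit 0) (nat_lit 0) (XT.lf (nat_lit 0) (nat_lit 81981577208) (nat_lit 76) (nat_lit 18821062165) (nat_lit 76) (nat_lit 12778664866) (nat_lit 6) (nat_lit 4) (nat_lit 7) (nat_lit 5) (nat_lit 7) (nat_lit 4) (nat_lit 441) (nat_lit 320) (nat_lit 259)) (XT.lf (nat_lit 0) (nat_lit 99429401340) (nat_lit 76) (nat_lit 12777231541) (nat_lit 76) (nat_lit 6719375640) (nat_lit 6) (nat_lit 4) (nat_lit 7) (nat_lit 5) (nat_lit 7) (nat_lit 4) (nat_lit 442) (nat_lit 320) (nat_lit 258))) (XT.nd (nat_lit 78) (nat_lit 152) (nat_lit 0) (XT.lf (nat_lit 0) (nat_lit 117692069285) (nat_lit 76) (nat_lit 6459949281) (nat_lit 76) (nat_lit 387370902) (nat_lit 6) (nat_lit 4) (nat_lit 7) (nat_lit 5) (nat_lit 7) (nat_lit 4) (nat_lit 443) (nat_lit 320) (nat_lit 257)) (XT.lf (nat_lit 0) (nat_lit 6139787253) (nat_lit 152) (nat_lit 123941792279) (nat_lit 0) (nat_lit 343025551) (nat_lit 4) (nat_lit 5)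 (nat_lit 6) (nat_lit 4) (nat_lit 4) (nat_lit 4) (nat_lit 444) (nat_lit 320) (nat_lit 256))))) (XT.nd (nat_lit 234) (nat_lit 0) (nat_lit 0) (XT.nd (nat_lit 78) (nat_lit 0) (nat_lit 0) (XT.lf (nat_lit 0) (nat_lit 13176206967) (nat_lit 152) (nat_lit 116051034398) (nat_lit 0) (nat_lit 7366727435) (nat_lit 4) (nat_lit 5) (nat_lit 6) (nat_lit 4) (nat_lit 4) (nat_lit 4) (nat_lit 445) (nat_lit 320) (nat_lit 255)) (XT.nd (nat_lit 78) (nat_lit 0) (nat_lit 0) (XT.lf (nat_lit 0) (nat_lit 20537930846) (nat_lit 152) (nat_lit 107818857493) (nat_lit 0) (nat_lit 14716339095) (nat_lit 4) (nat_lit 5) (nat_lit 6) (nat_lit 4) (nat_lit 4) (nat_lit 4) (nat_lit 446) (nat_lit 320) (nat_lit 254)) (XT.lf (nat_lit 0) (nat_lit 28242486803) (nat_lit 152) (nat_lit 99225661142) (nat_lit 0) (nat_lit 22409359605) (nat_lit 4) (nat_lit 5) (nat_lit 6) (nat_lit 4) (nat_lit 4) (nat_lit 4) (nat_lit 447) (nat_lit 320) (nat_lit 253))))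 (XT.nd (nat_lit 156) (nat_lit 0) (nat_lit 0) (XT.nd (nat_lit 78) (nat_lit 0) (nat_lit 0) (XT.lf (nat_lit 0) (nat_lit 36308219018) (nat_lit 152) (nat_lit 90250985354) (nat_lit 0) (nat_lit 30464105680) (nat_lit 4) (nat_lit 5) (nat_lit 6) (nat_lit 4) (nat_lit 4) (nat_lit 4) (nat_lit 448) (nat_lit 320) (nat_lit 252)) (XT.lf (nat_lit 0) (nat_lit 44754331617) (nat_lit 152) (nat_lit 80873461854) (nat_lit 0) (nat_lit 38899755288) (nat_lit 4) (nat_lit 5) (nat_lit 6) (nat_lit 4) (nat_lit 4) (nat_lit 4) (nat_lit 449) (nat_lit 320) (nat_lit 251))) (XT.nd (nat_lit 78) (nat_lit 0) (nat_lit 0) (XT.lf (nat_lit 0) (nat_lit 53600934390) (nat_lit 152) (nat_lit 71070763204) (nat_lit 0) (nat_lit 47736393309) (nat_lit 4) (nat_lit 5) (nat_lit 6) (nat_lit 4) (nat_lit 4) (nat_lit 4) (nat_lit 450) (nat_lit 320) (nat_lit 250)) (XT.lf (nat_lit 0) (nat_lit 62869090679) (nat_lit 152) (nat_lit 60819549647) (nat_lit 0)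 (nat_lit 56995059357) (nat_lit 4) (nat_lit 5) (nat_lit 6) (nat_lit 4) (nat_lit 4) (nat_lit 4) (nat_lit 451) (nat_lit 320) (nat_lit 249))))))) (XT.nd (nat_lit 1014) (nat_lit 0) (nat_lit 0) (XT.nd (nat_lit 468) (nat_lit 0) (nat_lit 0) (XT.nd (nat_lit 234) (nat_lit 76) (nat_lit 0) (XT.nd (nat_lit 78) (nat_lit 0) (nat_lit 0) (XT.lf (nat_lit 0) (nat_lit 72580867522) (nat_lit 152) (nat_lit 50095413530) (nat_lit 0) (nat_lit 66697797876) (nat_lit 4) (nat_lit 5) (nat_lit 6) (nat_lit 4) (nat_lit 4) (nat_lit 4) (nat_lit 452) (nat_lit 320) (nat_lit 248)) (XT.nd (nat_lit 78) (nat_lit 0) (nat_lit 0) (XT.lf (nat_lit 0) (nat_lit 82759388196) (nat_lit 152) (nat_lit 38872821196) (nat_lit 0) (nat_lit 76867710622) (nat_lit 4) (nat_lit 5) (nat_lit 6) (nat_lit 4) (nat_lit 4) (nat_lit 4) (nat_lit 453) (nat_lit 320) (nat_lit 247)) (XT.lf (nat_lit 0) (nat_lit 93428887276) (nat_lit 152) (nat_lit 27125052187) (nat_lit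 0) (nat_lit 87529011675) (nat_lit 4) (nat_lit 5) (nat_lit 6) (nat_lit 4) (nat_lit 4) (nat_lit 4) (nat_lit 454) (nat_lit 320) (nat_lit 246)))) (XT.nd (nat_lit 78) (nat_lit 76) (nat_lit 0) (XT.lf (nat_lit 0) (nat_lit 104614768330) (nat_lit 152) (nat_lit 14824135625) (nat_lit 0) (nat_lit 98707085084) (nat_lit 4) (nat_lit 5) (nat_lit 6) (nat_lit 4) (nat_lit 4) (nat_lit 4) (nat_lit 455) (nat_lit 320) (nat_lit 245)) (XT.nd (nat_lit 78) (nat_lit 76) (nat_lit 0) (XT.lf (nat_lit 0) (nat_lit 116343664408) (nat_lit 152) (nat_lit 1940783612) (nat_lit 0) (nat_lit 110428545311) (nat_lit 4) (nat_lit 5) (nat_lit 6) (nat_lit 4) (nat_lit 4) (nat_lit 4) (nat_lit 456) (nat_lit 320) (nat_lit 244)) (XT.lf (nat_lit 0) (nat_lit 11937761414) (nat_lit 76) (nat_lit 116892121950) (nat_lit 76) (nat_lit 110969921089) (nat_lit 3) (nat_lit 4) (nat_lit 4) (nat_lit 5) (nat_lit 4) (nat_lit 4) (nat_lit 457) (nat_lit 320) (nat_lit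 243))))) (XT.nd (nat_lit 234) (nat_lit 0) (nat_lit 0) (XT.nd (nat_lit 78) (nat_lit 0) (nat_lit 0) (XT.lf (nat_lit 0) (nat_lit 26547056743) (nat_lit 76) (nat_lit 115410982004) (nat_lit 76) (nat_lit 109482036606) (nat_lit 3) (nat_lit 4) (nat_lit 4) (nat_lit 5) (nat_lit 4) (nat_lit 4) (nat_lit 458) (nat_lit 320) (nat_lit 242)) (XT.nd (nat_lit 78) (nat_lit 0) (nat_lit 0) (XT.lf (nat_lit 0) (nat_lit 41857715337) (nat_lit 76) (nat_lit 113870369768) (nat_lit 76) (nat_lit 107935001002) (nat_lit 3) (nat_lit 4) (nat_lit 4) (nat_lit 5) (nat_lit 4) (nat_lit 4) (nat_lit 459) (nat_lit 320) (nat_lit 241)) (XT.lf (nat_lit 0) (nat_lit 57906191146) (nat_lit 76) (nat_lit 112266617119) (nat_lit 76) (nat_lit 106325130858) (nat_lit 3) (nat_lit 4) (nat_lit 4) (nat_lit 5) (nat_lit 4) (nat_lit 4) (nat_lit 460) (nat_lit 320) (nat_lit 240)))) (XT.nd (nat_lit 156) (nat_lit 0) (nat_lit 0) (XT.nd (nat_lit 78) (nat_lit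 0) (nat_lit 0) (XT.lf (nat_lit 0) (nat_lit 74730694827) (nat_lit 76) (nat_lit 110595905596) (nat_lit 76) (nat_lit 104648593152) (nat_lit 3) (nat_lit 4) (nat_lit 4) (nat_lit 5) (nat_lit 4) (nat_lit 4) (nat_lit 461) (nat_lit 320) (nat_lit 239)) (XT.lf (nat_lit 0) (nat_lit 92371284721) (nat_lit 76) (nat_lit 108854257317) (nat_lit 76) (nat_lit 102901396125) (nat_lit 3) (nat_lit 4) (nat_lit 4) (nat_lit 5) (nat_lit 4) (nat_lit 4) (nat_lit 462) (nat_lit 320) (nat_lit 238))) (XT.nd (nat_lit 78) (nat_lit 0) (nat_lit 0) (XT.lf (nat_lit 0) (nat_lit 110869962234) (nat_lit 76) (nat_lit 107037525499) (nat_lit 76) (nat_lit 101079379786) (nat_lit 3) (nat_lit 4) (nat_lit 4) (nat_lit 5) (nat_lit 4) (nat_lit 4) (nat_lit 463) (nat_lit 320) (nat_lit 237)) (XT.lf (nat_lit 0) (nat_lit 130270771835) (nat_lit 76) (nat_lit 105141384590) (nat_lit 76) (nat_lit 99178206000) (nat_lit 3) (nat_lit 4) (nat_lit 4) (nat_lit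 5) (nat_lit 4) (nat_lit 4) (nat_lit 464) (nat_lit 320) (nat_lit 236)))))) (XT.nd (nat_lit 546) (nat_lit 0) (nat_lit 0) (XT.nd (nat_lit 234) (nat_lit 0) (nat_lit 0) (XT.nd (nat_lit 78) (nat_lit 0) (nat_lit 0) (XT.lf (nat_lit 0) (nat_lit 150619905929) (nat_lit 76) (nat_lit 103161319970) (nat_lit 76) (nat_lit 97193348163) (nat_lit 3) (nat_lit 4) (nat_lit 4) (nat_lit 5) (nat_lit 4) (nat_lit 4) (nat_lit 465) (nat_lit 320) (nat_lit 235)) (XT.nd (nat_lit 78) (nat_lit 0) (nat_lit 0) (XT.lf (nat_lit 0) (nat_lit 171965814834) (nat_lit 76) (nat_lit 101092617198) (nat_lit 76) (nat_lit 95120080423) (nat_lit 3) (nat_lit 4) (nat_lit 4) (nat_lit 5) (nat_lit 4) (nat_lit 4) (nat_lit 466) (nat_lit 320) (nat_lit 234)) (XT.lf (nat_lit 0) (nat_lit 194359322143) (nat_lit 76) (nat_lit 98930350791) (nat_lit 76) (nat_lit 92953466428) (nat_lit 3) (nat_lit 4) (nat_lit 4) (nat_lit 5) (nat_lit 4) (nat_lit 4) (nat_lit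 467) (nat_lit 320) (nat_lit 233)))) (XT.nd (nat_lit 156) (nat_lit 0) (nat_lit 0) (XT.nd (nat_lit 78) (nat_lit 0) (nat_lit 0) (XT.lf (nat_lit 0) (nat_lit 217853745731) (nat_lit 76) (nat_lit 96669372497) (nat_lit 76) (nat_lit 90688347573) (nat_lit 3) (nat_lit 4) (nat_lit 4) (nat_lit 5) (nat_lit 4) (nat_lit 4) (nat_lit 468) (nat_lit 320) (nat_lit 232)) (XT.lf (nat_lit 0) (nat_lit 242505024702) (nat_lit 76) (nat_lit 94304299034) (nat_lit 76) (nat_lit 88319330719) (nat_lit 3) (nat_lit 4) (nat_lit 4) (nat_lit 5) (nat_lit 4) (nat_lit 4) (nat_lit 469) (nat_lit 320) (nat_lit 231))) (XT.nd (nat_lit 78) (nat_lit 0) (nat_lit 0) (XT.lf (nat_lit 0) (nat_lit 268371852576) (nat_lit 76) (nat_lit 91829499274) (nat_lit 76) (nat_lit 85840775349) (nat_lit 3) (nat_lit 4) (nat_lit 4) (nat_lit 5) (nat_lit 4) (nat_lit 4) (nat_lit 470) (nat_lit 320) (nat_lit 230)) (XT.lf (nat_lit 0) (nat_lit 295515817040) (nat_lit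 76) (nat_lit 89239080837) (nat_lit 76) (nat_lit 83246780140) (nat_lit 3) (nat_lit 4) (nat_lit 4) (nat_lit 5) (nat_lit 4) (nat_lit 4) (nat_lit 471) (nat_lit 320) (nat_lit 229))))) (XT.nd (nat_lit 234) (nat_lit 0) (nat_lit 0) (XT.nd (nat_lit 78) (nat_lit 0) (nat_lit 0) (XT.lf (nat_lit 0) (nat_lit 324001546580) (nat_lit 76) (nat_lit 86526876061) (nat_lit 76) (nat_lit 80531168914) (nat_lit 3) (nat_lit 4) (nat_lit 4) (nat_lit 5) (nat_lit 4) (nat_lit 4) (nat_lit 472) (nat_lit 320) (nat_lit 228)) (XT.nd (nat_lit 78) (nat_lit 0) (nat_lit 0) (XT.lf (nat_lit 0) (nat_lit 353896864362) (nat_lit 76) (nat_lit 83686427314) (nat_lit 76) (nat_lit 77687475929) (nat_lit 3) (nat_lit 4) (nat_lit 4) (nat_lit 5) (nat_lit 4) (nat_lit 4) (nat_lit 473) (nat_lit 320) (nat_lit 227)) (XT.lf (nat_lit 0) (nat_lit 385272949714) (nat_lit 76) (nat_lit 80710971623) (nat_lit 76) (nat_lit 74708930489) (nat_lit 3) (nat_lit 4)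 (nat_lit 4) (nat_lit 5) (nat_lit 4) (nat_lit 4) (nat_lit 474) (nat_lit 320) (nat_lit 226)))) (XT.nd (nat_lit 156) (nat_lit 0) (nat_lit 0) (XT.nd (nat_lit 78) (nat_lit 0) (nat_lit 0) (XT.lf (nat_lit 0) (nat_lit 418204507600) (nat_lit 76) (nat_lit 77593424571) (nat_lit 76) (nat_lit 71588440817) (nat_lit 3) (nat_lit 4) (nat_lit 4) (nat_lit 5) (nat_lit 4) (nat_lit 4) (nat_lit 475) (nat_lit 320) (nat_lit 225)) (XT.lf (nat_lit 0) (nat_lit 452769946492) (nat_lit 76) (nat_lit 74326363426) (nat_lit 76) (nat_lit 68318577178) (nat_lit 3) (nat_lit 4) (nat_lit 4) (nat_lit 5) (nat_lit 4) (nat_lit 4) (nat_lit 476) (nat_lit 320) (nat_lit 224))) (XT.nd (nat_lit 78) (nat_lit 0) (nat_lit 0) (XT.lf (nat_lit 0) (nat_lit 489051565055) (nat_lit 76) (nat_lit 70902009470) (nat_lit 76) (nat_lit 64891554180) (nat_lit 3) (nat_lit 4) (nat_lit 4) (nat_lit 5) (nat_lit 4) (nat_lit 4) (nat_lit 477) (nat_lit 320) (nat_lit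 223)) (XT.lf (nat_lit 0) (nat_lit 527135748094) (nat_lit 76) (nat_lit 67312209482) (nat_lit 76) (nat_lit 61299212246) (nat_lit 3) (nat_lit 4) (nat_lit 4) (nat_lit 5) (nat_lit 4) (nat_lit 4) (nat_lit 478) (nat_lit 320) (nat_lit 222))))))))
noncomputable def xc53 : XT := (XT.nd (nat_lit 46878) (nat_lit 0) (nat_lit 532) (XT.nd (nat_lit 45786) (nat_lit 0) (nat_lit 1672) (XT.nd (nat_lit 45240) (nat_lit 0) (nat_lit 3040) (XT.nd (nat_lit 234) (nat_lit 0) (nat_lit 0) (XT.nd (nat_lit 78) (nat_lit 0) (nat_lit 0) (XT.lf (nat_lit 0) (nat_lit 567113172235) (nat_lit 76) (nat_lit 63548416316) (nat_lit 76) (nat_lit 57532998181) (nat_lit 3) (nat_lit 4) (nat_lit 4) (nat_lit 5) (nat_lit 4) (nat_lit 4) (nat_lit 479) (nat_lit 320) (nat_lit 221)) (XT.nd (nat_lit 78) (nat_lit 0) (nat_lit 0) (XT.lf (nat_lit 0) (nat_lit 609079021821) (nat_lit 76) (nat_lit 59601668562) (nat_lit 76) (nat_lit 53583944808) (nat_lit 3)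 (nat_lit 4) (nat_lit 4) (nat_lit 5) (nat_lit 4) (nat_lit 4) (nat_lit 480) (nat_lit 320) (nat_lit 220)) (XT.lf (nat_lit 0) (nat_lit 653133215543) (nat_lit 76) (nat_lit 55462569201) (nat_lit 76) (nat_lit 49442649619) (nat_lit 3) (nat_lit 4) (nat_lit 4) (nat_lit 5) (nat_lit 4) (nat_lit 4) (nat_lit 481) (nat_lit 320) (nat_lit 219)))) (XT.nd (nat_lit 78) (nat_lit 0) (nat_lit 0) (XT.lf (nat_lit 0) (nat_lit 699380644338) (nat_lit 76) (nat_lit 51121263234) (nat_lit 76) (nat_lit 45099252388) (nat_lit 3) (nat_lit 4) (nat_lit 4) (nat_lit 5) (nat_lit 4) (nat_lit 4) (nat_lit 482) (nat_lit 320) (nat_lit 218)) (XT.nd (nat_lit 78) (nat_lit 0) (nat_lit 0) (XT.lf (nat_lit 0) (nat_lit 747931421131) (nat_lit 76) (nat_lit 46567414219) (nat_lit 76) (nat_lit 40543411692) (nat_lit 3) (nat_lit 4) (nat_lit 4) (nat_lit 5) (nat_lit 4) (nat_lit 4) (nat_lit 483) (nat_lit 320) (nat_lit 217)) (XT.lf (nat_lit 0) (nat_lit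 798901143009) (nat_lit 76) (nat_lit 41790179658) (nat_lit 76) (nat_lit 35764280292) (nat_lit 3) (nat_lit 4) (nat_lit 4) (nat_lit 5) (nat_lit 4) (nat_lit 4) (nat_lit 484) (nat_lit 320) (nat_lit 216))))) (XT.nd (nat_lit 234) (nat_lit 456) (nat_lit 0) (XT.nd (nat_lit 78) (nat_lit 380) (nat_lit 0) (XT.lf (nat_lit 0) (nat_lit 4894516726) (nat_lit 152) (nat_lit 301006976) (nat_lit 152) (nat_lit 301006976) (nat_lit 54) (nat_lit 4) (nat_lit 56) (nat_lit 5) (nat_lit 56) (nat_lit 4) (nat_lit 378) (nat_lit 321) (nat_lit 321)) (XT.nd (nat_lit 78) (nat_lit 152) (nat_lit 0) (XT.lf (nat_lit 0) (nat_lit 4371732604) (nat_lit 228) (nat_lit 3118014637) (nat_lit 0) (nat_lit 3771433565) (nat_lit 51) (nat_lit 5) (nat_lit 54) (nat_lit 4) (nat_lit 51) (nat_lit 4) (nat_lit 379) (nat_lit 321) (nat_lit 320)) (XT.lf (nat_lit 0) (nat_lit 6334690749) (nat_lit 152) (nat_lit 3190994410) (nat_lit 152) (nat_lit 2018982001)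 (nat_lit 49) (nat_lit 4) (nat_lit 51) (nat_lit 5) (nat_lit 51) (nat_lit 4) (nat_lit 380) (nat_lit 321) (nat_lit 319)))) (XT.nd (nat_lit 156) (nat_lit 152) (nat_lit 0) (XT.nd (nat_lit 78) (nat_lit 152) (nat_lit 0) (XT.lf (nat_lit 0) (nat_lit 2961446829) (nat_lit 152) (nat_lit 7553544322) (nat_lit 0) (nat_lit 1326683654) (nat_lit 47) (nat_lit 5) (nat_lit 49) (nat_lit 4) (nat_lit 47) (nat_lit 4) (nat_lit 381) (nat_lit 321) (nat_lit 318)) (XT.lf (nat_lit 0) (nat_lit 1960273451) (nat_lit 152) (nat_lit 6160199991) (nat_lit 152) (nat_lit 4031569312) (nat_lit 45) (nat_lit 4) (nat_lit 47) (nat_lit 5) (nat_lit 47) (nat_lit 4) (nat_lit 382) (nat_lit 321) (nat_lit 317))) (XT.nd (nat_lit 78) (nat_lit 76) (nat_lit 0) (XT.lf (nat_lit 0) (nat_lit 981218098) (nat_lit 228) (nat_lit 587483582) (nat_lit 76) (nat_lit 10910652788) (nat_lit 44) (nat_lit 5) (nat_lit 47) (nat_lit 5) (nat_lit 45) (nat_lit 4) (nat_lit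 383) (nat_lit 321) (nat_lit 316)) (XT.lf (nat_lit 0) (nat_lit 6142681830) (nat_lit 152) (nat_lit 3434559623) (nat_lit 0) (nat_lit 3240840812) (nat_lit 43) (nat_lit 5) (nat_lit 45) (nat_lit 4) (nat_lit 43) (nat_lit 4) (nat_lit 384) (nat_lit 321) (nat_lit 315)))))) (XT.nd (nat_lit 546) (nat_lit 532) (nat_lit 0) (XT.nd (nat_lit 234) (nat_lit 532) (nat_lit 0) (XT.nd (nat_lit 78) (nat_lit 152) (nat_lit 0) (XT.lf (nat_lit 0) (nat_lit 6589207938) (nat_lit 152) (nat_lit 4947007741) (nat_lit 152) (nat_lit 1638860703) (nat_lit 41) (nat_lit 4) (nat_lit 43) (nat_lit 5) (nat_lit 43) (nat_lit 4) (nat_lit 385) (nat_lit 321) (nat_lit 314)) (XT.nd (nat_lit 78) (nat_lit 0) (nat_lit 0) (XT.lf (nat_lit 0) (nat_lit 3441909870) (nat_lit 76) (nat_lit 39560871) (nat_lit 152) (nat_lit 10068188937) (nat_lit 39) (nat_lit 5) (nat_lit 40) (nat_lit 5) (nat_lit 41) (nat_lit 4) (nat_lit 386) (nat_lit 321) (nat_lit 313))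 (XT.lf (nat_lit 0) (nat_lit 8833061298) (nat_lit 152) (nat_lit 144146165) (nat_lit 0) (nat_lit 4962931120) (nat_lit 39) (nat_lit 5) (nat_lit 41) (nat_lit 4) (nat_lit 39) (nat_lit 4) (nat_lit 387) (nat_lit 321) (nat_lit 312)))) (XT.nd (nat_lit 156) (nat_lit 228) (nat_lit 0) (XT.nd (nat_lit 78) (nat_lit 76) (nat_lit 0) (XT.lf (nat_lit 0) (nat_lit 106273540) (nat_lit 228) (nat_lit 3986538387) (nat_lit 76) (nat_lit 10256900588) (nat_lit 36) (nat_lit 5) (nat_lit 39) (nat_lit 5) (nat_lit 37) (nat_lit 4) (nat_lit 388) (nat_lit 321) (nat_lit 311)) (XT.lf (nat_lit 0) (nat_lit 5374603624) (nat_lit 152) (nat_lit 8335478306) (nat_lit 0) (nat_lit 1067222155) (nat_lit 35) (nat_lit 5) (nat_lit 37) (nat_lit 4) (nat_lit 35) (nat_lit 4) (nat_lit 389) (nat_lit 321) (nat_lit 310))) (XT.nd (nat_lit 78) (nat_lit 76) (nat_lit 0) (XT.lf (nat_lit 0) (nat_lit 2018171828) (nat_lit 152) (nat_lit 8901789783) (nat_lit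 152) (nat_lit 4305654213) (nat_lit 33) (nat_lit 4) (nat_lit 35) (nat_lit 5) (nat_lit 35) (nat_lit 4) (nat_lit 390) (nat_lit 321) (nat_lit 309)) (XT.lf (nat_lit 0) (nat_lit 1003065856) (nat_lit 228) (nat_lit 2814854470) (nat_lit 76) (nat_lit 11878109888) (nat_lit 32) (nat_lit 5) (nat_lit 35) (nat_lit 5) (nat_lit 33) (nat_lit 4) (nat_lit 391) (nat_lit 321) (nat_lit 308))))) (XT.nd (nat_lit 234) (nat_lit 304) (nat_lit 0) (XT.nd (nat_lit 78) (nat_lit 152) (nat_lit 0) (XT.lf (nat_lit 0) (nat_lit 6436688628) (nat_lit 152) (nat_lit 8201485981) (nat_lit 0) (nat_lit 1548071525) (nat_lit 31) (nat_lit 5) (nat_lit 33) (nat_lit 4) (nat_lit 31) (nat_lit 4) (nat_lit 392) (nat_lit 321) (nat_lit 307)) (XT.nd (nat_lit 78) (nat_lit 76) (nat_lit 0) (XT.lf (nat_lit 0) (nat_lit 2466009371) (nat_lit 76) (nat_lit 9680466275) (nat_lit 76) (nat_lit 4554290457) (nat_lit 30) (nat_lit 4) (nat_lit 31) (nat_lit 5) (nat_lit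 31) (nat_lit 4) (nat_lit 393) (nat_lit 321) (nat_lit 306)) (XT.lf (nat_lit 0) (nat_lit 868388124) (nat_lit 152) (nat_lit 3572226555) (nat_lit 76) (nat_lit 12799886156) (nat_lit 29) (nat_lit 5) (nat_lit 31) (nat_lit 5) (nat_lit 30) (nat_lit 4) (nat_lit 394) (nat_lit 321) (nat_lit 305)))) (XT.nd (nat_lit 156) (nat_lit 152) (nat_lit 0) (XT.nd (nat_lit 78) (nat_lit 76) (nat_lit 0) (XT.lf (nat_lit 0) (nat_lit 6406700898) (nat_lit 152) (nat_lit 10292981923) (nat_lit 0) (nat_lit 1103943785) (nat_lit 28) (nat_lit 5) (nat_lit 30) (nat_lit 4) (nat_lit 28) (nat_lit 4) (nat_lit 395) (nat_lit 321) (nat_lit 304)) (XT.lf (nat_lit 0) (nat_lit 562920999) (nat_lit 76) (nat_lit 11664951053) (nat_lit 76) (nat_lit 6166753798) (nat_lit 27) (nat_lit 4) (nat_lit 28) (nat_lit 5) (nat_lit 28) (nat_lit 4) (nat_lit 396) (nat_lit 321) (nat_lit 303))) (XT.nd (nat_lit 78) (nat_lit 152) (nat_lit 0) (XT.lf (nat_lit 0) (nat_lit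 12062076898) (nat_lit 76) (nat_lit 6317728667) (nat_lit 76) (nat_lit 633397944) (nat_lit 27) (nat_lit 4) (nat_lit 28) (nat_lit 5) (nat_lit 28) (nat_lit 4) (nat_lit 397) (nat_lit 321) (nat_lit 302)) (XT.lf (nat_lit 0) (nat_lit 4280688072) (nat_lit 76) (nat_lit 666769861) (nat_lit 152) (nat_lit 14714397579) (nat_lit 25) (nat_lit 5) (nat_lit 26) (nat_lit 5) (nat_lit 27) (nat_lit 4) (nat_lit 398) (nat_lit 321) (nat_lit 301))))))) (XT.nd (nat_lit 1014) (nat_lit 456) (nat_lit 0) (XT.nd (nat_lit 468) (nat_lit 380) (nat_lit 0) (XT.nd (nat_lit 234) (nat_lit 152) (nat_lit 0) (XT.nd (nat_lit 78) (nat_lit 152) (nat_lit 0) (XT.lf (nat_lit 0) (nat_lit 10858186257) (nat_lit 152) (nat_lit 4365720349) (nat_lit 0) (nat_lit 5114920318) (nat_lit 25) (nat_lit 5) (nat_lit 27) (nat_lit 4) (nat_lit 25) (nat_lit 4) (nat_lit 399) (nat_lit 321) (nat_lit 300)) (XT.nd (nat_lit 78) (nat_lit 76) (nat_lit 0) (XT.lf (nat_lit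 0) (nat_lit 7181767734) (nat_lit 76) (nat_lit 9882157542) (nat_lit 76) (nat_lit 3985759137) (nat_lit 24) (nat_lit 4) (nat_lit 25) (nat_lit 5) (nat_lit 25) (nat_lit 4) (nat_lit 400) (nat_lit 321) (nat_lit 299)) (XT.lf (nat_lit 0) (nat_lit 1678569890) (nat_lit 152) (nat_lit 2601170573) (nat_lit 76) (nat_lit 17517372023) (nat_lit 23) (nat_lit 5) (nat_lit 25) (nat_lit 5) (nat_lit 24) (nat_lit 4) (nat_lit 401) (nat_lit 321) (nat_lit 298)))) (XT.nd (nat_lit 78) (nat_lit 76) (nat_lit 0) (XT.lf (nat_lit 0) (nat_lit 7545591850) (nat_lit 152) (nat_lit 13371594503) (nat_lit 0) (nat_lit 1658797081) (nat_lit 22) (nat_lit 5) (nat_lit 24) (nat_lit 4) (nat_lit 22) (nat_lit 4) (nat_lit 402) (nat_lit 321) (nat_lit 297)) (XT.nd (nat_lit 78) (nat_lit 76) (nat_lit 0) (XT.lf (nat_lit 0) (nat_lit 13703857227) (nat_lit 152) (nat_lit 1998975320) (nat_lit 0) (nat_lit 7691079999) (nat_lit 22) (nat_lit 5) (nat_lit 24)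 (nat_lit 4) (nat_lit 22) (nat_lit 4) (nat_lit 403) (nat_lit 321) (nat_lit 296)) (XT.lf (nat_lit 0) (nat_lit 10047641793) (nat_lit 76) (nat_lit 10167797727) (nat_lit 76) (nat_lit 4035037206) (nat_lit 21) (nat_lit 4) (nat_lit 22) (nat_lit 5) (nat_lit 22) (nat_lit 4) (nat_lit 404) (nat_lit 321) (nat_lit 295))))) (XT.nd (nat_lit 234) (nat_lit 228) (nat_lit 0) (XT.nd (nat_lit 78) (nat_lit 76) (nat_lit 0) (XT.lf (nat_lit 0) (nat_lit 1764956671) (nat_lit 152) (nat_lit 2628869147) (nat_lit 76) (nat_lit 20758409716) (nat_lit 20) (nat_lit 5) (nat_lit 22) (nat_lit 5) (nat_lit 21) (nat_lit 4) (nat_lit 405) (nat_lit 321) (nat_lit 294)) (XT.nd (nat_lit 78) (nat_lit 0) (nat_lit 0) (XT.lf (nat_lit 0) (nat_lit 7790602257) (nat_lit 152) (nat_lit 16564213940) (nat_lit 0) (nat_lit 1737403487) (nat_lit 19) (nat_lit 5) (nat_lit 21) (nat_lit 4) (nat_lit 19) (nat_lit 4) (nat_lit 406) (nat_lit 321) (nat_lit 293))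 (XT.lf (nat_lit 0) (nat_lit 14129165932) (nat_lit 152) (nat_lit 4972205945) (nat_lit 0) (nat_lit 7977256610) (nat_lit 19) (nat_lit 5) (nat_lit 21) (nat_lit 4) (nat_lit 19) (nat_lit 4) (nat_lit 407) (nat_lit 321) (nat_lit 292)))) (XT.nd (nat_lit 156) (nat_lit 152) (nat_lit 0) (XT.nd (nat_lit 78) (nat_lit 0) (nat_lit 0) (XT.lf (nat_lit 0) (nat_lit 7234315283) (nat_lit 76) (nat_lit 13562676016) (nat_lit 76) (nat_lit 7316756644) (nat_lit 18) (nat_lit 4) (nat_lit 19) (nat_lit 5) (nat_lit 19) (nat_lit 4) (nat_lit 408) (nat_lit 321) (nat_lit 291)) (XT.lf (nat_lit 0) (nat_lit 20030327361) (nat_lit 76) (nat_lit 7753243588) (nat_lit 76) (nat_lit 1417790835) (nat_lit 18) (nat_lit 4) (nat_lit 19) (nat_lit 5) (nat_lit 19) (nat_lit 4) (nat_lit 409) (nat_lit 321) (nat_lit 290))) (XT.nd (nat_lit 78) (nat_lit 0) (nat_lit 0) (XT.lf (nat_lit 0) (nat_lit 2955389567) (nat_lit 76) (nat_lit 1618323704) (nat_lit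 152) (nat_lit 25768397776) (nat_lit 16) (nat_lit 5) (nat_lit 17) (nat_lit 5) (nat_lit 18) (nat_lit 4) (nat_lit 410) (nat_lit 321) (nat_lit 289)) (XT.lf (nat_lit 0) (nat_lit 10954893756) (nat_lit 152) (nat_lit 15814382635) (nat_lit 0) (nat_lit 4762577513) (nat_lit 16) (nat_lit 5) (nat_lit 18) (nat_lit 4) (nat_lit 16) (nat_lit 4) (nat_lit 411) (nat_lit 321) (nat_lit 288)))))) (XT.nd (nat_lit 546) (nat_lit 228) (nat_lit 0) (XT.nd (nat_lit 234) (nat_lit 152) (nat_lit 0) (XT.nd (nat_lit 78) (nat_lit 76) (nat_lit 0) (XT.lf (nat_lit 0) (nat_lit 17590787244) (nat_lit 152) (nat_lit 3868707694) (nat_lit 0) (nat_lit 11324811667) (nat_lit 16) (nat_lit 5) (nat_lit 18) (nat_lit 4) (nat_lit 16) (nat_lit 4) (nat_lit 412) (nat_lit 321) (nat_lit 287)) (XT.nd (nat_lit 78) (nat_lit 0) (nat_lit 0) (XT.lf (nat_lit 0) (nat_lit 8785193034) (nat_lit 76) (nat_lit 15823895361) (nat_lit 76) (nat_lit 9487768037) (nat_lit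 15) (nat_lit 4) (nat_lit 16) (nat_lit 5) (nat_lit 16) (nat_lit 4) (nat_lit 413) (nat_lit 321) (nat_lit 286)) (XT.lf (nat_lit 0) (nat_lit 22038608384) (nat_lit 76) (nat_lit 9920172480) (nat_lit 76) (nat_lit 3517233969) (nat_lit 15) (nat_lit 4) (nat_lit 16) (nat_lit 5) (nat_lit 16) (nat_lit 4) (nat_lit 414) (nat_lit 321) (nat_lit 285)))) (XT.nd (nat_lit 156) (nat_lit 0) (nat_lit 0) (XT.nd (nat_lit 78) (nat_lit 76) (nat_lit 0) (XT.lf (nat_lit 0) (nat_lit 2581426349) (nat_lit 152) (nat_lit 1174644197) (nat_lit 76) (nat_lit 33170033105) (nat_lit 14) (nat_lit 5) (nat_lit 16) (nat_lit 5) (nat_lit 15) (nat_lit 4) (nat_lit 415) (nat_lit 321) (nat_lit 284)) (XT.lf (nat_lit 0) (nat_lit 9018923490) (nat_lit 152) (nat_lit 26616716293) (nat_lit 0) (nat_lit 2802573081) (nat_lit 13) (nat_lit 5) (nat_lit 15) (nat_lit 4) (nat_lit 13) (nat_lit 4) (nat_lit 416) (nat_lit 321) (nat_lit 283))) (XT.nd (nat_lit 78)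 (nat_lit 0) (nat_lit 0) (XT.lf (nat_lit 0) (nat_lit 15781874460) (nat_lit 152) (nat_lit 14733319836) (nat_lit 0) (nat_lit 9510558321) (nat_lit 13) (nat_lit 5) (nat_lit 15) (nat_lit 4) (nat_lit 13) (nat_lit 4) (nat_lit 417) (nat_lit 321) (nat_lit 282)) (XT.lf (nat_lit 0) (nat_lit 22808482272) (nat_lit 152) (nat_lit 2403097638) (nat_lit 0) (nat_lit 16484817820) (nat_lit 13) (nat_lit 5) (nat_lit 15) (nat_lit 4) (nat_lit 13) (nat_lit 4) (nat_lit 418) (nat_lit 321) (nat_lit 281))))) (XT.nd (nat_lit 234) (nat_lit 152) (nat_lit 0) (XT.nd (nat_lit 78) (nat_lit 0) (nat_lit 0) (XT.lf (nat_lit 0) (nat_lit 10747288317) (nat_lit 76) (nat_lit 19535983918) (nat_lit 76) (nat_lit 13162463929) (nat_lit 12) (nat_lit 4) (nat_lit 13) (nat_lit 5) (nat_lit 13) (nat_lit 4) (nat_lit 419) (nat_lit 321) (nat_lit 280)) (XT.nd (nat_lit 78) (nat_lit 0) (nat_lit 0) (XT.lf (nat_lit 0) (nat_lit 24500559347) (nat_lit 76)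 (nat_lit 13602219133) (nat_lit 76) (nat_lit 7181217681) (nat_lit 12) (nat_lit 4) (nat_lit 13) (nat_lit 5) (nat_lit 13) (nat_lit 4) (nat_lit 420) (nat_lit 321) (nat_lit 279)) (XT.lf (nat_lit 0) (nat_lit 38810004074) (nat_lit 76) (nat_lit 7436855165) (nat_lit 76) (nat_lit 970633272) (nat_lit 12) (nat_lit 4) (nat_lit 13) (nat_lit 5) (nat_lit 13) (nat_lit 4) (nat_lit 421) (nat_lit 321) (nat_lit 278)))) (XT.nd (nat_lit 156) (nat_lit 0) (nat_lit 0) (XT.nd (nat_lit 78) (nat_lit 0) (nat_lit 0) (XT.lf (nat_lit 0) (nat_lit 4517841155) (nat_lit 76) (nat_lit 861246715) (nat_lit 152) (nat_lit 43863933009) (nat_lit 10) (nat_lit 5) (nat_lit 11) (nat_lit 5) (nat_lit 12) (nat_lit 4) (nat_lit 422) (nat_lit 321) (nat_lit 277)) (XT.lf (nat_lit 0) (nat_lit 12188600824) (nat_lit 152) (nat_lit 33221470968) (nat_lit 0) (nat_lit 5950214868) (nat_lit 10) (nat_lit 5) (nat_lit 12) (nat_lit 4) (nat_lit 10) (nat_lit 4)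 (nat_lit 423) (nat_lit 321) (nat_lit 276))) (XT.nd (nat_lit 78) (nat_lit 0) (nat_lit 0) (XT.lf (nat_lit 0) (nat_lit 19291618649) (nat_lit 152) (nat_lit 21278118621) (nat_lit 0) (nat_lit 13016029723) (nat_lit 10) (nat_lit 5) (nat_lit 12) (nat_lit 4) (nat_lit 10) (nat_lit 4) (nat_lit 424) (nat_lit 321) (nat_lit 275)) (XT.lf (nat_lit 0) (nat_lit 26691606818) (nat_lit 152) (nat_lit 8853239657) (nat_lit 0) (nat_lit 20380586493) (nat_lit 10) (nat_lit 5) (nat_lit 12) (nat_lit 4) (nat_lit 10) (nat_lit 4) (nat_lit 425) (nat_lit 321) (nat_lit 274))))))))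
noncomputable def xc54 : XT := (XT.nd (nat_lit 2106) (nat_lit 76) (nat_lit 0) (XT.nd (nat_lit 1014) (nat_lit 152) (nat_lit 0) (XT.nd (nat_lit 468) (nat_lit 76) (nat_lit 0) (XT.nd (nat_lit 234) (nat_lit 152) (nat_lit 0) (XT.nd (nat_lit 78) (nat_lit 0) (nat_lit 0) (XT.lf (nat_lit 0) (nat_lit 4217743088) (nat_lit 76) (nat_lit 30254292052) (nat_lit 76) (nat_lit 23909527538) (nat_lit 9) (nat_lit 4) (nat_lit 10) (nat_lit 5) (nat_lit 10) (nat_lit 4) (nat_lit 426) (nat_lit 321) (nat_lit 273)) (XT.nd (nat_lit 78) (nat_lit 0) (nat_lit 0) (XT.lf (nat_lit 0) (nat_lit 18141281535) (nat_lit 76) (nat_lit 24595673999) (nat_lit 76) (nat_lit 18218772161) (nat_lit 9) (nat_lit 4) (nat_lit 10) (nat_lit 5) (nat_lit 10) (nat_lit 4) (nat_lit 427) (nat_lit 321) (nat_lit 272)) (XT.lf (nat_lit 0) (nat_lit 32657798879) (nat_lit 76) (nat_lit 18705453313) (nat_lit 76) (nat_lit 12297944501) (nat_lit 9) (nat_lit 4) (nat_lit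 10) (nat_lit 5) (nat_lit 10) (nat_lit 4) (nat_lit 428) (nat_lit 321) (nat_lit 271)))) (XT.nd (nat_lit 78) (nat_lit 152) (nat_lit 0) (XT.lf (nat_lit 0) (nat_lit 47801858257) (nat_lit 76) (nat_lit 12569605661) (nat_lit 76) (nat_lit 6132947349) (nat_lit 9) (nat_lit 4) (nat_lit 10) (nat_lit 5) (nat_lit 10) (nat_lit 4) (nat_lit 429) (nat_lit 321) (nat_lit 270)) (XT.nd (nat_lit 78) (nat_lit 76) (nat_lit 0) (XT.lf (nat_lit 0) (nat_lit 281587311) (nat_lit 152) (nat_lit 5887165752) (nat_lit 76) (nat_lit 63323160825) (nat_lit 8) (nat_lit 5) (nat_lit 10) (nat_lit 5) (nat_lit 9) (nat_lit 4) (nat_lit 430) (nat_lit 321) (nat_lit 269)) (XT.lf (nat_lit 0) (nat_lit 6895709865) (nat_lit 152) (nat_lit 65009868989) (nat_lit 0) (nat_lit 713939203) (nat_lit 7) (nat_lit 5) (nat_lit 9) (nat_lit 4) (nat_lit 7) (nat_lit 4) (nat_lit 431) (nat_lit 321) (nat_lit 268))))) (XT.nd (nat_lit 234) (nat_lit 76) (nat_lit 0)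 (XT.nd (nat_lit 78) (nat_lit 0) (nat_lit 0) (XT.lf (nat_lit 0) (nat_lit 13997541253) (nat_lit 152) (nat_lit 54106323580) (nat_lit 0) (nat_lit 7791789225) (nat_lit 7) (nat_lit 5) (nat_lit 9) (nat_lit 4) (nat_lit 7) (nat_lit 4) (nat_lit 432) (nat_lit 321) (nat_lit 267)) (XT.nd (nat_lit 78) (nat_lit 0) (nat_lit 0) (XT.lf (nat_lit 0) (nat_lit 21411168159) (nat_lit 152) (nat_lit 42744018441) (nat_lit 0) (nat_lit 15182576735) (nat_lit 7) (nat_lit 5) (nat_lit 9) (nat_lit 4) (nat_lit 7) (nat_lit 4) (nat_lit 433) (nat_lit 321) (nat_lit 266)) (XT.lf (nat_lit 0) (nat_lit 29154242076) (nat_lit 152) (nat_lit 30895900465) (nat_lit 0) (nat_lit 22903898847) (nat_lit 7) (nat_lit 5) (nat_lit 9) (nat_lit 4) (nat_lit 7) (nat_lit 4) (nat_lit 434) (nat_lit 321) (nat_lit 265)))) (XT.nd (nat_lit 156) (nat_lit 76) (nat_lit 0) (XT.nd (nat_lit 78) (nat_lit 0) (nat_lit 0) (XT.lf (nat_lit 0) (nat_lit 37245198895) (nat_lit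 152) (nat_lit 18533759846) (nat_lit 0) (nat_lit 30974139660) (nat_lit 7) (nat_lit 5) (nat_lit 9) (nat_lit 4) (nat_lit 7) (nat_lit 4) (nat_lit 435) (nat_lit 321) (nat_lit 264)) (XT.lf (nat_lit 0) (nat_lit 45703302797) (nat_lit 152) (nat_lit 5628162917) (nat_lit 0) (nat_lit 39412514034) (nat_lit 7) (nat_lit 5) (nat_lit 9) (nat_lit 4) (nat_lit 7) (nat_lit 4) (nat_lit 436) (nat_lit 321) (nat_lit 263))) (XT.nd (nat_lit 78) (nat_lit 0) (nat_lit 0) (XT.lf (nat_lit 0) (nat_lit 8111227881) (nat_lit 76) (nat_lit 46564103244) (nat_lit 76) (nat_lit 40254524453) (nat_lit 6) (nat_lit 4) (nat_lit 7) (nat_lit 5) (nat_lit 7) (nat_lit 4) (nat_lit 437) (nat_lit 321) (nat_lit 262)) (XT.lf (nat_lit 0) (nat_lit 22663036111) (nat_lit 76) (nat_lit 41493224728) (nat_lit 76) (nat_lit 35165750673) (nat_lit 6) (nat_lit 4) (nat_lit 7) (nat_lit 5) (nat_lit 7) (nat_lit 4) (nat_lit 438) (nat_lit 321) (nat_lit 261))))))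 (XT.nd (nat_lit 546) (nat_lit 0) (nat_lit 0) (XT.nd (nat_lit 234) (nat_lit 152) (nat_lit 0) (XT.nd (nat_lit 78) (nat_lit 0) (nat_lit 0) (XT.lf (nat_lit 0) (nat_lit 37875816452) (nat_lit 76) (nat_lit 36202072310) (nat_lit 76) (nat_lit 29857555146) (nat_lit 6) (nat_lit 4) (nat_lit 7) (nat_lit 5) (nat_lit 7) (nat_lit 4) (nat_lit 439) (nat_lit 321) (nat_lit 260)) (XT.nd (nat_lit 78) (nat_lit 0) (nat_lit 0) (XT.lf (nat_lit 0) (nat_lit 53785789809) (nat_lit 76) (nat_lit 30678048006) (nat_lit 76) (nat_lit 24317299309) (nat_lit 6) (nat_lit 4) (nat_lit 7) (nat_lit 5) (nat_lit 7) (nat_lit 4) (nat_lit 440) (nat_lit 321) (nat_lit 259)) (XT.lf (nat_lit 0) (nat_lit 70430837072) (nat_lit 76) (nat_lit 24907999378) (nat_lit 76) (nat_lit 18531792079) (nat_lit 6) (nat_lit 4) (nat_lit 7) (nat_lit 5) (nat_lit 7) (nat_lit 4) (nat_lit 441) (nat_lit 321) (nat_lit 258)))) (XT.nd (nat_lit 156) (nat_lit 152) (nat_lit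 0) (XT.nd (nat_lit 78) (nat_lit 0) (nat_lit 0) (XT.lf (nat_lit 0) (nat_lit 87850589304) (nat_lit 76) (nat_lit 18878188215) (nat_lit 76) (nat_lit 12487258438) (nat_lit 6) (nat_lit 4) (nat_lit 7) (nat_lit 5) (nat_lit 7) (nat_lit 4) (nat_lit 442) (nat_lit 321) (nat_lit 257)) (XT.lf (nat_lit 0) (nat_lit 106086522107) (nat_lit 76) (nat_lit 12574257823) (nat_lit 76) (nat_lit 6169306639) (nat_lit 6) (nat_lit 4) (nat_lit 7) (nat_lit 5) (nat_lit 7) (nat_lit 4) (nat_lit 443) (nat_lit 321) (nat_lit 256))) (XT.nd (nat_lit 78) (nat_lit 76) (nat_lit 0) (XT.lf (nat_lit 0) (nat_lit 423115935) (nat_lit 152) (nat_lit 5550917238) (nat_lit 76) (nat_lit 124751772760) (nat_lit 5) (nat_lit 5) (nat_lit 7) (nat_lit 5) (nat_lit 6) (nat_lit 4) (nat_lit 444) (nat_lit 321) (nat_lit 255)) (XT.lf (nat_lit 0) (nat_lit 7262330571) (nat_lit 152) (nat_lit 128505152753) (nat_lit 0) (nat_lit 1137547013) (nat_lit 4) (nat_lit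 5) (nat_lit 6) (nat_lit 4) (nat_lit 4) (nat_lit 4) (nat_lit 445) (nat_lit 321) (nat_lit 254))))) (XT.nd (nat_lit 234) (nat_lit 0) (nat_lit 0) (XT.nd (nat_lit 78) (nat_lit 0) (nat_lit 0) (XT.lf (nat_lit 0) (nat_lit 14611735369) (nat_lit 152) (nat_lit 120297653604) (nat_lit 0) (nat_lit 8475416364) (nat_lit 4) (nat_lit 5) (nat_lit 6) (nat_lit 4) (nat_lit 4) (nat_lit 4) (nat_lit 446) (nat_lit 321) (nat_lit 253)) (XT.nd (nat_lit 78) (nat_lit 0) (nat_lit 0) (XT.lf (nat_lit 0) (nat_lit 22304558867) (nat_lit 152) (nat_lit 111727959878) (nat_lit 0) (nat_lit 16157253723) (nat_lit 4) (nat_lit 5) (nat_lit 6) (nat_lit 4) (nat_lit 4) (nat_lit 4) (nat_lit 447) (nat_lit 321) (nat_lit 252)) (XT.lf (nat_lit 0) (nat_lit 30359117313) (nat_lit 152) (nat_lit 102775667542) (nat_lit 0) (nat_lit 24201349178) (nat_lit 4) (nat_lit 5) (nat_lit 6) (nat_lit 4) (nat_lit 4) (nat_lit 4) (nat_lit 448) (nat_lit 321) (nat_lit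 251)))) (XT.nd (nat_lit 156) (nat_lit 0) (nat_lit 0) (XT.nd (nat_lit 78) (nat_lit 0) (nat_lit 0) (XT.lf (nat_lit 0) (nat_lit 38794588227) (nat_lit 152) (nat_lit 93419461615) (nat_lit 0) (nat_lit 32626855339) (nat_lit 4) (nat_lit 5) (nat_lit 6) (nat_lit 4) (nat_lit 4) (nat_lit 4) (nat_lit 449) (nat_lit 321) (nat_lit 250)) (XT.lf (nat_lit 0) (nat_lit 47631056062) (nat_lit 152) (nat_lit 83637065417) (nat_lit 0) (nat_lit 41453832934) (nat_lit 4) (nat_lit 5) (nat_lit 6) (nat_lit 4) (nat_lit 4) (nat_lit 4) (nat_lit 450) (nat_lit 321) (nat_lit 249))) (XT.nd (nat_lit 78) (nat_lit 0) (nat_lit 0) (XT.lf (nat_lit 0) (nat_lit 56889560029) (nat_lit 152) (nat_lit 73405187526) (nat_lit 0) (nat_lit 50703298576) (nat_lit 4) (nat_lit 5) (nat_lit 6) (nat_lit 4) (nat_lit 4) (nat_lit 4) (nat_lit 451) (nat_lit 321) (nat_lit 248)) (XT.lf (nat_lit 0) (nat_lit 66592144183) (nat_lit 152) (nat_lit 62699466331) (nat_lit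 0) (nat_lit 60397274802) (nat_lit 4) (nat_lit 5) (nat_lit 6) (nat_lit 4) (nat_lit 4) (nat_lit 4) (nat_lit 452) (nat_lit 321) (nat_lit 247))))))) (XT.nd (nat_lit 1014) (nat_lit 0) (nat_lit 0) (XT.nd (nat_lit 468) (nat_lit 0) (nat_lit 0) (XT.nd (nat_lit 234) (nat_lit 76) (nat_lit 0) (XT.nd (nat_lit 78) (nat_lit 0) (nat_lit 0) (XT.lf (nat_lit 0) (nat_lit 76761909917) (nat_lit 152) (nat_lit 51494412017) (nat_lit 0) (nat_lit 70558842509) (nat_lit 4) (nat_lit 5) (nat_lit 6) (nat_lit 4) (nat_lit 4) (nat_lit 4) (nat_lit 453) (nat_lit 321) (nat_lit 246)) (XT.nd (nat_lit 78) (nat_lit 0) (nat_lit 0) (XT.lf (nat_lit 0) (nat_lit 87423070958) (nat_lit 152) (nat_lit 39763345885) (nat_lit 0) (nat_lit 81212195905) (nat_lit 4) (nat_lit 5) (nat_lit 6) (nat_lit 4) (nat_lit 4) (nat_lit 4) (nat_lit 454) (nat_lit 321) (nat_lit 245)) (XT.lf (nat_lit 0) (nat_lit 98601011022) (nat_lit 152) (nat_lit 27478336824) (nat_lit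 0) (nat_lit 92382700118) (nat_lit 4) (nat_lit 5) (nat_lit 6) (nat_lit 4) (nat_lit 4) (nat_lit 4) (nat_lit 455) (nat_lit 321) (nat_lit 244)))) (XT.nd (nat_lit 78) (nat_lit 76) (nat_lit 0) (XT.lf (nat_lit 0) (nat_lit 110322344253) (nat_lit 152) (nat_lit 14610134814) (nat_lit 0) (nat_lit 104096951585) (nat_lit 4) (nat_lit 5) (nat_lit 6) (nat_lit 4) (nat_lit 4) (nat_lit 4) (nat_lit 456) (nat_lit 321) (nat_lit 243)) (XT.nd (nat_lit 78) (nat_lit 76) (nat_lit 0) (XT.lf (nat_lit 0) (nat_lit 122614978588) (nat_lit 152) (nat_lit 1128101277) (nat_lit 0) (nat_lit 116382841383) (nat_lit 4) (nat_lit 5) (nat_lit 6) (nat_lit 4) (nat_lit 4) (nat_lit 4) (nat_lit 457) (nat_lit 321) (nat_lit 242)) (XT.lf (nat_lit 0) (nat_lit 13429698074) (nat_lit 76) (nat_lit 122288159351) (nat_lit 76) (nat_lit 116049598778) (nat_lit 3) (nat_lit 4) (nat_lit 4) (nat_lit 5) (nat_lit 4) (nat_lit 4) (nat_lit 458) (nat_lit 321) (nat_lit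 241))))) (XT.nd (nat_lit 234) (nat_lit 0) (nat_lit 0) (XT.nd (nat_lit 78) (nat_lit 0) (nat_lit 0) (XT.lf (nat_lit 0) (nat_lit 28726836807) (nat_lit 76) (nat_lit 120754322822) (nat_lit 76) (nat_lit 114509644755) (nat_lit 3) (nat_lit 4) (nat_lit 4) (nat_lit 5) (nat_lit 4) (nat_lit 4) (nat_lit 459) (nat_lit 321) (nat_lit 240)) (XT.nd (nat_lit 78) (nat_lit 0) (nat_lit 0) (XT.lf (nat_lit 0) (nat_lit 44762436558) (nat_lit 76) (nat_lit 119157023226) (nat_lit 76) (nat_lit 112906518974) (nat_lit 3) (nat_lit 4) (nat_lit 4) (nat_lit 5) (nat_lit 4) (nat_lit 4) (nat_lit 460) (nat_lit 321) (nat_lit 239)) (XT.lf (nat_lit 0) (nat_lit 61574677327) (nat_lit 76) (nat_lit 117492457469) (nat_lit 76) (nat_lit 111236404470) (nat_lit 3) (nat_lit 4) (nat_lit 4) (nat_lit 5) (nat_lit 4) (nat_lit 4) (nat_lit 461) (nat_lit 321) (nat_lit 238)))) (XT.nd (nat_lit 156) (nat_lit 0) (nat_lit 0) (XT.nd (nat_lit 78) (nat_lit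 0) (nat_lit 0) (XT.lf (nat_lit 0) (nat_lit 79203588257) (nat_lit 76) (nat_lit 115756662299) (nat_lit 76) (nat_lit 109495324780) (nat_lit 3) (nat_lit 4) (nat_lit 4) (nat_lit 5) (nat_lit 4) (nat_lit 4) (nat_lit 462) (nat_lit 321) (nat_lit 237)) (XT.lf (nat_lit 0) (nat_lit 97691142947) (nat_lit 76) (nat_lit 113945504872) (nat_lit 76) (nat_lit 107679134475) (nat_lit 3) (nat_lit 4) (nat_lit 4) (nat_lit 5) (nat_lit 4) (nat_lit 4) (nat_lit 463) (nat_lit 321) (nat_lit 236))) (XT.nd (nat_lit 78) (nat_lit 0) (nat_lit 0) (XT.lf (nat_lit 0) (nat_lit 117081359383) (nat_lit 76) (nat_lit 112054672906) (nat_lit 76) (nat_lit 105783509293) (nat_lit 3) (nat_lit 4) (nat_lit 4) (nat_lit 5) (nat_lit 4) (nat_lit 4) (nat_lit 464) (nat_lit 321) (nat_lit 235)) (XT.lf (nat_lit 0) (nat_lit 137420404748) (nat_lit 76) (nat_lit 110079664422) (nat_lit 76) (nat_lit 103803935840) (nat_lit 3) (nat_lit 4) (nat_lit 4) (nat_lit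 5) (nat_lit 4) (nat_lit 4) (nat_lit 465) (nat_lit 321) (nat_lit 234)))))) (XT.nd (nat_lit 546) (nat_lit 0) (nat_lit 0) (XT.nd (nat_lit 234) (nat_lit 0) (nat_lit 0) (XT.nd (nat_lit 78) (nat_lit 0) (nat_lit 0) (XT.lf (nat_lit 0) (nat_lit 158756705341) (nat_lit 76) (nat_lit 108015777018) (nat_lit 76) (nat_lit 101735700848) (nat_lit 3) (nat_lit 4) (nat_lit 4) (nat_lit 5) (nat_lit 4) (nat_lit 4) (nat_lit 466) (nat_lit 321) (nat_lit 233)) (XT.nd (nat_lit 78) (nat_lit 0) (nat_lit 0) (XT.lf (nat_lit 0) (nat_lit 181141061876) (nat_lit 76) (nat_lit 105858096676) (nat_lit 76) (nat_lit 99573879945) (nat_lit 3) (nat_lit 4) (nat_lit 4) (nat_lit 5) (nat_lit 4) (nat_lit 4) (nat_lit 467) (nat_lit 321) (nat_lit 232)) (XT.lf (nat_lit 0) (nat_lit 204626770441) (nat_lit 76) (nat_lit 103601486063) (nat_lit 76) (nat_lit 97313325941) (nat_lit 3) (nat_lit 4) (nat_lit 4) (nat_lit 5) (nat_lit 4) (nat_lit 4) (nat_lit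 468) (nat_lit 321) (nat_lit 231)))) (XT.nd (nat_lit 156) (nat_lit 0) (nat_lit 0) (XT.nd (nat_lit 78) (nat_lit 0) (nat_lit 0) (XT.lf (nat_lit 0) (nat_lit 229269749390) (nat_lit 76) (nat_lit 101240572295) (nat_lit 76) (nat_lit 94948656563) (nat_lit 3) (nat_lit 4) (nat_lit 4) (nat_lit 5) (nat_lit 4) (nat_lit 4) (nat_lit 469) (nat_lit 321) (nat_lit 230)) (XT.lf (nat_lit 0) (nat_lit 255128672482) (nat_lit 76) (nat_lit 98769734151) (nat_lit 76) (nat_lit 92474241647) (nat_lit 3) (nat_lit 4) (nat_lit 4) (nat_lit 5) (nat_lit 4) (nat_lit 4) (nat_lit 470) (nat_lit 321) (nat_lit 229))) (XT.nd (nat_lit 78) (nat_lit 0) (nat_lit 0) (XT.lf (nat_lit 0) (nat_lit 282265108582) (nat_lit 76) (nat_lit 96183088681) (nat_lit 76) (nat_lit 89884189727) (nat_lit 3) (nat_lit 4) (nat_lit 4) (nat_lit 5) (nat_lit 4) (nat_lit 4) (nat_lit 471) (nat_lit 321) (nat_lit 228)) (XT.lf (nat_lit 0) (nat_lit 310743668251) (nat_lit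 76) (nat_lit 93474477206) (nat_lit 76) (nat_lit 87172334015) (nat_lit 3) (nat_lit 4) (nat_lit 4) (nat_lit 5) (nat_lit 4) (nat_lit 4) (nat_lit 472) (nat_lit 321) (nat_lit 227))))) (XT.nd (nat_lit 234) (nat_lit 0) (nat_lit 0) (XT.nd (nat_lit 78) (nat_lit 0) (nat_lit 0) (XT.lf (nat_lit 0) (nat_lit 340632157584) (nat_lit 76) (nat_lit 90637450651) (nat_lit 76) (nat_lit 84332217710) (nat_lit 3) (nat_lit 4) (nat_lit 4) (nat_lit 5) (nat_lit 4) (nat_lit 4) (nat_lit 473) (nat_lit 321) (nat_lit 226)) (XT.nd (nat_lit 78) (nat_lit 0) (nat_lit 0) (XT.lf (nat_lit 0) (nat_lit 372001739651) (nat_lit 76) (nat_lit 87665254191) (nat_lit 76) (nat_lit 81357078631) (nat_lit 3) (nat_lit 4) (nat_lit 4) (nat_lit 5) (nat_lit 4) (nat_lit 4) (nat_lit 474) (nat_lit 321) (nat_lit 225)) (XT.lf (nat_lit 0) (nat_lit 404927103934) (nat_lit 76) (nat_lit 84550811168) (nat_lit 76) (nat_lit 78239833113) (nat_lit 3) (nat_lit 4)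 (nat_lit 4) (nat_lit 5) (nat_lit 4) (nat_lit 4) (nat_lit 475) (nat_lit 321) (nat_lit 224)))) (XT.nd (nat_lit 156) (nat_lit 0) (nat_lit 0) (XT.nd (nat_lit 78) (nat_lit 0) (nat_lit 0) (XT.lf (nat_lit 0) (nat_lit 439486644156) (nat_lit 76) (nat_lit 81286706241) (nat_lit 76) (nat_lit 74973059144) (nat_lit 3) (nat_lit 4) (nat_lit 4) (nat_lit 5) (nat_lit 4) (nat_lit 4) (nat_lit 476) (nat_lit 321) (nat_lit 223)) (XT.lf (nat_lit 0) (nat_lit 475762644937) (nat_lit 76) (nat_lit 77865167732) (nat_lit 76) (nat_lit 71548978690) (nat_lit 3) (nat_lit 4) (nat_lit 4) (nat_lit 5) (nat_lit 4) (nat_lit 4) (nat_lit 477) (nat_lit 321) (nat_lit 222))) (XT.nd (nat_lit 78) (nat_lit 0) (nat_lit 0) (XT.lf (nat_lit 0) (nat_lit 513841477707) (nat_lit 76) (nat_lit 74278049120) (nat_lit 76) (nat_lit 67959439178) (nat_lit 3) (nat_lit 4) (nat_lit 4) (nat_lit 5) (nat_lit 4) (nat_lit 4) (nat_lit 478) (nat_lit 321) (nat_lit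 221)) (XT.lf (nat_lit 0) (nat_lit 553813806355) (nat_lit 76) (nat_lit 70516809647) (nat_lit 76) (nat_lit 64195894086) (nat_lit 3) (nat_lit 4) (nat_lit 4) (nat_lit 5) (nat_lit 4) (nat_lit 4) (nat_lit 479) (nat_lit 321) (nat_lit 220))))))))
noncomputable def xc55 : XT := (XT.nd (nat_lit 46722) (nat_lit 0) (nat_lit 532) (XT.nd (nat_lit 45630) (nat_lit 0) (nat_lit 1824) (XT.nd (nat_lit 45084) (nat_lit 0) (nat_lit 3116) (XT.nd (nat_lit 234) (nat_lit 0) (nat_lit 0) (XT.nd (nat_lit 78) (nat_lit 0) (nat_lit 0) (XT.lf (nat_lit 0) (nat_lit 595774803091) (nat_lit 76) (nat_lit 66572493981) (nat_lit 76) (nat_lit 60249382592) (nat_lit 3) (nat_lit 4) (nat_lit 4) (nat_lit 5) (nat_lit 4) (nat_lit 4) (nat_lit 480) (nat_lit 321) (nat_lit 219)) (XT.nd (nat_lit 78) (nat_lit 0) (nat_lit 0) (XT.lf (nat_lit 0) (nat_lit 639824375050) (nat_lit 76) (nat_lit 62435710894) (nat_lit 76) (nat_lit 56110508241) (nat_lit 3)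 (nat_lit 4) (nat_lit 4) (nat_lit 5) (nat_lit 4) (nat_lit 4) (nat_lit 481) (nat_lit 321) (nat_lit 218)) (XT.lf (nat_lit 0) (nat_lit 686067402166) (nat_lit 76) (nat_lit 58096610903) (nat_lit 76) (nat_lit 51769416569) (nat_lit 3) (nat_lit 4) (nat_lit 4) (nat_lit 5) (nat_lit 4) (nat_lit 4) (nat_lit 482) (nat_lit 321) (nat_lit 217)))) (XT.nd (nat_lit 78) (nat_lit 0) (nat_lit 0) (XT.lf (nat_lit 0) (nat_lit 734613986884) (nat_lit 76) (nat_lit 53544862817) (nat_lit 76) (nat_lit 47215771644) (nat_lit 3) (nat_lit 4) (nat_lit 4) (nat_lit 5) (nat_lit 4) (nat_lit 4) (nat_lit 483) (nat_lit 321) (nat_lit 216)) (XT.nd (nat_lit 44694) (nat_lit 0) (nat_lit 4028) (XT.lf (nat_lit 0) (nat_lit 785579716310) (nat_lit 76) (nat_lit 48769629140) (nat_lit 76) (nat_lit 42438731455) (nat_lit 3) (nat_lit 4) (nat_lit 4) (nat_lit 5) (nat_lit 4) (nat_lit 4) (nat_lit 484) (nat_lit 321) (nat_lit 215)) (XT.lf (nat_lit 0) (nat_lit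 547656933) (nat_lit 228) (nat_lit 4147107492) (nat_lit 0) (nat_lit 547656933) (nat_lit 56) (nat_lit 5) (nat_lit 59) (nat_lit 4) (nat_lit 56) (nat_lit 4) (nat_lit 376) (nat_lit 322) (nat_lit 322))))) (XT.nd (nat_lit 234) (nat_lit 532) (nat_lit 0) (XT.nd (nat_lit 78) (nat_lit 228) (nat_lit 0) (XT.lf (nat_lit 0) (nat_lit 460826827) (nat_lit 152) (nat_lit 5467481619) (nat_lit 152) (nat_lit 4805651928) (nat_lit 54) (nat_lit 4) (nat_lit 56) (nat_lit 5) (nat_lit 56) (nat_lit 4) (nat_lit 377) (nat_lit 322) (nat_lit 321)) (XT.nd (nat_lit 78) (nat_lit 228) (nat_lit 0) (XT.lf (nat_lit 0) (nat_lit 9643753745) (nat_lit 152) (nat_lit 1322892680) (nat_lit 152) (nat_lit 30748999) (nat_lit 54) (nat_lit 4) (nat_lit 56) (nat_lit 5) (nat_lit 56) (nat_lit 4) (nat_lit 378) (nat_lit 322) (nat_lit 320)) (XT.lf (nat_lit 0) (nat_lit 4824300454) (nat_lit 228) (nat_lit 3423835505) (nat_lit 0) (nat_lit 3021974054) (nat_lit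 51) (nat_lit 5) (nat_lit 54) (nat_lit 4) (nat_lit 51) (nat_lit 4) (nat_lit 379) (nat_lit 322) (nat_lit 319)))) (XT.nd (nat_lit 156) (nat_lit 228) (nat_lit 0) (XT.nd (nat_lit 78) (nat_lit 152) (nat_lit 0) (XT.lf (nat_lit 0) (nat_lit 5871983294) (nat_lit 152) (nat_lit 4016468951) (nat_lit 152) (nat_lit 1669653626) (nat_lit 49) (nat_lit 4) (nat_lit 51) (nat_lit 5) (nat_lit 51) (nat_lit 4) (nat_lit 380) (nat_lit 322) (nat_lit 318)) (XT.lf (nat_lit 0) (nat_lit 3193452433) (nat_lit 152) (nat_lit 8202190428) (nat_lit 0) (nat_lit 464522714) (nat_lit 47) (nat_lit 5) (nat_lit 49) (nat_lit 4) (nat_lit 47) (nat_lit 4) (nat_lit 381) (nat_lit 322) (nat_lit 317))) (XT.nd (nat_lit 78) (nat_lit 76) (nat_lit 0) (XT.lf (nat_lit 0) (nat_lit 1142113918) (nat_lit 152) (nat_lit 7116211904) (nat_lit 152) (nat_lit 3916932180) (nat_lit 45) (nat_lit 4) (nat_lit 47) (nat_lit 5) (nat_lit 47) (nat_lit 4) (nat_lit 382)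 (nat_lit 322) (nat_lit 316)) (XT.lf (nat_lit 0) (nat_lit 1011158073) (nat_lit 228) (nat_lit 1574358058) (nat_lit 76) (nat_lit 9921030751) (nat_lit 44) (nat_lit 5) (nat_lit 47) (nat_lit 5) (nat_lit 45) (nat_lit 4) (nat_lit 383) (nat_lit 322) (nat_lit 315)))))) (XT.nd (nat_lit 546) (nat_lit 608) (nat_lit 0) (XT.nd (nat_lit 234) (nat_lit 304) (nat_lit 0) (XT.nd (nat_lit 78) (nat_lit 304) (nat_lit 0) (XT.lf (nat_lit 0) (nat_lit 6060222887) (nat_lit 152) (nat_lit 4610323782) (nat_lit 0) (nat_lit 2180362479) (nat_lit 43) (nat_lit 5) (nat_lit 45) (nat_lit 4) (nat_lit 43) (nat_lit 4) (nat_lit 384) (nat_lit 322) (nat_lit 314)) (XT.nd (nat_lit 78) (nat_lit 152) (nat_lit 0) (XT.lf (nat_lit 0) (nat_lit 5232489712) (nat_lit 152) (nat_lit 6123565493) (nat_lit 152) (nat_lit 1856746972) (nat_lit 41) (nat_lit 4) (nat_lit 43) (nat_lit 5) (nat_lit 43) (nat_lit 4) (nat_lit 385) (nat_lit 322) (nat_lit 313)) (XT.lf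 (nat_lit 0) (nat_lit 1862470295) (nat_lit 76) (nat_lit 1307198168) (nat_lit 152) (nat_lit 10422944134) (nat_lit 39) (nat_lit 5) (nat_lit 40) (nat_lit 5) (nat_lit 41) (nat_lit 4) (nat_lit 386) (nat_lit 322) (nat_lit 312)))) (XT.nd (nat_lit 156) (nat_lit 152) (nat_lit 0) (XT.nd (nat_lit 78) (nat_lit 152) (nat_lit 0) (XT.lf (nat_lit 0) (nat_lit 8425799080) (nat_lit 152) (nat_lit 1885166360) (nat_lit 0) (nat_lit 3676911011) (nat_lit 39) (nat_lit 5) (nat_lit 41) (nat_lit 4) (nat_lit 39) (nat_lit 4) (nat_lit 387) (nat_lit 322) (nat_lit 311)) (XT.lf (nat_lit 0) (nat_lit 8430201232) (nat_lit 152) (nat_lit 5519849664) (nat_lit 152) (nat_lit 452610198) (nat_lit 37) (nat_lit 4) (nat_lit 39) (nat_lit 5) (nat_lit 39) (nat_lit 4) (nat_lit 388) (nat_lit 322) (nat_lit 310))) (XT.nd (nat_lit 78) (nat_lit 0) (nat_lit 0) (XT.lf (nat_lit 0) (nat_lit 4279160780) (nat_lit 76) (nat_lit 427957294) (nat_lit 152)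 (nat_lit 10129652648) (nat_lit 35) (nat_lit 5) (nat_lit 36) (nat_lit 5) (nat_lit 37) (nat_lit 4) (nat_lit 389) (nat_lit 322) (nat_lit 309)) (XT.lf (nat_lit 0) (nat_lit 10142919771) (nat_lit 152) (nat_lit 394430922) (nat_lit 0) (nat_lit 4753219415) (nat_lit 35) (nat_lit 5) (nat_lit 37) (nat_lit 4) (nat_lit 35) (nat_lit 4) (nat_lit 390) (nat_lit 322) (nat_lit 308))))) (XT.nd (nat_lit 234) (nat_lit 304) (nat_lit 0) (XT.nd (nat_lit 78) (nat_lit 76) (nat_lit 0) (XT.lf (nat_lit 0) (nat_lit 110392888) (nat_lit 228) (nat_lit 5425303418) (nat_lit 76) (nat_lit 10229835704) (nat_lit 32) (nat_lit 5) (nat_lit 35) (nat_lit 5) (nat_lit 33) (nat_lit 4) (nat_lit 391) (nat_lit 322) (nat_lit 307)) (XT.nd (nat_lit 78) (nat_lit 0) (nat_lit 0) (XT.lf (nat_lit 0) (nat_lit 5183574598) (nat_lit 76) (nat_lit 223557151) (nat_lit 152) (nat_lit 10855468869) (nat_lit 31) (nat_lit 5) (nat_lit 32) (nat_lit 5) (nat_lit 33)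 (nat_lit 4) (nat_lit 392) (nat_lit 322) (nat_lit 306)) (XT.lf (nat_lit 0) (nat_lit 11007535933) (nat_lit 152) (nat_lit 613815668) (nat_lit 0) (nat_lit 5161246216) (nat_lit 31) (nat_lit 5) (nat_lit 33) (nat_lit 4) (nat_lit 31) (nat_lit 4) (nat_lit 393) (nat_lit 322) (nat_lit 305)))) (XT.nd (nat_lit 156) (nat_lit 76) (nat_lit 0) (XT.nd (nat_lit 78) (nat_lit 152) (nat_lit 0) (XT.lf (nat_lit 0) (nat_lit 10458058571) (nat_lit 76) (nat_lit 6465273005) (nat_lit 76) (nat_lit 403510532) (nat_lit 30) (nat_lit 4) (nat_lit 31) (nat_lit 5) (nat_lit 31) (nat_lit 4) (nat_lit 394) (nat_lit 322) (nat_lit 304)) (XT.lf (nat_lit 0) (nat_lit 4005309867) (nat_lit 76) (nat_lit 1005560615) (nat_lit 152) (nat_lit 12886261709) (nat_lit 28) (nat_lit 5) (nat_lit 29) (nat_lit 5) (nat_lit 30) (nat_lit 4) (nat_lit 395) (nat_lit 322) (nat_lit 303))) (XT.nd (nat_lit 78) (nat_lit 76) (nat_lit 0) (XT.lf (nat_lit 0) (nat_lit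 10743844933) (nat_lit 152) (nat_lit 3159538787) (nat_lit 0) (nat_lit 4589164205) (nat_lit 28) (nat_lit 5) (nat_lit 30) (nat_lit 4) (nat_lit 28) (nat_lit 4) (nat_lit 396) (nat_lit 322) (nat_lit 302)) (XT.lf (nat_lit 0) (nat_lit 8115802955) (nat_lit 76) (nat_lit 8666477287) (nat_lit 76) (nat_lit 2334526589) (nat_lit 27) (nat_lit 4) (nat_lit 28) (nat_lit 5) (nat_lit 28) (nat_lit 4) (nat_lit 397) (nat_lit 322) (nat_lit 301))))))) (XT.nd (nat_lit 1092) (nat_lit 456) (nat_lit 0) (XT.nd (nat_lit 546) (nat_lit 380) (nat_lit 0) (XT.nd (nat_lit 234) (nat_lit 228) (nat_lit 0) (XT.nd (nat_lit 78) (nat_lit 76) (nat_lit 0) (XT.lf (nat_lit 0) (nat_lit 4846604) (nat_lit 76) (nat_lit 3168629417) (nat_lit 152) (nat_lit 16599681532) (nat_lit 25) (nat_lit 5) (nat_lit 26) (nat_lit 5) (nat_lit 27) (nat_lit 4) (nat_lit 398) (nat_lit 322) (nat_lit 300)) (XT.nd (nat_lit 78) (nat_lit 76) (nat_lit 0) (XT.lf (nat_lit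 0) (nat_lit 8984858479) (nat_lit 152) (nat_lit 8829735564) (nat_lit 0) (nat_lit 2640507689) (nat_lit 25) (nat_lit 5) (nat_lit 27) (nat_lit 4) (nat_lit 25) (nat_lit 4) (nat_lit 399) (nat_lit 322) (nat_lit 299)) (XT.lf (nat_lit 0) (nat_lit 2456089153) (nat_lit 76) (nat_lit 12603313138) (nat_lit 76) (nat_lit 6113121905) (nat_lit 24) (nat_lit 4) (nat_lit 25) (nat_lit 5) (nat_lit 25) (nat_lit 4) (nat_lit 400) (nat_lit 322) (nat_lit 298)))) (XT.nd (nat_lit 156) (nat_lit 76) (nat_lit 0) (XT.nd (nat_lit 78) (nat_lit 152) (nat_lit 0) (XT.lf (nat_lit 0) (nat_lit 14390059428) (nat_lit 76) (nat_lit 7081578596) (nat_lit 76) (nat_lit 452491703) (nat_lit 24) (nat_lit 4) (nat_lit 25) (nat_lit 5) (nat_lit 25) (nat_lit 4) (nat_lit 401) (nat_lit 322) (nat_lit 297)) (XT.lf (nat_lit 0) (nat_lit 4035028006) (nat_lit 76) (nat_lit 1231506861) (nat_lit 152) (nat_lit 17444947442) (nat_lit 22) (nat_lit 5) (nat_lit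 23) (nat_lit 5) (nat_lit 24) (nat_lit 4) (nat_lit 402) (nat_lit 322) (nat_lit 296))) (XT.nd (nat_lit 78) (nat_lit 76) (nat_lit 0) (XT.lf (nat_lit 0) (nat_lit 11351198240) (nat_lit 152) (nat_lit 7390081172) (nat_lit 0) (nat_lit 4791816400) (nat_lit 22) (nat_lit 5) (nat_lit 24) (nat_lit 4) (nat_lit 22) (nat_lit 4) (nat_lit 403) (nat_lit 322) (nat_lit 295)) (XT.lf (nat_lit 0) (nat_lit 4374509494) (nat_lit 76) (nat_lit 13347912087) (nat_lit 76) (nat_lit 6674260444) (nat_lit 21) (nat_lit 4) (nat_lit 22) (nat_lit 5) (nat_lit 22) (nat_lit 4) (nat_lit 404) (nat_lit 322) (nat_lit 294))))) (XT.nd (nat_lit 234) (nat_lit 228) (nat_lit 0) (XT.nd (nat_lit 78) (nat_lit 152) (nat_lit 0) (XT.lf (nat_lit 0) (nat_lit 16781293874) (nat_lit 76) (nat_lit 7651798677) (nat_lit 76) (nat_lit 869318650) (nat_lit 21) (nat_lit 4) (nat_lit 22) (nat_lit 5) (nat_lit 22) (nat_lit 4) (nat_lit 405) (nat_lit 322) (nat_lit 293))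 (XT.nd (nat_lit 78) (nat_lit 0) (nat_lit 0) (XT.lf (nat_lit 0) (nat_lit 3385456185) (nat_lit 76) (nat_lit 1625071762) (nat_lit 152) (nat_lit 21241230690) (nat_lit 19) (nat_lit 5) (nat_lit 20) (nat_lit 5) (nat_lit 21) (nat_lit 4) (nat_lit 406) (nat_lit 322) (nat_lit 292)) (XT.lf (nat_lit 0) (nat_lit 11274639490) (nat_lit 152) (nat_lit 11344839817) (nat_lit 0) (nat_lit 4622414099) (nat_lit 19) (nat_lit 5) (nat_lit 21) (nat_lit 4) (nat_lit 19) (nat_lit 4) (nat_lit 407) (nat_lit 322) (nat_lit 291)))) (XT.nd (nat_lit 156) (nat_lit 152) (nat_lit 0) (XT.nd (nat_lit 78) (nat_lit 0) (nat_lit 0) (XT.lf (nat_lit 0) (nat_lit 556603124) (nat_lit 76) (nat_lit 17234860877) (nat_lit 76) (nat_lit 10493102106) (nat_lit 18) (nat_lit 4) (nat_lit 19) (nat_lit 5) (nat_lit 19) (nat_lit 4) (nat_lit 408) (nat_lit 322) (nat_lit 290)) (XT.lf (nat_lit 0) (nat_lit 13262738790) (nat_lit 76) (nat_lit 11469384442) (nat_lit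 76) (nat_lit 4642355785) (nat_lit 18) (nat_lit 4) (nat_lit 19) (nat_lit 5) (nat_lit 19) (nat_lit 4) (nat_lit 409) (nat_lit 322) (nat_lit 289))) (XT.nd (nat_lit 78) (nat_lit 76) (nat_lit 0) (XT.lf (nat_lit 0) (nat_lit 1361759136) (nat_lit 152) (nat_lit 4116631844) (nat_lit 76) (nat_lit 25043887059) (nat_lit 17) (nat_lit 5) (nat_lit 19) (nat_lit 5) (nat_lit 18) (nat_lit 4) (nat_lit 410) (nat_lit 322) (nat_lit 288)) (XT.lf (nat_lit 0) (nat_lit 7570857669) (nat_lit 152) (nat_lit 23231845980) (nat_lit 0) (nat_lit 917923979) (nat_lit 16) (nat_lit 5) (nat_lit 18) (nat_lit 4) (nat_lit 16) (nat_lit 4) (nat_lit 411) (nat_lit 322) (nat_lit 287)))))) (XT.nd (nat_lit 546) (nat_lit 228) (nat_lit 0) (XT.nd (nat_lit 234) (nat_lit 152) (nat_lit 0) (XT.nd (nat_lit 78) (nat_lit 76) (nat_lit 0) (XT.lf (nat_lit 0) (nat_lit 14164532378) (nat_lit 152) (nat_lit 11369214455) (nat_lit 0) (nat_lit 7441446942) (nat_lit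 16) (nat_lit 5) (nat_lit 18) (nat_lit 4) (nat_lit 16) (nat_lit 4) (nat_lit 412) (nat_lit 322) (nat_lit 286)) (XT.nd (nat_lit 78) (nat_lit 0) (nat_lit 0) (XT.lf (nat_lit 0) (nat_lit 954981641) (nat_lit 76) (nat_lit 20065391984) (nat_lit 76) (nat_lit 13275495360) (nat_lit 15) (nat_lit 4) (nat_lit 16) (nat_lit 5) (nat_lit 16) (nat_lit 4) (nat_lit 413) (nat_lit 322) (nat_lit 285)) (XT.lf (nat_lit 0) (nat_lit 14130583653) (nat_lit 76) (nat_lit 14199973882) (nat_lit 76) (nat_lit 7346447555) (nat_lit 15) (nat_lit 4) (nat_lit 16) (nat_lit 5) (nat_lit 16) (nat_lit 4) (nat_lit 414) (nat_lit 322) (nat_lit 284)))) (XT.nd (nat_lit 156) (nat_lit 0) (nat_lit 0) (XT.nd (nat_lit 78) (nat_lit 152) (nat_lit 0) (XT.lf (nat_lit 0) (nat_lit 27813044487) (nat_lit 76) (nat_lit 8116070393) (nat_lit 76) (nat_lit 1201944350) (nat_lit 15) (nat_lit 4) (nat_lit 16) (nat_lit 5) (nat_lit 16) (nat_lit 4) (nat_lit 415) (nat_lit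 322) (nat_lit 283)) (XT.lf (nat_lit 0) (nat_lit 3401559674) (nat_lit 76) (nat_lit 1658635317) (nat_lit 152) (nat_lit 33594605079) (nat_lit 13) (nat_lit 5) (nat_lit 14) (nat_lit 5) (nat_lit 15) (nat_lit 4) (nat_lit 416) (nat_lit 322) (nat_lit 282))) (XT.nd (nat_lit 78) (nat_lit 0) (nat_lit 0) (XT.lf (nat_lit 0) (nat_lit 11760913085) (nat_lit 152) (nat_lit 23415823155) (nat_lit 0) (nat_lit 5068717097) (nat_lit 13) (nat_lit 5) (nat_lit 15) (nat_lit 4) (nat_lit 13) (nat_lit 4) (nat_lit 417) (nat_lit 322) (nat_lit 281)) (XT.lf (nat_lit 0) (nat_lit 18752914298) (nat_lit 152) (nat_lit 11154053492) (nat_lit 0) (nat_lit 12010862773) (nat_lit 13) (nat_lit 5) (nat_lit 15) (nat_lit 4) (nat_lit 13) (nat_lit 4) (nat_lit 418) (nat_lit 322) (nat_lit 280))))) (XT.nd (nat_lit 234) (nat_lit 152) (nat_lit 0) (XT.nd (nat_lit 78) (nat_lit 0) (nat_lit 0) (XT.lf (nat_lit 0) (nat_lit 1639637879) (nat_lit 76) (nat_lit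 24412911767) (nat_lit 76) (nat_lit 17623378779) (nat_lit 12) (nat_lit 4) (nat_lit 13) (nat_lit 5) (nat_lit 13) (nat_lit 4) (nat_lit 419) (nat_lit 322) (nat_lit 279)) (XT.nd (nat_lit 78) (nat_lit 0) (nat_lit 0) (XT.lf (nat_lit 0) (nat_lit 15328767517) (nat_lit 76) (nat_lit 18510897742) (nat_lit 76) (nat_lit 11676144312) (nat_lit 12) (nat_lit 4) (nat_lit 13) (nat_lit 5) (nat_lit 13) (nat_lit 4) (nat_lit 420) (nat_lit 322) (nat_lit 278)) (XT.lf (nat_lit 0) (nat_lit 29577125204) (nat_lit 76) (nat_lit 12375772592) (nat_lit 76) (nat_lit 5497952076) (nat_lit 12) (nat_lit 4) (nat_lit 13) (nat_lit 5) (nat_lit 13) (nat_lit 4) (nat_lit 421) (nat_lit 322) (nat_lit 277)))) (XT.nd (nat_lit 156) (nat_lit 0) (nat_lit 0) (XT.nd (nat_lit 78) (nat_lit 76) (nat_lit 0) (XT.lf (nat_lit 0) (nat_lit 896273075) (nat_lit 152) (nat_lit 5081476985) (nat_lit 76) (nat_lit 43507183708) (nat_lit 11) (nat_lit 5) (nat_lit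 13) (nat_lit 5) (nat_lit 12) (nat_lit 4) (nat_lit 422) (nat_lit 322) (nat_lit 276)) (XT.lf (nat_lit 0) (nat_lit 7512800378) (nat_lit 152) (nat_lit 43212820744) (nat_lit 0) (nat_lit 886229037) (nat_lit 10) (nat_lit 5) (nat_lit 12) (nat_lit 4) (nat_lit 10) (nat_lit 4) (nat_lit 423) (nat_lit 322) (nat_lit 275))) (XT.nd (nat_lit 78) (nat_lit 0) (nat_lit 0) (XT.lf (nat_lit 0) (nat_lit 14587437448) (nat_lit 152) (nat_lit 31325878642) (nat_lit 0) (nat_lit 7925434708) (nat_lit 10) (nat_lit 5) (nat_lit 12) (nat_lit 4) (nat_lit 10) (nat_lit 4) (nat_lit 424) (nat_lit 322) (nat_lit 274)) (XT.lf (nat_lit 0) (nat_lit 21960396327) (nat_lit 152) (nat_lit 18954723719) (nat_lit 0) (nat_lit 15264649397) (nat_lit 10) (nat_lit 5) (nat_lit 12) (nat_lit 4) (nat_lit 10) (nat_lit 4) (nat_lit 425) (nat_lit 322) (nat_lit 273))))))))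
noncomputable def xc56 : XT := (XT.nd (nat_lit 2106) (nat_lit 76) (nat_lit 0) (XT.nd (nat_lit 1014) (nat_lit 152) (nat_lit 0) (XT.nd (nat_lit 468) (nat_lit 152) (nat_lit 0) (XT.nd (nat_lit 234) (nat_lit 76) (nat_lit 0) (XT.nd (nat_lit 78) (nat_lit 76) (nat_lit 0) (XT.lf (nat_lit 0) (nat_lit 29649231678) (nat_lit 152) (nat_lit 6069900847) (nat_lit 0) (nat_lit 22921347425) (nat_lit 10) (nat_lit 5) (nat_lit 12) (nat_lit 4) (nat_lit 10) (nat_lit 4) (nat_lit 426) (nat_lit 322) (nat_lit 272)) (XT.nd (nat_lit 78) (nat_lit 0) (nat_lit 0) (XT.lf (nat_lit 0) (nat_lit 7602598765) (nat_lit 76) (nat_lit 30188349361) (nat_lit 76) (nat_lit 23429858133) (nat_lit 9) (nat_lit 4) (nat_lit 10) (nat_lit 5) (nat_lit 10) (nat_lit 4) (nat_lit 427) (nat_lit 322) (nat_lit 271)) (XT.lf (nat_lit 0) (nat_lit 22071172776) (nat_lit 76) (nat_lit 24321974562) (nat_lit 76) (nat_lit 17534333835) (nat_lit 9) (nat_lit 4) (nat_lit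 10) (nat_lit 5) (nat_lit 10) (nat_lit 4) (nat_lit 428) (nat_lit 322) (nat_lit 270)))) (XT.nd (nat_lit 78) (nat_lit 76) (nat_lit 0) (XT.lf (nat_lit 0) (nat_lit 37169571836) (nat_lit 76) (nat_lit 18208837278) (nat_lit 76) (nat_lit 11393435122) (nat_lit 9) (nat_lit 4) (nat_lit 10) (nat_lit 5) (nat_lit 10) (nat_lit 4) (nat_lit 429) (nat_lit 322) (nat_lit 269)) (XT.nd (nat_lit 78) (nat_lit 76) (nat_lit 0) (XT.lf (nat_lit 0) (nat_lit 52933744516) (nat_lit 76) (nat_lit 11834382419) (nat_lit 76) (nat_lit 4992540808) (nat_lit 9) (nat_lit 4) (nat_lit 10) (nat_lit 5) (nat_lit 10) (nat_lit 4) (nat_lit 430) (nat_lit 322) (nat_lit 268)) (XT.lf (nat_lit 0) (nat_lit 1629703959) (nat_lit 152) (nat_lit 3526128928) (nat_lit 76) (nat_lit 67743920775) (nat_lit 8) (nat_lit 5) (nat_lit 10) (nat_lit 5) (nat_lit 9) (nat_lit 4) (nat_lit 431) (nat_lit 322) (nat_lit 267))))) (XT.nd (nat_lit 234) (nat_lit 76) (nat_lit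 0) (XT.nd (nat_lit 78) (nat_lit 0) (nat_lit 0) (XT.lf (nat_lit 0) (nat_lit 8572112929) (nat_lit 152) (nat_lit 65602496133) (nat_lit 0) (nat_lit 2009252538) (nat_lit 7) (nat_lit 5) (nat_lit 9) (nat_lit 4) (nat_lit 7) (nat_lit 4) (nat_lit 432) (nat_lit 322) (nat_lit 266)) (XT.nd (nat_lit 78) (nat_lit 0) (nat_lit 0) (XT.lf (nat_lit 0) (nat_lit 15965625526) (nat_lit 152) (nat_lit 54280338516) (nat_lit 0) (nat_lit 9381013329) (nat_lit 7) (nat_lit 5) (nat_lit 9) (nat_lit 4) (nat_lit 7) (nat_lit 4) (nat_lit 433) (nat_lit 322) (nat_lit 265)) (XT.lf (nat_lit 0) (nat_lit 23689542958) (nat_lit 152) (nat_lit 42470456274) (nat_lit 0) (nat_lit 17084214756) (nat_lit 7) (nat_lit 5) (nat_lit 9) (nat_lit 4) (nat_lit 7) (nat_lit 4) (nat_lit 434) (nat_lit 322) (nat_lit 264)))) (XT.nd (nat_lit 156) (nat_lit 76) (nat_lit 0) (XT.nd (nat_lit 78) (nat_lit 0) (nat_lit 0) (XT.lf (nat_lit 0) (nat_lit 31762255504) (nat_lit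 152) (nat_lit 30144730641) (nat_lit 0) (nat_lit 25137197774) (nat_lit 7) (nat_lit 5) (nat_lit 9) (nat_lit 4) (nat_lit 7) (nat_lit 4) (nat_lit 435) (nat_lit 322) (nat_lit 263)) (XT.lf (nat_lit 0) (nat_lit 40202983910) (nat_lit 152) (nat_lit 17273814651) (nat_lit 0) (nat_lit 33559136152) (nat_lit 7) (nat_lit 5) (nat_lit 9) (nat_lit 4) (nat_lit 7) (nat_lit 4) (nat_lit 436) (nat_lit 322) (nat_lit 262))) (XT.nd (nat_lit 78) (nat_lit 76) (nat_lit 0) (XT.lf (nat_lit 0) (nat_lit 49031825147) (nat_lit 152) (nat_lit 3827063265) (nat_lit 0) (nat_lit 42370082125) (nat_lit 7) (nat_lit 5) (nat_lit 9) (nat_lit 4) (nat_lit 7) (nat_lit 4) (nat_lit 437) (nat_lit 322) (nat_lit 261)) (XT.lf (nat_lit 0) (nat_lit 10565708237) (nat_lit 76) (nat_lit 47869052345) (nat_lit 76) (nat_lit 41190266214) (nat_lit 6) (nat_lit 4) (nat_lit 7) (nat_lit 5) (nat_lit 7) (nat_lit 4) (nat_lit 438) (nat_lit 322) (nat_lit 260))))))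 (XT.nd (nat_lit 546) (nat_lit 76) (nat_lit 0) (XT.nd (nat_lit 234) (nat_lit 76) (nat_lit 0) (XT.nd (nat_lit 78) (nat_lit 0) (nat_lit 0) (XT.lf (nat_lit 0) (nat_lit 25747539309) (nat_lit 76) (nat_lit 42593356382) (nat_lit 76) (nat_lit 35898338719) (nat_lit 6) (nat_lit 4) (nat_lit 7) (nat_lit 5) (nat_lit 7) (nat_lit 4) (nat_lit 439) (nat_lit 322) (nat_lit 259)) (XT.nd (nat_lit 78) (nat_lit 0) (nat_lit 0) (XT.lf (nat_lit 0) (nat_lit 41628037173) (nat_lit 76) (nat_lit 37084052513) (nat_lit 76) (nat_lit 30373576248) (nat_lit 6) (nat_lit 4) (nat_lit 7) (nat_lit 5) (nat_lit 7) (nat_lit 4) (nat_lit 440) (nat_lit 322) (nat_lit 258)) (XT.lf (nat_lit 0) (nat_lit 58245012536) (nat_lit 76) (nat_lit 31328023347) (nat_lit 76) (nat_lit 24602824604) (nat_lit 6) (nat_lit 4) (nat_lit 7) (nat_lit 5) (nat_lit 7) (nat_lit 4) (nat_lit 441) (nat_lit 322) (nat_lit 257)))) (XT.nd (nat_lit 156) (nat_lit 76) (nat_lit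 0) (XT.nd (nat_lit 78) (nat_lit 0) (nat_lit 0) (XT.lf (nat_lit 0) (nat_lit 75638029626) (nat_lit 76) (nat_lit 25311564052) (nat_lit 76) (nat_lit 18572343901) (nat_lit 6) (nat_lit 4) (nat_lit 7) (nat_lit 5) (nat_lit 7) (nat_lit 4) (nat_lit 442) (nat_lit 322) (nat_lit 256)) (XT.lf (nat_lit 0) (nat_lit 93848500389) (nat_lit 76) (nat_lit 19020349726) (nat_lit 76) (nat_lit 12267775853) (nat_lit 6) (nat_lit 4) (nat_lit 7) (nat_lit 5) (nat_lit 7) (nat_lit 4) (nat_lit 443) (nat_lit 322) (nat_lit 255))) (XT.nd (nat_lit 78) (nat_lit 76) (nat_lit 0) (XT.lf (nat_lit 0) (nat_lit 112919783089) (nat_lit 76) (nat_lit 12439401287) (nat_lit 76) (nat_lit 5674109584) (nat_lit 6) (nat_lit 4) (nat_lit 7) (nat_lit 5) (nat_lit 7) (nat_lit 4) (nat_lit 444) (nat_lit 322) (nat_lit 254)) (XT.lf (nat_lit 0) (nat_lit 1185167134) (nat_lit 152) (nat_lit 4347811296) (nat_lit 76) (nat_lit 131692047027) (nat_lit 5) (nat_lit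 5) (nat_lit 7) (nat_lit 5) (nat_lit 6) (nat_lit 4) (nat_lit 445) (nat_lit 322) (nat_lit 253))))) (XT.nd (nat_lit 234) (nat_lit 0) (nat_lit 0) (XT.nd (nat_lit 78) (nat_lit 0) (nat_lit 0) (XT.lf (nat_lit 0) (nat_lit 8365178579) (nat_lit 152) (nat_lit 133448569901) (nat_lit 0) (nat_lit 1899522037) (nat_lit 4) (nat_lit 5) (nat_lit 6) (nat_lit 4) (nat_lit 4) (nat_lit 4) (nat_lit 446) (nat_lit 322) (nat_lit 252)) (XT.nd (nat_lit 78) (nat_lit 0) (nat_lit 0) (XT.lf (nat_lit 0) (nat_lit 16046828308) (nat_lit 152) (nat_lit 124901259627) (nat_lit 0) (nat_lit 9570708776) (nat_lit 4) (nat_lit 5) (nat_lit 6) (nat_lit 4) (nat_lit 4) (nat_lit 4) (nat_lit 447) (nat_lit 322) (nat_lit 251)) (XT.lf (nat_lit 0) (nat_lit 24090745069) (nat_lit 152) (nat_lit 115970284865) (nat_lit 0) (nat_lit 17604660784) (nat_lit 4) (nat_lit 5) (nat_lit 6) (nat_lit 4) (nat_lit 4) (nat_lit 4) (nat_lit 448) (nat_lit 322) (nat_lit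 250)))) (XT.nd (nat_lit 156) (nat_lit 0) (nat_lit 0) (XT.nd (nat_lit 78) (nat_lit 0) (nat_lit 0) (XT.lf (nat_lit 0) (nat_lit 32516081044) (nat_lit 152) (nat_lit 106634381389) (nat_lit 0) (nat_lit 26020506518) (nat_lit 4) (nat_lit 5) (nat_lit 6) (nat_lit 4) (nat_lit 4) (nat_lit 4) (nat_lit 449) (nat_lit 322) (nat_lit 249)) (XT.lf (nat_lit 0) (nat_lit 41342896557) (nat_lit 152) (nat_lit 96871320858) (nat_lit 0) (nat_lit 34838283707) (nat_lit 4) (nat_lit 5) (nat_lit 6) (nat_lit 4) (nat_lit 4) (nat_lit 4) (nat_lit 450) (nat_lit 322) (nat_lit 248))) (XT.nd (nat_lit 78) (nat_lit 0) (nat_lit 0) (XT.lf (nat_lit 0) (nat_lit 50592207835) (nat_lit 152) (nat_lit 86657857889) (nat_lit 0) (nat_lit 44078987057) (nat_lit 4) (nat_lit 5) (nat_lit 6) (nat_lit 4) (nat_lit 4) (nat_lit 4) (nat_lit 451) (nat_lit 322) (nat_lit 247)) (XT.lf (nat_lit 0) (nat_lit 60286037049) (nat_lit 152) (nat_lit 75969674714) (nat_lit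 0) (nat_lit 53764618244) (nat_lit 4) (nat_lit 5) (nat_lit 6) (nat_lit 4) (nat_lit 4) (nat_lit 4) (nat_lit 452) (nat_lit 322) (nat_lit 246))))))) (XT.nd (nat_lit 1014) (nat_lit 0) (nat_lit 0) (XT.nd (nat_lit 468) (nat_lit 76) (nat_lit 0) (XT.nd (nat_lit 234) (nat_lit 0) (nat_lit 0) (XT.nd (nat_lit 78) (nat_lit 0) (nat_lit 0) (XT.lf (nat_lit 0) (nat_lit 70447464744) (nat_lit 152) (nat_lit 64781323277) (nat_lit 0) (nat_lit 63918238295) (nat_lit 4) (nat_lit 5) (nat_lit 6) (nat_lit 4) (nat_lit 4) (nat_lit 4) (nat_lit 453) (nat_lit 322) (nat_lit 245)) (XT.nd (nat_lit 78) (nat_lit 0) (nat_lit 0) (XT.lf (nat_lit 0) (nat_lit 81100684795) (nat_lit 152) (nat_lit 53066164646) (nat_lit 0) (nat_lit 74564022494) (nat_lit 4) (nat_lit 5) (nat_lit 6) (nat_lit 4) (nat_lit 4) (nat_lit 4) (nat_lit 454) (nat_lit 322) (nat_lit 244)) (XT.lf (nat_lit 0) (nat_lit 92271062013) (nat_lit 152) (nat_lit 40796305587) (nat_lit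 0) (nat_lit 85727317948) (nat_lit 4) (nat_lit 5) (nat_lit 6) (nat_lit 4) (nat_lit 4) (nat_lit 4) (nat_lit 455) (nat_lit 322) (nat_lit 243)))) (XT.nd (nat_lit 78) (nat_lit 0) (nat_lit 0) (XT.lf (nat_lit 0) (nat_lit 103985192532) (nat_lit 152) (nat_lit 27942532149) (nat_lit 0) (nat_lit 97434703930) (nat_lit 4) (nat_lit 5) (nat_lit 6) (nat_lit 4) (nat_lit 4) (nat_lit 4) (nat_lit 456) (nat_lit 322) (nat_lit 242)) (XT.nd (nat_lit 78) (nat_lit 0) (nat_lit 0) (XT.lf (nat_lit 0) (nat_lit 116270967141) (nat_lit 152) (nat_lit 14474240110) (nat_lit 0) (nat_lit 109714055171) (nat_lit 4) (nat_lit 5) (nat_lit 6) (nat_lit 4) (nat_lit 4) (nat_lit 4) (nat_lit 457) (nat_lit 322) (nat_lit 241)) (XT.lf (nat_lit 0) (nat_lit 129157637684) (nat_lit 152) (nat_lit 359362108) (nat_lit 0) (nat_lit 122594608220) (nat_lit 4) (nat_lit 5) (nat_lit 6) (nat_lit 4) (nat_lit 4) (nat_lit 4) (nat_lit 458) (nat_lit 322) (nat_lit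 240))))) (XT.nd (nat_lit 234) (nat_lit 0) (nat_lit 0) (XT.nd (nat_lit 78) (nat_lit 0) (nat_lit 0) (XT.lf (nat_lit 0) (nat_lit 14913018432) (nat_lit 76) (nat_lit 127995702288) (nat_lit 76) (nat_lit 121426846639) (nat_lit 3) (nat_lit 4) (nat_lit 4) (nat_lit 5) (nat_lit 4) (nat_lit 4) (nat_lit 459) (nat_lit 322) (nat_lit 239)) (XT.nd (nat_lit 78) (nat_lit 0) (nat_lit 0) (XT.lf (nat_lit 0) (nat_lit 30936355271) (nat_lit 76) (nat_lit 126404548457) (nat_lit 76) (nat_lit 119830144061) (nat_lit 3) (nat_lit 4) (nat_lit 4) (nat_lit 5) (nat_lit 4) (nat_lit 4) (nat_lit 460) (nat_lit 322) (nat_lit 238)) (XT.lf (nat_lit 0) (nat_lit 47736917075) (nat_lit 76) (nat_lit 124745835810) (nat_lit 76) (nat_lit 118166146893) (nat_lit 3) (nat_lit 4) (nat_lit 4) (nat_lit 5) (nat_lit 4) (nat_lit 4) (nat_lit 461) (nat_lit 322) (nat_lit 237)))) (XT.nd (nat_lit 156) (nat_lit 0) (nat_lit 0) (XT.nd (nat_lit 78) (nat_lit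 0) (nat_lit 0) (XT.lf (nat_lit 0) (nat_lit 65354705183) (nat_lit 76) (nat_lit 123015615031) (nat_lit 76) (nat_lit 116430893237) (nat_lit 3) (nat_lit 4) (nat_lit 4) (nat_lit 5) (nat_lit 4) (nat_lit 4) (nat_lit 462) (nat_lit 322) (nat_lit 236)) (XT.lf (nat_lit 0) (nat_lit 83831666708) (nat_lit 76) (nat_lit 121209766547) (nat_lit 76) (nat_lit 114620251536) (nat_lit 3) (nat_lit 4) (nat_lit 4) (nat_lit 5) (nat_lit 4) (nat_lit 4) (nat_lit 463) (nat_lit 322) (nat_lit 235))) (XT.nd (nat_lit 78) (nat_lit 0) (nat_lit 0) (XT.lf (nat_lit 0) (nat_lit 103211794416) (nat_lit 76) (nat_lit 119323990717) (nat_lit 76) (nat_lit 112729910739) (nat_lit 3) (nat_lit 4) (nat_lit 4) (nat_lit 5) (nat_lit 4) (nat_lit 4) (nat_lit 464) (nat_lit 322) (nat_lit 234)) (XT.lf (nat_lit 0) (nat_lit 123541231468) (nat_lit 76) (nat_lit 117353797601) (nat_lit 76) (nat_lit 110755370034) (nat_lit 3) (nat_lit 4) (nat_lit 4) (nat_lit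 5) (nat_lit 4) (nat_lit 4) (nat_lit 465) (nat_lit 322) (nat_lit 233)))))) (XT.nd (nat_lit 546) (nat_lit 0) (nat_lit 0) (XT.nd (nat_lit 234) (nat_lit 0) (nat_lit 0) (XT.nd (nat_lit 78) (nat_lit 0) (nat_lit 0) (XT.lf (nat_lit 0) (nat_lit 144868381287) (nat_lit 76) (nat_lit 115294496262) (nat_lit 76) (nat_lit 108691928134) (nat_lit 3) (nat_lit 4) (nat_lit 4) (nat_lit 5) (nat_lit 4) (nat_lit 4) (nat_lit 466) (nat_lit 322) (nat_lit 232)) (XT.nd (nat_lit 78) (nat_lit 0) (nat_lit 0) (XT.lf (nat_lit 0) (nat_lit 167244022799) (nat_lit 76) (nat_lit 113141183601) (nat_lit 76) (nat_lit 106534672082) (nat_lit 3) (nat_lit 4) (nat_lit 4) (nat_lit 5) (nat_lit 4) (nat_lit 4) (nat_lit 467) (nat_lit 322) (nat_lit 231)) (XT.lf (nat_lit 0) (nat_lit 190721431343) (nat_lit 76) (nat_lit 110888732683) (nat_lit 76) (nat_lit 104278465554) (nat_lit 3) (nat_lit 4) (nat_lit 4) (nat_lit 5) (nat_lit 4) (nat_lit 4) (nat_lit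 468) (nat_lit 322) (nat_lit 230)))) (XT.nd (nat_lit 156) (nat_lit 0) (nat_lit 0) (XT.nd (nat_lit 78) (nat_lit 0) (nat_lit 0) (XT.lf (nat_lit 0) (nat_lit 215356505509) (nat_lit 76) (nat_lit 108531780531) (nat_lit 76) (nat_lit 101917936630) (nat_lit 3) (nat_lit 4) (nat_lit 4) (nat_lit 5) (nat_lit 4) (nat_lit 4) (nat_lit 469) (nat_lit 322) (nat_lit 229)) (XT.lf (nat_lit 0) (nat_lit 241207900236) (nat_lit 76) (nat_lit 106064715353) (nat_lit 76) (nat_lit 99447465002) (nat_lit 3) (nat_lit 4) (nat_lit 4) (nat_lit 5) (nat_lit 4) (nat_lit 4) (nat_lit 470) (nat_lit 322) (nat_lit 228))) (XT.nd (nat_lit 78) (nat_lit 0) (nat_lit 0) (XT.lf (nat_lit 0) (nat_lit 268337166465) (nat_lit 76) (nat_lit 103481663185) (nat_lit 76) (nat_lit 96861168597) (nat_lit 3) (nat_lit 4) (nat_lit 4) (nat_lit 5) (nat_lit 4) (nat_lit 4) (nat_lit 471) (nat_lit 322) (nat_lit 227)) (XT.lf (nat_lit 0) (nat_lit 296808897686) (nat_lit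 76) (nat_lit 100776473902) (nat_lit 76) (nat_lit 94152889564) (nat_lit 3) (nat_lit 4) (nat_lit 4) (nat_lit 5) (nat_lit 4) (nat_lit 4) (nat_lit 472) (nat_lit 322) (nat_lit 226))))) (XT.nd (nat_lit 234) (nat_lit 0) (nat_lit 0) (XT.nd (nat_lit 78) (nat_lit 0) (nat_lit 0) (XT.lf (nat_lit 0) (nat_lit 326690883735) (nat_lit 76) (nat_lit 97942706578) (nat_lit 76) (nat_lit 91316179620) (nat_lit 3) (nat_lit 4) (nat_lit 4) (nat_lit 5) (nat_lit 4) (nat_lit 4) (nat_lit 473) (nat_lit 322) (nat_lit 225)) (XT.nd (nat_lit 78) (nat_lit 0) (nat_lit 0) (XT.lf (nat_lit 0) (nat_lit 358054272198) (nat_lit 76) (nat_lit 94973614147) (nat_lit 76) (nat_lit 88344284695) (nat_lit 3) (nat_lit 4) (nat_lit 4) (nat_lit 5) (nat_lit 4) (nat_lit 4) (nat_lit 474) (nat_lit 322) (nat_lit 224)) (XT.lf (nat_lit 0) (nat_lit 390973737810) (nat_lit 76) (nat_lit 91862127342) (nat_lit 76) (nat_lit 85230128848) (nat_lit 3) (nat_lit 4)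 (nat_lit 4) (nat_lit 5) (nat_lit 4) (nat_lit 4) (nat_lit 475) (nat_lit 322) (nat_lit 223)))) (XT.nd (nat_lit 156) (nat_lit 0) (nat_lit 0) (XT.nd (nat_lit 78) (nat_lit 0) (nat_lit 0) (XT.lf (nat_lit 0) (nat_lit 425527660250) (nat_lit 76) (nat_lit 88600837861) (nat_lit 76) (nat_lit 81966297422) (nat_lit 3) (nat_lit 4) (nat_lit 4) (nat_lit 5) (nat_lit 4) (nat_lit 4) (nat_lit 476) (nat_lit 322) (nat_lit 222)) (XT.lf (nat_lit 0) (nat_lit 461798310763) (nat_lit 76) (nat_lit 85181980729) (nat_lit 76) (nat_lit 78545019390) (nat_lit 3) (nat_lit 4) (nat_lit 4) (nat_lit 5) (nat_lit 4) (nat_lit 4) (nat_lit 477) (nat_lit 322) (nat_lit 221))) (XT.nd (nat_lit 78) (nat_lit 0) (nat_lit 0) (XT.lf (nat_lit 0) (nat_lit 499872048041) (nat_lit 76) (nat_lit 81597415810) (nat_lit 76) (nat_lit 74958148851) (nat_lit 3) (nat_lit 4) (nat_lit 4) (nat_lit 5) (nat_lit 4) (nat_lit 4) (nat_lit 478) (nat_lit 322) (nat_lit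 220)) (XT.lf (nat_lit 0) (nat_lit 539839523837) (nat_lit 76) (nat_lit 77838608425) (nat_lit 76) (nat_lit 71197145639) (nat_lit 3) (nat_lit 4) (nat_lit 4) (nat_lit 5) (nat_lit 4) (nat_lit 4) (nat_lit 479) (nat_lit 322) (nat_lit 219))))))))
noncomputable def xc57 : XT := (XT.nd (nat_lit 46566) (nat_lit 0) (nat_lit 684) (XT.nd (nat_lit 45474) (nat_lit 0) (nat_lit 1900) (XT.nd (nat_lit 44928) (nat_lit 0) (nat_lit 3344) (XT.nd (nat_lit 234) (nat_lit 0) (nat_lit 0) (XT.nd (nat_lit 78) (nat_lit 0) (nat_lit 0) (XT.lf (nat_lit 0) (nat_lit 581795898811) (nat_lit 76) (nat_lit 73896609033) (nat_lit 76) (nat_lit 67253054983) (nat_lit 3) (nat_lit 4) (nat_lit 4) (nat_lit 5) (nat_lit 4) (nat_lit 4) (nat_lit 480) (nat_lit 322) (nat_lit 218)) (XT.nd (nat_lit 78) (nat_lit 0) (nat_lit 0) (XT.lf (nat_lit 0) (nat_lit 625841069091) (nat_lit 76) (nat_lit 69762031922) (nat_lit 76) (nat_lit 63116486191) (nat_lit 3)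 (nat_lit 4) (nat_lit 4) (nat_lit 5) (nat_lit 4) (nat_lit 4) (nat_lit 481) (nat_lit 322) (nat_lit 217)) (XT.lf (nat_lit 0) (nat_lit 672079904132) (nat_lit 76) (nat_lit 65425032860) (nat_lit 76) (nat_lit 58777590290) (nat_lit 3) (nat_lit 4) (nat_lit 4) (nat_lit 5) (nat_lit 4) (nat_lit 4) (nat_lit 482) (nat_lit 322) (nat_lit 216)))) (XT.nd (nat_lit 78) (nat_lit 0) (nat_lit 0) (XT.lf (nat_lit 0) (nat_lit 720622496397) (nat_lit 76) (nat_lit 60875285658) (nat_lit 76) (nat_lit 54226036576) (nat_lit 3) (nat_lit 4) (nat_lit 4) (nat_lit 5) (nat_lit 4) (nat_lit 4) (nat_lit 483) (nat_lit 322) (nat_lit 215)) (XT.nd (nat_lit 44538) (nat_lit 0) (nat_lit 4408) (XT.lf (nat_lit 0) (nat_lit 771584423488) (nat_lit 76) (nat_lit 56101957586) (nat_lit 76) (nat_lit 49450988016) (nat_lit 3) (nat_lit 4) (nat_lit 4) (nat_lit 5) (nat_lit 4) (nat_lit 4) (nat_lit 484) (nat_lit 322) (nat_lit 214)) (XT.lf (nat_lit 0) (nat_lit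 1305600271) (nat_lit 228) (nat_lit 2396032866) (nat_lit 0) (nat_lit 1305600271) (nat_lit 61) (nat_lit 5) (nat_lit 64) (nat_lit 4) (nat_lit 61) (nat_lit 4) (nat_lit 374) (nat_lit 323) (nat_lit 323))))) (XT.nd (nat_lit 234) (nat_lit 532) (nat_lit 0) (XT.nd (nat_lit 78) (nat_lit 380) (nat_lit 0) (XT.lf (nat_lit 0) (nat_lit 3701998615) (nat_lit 152) (nat_lit 3636547318) (nat_lit 152) (nat_lit 2906880084) (nat_lit 59) (nat_lit 4) (nat_lit 61) (nat_lit 5) (nat_lit 61) (nat_lit 4) (nat_lit 375) (nat_lit 323) (nat_lit 322)) (XT.nd (nat_lit 78) (nat_lit 152) (nat_lit 0) (XT.lf (nat_lit 0) (nat_lit 1702074473) (nat_lit 228) (nat_lit 8441876327) (nat_lit 0) (nat_lit 345323607) (nat_lit 56) (nat_lit 5) (nat_lit 59) (nat_lit 4) (nat_lit 56) (nat_lit 4) (nat_lit 376) (nat_lit 323) (nat_lit 321)) (XT.lf (nat_lit 0) (nat_lit 163003426) (nat_lit 152) (nat_lit 6283453321) (nat_lit 152) (nat_lit 4296388465)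 (nat_lit 54) (nat_lit 4) (nat_lit 56) (nat_lit 5) (nat_lit 56) (nat_lit 4) (nat_lit 377) (nat_lit 323) (nat_lit 320)))) (XT.nd (nat_lit 156) (nat_lit 304) (nat_lit 0) (XT.nd (nat_lit 78) (nat_lit 152) (nat_lit 0) (XT.lf (nat_lit 0) (nat_lit 379707488) (nat_lit 228) (nat_lit 1808963544) (nat_lit 76) (nat_lit 8821430699) (nat_lit 53) (nat_lit 5) (nat_lit 56) (nat_lit 5) (nat_lit 54) (nat_lit 4) (nat_lit 378) (nat_lit 323) (nat_lit 319)) (XT.lf (nat_lit 0) (nat_lit 5130214659) (nat_lit 228) (nat_lit 4036205386) (nat_lit 0) (nat_lit 2121569644) (nat_lit 51) (nat_lit 5) (nat_lit 54) (nat_lit 4) (nat_lit 51) (nat_lit 4) (nat_lit 379) (nat_lit 323) (nat_lit 318))) (XT.nd (nat_lit 78) (nat_lit 152) (nat_lit 0) (XT.lf (nat_lit 0) (nat_lit 5099580206) (nat_lit 152) (nat_lit 5004082481) (nat_lit 152) (nat_lit 1476876586) (nat_lit 49) (nat_lit 4) (nat_lit 51) (nat_lit 5) (nat_lit 51) (nat_lit 4) (nat_lit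 380) (nat_lit 323) (nat_lit 317)) (XT.lf (nat_lit 0) (nat_lit 2701394041) (nat_lit 76) (nat_lit 577858368) (nat_lit 152) (nat_lit 8608253244) (nat_lit 47) (nat_lit 5) (nat_lit 48) (nat_lit 5) (nat_lit 49) (nat_lit 4) (nat_lit 381) (nat_lit 323) (nat_lit 316)))))) (XT.nd (nat_lit 546) (nat_lit 684) (nat_lit 0) (XT.nd (nat_lit 234) (nat_lit 456) (nat_lit 0) (XT.nd (nat_lit 78) (nat_lit 304) (nat_lit 0) (XT.lf (nat_lit 0) (nat_lit 8239767963) (nat_lit 152) (nat_lit 5842161) (nat_lit 0) (nat_lit 3962221863) (nat_lit 47) (nat_lit 5) (nat_lit 49) (nat_lit 4) (nat_lit 47) (nat_lit 4) (nat_lit 382) (nat_lit 323) (nat_lit 315)) (XT.nd (nat_lit 78) (nat_lit 76) (nat_lit 0) (XT.lf (nat_lit 0) (nat_lit 884397421) (nat_lit 228) (nat_lit 2891152705) (nat_lit 76) (nat_lit 8767488448) (nat_lit 44) (nat_lit 5) (nat_lit 47) (nat_lit 5) (nat_lit 45) (nat_lit 4) (nat_lit 383) (nat_lit 323) (nat_lit 314)) (XT.lf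 (nat_lit 0) (nat_lit 5816776315) (nat_lit 152) (nat_lit 6126813901) (nat_lit 0) (nat_lit 949658756) (nat_lit 43) (nat_lit 5) (nat_lit 45) (nat_lit 4) (nat_lit 43) (nat_lit 4) (nat_lit 384) (nat_lit 323) (nat_lit 313)))) (XT.nd (nat_lit 156) (nat_lit 228) (nat_lit 0) (XT.nd (nat_lit 78) (nat_lit 76) (nat_lit 0) (XT.lf (nat_lit 0) (nat_lit 3530545207) (nat_lit 152) (nat_lit 7482615724) (nat_lit 152) (nat_lit 2246966628) (nat_lit 41) (nat_lit 4) (nat_lit 43) (nat_lit 5) (nat_lit 43) (nat_lit 4) (nat_lit 385) (nat_lit 323) (nat_lit 312)) (XT.lf (nat_lit 0) (nat_lit 2690259653) (nat_lit 228) (nat_lit 71599220) (nat_lit 76) (nat_lit 10883479610) (nat_lit 40) (nat_lit 5) (nat_lit 43) (nat_lit 5) (nat_lit 41) (nat_lit 4) (nat_lit 386) (nat_lit 323) (nat_lit 311))) (XT.nd (nat_lit 78) (nat_lit 152) (nat_lit 0) (XT.lf (nat_lit 0) (nat_lit 7850439876) (nat_lit 152) (nat_lit 3983484321) (nat_lit 0) (nat_lit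 2211487040) (nat_lit 39) (nat_lit 5) (nat_lit 41) (nat_lit 4) (nat_lit 39) (nat_lit 4) (nat_lit 387) (nat_lit 323) (nat_lit 310)) (XT.lf (nat_lit 0) (nat_lit 6132801970) (nat_lit 152) (nat_lit 7137387259) (nat_lit 152) (nat_lit 1195242615) (nat_lit 37) (nat_lit 4) (nat_lit 39) (nat_lit 5) (nat_lit 39) (nat_lit 4) (nat_lit 388) (nat_lit 323) (nat_lit 309))))) (XT.nd (nat_lit 234) (nat_lit 380) (nat_lit 0) (XT.nd (nat_lit 78) (nat_lit 152) (nat_lit 0) (XT.lf (nat_lit 0) (nat_lit 1722974565) (nat_lit 76) (nat_lit 2156963634) (nat_lit 152) (nat_lit 11025608648) (nat_lit 35) (nat_lit 5) (nat_lit 36) (nat_lit 5) (nat_lit 37) (nat_lit 4) (nat_lit 389) (nat_lit 323) (nat_lit 308)) (XT.nd (nat_lit 78) (nat_lit 152) (nat_lit 0) (XT.lf (nat_lit 0) (nat_lit 9220778253) (nat_lit 152) (nat_lit 3118644937) (nat_lit 0) (nat_lit 3024680490) (nat_lit 35) (nat_lit 5) (nat_lit 37) (nat_lit 4) (nat_lit 35) (nat_lit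 4) (nat_lit 390) (nat_lit 323) (nat_lit 307)) (XT.lf (nat_lit 0) (nat_lit 7403599237) (nat_lit 152) (nat_lit 7443314568) (nat_lit 152) (nat_lit 997780155) (nat_lit 33) (nat_lit 4) (nat_lit 35) (nat_lit 5) (nat_lit 35) (nat_lit 4) (nat_lit 391) (nat_lit 323) (nat_lit 306)))) (XT.nd (nat_lit 156) (nat_lit 228) (nat_lit 0) (XT.nd (nat_lit 78) (nat_lit 0) (nat_lit 0) (XT.lf (nat_lit 0) (nat_lit 1959741110) (nat_lit 76) (nat_lit 2256275590) (nat_lit 152) (nat_lit 12132276723) (nat_lit 31) (nat_lit 5) (nat_lit 32) (nat_lit 5) (nat_lit 33) (nat_lit 4) (nat_lit 392) (nat_lit 323) (nat_lit 305)) (XT.lf (nat_lit 0) (nat_lit 9720502392) (nat_lit 152) (nat_lit 4012412820) (nat_lit 0) (nat_lit 3140179039) (nat_lit 31) (nat_lit 5) (nat_lit 33) (nat_lit 4) (nat_lit 31) (nat_lit 4) (nat_lit 393) (nat_lit 323) (nat_lit 304))) (XT.nd (nat_lit 78) (nat_lit 152) (nat_lit 0) (XT.lf (nat_lit 0) (nat_lit 6828229663)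 (nat_lit 76) (nat_lit 8690270798) (nat_lit 76) (nat_lit 1904735295) (nat_lit 30) (nat_lit 4) (nat_lit 31) (nat_lit 5) (nat_lit 31) (nat_lit 4) (nat_lit 394) (nat_lit 323) (nat_lit 303)) (XT.lf (nat_lit 0) (nat_lit 61063602) (nat_lit 76) (nat_lit 3374077493) (nat_lit 152) (nat_lit 14565690975) (nat_lit 28) (nat_lit 5) (nat_lit 29) (nat_lit 5) (nat_lit 30) (nat_lit 4) (nat_lit 395) (nat_lit 323) (nat_lit 302))))))) (XT.nd (nat_lit 1014) (nat_lit 532) (nat_lit 0) (XT.nd (nat_lit 468) (nat_lit 380) (nat_lit 0) (XT.nd (nat_lit 234) (nat_lit 152) (nat_lit 0) (XT.nd (nat_lit 78) (nat_lit 152) (nat_lit 0) (XT.lf (nat_lit 0) (nat_lit 9070461778) (nat_lit 152) (nat_lit 7286031477) (nat_lit 0) (nat_lit 2244643575) (nat_lit 28) (nat_lit 5) (nat_lit 30) (nat_lit 4) (nat_lit 28) (nat_lit 4) (nat_lit 396) (nat_lit 323) (nat_lit 301)) (XT.nd (nat_lit 78) (nat_lit 76) (nat_lit 0) (XT.lf (nat_lit 0) (nat_lit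 3739207368) (nat_lit 76) (nat_lit 11243573481) (nat_lit 76) (nat_lit 4248926735) (nat_lit 27) (nat_lit 4) (nat_lit 28) (nat_lit 5) (nat_lit 28) (nat_lit 4) (nat_lit 397) (nat_lit 323) (nat_lit 300)) (XT.lf (nat_lit 0) (nat_lit 1262613787) (nat_lit 152) (nat_lit 4567077570) (nat_lit 76) (nat_lit 14062753624) (nat_lit 26) (nat_lit 5) (nat_lit 28) (nat_lit 5) (nat_lit 27) (nat_lit 4) (nat_lit 398) (nat_lit 323) (nat_lit 299)))) (XT.nd (nat_lit 78) (nat_lit 76) (nat_lit 0) (XT.lf (nat_lit 0) (nat_lit 6838766998) (nat_lit 76) (nat_lit 62372171) (nat_lit 152) (nat_lit 13681898058) (nat_lit 25) (nat_lit 5) (nat_lit 26) (nat_lit 5) (nat_lit 27) (nat_lit 4) (nat_lit 399) (nat_lit 323) (nat_lit 298)) (XT.nd (nat_lit 78) (nat_lit 76) (nat_lit 0) (XT.lf (nat_lit 0) (nat_lit 12881682628) (nat_lit 152) (nat_lit 2641236316) (nat_lit 0) (nat_lit 5782245731) (nat_lit 25) (nat_lit 5) (nat_lit 27) (nat_lit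 4) (nat_lit 25) (nat_lit 4) (nat_lit 400) (nat_lit 323) (nat_lit 297)) (XT.lf (nat_lit 0) (nat_lit 9101944379) (nat_lit 76) (nat_lit 10095681821) (nat_lit 76) (nat_lit 2863963342) (nat_lit 24) (nat_lit 4) (nat_lit 25) (nat_lit 5) (nat_lit 25) (nat_lit 4) (nat_lit 401) (nat_lit 323) (nat_lit 296))))) (XT.nd (nat_lit 234) (nat_lit 228) (nat_lit 0) (XT.nd (nat_lit 78) (nat_lit 76) (nat_lit 0) (XT.lf (nat_lit 0) (nat_lit 2817269817) (nat_lit 152) (nat_lit 1582297810) (nat_lit 76) (nat_lit 18457010057) (nat_lit 23) (nat_lit 5) (nat_lit 25) (nat_lit 5) (nat_lit 24) (nat_lit 4) (nat_lit 402) (nat_lit 323) (nat_lit 295)) (XT.nd (nat_lit 78) (nat_lit 0) (nat_lit 0) (XT.lf (nat_lit 0) (nat_lit 8774746116) (nat_lit 152) (nat_lit 13256666424) (nat_lit 0) (nat_lit 1653142087) (nat_lit 22) (nat_lit 5) (nat_lit 24) (nat_lit 4) (nat_lit 22) (nat_lit 4) (nat_lit 403) (nat_lit 323) (nat_lit 294)) (XT.lf (nat_lit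 0) (nat_lit 15028351620) (nat_lit 152) (nat_lit 1727754794) (nat_lit 0) (nat_lit 7797919207) (nat_lit 22) (nat_lit 5) (nat_lit 24) (nat_lit 4) (nat_lit 22) (nat_lit 4) (nat_lit 404) (nat_lit 323) (nat_lit 293)))) (XT.nd (nat_lit 156) (nat_lit 76) (nat_lit 0) (XT.nd (nat_lit 78) (nat_lit 76) (nat_lit 0) (XT.lf (nat_lit 0) (nat_lit 10527777818) (nat_lit 76) (nat_lit 11134937276) (nat_lit 76) (nat_lit 3800858783) (nat_lit 21) (nat_lit 4) (nat_lit 22) (nat_lit 5) (nat_lit 22) (nat_lit 4) (nat_lit 405) (nat_lit 323) (nat_lit 292)) (XT.lf (nat_lit 0) (nat_lit 2073065446) (nat_lit 152) (nat_lit 3183004879) (nat_lit 76) (nat_lit 21164130325) (nat_lit 20) (nat_lit 5) (nat_lit 22) (nat_lit 5) (nat_lit 21) (nat_lit 4) (nat_lit 406) (nat_lit 323) (nat_lit 291))) (XT.nd (nat_lit 78) (nat_lit 0) (nat_lit 0) (XT.lf (nat_lit 0) (nat_lit 8181563462) (nat_lit 152) (nat_lit 18223372463) (nat_lit 0) (nat_lit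 1013183371) (nat_lit 19) (nat_lit 5) (nat_lit 21) (nat_lit 4) (nat_lit 19) (nat_lit 4) (nat_lit 407) (nat_lit 323) (nat_lit 290)) (XT.lf (nat_lit 0) (nat_lit 14645180644) (nat_lit 152) (nat_lit 6426744102) (nat_lit 0) (nat_lit 7391530666) (nat_lit 19) (nat_lit 5) (nat_lit 21) (nat_lit 4) (nat_lit 19) (nat_lit 4) (nat_lit 408) (nat_lit 323) (nat_lit 289)))))) (XT.nd (nat_lit 546) (nat_lit 228) (nat_lit 0) (XT.nd (nat_lit 234) (nat_lit 76) (nat_lit 0) (XT.nd (nat_lit 78) (nat_lit 152) (nat_lit 0) (XT.lf (nat_lit 0) (nat_lit 5981297796) (nat_lit 76) (nat_lit 15457151183) (nat_lit 76) (nat_lit 8122291790) (nat_lit 18) (nat_lit 4) (nat_lit 19) (nat_lit 5) (nat_lit 19) (nat_lit 4) (nat_lit 409) (nat_lit 323) (nat_lit 288)) (XT.nd (nat_lit 78) (nat_lit 152) (nat_lit 0) (XT.lf (nat_lit 0) (nat_lit 19065746698) (nat_lit 76) (nat_lit 9529089153) (nat_lit 76) (nat_lit 2116887459) (nat_lit 18) (nat_lit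 4) (nat_lit 19) (nat_lit 5) (nat_lit 19) (nat_lit 4) (nat_lit 410) (nat_lit 323) (nat_lit 287)) (XT.lf (nat_lit 0) (nat_lit 678586010) (nat_lit 76) (nat_lit 3304071081) (nat_lit 152) (nat_lit 27937936222) (nat_lit 16) (nat_lit 5) (nat_lit 17) (nat_lit 5) (nat_lit 18) (nat_lit 4) (nat_lit 411) (nat_lit 323) (nat_lit 286)))) (XT.nd (nat_lit 156) (nat_lit 76) (nat_lit 0) (XT.nd (nat_lit 78) (nat_lit 0) (nat_lit 0) (XT.lf (nat_lit 0) (nat_lit 10484537632) (nat_lit 152) (nat_lit 19406878935) (nat_lit 0) (nat_lit 3288334990) (nat_lit 16) (nat_lit 5) (nat_lit 18) (nat_lit 4) (nat_lit 16) (nat_lit 4) (nat_lit 412) (nat_lit 323) (nat_lit 285)) (XT.lf (nat_lit 0) (nat_lit 17287175264) (nat_lit 152) (nat_lit 7188571040) (nat_lit 0) (nat_lit 10027342919) (nat_lit 16) (nat_lit 5) (nat_lit 18) (nat_lit 4) (nat_lit 16) (nat_lit 4) (nat_lit 413) (nat_lit 323) (nat_lit 284))) (XT.nd (nat_lit 78) (nat_lit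 0) (nat_lit 0) (XT.lf (nat_lit 0) (nat_lit 5675236407) (nat_lit 76) (nat_lit 18768550872) (nat_lit 76) (nat_lit 11448118810) (nat_lit 15) (nat_lit 4) (nat_lit 16) (nat_lit 5) (nat_lit 16) (nat_lit 4) (nat_lit 414) (nat_lit 323) (nat_lit 283)) (XT.lf (nat_lit 0) (nat_lit 19287118249) (nat_lit 76) (nat_lit 12719390946) (nat_lit 76) (nat_lit 5341244869) (nat_lit 15) (nat_lit 4) (nat_lit 16) (nat_lit 5) (nat_lit 16) (nat_lit 4) (nat_lit 415) (nat_lit 323) (nat_lit 282))))) (XT.nd (nat_lit 234) (nat_lit 76) (nat_lit 0) (XT.nd (nat_lit 78) (nat_lit 76) (nat_lit 0) (XT.lf (nat_lit 0) (nat_lit 965579687) (nat_lit 152) (nat_lit 5453673447) (nat_lit 76) (nat_lit 32459864858) (nat_lit 14) (nat_lit 5) (nat_lit 16) (nat_lit 5) (nat_lit 15) (nat_lit 4) (nat_lit 416) (nat_lit 323) (nat_lit 281)) (XT.nd (nat_lit 78) (nat_lit 0) (nat_lit 0) (XT.lf (nat_lit 0) (nat_lit 7467960113) (nat_lit 152) (nat_lit 32672779338)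 (nat_lit 0) (nat_lit 338950475) (nat_lit 13) (nat_lit 5) (nat_lit 15) (nat_lit 4) (nat_lit 13) (nat_lit 4) (nat_lit 417) (nat_lit 323) (nat_lit 280)) (XT.lf (nat_lit 0) (nat_lit 14427002659) (nat_lit 152) (nat_lit 20476202565) (nat_lit 0) (nat_lit 7250511558) (nat_lit 13) (nat_lit 5) (nat_lit 15) (nat_lit 4) (nat_lit 13) (nat_lit 4) (nat_lit 418) (nat_lit 323) (nat_lit 279)))) (XT.nd (nat_lit 156) (nat_lit 0) (nat_lit 0) (XT.nd (nat_lit 78) (nat_lit 76) (nat_lit 0) (XT.lf (nat_lit 0) (nat_lit 21669649459) (nat_lit 152) (nat_lit 7797078312) (nat_lit 0) (nat_lit 14447937917) (nat_lit 13) (nat_lit 5) (nat_lit 15) (nat_lit 4) (nat_lit 13) (nat_lit 4) (nat_lit 419) (nat_lit 323) (nat_lit 278)) (XT.lf (nat_lit 0) (nat_lit 5573157663) (nat_lit 76) (nat_lit 23726999859) (nat_lit 76) (nat_lit 16462221229) (nat_lit 12) (nat_lit 4) (nat_lit 13) (nat_lit 5) (nat_lit 13) (nat_lit 4) (nat_lit 420) (nat_lit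 323) (nat_lit 277))) (XT.nd (nat_lit 78) (nat_lit 0) (nat_lit 0) (XT.lf (nat_lit 0) (nat_lit 19763337216) (nat_lit 76) (nat_lit 17620673584) (nat_lit 76) (nat_lit 10314878681) (nat_lit 12) (nat_lit 4) (nat_lit 13) (nat_lit 5) (nat_lit 13) (nat_lit 4) (nat_lit 421) (nat_lit 323) (nat_lit 276)) (XT.lf (nat_lit 0) (nat_lit 34549439867) (nat_lit 76) (nat_lit 11265257370) (nat_lit 76) (nat_lit 3920399349) (nat_lit 12) (nat_lit 4) (nat_lit 13) (nat_lit 5) (nat_lit 13) (nat_lit 4) (nat_lit 422) (nat_lit 323) (nat_lit 275))))))))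
noncomputable def xc58 : XT := (XT.nd (nat_lit 2106) (nat_lit 76) (nat_lit 0) (XT.nd (nat_lit 1014) (nat_lit 228) (nat_lit 0) (XT.nd (nat_lit 468) (nat_lit 152) (nat_lit 0) (XT.nd (nat_lit 234) (nat_lit 76) (nat_lit 0) (XT.nd (nat_lit 78) (nat_lit 76) (nat_lit 0) (XT.lf (nat_lit 0) (nat_lit 2648858491) (nat_lit 152) (nat_lit 1951901081) (nat_lit 76) (nat_lit 47272952430) (nat_lit 11) (nat_lit 5) (nat_lit 13) (nat_lit 5) (nat_lit 12) (nat_lit 4) (nat_lit 423) (nat_lit 323) (nat_lit 274)) (XT.nd (nat_lit 78) (nat_lit 0) (nat_lit 0) (XT.lf (nat_lit 0) (nat_lit 9592637142) (nat_lit 152) (nat_lit 41986160949) (nat_lit 0) (nat_lit 2528358677) (nat_lit 10) (nat_lit 5) (nat_lit 12) (nat_lit 4) (nat_lit 10) (nat_lit 4) (nat_lit 424) (nat_lit 323) (nat_lit 273)) (XT.lf (nat_lit 0) (nat_lit 16939853840) (nat_lit 152) (nat_lit 29666171780) (nat_lit 0) (nat_lit 9843438051) (nat_lit 10) (nat_lit 5) (nat_lit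 12) (nat_lit 4) (nat_lit 10) (nat_lit 4) (nat_lit 425) (nat_lit 323) (nat_lit 272)))) (XT.nd (nat_lit 78) (nat_lit 76) (nat_lit 0) (XT.lf (nat_lit 0) (nat_lit 24604172828) (nat_lit 152) (nat_lit 16830078197) (nat_lit 0) (nat_lit 17477150065) (nat_lit 10) (nat_lit 5) (nat_lit 12) (nat_lit 4) (nat_lit 10) (nat_lit 4) (nat_lit 426) (nat_lit 323) (nat_lit 271)) (XT.nd (nat_lit 78) (nat_lit 76) (nat_lit 0) (XT.lf (nat_lit 0) (nat_lit 32603842486) (nat_lit 152) (nat_lit 3447318072) (nat_lit 0) (nat_lit 25447670223) (nat_lit 10) (nat_lit 5) (nat_lit 12) (nat_lit 4) (nat_lit 10) (nat_lit 4) (nat_lit 427) (nat_lit 323) (nat_lit 270)) (XT.lf (nat_lit 0) (nat_lit 10861611717) (nat_lit 76) (nat_lit 30265878127) (nat_lit 76) (nat_lit 23081944436) (nat_lit 9) (nat_lit 4) (nat_lit 10) (nat_lit 5) (nat_lit 10) (nat_lit 4) (nat_lit 428) (nat_lit 323) (nat_lit 269))))) (XT.nd (nat_lit 234) (nat_lit 152) (nat_lit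 0) (XT.nd (nat_lit 78) (nat_lit 0) (nat_lit 0) (XT.lf (nat_lit 0) (nat_lit 25916524761) (nat_lit 76) (nat_lit 24174369765) (nat_lit 76) (nat_lit 16963996618) (nat_lit 9) (nat_lit 4) (nat_lit 10) (nat_lit 5) (nat_lit 10) (nat_lit 4) (nat_lit 429) (nat_lit 323) (nat_lit 268)) (XT.nd (nat_lit 78) (nat_lit 0) (nat_lit 0) (XT.lf (nat_lit 0) (nat_lit 41639282186) (nat_lit 76) (nat_lit 17820513879) (nat_lit 76) (nat_lit 10584960298) (nat_lit 9) (nat_lit 4) (nat_lit 10) (nat_lit 5) (nat_lit 10) (nat_lit 4) (nat_lit 430) (nat_lit 323) (nat_lit 267)) (XT.lf (nat_lit 0) (nat_lit 58067319131) (nat_lit 76) (nat_lit 11189182242) (nat_lit 76) (nat_lit 3929647296) (nat_lit 9) (nat_lit 4) (nat_lit 10) (nat_lit 5) (nat_lit 10) (nat_lit 4) (nat_lit 431) (nat_lit 323) (nat_lit 266)))) (XT.nd (nat_lit 156) (nat_lit 0) (nat_lit 0) (XT.nd (nat_lit 78) (nat_lit 76) (nat_lit 0) (XT.lf (nat_lit 0) (nat_lit 2921200297)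 (nat_lit 152) (nat_lit 1293913731) (nat_lit 76) (nat_lit 72269077729) (nat_lit 8) (nat_lit 5) (nat_lit 10) (nat_lit 5) (nat_lit 9) (nat_lit 4) (nat_lit 432) (nat_lit 323) (nat_lit 265)) (XT.lf (nat_lit 0) (nat_lit 10208534966) (nat_lit 152) (nat_lit 66471857850) (nat_lit 0) (nat_lit 3252224349) (nat_lit 7) (nat_lit 5) (nat_lit 9) (nat_lit 4) (nat_lit 7) (nat_lit 4) (nat_lit 433) (nat_lit 323) (nat_lit 264))) (XT.nd (nat_lit 78) (nat_lit 0) (nat_lit 0) (XT.lf (nat_lit 0) (nat_lit 17914208126) (nat_lit 152) (nat_lit 54698390594) (nat_lit 0) (nat_lit 10938167980) (nat_lit 7) (nat_lit 5) (nat_lit 9) (nat_lit 4) (nat_lit 7) (nat_lit 4) (nat_lit 434) (nat_lit 323) (nat_lit 263)) (XT.lf (nat_lit 0) (nat_lit 25969545176) (nat_lit 152) (nat_lit 42407345900) (nat_lit 0) (nat_lit 18974715003) (nat_lit 7) (nat_lit 5) (nat_lit 9) (nat_lit 4) (nat_lit 7) (nat_lit 4) (nat_lit 435) (nat_lit 323) (nat_lit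 262)))))) (XT.nd (nat_lit 546) (nat_lit 152) (nat_lit 0) (XT.nd (nat_lit 234) (nat_lit 76) (nat_lit 0) (XT.nd (nat_lit 78) (nat_lit 0) (nat_lit 0) (XT.lf (nat_lit 0) (nat_lit 34393725490) (nat_lit 152) (nat_lit 29569459375) (nat_lit 0) (nat_lit 27381000052) (nat_lit 7) (nat_lit 5) (nat_lit 9) (nat_lit 4) (nat_lit 7) (nat_lit 4) (nat_lit 436) (nat_lit 323) (nat_lit 261)) (XT.nd (nat_lit 78) (nat_lit 0) (nat_lit 0) (XT.lf (nat_lit 0) (nat_lit 43206806639) (nat_lit 152) (nat_lit 16154164624) (nat_lit 0) (nat_lit 36177038093) (nat_lit 7) (nat_lit 5) (nat_lit 9) (nat_lit 4) (nat_lit 7) (nat_lit 4) (nat_lit 437) (nat_lit 323) (nat_lit 260)) (XT.lf (nat_lit 0) (nat_lit 52429772151) (nat_lit 152) (nat_lit 2129520467) (nat_lit 0) (nat_lit 45383772072) (nat_lit 7) (nat_lit 5) (nat_lit 9) (nat_lit 4) (nat_lit 7) (nat_lit 4) (nat_lit 438) (nat_lit 323) (nat_lit 259)))) (XT.nd (nat_lit 156) (nat_lit 0)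 (nat_lit 0) (XT.nd (nat_lit 78) (nat_lit 0) (nat_lit 0) (XT.lf (nat_lit 0) (nat_lit 12952423546) (nat_lit 76) (nat_lit 49334381550) (nat_lit 76) (nat_lit 42272922870) (nat_lit 6) (nat_lit 4) (nat_lit 7) (nat_lit 5) (nat_lit 7) (nat_lit 4) (nat_lit 439) (nat_lit 323) (nat_lit 258)) (XT.lf (nat_lit 0) (nat_lit 28804849511) (nat_lit 76) (nat_lit 43839097142) (nat_lit 76) (nat_lit 36762915984) (nat_lit 6) (nat_lit 4) (nat_lit 7) (nat_lit 5) (nat_lit 7) (nat_lit 4) (nat_lit 440) (nat_lit 323) (nat_lit 257))) (XT.nd (nat_lit 78) (nat_lit 0) (nat_lit 0) (XT.lf (nat_lit 0) (nat_lit 45395089732) (nat_lit 76) (nat_lit 38096419844) (nat_lit 76) (nat_lit 31006217278) (nat_lit 6) (nat_lit 4) (nat_lit 7) (nat_lit 5) (nat_lit 7) (nat_lit 4) (nat_lit 441) (nat_lit 323) (nat_lit 256)) (XT.lf (nat_lit 0) (nat_lit 62762644783) (nat_lit 76) (nat_lit 32092676615) (nat_lit 76) (nat_lit 24989120327) (nat_lit 6)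 (nat_lit 4) (nat_lit 7) (nat_lit 5) (nat_lit 7) (nat_lit 4) (nat_lit 442) (nat_lit 323) (nat_lit 255))))) (XT.nd (nat_lit 234) (nat_lit 152) (nat_lit 0) (XT.nd (nat_lit 78) (nat_lit 0) (nat_lit 0) (XT.lf (nat_lit 0) (nat_lit 80948865984) (nat_lit 76) (nat_lit 25813572827) (nat_lit 76) (nat_lit 18697298709) (nat_lit 6) (nat_lit 4) (nat_lit 7) (nat_lit 5) (nat_lit 7) (nat_lit 4) (nat_lit 443) (nat_lit 323) (nat_lit 254)) (XT.nd (nat_lit 78) (nat_lit 0) (nat_lit 0) (XT.lf (nat_lit 0) (nat_lit 99997053862) (nat_lit 76) (nat_lit 19244158233) (nat_lit 76) (nat_lit 12115771896) (nat_lit 6) (nat_lit 4) (nat_lit 7) (nat_lit 5) (nat_lit 7) (nat_lit 4) (nat_lit 444) (nat_lit 323) (nat_lit 253)) (XT.lf (nat_lit 0) (nat_lit 119952561247) (nat_lit 76) (nat_lit 12368791371) (nat_lit 76) (nat_lit 5228869587) (nat_lit 6) (nat_lit 4) (nat_lit 7) (nat_lit 5) (nat_lit 7) (nat_lit 4) (nat_lit 445) (nat_lit 323)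 (nat_lit 252)))) (XT.nd (nat_lit 156) (nat_lit 0) (nat_lit 0) (XT.nd (nat_lit 78) (nat_lit 76) (nat_lit 0) (XT.lf (nat_lit 0) (nat_lit 1916439461) (nat_lit 152) (nat_lit 3222207028) (nat_lit 76) (nat_lit 138914005958) (nat_lit 5) (nat_lit 5) (nat_lit 7) (nat_lit 5) (nat_lit 6) (nat_lit 4) (nat_lit 446) (nat_lit 323) (nat_lit 251)) (XT.lf (nat_lit 0) (nat_lit 9454395766) (nat_lit 152) (nat_lit 138776925389) (nat_lit 0) (nat_lit 2634042514) (nat_lit 4) (nat_lit 5) (nat_lit 6) (nat_lit 4) (nat_lit 4) (nat_lit 4) (nat_lit 447) (nat_lit 323) (nat_lit 250))) (XT.nd (nat_lit 78) (nat_lit 0) (nat_lit 0) (XT.lf (nat_lit 0) (nat_lit 17488177588) (nat_lit 152) (nat_lit 129866253078) (nat_lit 0) (nat_lit 10658334095) (nat_lit 4) (nat_lit 5) (nat_lit 6) (nat_lit 4) (nat_lit 4) (nat_lit 4) (nat_lit 448) (nat_lit 323) (nat_lit 249)) (XT.lf (nat_lit 0) (nat_lit 25903861241) (nat_lit 152) (nat_lit 120549685270)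 (nat_lit 0) (nat_lit 19064979423) (nat_lit 4) (nat_lit 5) (nat_lit 6) (nat_lit 4) (nat_lit 4) (nat_lit 4) (nat_lit 449) (nat_lit 323) (nat_lit 248))))))) (XT.nd (nat_lit 1014) (nat_lit 0) (nat_lit 0) (XT.nd (nat_lit 468) (nat_lit 76) (nat_lit 0) (XT.nd (nat_lit 234) (nat_lit 0) (nat_lit 0) (XT.nd (nat_lit 78) (nat_lit 0) (nat_lit 0) (XT.lf (nat_lit 0) (nat_lit 34721484066) (nat_lit 152) (nat_lit 110805039660) (nat_lit 0) (nat_lit 27873994321) (nat_lit 4) (nat_lit 5) (nat_lit 6) (nat_lit 4) (nat_lit 4) (nat_lit 4) (nat_lit 450) (nat_lit 323) (nat_lit 247)) (XT.nd (nat_lit 78) (nat_lit 0) (nat_lit 0) (XT.lf (nat_lit 0) (nat_lit 43962040404) (nat_lit 152) (nat_lit 100609114712) (nat_lit 0) (nat_lit 37106352632) (nat_lit 4) (nat_lit 5) (nat_lit 6) (nat_lit 4) (nat_lit 4) (nat_lit 4) (nat_lit 451) (nat_lit 323) (nat_lit 246)) (XT.lf (nat_lit 0) (nat_lit 53647531579) (nat_lit 152) (nat_lit 89937634413)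 (nat_lit 0) (nat_lit 46784036162) (nat_lit 4) (nat_lit 5) (nat_lit 6) (nat_lit 4) (nat_lit 4) (nat_lit 4) (nat_lit 452) (nat_lit 323) (nat_lit 245)))) (XT.nd (nat_lit 78) (nat_lit 0) (nat_lit 0) (XT.lf (nat_lit 0) (nat_lit 63801018284) (nat_lit 152) (nat_lit 78765190478) (nat_lit 0) (nat_lit 56930087016) (nat_lit 4) (nat_lit 5) (nat_lit 6) (nat_lit 4) (nat_lit 4) (nat_lit 4) (nat_lit 453) (nat_lit 323) (nat_lit 244)) (XT.nd (nat_lit 78) (nat_lit 0) (nat_lit 0) (XT.lf (nat_lit 0) (nat_lit 74446675488) (nat_lit 152) (nat_lit 67065181848) (nat_lit 0) (nat_lit 67568662456) (nat_lit 4) (nat_lit 5) (nat_lit 6) (nat_lit 4) (nat_lit 4) (nat_lit 4) (nat_lit 454) (nat_lit 323) (nat_lit 243)) (XT.lf (nat_lit 0) (nat_lit 85609849994) (nat_lit 152) (nat_lit 54809751362) (nat_lit 0) (nat_lit 78725092425) (nat_lit 4) (nat_lit 5) (nat_lit 6) (nat_lit 4) (nat_lit 4) (nat_lit 4) (nat_lit 455) (nat_lit 323)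 (nat_lit 242))))) (XT.nd (nat_lit 234) (nat_lit 76) (nat_lit 0) (XT.nd (nat_lit 78) (nat_lit 0) (nat_lit 0) (XT.lf (nat_lit 0) (nat_lit 97317120789) (nat_lit 152) (nat_lit 41969719422) (nat_lit 0) (nat_lit 90425939851) (nat_lit 4) (nat_lit 5) (nat_lit 6) (nat_lit 4) (nat_lit 4) (nat_lit 4) (nat_lit 456) (nat_lit 323) (nat_lit 241)) (XT.nd (nat_lit 78) (nat_lit 0) (nat_lit 0) (XT.lf (nat_lit 0) (nat_lit 109596362326) (nat_lit 152) (nat_lit 28514514524) (nat_lit 0) (nat_lit 102699063895) (nat_lit 4) (nat_lit 5) (nat_lit 6) (nat_lit 4) (nat_lit 4) (nat_lit 4) (nat_lit 457) (nat_lit 323) (nat_lit 240)) (XT.lf (nat_lit 0) (nat_lit 122476810896) (nat_lit 152) (nat_lit 14412100466) (nat_lit 0) (nat_lit 115573686280) (nat_lit 4) (nat_lit 5) (nat_lit 6) (nat_lit 4) (nat_lit 4) (nat_lit 4) (nat_lit 458) (nat_lit 323) (nat_lit 239)))) (XT.nd (nat_lit 156) (nat_lit 0) (nat_lit 0) (XT.nd (nat_lit 78)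 (nat_lit 0) (nat_lit 0) (XT.lf (nat_lit 0) (nat_lit 383370168) (nat_lit 76) (nat_lit 135611749546) (nat_lit 76) (nat_lit 128703076183) (nat_lit 3) (nat_lit 4) (nat_lit 4) (nat_lit 5) (nat_lit 4) (nat_lit 4) (nat_lit 459) (nat_lit 323) (nat_lit 238)) (XT.lf (nat_lit 0) (nat_lit 16395028043) (nat_lit 76) (nat_lit 134026448825) (nat_lit 76) (nat_lit 127112490941) (nat_lit 3) (nat_lit 4) (nat_lit 4) (nat_lit 5) (nat_lit 4) (nat_lit 4) (nat_lit 460) (nat_lit 323) (nat_lit 237))) (XT.nd (nat_lit 78) (nat_lit 0) (nat_lit 0) (XT.lf (nat_lit 0) (nat_lit 33184467024) (nat_lit 76) (nat_lit 132373310569) (nat_lit 76) (nat_lit 125454319808) (nat_lit 3) (nat_lit 4) (nat_lit 4) (nat_lit 5) (nat_lit 4) (nat_lit 4) (nat_lit 461) (nat_lit 323) (nat_lit 236)) (XT.lf (nat_lit 0) (nat_lit 50791661967) (nat_lit 76) (nat_lit 130648398733) (nat_lit 76) (nat_lit 123724614755) (nat_lit 3) (nat_lit 4) (nat_lit 4) (nat_lit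 5) (nat_lit 4) (nat_lit 4) (nat_lit 462) (nat_lit 323) (nat_lit 235)))))) (XT.nd (nat_lit 546) (nat_lit 0) (nat_lit 0) (XT.nd (nat_lit 234) (nat_lit 0) (nat_lit 0) (XT.nd (nat_lit 78) (nat_lit 0) (nat_lit 0) (XT.lf (nat_lit 0) (nat_lit 69258534763) (nat_lit 76) (nat_lit 128847606385) (nat_lit 76) (nat_lit 121919257439) (nat_lit 3) (nat_lit 4) (nat_lit 4) (nat_lit 5) (nat_lit 4) (nat_lit 4) (nat_lit 463) (nat_lit 323) (nat_lit 234)) (XT.nd (nat_lit 78) (nat_lit 0) (nat_lit 0) (XT.lf (nat_lit 0) (nat_lit 88629054159) (nat_lit 76) (nat_lit 126966645924) (nat_lit 76) (nat_lit 120033949389) (nat_lit 3) (nat_lit 4) (nat_lit 4) (nat_lit 5) (nat_lit 4) (nat_lit 4) (nat_lit 464) (nat_lit 323) (nat_lit 233)) (XT.lf (nat_lit 0) (nat_lit 108949340437) (nat_lit 76) (nat_lit 125001038872) (nat_lit 76) (nat_lit 118064201777) (nat_lit 3) (nat_lit 4) (nat_lit 4) (nat_lit 5) (nat_lit 4) (nat_lit 4) (nat_lit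 465) (nat_lit 323) (nat_lit 232)))) (XT.nd (nat_lit 156) (nat_lit 0) (nat_lit 0) (XT.nd (nat_lit 78) (nat_lit 0) (nat_lit 0) (XT.lf (nat_lit 0) (nat_lit 130267775233) (nat_lit 76) (nat_lit 122946105213) (nat_lit 76) (nat_lit 116005324727) (nat_lit 3) (nat_lit 4) (nat_lit 4) (nat_lit 5) (nat_lit 4) (nat_lit 4) (nat_lit 466) (nat_lit 323) (nat_lit 231)) (XT.lf (nat_lit 0) (nat_lit 152635116723) (nat_lit 76) (nat_lit 120796952248) (nat_lit 76) (nat_lit 113852416152) (nat_lit 3) (nat_lit 4) (nat_lit 4) (nat_lit 5) (nat_lit 4) (nat_lit 4) (nat_lit 467) (nat_lit 323) (nat_lit 230))) (XT.nd (nat_lit 78) (nat_lit 0) (nat_lit 0) (XT.lf (nat_lit 0) (nat_lit 176104620484) (nat_lit 76) (nat_lit 118548462946) (nat_lit 76) (nat_lit 111600350078) (nat_lit 3) (nat_lit 4) (nat_lit 4) (nat_lit 5) (nat_lit 4) (nat_lit 4) (nat_lit 468) (nat_lit 323) (nat_lit 229)) (XT.lf (nat_lit 0) (nat_lit 200732166286) (nat_lit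 76) (nat_lit 116195283761) (nat_lit 76) (nat_lit 109243764443) (nat_lit 3) (nat_lit 4) (nat_lit 4) (nat_lit 5) (nat_lit 4) (nat_lit 4) (nat_lit 469) (nat_lit 323) (nat_lit 228))))) (XT.nd (nat_lit 234) (nat_lit 0) (nat_lit 0) (XT.nd (nat_lit 78) (nat_lit 0) (nat_lit 0) (XT.lf (nat_lit 0) (nat_lit 226576391143) (nat_lit 76) (nat_lit 113731811884) (nat_lit 76) (nat_lit 106777048329) (nat_lit 3) (nat_lit 4) (nat_lit 4) (nat_lit 5) (nat_lit 4) (nat_lit 4) (nat_lit 470) (nat_lit 323) (nat_lit 227)) (XT.nd (nat_lit 78) (nat_lit 0) (nat_lit 0) (XT.lf (nat_lit 0) (nat_lit 253698828923) (nat_lit 76) (nat_lit 111152181908) (nat_lit 76) (nat_lit 104194328603) (nat_lit 3) (nat_lit 4) (nat_lit 4) (nat_lit 5) (nat_lit 4) (nat_lit 4) (nat_lit 471) (nat_lit 323) (nat_lit 226)) (XT.lf (nat_lit 0) (nat_lit 282164056859) (nat_lit 76) (nat_lit 108450251856) (nat_lit 76) (nat_lit 101489455932) (nat_lit 3) (nat_lit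 4) (nat_lit 4) (nat_lit 5) (nat_lit 4) (nat_lit 4) (nat_lit 472) (nat_lit 323) (nat_lit 225)))) (XT.nd (nat_lit 156) (nat_lit 0) (nat_lit 0) (XT.nd (nat_lit 78) (nat_lit 0) (nat_lit 0) (XT.lf (nat_lit 0) (nat_lit 312039849304) (nat_lit 76) (nat_lit 105619588561) (nat_lit 76) (nat_lit 98655990142) (nat_lit 3) (nat_lit 4) (nat_lit 4) (nat_lit 5) (nat_lit 4) (nat_lit 4) (nat_lit 473) (nat_lit 323) (nat_lit 224)) (XT.lf (nat_lit 0) (nat_lit 343397339097) (nat_lit 76) (nat_lit 102653452348) (nat_lit 76) (nat_lit 95687184887) (nat_lit 3) (nat_lit 4) (nat_lit 4) (nat_lit 5) (nat_lit 4) (nat_lit 4) (nat_lit 474) (nat_lit 323) (nat_lit 223))) (XT.nd (nat_lit 78) (nat_lit 0) (nat_lit 0) (XT.lf (nat_lit 0) (nat_lit 376311186928) (nat_lit 76) (nat_lit 99544780989) (nat_lit 76) (nat_lit 92575971583) (nat_lit 3) (nat_lit 4) (nat_lit 4) (nat_lit 5) (nat_lit 4) (nat_lit 4) (nat_lit 475) (nat_lit 323) (nat_lit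 222)) (XT.lf (nat_lit 0) (nat_lit 410859759100) (nat_lit 76) (nat_lit 96286172885) (nat_lit 76) (nat_lit 89314942579) (nat_lit 3) (nat_lit 4) (nat_lit 4) (nat_lit 5) (nat_lit 4) (nat_lit 4) (nat_lit 476) (nat_lit 323) (nat_lit 221))))))))
noncomputable def xc59 : XT := (XT.nd (nat_lit 46410) (nat_lit 0) (nat_lit 760) (XT.nd (nat_lit 45318) (nat_lit 0) (nat_lit 2432) (XT.nd (nat_lit 468) (nat_lit 0) (nat_lit 0) (XT.nd (nat_lit 234) (nat_lit 0) (nat_lit 0) (XT.nd (nat_lit 78) (nat_lit 0) (nat_lit 0) (XT.lf (nat_lit 0) (nat_lit 447125314120) (nat_lit 76) (nat_lit 92869869445) (nat_lit 76) (nat_lit 85896333520) (nat_lit 3) (nat_lit 4) (nat_lit 4) (nat_lit 5) (nat_lit 4) (nat_lit 4) (nat_lit 477) (nat_lit 323) (nat_lit 220)) (XT.nd (nat_lit 78) (nat_lit 0) (nat_lit 0) (XT.lf (nat_lit 0) (nat_lit 485194198546) (nat_lit 76) (nat_lit 89287736614) (nat_lit 76) (nat_lit 82312004861) (nat_lit 3) (nat_lit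 4) (nat_lit 4) (nat_lit 5) (nat_lit 4) (nat_lit 4) (nat_lit 478) (nat_lit 323) (nat_lit 219)) (XT.lf (nat_lit 0) (nat_lit 525157052580) (nat_lit 76) (nat_lit 85531245504) (nat_lit 76) (nat_lit 78553422486) (nat_lit 3) (nat_lit 4) (nat_lit 4) (nat_lit 5) (nat_lit 4) (nat_lit 4) (nat_lit 479) (nat_lit 323) (nat_lit 218)))) (XT.nd (nat_lit 78) (nat_lit 0) (nat_lit 0) (XT.lf (nat_lit 0) (nat_lit 567109025875) (nat_lit 76) (nat_lit 81591452088) (nat_lit 76) (nat_lit 74611637390) (nat_lit 3) (nat_lit 4) (nat_lit 4) (nat_lit 5) (nat_lit 4) (nat_lit 4) (nat_lit 480) (nat_lit 323) (nat_lit 217)) (XT.nd (nat_lit 78) (nat_lit 0) (nat_lit 0) (XT.lf (nat_lit 0) (nat_lit 611150004080) (nat_lit 76) (nat_lit 77458975905) (nat_lit 76) (nat_lit 70477264369) (nat_lit 3) (nat_lit 4) (nat_lit 4) (nat_lit 5) (nat_lit 4) (nat_lit 4) (nat_lit 481) (nat_lit 323) (nat_lit 216)) (XT.lf (nat_lit 0) (nat_lit 657384846669)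 (nat_lit 76) (nat_lit 73123977728) (nat_lit 76) (nat_lit 66140459679) (nat_lit 3) (nat_lit 4) (nat_lit 4) (nat_lit 5) (nat_lit 4) (nat_lit 4) (nat_lit 482) (nat_lit 323) (nat_lit 215))))) (XT.nd (nat_lit 44538) (nat_lit 0) (nat_lit 4028) (XT.nd (nat_lit 78) (nat_lit 0) (nat_lit 0) (XT.lf (nat_lit 0) (nat_lit 705923636599) (nat_lit 76) (nat_lit 68576136131) (nat_lit 76) (nat_lit 61590897594) (nat_lit 3) (nat_lit 4) (nat_lit 4) (nat_lit 5) (nat_lit 4) (nat_lit 4) (nat_lit 483) (nat_lit 323) (nat_lit 214)) (XT.nd (nat_lit 44382) (nat_lit 0) (nat_lit 4864) (XT.lf (nat_lit 0) (nat_lit 756881942417) (nat_lit 76) (nat_lit 63804622921) (nat_lit 76) (nat_lit 56817745823) (nat_lit 3) (nat_lit 4) (nat_lit 4) (nat_lit 5) (nat_lit 4) (nat_lit 4) (nat_lit 484) (nat_lit 323) (nat_lit 213)) (XT.lf (nat_lit 0) (nat_lit 1991805616) (nat_lit 228) (nat_lit 806915280) (nat_lit 0) (nat_lit 1991805616) (nat_lit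 67) (nat_lit 5) (nat_lit 70) (nat_lit 4) (nat_lit 67) (nat_lit 4) (nat_lit 372) (nat_lit 324) (nat_lit 324)))) (XT.nd (nat_lit 156) (nat_lit 380) (nat_lit 0) (XT.nd (nat_lit 78) (nat_lit 228) (nat_lit 0) (XT.lf (nat_lit 0) (nat_lit 6607372128) (nat_lit 228) (nat_lit 1996070970) (nat_lit 228) (nat_lit 1191612845) (nat_lit 64) (nat_lit 4) (nat_lit 67) (nat_lit 5) (nat_lit 67) (nat_lit 4) (nat_lit 373) (nat_lit 324) (nat_lit 323)) (XT.lf (nat_lit 0) (nat_lit 3291784405) (nat_lit 228) (nat_lit 4931020257) (nat_lit 0) (nat_lit 1795966576) (nat_lit 61) (nat_lit 5) (nat_lit 64) (nat_lit 4) (nat_lit 61) (nat_lit 4) (nat_lit 374) (nat_lit 324) (nat_lit 322))) (XT.nd (nat_lit 78) (nat_lit 228) (nat_lit 0) (XT.lf (nat_lit 0) (nat_lit 3421736303) (nat_lit 152) (nat_lit 4511525688) (nat_lit 152) (nat_lit 2320786684) (nat_lit 59) (nat_lit 4) (nat_lit 61) (nat_lit 5) (nat_lit 61) (nat_lit 4) (nat_lit 375)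 (nat_lit 324) (nat_lit 321)) (XT.lf (nat_lit 0) (nat_lit 1608058968) (nat_lit 152) (nat_lit 567856964) (nat_lit 228) (nat_lit 8326220803) (nat_lit 56) (nat_lit 5) (nat_lit 58) (nat_lit 5) (nat_lit 59) (nat_lit 4) (nat_lit 376) (nat_lit 324) (nat_lit 320)))))) (XT.nd (nat_lit 546) (nat_lit 684) (nat_lit 0) (XT.nd (nat_lit 234) (nat_lit 532) (nat_lit 0) (XT.nd (nat_lit 78) (nat_lit 380) (nat_lit 0) (XT.lf (nat_lit 0) (nat_lit 6828923194) (nat_lit 228) (nat_lit 419482493) (nat_lit 0) (nat_lit 3511892065) (nat_lit 56) (nat_lit 5) (nat_lit 59) (nat_lit 4) (nat_lit 56) (nat_lit 4) (nat_lit 377) (nat_lit 324) (nat_lit 319)) (XT.nd (nat_lit 78) (nat_lit 152) (nat_lit 0) (XT.lf (nat_lit 0) (nat_lit 646646170) (nat_lit 228) (nat_lit 2563119849) (nat_lit 76) (nat_lit 7821842398) (nat_lit 53) (nat_lit 5) (nat_lit 56) (nat_lit 5) (nat_lit 54) (nat_lit 4) (nat_lit 378) (nat_lit 324) (nat_lit 318)) (XT.lf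 (nat_lit 0) (nat_lit 5290203584) (nat_lit 228) (nat_lit 4956582303) (nat_lit 0) (nat_lit 1068076514) (nat_lit 51) (nat_lit 5) (nat_lit 54) (nat_lit 4) (nat_lit 51) (nat_lit 4) (nat_lit 379) (nat_lit 324) (nat_lit 317)))) (XT.nd (nat_lit 156) (nat_lit 228) (nat_lit 0) (XT.nd (nat_lit 78) (nat_lit 152) (nat_lit 0) (XT.lf (nat_lit 0) (nat_lit 4015642431) (nat_lit 152) (nat_lit 6156186461) (nat_lit 152) (nat_lit 1440191886) (nat_lit 49) (nat_lit 4) (nat_lit 51) (nat_lit 5) (nat_lit 51) (nat_lit 4) (nat_lit 380) (nat_lit 324) (nat_lit 316)) (XT.lf (nat_lit 0) (nat_lit 1414958137) (nat_lit 76) (nat_lit 1805189529) (nat_lit 152) (nat_lit 8703557635) (nat_lit 47) (nat_lit 5) (nat_lit 48) (nat_lit 5) (nat_lit 49) (nat_lit 4) (nat_lit 381) (nat_lit 324) (nat_lit 315))) (XT.nd (nat_lit 78) (nat_lit 228) (nat_lit 0) (XT.lf (nat_lit 0) (nat_lit 8087687569) (nat_lit 152) (nat_lit 1439317639) (nat_lit 0)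 (nat_lit 2721690460) (nat_lit 47) (nat_lit 5) (nat_lit 49) (nat_lit 4) (nat_lit 47) (nat_lit 4) (nat_lit 382) (nat_lit 324) (nat_lit 314)) (XT.lf (nat_lit 0) (nat_lit 600634331) (nat_lit 228) (nat_lit 4541002748) (nat_lit 76) (nat_lit 7447279352) (nat_lit 44) (nat_lit 5) (nat_lit 47) (nat_lit 5) (nat_lit 45) (nat_lit 4) (nat_lit 383) (nat_lit 324) (nat_lit 313))))) (XT.nd (nat_lit 234) (nat_lit 380) (nat_lit 0) (XT.nd (nat_lit 78) (nat_lit 228) (nat_lit 0) (XT.lf (nat_lit 0) (nat_lit 4949869766) (nat_lit 76) (nat_lit 469218529) (nat_lit 152) (nat_lit 7525747955) (nat_lit 43) (nat_lit 5) (nat_lit 44) (nat_lit 5) (nat_lit 45) (nat_lit 4) (nat_lit 384) (nat_lit 324) (nat_lit 312)) (XT.nd (nat_lit 78) (nat_lit 76) (nat_lit 0) (XT.lf (nat_lit 0) (nat_lit 1479322174) (nat_lit 152) (nat_lit 9027394269) (nat_lit 152) (nat_lit 2810448767) (nat_lit 41) (nat_lit 4) (nat_lit 43) (nat_lit 5) (nat_lit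 43) (nat_lit 4) (nat_lit 385) (nat_lit 324) (nat_lit 311)) (XT.lf (nat_lit 0) (nat_lit 2075669377) (nat_lit 228) (nat_lit 2296092244) (nat_lit 76) (nat_lit 9334522925) (nat_lit 40) (nat_lit 5) (nat_lit 43) (nat_lit 5) (nat_lit 41) (nat_lit 4) (nat_lit 386) (nat_lit 324) (nat_lit 310)))) (XT.nd (nat_lit 156) (nat_lit 152) (nat_lit 0) (XT.nd (nat_lit 78) (nat_lit 152) (nat_lit 0) (XT.lf (nat_lit 0) (nat_lit 7105613784) (nat_lit 152) (nat_lit 6444096044) (nat_lit 0) (nat_lit 563170102) (nat_lit 39) (nat_lit 5) (nat_lit 41) (nat_lit 4) (nat_lit 39) (nat_lit 4) (nat_lit 387) (nat_lit 324) (nat_lit 309)) (XT.lf (nat_lit 0) (nat_lit 3467306136) (nat_lit 152) (nat_lit 8951075784) (nat_lit 152) (nat_lit 2119878000) (nat_lit 37) (nat_lit 4) (nat_lit 39) (nat_lit 5) (nat_lit 39) (nat_lit 4) (nat_lit 388) (nat_lit 324) (nat_lit 308))) (XT.nd (nat_lit 78) (nat_lit 76) (nat_lit 0) (XT.lf (nat_lit 0) (nat_lit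 2892846839) (nat_lit 228) (nat_lit 1175865669) (nat_lit 76) (nat_lit 10914996091) (nat_lit 36) (nat_lit 5) (nat_lit 39) (nat_lit 5) (nat_lit 37) (nat_lit 4) (nat_lit 389) (nat_lit 324) (nat_lit 307)) (XT.lf (nat_lit 0) (nat_lit 8119832163) (nat_lit 152) (nat_lit 6225550543) (nat_lit 0) (nat_lit 1102584379) (nat_lit 35) (nat_lit 5) (nat_lit 37) (nat_lit 4) (nat_lit 35) (nat_lit 4) (nat_lit 390) (nat_lit 324) (nat_lit 306))))))) (XT.nd (nat_lit 1092) (nat_lit 684) (nat_lit 0) (XT.nd (nat_lit 546) (nat_lit 456) (nat_lit 0) (XT.nd (nat_lit 234) (nat_lit 228) (nat_lit 0) (XT.nd (nat_lit 78) (nat_lit 152) (nat_lit 0) (XT.lf (nat_lit 0) (nat_lit 4075669987) (nat_lit 152) (nat_lit 9556691344) (nat_lit 152) (nat_lit 2301884846) (nat_lit 33) (nat_lit 4) (nat_lit 35) (nat_lit 5) (nat_lit 35) (nat_lit 4) (nat_lit 391) (nat_lit 324) (nat_lit 305)) (XT.nd (nat_lit 78) (nat_lit 76) (nat_lit 0) (XT.lf (nat_lit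 0) (nat_lit 2861583857) (nat_lit 228) (nat_lit 1614805983) (nat_lit 76) (nat_lit 11967084923) (nat_lit 32) (nat_lit 5) (nat_lit 35) (nat_lit 5) (nat_lit 33) (nat_lit 4) (nat_lit 392) (nat_lit 324) (nat_lit 304)) (XT.lf (nat_lit 0) (nat_lit 8243809342) (nat_lit 152) (nat_lit 7816801681) (nat_lit 0) (nat_lit 913784915) (nat_lit 31) (nat_lit 5) (nat_lit 33) (nat_lit 4) (nat_lit 31) (nat_lit 4) (nat_lit 393) (nat_lit 324) (nat_lit 303)))) (XT.nd (nat_lit 156) (nat_lit 76) (nat_lit 0) (XT.nd (nat_lit 78) (nat_lit 76) (nat_lit 0) (XT.lf (nat_lit 0) (nat_lit 2784851683) (nat_lit 76) (nat_lit 11135612245) (nat_lit 76) (nat_lit 3610147676) (nat_lit 30) (nat_lit 4) (nat_lit 31) (nat_lit 5) (nat_lit 31) (nat_lit 4) (nat_lit 394) (nat_lit 324) (nat_lit 302)) (XT.lf (nat_lit 0) (nat_lit 1725290184) (nat_lit 152) (nat_lit 4174753159) (nat_lit 76) (nat_lit 12212453345) (nat_lit 29) (nat_lit 5) (nat_lit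 31) (nat_lit 5) (nat_lit 30) (nat_lit 4) (nat_lit 395) (nat_lit 324) (nat_lit 301))) (XT.nd (nat_lit 78) (nat_lit 0) (nat_lit 0) (XT.lf (nat_lit 0) (nat_lit 6871301657) (nat_lit 76) (nat_lit 328781105) (nat_lit 152) (nat_lit 11520751127) (nat_lit 28) (nat_lit 5) (nat_lit 29) (nat_lit 5) (nat_lit 30) (nat_lit 4) (nat_lit 396) (nat_lit 324) (nat_lit 300)) (XT.lf (nat_lit 0) (nat_lit 12993855499) (nat_lit 152) (nat_lit 1043623424) (nat_lit 0) (nat_lit 5319858785) (nat_lit 28) (nat_lit 5) (nat_lit 30) (nat_lit 4) (nat_lit 28) (nat_lit 4) (nat_lit 397) (nat_lit 324) (nat_lit 299))))) (XT.nd (nat_lit 234) (nat_lit 228) (nat_lit 0) (XT.nd (nat_lit 78) (nat_lit 152) (nat_lit 0) (XT.lf (nat_lit 0) (nat_lit 10426317531) (nat_lit 76) (nat_lit 8711726613) (nat_lit 76) (nat_lit 884597433) (nat_lit 27) (nat_lit 4) (nat_lit 28) (nat_lit 5) (nat_lit 28) (nat_lit 4) (nat_lit 398) (nat_lit 324) (nat_lit 298))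 (XT.nd (nat_lit 78) (nat_lit 0) (nat_lit 0) (XT.lf (nat_lit 0) (nat_lit 1554274753) (nat_lit 76) (nat_lit 3093161527) (nat_lit 152) (nat_lit 16073233277) (nat_lit 25) (nat_lit 5) (nat_lit 26) (nat_lit 5) (nat_lit 27) (nat_lit 4) (nat_lit 399) (nat_lit 324) (nat_lit 297)) (XT.lf (nat_lit 0) (nat_lit 10528584324) (nat_lit 152) (nat_lit 8116188839) (nat_lit 0) (nat_lit 2802998341) (nat_lit 25) (nat_lit 5) (nat_lit 27) (nat_lit 4) (nat_lit 25) (nat_lit 4) (nat_lit 400) (nat_lit 324) (nat_lit 296)))) (XT.nd (nat_lit 156) (nat_lit 76) (nat_lit 0) (XT.nd (nat_lit 78) (nat_lit 76) (nat_lit 0) (XT.lf (nat_lit 0) (nat_lit 3347433410) (nat_lit 76) (nat_lit 13357653967) (nat_lit 76) (nat_lit 5506085525) (nat_lit 24) (nat_lit 4) (nat_lit 25) (nat_lit 5) (nat_lit 25) (nat_lit 4) (nat_lit 401) (nat_lit 324) (nat_lit 295)) (XT.lf (nat_lit 0) (nat_lit 210209693) (nat_lit 152) (nat_lit 7540621863) (nat_lit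 76) (nat_lit 15259871238) (nat_lit 23) (nat_lit 5) (nat_lit 25) (nat_lit 5) (nat_lit 24) (nat_lit 4) (nat_lit 402) (nat_lit 324) (nat_lit 294))) (XT.nd (nat_lit 78) (nat_lit 0) (nat_lit 0) (XT.lf (nat_lit 0) (nat_lit 4206611165) (nat_lit 76) (nat_lit 1789697470) (nat_lit 152) (nat_lit 17850943859) (nat_lit 22) (nat_lit 5) (nat_lit 23) (nat_lit 5) (nat_lit 24) (nat_lit 4) (nat_lit 403) (nat_lit 324) (nat_lit 293)) (XT.lf (nat_lit 0) (nat_lit 12175001010) (nat_lit 152) (nat_lit 8174899329) (nat_lit 0) (nat_lit 4370572512) (nat_lit 22) (nat_lit 5) (nat_lit 24) (nat_lit 4) (nat_lit 22) (nat_lit 4) (nat_lit 404) (nat_lit 324) (nat_lit 292)))))) (XT.nd (nat_lit 546) (nat_lit 304) (nat_lit 0) (XT.nd (nat_lit 234) (nat_lit 152) (nat_lit 0) (XT.nd (nat_lit 78) (nat_lit 152) (nat_lit 0) (XT.lf (nat_lit 0) (nat_lit 3777819291) (nat_lit 76) (nat_lit 14881425198) (nat_lit 76) (nat_lit 6978286147) (nat_lit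 21) (nat_lit 4) (nat_lit 22) (nat_lit 5) (nat_lit 22) (nat_lit 4) (nat_lit 405) (nat_lit 324) (nat_lit 291)) (XT.nd (nat_lit 78) (nat_lit 152) (nat_lit 0) (XT.lf (nat_lit 0) (nat_lit 16436972014) (nat_lit 76) (nat_lit 9079103265) (nat_lit 76) (nat_lit 1081954165) (nat_lit 21) (nat_lit 4) (nat_lit 22) (nat_lit 5) (nat_lit 22) (nat_lit 4) (nat_lit 406) (nat_lit 324) (nat_lit 290)) (XT.lf (nat_lit 0) (nat_lit 1935125363) (nat_lit 76) (nat_lit 2953561389) (nat_lit 152) (nat_lit 22716733322) (nat_lit 19) (nat_lit 5) (nat_lit 20) (nat_lit 5) (nat_lit 21) (nat_lit 4) (nat_lit 407) (nat_lit 324) (nat_lit 289)))) (XT.nd (nat_lit 156) (nat_lit 152) (nat_lit 0) (XT.nd (nat_lit 78) (nat_lit 0) (nat_lit 0) (XT.lf (nat_lit 0) (nat_lit 11263793235) (nat_lit 152) (nat_lit 13910409938) (nat_lit 0) (nat_lit 3480981456) (nat_lit 19) (nat_lit 5) (nat_lit 21) (nat_lit 4) (nat_lit 19) (nat_lit 4) (nat_lit 408)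 (nat_lit 324) (nat_lit 288)) (XT.lf (nat_lit 0) (nat_lit 17923298342) (nat_lit 152) (nat_lit 1772718309) (nat_lit 0) (nat_lit 10063144262) (nat_lit 19) (nat_lit 5) (nat_lit 21) (nat_lit 4) (nat_lit 19) (nat_lit 4) (nat_lit 409) (nat_lit 324) (nat_lit 287))) (XT.nd (nat_lit 78) (nat_lit 76) (nat_lit 0) (XT.lf (nat_lit 0) (nat_lit 11175477894) (nat_lit 76) (nat_lit 13835947303) (nat_lit 76) (nat_lit 5902133889) (nat_lit 18) (nat_lit 4) (nat_lit 19) (nat_lit 5) (nat_lit 19) (nat_lit 4) (nat_lit 410) (nat_lit 324) (nat_lit 286)) (XT.lf (nat_lit 0) (nat_lit 269566962) (nat_lit 152) (nat_lit 7451352886) (nat_lit 76) (nat_lit 24406916307) (nat_lit 17) (nat_lit 5) (nat_lit 19) (nat_lit 5) (nat_lit 18) (nat_lit 4) (nat_lit 411) (nat_lit 324) (nat_lit 285))))) (XT.nd (nat_lit 234) (nat_lit 228) (nat_lit 0) (XT.nd (nat_lit 78) (nat_lit 0) (nat_lit 0) (XT.lf (nat_lit 0) (nat_lit 5378247383) (nat_lit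 76) (nat_lit 1182251997) (nat_lit 152) (nat_lit 26837044700) (nat_lit 16) (nat_lit 5) (nat_lit 17) (nat_lit 5) (nat_lit 18) (nat_lit 4) (nat_lit 412) (nat_lit 324) (nat_lit 284)) (XT.nd (nat_lit 78) (nat_lit 0) (nat_lit 0) (XT.lf (nat_lit 0) (nat_lit 13308208578) (nat_lit 152) (nat_lit 15854266560) (nat_lit 0) (nat_lit 5561155197) (nat_lit 16) (nat_lit 5) (nat_lit 18) (nat_lit 4) (nat_lit 16) (nat_lit 4) (nat_lit 413) (nat_lit 324) (nat_lit 283)) (XT.lf (nat_lit 0) (nat_lit 20341480755) (nat_lit 152) (nat_lit 3240422143) (nat_lit 0) (nat_lit 12536713358) (nat_lit 16) (nat_lit 5) (nat_lit 18) (nat_lit 4) (nat_lit 16) (nat_lit 4) (nat_lit 414) (nat_lit 324) (nat_lit 282)))) (XT.nd (nat_lit 156) (nat_lit 152) (nat_lit 0) (XT.nd (nat_lit 78) (nat_lit 0) (nat_lit 0) (XT.lf (nat_lit 0) (nat_lit 10197098621) (nat_lit 76) (nat_lit 17620710196) (nat_lit 76) (nat_lit 9760977071) (nat_lit 15) (nat_lit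 4) (nat_lit 16) (nat_lit 5) (nat_lit 16) (nat_lit 4) (nat_lit 415) (nat_lit 324) (nat_lit 281)) (XT.lf (nat_lit 0) (nat_lit 24287760250) (nat_lit 76) (nat_lit 11368438379) (nat_lit 76) (nat_lit 3456356940) (nat_lit 15) (nat_lit 4) (nat_lit 16) (nat_lit 5) (nat_lit 16) (nat_lit 4) (nat_lit 416) (nat_lit 324) (nat_lit 280))) (XT.nd (nat_lit 78) (nat_lit 76) (nat_lit 0) (XT.lf (nat_lit 0) (nat_lit 2997738983) (nat_lit 152) (nat_lit 1816572060) (nat_lit 76) (nat_lit 35909461806) (nat_lit 14) (nat_lit 5) (nat_lit 16) (nat_lit 5) (nat_lit 15) (nat_lit 4) (nat_lit 417) (nat_lit 324) (nat_lit 279)) (XT.lf (nat_lit 0) (nat_lit 9820447565) (nat_lit 152) (nat_lit 30391740450) (nat_lit 0) (nat_lit 2192430004) (nat_lit 13) (nat_lit 5) (nat_lit 15) (nat_lit 4) (nat_lit 13) (nat_lit 4) (nat_lit 418) (nat_lit 324) (nat_lit 278))))))))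
noncomputable def xc60 : XT := (XT.nd (nat_lit 2106) (nat_lit 228) (nat_lit 0) (XT.nd (nat_lit 1014) (nat_lit 228) (nat_lit 0) (XT.nd (nat_lit 468) (nat_lit 76) (nat_lit 0) (XT.nd (nat_lit 234) (nat_lit 152) (nat_lit 0) (XT.nd (nat_lit 78) (nat_lit 76) (nat_lit 0) (XT.lf (nat_lit 0) (nat_lit 17033199884) (nat_lit 152) (nat_lit 17771748070) (nat_lit 0) (nat_lit 9362115236) (nat_lit 13) (nat_lit 5) (nat_lit 15) (nat_lit 4) (nat_lit 13) (nat_lit 4) (nat_lit 419) (nat_lit 324) (nat_lit 277)) (XT.nd (nat_lit 78) (nat_lit 76) (nat_lit 0) (XT.lf (nat_lit 0) (nat_lit 24548224401) (nat_lit 152) (nat_lit 4636204015) (nat_lit 0) (nat_lit 16836123480) (nat_lit 13) (nat_lit 5) (nat_lit 15) (nat_lit 4) (nat_lit 13) (nat_lit 4) (nat_lit 420) (nat_lit 324) (nat_lit 276)) (XT.lf (nat_lit 0) (nat_lit 9345273949) (nat_lit 76) (nat_lit 23184045999) (nat_lit 76) (nat_lit 15432881960) (nat_lit 12) (nat_lit 4)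 (nat_lit 13) (nat_lit 5) (nat_lit 13) (nat_lit 4) (nat_lit 421) (nat_lit 324) (nat_lit 275)))) (XT.nd (nat_lit 78) (nat_lit 152) (nat_lit 0) (XT.lf (nat_lit 0) (nat_lit 24078607318) (nat_lit 76) (nat_lit 16854751213) (nat_lit 76) (nat_lit 9066384205) (nat_lit 12) (nat_lit 4) (nat_lit 13) (nat_lit 5) (nat_lit 13) (nat_lit 4) (nat_lit 422) (nat_lit 324) (nat_lit 274)) (XT.nd (nat_lit 78) (nat_lit 152) (nat_lit 0) (XT.lf (nat_lit 0) (nat_lit 39445581614) (nat_lit 76) (nat_lit 10259990667) (nat_lit 76) (nat_lit 2436192260) (nat_lit 12) (nat_lit 4) (nat_lit 13) (nat_lit 5) (nat_lit 13) (nat_lit 4) (nat_lit 423) (nat_lit 324) (nat_lit 273)) (XT.lf (nat_lit 0) (nat_lit 1053285654) (nat_lit 76) (nat_lit 3293459833) (nat_lit 152) (nat_lit 50042307471) (nat_lit 10) (nat_lit 5) (nat_lit 11) (nat_lit 5) (nat_lit 12) (nat_lit 4) (nat_lit 424) (nat_lit 324) (nat_lit 272))))) (XT.nd (nat_lit 234) (nat_lit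 76) (nat_lit 0) (XT.nd (nat_lit 78) (nat_lit 0) (nat_lit 0) (XT.lf (nat_lit 0) (nat_lit 11618025685) (nat_lit 152) (nat_lit 41013087288) (nat_lit 0) (nat_lit 4104044808) (nat_lit 10) (nat_lit 5) (nat_lit 12) (nat_lit 4) (nat_lit 10) (nat_lit 4) (nat_lit 425) (nat_lit 324) (nat_lit 271)) (XT.nd (nat_lit 78) (nat_lit 0) (nat_lit 0) (XT.lf (nat_lit 0) (nat_lit 19258995756) (nat_lit 152) (nat_lit 28223402552) (nat_lit 0) (nat_lit 11715865380) (nat_lit 10) (nat_lit 5) (nat_lit 12) (nat_lit 4) (nat_lit 10) (nat_lit 4) (nat_lit 426) (nat_lit 324) (nat_lit 270)) (XT.lf (nat_lit 0) (nat_lit 27236428350) (nat_lit 152) (nat_lit 14884841329) (nat_lit 0) (nat_lit 19665536546) (nat_lit 10) (nat_lit 5) (nat_lit 12) (nat_lit 4) (nat_lit 10) (nat_lit 4) (nat_lit 427) (nat_lit 324) (nat_lit 269)))) (XT.nd (nat_lit 156) (nat_lit 0) (nat_lit 0) (XT.nd (nat_lit 78) (nat_lit 76) (nat_lit 0) (XT.lf (nat_lit 0)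 (nat_lit 35569317354) (nat_lit 152) (nat_lit 965645139) (nat_lit 0) (nat_lit 27971986094) (nat_lit 10) (nat_lit 5) (nat_lit 12) (nat_lit 4) (nat_lit 10) (nat_lit 4) (nat_lit 428) (nat_lit 324) (nat_lit 268)) (XT.lf (nat_lit 0) (nat_lit 14015924061) (nat_lit 76) (nat_lit 30480406772) (nat_lit 76) (nat_lit 22857895078) (nat_lit 9) (nat_lit 4) (nat_lit 10) (nat_lit 5) (nat_lit 10) (nat_lit 4) (nat_lit 429) (nat_lit 324) (nat_lit 267))) (XT.nd (nat_lit 78) (nat_lit 0) (nat_lit 0) (XT.lf (nat_lit 0) (nat_lit 29699238388) (nat_lit 76) (nat_lit 24146168956) (nat_lit 76) (nat_lit 16499675896) (nat_lit 9) (nat_lit 4) (nat_lit 10) (nat_lit 5) (nat_lit 10) (nat_lit 4) (nat_lit 430) (nat_lit 324) (nat_lit 266)) (XT.lf (nat_lit 0) (nat_lit 46089710476) (nat_lit 76) (nat_lit 17533521195) (nat_lit 76) (nat_lit 9864188740) (nat_lit 9) (nat_lit 4) (nat_lit 10) (nat_lit 5) (nat_lit 10) (nat_lit 4) (nat_lit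 431) (nat_lit 324) (nat_lit 265)))))) (XT.nd (nat_lit 546) (nat_lit 76) (nat_lit 0) (XT.nd (nat_lit 234) (nat_lit 0) (nat_lit 0) (XT.nd (nat_lit 78) (nat_lit 152) (nat_lit 0) (XT.lf (nat_lit 0) (nat_lit 63226365259) (nat_lit 76) (nat_lit 10626719089) (nat_lit 76) (nat_lit 2935634829) (nat_lit 9) (nat_lit 4) (nat_lit 10) (nat_lit 5) (nat_lit 10) (nat_lit 4) (nat_lit 432) (nat_lit 324) (nat_lit 264)) (XT.nd (nat_lit 78) (nat_lit 0) (nat_lit 0) (XT.lf (nat_lit 0) (nat_lit 853301695) (nat_lit 76) (nat_lit 3324796822) (nat_lit 152) (nat_lit 76074716446) (nat_lit 7) (nat_lit 5) (nat_lit 8) (nat_lit 5) (nat_lit 9) (nat_lit 4) (nat_lit 433) (nat_lit 324) (nat_lit 263)) (XT.lf (nat_lit 0) (nat_lit 11814486785) (nat_lit 152) (nat_lit 67608817555) (nat_lit 0) (nat_lit 4451125075) (nat_lit 7) (nat_lit 5) (nat_lit 9) (nat_lit 4) (nat_lit 7) (nat_lit 4) (nat_lit 434) (nat_lit 324) (nat_lit 262)))) (XT.nd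 (nat_lit 156) (nat_lit 0) (nat_lit 0) (XT.nd (nat_lit 78) (nat_lit 0) (nat_lit 0) (XT.lf (nat_lit 0) (nat_lit 19853275742) (nat_lit 152) (nat_lit 55350802327) (nat_lit 0) (nat_lit 12472018769) (nat_lit 7) (nat_lit 5) (nat_lit 9) (nat_lit 4) (nat_lit 7) (nat_lit 4) (nat_lit 435) (nat_lit 324) (nat_lit 261)) (XT.lf (nat_lit 0) (nat_lit 28261695968) (nat_lit 152) (nat_lit 42544372436) (nat_lit 0) (nat_lit 20863395886) (nat_lit 7) (nat_lit 5) (nat_lit 9) (nat_lit 4) (nat_lit 7) (nat_lit 4) (nat_lit 436) (nat_lit 324) (nat_lit 260))) (XT.nd (nat_lit 78) (nat_lit 0) (nat_lit 0) (XT.lf (nat_lit 0) (nat_lit 37059767510) (nat_lit 152) (nat_lit 29159036383) (nat_lit 0) (nat_lit 29645235896) (nat_lit 7) (nat_lit 5) (nat_lit 9) (nat_lit 4) (nat_lit 7) (nat_lit 4) (nat_lit 437) (nat_lit 324) (nat_lit 259)) (XT.lf (nat_lit 0) (nat_lit 46268438158) (nat_lit 152) (nat_lit 15162924320) (nat_lit 0) (nat_lit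 38838447941) (nat_lit 7) (nat_lit 5) (nat_lit 9) (nat_lit 4) (nat_lit 7) (nat_lit 4) (nat_lit 438) (nat_lit 324) (nat_lit 258))))) (XT.nd (nat_lit 234) (nat_lit 0) (nat_lit 0) (XT.nd (nat_lit 78) (nat_lit 76) (nat_lit 0) (XT.lf (nat_lit 0) (nat_lit 55909633317) (nat_lit 152) (nat_lit 522712172) (nat_lit 0) (nat_lit 48464920622) (nat_lit 7) (nat_lit 5) (nat_lit 9) (nat_lit 4) (nat_lit 7) (nat_lit 4) (nat_lit 439) (nat_lit 324) (nat_lit 257)) (XT.nd (nat_lit 78) (nat_lit 0) (nat_lit 0) (XT.lf (nat_lit 0) (nat_lit 15285695425) (nat_lit 76) (nat_lit 50959265333) (nat_lit 76) (nat_lit 43500531231) (nat_lit 6) (nat_lit 4) (nat_lit 7) (nat_lit 5) (nat_lit 7) (nat_lit 4) (nat_lit 440) (nat_lit 324) (nat_lit 256)) (XT.lf (nat_lit 0) (nat_lit 31850473606) (nat_lit 76) (nat_lit 45229304100) (nat_lit 76) (nat_lit 37757216276) (nat_lit 6) (nat_lit 4) (nat_lit 7) (nat_lit 5) (nat_lit 7) (nat_lit 4) (nat_lit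 441) (nat_lit 324) (nat_lit 255)))) (XT.nd (nat_lit 156) (nat_lit 0) (nat_lit 0) (XT.nd (nat_lit 78) (nat_lit 0) (nat_lit 0) (XT.lf (nat_lit 0) (nat_lit 49193779095) (nat_lit 76) (nat_lit 39237671409) (nat_lit 76) (nat_lit 31752865754) (nat_lit 6) (nat_lit 4) (nat_lit 7) (nat_lit 5) (nat_lit 7) (nat_lit 4) (nat_lit 442) (nat_lit 324) (nat_lit 254)) (XT.lf (nat_lit 0) (nat_lit 67356905475) (nat_lit 76) (nat_lit 32970101467) (nat_lit 76) (nat_lit 25473183593) (nat_lit 6) (nat_lit 4) (nat_lit 7) (nat_lit 5) (nat_lit 7) (nat_lit 4) (nat_lit 443) (nat_lit 324) (nat_lit 253))) (XT.nd (nat_lit 78) (nat_lit 0) (nat_lit 0) (XT.lf (nat_lit 0) (nat_lit 86383098286) (nat_lit 76) (nat_lit 26411671488) (nat_lit 76) (nat_lit 18903218168) (nat_lit 6) (nat_lit 4) (nat_lit 7) (nat_lit 5) (nat_lit 7) (nat_lit 4) (nat_lit 444) (nat_lit 324) (nat_lit 252)) (XT.lf (nat_lit 0) (nat_lit 106317657987) (nat_lit 76)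 (nat_lit 19546766164) (nat_lit 76) (nat_lit 12027326704) (nat_lit 6) (nat_lit 4) (nat_lit 7) (nat_lit 5) (nat_lit 7) (nat_lit 4) (nat_lit 445) (nat_lit 324) (nat_lit 251))))))) (XT.nd (nat_lit 1014) (nat_lit 76) (nat_lit 0) (XT.nd (nat_lit 468) (nat_lit 0) (nat_lit 0) (XT.nd (nat_lit 234) (nat_lit 0) (nat_lit 0) (XT.nd (nat_lit 78) (nat_lit 152) (nat_lit 0) (XT.lf (nat_lit 0) (nat_lit 127208047815) (nat_lit 76) (nat_lit 12359040482) (nat_lit 76) (nat_lit 4829138031) (nat_lit 6) (nat_lit 4) (nat_lit 7) (nat_lit 5) (nat_lit 7) (nat_lit 4) (nat_lit 446) (nat_lit 324) (nat_lit 250)) (XT.nd (nat_lit 78) (nat_lit 76) (nat_lit 0) (XT.lf (nat_lit 0) (nat_lit 2621797915) (nat_lit 152) (nat_lit 2165181477) (nat_lit 76) (nat_lit 146437807462) (nat_lit 5) (nat_lit 5) (nat_lit 7) (nat_lit 5) (nat_lit 6) (nat_lit 4) (nat_lit 447) (nat_lit 324) (nat_lit 249)) (XT.lf (nat_lit 0) (nat_lit 10535694473) (nat_lit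 152) (nat_lit 144496657820) (nat_lit 0) (nat_lit 3345830240) (nat_lit 4) (nat_lit 5) (nat_lit 6) (nat_lit 4) (nat_lit 4) (nat_lit 4) (nat_lit 448) (nat_lit 324) (nat_lit 248)))) (XT.nd (nat_lit 78) (nat_lit 0) (nat_lit 0) (XT.lf (nat_lit 0) (nat_lit 18942185437) (nat_lit 152) (nat_lit 135198504933) (nat_lit 0) (nat_lit 11743713277) (nat_lit 4) (nat_lit 5) (nat_lit 6) (nat_lit 4) (nat_lit 4) (nat_lit 4) (nat_lit 449) (nat_lit 324) (nat_lit 247)) (XT.nd (nat_lit 78) (nat_lit 0) (nat_lit 0) (XT.lf (nat_lit 0) (nat_lit 27751053322) (nat_lit 152) (nat_lit 125471397344) (nat_lit 0) (nat_lit 20544383135) (nat_lit 4) (nat_lit 5) (nat_lit 6) (nat_lit 4) (nat_lit 4) (nat_lit 4) (nat_lit 450) (nat_lit 324) (nat_lit 246)) (XT.lf (nat_lit 0) (nat_lit 36983271621) (nat_lit 152) (nat_lit 115292175273) (nat_lit 0) (nat_lit 29768793789) (nat_lit 4) (nat_lit 5) (nat_lit 6) (nat_lit 4) (nat_lit 4) (nat_lit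 4) (nat_lit 451) (nat_lit 324) (nat_lit 245))))) (XT.nd (nat_lit 234) (nat_lit 0) (nat_lit 0) (XT.nd (nat_lit 78) (nat_lit 0) (nat_lit 0) (XT.lf (nat_lit 0) (nat_lit 46660821806) (nat_lit 152) (nat_lit 104636602475) (nat_lit 0) (nat_lit 39438908123) (nat_lit 4) (nat_lit 5) (nat_lit 6) (nat_lit 4) (nat_lit 4) (nat_lit 4) (nat_lit 452) (nat_lit 324) (nat_lit 244)) (XT.nd (nat_lit 78) (nat_lit 0) (nat_lit 0) (XT.lf (nat_lit 0) (nat_lit 56806745665) (nat_lit 152) (nat_lit 93479308541) (nat_lit 0) (nat_lit 49577750217) (nat_lit 4) (nat_lit 5) (nat_lit 6) (nat_lit 4) (nat_lit 4) (nat_lit 4) (nat_lit 453) (nat_lit 324) (nat_lit 243)) (XT.lf (nat_lit 0) (nat_lit 67445200157) (nat_lit 152) (nat_lit 81793728485) (nat_lit 0) (nat_lit 60209460173) (nat_lit 4) (nat_lit 5) (nat_lit 6) (nat_lit 4) (nat_lit 4) (nat_lit 4) (nat_lit 454) (nat_lit 324) (nat_lit 242)))) (XT.nd (nat_lit 156) (nat_lit 0) (nat_lit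 0) (XT.nd (nat_lit 78) (nat_lit 0) (nat_lit 0) (XT.lf (nat_lit 0) (nat_lit 78601514938) (nat_lit 152) (nat_lit 69552039497) (nat_lit 0) (nat_lit 71359351585) (nat_lit 4) (nat_lit 5) (nat_lit 6) (nat_lit 4) (nat_lit 4) (nat_lit 4) (nat_lit 455) (nat_lit 324) (nat_lit 241)) (XT.lf (nat_lit 0) (nat_lit 90302252661) (nat_lit 152) (nat_lit 56725094698) (nat_lit 0) (nat_lit 83053971814) (nat_lit 4) (nat_lit 5) (nat_lit 6) (nat_lit 4) (nat_lit 4) (nat_lit 4) (nat_lit 456) (nat_lit 324) (nat_lit 240))) (XT.nd (nat_lit 78) (nat_lit 0) (nat_lit 0) (XT.lf (nat_lit 0) (nat_lit 102575272225) (nat_lit 152) (nat_lit 43282353743) (nat_lit 0) (nat_lit 95321165194) (nat_lit 4) (nat_lit 5) (nat_lit 6) (nat_lit 4) (nat_lit 4) (nat_lit 4) (nat_lit 457) (nat_lit 324) (nat_lit 239)) (XT.lf (nat_lit 0) (nat_lit 115449795106) (nat_lit 152) (nat_lit 29191810107) (nat_lit 0) (nat_lit 108190139328) (nat_lit 4) (nat_lit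 5) (nat_lit 6) (nat_lit 4) (nat_lit 4) (nat_lit 4) (nat_lit 458) (nat_lit 324) (nat_lit 238)))))) (XT.nd (nat_lit 546) (nat_lit 0) (nat_lit 0) (XT.nd (nat_lit 234) (nat_lit 0) (nat_lit 0) (XT.nd (nat_lit 78) (nat_lit 76) (nat_lit 0) (XT.lf (nat_lit 0) (nat_lit 128956474930) (nat_lit 152) (nat_lit 14419914877) (nat_lit 0) (nat_lit 121691534631) (nat_lit 4) (nat_lit 5) (nat_lit 6) (nat_lit 4) (nat_lit 4) (nat_lit 4) (nat_lit 459) (nat_lit 324) (nat_lit 237)) (XT.nd (nat_lit 78) (nat_lit 0) (nat_lit 0) (XT.lf (nat_lit 0) (nat_lit 1103832666) (nat_lit 76) (nat_lit 142040871712) (nat_lit 76) (nat_lit 134770898536) (nat_lit 3) (nat_lit 4) (nat_lit 4) (nat_lit 5) (nat_lit 4) (nat_lit 4) (nat_lit 460) (nat_lit 324) (nat_lit 236)) (XT.lf (nat_lit 0) (nat_lit 17882678483) (nat_lit 76) (nat_lit 140393042399) (nat_lit 76) (nat_lit 133118276006) (nat_lit 3) (nat_lit 4) (nat_lit 4) (nat_lit 5) (nat_lit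 4) (nat_lit 4) (nat_lit 461) (nat_lit 324) (nat_lit 235)))) (XT.nd (nat_lit 156) (nat_lit 0) (nat_lit 0) (XT.nd (nat_lit 78) (nat_lit 0) (nat_lit 0) (XT.lf (nat_lit 0) (nat_lit 35479784697) (nat_lit 76) (nat_lit 138673186699) (nat_lit 76) (nat_lit 131393855338) (nat_lit 3) (nat_lit 4) (nat_lit 4) (nat_lit 5) (nat_lit 4) (nat_lit 4) (nat_lit 462) (nat_lit 324) (nat_lit 234)) (XT.lf (nat_lit 0) (nat_lit 53937049181) (nat_lit 76) (nat_lit 136877209719) (nat_lit 76) (nat_lit 129593530770) (nat_lit 3) (nat_lit 4) (nat_lit 4) (nat_lit 5) (nat_lit 4) (nat_lit 4) (nat_lit 463) (nat_lit 324) (nat_lit 233))) (XT.nd (nat_lit 78) (nat_lit 0) (nat_lit 0) (XT.lf (nat_lit 0) (nat_lit 73298417802) (nat_lit 76) (nat_lit 135000835323) (nat_lit 76) (nat_lit 127713015813) (nat_lit 3) (nat_lit 4) (nat_lit 4) (nat_lit 5) (nat_lit 4) (nat_lit 4) (nat_lit 464) (nat_lit 324) (nat_lit 232)) (XT.lf (nat_lit 0) (nat_lit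 93609989058) (nat_lit 76) (nat_lit 133039595952) (nat_lit 76) (nat_lit 125747833051) (nat_lit 3) (nat_lit 4) (nat_lit 4) (nat_lit 5) (nat_lit 4) (nat_lit 4) (nat_lit 465) (nat_lit 324) (nat_lit 231))))) (XT.nd (nat_lit 234) (nat_lit 0) (nat_lit 0) (XT.nd (nat_lit 78) (nat_lit 0) (nat_lit 0) (XT.lf (nat_lit 0) (nat_lit 114920123832) (nat_lit 76) (nat_lit 130988821989) (nat_lit 76) (nat_lit 123693303477) (nat_lit 3) (nat_lit 4) (nat_lit 4) (nat_lit 5) (nat_lit 4) (nat_lit 4) (nat_lit 466) (nat_lit 324) (nat_lit 230)) (XT.nd (nat_lit 78) (nat_lit 0) (nat_lit 0) (XT.lf (nat_lit 0) (nat_lit 137279560540) (nat_lit 76) (nat_lit 128843630639) (nat_lit 76) (nat_lit 121544535356) (nat_lit 3) (nat_lit 4) (nat_lit 4) (nat_lit 5) (nat_lit 4) (nat_lit 4) (nat_lit 467) (nat_lit 324) (nat_lit 229)) (XT.lf (nat_lit 0) (nat_lit 160741535936) (nat_lit 76) (nat_lit 126598914304) (nat_lit 76) (nat_lit 119296412571)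 (nat_lit 3) (nat_lit 4) (nat_lit 4) (nat_lit 5) (nat_lit 4) (nat_lit 4) (nat_lit 468) (nat_lit 324) (nat_lit 228)))) (XT.nd (nat_lit 156) (nat_lit 0) (nat_lit 0) (XT.nd (nat_lit 78) (nat_lit 0) (nat_lit 0) (XT.lf (nat_lit 0) (nat_lit 185361911867) (nat_lit 76) (nat_lit 124249328420) (nat_lit 76) (nat_lit 116943582449) (nat_lit 3) (nat_lit 4) (nat_lit 4) (nat_lit 5) (nat_lit 4) (nat_lit 4) (nat_lit 469) (nat_lit 324) (nat_lit 227)) (XT.lf (nat_lit 0) (nat_lit 211199308275) (nat_lit 76) (nat_lit 121789278736) (nat_lit 76) (nat_lit 114480443015) (nat_lit 3) (nat_lit 4) (nat_lit 4) (nat_lit 5) (nat_lit 4) (nat_lit 4) (nat_lit 470) (nat_lit 324) (nat_lit 226))) (XT.nd (nat_lit 78) (nat_lit 0) (nat_lit 0) (XT.lf (nat_lit 0) (nat_lit 238315242771) (nat_lit 76) (nat_lit 119212907990) (nat_lit 76) (nat_lit 111901129651) (nat_lit 3) (nat_lit 4) (nat_lit 4) (nat_lit 5) (nat_lit 4) (nat_lit 4) (nat_lit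 471) (nat_lit 324) (nat_lit 225)) (XT.lf (nat_lit 0) (nat_lit 266774277104) (nat_lit 76) (nat_lit 116514081967) (nat_lit 76) (nat_lit 109199501133) (nat_lit 3) (nat_lit 4) (nat_lit 4) (nat_lit 5) (nat_lit 4) (nat_lit 4) (nat_lit 472) (nat_lit 324) (nat_lit 224))))))))
noncomputable def xc61 : XT := (XT.nd (nat_lit 46254) (nat_lit 0) (nat_lit 1140) (XT.nd (nat_lit 45162) (nat_lit 0) (nat_lit 3040) (XT.nd (nat_lit 468) (nat_lit 0) (nat_lit 0) (XT.nd (nat_lit 234) (nat_lit 0) (nat_lit 0) (XT.nd (nat_lit 78) (nat_lit 0) (nat_lit 0) (XT.lf (nat_lit 0) (nat_lit 296644170878) (nat_lit 76) (nat_lit 113686374890) (nat_lit 76) (nat_lit 106369125014) (nat_lit 3) (nat_lit 4) (nat_lit 4) (nat_lit 5) (nat_lit 4) (nat_lit 4) (nat_lit 473) (nat_lit 324) (nat_lit 223)) (XT.nd (nat_lit 78) (nat_lit 0) (nat_lit 0) (XT.lf (nat_lit 0) (nat_lit 327996042889) (nat_lit 76) (nat_lit 110723054124) (nat_lit 76) (nat_lit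 103403262302) (nat_lit 3) (nat_lit 4) (nat_lit 4) (nat_lit 5) (nat_lit 4) (nat_lit 4) (nat_lit 474) (nat_lit 324) (nat_lit 222)) (XT.lf (nat_lit 0) (nat_lit 360904540452) (nat_lit 76) (nat_lit 107617064142) (nat_lit 76) (nat_lit 100294851420) (nat_lit 3) (nat_lit 4) (nat_lit 4) (nat_lit 5) (nat_lit 4) (nat_lit 4) (nat_lit 475) (nat_lit 324) (nat_lit 221)))) (XT.nd (nat_lit 78) (nat_lit 0) (nat_lit 0) (XT.lf (nat_lit 0) (nat_lit 395448017131) (nat_lit 76) (nat_lit 104361009730) (nat_lit 76) (nat_lit 97036491389) (nat_lit 3) (nat_lit 4) (nat_lit 4) (nat_lit 5) (nat_lit 4) (nat_lit 4) (nat_lit 476) (nat_lit 324) (nat_lit 220)) (XT.nd (nat_lit 78) (nat_lit 0) (nat_lit 0) (XT.lf (nat_lit 0) (nat_lit 431708719300) (nat_lit 76) (nat_lit 100947138378) (nat_lit 76) (nat_lit 93620424210) (nat_lit 3) (nat_lit 4) (nat_lit 4) (nat_lit 5) (nat_lit 4) (nat_lit 4) (nat_lit 477) (nat_lit 324) (nat_lit 219))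 (XT.lf (nat_lit 0) (nat_lit 469772981963) (nat_lit 76) (nat_lit 97367321821) (nat_lit 76) (nat_lit 90038516389) (nat_lit 3) (nat_lit 4) (nat_lit 4) (nat_lit 5) (nat_lit 4) (nat_lit 4) (nat_lit 478) (nat_lit 324) (nat_lit 218))))) (XT.nd (nat_lit 234) (nat_lit 0) (nat_lit 0) (XT.nd (nat_lit 78) (nat_lit 0) (nat_lit 0) (XT.lf (nat_lit 0) (nat_lit 509731434319) (nat_lit 76) (nat_lit 93613036687) (nat_lit 76) (nat_lit 86282239573) (nat_lit 3) (nat_lit 4) (nat_lit 4) (nat_lit 5) (nat_lit 4) (nat_lit 4) (nat_lit 479) (nat_lit 324) (nat_lit 217)) (XT.nd (nat_lit 78) (nat_lit 0) (nat_lit 0) (XT.lf (nat_lit 0) (nat_lit 551679215538) (nat_lit 76) (nat_lit 89675344200) (nat_lit 76) (nat_lit 82342650248) (nat_lit 3) (nat_lit 4) (nat_lit 4) (nat_lit 5) (nat_lit 4) (nat_lit 4) (nat_lit 480) (nat_lit 324) (nat_lit 216)) (XT.lf (nat_lit 0) (nat_lit 595716201292) (nat_lit 76) (nat_lit 85544868902) (nat_lit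 76) (nat_lit 78210368438) (nat_lit 3) (nat_lit 4) (nat_lit 4) (nat_lit 5) (nat_lit 4) (nat_lit 4) (nat_lit 481) (nat_lit 324) (nat_lit 215)))) (XT.nd (nat_lit 156) (nat_lit 0) (nat_lit 0) (XT.nd (nat_lit 78) (nat_lit 0) (nat_lit 0) (XT.lf (nat_lit 0) (nat_lit 641947241544) (nat_lit 76) (nat_lit 81211776329) (nat_lit 76) (nat_lit 73875555377) (nat_lit 3) (nat_lit 4) (nat_lit 4) (nat_lit 5) (nat_lit 4) (nat_lit 4) (nat_lit 482) (nat_lit 324) (nat_lit 214)) (XT.lf (nat_lit 0) (nat_lit 690482410202) (nat_lit 76) (nat_lit 76665749594) (nat_lit 76) (nat_lit 69327890081) (nat_lit 3) (nat_lit 4) (nat_lit 4) (nat_lit 5) (nat_lit 4) (nat_lit 4) (nat_lit 483) (nat_lit 324) (nat_lit 213))) (XT.nd (nat_lit 44226) (nat_lit 0) (nat_lit 5092) (XT.lf (nat_lit 0) (nat_lit 741437267190) (nat_lit 76) (nat_lit 71895964823) (nat_lit 76) (nat_lit 64556544776) (nat_lit 3) (nat_lit 4) (nat_lit 4) (nat_lit 5) (nat_lit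 4) (nat_lit 4) (nat_lit 484) (nat_lit 324) (nat_lit 212)) (XT.lf (nat_lit 0) (nat_lit 683958938) (nat_lit 228) (nat_lit 1953322868) (nat_lit 228) (nat_lit 1953322868) (nat_lit 70) (nat_lit 4) (nat_lit 73) (nat_lit 5) (nat_lit 73) (nat_lit 4) (nat_lit 370) (nat_lit 325) (nat_lit 325)))))) (XT.nd (nat_lit 546) (nat_lit 988) (nat_lit 0) (XT.nd (nat_lit 234) (nat_lit 608) (nat_lit 0) (XT.nd (nat_lit 78) (nat_lit 380) (nat_lit 0) (XT.lf (nat_lit 0) (nat_lit 373837666) (nat_lit 304) (nat_lit 120547865) (nat_lit 76) (nat_lit 8885642083) (nat_lit 69) (nat_lit 5) (nat_lit 73) (nat_lit 5) (nat_lit 70) (nat_lit 4) (nat_lit 371) (nat_lit 325) (nat_lit 324)) (XT.nd (nat_lit 78) (nat_lit 228) (nat_lit 0) (XT.lf (nat_lit 0) (nat_lit 4745031414) (nat_lit 228) (nat_lit 1744321159) (nat_lit 0) (nat_lit 3095892257) (nat_lit 67) (nat_lit 5) (nat_lit 70) (nat_lit 4) (nat_lit 67) (nat_lit 4) (nat_lit 372) (nat_lit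 325) (nat_lit 323)) (XT.lf (nat_lit 0) (nat_lit 6344181012) (nat_lit 228) (nat_lit 2937277068) (nat_lit 228) (nat_lit 521987316) (nat_lit 64) (nat_lit 4) (nat_lit 67) (nat_lit 5) (nat_lit 67) (nat_lit 4) (nat_lit 373) (nat_lit 325) (nat_lit 322)))) (XT.nd (nat_lit 156) (nat_lit 228) (nat_lit 0) (XT.nd (nat_lit 78) (nat_lit 152) (nat_lit 0) (XT.lf (nat_lit 0) (nat_lit 3839338604) (nat_lit 228) (nat_lit 5348214677) (nat_lit 0) (nat_lit 844141475) (nat_lit 61) (nat_lit 5) (nat_lit 64) (nat_lit 4) (nat_lit 61) (nat_lit 4) (nat_lit 374) (nat_lit 325) (nat_lit 321)) (XT.lf (nat_lit 0) (nat_lit 2860544386) (nat_lit 152) (nat_lit 5533898476) (nat_lit 152) (nat_lit 1876871656) (nat_lit 59) (nat_lit 4) (nat_lit 61) (nat_lit 5) (nat_lit 61) (nat_lit 4) (nat_lit 375) (nat_lit 325) (nat_lit 320))) (XT.nd (nat_lit 78) (nat_lit 0) (nat_lit 0) (XT.lf (nat_lit 0) (nat_lit 872555430) (nat_lit 152) (nat_lit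 1644467126) (nat_lit 228) (nat_lit 8006484965) (nat_lit 56) (nat_lit 5) (nat_lit 58) (nat_lit 5) (nat_lit 59) (nat_lit 4) (nat_lit 376) (nat_lit 325) (nat_lit 319)) (XT.lf (nat_lit 0) (nat_lit 7077064502) (nat_lit 228) (nat_lit 1287103334) (nat_lit 0) (nat_lit 2422169407) (nat_lit 56) (nat_lit 5) (nat_lit 59) (nat_lit 4) (nat_lit 56) (nat_lit 4) (nat_lit 377) (nat_lit 325) (nat_lit 318))))) (XT.nd (nat_lit 234) (nat_lit 456) (nat_lit 0) (XT.nd (nat_lit 78) (nat_lit 304) (nat_lit 0) (XT.lf (nat_lit 0) (nat_lit 771686776) (nat_lit 228) (nat_lit 3617426126) (nat_lit 76) (nat_lit 6672877790) (nat_lit 53) (nat_lit 5) (nat_lit 56) (nat_lit 5) (nat_lit 54) (nat_lit 4) (nat_lit 378) (nat_lit 325) (nat_lit 317)) (XT.nd (nat_lit 78) (nat_lit 152) (nat_lit 0) (XT.lf (nat_lit 0) (nat_lit 5161246370) (nat_lit 152) (nat_lit 145676200) (nat_lit 228) (nat_lit 6043755844) (nat_lit 51) (nat_lit 5) (nat_lit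 53) (nat_lit 5) (nat_lit 54) (nat_lit 4) (nat_lit 379) (nat_lit 325) (nat_lit 316)) (XT.lf (nat_lit 0) (nat_lit 2617589163) (nat_lit 152) (nat_lit 7475523996) (nat_lit 152) (nat_lit 1559512183) (nat_lit 49) (nat_lit 4) (nat_lit 51) (nat_lit 5) (nat_lit 51) (nat_lit 4) (nat_lit 380) (nat_lit 325) (nat_lit 315)))) (XT.nd (nat_lit 156) (nat_lit 304) (nat_lit 0) (XT.nd (nat_lit 78) (nat_lit 76) (nat_lit 0) (XT.lf (nat_lit 0) (nat_lit 3011573536) (nat_lit 228) (nat_lit 190238448) (nat_lit 76) (nat_lit 8767259920) (nat_lit 48) (nat_lit 5) (nat_lit 51) (nat_lit 5) (nat_lit 49) (nat_lit 4) (nat_lit 381) (nat_lit 325) (nat_lit 314)) (XT.lf (nat_lit 0) (nat_lit 7783890947) (nat_lit 152) (nat_lit 3198280332) (nat_lit 0) (nat_lit 1316666644) (nat_lit 47) (nat_lit 5) (nat_lit 49) (nat_lit 4) (nat_lit 47) (nat_lit 4) (nat_lit 382) (nat_lit 325) (nat_lit 313))) (XT.nd (nat_lit 78) (nat_lit 76) (nat_lit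 0) (XT.lf (nat_lit 0) (nat_lit 159193177) (nat_lit 228) (nat_lit 6527836401) (nat_lit 76) (nat_lit 5957260108) (nat_lit 44) (nat_lit 5) (nat_lit 47) (nat_lit 5) (nat_lit 45) (nat_lit 4) (nat_lit 383) (nat_lit 325) (nat_lit 312)) (XT.lf (nat_lit 0) (nat_lit 2775202705) (nat_lit 76) (nat_lit 2101829810) (nat_lit 152) (nat_lit 8128220270) (nat_lit 43) (nat_lit 5) (nat_lit 44) (nat_lit 5) (nat_lit 45) (nat_lit 4) (nat_lit 384) (nat_lit 325) (nat_lit 311))))))) (XT.nd (nat_lit 1014) (nat_lit 760) (nat_lit 0) (XT.nd (nat_lit 468) (nat_lit 532) (nat_lit 0) (XT.nd (nat_lit 234) (nat_lit 304) (nat_lit 0) (XT.nd (nat_lit 78) (nat_lit 304) (nat_lit 0) (XT.lf (nat_lit 0) (nat_lit 9849974364) (nat_lit 152) (nat_lit 896423442) (nat_lit 0) (nat_lit 2636930204) (nat_lit 43) (nat_lit 5) (nat_lit 45) (nat_lit 4) (nat_lit 43) (nat_lit 4) (nat_lit 385) (nat_lit 325) (nat_lit 310)) (XT.nd (nat_lit 78) (nat_lit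 76) (nat_lit 0) (XT.lf (nat_lit 0) (nat_lit 1295355944) (nat_lit 228) (nat_lit 4875915869) (nat_lit 76) (nat_lit 7605778002) (nat_lit 40) (nat_lit 5) (nat_lit 43) (nat_lit 5) (nat_lit 41) (nat_lit 4) (nat_lit 386) (nat_lit 325) (nat_lit 309)) (XT.lf (nat_lit 0) (nat_lit 4896041710) (nat_lit 76) (nat_lit 1314021252) (nat_lit 152) (nat_lit 7979354430) (nat_lit 39) (nat_lit 5) (nat_lit 40) (nat_lit 5) (nat_lit 41) (nat_lit 4) (nat_lit 387) (nat_lit 325) (nat_lit 308)))) (XT.nd (nat_lit 78) (nat_lit 152) (nat_lit 0) (XT.lf (nat_lit 0) (nat_lit 427367313) (nat_lit 152) (nat_lit 10965233547) (nat_lit 152) (nat_lit 3228717866) (nat_lit 37) (nat_lit 4) (nat_lit 39) (nat_lit 5) (nat_lit 39) (nat_lit 4) (nat_lit 388) (nat_lit 325) (nat_lit 307)) (XT.nd (nat_lit 78) (nat_lit 76) (nat_lit 0) (XT.lf (nat_lit 0) (nat_lit 1757449516) (nat_lit 228) (nat_lit 4395652654) (nat_lit 76) (nat_lit 8917642119) (nat_lit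 36) (nat_lit 5) (nat_lit 39) (nat_lit 5) (nat_lit 37) (nat_lit 4) (nat_lit 389) (nat_lit 325) (nat_lit 306)) (XT.lf (nat_lit 0) (nat_lit 5802580550) (nat_lit 76) (nat_lit 1051293285) (nat_lit 152) (nat_lit 8687665484) (nat_lit 35) (nat_lit 5) (nat_lit 36) (nat_lit 5) (nat_lit 37) (nat_lit 4) (nat_lit 390) (nat_lit 325) (nat_lit 305))))) (XT.nd (nat_lit 234) (nat_lit 228) (nat_lit 0) (XT.nd (nat_lit 78) (nat_lit 152) (nat_lit 0) (XT.lf (nat_lit 0) (nat_lit 350386760) (nat_lit 152) (nat_lit 11882728040) (nat_lit 152) (nat_lit 3801376110) (nat_lit 33) (nat_lit 4) (nat_lit 35) (nat_lit 5) (nat_lit 35) (nat_lit 4) (nat_lit 391) (nat_lit 325) (nat_lit 304)) (XT.nd (nat_lit 78) (nat_lit 76) (nat_lit 0) (XT.lf (nat_lit 0) (nat_lit 1351542254) (nat_lit 228) (nat_lit 5526163065) (nat_lit 76) (nat_lit 9670119247) (nat_lit 32) (nat_lit 5) (nat_lit 35) (nat_lit 5) (nat_lit 33) (nat_lit 4) (nat_lit 392)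 (nat_lit 325) (nat_lit 303)) (XT.lf (nat_lit 0) (nat_lit 5024906996) (nat_lit 76) (nat_lit 1573602190) (nat_lit 152) (nat_lit 10487006470) (nat_lit 31) (nat_lit 5) (nat_lit 32) (nat_lit 5) (nat_lit 33) (nat_lit 4) (nat_lit 393) (nat_lit 325) (nat_lit 302)))) (XT.nd (nat_lit 156) (nat_lit 152) (nat_lit 0) (XT.nd (nat_lit 78) (nat_lit 76) (nat_lit 0) (XT.lf (nat_lit 0) (nat_lit 12151673216) (nat_lit 152) (nat_lit 1627877480) (nat_lit 0) (nat_lit 3868361808) (nat_lit 31) (nat_lit 5) (nat_lit 33) (nat_lit 4) (nat_lit 31) (nat_lit 4) (nat_lit 394) (nat_lit 325) (nat_lit 301)) (XT.lf (nat_lit 0) (nat_lit 9397733321) (nat_lit 76) (nat_lit 8649038219) (nat_lit 76) (nat_lit 188456842) (nat_lit 30) (nat_lit 4) (nat_lit 31) (nat_lit 5) (nat_lit 31) (nat_lit 4) (nat_lit 395) (nat_lit 325) (nat_lit 300))) (XT.nd (nat_lit 78) (nat_lit 0) (nat_lit 0) (XT.lf (nat_lit 0) (nat_lit 1954604393) (nat_lit 76)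 (nat_lit 3208329418) (nat_lit 152) (nat_lit 13687256324) (nat_lit 28) (nat_lit 5) (nat_lit 29) (nat_lit 5) (nat_lit 30) (nat_lit 4) (nat_lit 396) (nat_lit 325) (nat_lit 299)) (XT.lf (nat_lit 0) (nat_lit 10859335744) (nat_lit 152) (nat_lit 6144514584) (nat_lit 0) (nat_lit 2487717640) (nat_lit 28) (nat_lit 5) (nat_lit 30) (nat_lit 4) (nat_lit 28) (nat_lit 4) (nat_lit 397) (nat_lit 325) (nat_lit 298)))))) (XT.nd (nat_lit 546) (nat_lit 304) (nat_lit 0) (XT.nd (nat_lit 234) (nat_lit 228) (nat_lit 0) (XT.nd (nat_lit 78) (nat_lit 152) (nat_lit 0) (XT.lf (nat_lit 0) (nat_lit 5058582007) (nat_lit 76) (nat_lit 11811219859) (nat_lit 76) (nat_lit 3293761312) (nat_lit 27) (nat_lit 4) (nat_lit 28) (nat_lit 5) (nat_lit 28) (nat_lit 4) (nat_lit 398) (nat_lit 325) (nat_lit 297)) (XT.nd (nat_lit 78) (nat_lit 76) (nat_lit 0) (XT.lf (nat_lit 0) (nat_lit 2241305940) (nat_lit 152) (nat_lit 4061677029) (nat_lit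 76) (nat_lit 14564197345) (nat_lit 26) (nat_lit 5) (nat_lit 28) (nat_lit 5) (nat_lit 27) (nat_lit 4) (nat_lit 399) (nat_lit 325) (nat_lit 296)) (XT.lf (nat_lit 0) (nat_lit 7535176539) (nat_lit 76) (nat_lit 427658742) (nat_lit 152) (nat_lit 13639432419) (nat_lit 25) (nat_lit 5) (nat_lit 26) (nat_lit 5) (nat_lit 27) (nat_lit 4) (nat_lit 400) (nat_lit 325) (nat_lit 295)))) (XT.nd (nat_lit 156) (nat_lit 152) (nat_lit 0) (XT.nd (nat_lit 78) (nat_lit 76) (nat_lit 0) (XT.lf (nat_lit 0) (nat_lit 14033163827) (nat_lit 152) (nat_lit 2794767073) (nat_lit 0) (nat_lit 5543051212) (nat_lit 25) (nat_lit 5) (nat_lit 27) (nat_lit 4) (nat_lit 25) (nat_lit 4) (nat_lit 401) (nat_lit 325) (nat_lit 294)) (XT.lf (nat_lit 0) (nat_lit 9149661591) (nat_lit 76) (nat_lit 11314989663) (nat_lit 76) (nat_lit 2710607244) (nat_lit 24) (nat_lit 4) (nat_lit 25) (nat_lit 5) (nat_lit 25) (nat_lit 4) (nat_lit 402) (nat_lit 325)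 (nat_lit 293))) (XT.nd (nat_lit 78) (nat_lit 76) (nat_lit 0) (XT.lf (nat_lit 0) (nat_lit 3051670976) (nat_lit 152) (nat_lit 2457285300) (nat_lit 76) (nat_lit 18510500490) (nat_lit 23) (nat_lit 5) (nat_lit 25) (nat_lit 5) (nat_lit 24) (nat_lit 4) (nat_lit 403) (nat_lit 325) (nat_lit 292)) (XT.lf (nat_lit 0) (nat_lit 9087277706) (nat_lit 152) (nat_lit 15122286078) (nat_lit 0) (nat_lit 690271151) (nat_lit 22) (nat_lit 5) (nat_lit 24) (nat_lit 4) (nat_lit 22) (nat_lit 4) (nat_lit 404) (nat_lit 325) (nat_lit 291))))) (XT.nd (nat_lit 234) (nat_lit 152) (nat_lit 0) (XT.nd (nat_lit 78) (nat_lit 152) (nat_lit 0) (XT.lf (nat_lit 0) (nat_lit 15469934814) (nat_lit 152) (nat_lit 3373122376) (nat_lit 0) (nat_lit 6978918209) (nat_lit 22) (nat_lit 5) (nat_lit 24) (nat_lit 4) (nat_lit 22) (nat_lit 4) (nat_lit 405) (nat_lit 325) (nat_lit 290)) (XT.nd (nat_lit 78) (nat_lit 76) (nat_lit 0) (XT.lf (nat_lit 0)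 (nat_lit 9093191498) (nat_lit 76) (nat_lit 13137324195) (nat_lit 76) (nat_lit 4556774209) (nat_lit 21) (nat_lit 4) (nat_lit 22) (nat_lit 5) (nat_lit 22) (nat_lit 4) (nat_lit 406) (nat_lit 325) (nat_lit 289)) (XT.lf (nat_lit 0) (nat_lit 1454361551) (nat_lit 152) (nat_lit 5684378691) (nat_lit 76) (nat_lit 20662191835) (nat_lit 20) (nat_lit 5) (nat_lit 22) (nat_lit 5) (nat_lit 21) (nat_lit 4) (nat_lit 407) (nat_lit 325) (nat_lit 288)))) (XT.nd (nat_lit 156) (nat_lit 76) (nat_lit 0) (XT.nd (nat_lit 78) (nat_lit 0) (nat_lit 0) (XT.lf (nat_lit 0) (nat_lit 6918763472) (nat_lit 76) (nat_lit 723086654) (nat_lit 152) (nat_lit 21218230165) (nat_lit 19) (nat_lit 5) (nat_lit 20) (nat_lit 5) (nat_lit 21) (nat_lit 4) (nat_lit 408) (nat_lit 325) (nat_lit 287)) (XT.lf (nat_lit 0) (nat_lit 14251610197) (nat_lit 152) (nat_lit 9867489484) (nat_lit 0) (nat_lit 5847446779) (nat_lit 19) (nat_lit 5) (nat_lit 21)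 (nat_lit 4) (nat_lit 19) (nat_lit 4) (nat_lit 409) (nat_lit 325) (nat_lit 286))) (XT.nd (nat_lit 78) (nat_lit 0) (nat_lit 0) (XT.lf (nat_lit 0) (nat_lit 2739115481) (nat_lit 76) (nat_lit 18432281904) (nat_lit 76) (nat_lit 9957966739) (nat_lit 18) (nat_lit 4) (nat_lit 19) (nat_lit 5) (nat_lit 19) (nat_lit 4) (nat_lit 410) (nat_lit 325) (nat_lit 285)) (XT.lf (nat_lit 0) (nat_lit 16174265583) (nat_lit 76) (nat_lit 12356260368) (nat_lit 76) (nat_lit 3815134016) (nat_lit 18) (nat_lit 4) (nat_lit 19) (nat_lit 5) (nat_lit 19) (nat_lit 4) (nat_lit 411) (nat_lit 325) (nat_lit 284))))))))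
noncomputable def xc62 : XT := (XT.nd (nat_lit 2106) (nat_lit 304) (nat_lit 0) (XT.nd (nat_lit 1014) (nat_lit 380) (nat_lit 0) (XT.nd (nat_lit 468) (nat_lit 228) (nat_lit 0) (XT.nd (nat_lit 234) (nat_lit 76) (nat_lit 0) (XT.nd (nat_lit 78) (nat_lit 76) (nat_lit 0) (XT.lf (nat_lit 0) (nat_lit 2479106530) (nat_lit 152) (nat_lit 3522587666) (nat_lit 76) (nat_lit 27622594108) (nat_lit 17) (nat_lit 5) (nat_lit 19) (nat_lit 5) (nat_lit 18) (nat_lit 4) (nat_lit 412) (nat_lit 325) (nat_lit 283)) (XT.nd (nat_lit 78) (nat_lit 0) (nat_lit 0) (XT.lf (nat_lit 0) (nat_lit 9059089896) (nat_lit 152) (nat_lit 25093302903) (nat_lit 0) (nat_lit 806370115) (nat_lit 16) (nat_lit 5) (nat_lit 18) (nat_lit 4) (nat_lit 16) (nat_lit 4) (nat_lit 413) (nat_lit 325) (nat_lit 282)) (XT.lf (nat_lit 0) (nat_lit 16059282556) (nat_lit 152) (nat_lit 12544525175) (nat_lit 0) (nat_lit 7751597045) (nat_lit 16) (nat_lit 5) (nat_lit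 18) (nat_lit 4) (nat_lit 16) (nat_lit 4) (nat_lit 414) (nat_lit 325) (nat_lit 281)))) (XT.nd (nat_lit 78) (nat_lit 0) (nat_lit 0) (XT.lf (nat_lit 0) (nat_lit 521342698) (nat_lit 76) (nat_lit 22831697952) (nat_lit 76) (nat_lit 14471664128) (nat_lit 15) (nat_lit 4) (nat_lit 16) (nat_lit 5) (nat_lit 16) (nat_lit 4) (nat_lit 415) (nat_lit 325) (nat_lit 280)) (XT.nd (nat_lit 78) (nat_lit 0) (nat_lit 0) (XT.lf (nat_lit 0) (nat_lit 14551035541) (nat_lit 76) (nat_lit 16609438931) (nat_lit 76) (nat_lit 8199549570) (nat_lit 15) (nat_lit 4) (nat_lit 16) (nat_lit 5) (nat_lit 16) (nat_lit 4) (nat_lit 416) (nat_lit 325) (nat_lit 279)) (XT.lf (nat_lit 0) (nat_lit 29163178729) (nat_lit 76) (nat_lit 10134663370) (nat_lit 76) (nat_lit 1677292545) (nat_lit 15) (nat_lit 4) (nat_lit 16) (nat_lit 5) (nat_lit 16) (nat_lit 4) (nat_lit 417) (nat_lit 325) (nat_lit 278))))) (XT.nd (nat_lit 234) (nat_lit 76) (nat_lit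 0) (XT.nd (nat_lit 78) (nat_lit 0) (nat_lit 0) (XT.lf (nat_lit 0) (nat_lit 1693078732) (nat_lit 76) (nat_lit 3280418827) (nat_lit 152) (nat_lit 37695073273) (nat_lit 13) (nat_lit 5) (nat_lit 14) (nat_lit 5) (nat_lit 15) (nat_lit 4) (nat_lit 418) (nat_lit 325) (nat_lit 277)) (XT.nd (nat_lit 78) (nat_lit 0) (nat_lit 0) (XT.lf (nat_lit 0) (nat_lit 12106562412) (nat_lit 152) (nat_lit 28360599259) (nat_lit 0) (nat_lit 3967840171) (nat_lit 13) (nat_lit 5) (nat_lit 15) (nat_lit 4) (nat_lit 13) (nat_lit 4) (nat_lit 419) (nat_lit 325) (nat_lit 276)) (XT.lf (nat_lit 0) (nat_lit 19594471753) (nat_lit 152) (nat_lit 15278689556) (nat_lit 0) (nat_lit 11416686394) (nat_lit 13) (nat_lit 5) (nat_lit 15) (nat_lit 4) (nat_lit 13) (nat_lit 4) (nat_lit 420) (nat_lit 325) (nat_lit 275)))) (XT.nd (nat_lit 156) (nat_lit 0) (nat_lit 0) (XT.nd (nat_lit 78) (nat_lit 76) (nat_lit 0) (XT.lf (nat_lit 0) (nat_lit 27403837407)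 (nat_lit 152) (nat_lit 1647399056) (nat_lit 0) (nat_lit 19188849079) (nat_lit 13) (nat_lit 5) (nat_lit 15) (nat_lit 4) (nat_lit 13) (nat_lit 4) (nat_lit 421) (nat_lit 325) (nat_lit 274)) (XT.lf (nat_lit 0) (nat_lit 12981207400) (nat_lit 76) (nat_lit 22774718728) (nat_lit 76) (nat_lit 14524299002) (nat_lit 12) (nat_lit 4) (nat_lit 13) (nat_lit 5) (nat_lit 13) (nat_lit 4) (nat_lit 422) (nat_lit 325) (nat_lit 273))) (XT.nd (nat_lit 78) (nat_lit 0) (nat_lit 0) (XT.lf (nat_lit 0) (nat_lit 28300318402) (nat_lit 76) (nat_lit 16203651087) (nat_lit 76) (nat_lit 7919487171) (nat_lit 12) (nat_lit 4) (nat_lit 13) (nat_lit 5) (nat_lit 13) (nat_lit 4) (nat_lit 423) (nat_lit 325) (nat_lit 272)) (XT.lf (nat_lit 0) (nat_lit 44291937569) (nat_lit 76) (nat_lit 9350287642) (nat_lit 76) (nat_lit 1033986402) (nat_lit 12) (nat_lit 4) (nat_lit 13) (nat_lit 5) (nat_lit 13) (nat_lit 4) (nat_lit 424) (nat_lit 325)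 (nat_lit 271)))))) (XT.nd (nat_lit 546) (nat_lit 152) (nat_lit 0) (XT.nd (nat_lit 234) (nat_lit 76) (nat_lit 0) (XT.nd (nat_lit 78) (nat_lit 0) (nat_lit 0) (XT.lf (nat_lit 0) (nat_lit 3981729881) (nat_lit 76) (nat_lit 2032239921) (nat_lit 152) (nat_lit 51021975747) (nat_lit 10) (nat_lit 5) (nat_lit 11) (nat_lit 5) (nat_lit 12) (nat_lit 4) (nat_lit 425) (nat_lit 325) (nat_lit 270)) (XT.nd (nat_lit 78) (nat_lit 0) (nat_lit 0) (XT.lf (nat_lit 0) (nat_lit 13600973849) (nat_lit 152) (nat_lit 40277000874) (nat_lit 0) (nat_lit 5623776026) (nat_lit 10) (nat_lit 5) (nat_lit 12) (nat_lit 4) (nat_lit 10) (nat_lit 4) (nat_lit 426) (nat_lit 325) (nat_lit 269)) (XT.lf (nat_lit 0) (nat_lit 21557228287) (nat_lit 152) (nat_lit 26980533844) (nat_lit 0) (nat_lit 13553591008) (nat_lit 10) (nat_lit 5) (nat_lit 12) (nat_lit 4) (nat_lit 10) (nat_lit 4) (nat_lit 427) (nat_lit 325) (nat_lit 268)))) (XT.nd (nat_lit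 156) (nat_lit 0) (nat_lit 0) (XT.nd (nat_lit 78) (nat_lit 76) (nat_lit 0) (XT.lf (nat_lit 0) (nat_lit 29869947618) (nat_lit 152) (nat_lit 13101427361) (nat_lit 0) (nat_lit 21841129906) (nat_lit 10) (nat_lit 5) (nat_lit 12) (nat_lit 4) (nat_lit 10) (nat_lit 4) (nat_lit 428) (nat_lit 325) (nat_lit 267)) (XT.lf (nat_lit 0) (nat_lit 1439434973) (nat_lit 76) (nat_lit 37141962672) (nat_lit 76) (nat_lit 29089163594) (nat_lit 9) (nat_lit 4) (nat_lit 10) (nat_lit 5) (nat_lit 10) (nat_lit 4) (nat_lit 429) (nat_lit 325) (nat_lit 266))) (XT.nd (nat_lit 78) (nat_lit 0) (nat_lit 0) (XT.lf (nat_lit 0) (nat_lit 17085184444) (nat_lit 76) (nat_lit 30826408732) (nat_lit 76) (nat_lit 22750770258) (nat_lit 9) (nat_lit 4) (nat_lit 10) (nat_lit 5) (nat_lit 10) (nat_lit 4) (nat_lit 430) (nat_lit 325) (nat_lit 265)) (XT.lf (nat_lit 0) (nat_lit 33439880478) (nat_lit 76) (nat_lit 24231555138) (nat_lit 76) (nat_lit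 16134164859) (nat_lit 9) (nat_lit 4) (nat_lit 10) (nat_lit 5) (nat_lit 10) (nat_lit 4) (nat_lit 431) (nat_lit 325) (nat_lit 264))))) (XT.nd (nat_lit 234) (nat_lit 0) (nat_lit 0) (XT.nd (nat_lit 78) (nat_lit 152) (nat_lit 0) (XT.lf (nat_lit 0) (nat_lit 50542462829) (nat_lit 76) (nat_lit 17341699859) (nat_lit 76) (nat_lit 9223593575) (nat_lit 9) (nat_lit 4) (nat_lit 10) (nat_lit 5) (nat_lit 10) (nat_lit 4) (nat_lit 432) (nat_lit 325) (nat_lit 263)) (XT.nd (nat_lit 78) (nat_lit 152) (nat_lit 0) (XT.lf (nat_lit 0) (nat_lit 68433651931) (nat_lit 76) (nat_lit 10140438477) (nat_lit 76) (nat_lit 2002602664) (nat_lit 9) (nat_lit 4) (nat_lit 10) (nat_lit 5) (nat_lit 10) (nat_lit 4) (nat_lit 433) (nat_lit 325) (nat_lit 262)) (XT.lf (nat_lit 0) (nat_lit 2942980726) (nat_lit 76) (nat_lit 2471461501) (nat_lit 152) (nat_lit 78799601207) (nat_lit 7) (nat_lit 5) (nat_lit 8) (nat_lit 5) (nat_lit 9) (nat_lit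 4) (nat_lit 434) (nat_lit 325) (nat_lit 261)))) (XT.nd (nat_lit 156) (nat_lit 0) (nat_lit 0) (XT.nd (nat_lit 78) (nat_lit 0) (nat_lit 0) (XT.lf (nat_lit 0) (nat_lit 13398884657) (nat_lit 152) (nat_lit 69005917673) (nat_lit 0) (nat_lit 5613626462) (nat_lit 7) (nat_lit 5) (nat_lit 9) (nat_lit 4) (nat_lit 7) (nat_lit 4) (nat_lit 435) (nat_lit 325) (nat_lit 260)) (XT.lf (nat_lit 0) (nat_lit 21792295276) (nat_lit 152) (nat_lit 56229446481) (nat_lit 0) (nat_lit 13990805548) (nat_lit 7) (nat_lit 5) (nat_lit 9) (nat_lit 4) (nat_lit 7) (nat_lit 4) (nat_lit 436) (nat_lit 325) (nat_lit 259))) (XT.nd (nat_lit 78) (nat_lit 0) (nat_lit 0) (XT.lf (nat_lit 0) (nat_lit 30576071953) (nat_lit 152) (nat_lit 42872642523) (nat_lit 0) (nat_lit 22759123624) (nat_lit 7) (nat_lit 5) (nat_lit 9) (nat_lit 4) (nat_lit 7) (nat_lit 4) (nat_lit 437) (nat_lit 325) (nat_lit 258)) (XT.lf (nat_lit 0) (nat_lit 39771128445) (nat_lit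 152) (nat_lit 28903703883) (nat_lit 0) (nat_lit 31939457637) (nat_lit 7) (nat_lit 5) (nat_lit 9) (nat_lit 4) (nat_lit 7) (nat_lit 4) (nat_lit 438) (nat_lit 325) (nat_lit 257))))))) (XT.nd (nat_lit 1014) (nat_lit 76) (nat_lit 0) (XT.nd (nat_lit 468) (nat_lit 152) (nat_lit 0) (XT.nd (nat_lit 234) (nat_lit 0) (nat_lit 0) (XT.nd (nat_lit 78) (nat_lit 76) (nat_lit 0) (XT.lf (nat_lit 0) (nat_lit 49399357741) (nat_lit 152) (nat_lit 14289371185) (nat_lit 0) (nat_lit 41553665525) (nat_lit 7) (nat_lit 5) (nat_lit 9) (nat_lit 4) (nat_lit 7) (nat_lit 4) (nat_lit 439) (nat_lit 325) (nat_lit 256)) (XT.nd (nat_lit 78) (nat_lit 0) (nat_lit 0) (XT.lf (nat_lit 0) (nat_lit 1038386452) (nat_lit 76) (nat_lit 58461509867) (nat_lit 76) (nat_lit 50602463930) (nat_lit 6) (nat_lit 4) (nat_lit 7) (nat_lit 5) (nat_lit 7) (nat_lit 4) (nat_lit 440) (nat_lit 325) (nat_lit 255)) (XT.lf (nat_lit 0) (nat_lit 17578915072)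 (nat_lit 76) (nat_lit 52743659172) (nat_lit 76) (nat_lit 44871895405) (nat_lit 6) (nat_lit 4) (nat_lit 7) (nat_lit 5) (nat_lit 7) (nat_lit 4) (nat_lit 441) (nat_lit 325) (nat_lit 254)))) (XT.nd (nat_lit 78) (nat_lit 0) (nat_lit 0) (XT.lf (nat_lit 0) (nat_lit 34899125740) (nat_lit 76) (nat_lit 46763560326) (nat_lit 76) (nat_lit 38879684340) (nat_lit 6) (nat_lit 4) (nat_lit 7) (nat_lit 5) (nat_lit 7) (nat_lit 4) (nat_lit 442) (nat_lit 325) (nat_lit 253)) (XT.nd (nat_lit 78) (nat_lit 0) (nat_lit 0) (XT.lf (nat_lit 0) (nat_lit 53040257053) (nat_lit 76) (nat_lit 40506974999) (nat_lit 76) (nat_lit 32611563566) (nat_lit 6) (nat_lit 4) (nat_lit 7) (nat_lit 5) (nat_lit 7) (nat_lit 4) (nat_lit 443) (nat_lit 325) (nat_lit 252)) (XT.lf (nat_lit 0) (nat_lit 72045502181) (nat_lit 76) (nat_lit 33959006559) (nat_lit 76) (nat_lit 26052608986) (nat_lit 6) (nat_lit 4) (nat_lit 7) (nat_lit 5) (nat_lit 7) (nat_lit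 4) (nat_lit 444) (nat_lit 325) (nat_lit 251))))) (XT.nd (nat_lit 234) (nat_lit 152) (nat_lit 0) (XT.nd (nat_lit 78) (nat_lit 0) (nat_lit 0) (XT.lf (nat_lit 0) (nat_lit 91960111707) (nat_lit 76) (nat_lit 27104064605) (nat_lit 76) (nat_lit 19187204041) (nat_lit 6) (nat_lit 4) (nat_lit 7) (nat_lit 5) (nat_lit 7) (nat_lit 4) (nat_lit 445) (nat_lit 325) (nat_lit 250)) (XT.nd (nat_lit 78) (nat_lit 0) (nat_lit 0) (XT.lf (nat_lit 0) (nat_lit 112831501369) (nat_lit 76) (nat_lit 19925827846) (nat_lit 76) (nat_lit 11999002529) (nat_lit 6) (nat_lit 4) (nat_lit 7) (nat_lit 5) (nat_lit 7) (nat_lit 4) (nat_lit 446) (nat_lit 325) (nat_lit 249)) (XT.lf (nat_lit 0) (nat_lit 134709364951) (nat_lit 76) (nat_lit 12407205242) (nat_lit 76) (nat_lit 4470889685) (nat_lit 6) (nat_lit 4) (nat_lit 7) (nat_lit 5) (nat_lit 7) (nat_lit 4) (nat_lit 447) (nat_lit 325) (nat_lit 248)))) (XT.nd (nat_lit 156) (nat_lit 0) (nat_lit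 0) (XT.nd (nat_lit 78) (nat_lit 76) (nat_lit 0) (XT.lf (nat_lit 0) (nat_lit 3305755367) (nat_lit 152) (nat_lit 1168555378) (nat_lit 76) (nat_lit 154284052671) (nat_lit 5) (nat_lit 5) (nat_lit 7) (nat_lit 5) (nat_lit 6) (nat_lit 4) (nat_lit 448) (nat_lit 325) (nat_lit 247)) (XT.lf (nat_lit 0) (nat_lit 11614478215) (nat_lit 152) (nat_lit 150615718522) (nat_lit 0) (nat_lit 4039276492) (nat_lit 4) (nat_lit 5) (nat_lit 6) (nat_lit 4) (nat_lit 4) (nat_lit 4) (nat_lit 449) (nat_lit 325) (nat_lit 246))) (XT.nd (nat_lit 78) (nat_lit 0) (nat_lit 0) (XT.lf (nat_lit 0) (nat_lit 20415008061) (nat_lit 152) (nat_lit 140905313810) (nat_lit 0) (nat_lit 12831998693) (nat_lit 4) (nat_lit 5) (nat_lit 6) (nat_lit 4) (nat_lit 4) (nat_lit 4) (nat_lit 450) (nat_lit 325) (nat_lit 245)) (XT.lf (nat_lit 0) (nat_lit 29639285370) (nat_lit 152) (nat_lit 130741999240) (nat_lit 0) (nat_lit 22048840151) (nat_lit 4) (nat_lit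 5) (nat_lit 6) (nat_lit 4) (nat_lit 4) (nat_lit 4) (nat_lit 451) (nat_lit 325) (nat_lit 244)))))) (XT.nd (nat_lit 546) (nat_lit 76) (nat_lit 0) (XT.nd (nat_lit 234) (nat_lit 0) (nat_lit 0) (XT.nd (nat_lit 78) (nat_lit 0) (nat_lit 0) (XT.lf (nat_lit 0) (nat_lit 39309272709) (nat_lit 152) (nat_lit 120101576444) (nat_lit 0) (nat_lit 31711745725) (nat_lit 4) (nat_lit 5) (nat_lit 6) (nat_lit 4) (nat_lit 4) (nat_lit 4) (nat_lit 452) (nat_lit 325) (nat_lit 243)) (XT.nd (nat_lit 78) (nat_lit 0) (nat_lit 0) (XT.lf (nat_lit 0) (nat_lit 49447993856) (nat_lit 152) (nat_lit 108958711083) (nat_lit 0) (nat_lit 41843722335) (nat_lit 4) (nat_lit 5) (nat_lit 6) (nat_lit 4) (nat_lit 4) (nat_lit 4) (nat_lit 453) (nat_lit 325) (nat_lit 242)) (XT.lf (nat_lit 0) (nat_lit 60079588623) (nat_lit 152) (nat_lit 97286872524) (nat_lit 0) (nat_lit 52468893734) (nat_lit 4) (nat_lit 5) (nat_lit 6) (nat_lit 4) (nat_lit 4)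 (nat_lit 4) (nat_lit 454) (nat_lit 325) (nat_lit 241)))) (XT.nd (nat_lit 156) (nat_lit 0) (nat_lit 0) (XT.nd (nat_lit 78) (nat_lit 0) (nat_lit 0) (XT.lf (nat_lit 0) (nat_lit 71229370332) (nat_lit 152) (nat_lit 85058270677) (nat_lit 0) (nat_lit 63612557950) (nat_lit 4) (nat_lit 5) (nat_lit 6) (nat_lit 4) (nat_lit 4) (nat_lit 4) (nat_lit 455) (nat_lit 325) (nat_lit 240)) (XT.lf (nat_lit 0) (nat_lit 82923886082) (nat_lit 152) (nat_lit 72243789822) (nat_lit 0) (nat_lit 75301247515) (nat_lit 4) (nat_lit 5) (nat_lit 6) (nat_lit 4) (nat_lit 4) (nat_lit 4) (nat_lit 456) (nat_lit 325) (nat_lit 239))) (XT.nd (nat_lit 78) (nat_lit 0) (nat_lit 0) (XT.lf (nat_lit 0) (nat_lit 95190979958) (nat_lit 152) (nat_lit 58812919290) (nat_lit 0) (nat_lit 87562792644) (nat_lit 4) (nat_lit 5) (nat_lit 6) (nat_lit 4) (nat_lit 4) (nat_lit 4) (nat_lit 457) (nat_lit 325) (nat_lit 238)) (XT.lf (nat_lit 0) (nat_lit 108059859326)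 (nat_lit 152) (nat_lit 44733680818) (nat_lit 0) (nat_lit 100426387491) (nat_lit 4) (nat_lit 5) (nat_lit 6) (nat_lit 4) (nat_lit 4) (nat_lit 4) (nat_lit 458) (nat_lit 325) (nat_lit 237))))) (XT.nd (nat_lit 234) (nat_lit 0) (nat_lit 0) (XT.nd (nat_lit 78) (nat_lit 76) (nat_lit 0) (XT.lf (nat_lit 0) (nat_lit 121561164375) (nat_lit 152) (nat_lit 29972552411) (nat_lit 0) (nat_lit 113922659663) (nat_lit 4) (nat_lit 5) (nat_lit 6) (nat_lit 4) (nat_lit 4) (nat_lit 4) (nat_lit 459) (nat_lit 325) (nat_lit 236)) (XT.nd (nat_lit 78) (nat_lit 76) (nat_lit 0) (XT.lf (nat_lit 0) (nat_lit 135727041070) (nat_lit 152) (nat_lit 14494388523) (nat_lit 0) (nat_lit 128083743141) (nat_lit 4) (nat_lit 5) (nat_lit 6) (nat_lit 4) (nat_lit 4) (nat_lit 4) (nat_lit 460) (nat_lit 325) (nat_lit 235)) (XT.lf (nat_lit 0) (nat_lit 1795118621) (nat_lit 76) (nat_lit 148824125900) (nat_lit 76) (nat_lit 141176263003) (nat_lit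 3) (nat_lit 4) (nat_lit 4) (nat_lit 5) (nat_lit 4) (nat_lit 4) (nat_lit 461) (nat_lit 325) (nat_lit 234)))) (XT.nd (nat_lit 156) (nat_lit 0) (nat_lit 0) (XT.nd (nat_lit 78) (nat_lit 0) (nat_lit 0) (XT.lf (nat_lit 0) (nat_lit 19382616522) (nat_lit 76) (nat_lit 147109085568) (nat_lit 76) (nat_lit 139456875083) (nat_lit 3) (nat_lit 4) (nat_lit 4) (nat_lit 5) (nat_lit 4) (nat_lit 4) (nat_lit 462) (nat_lit 325) (nat_lit 233)) (XT.lf (nat_lit 0) (nat_lit 37830730232) (nat_lit 76) (nat_lit 145317694653) (nat_lit 76) (nat_lit 137661343607) (nat_lit 3) (nat_lit 4) (nat_lit 4) (nat_lit 5) (nat_lit 4) (nat_lit 4) (nat_lit 463) (nat_lit 325) (nat_lit 232))) (XT.nd (nat_lit 78) (nat_lit 0) (nat_lit 0) (XT.lf (nat_lit 0) (nat_lit 57183383831) (nat_lit 76) (nat_lit 143445687937) (nat_lit 76) (nat_lit 135785393500) (nat_lit 3) (nat_lit 4) (nat_lit 4) (nat_lit 5) (nat_lit 4) (nat_lit 4) (nat_lit 464) (nat_lit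 325) (nat_lit 231)) (XT.lf (nat_lit 0) (nat_lit 77486655065) (nat_lit 76) (nat_lit 141488608262) (nat_lit 76) (nat_lit 133824558214) (nat_lit 3) (nat_lit 4) (nat_lit 4) (nat_lit 5) (nat_lit 4) (nat_lit 4) (nat_lit 465) (nat_lit 325) (nat_lit 230))))))))
noncomputable def xc63 : XT := (XT.nd (nat_lit 46098) (nat_lit 0) (nat_lit 1596) (XT.nd (nat_lit 1014) (nat_lit 0) (nat_lit 0) (XT.nd (nat_lit 468) (nat_lit 0) (nat_lit 0) (XT.nd (nat_lit 234) (nat_lit 0) (nat_lit 0) (XT.nd (nat_lit 78) (nat_lit 0) (nat_lit 0) (XT.lf (nat_lit 0) (nat_lit 98788885056) (nat_lit 76) (nat_lit 139441795915) (nat_lit 76) (nat_lit 131774169095) (nat_lit 3) (nat_lit 4) (nat_lit 4) (nat_lit 5) (nat_lit 4) (nat_lit 4) (nat_lit 466) (nat_lit 325) (nat_lit 229)) (XT.nd (nat_lit 78) (nat_lit 0) (nat_lit 0) (XT.lf (nat_lit 0) (nat_lit 121140793400) (nat_lit 76) (nat_lit 137300377532) (nat_lit 76) (nat_lit 129629344262)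 (nat_lit 3) (nat_lit 4) (nat_lit 4) (nat_lit 5) (nat_lit 4) (nat_lit 4) (nat_lit 467) (nat_lit 325) (nat_lit 228)) (XT.lf (nat_lit 0) (nat_lit 144595598925) (nat_lit 76) (nat_lit 135059254498) (nat_lit 76) (nat_lit 127384976991) (nat_lit 3) (nat_lit 4) (nat_lit 4) (nat_lit 5) (nat_lit 4) (nat_lit 4) (nat_lit 468) (nat_lit 325) (nat_lit 227)))) (XT.nd (nat_lit 78) (nat_lit 0) (nat_lit 0) (XT.lf (nat_lit 0) (nat_lit 169209146408) (nat_lit 76) (nat_lit 132713090806) (nat_lit 76) (nat_lit 125035723549) (nat_lit 3) (nat_lit 4) (nat_lit 4) (nat_lit 5) (nat_lit 4) (nat_lit 4) (nat_lit 469) (nat_lit 325) (nat_lit 226)) (XT.nd (nat_lit 78) (nat_lit 0) (nat_lit 0) (XT.lf (nat_lit 0) (nat_lit 195040039532) (nat_lit 76) (nat_lit 130256300353) (nat_lit 76) (nat_lit 122575990477) (nat_lit 3) (nat_lit 4) (nat_lit 4) (nat_lit 5) (nat_lit 4) (nat_lit 4) (nat_lit 470) (nat_lit 325) (nat_lit 225)) (XT.lf (nat_lit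 0) (nat_lit 222149780424) (nat_lit 76) (nat_lit 127683033636) (nat_lit 76) (nat_lit 119999921266) (nat_lit 3) (nat_lit 4) (nat_lit 4) (nat_lit 5) (nat_lit 4) (nat_lit 4) (nat_lit 471) (nat_lit 325) (nat_lit 224))))) (XT.nd (nat_lit 234) (nat_lit 0) (nat_lit 0) (XT.nd (nat_lit 78) (nat_lit 0) (nat_lit 0) (XT.lf (nat_lit 0) (nat_lit 250602916085) (nat_lit 76) (nat_lit 124987163831) (nat_lit 76) (nat_lit 117301382419) (nat_lit 3) (nat_lit 4) (nat_lit 4) (nat_lit 5) (nat_lit 4) (nat_lit 4) (nat_lit 472) (nat_lit 325) (nat_lit 223)) (XT.nd (nat_lit 78) (nat_lit 0) (nat_lit 0) (XT.lf (nat_lit 0) (nat_lit 280467192079) (nat_lit 76) (nat_lit 122162272200) (nat_lit 76) (nat_lit 114473948843) (nat_lit 3) (nat_lit 4) (nat_lit 4) (nat_lit 5) (nat_lit 4) (nat_lit 4) (nat_lit 473) (nat_lit 325) (nat_lit 222)) (XT.lf (nat_lit 0) (nat_lit 311813713822) (nat_lit 76) (nat_lit 119201632811) (nat_lit 76) (nat_lit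 111510888553) (nat_lit 3) (nat_lit 4) (nat_lit 4) (nat_lit 5) (nat_lit 4) (nat_lit 4) (nat_lit 474) (nat_lit 325) (nat_lit 221)))) (XT.nd (nat_lit 156) (nat_lit 0) (nat_lit 0) (XT.nd (nat_lit 78) (nat_lit 0) (nat_lit 0) (XT.lf (nat_lit 0) (nat_lit 344717115891) (nat_lit 76) (nat_lit 116098196521) (nat_lit 76) (nat_lit 108405146645) (nat_lit 3) (nat_lit 4) (nat_lit 4) (nat_lit 5) (nat_lit 4) (nat_lit 4) (nat_lit 475) (nat_lit 325) (nat_lit 220)) (XT.lf (nat_lit 0) (nat_lit 379255739719) (nat_lit 76) (nat_lit 112844574198) (nat_lit 76) (nat_lit 105149328493) (nat_lit 3) (nat_lit 4) (nat_lit 4) (nat_lit 5) (nat_lit 4) (nat_lit 4) (nat_lit 476) (nat_lit 325) (nat_lit 219))) (XT.nd (nat_lit 78) (nat_lit 0) (nat_lit 0) (XT.lf (nat_lit 0) (nat_lit 415511820125) (nat_lit 76) (nat_lit 109433019120) (nat_lit 76) (nat_lit 101735682152) (nat_lit 3) (nat_lit 4) (nat_lit 4) (nat_lit 5) (nat_lit 4) (nat_lit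 4) (nat_lit 477) (nat_lit 325) (nat_lit 218)) (XT.lf (nat_lit 0) (nat_lit 453571681110) (nat_lit 76) (nat_lit 105855408539) (nat_lit 76) (nat_lit 98156079890) (nat_lit 3) (nat_lit 4) (nat_lit 4) (nat_lit 5) (nat_lit 4) (nat_lit 4) (nat_lit 478) (nat_lit 325) (nat_lit 217)))))) (XT.nd (nat_lit 44538) (nat_lit 0) (nat_lit 4256) (XT.nd (nat_lit 234) (nat_lit 0) (nat_lit 0) (XT.nd (nat_lit 78) (nat_lit 0) (nat_lit 0) (XT.lf (nat_lit 0) (nat_lit 493525941391) (nat_lit 76) (nat_lit 102103224333) (nat_lit 76) (nat_lit 94401998845) (nat_lit 3) (nat_lit 4) (nat_lit 4) (nat_lit 5) (nat_lit 4) (nat_lit 4) (nat_lit 479) (nat_lit 325) (nat_lit 216)) (XT.nd (nat_lit 78) (nat_lit 0) (nat_lit 0) (XT.lf (nat_lit 0) (nat_lit 535469730158) (nat_lit 76) (nat_lit 98167532731) (nat_lit 76) (nat_lit 90464500730) (nat_lit 3) (nat_lit 4) (nat_lit 4) (nat_lit 5) (nat_lit 4) (nat_lit 4) (nat_lit 480) (nat_lit 325)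 (nat_lit 215)) (XT.lf (nat_lit 0) (nat_lit 579502913575) (nat_lit 76) (nat_lit 94038963038) (nat_lit 76) (nat_lit 86334210549) (nat_lit 3) (nat_lit 4) (nat_lit 4) (nat_lit 5) (nat_lit 4) (nat_lit 4) (nat_lit 481) (nat_lit 325) (nat_lit 214)))) (XT.nd (nat_lit 156) (nat_lit 0) (nat_lit 0) (XT.nd (nat_lit 78) (nat_lit 0) (nat_lit 0) (XT.lf (nat_lit 0) (nat_lit 625730332556) (nat_lit 76) (nat_lit 89707685327) (nat_lit 76) (nat_lit 82001294278) (nat_lit 3) (nat_lit 4) (nat_lit 4) (nat_lit 5) (nat_lit 4) (nat_lit 4) (nat_lit 482) (nat_lit 325) (nat_lit 213)) (XT.lf (nat_lit 0) (nat_lit 674262052383) (nat_lit 76) (nat_lit 85163387031) (nat_lit 76) (nat_lit 77455435448) (nat_lit 3) (nat_lit 4) (nat_lit 4) (nat_lit 5) (nat_lit 4) (nat_lit 4) (nat_lit 483) (nat_lit 325) (nat_lit 212))) (XT.nd (nat_lit 44070) (nat_lit 0) (nat_lit 5624) (XT.lf (nat_lit 0) (nat_lit 725213624771) (nat_lit 76) (nat_lit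 80395248393) (nat_lit 76) (nat_lit 72685810588) (nat_lit 3) (nat_lit 4) (nat_lit 4) (nat_lit 5) (nat_lit 4) (nat_lit 4) (nat_lit 484) (nat_lit 325) (nat_lit 211)) (XT.lf (nat_lit 0) (nat_lit 2114444219) (nat_lit 228) (nat_lit 1146010754) (nat_lit 228) (nat_lit 1146010754) (nat_lit 77) (nat_lit 4) (nat_lit 80) (nat_lit 5) (nat_lit 80) (nat_lit 4) (nat_lit 368) (nat_lit 326) (nat_lit 326))))) (XT.nd (nat_lit 234) (nat_lit 760) (nat_lit 0) (XT.nd (nat_lit 78) (nat_lit 304) (nat_lit 0) (XT.lf (nat_lit 0) (nat_lit 1865219695) (nat_lit 304) (nat_lit 6195582038) (nat_lit 0) (nat_lit 933958858) (nat_lit 73) (nat_lit 5) (nat_lit 77) (nat_lit 4) (nat_lit 73) (nat_lit 4) (nat_lit 369) (nat_lit 326) (nat_lit 325)) (XT.nd (nat_lit 78) (nat_lit 76) (nat_lit 0) (XT.lf (nat_lit 0) (nat_lit 1241635664) (nat_lit 228) (nat_lit 4880971098) (nat_lit 228) (nat_lit 3062795177) (nat_lit 70) (nat_lit 4) (nat_lit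 73) (nat_lit 5) (nat_lit 73) (nat_lit 4) (nat_lit 370) (nat_lit 326) (nat_lit 324)) (XT.lf (nat_lit 0) (nat_lit 1110096305) (nat_lit 304) (nat_lit 387159526) (nat_lit 76) (nat_lit 7890363565) (nat_lit 69) (nat_lit 5) (nat_lit 73) (nat_lit 5) (nat_lit 70) (nat_lit 4) (nat_lit 371) (nat_lit 326) (nat_lit 323)))) (XT.nd (nat_lit 156) (nat_lit 304) (nat_lit 0) (XT.nd (nat_lit 78) (nat_lit 304) (nat_lit 0) (XT.lf (nat_lit 0) (nat_lit 5381965705) (nat_lit 228) (nat_lit 2136103643) (nat_lit 0) (nat_lit 2079760870) (nat_lit 67) (nat_lit 5) (nat_lit 70) (nat_lit 4) (nat_lit 67) (nat_lit 4) (nat_lit 372) (nat_lit 326) (nat_lit 322)) (XT.lf (nat_lit 0) (nat_lit 13939073) (nat_lit 304) (nat_lit 4003296967) (nat_lit 76) (nat_lit 5802996995) (nat_lit 63) (nat_lit 5) (nat_lit 67) (nat_lit 5) (nat_lit 64) (nat_lit 4) (nat_lit 373) (nat_lit 326) (nat_lit 321))) (XT.nd (nat_lit 78) (nat_lit 152) (nat_lit 0)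 (XT.lf (nat_lit 0) (nat_lit 4004450535) (nat_lit 152) (nat_lit 254692771) (nat_lit 228) (nat_lit 5793926008) (nat_lit 61) (nat_lit 5) (nat_lit 63) (nat_lit 5) (nat_lit 64) (nat_lit 4) (nat_lit 374) (nat_lit 326) (nat_lit 320)) (XT.lf (nat_lit 0) (nat_lit 2017086695) (nat_lit 152) (nat_lit 6706099902) (nat_lit 152) (nat_lit 1574078061) (nat_lit 59) (nat_lit 4) (nat_lit 61) (nat_lit 5) (nat_lit 61) (nat_lit 4) (nat_lit 375) (nat_lit 326) (nat_lit 319))))))) (XT.nd (nat_lit 1092) (nat_lit 912) (nat_lit 0) (XT.nd (nat_lit 546) (nat_lit 836) (nat_lit 0) (XT.nd (nat_lit 234) (nat_lit 456) (nat_lit 0) (XT.nd (nat_lit 78) (nat_lit 380) (nat_lit 0) (XT.lf (nat_lit 0) (nat_lit 2723056992) (nat_lit 228) (nat_lit 150054046) (nat_lit 76) (nat_lit 7680484083) (nat_lit 58) (nat_lit 5) (nat_lit 61) (nat_lit 5) (nat_lit 59) (nat_lit 4) (nat_lit 376) (nat_lit 326) (nat_lit 318)) (XT.nd (nat_lit 78) (nat_lit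 228) (nat_lit 0) (XT.lf (nat_lit 0) (nat_lit 7188926542) (nat_lit 228) (nat_lit 2447141988) (nat_lit 0) (nat_lit 1185084398) (nat_lit 56) (nat_lit 5) (nat_lit 59) (nat_lit 4) (nat_lit 56) (nat_lit 4) (nat_lit 377) (nat_lit 326) (nat_lit 317)) (XT.lf (nat_lit 0) (nat_lit 755127021) (nat_lit 228) (nat_lit 4974392629) (nat_lit 76) (nat_lit 5371801246) (nat_lit 53) (nat_lit 5) (nat_lit 56) (nat_lit 5) (nat_lit 54) (nat_lit 4) (nat_lit 378) (nat_lit 326) (nat_lit 316)))) (XT.nd (nat_lit 156) (nat_lit 152) (nat_lit 0) (XT.nd (nat_lit 78) (nat_lit 152) (nat_lit 0) (XT.lf (nat_lit 0) (nat_lit 3639454600) (nat_lit 152) (nat_lit 1558460096) (nat_lit 228) (nat_lit 6196733142) (nat_lit 51) (nat_lit 5) (nat_lit 53) (nat_lit 5) (nat_lit 54) (nat_lit 4) (nat_lit 379) (nat_lit 326) (nat_lit 315)) (XT.lf (nat_lit 0) (nat_lit 902091704) (nat_lit 152) (nat_lit 8965236366) (nat_lit 152) (nat_lit 1835121572)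 (nat_lit 49) (nat_lit 4) (nat_lit 51) (nat_lit 5) (nat_lit 51) (nat_lit 4) (nat_lit 380) (nat_lit 326) (nat_lit 314))) (XT.nd (nat_lit 78) (nat_lit 76) (nat_lit 0) (XT.lf (nat_lit 0) (nat_lit 2677184068) (nat_lit 228) (nat_lit 2068508774) (nat_lit 76) (nat_lit 7276813107) (nat_lit 48) (nat_lit 5) (nat_lit 51) (nat_lit 5) (nat_lit 49) (nat_lit 4) (nat_lit 381) (nat_lit 326) (nat_lit 313)) (XT.lf (nat_lit 0) (nat_lit 7067121107) (nat_lit 76) (nat_lit 264665838) (nat_lit 152) (nat_lit 5026384581) (nat_lit 47) (nat_lit 5) (nat_lit 48) (nat_lit 5) (nat_lit 49) (nat_lit 4) (nat_lit 382) (nat_lit 326) (nat_lit 312))))) (XT.nd (nat_lit 234) (nat_lit 532) (nat_lit 0) (XT.nd (nat_lit 78) (nat_lit 152) (nat_lit 0) (XT.lf (nat_lit 0) (nat_lit 3845437798) (nat_lit 152) (nat_lit 8407938970) (nat_lit 152) (nat_lit 455557785) (nat_lit 45) (nat_lit 4) (nat_lit 47) (nat_lit 5) (nat_lit 47) (nat_lit 4) (nat_lit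 383) (nat_lit 326) (nat_lit 311)) (XT.nd (nat_lit 78) (nat_lit 0) (nat_lit 0) (XT.lf (nat_lit 0) (nat_lit 253339041) (nat_lit 76) (nat_lit 3920662247) (nat_lit 152) (nat_lit 8901406989) (nat_lit 43) (nat_lit 5) (nat_lit 44) (nat_lit 5) (nat_lit 45) (nat_lit 4) (nat_lit 384) (nat_lit 326) (nat_lit 310)) (XT.lf (nat_lit 0) (nat_lit 9055593400) (nat_lit 152) (nat_lit 3573192300) (nat_lit 0) (nat_lit 829276669) (nat_lit 43) (nat_lit 5) (nat_lit 45) (nat_lit 4) (nat_lit 43) (nat_lit 4) (nat_lit 385) (nat_lit 326) (nat_lit 309)))) (XT.nd (nat_lit 156) (nat_lit 228) (nat_lit 0) (XT.nd (nat_lit 78) (nat_lit 76) (nat_lit 0) (XT.lf (nat_lit 0) (nat_lit 347461466) (nat_lit 228) (nat_lit 7817212531) (nat_lit 76) (nat_lit 5693128781) (nat_lit 40) (nat_lit 5) (nat_lit 43) (nat_lit 5) (nat_lit 41) (nat_lit 4) (nat_lit 386) (nat_lit 326) (nat_lit 308)) (XT.lf (nat_lit 0) (nat_lit 1745915838) (nat_lit 76)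 (nat_lit 3407341955) (nat_lit 152) (nat_lit 9122367927) (nat_lit 39) (nat_lit 5) (nat_lit 40) (nat_lit 5) (nat_lit 41) (nat_lit 4) (nat_lit 387) (nat_lit 326) (nat_lit 307))) (XT.nd (nat_lit 78) (nat_lit 228) (nat_lit 0) (XT.lf (nat_lit 0) (nat_lit 10237152383) (nat_lit 152) (nat_lit 2898417671) (nat_lit 0) (nat_lit 1576898530) (nat_lit 39) (nat_lit 5) (nat_lit 41) (nat_lit 4) (nat_lit 39) (nat_lit 4) (nat_lit 388) (nat_lit 326) (nat_lit 306)) (XT.lf (nat_lit 0) (nat_lit 444142443) (nat_lit 228) (nat_lit 7999198494) (nat_lit 76) (nat_lit 6724865231) (nat_lit 36) (nat_lit 5) (nat_lit 39) (nat_lit 5) (nat_lit 37) (nat_lit 4) (nat_lit 389) (nat_lit 326) (nat_lit 305)))))) (XT.nd (nat_lit 546) (nat_lit 380) (nat_lit 0) (XT.nd (nat_lit 234) (nat_lit 304) (nat_lit 0) (XT.nd (nat_lit 78) (nat_lit 152) (nat_lit 0) (XT.lf (nat_lit 0) (nat_lit 1972969868) (nat_lit 76) (nat_lit 3451527246) (nat_lit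 152) (nat_lit 10220315655) (nat_lit 35) (nat_lit 5) (nat_lit 36) (nat_lit 5) (nat_lit 37) (nat_lit 4) (nat_lit 390) (nat_lit 326) (nat_lit 304)) (XT.nd (nat_lit 78) (nat_lit 152) (nat_lit 0) (XT.lf (nat_lit 0) (nat_lit 10704876554) (nat_lit 152) (nat_lit 3660100709) (nat_lit 0) (nat_lit 1777737876) (nat_lit 35) (nat_lit 5) (nat_lit 37) (nat_lit 4) (nat_lit 35) (nat_lit 4) (nat_lit 391) (nat_lit 326) (nat_lit 303)) (XT.lf (nat_lit 0) (nat_lit 6810855656) (nat_lit 152) (nat_lit 9492167709) (nat_lit 152) (nat_lit 359816882) (nat_lit 33) (nat_lit 4) (nat_lit 35) (nat_lit 5) (nat_lit 35) (nat_lit 4) (nat_lit 392) (nat_lit 326) (nat_lit 302)))) (XT.nd (nat_lit 156) (nat_lit 152) (nat_lit 0) (XT.nd (nat_lit 78) (nat_lit 0) (nat_lit 0) (XT.lf (nat_lit 0) (nat_lit 459497351) (nat_lit 76) (nat_lit 4314789634) (nat_lit 152) (nat_lit 12432750868) (nat_lit 31) (nat_lit 5) (nat_lit 32) (nat_lit 5) (nat_lit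 33) (nat_lit 4) (nat_lit 393) (nat_lit 326) (nat_lit 301)) (XT.lf (nat_lit 0) (nat_lit 10231850656) (nat_lit 152) (nat_lit 6371400160) (nat_lit 0) (nat_lit 1170970240) (nat_lit 31) (nat_lit 5) (nat_lit 33) (nat_lit 4) (nat_lit 31) (nat_lit 4) (nat_lit 394) (nat_lit 326) (nat_lit 300))) (XT.nd (nat_lit 78) (nat_lit 76) (nat_lit 0) (XT.lf (nat_lit 0) (nat_lit 4399582942) (nat_lit 76) (nat_lit 11599042580) (nat_lit 76) (nat_lit 2369333621) (nat_lit 30) (nat_lit 4) (nat_lit 31) (nat_lit 5) (nat_lit 31) (nat_lit 4) (nat_lit 395) (nat_lit 326) (nat_lit 299)) (XT.lf (nat_lit 0) (nat_lit 2971179669) (nat_lit 152) (nat_lit 3299579726) (nat_lit 76) (nat_lit 12717903407) (nat_lit 29) (nat_lit 5) (nat_lit 31) (nat_lit 5) (nat_lit 30) (nat_lit 4) (nat_lit 396) (nat_lit 326) (nat_lit 298))))) (XT.nd (nat_lit 234) (nat_lit 228) (nat_lit 0) (XT.nd (nat_lit 78) (nat_lit 76) (nat_lit 0) (XT.lf (nat_lit 0)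 (nat_lit 7932636848) (nat_lit 76) (nat_lit 592371620) (nat_lit 152) (nat_lit 11112166038) (nat_lit 28) (nat_lit 5) (nat_lit 29) (nat_lit 5) (nat_lit 30) (nat_lit 4) (nat_lit 397) (nat_lit 326) (nat_lit 297)) (XT.nd (nat_lit 78) (nat_lit 76) (nat_lit 0) (XT.lf (nat_lit 0) (nat_lit 14399707245) (nat_lit 152) (nat_lit 744616135) (nat_lit 0) (nat_lit 5171639668) (nat_lit 28) (nat_lit 5) (nat_lit 30) (nat_lit 4) (nat_lit 28) (nat_lit 4) (nat_lit 398) (nat_lit 326) (nat_lit 296)) (XT.lf (nat_lit 0) (nat_lit 10926584896) (nat_lit 76) (nat_lit 9729045258) (nat_lit 76) (nat_lit 368696099) (nat_lit 27) (nat_lit 4) (nat_lit 28) (nat_lit 5) (nat_lit 28) (nat_lit 4) (nat_lit 399) (nat_lit 326) (nat_lit 295)))) (XT.nd (nat_lit 156) (nat_lit 76) (nat_lit 0) (XT.nd (nat_lit 78) (nat_lit 0) (nat_lit 0) (XT.lf (nat_lit 0) (nat_lit 1216310719) (nat_lit 76) (nat_lit 4004490420) (nat_lit 152) (nat_lit 16546096243)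 (nat_lit 25) (nat_lit 5) (nat_lit 26) (nat_lit 5) (nat_lit 27) (nat_lit 4) (nat_lit 400) (nat_lit 326) (nat_lit 294)) (XT.lf (nat_lit 0) (nat_lit 11190299853) (nat_lit 152) (nat_lit 9308929008) (nat_lit 0) (nat_lit 2041428510) (nat_lit 25) (nat_lit 5) (nat_lit 27) (nat_lit 4) (nat_lit 25) (nat_lit 4) (nat_lit 401) (nat_lit 326) (nat_lit 293))) (XT.nd (nat_lit 78) (nat_lit 0) (nat_lit 0) (XT.lf (nat_lit 0) (nat_lit 2334996580) (nat_lit 76) (nat_lit 15137551380) (nat_lit 76) (nat_lit 5879851653) (nat_lit 24) (nat_lit 4) (nat_lit 25) (nat_lit 5) (nat_lit 25) (nat_lit 4) (nat_lit 402) (nat_lit 326) (nat_lit 292)) (XT.lf (nat_lit 0) (nat_lit 14718125633) (nat_lit 76) (nat_lit 9422193112) (nat_lit 76) (nat_lit 60847305) (nat_lit 24) (nat_lit 4) (nat_lit 25) (nat_lit 5) (nat_lit 25) (nat_lit 4) (nat_lit 403) (nat_lit 326) (nat_lit 291))))))))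
noncomputable def xc64 : XT := (XT.nd (nat_lit 2106) (nat_lit 380) (nat_lit 0) (XT.nd (nat_lit 1014) (nat_lit 456) (nat_lit 0) (XT.nd (nat_lit 468) (nat_lit 304) (nat_lit 0) (XT.nd (nat_lit 234) (nat_lit 152) (nat_lit 0) (XT.nd (nat_lit 78) (nat_lit 76) (nat_lit 0) (XT.lf (nat_lit 0) (nat_lit 2451012570) (nat_lit 76) (nat_lit 3359264956) (nat_lit 152) (nat_lit 19279639022) (nat_lit 22) (nat_lit 5) (nat_lit 23) (nat_lit 5) (nat_lit 24) (nat_lit 4) (nat_lit 404) (nat_lit 326) (nat_lit 290)) (XT.nd (nat_lit 78) (nat_lit 76) (nat_lit 0) (XT.lf (nat_lit 0) (nat_lit 12099911833) (nat_lit 152) (nat_lit 10915998554) (nat_lit 0) (nat_lit 3000800966) (nat_lit 22) (nat_lit 5) (nat_lit 24) (nat_lit 4) (nat_lit 22) (nat_lit 4) (nat_lit 405) (nat_lit 326) (nat_lit 289)) (XT.lf (nat_lit 0) (nat_lit 1223477400) (nat_lit 76) (nat_lit 17475503914) (nat_lit 76) (nat_lit 8291123161) (nat_lit 21) (nat_lit 4)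 (nat_lit 22) (nat_lit 5) (nat_lit 22) (nat_lit 4) (nat_lit 406) (nat_lit 326) (nat_lit 288)))) (XT.nd (nat_lit 78) (nat_lit 152) (nat_lit 0) (XT.lf (nat_lit 0) (nat_lit 14197720682) (nat_lit 76) (nat_lit 11537344816) (nat_lit 76) (nat_lit 2271754647) (nat_lit 21) (nat_lit 4) (nat_lit 22) (nat_lit 5) (nat_lit 22) (nat_lit 4) (nat_lit 407) (nat_lit 326) (nat_lit 287)) (XT.nd (nat_lit 78) (nat_lit 76) (nat_lit 0) (XT.lf (nat_lit 0) (nat_lit 3843680691) (nat_lit 152) (nat_lit 1463387052) (nat_lit 76) (nat_lit 23767914851) (nat_lit 20) (nat_lit 5) (nat_lit 22) (nat_lit 5) (nat_lit 21) (nat_lit 4) (nat_lit 408) (nat_lit 326) (nat_lit 286)) (XT.lf (nat_lit 0) (nat_lit 10321257611) (nat_lit 152) (nat_lit 18513727876) (nat_lit 0) (nat_lit 1353074942) (nat_lit 19) (nat_lit 5) (nat_lit 21) (nat_lit 4) (nat_lit 19) (nat_lit 4) (nat_lit 409) (nat_lit 326) (nat_lit 285))))) (XT.nd (nat_lit 234) (nat_lit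 228) (nat_lit 0) (XT.nd (nat_lit 78) (nat_lit 76) (nat_lit 0) (XT.lf (nat_lit 0) (nat_lit 17163399143) (nat_lit 152) (nat_lit 6062958335) (nat_lit 0) (nat_lit 8128405286) (nat_lit 19) (nat_lit 5) (nat_lit 21) (nat_lit 4) (nat_lit 19) (nat_lit 4) (nat_lit 410) (nat_lit 326) (nat_lit 284)) (XT.nd (nat_lit 78) (nat_lit 0) (nat_lit 0) (XT.lf (nat_lit 0) (nat_lit 7104655821) (nat_lit 76) (nat_lit 17285815714) (nat_lit 76) (nat_lit 8187192155) (nat_lit 18) (nat_lit 4) (nat_lit 19) (nat_lit 5) (nat_lit 19) (nat_lit 4) (nat_lit 411) (nat_lit 326) (nat_lit 283)) (XT.lf (nat_lit 0) (nat_lit 21010202258) (nat_lit 76) (nat_lit 11004473115) (nat_lit 76) (nat_lit 1845249840) (nat_lit 18) (nat_lit 4) (nat_lit 19) (nat_lit 5) (nat_lit 19) (nat_lit 4) (nat_lit 412) (nat_lit 326) (nat_lit 282)))) (XT.nd (nat_lit 156) (nat_lit 76) (nat_lit 0) (XT.nd (nat_lit 78) (nat_lit 0) (nat_lit 0) (XT.lf (nat_lit 0) (nat_lit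 209421448) (nat_lit 76) (nat_lit 4388802327) (nat_lit 152) (nat_lit 30607396952) (nat_lit 16) (nat_lit 5) (nat_lit 17) (nat_lit 5) (nat_lit 18) (nat_lit 4) (nat_lit 413) (nat_lit 326) (nat_lit 281)) (XT.lf (nat_lit 0) (nat_lit 11498390629) (nat_lit 152) (nat_lit 22440868321) (nat_lit 0) (nat_lit 2668006800) (nat_lit 16) (nat_lit 5) (nat_lit 18) (nat_lit 4) (nat_lit 16) (nat_lit 4) (nat_lit 414) (nat_lit 326) (nat_lit 280))) (XT.nd (nat_lit 78) (nat_lit 76) (nat_lit 0) (XT.lf (nat_lit 0) (nat_lit 18754005006) (nat_lit 152) (nat_lit 9450704074) (nat_lit 0) (nat_lit 9873765640) (nat_lit 16) (nat_lit 5) (nat_lit 18) (nat_lit 4) (nat_lit 16) (nat_lit 4) (nat_lit 415) (nat_lit 326) (nat_lit 279)) (XT.lf (nat_lit 0) (nat_lit 4208440300) (nat_lit 76) (nat_lit 22171085921) (nat_lit 76) (nat_lit 13243365092) (nat_lit 15) (nat_lit 4) (nat_lit 16) (nat_lit 5) (nat_lit 16) (nat_lit 4) (nat_lit 416) (nat_lit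 326) (nat_lit 278)))))) (XT.nd (nat_lit 546) (nat_lit 228) (nat_lit 0) (XT.nd (nat_lit 234) (nat_lit 76) (nat_lit 0) (XT.nd (nat_lit 78) (nat_lit 152) (nat_lit 0) (XT.lf (nat_lit 0) (nat_lit 18765283001) (nat_lit 76) (nat_lit 15723532851) (nat_lit 76) (nat_lit 6750591580) (nat_lit 15) (nat_lit 4) (nat_lit 16) (nat_lit 5) (nat_lit 16) (nat_lit 4) (nat_lit 417) (nat_lit 326) (nat_lit 277)) (XT.nd (nat_lit 78) (nat_lit 76) (nat_lit 0) (XT.lf (nat_lit 0) (nat_lit 8961259) (nat_lit 152) (nat_lit 8997637776) (nat_lit 76) (nat_lit 33932887198) (nat_lit 14) (nat_lit 5) (nat_lit 16) (nat_lit 5) (nat_lit 15) (nat_lit 4) (nat_lit 418) (nat_lit 326) (nat_lit 276)) (XT.lf (nat_lit 0) (nat_lit 5100677500) (nat_lit 76) (nat_lit 1805518661) (nat_lit 152) (nat_lit 37811513976) (nat_lit 13) (nat_lit 5) (nat_lit 14) (nat_lit 5) (nat_lit 15) (nat_lit 4) (nat_lit 419) (nat_lit 326) (nat_lit 275)))) (XT.nd (nat_lit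 156) (nat_lit 76) (nat_lit 0) (XT.nd (nat_lit 78) (nat_lit 0) (nat_lit 0) (XT.lf (nat_lit 0) (nat_lit 14340092318) (nat_lit 152) (nat_lit 26558014063) (nat_lit 0) (nat_lit 5677151605) (nat_lit 13) (nat_lit 5) (nat_lit 15) (nat_lit 4) (nat_lit 13) (nat_lit 4) (nat_lit 420) (nat_lit 326) (nat_lit 274)) (XT.lf (nat_lit 0) (nat_lit 22124863708) (nat_lit 152) (nat_lit 12975371501) (nat_lit 0) (nat_lit 13426491596) (nat_lit 13) (nat_lit 5) (nat_lit 15) (nat_lit 4) (nat_lit 13) (nat_lit 4) (nat_lit 421) (nat_lit 326) (nat_lit 273))) (XT.nd (nat_lit 78) (nat_lit 0) (nat_lit 0) (XT.lf (nat_lit 0) (nat_lit 1230817732) (nat_lit 76) (nat_lit 29039255075) (nat_lit 76) (nat_lit 20307138773) (nat_lit 12) (nat_lit 4) (nat_lit 13) (nat_lit 5) (nat_lit 13) (nat_lit 4) (nat_lit 422) (nat_lit 326) (nat_lit 272)) (XT.lf (nat_lit 0) (nat_lit 16504344644) (nat_lit 76) (nat_lit 22490752106) (nat_lit 76) (nat_lit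 13726498481) (nat_lit 12) (nat_lit 4) (nat_lit 13) (nat_lit 5) (nat_lit 13) (nat_lit 4) (nat_lit 423) (nat_lit 326) (nat_lit 271))))) (XT.nd (nat_lit 234) (nat_lit 76) (nat_lit 0) (XT.nd (nat_lit 78) (nat_lit 152) (nat_lit 0) (XT.lf (nat_lit 0) (nat_lit 32452550392) (nat_lit 76) (nat_lit 15658878824) (nat_lit 76) (nat_lit 6864018224) (nat_lit 12) (nat_lit 4) (nat_lit 13) (nat_lit 5) (nat_lit 13) (nat_lit 4) (nat_lit 424) (nat_lit 326) (nat_lit 270)) (XT.nd (nat_lit 78) (nat_lit 76) (nat_lit 0) (XT.lf (nat_lit 0) (nat_lit 287146863) (nat_lit 152) (nat_lit 8235359029) (nat_lit 76) (nat_lit 48821397061) (nat_lit 11) (nat_lit 5) (nat_lit 13) (nat_lit 5) (nat_lit 12) (nat_lit 4) (nat_lit 425) (nat_lit 326) (nat_lit 269)) (XT.lf (nat_lit 0) (nat_lit 6789233558) (nat_lit 76) (nat_lit 840525020) (nat_lit 152) (nat_lit 52192170138) (nat_lit 10) (nat_lit 5) (nat_lit 11) (nat_lit 5) (nat_lit 12) (nat_lit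 4) (nat_lit 426) (nat_lit 326) (nat_lit 268)))) (XT.nd (nat_lit 156) (nat_lit 76) (nat_lit 0) (XT.nd (nat_lit 78) (nat_lit 0) (nat_lit 0) (XT.lf (nat_lit 0) (nat_lit 15552720392) (nat_lit 152) (nat_lit 39763194884) (nat_lit 0) (nat_lit 7097281360) (nat_lit 10) (nat_lit 5) (nat_lit 12) (nat_lit 4) (nat_lit 10) (nat_lit 4) (nat_lit 427) (nat_lit 326) (nat_lit 267)) (XT.lf (nat_lit 0) (nat_lit 23846230511) (nat_lit 152) (nat_lit 25922269074) (nat_lit 0) (nat_lit 15366810114) (nat_lit 10) (nat_lit 5) (nat_lit 12) (nat_lit 4) (nat_lit 10) (nat_lit 4) (nat_lit 428) (nat_lit 326) (nat_lit 266))) (XT.nd (nat_lit 78) (nat_lit 76) (nat_lit 0) (XT.lf (nat_lit 0) (nat_lit 32516912437) (nat_lit 152) (nat_lit 11463840194) (nat_lit 0) (nat_lit 24014652644) (nat_lit 10) (nat_lit 5) (nat_lit 12) (nat_lit 4) (nat_lit 10) (nat_lit 4) (nat_lit 429) (nat_lit 326) (nat_lit 265)) (XT.lf (nat_lit 0) (nat_lit 3767086893)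 (nat_lit 76) (nat_lit 37877138540) (nat_lit 76) (nat_lit 29353126941) (nat_lit 9) (nat_lit 4) (nat_lit 10) (nat_lit 5) (nat_lit 10) (nat_lit 4) (nat_lit 430) (nat_lit 326) (nat_lit 264))))))) (XT.nd (nat_lit 1014) (nat_lit 152) (nat_lit 0) (XT.nd (nat_lit 468) (nat_lit 76) (nat_lit 0) (XT.nd (nat_lit 234) (nat_lit 152) (nat_lit 0) (XT.nd (nat_lit 78) (nat_lit 0) (nat_lit 0) (XT.lf (nat_lit 0) (nat_lit 20087710496) (nat_lit 76) (nat_lit 31299231773) (nat_lit 76) (nat_lit 22754504169) (nat_lit 9) (nat_lit 4) (nat_lit 10) (nat_lit 5) (nat_lit 10) (nat_lit 4) (nat_lit 431) (nat_lit 326) (nat_lit 263)) (XT.nd (nat_lit 78) (nat_lit 0) (nat_lit 0) (XT.lf (nat_lit 0) (nat_lit 37157842912) (nat_lit 76) (nat_lit 24425516328) (nat_lit 76) (nat_lit 15861059196) (nat_lit 9) (nat_lit 4) (nat_lit 10) (nat_lit 5) (nat_lit 10) (nat_lit 4) (nat_lit 432) (nat_lit 326) (nat_lit 262)) (XT.lf (nat_lit 0) (nat_lit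 55018127313) (nat_lit 76) (nat_lit 17239626217) (nat_lit 76) (nat_lit 8656379057) (nat_lit 9) (nat_lit 4) (nat_lit 10) (nat_lit 5) (nat_lit 10) (nat_lit 4) (nat_lit 433) (nat_lit 326) (nat_lit 261)))) (XT.nd (nat_lit 78) (nat_lit 152) (nat_lit 0) (XT.lf (nat_lit 0) (nat_lit 73711088187) (nat_lit 76) (nat_lit 9724452177) (nat_lit 76) (nat_lit 1123309752) (nat_lit 9) (nat_lit 4) (nat_lit 10) (nat_lit 5) (nat_lit 10) (nat_lit 4) (nat_lit 434) (nat_lit 326) (nat_lit 260)) (XT.nd (nat_lit 78) (nat_lit 0) (nat_lit 0) (XT.lf (nat_lit 0) (nat_lit 4946831755) (nat_lit 76) (nat_lit 1670249848) (nat_lit 152) (nat_lit 81761031552) (nat_lit 7) (nat_lit 5) (nat_lit 8) (nat_lit 5) (nat_lit 9) (nat_lit 4) (nat_lit 435) (nat_lit 326) (nat_lit 259)) (XT.lf (nat_lit 0) (nat_lit 14970120077) (nat_lit 152) (nat_lit 70657265022) (nat_lit 0) (nat_lit 6746865729) (nat_lit 7) (nat_lit 5) (nat_lit 9) (nat_lit 4) (nat_lit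 7) (nat_lit 4) (nat_lit 436) (nat_lit 326) (nat_lit 258))))) (XT.nd (nat_lit 234) (nat_lit 76) (nat_lit 0) (XT.nd (nat_lit 78) (nat_lit 0) (nat_lit 0) (XT.lf (nat_lit 0) (nat_lit 23740282598) (nat_lit 152) (nat_lit 57327634486) (nat_lit 0) (nat_lit 15502305772) (nat_lit 7) (nat_lit 5) (nat_lit 9) (nat_lit 4) (nat_lit 7) (nat_lit 4) (nat_lit 437) (nat_lit 326) (nat_lit 257)) (XT.nd (nat_lit 78) (nat_lit 0) (nat_lit 0) (XT.lf (nat_lit 0) (nat_lit 32922373226) (nat_lit 152) (nat_lit 43384575297) (nat_lit 0) (nat_lit 24670374992) (nat_lit 7) (nat_lit 5) (nat_lit 9) (nat_lit 4) (nat_lit 7) (nat_lit 4) (nat_lit 438) (nat_lit 326) (nat_lit 256)) (XT.lf (nat_lit 0) (nat_lit 42538254081) (nat_lit 152) (nat_lit 28794889695) (nat_lit 0) (nat_lit 34272902126) (nat_lit 7) (nat_lit 5) (nat_lit 9) (nat_lit 4) (nat_lit 7) (nat_lit 4) (nat_lit 439) (nat_lit 326) (nat_lit 255)))) (XT.nd (nat_lit 156) (nat_lit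 0) (nat_lit 0) (XT.nd (nat_lit 78) (nat_lit 76) (nat_lit 0) (XT.lf (nat_lit 0) (nat_lit 52610820118) (nat_lit 152) (nat_lit 13523840332) (nat_lit 0) (nat_lit 44332750332) (nat_lit 7) (nat_lit 5) (nat_lit 9) (nat_lit 4) (nat_lit 7) (nat_lit 4) (nat_lit 440) (nat_lit 326) (nat_lit 254)) (XT.lf (nat_lit 0) (nat_lit 2546434228) (nat_lit 76) (nat_lit 60657376381) (nat_lit 76) (nat_lit 52367194376) (nat_lit 6) (nat_lit 4) (nat_lit 7) (nat_lit 5) (nat_lit 7) (nat_lit 4) (nat_lit 441) (nat_lit 326) (nat_lit 253))) (XT.nd (nat_lit 78) (nat_lit 0) (nat_lit 0) (XT.lf (nat_lit 0) (nat_lit 19844649829) (nat_lit 76) (nat_lit 54688262151) (nat_lit 76) (nat_lit 46386544699) (nat_lit 6) (nat_lit 4) (nat_lit 7) (nat_lit 5) (nat_lit 7) (nat_lit 4) (nat_lit 442) (nat_lit 326) (nat_lit 252)) (XT.lf (nat_lit 0) (nat_lit 37964833458) (nat_lit 76) (nat_lit 48442138362) (nat_lit 76) (nat_lit 40129434770) (nat_lit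 6) (nat_lit 4) (nat_lit 7) (nat_lit 5) (nat_lit 7) (nat_lit 4) (nat_lit 443) (nat_lit 326) (nat_lit 251)))))) (XT.nd (nat_lit 546) (nat_lit 0) (nat_lit 0) (XT.nd (nat_lit 234) (nat_lit 152) (nat_lit 0) (XT.nd (nat_lit 78) (nat_lit 0) (nat_lit 0) (XT.lf (nat_lit 0) (nat_lit 56950128412) (nat_lit 76) (nat_lit 41904133291) (nat_lit 76) (nat_lit 33580966709) (nat_lit 6) (nat_lit 4) (nat_lit 7) (nat_lit 5) (nat_lit 7) (nat_lit 4) (nat_lit 444) (nat_lit 326) (nat_lit 250)) (XT.nd (nat_lit 78) (nat_lit 0) (nat_lit 0) (XT.lf (nat_lit 0) (nat_lit 76845737772) (nat_lit 76) (nat_lit 35058680260) (nat_lit 76) (nat_lit 26725548925) (nat_lit 6) (nat_lit 4) (nat_lit 7) (nat_lit 5) (nat_lit 7) (nat_lit 4) (nat_lit 445) (nat_lit 326) (nat_lit 249)) (XT.lf (nat_lit 0) (nat_lit 97699032037) (nat_lit 76) (nat_lit 27889480571) (nat_lit 76) (nat_lit 19546858996) (nat_lit 6) (nat_lit 4) (nat_lit 7) (nat_lit 5)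 (nat_lit 7) (nat_lit 4) (nat_lit 446) (nat_lit 326) (nat_lit 248)))) (XT.nd (nat_lit 156) (nat_lit 152) (nat_lit 0) (XT.nd (nat_lit 78) (nat_lit 0) (nat_lit 0) (XT.lf (nat_lit 0) (nat_lit 119559661909) (nat_lit 76) (nat_lit 20379464701) (nat_lit 76) (nat_lit 12027804801) (nat_lit 6) (nat_lit 4) (nat_lit 7) (nat_lit 5) (nat_lit 7) (nat_lit 4) (nat_lit 447) (nat_lit 326) (nat_lit 247)) (XT.lf (nat_lit 0) (nat_lit 142479676505) (nat_lit 76) (nat_lit 12510751660) (nat_lit 76) (nat_lit 4150483832) (nat_lit 6) (nat_lit 4) (nat_lit 7) (nat_lit 5) (nat_lit 7) (nat_lit 4) (nat_lit 448) (nat_lit 326) (nat_lit 246))) (XT.nd (nat_lit 78) (nat_lit 76) (nat_lit 0) (XT.lf (nat_lit 0) (nat_lit 3972510306) (nat_lit 152) (nat_lit 224819725) (nat_lit 76) (nat_lit 162473860598) (nat_lit 5) (nat_lit 5) (nat_lit 7) (nat_lit 5) (nat_lit 6) (nat_lit 4) (nat_lit 449) (nat_lit 326) (nat_lit 245)) (XT.lf (nat_lit 0)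 (nat_lit 12695881508) (nat_lit 152) (nat_lit 157143536477) (nat_lit 0) (nat_lit 4718478176) (nat_lit 4) (nat_lit 5) (nat_lit 6) (nat_lit 4) (nat_lit 4) (nat_lit 4) (nat_lit 450) (nat_lit 326) (nat_lit 244))))) (XT.nd (nat_lit 234) (nat_lit 0) (nat_lit 0) (XT.nd (nat_lit 78) (nat_lit 0) (nat_lit 0) (XT.lf (nat_lit 0) (nat_lit 21912595971) (nat_lit 152) (nat_lit 146995371908) (nat_lit 0) (nat_lit 13928110875) (nat_lit 4) (nat_lit 5) (nat_lit 6) (nat_lit 4) (nat_lit 4) (nat_lit 4) (nat_lit 451) (nat_lit 326) (nat_lit 243)) (XT.nd (nat_lit 78) (nat_lit 0) (nat_lit 0) (XT.lf (nat_lit 0) (nat_lit 31575380598) (nat_lit 152) (nat_lit 136369377685) (nat_lit 0) (nat_lit 23584150965) (nat_lit 4) (nat_lit 5) (nat_lit 6) (nat_lit 4) (nat_lit 4) (nat_lit 4) (nat_lit 452) (nat_lit 326) (nat_lit 242)) (XT.lf (nat_lit 0) (nat_lit 41707242020) (nat_lit 152) (nat_lit 125240253822) (nat_lit 0) (nat_lit 33709589018)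 (nat_lit 4) (nat_lit 5) (nat_lit 6) (nat_lit 4) (nat_lit 4) (nat_lit 4) (nat_lit 453) (nat_lit 326) (nat_lit 241)))) (XT.nd (nat_lit 156) (nat_lit 0) (nat_lit 0) (XT.nd (nat_lit 78) (nat_lit 0) (nat_lit 0) (XT.lf (nat_lit 0) (nat_lit 52332303715) (nat_lit 152) (nat_lit 113581502404) (nat_lit 0) (nat_lit 44328533220) (nat_lit 4) (nat_lit 5) (nat_lit 6) (nat_lit 4) (nat_lit 4) (nat_lit 4) (nat_lit 454) (nat_lit 326) (nat_lit 240)) (XT.lf (nat_lit 0) (nat_lit 63475863451) (nat_lit 152) (nat_lit 101365364501) (nat_lit 0) (nat_lit 55466266772) (nat_lit 4) (nat_lit 5) (nat_lit 6) (nat_lit 4) (nat_lit 4) (nat_lit 4) (nat_lit 455) (nat_lit 326) (nat_lit 239))) (XT.nd (nat_lit 78) (nat_lit 0) (nat_lit 0) (XT.lf (nat_lit 0) (nat_lit 75164453513) (nat_lit 152) (nat_lit 88562754068) (nat_lit 0) (nat_lit 67149308086) (nat_lit 4) (nat_lit 5) (nat_lit 6) (nat_lit 4) (nat_lit 4) (nat_lit 4) (nat_lit 456)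 (nat_lit 326) (nat_lit 238)) (XT.lf (nat_lit 0) (nat_lit 87425903876) (nat_lit 152) (nat_lit 75143188700) (nat_lit 0) (nat_lit 79405473927) (nat_lit 4) (nat_lit 5) (nat_lit 6) (nat_lit 4) (nat_lit 4) (nat_lit 4) (nat_lit 457) (nat_lit 326) (nat_lit 237))))))))
noncomputable def xc65 : XT := (XT.nd (nat_lit 45942) (nat_lit 0) (nat_lit 2280) (XT.nd (nat_lit 1014) (nat_lit 0) (nat_lit 0) (XT.nd (nat_lit 468) (nat_lit 0) (nat_lit 0) (XT.nd (nat_lit 234) (nat_lit 76) (nat_lit 0) (XT.nd (nat_lit 78) (nat_lit 0) (nat_lit 0) (XT.lf (nat_lit 0) (nat_lit 100289408470) (nat_lit 152) (nat_lit 61074717052) (nat_lit 0) (nat_lit 92263945644) (nat_lit 4) (nat_lit 5) (nat_lit 6) (nat_lit 4) (nat_lit 4) (nat_lit 4) (nat_lit 458) (nat_lit 326) (nat_lit 236)) (XT.nd (nat_lit 78) (nat_lit 0) (nat_lit 0) (XT.lf (nat_lit 0) (nat_lit 113785594686) (nat_lit 152) (nat_lit 46323842762) (nat_lit 0) (nat_lit 105755338644)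 (nat_lit 4) (nat_lit 5) (nat_lit 6) (nat_lit 4) (nat_lit 4) (nat_lit 4) (nat_lit 459) (nat_lit 326) (nat_lit 235)) (XT.lf (nat_lit 0) (nat_lit 127946596303) (nat_lit 152) (nat_lit 30855444700) (nat_lit 0) (nat_lit 119911775293) (nat_lit 4) (nat_lit 5) (nat_lit 6) (nat_lit 4) (nat_lit 4) (nat_lit 4) (nat_lit 460) (nat_lit 326) (nat_lit 234)))) (XT.nd (nat_lit 78) (nat_lit 76) (nat_lit 0) (XT.lf (nat_lit 0) (nat_lit 142806129989) (nat_lit 152) (nat_lit 14632693349) (nat_lit 0) (nat_lit 134766961391) (nat_lit 4) (nat_lit 5) (nat_lit 6) (nat_lit 4) (nat_lit 4) (nat_lit 4) (nat_lit 461) (nat_lit 326) (nat_lit 233)) (XT.nd (nat_lit 78) (nat_lit 0) (nat_lit 0) (XT.lf (nat_lit 0) (nat_lit 2461830853) (nat_lit 76) (nat_lit 155976180814) (nat_lit 76) (nat_lit 147932871655) (nat_lit 3) (nat_lit 4) (nat_lit 4) (nat_lit 5) (nat_lit 4) (nat_lit 4) (nat_lit 462) (nat_lit 326) (nat_lit 232)) (XT.lf (nat_lit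 0) (nat_lit 20901229540) (nat_lit 76) (nat_lit 154189157579) (nat_lit 76) (nat_lit 146141905029) (nat_lit 3) (nat_lit 4) (nat_lit 4) (nat_lit 5) (nat_lit 4) (nat_lit 4) (nat_lit 463) (nat_lit 326) (nat_lit 231))))) (XT.nd (nat_lit 234) (nat_lit 0) (nat_lit 0) (XT.nd (nat_lit 78) (nat_lit 0) (nat_lit 0) (XT.lf (nat_lit 0) (nat_lit 40245583117) (nat_lit 76) (nat_lit 152321310559) (nat_lit 76) (nat_lit 144270302398) (nat_lit 3) (nat_lit 4) (nat_lit 4) (nat_lit 5) (nat_lit 4) (nat_lit 4) (nat_lit 464) (nat_lit 326) (nat_lit 230)) (XT.nd (nat_lit 78) (nat_lit 0) (nat_lit 0) (XT.lf (nat_lit 0) (nat_lit 60540949568) (nat_lit 76) (nat_lit 150368192499) (nat_lit 76) (nat_lit 142313607567) (nat_lit 3) (nat_lit 4) (nat_lit 4) (nat_lit 5) (nat_lit 4) (nat_lit 4) (nat_lit 465) (nat_lit 326) (nat_lit 229)) (XT.lf (nat_lit 0) (nat_lit 81835651195) (nat_lit 76) (nat_lit 148325153118) (nat_lit 76) (nat_lit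 140267161736) (nat_lit 3) (nat_lit 4) (nat_lit 4) (nat_lit 5) (nat_lit 4) (nat_lit 4) (nat_lit 466) (nat_lit 326) (nat_lit 228)))) (XT.nd (nat_lit 156) (nat_lit 0) (nat_lit 0) (XT.nd (nat_lit 78) (nat_lit 0) (nat_lit 0) (XT.lf (nat_lit 0) (nat_lit 104180389667) (nat_lit 76) (nat_lit 146187328037) (nat_lit 76) (nat_lit 138126092417) (nat_lit 3) (nat_lit 4) (nat_lit 4) (nat_lit 5) (nat_lit 4) (nat_lit 4) (nat_lit 467) (nat_lit 326) (nat_lit 227)) (XT.lf (nat_lit 0) (nat_lit 127628366744) (nat_lit 76) (nat_lit 143949627195) (nat_lit 76) (nat_lit 135885301826) (nat_lit 3) (nat_lit 4) (nat_lit 4) (nat_lit 5) (nat_lit 4) (nat_lit 4) (nat_lit 468) (nat_lit 326) (nat_lit 226))) (XT.nd (nat_lit 78) (nat_lit 0) (nat_lit 0) (XT.lf (nat_lit 0) (nat_lit 152235410943) (nat_lit 76) (nat_lit 141606722734) (nat_lit 76) (nat_lit 133539454746) (nat_lit 3) (nat_lit 4) (nat_lit 4) (nat_lit 5) (nat_lit 4) (nat_lit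 4) (nat_lit 469) (nat_lit 326) (nat_lit 225)) (XT.lf (nat_lit 0) (nat_lit 178060110463) (nat_lit 76) (nat_lit 139153036310) (nat_lit 76) (nat_lit 131082965827) (nat_lit 3) (nat_lit 4) (nat_lit 4) (nat_lit 5) (nat_lit 4) (nat_lit 4) (nat_lit 470) (nat_lit 326) (nat_lit 224)))))) (XT.nd (nat_lit 546) (nat_lit 0) (nat_lit 0) (XT.nd (nat_lit 234) (nat_lit 0) (nat_lit 0) (XT.nd (nat_lit 78) (nat_lit 0) (nat_lit 0) (XT.lf (nat_lit 0) (nat_lit 205163952684) (nat_lit 76) (nat_lit 136582725812) (nat_lit 76) (nat_lit 128509986286) (nat_lit 3) (nat_lit 4) (nat_lit 4) (nat_lit 5) (nat_lit 4) (nat_lit 4) (nat_lit 471) (nat_lit 326) (nat_lit 223)) (XT.nd (nat_lit 78) (nat_lit 0) (nat_lit 0) (XT.lf (nat_lit 0) (nat_lit 233611470565) (nat_lit 76) (nat_lit 133889671453) (nat_lit 76) (nat_lit 125814389982) (nat_lit 3) (nat_lit 4) (nat_lit 4) (nat_lit 5) (nat_lit 4) (nat_lit 4) (nat_lit 472) (nat_lit 326) (nat_lit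 222)) (XT.lf (nat_lit 0) (nat_lit 263470396290) (nat_lit 76) (nat_lit 131067461199) (nat_lit 76) (nat_lit 122989758828) (nat_lit 3) (nat_lit 4) (nat_lit 4) (nat_lit 5) (nat_lit 4) (nat_lit 4) (nat_lit 473) (nat_lit 326) (nat_lit 221)))) (XT.nd (nat_lit 156) (nat_lit 0) (nat_lit 0) (XT.nd (nat_lit 78) (nat_lit 0) (nat_lit 0) (XT.lf (nat_lit 0) (nat_lit 294811822539) (nat_lit 76) (nat_lit 128109375502) (nat_lit 76) (nat_lit 120029367512) (nat_lit 3) (nat_lit 4) (nat_lit 4) (nat_lit 5) (nat_lit 4) (nat_lit 4) (nat_lit 474) (nat_lit 326) (nat_lit 220)) (XT.lf (nat_lit 0) (nat_lit 327710371758) (nat_lit 76) (nat_lit 125008371300) (nat_lit 76) (nat_lit 116926167483) (nat_lit 3) (nat_lit 4) (nat_lit 4) (nat_lit 5) (nat_lit 4) (nat_lit 4) (nat_lit 475) (nat_lit 326) (nat_lit 219))) (XT.nd (nat_lit 78) (nat_lit 0) (nat_lit 0) (XT.lf (nat_lit 0) (nat_lit 362244373823) (nat_lit 76) (nat_lit 121757065251)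 (nat_lit 76) (nat_lit 113672770169) (nat_lit 3) (nat_lit 4) (nat_lit 4) (nat_lit 5) (nat_lit 4) (nat_lit 4) (nat_lit 476) (nat_lit 326) (nat_lit 218)) (XT.lf (nat_lit 0) (nat_lit 398496052551) (nat_lit 76) (nat_lit 118347716149) (nat_lit 76) (nat_lit 110261429387) (nat_lit 3) (nat_lit 4) (nat_lit 4) (nat_lit 5) (nat_lit 4) (nat_lit 4) (nat_lit 477) (nat_lit 326) (nat_lit 217))))) (XT.nd (nat_lit 234) (nat_lit 0) (nat_lit 0) (XT.nd (nat_lit 78) (nat_lit 0) (nat_lit 0) (XT.lf (nat_lit 0) (nat_lit 436551721461) (nat_lit 76) (nat_lit 114772206497) (nat_lit 76) (nat_lit 106684022896) (nat_lit 3) (nat_lit 4) (nat_lit 4) (nat_lit 5) (nat_lit 4) (nat_lit 4) (nat_lit 478) (nat_lit 326) (nat_lit 216)) (XT.nd (nat_lit 78) (nat_lit 0) (nat_lit 0) (XT.lf (nat_lit 0) (nat_lit 476501989289) (nat_lit 76) (nat_lit 111022023176) (nat_lit 76) (nat_lit 102932033063) (nat_lit 3) (nat_lit 4) (nat_lit 4) (nat_lit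 5) (nat_lit 4) (nat_lit 4) (nat_lit 479) (nat_lit 326) (nat_lit 215)) (XT.lf (nat_lit 0) (nat_lit 518441975720) (nat_lit 76) (nat_lit 107088237179) (nat_lit 76) (nat_lit 98996526577) (nat_lit 3) (nat_lit 4) (nat_lit 4) (nat_lit 5) (nat_lit 4) (nat_lit 4) (nat_lit 480) (nat_lit 326) (nat_lit 214)))) (XT.nd (nat_lit 156) (nat_lit 0) (nat_lit 0) (XT.nd (nat_lit 78) (nat_lit 0) (nat_lit 0) (XT.lf (nat_lit 0) (nat_lit 562471537866) (nat_lit 76) (nat_lit 102961482347) (nat_lit 76) (nat_lit 94868133185) (nat_lit 3) (nat_lit 4) (nat_lit 4) (nat_lit 5) (nat_lit 4) (nat_lit 4) (nat_lit 481) (nat_lit 326) (nat_lit 213)) (XT.lf (nat_lit 0) (nat_lit 608695508016) (nat_lit 76) (nat_lit 98631933076) (nat_lit 76) (nat_lit 90537023380) (nat_lit 3) (nat_lit 4) (nat_lit 4) (nat_lit 5) (nat_lit 4) (nat_lit 4) (nat_lit 482) (nat_lit 326) (nat_lit 212))) (XT.nd (nat_lit 78) (nat_lit 0) (nat_lit 0) (XT.lf (nat_lit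 0) (nat_lit 657223943243) (nat_lit 76) (nat_lit 94089280913) (nat_lit 76) (nat_lit 85992884994) (nat_lit 3) (nat_lit 4) (nat_lit 4) (nat_lit 5) (nat_lit 4) (nat_lit 4) (nat_lit 483) (nat_lit 326) (nat_lit 211)) (XT.lf (nat_lit 0) (nat_lit 708172387440) (nat_lit 76) (nat_lit 89322710021) (nat_lit 76) (nat_lit 81224898652) (nat_lit 3) (nat_lit 4) (nat_lit 4) (nat_lit 5) (nat_lit 4) (nat_lit 4) (nat_lit 484) (nat_lit 326) (nat_lit 210))))))) (XT.nd (nat_lit 1014) (nat_lit 1520) (nat_lit 0) (XT.nd (nat_lit 468) (nat_lit 1216) (nat_lit 0) (XT.nd (nat_lit 234) (nat_lit 608) (nat_lit 0) (XT.nd (nat_lit 78) (nat_lit 532) (nat_lit 0) (XT.lf (nat_lit 0) (nat_lit 3489970942) (nat_lit 304) (nat_lit 373996654) (nat_lit 304) (nat_lit 373996654) (nat_lit 84) (nat_lit 4) (nat_lit 88) (nat_lit 5) (nat_lit 88) (nat_lit 4) (nat_lit 366) (nat_lit 327) (nat_lit 327)) (XT.nd (nat_lit 78) (nat_lit 228) (nat_lit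 0) (XT.lf (nat_lit 0) (nat_lit 3300895322) (nat_lit 304) (nat_lit 3066026621) (nat_lit 0) (nat_lit 2274180249) (nat_lit 80) (nat_lit 5) (nat_lit 84) (nat_lit 4) (nat_lit 80) (nat_lit 4) (nat_lit 367) (nat_lit 327) (nat_lit 326)) (XT.lf (nat_lit 0) (nat_lit 4110938995) (nat_lit 228) (nat_lit 3355317401) (nat_lit 228) (nat_lit 1350778449) (nat_lit 77) (nat_lit 4) (nat_lit 80) (nat_lit 5) (nat_lit 80) (nat_lit 4) (nat_lit 368) (nat_lit 327) (nat_lit 325)))) (XT.nd (nat_lit 78) (nat_lit 304) (nat_lit 0) (XT.lf (nat_lit 0) (nat_lit 2554954501) (nat_lit 228) (nat_lit 123462225) (nat_lit 304) (nat_lit 6324640208) (nat_lit 73) (nat_lit 5) (nat_lit 76) (nat_lit 5) (nat_lit 77) (nat_lit 4) (nat_lit 369) (nat_lit 327) (nat_lit 324)) (XT.nd (nat_lit 78) (nat_lit 76) (nat_lit 0) (XT.lf (nat_lit 0) (nat_lit 862488358) (nat_lit 228) (nat_lit 5988091085) (nat_lit 228) (nat_lit 2347410255) (nat_lit 70) (nat_lit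 4) (nat_lit 73) (nat_lit 5) (nat_lit 73) (nat_lit 4) (nat_lit 370) (nat_lit 327) (nat_lit 323)) (XT.lf (nat_lit 0) (nat_lit 1725838316) (nat_lit 304) (nat_lit 907170406) (nat_lit 76) (nat_lit 6770504670) (nat_lit 69) (nat_lit 5) (nat_lit 73) (nat_lit 5) (nat_lit 70) (nat_lit 4) (nat_lit 371) (nat_lit 327) (nat_lit 322))))) (XT.nd (nat_lit 234) (nat_lit 608) (nat_lit 0) (XT.nd (nat_lit 78) (nat_lit 456) (nat_lit 0) (XT.lf (nat_lit 0) (nat_lit 5895930616) (nat_lit 228) (nat_lit 2790110830) (nat_lit 0) (nat_lit 932797711) (nat_lit 67) (nat_lit 5) (nat_lit 70) (nat_lit 4) (nat_lit 67) (nat_lit 4) (nat_lit 372) (nat_lit 327) (nat_lit 321)) (XT.nd (nat_lit 78) (nat_lit 152) (nat_lit 0) (XT.lf (nat_lit 0) (nat_lit 405421052) (nat_lit 304) (nat_lit 4826940922) (nat_lit 76) (nat_lit 4612803656) (nat_lit 63) (nat_lit 5) (nat_lit 67) (nat_lit 5) (nat_lit 64) (nat_lit 4) (nat_lit 373) (nat_lit 327) (nat_lit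 320)) (XT.lf (nat_lit 0) (nat_lit 3036539305) (nat_lit 152) (nat_lit 1527569512) (nat_lit 228) (nat_lit 5518241449) (nat_lit 61) (nat_lit 5) (nat_lit 63) (nat_lit 5) (nat_lit 64) (nat_lit 4) (nat_lit 374) (nat_lit 327) (nat_lit 319)))) (XT.nd (nat_lit 156) (nat_lit 380) (nat_lit 0) (XT.nd (nat_lit 78) (nat_lit 76) (nat_lit 0) (XT.lf (nat_lit 0) (nat_lit 889354997) (nat_lit 152) (nat_lit 8030920924) (nat_lit 152) (nat_lit 1411684960) (nat_lit 59) (nat_lit 4) (nat_lit 61) (nat_lit 5) (nat_lit 61) (nat_lit 4) (nat_lit 375) (nat_lit 327) (nat_lit 318)) (XT.lf (nat_lit 0) (nat_lit 2810305034) (nat_lit 228) (nat_lit 1429824013) (nat_lit 76) (nat_lit 6351552365) (nat_lit 58) (nat_lit 5) (nat_lit 61) (nat_lit 5) (nat_lit 59) (nat_lit 4) (nat_lit 376) (nat_lit 327) (nat_lit 317))) (XT.nd (nat_lit 78) (nat_lit 228) (nat_lit 0) (XT.lf (nat_lit 0) (nat_lit 6959041062) (nat_lit 152) (nat_lit 208997630)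 (nat_lit 228) (nat_lit 3696625861) (nat_lit 56) (nat_lit 5) (nat_lit 58) (nat_lit 5) (nat_lit 59) (nat_lit 4) (nat_lit 377) (nat_lit 327) (nat_lit 316)) (XT.lf (nat_lit 0) (nat_lit 596927477) (nat_lit 228) (nat_lit 6637250231) (nat_lit 76) (nat_lit 3915514965) (nat_lit 53) (nat_lit 5) (nat_lit 56) (nat_lit 5) (nat_lit 54) (nat_lit 4) (nat_lit 378) (nat_lit 327) (nat_lit 315)))))) (XT.nd (nat_lit 546) (nat_lit 760) (nat_lit 0) (XT.nd (nat_lit 234) (nat_lit 380) (nat_lit 0) (XT.nd (nat_lit 78) (nat_lit 228) (nat_lit 0) (XT.lf (nat_lit 0) (nat_lit 1807369869) (nat_lit 152) (nat_lit 3138323513) (nat_lit 228) (nat_lit 6502043336) (nat_lit 51) (nat_lit 5) (nat_lit 53) (nat_lit 5) (nat_lit 54) (nat_lit 4) (nat_lit 379) (nat_lit 327) (nat_lit 314)) (XT.nd (nat_lit 78) (nat_lit 228) (nat_lit 0) (XT.lf (nat_lit 0) (nat_lit 9511655551) (nat_lit 228) (nat_lit 1098609471) (nat_lit 0) (nat_lit 1150461312)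 (nat_lit 51) (nat_lit 5) (nat_lit 54) (nat_lit 4) (nat_lit 51) (nat_lit 4) (nat_lit 380) (nat_lit 327) (nat_lit 313)) (XT.lf (nat_lit 0) (nat_lit 2194091633) (nat_lit 228) (nat_lit 4269612408) (nat_lit 76) (nat_lit 5621535187) (nat_lit 48) (nat_lit 5) (nat_lit 51) (nat_lit 5) (nat_lit 49) (nat_lit 4) (nat_lit 381) (nat_lit 327) (nat_lit 312)))) (XT.nd (nat_lit 156) (nat_lit 152) (nat_lit 0) (XT.nd (nat_lit 78) (nat_lit 152) (nat_lit 0) (XT.lf (nat_lit 0) (nat_lit 4683371955) (nat_lit 76) (nat_lit 2066789179) (nat_lit 152) (nat_lit 5675683517) (nat_lit 47) (nat_lit 5) (nat_lit 48) (nat_lit 5) (nat_lit 49) (nat_lit 4) (nat_lit 382) (nat_lit 327) (nat_lit 311)) (XT.lf (nat_lit 0) (nat_lit 1231537615) (nat_lit 152) (nat_lit 10310540231) (nat_lit 152) (nat_lit 1241026034) (nat_lit 45) (nat_lit 4) (nat_lit 47) (nat_lit 5) (nat_lit 47) (nat_lit 4) (nat_lit 383) (nat_lit 327) (nat_lit 310))) (XT.nd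 (nat_lit 78) (nat_lit 76) (nat_lit 0) (XT.lf (nat_lit 0) (nat_lit 3349253216) (nat_lit 228) (nat_lit 2537814070) (nat_lit 76) (nat_lit 7266355854) (nat_lit 44) (nat_lit 5) (nat_lit 47) (nat_lit 5) (nat_lit 45) (nat_lit 4) (nat_lit 384) (nat_lit 327) (nat_lit 309)) (XT.lf (nat_lit 0) (nat_lit 6918340689) (nat_lit 76) (nat_lit 1198964310) (nat_lit 152) (nat_lit 5424460089) (nat_lit 43) (nat_lit 5) (nat_lit 44) (nat_lit 5) (nat_lit 45) (nat_lit 4) (nat_lit 385) (nat_lit 327) (nat_lit 308))))) (XT.nd (nat_lit 234) (nat_lit 456) (nat_lit 0) (XT.nd (nat_lit 78) (nat_lit 152) (nat_lit 0) (XT.lf (nat_lit 0) (nat_lit 2808705476) (nat_lit 152) (nat_lit 10343669458) (nat_lit 152) (nat_lit 795739584) (nat_lit 41) (nat_lit 4) (nat_lit 43) (nat_lit 5) (nat_lit 43) (nat_lit 4) (nat_lit 386) (nat_lit 327) (nat_lit 307)) (XT.nd (nat_lit 78) (nat_lit 76) (nat_lit 0) (XT.lf (nat_lit 0) (nat_lit 3951382552)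 (nat_lit 228) (nat_lit 1722599547) (nat_lit 76) (nat_lit 8696793053) (nat_lit 40) (nat_lit 5) (nat_lit 43) (nat_lit 5) (nat_lit 41) (nat_lit 4) (nat_lit 387) (nat_lit 327) (nat_lit 306)) (XT.lf (nat_lit 0) (nat_lit 8214080828) (nat_lit 76) (nat_lit 712223118) (nat_lit 152) (nat_lit 5886771646) (nat_lit 39) (nat_lit 5) (nat_lit 40) (nat_lit 5) (nat_lit 41) (nat_lit 4) (nat_lit 388) (nat_lit 327) (nat_lit 305)))) (XT.nd (nat_lit 156) (nat_lit 228) (nat_lit 0) (XT.nd (nat_lit 78) (nat_lit 76) (nat_lit 0) (XT.lf (nat_lit 0) (nat_lit 3263457559) (nat_lit 152) (nat_lit 10927096093) (nat_lit 152) (nat_lit 1084925700) (nat_lit 37) (nat_lit 4) (nat_lit 39) (nat_lit 5) (nat_lit 39) (nat_lit 4) (nat_lit 389) (nat_lit 327) (nat_lit 304)) (XT.lf (nat_lit 0) (nat_lit 3845751025) (nat_lit 228) (nat_lit 2184627183) (nat_lit 76) (nat_lit 9726782501) (nat_lit 36) (nat_lit 5) (nat_lit 39) (nat_lit 5) (nat_lit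 37) (nat_lit 4) (nat_lit 390) (nat_lit 327) (nat_lit 303))) (XT.nd (nat_lit 78) (nat_lit 152) (nat_lit 0) (XT.lf (nat_lit 0) (nat_lit 8185915223) (nat_lit 76) (nat_lit 823745638) (nat_lit 152) (nat_lit 7251233036) (nat_lit 35) (nat_lit 5) (nat_lit 36) (nat_lit 5) (nat_lit 37) (nat_lit 4) (nat_lit 391) (nat_lit 327) (nat_lit 302)) (XT.lf (nat_lit 0) (nat_lit 2165966260) (nat_lit 152) (nat_lit 12305742665) (nat_lit 152) (nat_lit 2316122005) (nat_lit 33) (nat_lit 4) (nat_lit 35) (nat_lit 5) (nat_lit 35) (nat_lit 4) (nat_lit 392) (nat_lit 327) (nat_lit 301))))))))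
noncomputable def xc66 : XT := (XT.nd (nat_lit 2106) (nat_lit 608) (nat_lit 0) (XT.nd (nat_lit 1014) (nat_lit 608) (nat_lit 0) (XT.nd (nat_lit 468) (nat_lit 456) (nat_lit 0) (XT.nd (nat_lit 234) (nat_lit 228) (nat_lit 0) (XT.nd (nat_lit 78) (nat_lit 76) (nat_lit 0) (XT.lf (nat_lit 0) (nat_lit 2822849791) (nat_lit 228) (nat_lit 4388912056) (nat_lit 76) (nat_lit 10124687499) (nat_lit 32) (nat_lit 5) (nat_lit 35) (nat_lit 5) (nat_lit 33) (nat_lit 4) (nat_lit 393) (nat_lit 327) (nat_lit 300)) (XT.nd (nat_lit 78) (nat_lit 0) (nat_lit 0) (XT.lf (nat_lit 0) (nat_lit 6336281265) (nat_lit 76) (nat_lit 1804843302) (nat_lit 152) (nat_lit 9769478463) (nat_lit 31) (nat_lit 5) (nat_lit 32) (nat_lit 5) (nat_lit 33) (nat_lit 4) (nat_lit 394) (nat_lit 327) (nat_lit 299)) (XT.lf (nat_lit 0) (nat_lit 13763137310) (nat_lit 152) (nat_lit 1006122390) (nat_lit 0) (nat_lit 3742325271) (nat_lit 31) (nat_lit 5) (nat_lit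 33) (nat_lit 4) (nat_lit 31) (nat_lit 4) (nat_lit 395) (nat_lit 327) (nat_lit 298)))) (XT.nd (nat_lit 78) (nat_lit 76) (nat_lit 0) (XT.lf (nat_lit 0) (nat_lit 603944813) (nat_lit 152) (nat_lit 8935857636) (nat_lit 76) (nat_lit 9597561992) (nat_lit 29) (nat_lit 5) (nat_lit 31) (nat_lit 5) (nat_lit 30) (nat_lit 4) (nat_lit 396) (nat_lit 327) (nat_lit 297)) (XT.nd (nat_lit 78) (nat_lit 0) (nat_lit 0) (XT.lf (nat_lit 0) (nat_lit 2021175173) (nat_lit 76) (nat_lit 3998805373) (nat_lit 152) (nat_lit 13772790219) (nat_lit 28) (nat_lit 5) (nat_lit 29) (nat_lit 5) (nat_lit 30) (nat_lit 4) (nat_lit 397) (nat_lit 327) (nat_lit 296)) (XT.lf (nat_lit 0) (nat_lit 11796219038) (nat_lit 152) (nat_lit 6844697171) (nat_lit 0) (nat_lit 1835570841) (nat_lit 28) (nat_lit 5) (nat_lit 30) (nat_lit 4) (nat_lit 28) (nat_lit 4) (nat_lit 398) (nat_lit 327) (nat_lit 295))))) (XT.nd (nat_lit 234) (nat_lit 228) (nat_lit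 0) (XT.nd (nat_lit 78) (nat_lit 152) (nat_lit 0) (XT.lf (nat_lit 0) (nat_lit 4539990989) (nat_lit 76) (nat_lit 13369318035) (nat_lit 76) (nat_lit 3282687380) (nat_lit 27) (nat_lit 4) (nat_lit 28) (nat_lit 5) (nat_lit 28) (nat_lit 4) (nat_lit 399) (nat_lit 327) (nat_lit 294)) (XT.nd (nat_lit 78) (nat_lit 76) (nat_lit 0) (XT.lf (nat_lit 0) (nat_lit 2338059590) (nat_lit 152) (nat_lit 5413591787) (nat_lit 76) (nat_lit 14188295829) (nat_lit 26) (nat_lit 5) (nat_lit 28) (nat_lit 5) (nat_lit 27) (nat_lit 4) (nat_lit 400) (nat_lit 327) (nat_lit 293)) (XT.lf (nat_lit 0) (nat_lit 6376522042) (nat_lit 76) (nat_lit 1768553954) (nat_lit 152) (nat_lit 14576759206) (nat_lit 25) (nat_lit 5) (nat_lit 26) (nat_lit 5) (nat_lit 27) (nat_lit 4) (nat_lit 401) (nat_lit 327) (nat_lit 292)))) (XT.nd (nat_lit 156) (nat_lit 152) (nat_lit 0) (XT.nd (nat_lit 78) (nat_lit 76) (nat_lit 0) (XT.lf (nat_lit 0) (nat_lit 14322453037)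 (nat_lit 152) (nat_lit 4826977806) (nat_lit 0) (nat_lit 4389393860) (nat_lit 25) (nat_lit 5) (nat_lit 27) (nat_lit 4) (nat_lit 25) (nat_lit 4) (nat_lit 402) (nat_lit 327) (nat_lit 291)) (XT.lf (nat_lit 0) (nat_lit 7319347326) (nat_lit 76) (nat_lit 13552956535) (nat_lit 76) (nat_lit 3521186805) (nat_lit 24) (nat_lit 4) (nat_lit 25) (nat_lit 5) (nat_lit 25) (nat_lit 4) (nat_lit 403) (nat_lit 327) (nat_lit 290))) (XT.nd (nat_lit 78) (nat_lit 76) (nat_lit 0) (XT.lf (nat_lit 0) (nat_lit 2383636937) (nat_lit 152) (nat_lit 5239324058) (nat_lit 76) (nat_lit 17665837329) (nat_lit 23) (nat_lit 5) (nat_lit 25) (nat_lit 5) (nat_lit 24) (nat_lit 4) (nat_lit 404) (nat_lit 327) (nat_lit 289)) (XT.lf (nat_lit 0) (nat_lit 7214355519) (nat_lit 76) (nat_lit 1287921885) (nat_lit 152) (nat_lit 17721868466) (nat_lit 22) (nat_lit 5) (nat_lit 23) (nat_lit 5) (nat_lit 24) (nat_lit 4) (nat_lit 405) (nat_lit 327) (nat_lit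 288)))))) (XT.nd (nat_lit 546) (nat_lit 304) (nat_lit 0) (XT.nd (nat_lit 234) (nat_lit 228) (nat_lit 0) (XT.nd (nat_lit 78) (nat_lit 76) (nat_lit 0) (XT.lf (nat_lit 0) (nat_lit 15025333947) (nat_lit 152) (nat_lit 6960753741) (nat_lit 0) (nat_lit 5215254854) (nat_lit 22) (nat_lit 5) (nat_lit 24) (nat_lit 4) (nat_lit 22) (nat_lit 4) (nat_lit 406) (nat_lit 327) (nat_lit 287)) (XT.nd (nat_lit 78) (nat_lit 0) (nat_lit 0) (XT.lf (nat_lit 0) (nat_lit 5713098516) (nat_lit 76) (nat_lit 16199902358) (nat_lit 76) (nat_lit 6312480965) (nat_lit 21) (nat_lit 4) (nat_lit 22) (nat_lit 5) (nat_lit 22) (nat_lit 4) (nat_lit 407) (nat_lit 327) (nat_lit 286)) (XT.lf (nat_lit 0) (nat_lit 19125175521) (nat_lit 76) (nat_lit 10067186578) (nat_lit 76) (nat_lit 106105851) (nat_lit 21) (nat_lit 4) (nat_lit 22) (nat_lit 5) (nat_lit 22) (nat_lit 4) (nat_lit 408) (nat_lit 327) (nat_lit 285)))) (XT.nd (nat_lit 156) (nat_lit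 76) (nat_lit 0) (XT.nd (nat_lit 78) (nat_lit 0) (nat_lit 0) (XT.lf (nat_lit 0) (nat_lit 2634110374) (nat_lit 76) (nat_lit 3544105649) (nat_lit 152) (nat_lit 24243247537) (nat_lit 19) (nat_lit 5) (nat_lit 20) (nat_lit 5) (nat_lit 21) (nat_lit 4) (nat_lit 409) (nat_lit 327) (nat_lit 284)) (XT.lf (nat_lit 0) (nat_lit 12931804717) (nat_lit 152) (nat_lit 15346170818) (nat_lit 0) (nat_lit 3314620277) (nat_lit 19) (nat_lit 5) (nat_lit 21) (nat_lit 4) (nat_lit 19) (nat_lit 4) (nat_lit 410) (nat_lit 327) (nat_lit 283))) (XT.nd (nat_lit 78) (nat_lit 76) (nat_lit 0) (XT.lf (nat_lit 0) (nat_lit 20016315981) (nat_lit 152) (nat_lit 2467779155) (nat_lit 0) (nat_lit 10338531825) (nat_lit 19) (nat_lit 5) (nat_lit 21) (nat_lit 4) (nat_lit 19) (nat_lit 4) (nat_lit 411) (nat_lit 327) (nat_lit 282)) (XT.lf (nat_lit 0) (nat_lit 11295339465) (nat_lit 76) (nat_lit 16274296718) (nat_lit 76) (nat_lit 6538798546) (nat_lit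 18) (nat_lit 4) (nat_lit 19) (nat_lit 5) (nat_lit 19) (nat_lit 4) (nat_lit 412) (nat_lit 327) (nat_lit 281))))) (XT.nd (nat_lit 234) (nat_lit 152) (nat_lit 0) (XT.nd (nat_lit 78) (nat_lit 76) (nat_lit 0) (XT.lf (nat_lit 0) (nat_lit 21540412) (nat_lit 152) (nat_lit 9746306054) (nat_lit 76) (nat_lit 25691617497) (nat_lit 17) (nat_lit 5) (nat_lit 19) (nat_lit 5) (nat_lit 18) (nat_lit 4) (nat_lit 413) (nat_lit 327) (nat_lit 280)) (XT.nd (nat_lit 78) (nat_lit 0) (nat_lit 0) (XT.lf (nat_lit 0) (nat_lit 3875615684) (nat_lit 76) (nat_lit 2816300363) (nat_lit 152) (nat_lit 30180684283) (nat_lit 16) (nat_lit 5) (nat_lit 17) (nat_lit 5) (nat_lit 18) (nat_lit 4) (nat_lit 414) (nat_lit 327) (nat_lit 279)) (XT.lf (nat_lit 0) (nat_lit 13874984753) (nat_lit 152) (nat_lit 20019057110) (nat_lit 0) (nat_lit 4453396419) (nat_lit 16) (nat_lit 5) (nat_lit 18) (nat_lit 4) (nat_lit 16) (nat_lit 4) (nat_lit 415)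 (nat_lit 327) (nat_lit 278)))) (XT.nd (nat_lit 156) (nat_lit 76) (nat_lit 0) (XT.nd (nat_lit 78) (nat_lit 76) (nat_lit 0) (XT.lf (nat_lit 0) (nat_lit 21407585820) (nat_lit 152) (nat_lit 6548139633) (nat_lit 0) (nat_lit 11940777045) (nat_lit 16) (nat_lit 5) (nat_lit 18) (nat_lit 4) (nat_lit 16) (nat_lit 4) (nat_lit 416) (nat_lit 327) (nat_lit 277)) (XT.lf (nat_lit 0) (nat_lit 7739524869) (nat_lit 76) (nat_lit 21644994477) (nat_lit 76) (nat_lit 12135118615) (nat_lit 15) (nat_lit 4) (nat_lit 16) (nat_lit 5) (nat_lit 16) (nat_lit 4) (nat_lit 417) (nat_lit 327) (nat_lit 276))) (XT.nd (nat_lit 78) (nat_lit 76) (nat_lit 0) (XT.lf (nat_lit 0) (nat_lit 22866082917) (nat_lit 76) (nat_lit 14952904026) (nat_lit 76) (nat_lit 5402011890) (nat_lit 15) (nat_lit 4) (nat_lit 16) (nat_lit 5) (nat_lit 16) (nat_lit 4) (nat_lit 418) (nat_lit 327) (nat_lit 275)) (XT.lf (nat_lit 0) (nat_lit 1563831457) (nat_lit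 152) (nat_lit 6384100766) (nat_lit 76) (nat_lit 37060723356) (nat_lit 14) (nat_lit 5) (nat_lit 16) (nat_lit 5) (nat_lit 15) (nat_lit 4) (nat_lit 419) (nat_lit 327) (nat_lit 274))))))) (XT.nd (nat_lit 1014) (nat_lit 228) (nat_lit 0) (XT.nd (nat_lit 468) (nat_lit 228) (nat_lit 0) (XT.nd (nat_lit 234) (nat_lit 76) (nat_lit 0) (XT.nd (nat_lit 78) (nat_lit 0) (nat_lit 0) (XT.lf (nat_lit 0) (nat_lit 8369720292) (nat_lit 76) (nat_lit 409244836) (nat_lit 152) (nat_lit 38098177692) (nat_lit 13) (nat_lit 5) (nat_lit 14) (nat_lit 5) (nat_lit 15) (nat_lit 4) (nat_lit 420) (nat_lit 327) (nat_lit 273)) (XT.nd (nat_lit 78) (nat_lit 0) (nat_lit 0) (XT.lf (nat_lit 0) (nat_lit 16533923951) (nat_lit 152) (nat_lit 24964721878) (nat_lit 0) (nat_lit 7331457644) (nat_lit 13) (nat_lit 5) (nat_lit 15) (nat_lit 4) (nat_lit 13) (nat_lit 4) (nat_lit 421) (nat_lit 327) (nat_lit 272)) (XT.lf (nat_lit 0) (nat_lit 24637608814)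 (nat_lit 152) (nat_lit 10842051612) (nat_lit 0) (nat_lit 15403005184) (nat_lit 13) (nat_lit 5) (nat_lit 15) (nat_lit 4) (nat_lit 13) (nat_lit 4) (nat_lit 422) (nat_lit 327) (nat_lit 271)))) (XT.nd (nat_lit 78) (nat_lit 0) (nat_lit 0) (XT.lf (nat_lit 0) (nat_lit 4029574690) (nat_lit 76) (nat_lit 29136263011) (nat_lit 76) (nat_lit 19871052406) (nat_lit 12) (nat_lit 4) (nat_lit 13) (nat_lit 5) (nat_lit 13) (nat_lit 4) (nat_lit 423) (nat_lit 327) (nat_lit 270)) (XT.nd (nat_lit 78) (nat_lit 0) (nat_lit 0) (XT.lf (nat_lit 0) (nat_lit 19936434324) (nat_lit 76) (nat_lit 22324856551) (nat_lit 76) (nat_lit 13030496447) (nat_lit 12) (nat_lit 4) (nat_lit 13) (nat_lit 5) (nat_lit 13) (nat_lit 4) (nat_lit 424) (nat_lit 327) (nat_lit 269)) (XT.lf (nat_lit 0) (nat_lit 36557913577) (nat_lit 76) (nat_lit 15212838803) (nat_lit 76) (nat_lit 5890717270) (nat_lit 12) (nat_lit 4) (nat_lit 13) (nat_lit 5) (nat_lit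 13) (nat_lit 4) (nat_lit 425) (nat_lit 327) (nat_lit 268))))) (XT.nd (nat_lit 234) (nat_lit 76) (nat_lit 0) (XT.nd (nat_lit 78) (nat_lit 76) (nat_lit 0) (XT.lf (nat_lit 0) (nat_lit 1515185714) (nat_lit 152) (nat_lit 6242430273) (nat_lit 76) (nat_lit 52392741279) (nat_lit 11) (nat_lit 5) (nat_lit 13) (nat_lit 5) (nat_lit 12) (nat_lit 4) (nat_lit 426) (nat_lit 327) (nat_lit 267)) (XT.nd (nat_lit 78) (nat_lit 0) (nat_lit 0) (XT.lf (nat_lit 0) (nat_lit 9208608218) (nat_lit 152) (nat_lit 53263259356) (nat_lit 0) (nat_lit 281235435) (nat_lit 10) (nat_lit 5) (nat_lit 12) (nat_lit 4) (nat_lit 10) (nat_lit 4) (nat_lit 427) (nat_lit 327) (nat_lit 266)) (XT.lf (nat_lit 0) (nat_lit 17483823850) (nat_lit 152) (nat_lit 39458696093) (nat_lit 0) (nat_lit 8533611671) (nat_lit 10) (nat_lit 5) (nat_lit 12) (nat_lit 4) (nat_lit 10) (nat_lit 4) (nat_lit 428) (nat_lit 327) (nat_lit 265)))) (XT.nd (nat_lit 156)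 (nat_lit 76) (nat_lit 0) (XT.nd (nat_lit 78) (nat_lit 0) (nat_lit 0) (XT.lf (nat_lit 0) (nat_lit 26137082454) (nat_lit 152) (nat_lit 25034898209) (nat_lit 0) (nat_lit 17165118470) (nat_lit 10) (nat_lit 5) (nat_lit 12) (nat_lit 4) (nat_lit 10) (nat_lit 4) (nat_lit 429) (nat_lit 327) (nat_lit 264)) (XT.lf (nat_lit 0) (nat_lit 35188987028) (nat_lit 152) (nat_lit 9957523329) (nat_lit 0) (nat_lit 26196307038) (nat_lit 10) (nat_lit 5) (nat_lit 12) (nat_lit 4) (nat_lit 10) (nat_lit 4) (nat_lit 430) (nat_lit 327) (nat_lit 263))) (XT.nd (nat_lit 78) (nat_lit 0) (nat_lit 0) (XT.lf (nat_lit 0) (nat_lit 6001409647) (nat_lit 76) (nat_lit 38753378900) (nat_lit 76) (nat_lit 29740969382) (nat_lit 9) (nat_lit 4) (nat_lit 10) (nat_lit 5) (nat_lit 10) (nat_lit 4) (nat_lit 431) (nat_lit 327) (nat_lit 262)) (XT.lf (nat_lit 0) (nat_lit 23040637363) (nat_lit 76) (nat_lit 31895034726) (nat_lit 76) (nat_lit 22863835181)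 (nat_lit 9) (nat_lit 4) (nat_lit 10) (nat_lit 5) (nat_lit 10) (nat_lit 4) (nat_lit 432) (nat_lit 327) (nat_lit 261)))))) (XT.nd (nat_lit 546) (nat_lit 76) (nat_lit 0) (XT.nd (nat_lit 234) (nat_lit 152) (nat_lit 0) (XT.nd (nat_lit 78) (nat_lit 0) (nat_lit 0) (XT.lf (nat_lit 0) (nat_lit 40871488717) (nat_lit 76) (nat_lit 24723783921) (nat_lit 76) (nat_lit 15674689111) (nat_lit 9) (nat_lit 4) (nat_lit 10) (nat_lit 5) (nat_lit 10) (nat_lit 4) (nat_lit 433) (nat_lit 327) (nat_lit 260)) (XT.nd (nat_lit 78) (nat_lit 0) (nat_lit 0) (XT.lf (nat_lit 0) (nat_lit 59536418116) (nat_lit 76) (nat_lit 17222552076) (nat_lit 76) (nat_lit 8156414158) (nat_lit 9) (nat_lit 4) (nat_lit 10) (nat_lit 5) (nat_lit 10) (nat_lit 4) (nat_lit 434) (nat_lit 327) (nat_lit 259)) (XT.lf (nat_lit 0) (nat_lit 79079865870) (nat_lit 76) (nat_lit 9373479118) (nat_lit 76) (nat_lit 291109667) (nat_lit 9) (nat_lit 4) (nat_lit 10)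 (nat_lit 5) (nat_lit 10) (nat_lit 4) (nat_lit 435) (nat_lit 327) (nat_lit 258)))) (XT.nd (nat_lit 156) (nat_lit 0) (nat_lit 0) (XT.nd (nat_lit 78) (nat_lit 0) (nat_lit 0) (XT.lf (nat_lit 0) (nat_lit 6878256782) (nat_lit 76) (nat_lit 914955332) (nat_lit 152) (nat_lit 84961509692) (nat_lit 7) (nat_lit 5) (nat_lit 8) (nat_lit 5) (nat_lit 9) (nat_lit 4) (nat_lit 436) (nat_lit 327) (nat_lit 257)) (XT.lf (nat_lit 0) (nat_lit 16536123756) (nat_lit 152) (nat_lit 72558428922) (nat_lit 0) (nat_lit 7857504202) (nat_lit 7) (nat_lit 5) (nat_lit 9) (nat_lit 4) (nat_lit 7) (nat_lit 4) (nat_lit 437) (nat_lit 327) (nat_lit 256))) (XT.nd (nat_lit 78) (nat_lit 0) (nat_lit 0) (XT.lf (nat_lit 0) (nat_lit 25705865942) (nat_lit 152) (nat_lit 58640016829) (nat_lit 0) (nat_lit 17013892667) (nat_lit 7) (nat_lit 5) (nat_lit 9) (nat_lit 4) (nat_lit 7) (nat_lit 4) (nat_lit 438) (nat_lit 327) (nat_lit 255)) (XT.lf (nat_lit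 0) (nat_lit 35309986377) (nat_lit 152) (nat_lit 44073804651) (nat_lit 0) (nat_lit 26605295272) (nat_lit 7) (nat_lit 5) (nat_lit 9) (nat_lit 4) (nat_lit 7) (nat_lit 4) (nat_lit 439) (nat_lit 327) (nat_lit 254))))) (XT.nd (nat_lit 234) (nat_lit 0) (nat_lit 0) (XT.nd (nat_lit 78) (nat_lit 76) (nat_lit 0) (XT.lf (nat_lit 0) (nat_lit 45371352014) (nat_lit 152) (nat_lit 28825110931) (nat_lit 0) (nat_lit 36654548689) (nat_lit 7) (nat_lit 5) (nat_lit 9) (nat_lit 4) (nat_lit 7) (nat_lit 4) (nat_lit 440) (nat_lit 327) (nat_lit 253)) (XT.nd (nat_lit 78) (nat_lit 76) (nat_lit 0) (XT.lf (nat_lit 0) (nat_lit 55913918484) (nat_lit 152) (nat_lit 12857629255) (nat_lit 0) (nat_lit 47185579713) (nat_lit 7) (nat_lit 5) (nat_lit 9) (nat_lit 4) (nat_lit 7) (nat_lit 4) (nat_lit 441) (nat_lit 327) (nat_lit 252)) (XT.lf (nat_lit 0) (nat_lit 3994507372) (nat_lit 76) (nat_lit 63030645219) (nat_lit 76) (nat_lit 54291320308)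 (nat_lit 6) (nat_lit 4) (nat_lit 7) (nat_lit 5) (nat_lit 7) (nat_lit 4) (nat_lit 442) (nat_lit 327) (nat_lit 251)))) (XT.nd (nat_lit 156) (nat_lit 0) (nat_lit 0) (XT.nd (nat_lit 78) (nat_lit 0) (nat_lit 0) (XT.lf (nat_lit 0) (nat_lit 22094740827) (nat_lit 76) (nat_lit 56794484800) (nat_lit 76) (nat_lit 48044696899) (nat_lit 6) (nat_lit 4) (nat_lit 7) (nat_lit 5) (nat_lit 7) (nat_lit 4) (nat_lit 443) (nat_lit 327) (nat_lit 250)) (XT.lf (nat_lit 0) (nat_lit 41061035614) (nat_lit 76) (nat_lit 50265968653) (nat_lit 76) (nat_lit 41506215999) (nat_lit 6) (nat_lit 4) (nat_lit 7) (nat_lit 5) (nat_lit 7) (nat_lit 4) (nat_lit 444) (nat_lit 327) (nat_lit 249))) (XT.nd (nat_lit 78) (nat_lit 0) (nat_lit 0) (XT.lf (nat_lit 0) (nat_lit 60938549577) (nat_lit 76) (nat_lit 43429552692) (nat_lit 76) (nat_lit 34660309797) (nat_lit 6) (nat_lit 4) (nat_lit 7) (nat_lit 5) (nat_lit 7) (nat_lit 4) (nat_lit 445) (nat_lit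 327) (nat_lit 248)) (XT.lf (nat_lit 0) (nat_lit 81774610132) (nat_lit 76) (nat_lit 36268959737) (nat_lit 76) (nat_lit 27490678517) (nat_lit 6) (nat_lit 4) (nat_lit 7) (nat_lit 5) (nat_lit 7) (nat_lit 4) (nat_lit 446) (nat_lit 327) (nat_lit 247))))))))
noncomputable def xc67 : XT := (XT.nd (nat_lit 2106) (nat_lit 0) (nat_lit 0) (XT.nd (nat_lit 1014) (nat_lit 76) (nat_lit 0) (XT.nd (nat_lit 468) (nat_lit 0) (nat_lit 0) (XT.nd (nat_lit 234) (nat_lit 152) (nat_lit 0) (XT.nd (nat_lit 78) (nat_lit 0) (nat_lit 0) (XT.lf (nat_lit 0) (nat_lit 103618826945) (nat_lit 76) (nat_lit 28767140755) (nat_lit 76) (nat_lit 19980251608) (nat_lit 6) (nat_lit 4) (nat_lit 7) (nat_lit 5) (nat_lit 7) (nat_lit 4) (nat_lit 447) (nat_lit 327) (nat_lit 246)) (XT.nd (nat_lit 78) (nat_lit 0) (nat_lit 0) (XT.lf (nat_lit 0) (nat_lit 126523210057) (nat_lit 76) (nat_lit 20906234275) (nat_lit 76) (nat_lit 12111147101) (nat_lit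 6) (nat_lit 4) (nat_lit 7) (nat_lit 5) (nat_lit 7) (nat_lit 4) (nat_lit 448) (nat_lit 327) (nat_lit 245)) (XT.lf (nat_lit 0) (nat_lit 150542293714) (nat_lit 76) (nat_lit 12667523851) (nat_lit 76) (nat_lit 3864629032) (nat_lit 6) (nat_lit 4) (nat_lit 7) (nat_lit 5) (nat_lit 7) (nat_lit 4) (nat_lit 449) (nat_lit 327) (nat_lit 244)))) (XT.nd (nat_lit 78) (nat_lit 0) (nat_lit 0) (XT.lf (nat_lit 0) (nat_lit 695181193) (nat_lit 76) (nat_lit 3941653862) (nat_lit 152) (nat_lit 170344614181) (nat_lit 4) (nat_lit 5) (nat_lit 5) (nat_lit 5) (nat_lit 6) (nat_lit 4) (nat_lit 450) (nat_lit 327) (nat_lit 243)) (XT.nd (nat_lit 78) (nat_lit 0) (nat_lit 0) (XT.lf (nat_lit 0) (nat_lit 13784806543) (nat_lit 152) (nat_lit 164090991784) (nat_lit 0) (nat_lit 5387270891) (nat_lit 4) (nat_lit 5) (nat_lit 6) (nat_lit 4) (nat_lit 4) (nat_lit 4) (nat_lit 451) (nat_lit 327) (nat_lit 242)) (XT.lf (nat_lit 0) (nat_lit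 23440731445) (nat_lit 152) (nat_lit 153478739059) (nat_lit 0) (nat_lit 15036772425) (nat_lit 4) (nat_lit 5) (nat_lit 6) (nat_lit 4) (nat_lit 4) (nat_lit 4) (nat_lit 452) (nat_lit 327) (nat_lit 241))))) (XT.nd (nat_lit 234) (nat_lit 0) (nat_lit 0) (XT.nd (nat_lit 78) (nat_lit 0) (nat_lit 0) (XT.lf (nat_lit 0) (nat_lit 33566059795) (nat_lit 152) (nat_lit 142362702337) (nat_lit 0) (nat_lit 25155983281) (nat_lit 4) (nat_lit 5) (nat_lit 6) (nat_lit 4) (nat_lit 4) (nat_lit 4) (nat_lit 453) (nat_lit 327) (nat_lit 240)) (XT.nd (nat_lit 78) (nat_lit 0) (nat_lit 0) (XT.lf (nat_lit 0) (nat_lit 44184899518) (nat_lit 152) (nat_lit 130716414863) (nat_lit 0) (nat_lit 35768996819) (nat_lit 4) (nat_lit 5) (nat_lit 6) (nat_lit 4) (nat_lit 4) (nat_lit 4) (nat_lit 454) (nat_lit 327) (nat_lit 239)) (XT.lf (nat_lit 0) (nat_lit 55322533565) (nat_lit 152) (nat_lit 118512147382) (nat_lit 0) (nat_lit 46901082119)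 (nat_lit 4) (nat_lit 5) (nat_lit 6) (nat_lit 4) (nat_lit 4) (nat_lit 4) (nat_lit 455) (nat_lit 327) (nat_lit 238)))) (XT.nd (nat_lit 156) (nat_lit 0) (nat_lit 0) (XT.nd (nat_lit 78) (nat_lit 0) (nat_lit 0) (XT.lf (nat_lit 0) (nat_lit 67005480114) (nat_lit 152) (nat_lit 105720842113) (nat_lit 0) (nat_lit 58578744147) (nat_lit 4) (nat_lit 5) (nat_lit 6) (nat_lit 4) (nat_lit 4) (nat_lit 4) (nat_lit 456) (nat_lit 327) (nat_lit 237)) (XT.lf (nat_lit 0) (nat_lit 79261555702) (nat_lit 152) (nat_lit 92312043569) (nat_lit 0) (nat_lit 70829786858) (nat_lit 4) (nat_lit 5) (nat_lit 6) (nat_lit 4) (nat_lit 4) (nat_lit 4) (nat_lit 457) (nat_lit 327) (nat_lit 236))) (XT.nd (nat_lit 78) (nat_lit 0) (nat_lit 0) (XT.lf (nat_lit 0) (nat_lit 92119941464) (nat_lit 152) (nat_lit 78253826038) (nat_lit 0) (nat_lit 83683379403) (nat_lit 4) (nat_lit 5) (nat_lit 6) (nat_lit 4) (nat_lit 4) (nat_lit 4) (nat_lit 458)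 (nat_lit 327) (nat_lit 235)) (XT.lf (nat_lit 0) (nat_lit 105611252602) (nat_lit 152) (nat_lit 63512717574) (nat_lit 0) (nat_lit 97170125573) (nat_lit 4) (nat_lit 5) (nat_lit 6) (nat_lit 4) (nat_lit 4) (nat_lit 4) (nat_lit 459) (nat_lit 327) (nat_lit 234)))))) (XT.nd (nat_lit 546) (nat_lit 0) (nat_lit 0) (XT.nd (nat_lit 234) (nat_lit 76) (nat_lit 0) (XT.nd (nat_lit 78) (nat_lit 0) (nat_lit 0) (XT.lf (nat_lit 0) (nat_lit 119767611286) (nat_lit 152) (nat_lit 48053620299) (nat_lit 0) (nat_lit 111322136669) (nat_lit 4) (nat_lit 5) (nat_lit 6) (nat_lit 4) (nat_lit 4) (nat_lit 4) (nat_lit 460) (nat_lit 327) (nat_lit 233)) (XT.nd (nat_lit 78) (nat_lit 0) (nat_lit 0) (XT.lf (nat_lit 0) (nat_lit 134622723133) (nat_lit 152) (nat_lit 31839726839) (nat_lit 0) (nat_lit 126173107955) (nat_lit 4) (nat_lit 5) (nat_lit 6) (nat_lit 4) (nat_lit 4) (nat_lit 4) (nat_lit 461) (nat_lit 327) (nat_lit 232)) (XT.lf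 (nat_lit 0) (nat_lit 150211957455) (nat_lit 152) (nat_lit 14832432687) (nat_lit 0) (nat_lit 141758398886) (nat_lit 4) (nat_lit 5) (nat_lit 6) (nat_lit 4) (nat_lit 4) (nat_lit 4) (nat_lit 462) (nat_lit 327) (nat_lit 231)))) (XT.nd (nat_lit 156) (nat_lit 0) (nat_lit 0) (XT.nd (nat_lit 78) (nat_lit 0) (nat_lit 0) (XT.lf (nat_lit 0) (nat_lit 3108238768) (nat_lit 76) (nat_lit 163512721028) (nat_lit 76) (nat_lit 155055406849) (nat_lit 3) (nat_lit 4) (nat_lit 4) (nat_lit 5) (nat_lit 4) (nat_lit 4) (nat_lit 463) (nat_lit 327) (nat_lit 230)) (XT.lf (nat_lit 0) (nat_lit 22444687562) (nat_lit 76) (nat_lit 161648835623) (nat_lit 76) (nat_lit 153187944672) (nat_lit 3) (nat_lit 4) (nat_lit 4) (nat_lit 5) (nat_lit 4) (nat_lit 4) (nat_lit 464) (nat_lit 327) (nat_lit 229))) (XT.nd (nat_lit 78) (nat_lit 0) (nat_lit 0) (XT.lf (nat_lit 0) (nat_lit 42732525649) (nat_lit 76) (nat_lit 159699490530) (nat_lit 76)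 (nat_lit 151235193129) (nat_lit 3) (nat_lit 4) (nat_lit 4) (nat_lit 5) (nat_lit 4) (nat_lit 4) (nat_lit 465) (nat_lit 327) (nat_lit 228)) (XT.lf (nat_lit 0) (nat_lit 64020057405) (nat_lit 76) (nat_lit 157660044451) (nat_lit 76) (nat_lit 149192502813) (nat_lit 3) (nat_lit 4) (nat_lit 4) (nat_lit 5) (nat_lit 4) (nat_lit 4) (nat_lit 466) (nat_lit 327) (nat_lit 227))))) (XT.nd (nat_lit 234) (nat_lit 0) (nat_lit 0) (XT.nd (nat_lit 78) (nat_lit 0) (nat_lit 0) (XT.lf (nat_lit 0) (nat_lit 86357967429) (nat_lit 76) (nat_lit 155525641562) (nat_lit 76) (nat_lit 147055010173) (nat_lit 3) (nat_lit 4) (nat_lit 4) (nat_lit 5) (nat_lit 4) (nat_lit 4) (nat_lit 467) (nat_lit 327) (nat_lit 226)) (XT.nd (nat_lit 78) (nat_lit 0) (nat_lit 0) (XT.lf (nat_lit 0) (nat_lit 109799441222) (nat_lit 76) (nat_lit 153291199951) (nat_lit 76) (nat_lit 144817625943) (nat_lit 3) (nat_lit 4) (nat_lit 4) (nat_lit 5) (nat_lit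 4) (nat_lit 4) (nat_lit 468) (nat_lit 327) (nat_lit 225)) (XT.lf (nat_lit 0) (nat_lit 134400291816) (nat_lit 76) (nat_lit 150951399519) (nat_lit 76) (nat_lit 142475023017) (nat_lit 3) (nat_lit 4) (nat_lit 4) (nat_lit 5) (nat_lit 4) (nat_lit 4) (nat_lit 469) (nat_lit 327) (nat_lit 224)))) (XT.nd (nat_lit 156) (nat_lit 0) (nat_lit 0) (XT.nd (nat_lit 78) (nat_lit 0) (nat_lit 0) (XT.lf (nat_lit 0) (nat_lit 160219092666) (nat_lit 76) (nat_lit 148500669313) (nat_lit 76) (nat_lit 140021623769) (nat_lit 3) (nat_lit 4) (nat_lit 4) (nat_lit 5) (nat_lit 4) (nat_lit 4) (nat_lit 470) (nat_lit 327) (nat_lit 223)) (XT.lf (nat_lit 0) (nat_lit 187317317106) (nat_lit 76) (nat_lit 145933174260) (nat_lit 76) (nat_lit 137451586771) (nat_lit 3) (nat_lit 4) (nat_lit 4) (nat_lit 5) (nat_lit 4) (nat_lit 4) (nat_lit 471) (nat_lit 327) (nat_lit 222))) (XT.nd (nat_lit 78) (nat_lit 0) (nat_lit 0) (XT.lf (nat_lit 0) (nat_lit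 215759484718) (nat_lit 76) (nat_lit 143242801278) (nat_lit 76) (nat_lit 134758792889) (nat_lit 3) (nat_lit 4) (nat_lit 4) (nat_lit 5) (nat_lit 4) (nat_lit 4) (nat_lit 472) (nat_lit 327) (nat_lit 221)) (XT.lf (nat_lit 0) (nat_lit 245613314950) (nat_lit 76) (nat_lit 140423144717) (nat_lit 76) (nat_lit 131936830709) (nat_lit 3) (nat_lit 4) (nat_lit 4) (nat_lit 5) (nat_lit 4) (nat_lit 4) (nat_lit 473) (nat_lit 327) (nat_lit 220))))))) (XT.nd (nat_lit 44694) (nat_lit 0) (nat_lit 3800) (XT.nd (nat_lit 468) (nat_lit 0) (nat_lit 0) (XT.nd (nat_lit 234) (nat_lit 0) (nat_lit 0) (XT.nd (nat_lit 78) (nat_lit 0) (nat_lit 0) (XT.lf (nat_lit 0) (nat_lit 276949888349) (nat_lit 76) (nat_lit 137467491108) (nat_lit 76) (nat_lit 128978981272) (nat_lit 3) (nat_lit 4) (nat_lit 4) (nat_lit 5) (nat_lit 4) (nat_lit 4) (nat_lit 474) (nat_lit 327) (nat_lit 219)) (XT.nd (nat_lit 78) (nat_lit 0) (nat_lit 0) (XT.lf (nat_lit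 0) (nat_lit 309843815804) (nat_lit 76) (nat_lit 134368803181) (nat_lit 76) (nat_lit 125878202080) (nat_lit 3) (nat_lit 4) (nat_lit 4) (nat_lit 5) (nat_lit 4) (nat_lit 4) (nat_lit 475) (nat_lit 327) (nat_lit 218)) (XT.lf (nat_lit 0) (nat_lit 344373416191) (nat_lit 76) (nat_lit 131119703107) (nat_lit 76) (nat_lit 122627110326) (nat_lit 3) (nat_lit 4) (nat_lit 4) (nat_lit 5) (nat_lit 4) (nat_lit 4) (nat_lit 476) (nat_lit 327) (nat_lit 217)))) (XT.nd (nat_lit 78) (nat_lit 0) (nat_lit 0) (XT.lf (nat_lit 0) (nat_lit 380620902843) (nat_lit 76) (nat_lit 127712454934) (nat_lit 76) (nat_lit 119217965315) (nat_lit 3) (nat_lit 4) (nat_lit 4) (nat_lit 5) (nat_lit 4) (nat_lit 4) (nat_lit 477) (nat_lit 327) (nat_lit 216)) (XT.nd (nat_lit 78) (nat_lit 0) (nat_lit 0) (XT.lf (nat_lit 0) (nat_lit 418672579301) (nat_lit 76) (nat_lit 124138946167) (nat_lit 76) (nat_lit 115642650035) (nat_lit 3) (nat_lit 4) (nat_lit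 4) (nat_lit 5) (nat_lit 4) (nat_lit 4) (nat_lit 478) (nat_lit 327) (nat_lit 215)) (XT.lf (nat_lit 0) (nat_lit 458619044793) (nat_lit 76) (nat_lit 120390668450) (nat_lit 76) (nat_lit 111892651830) (nat_lit 3) (nat_lit 4) (nat_lit 4) (nat_lit 5) (nat_lit 4) (nat_lit 4) (nat_lit 479) (nat_lit 327) (nat_lit 214))))) (XT.nd (nat_lit 234) (nat_lit 0) (nat_lit 0) (XT.nd (nat_lit 78) (nat_lit 0) (nat_lit 0) (XT.lf (nat_lit 0) (nat_lit 500555409953) (nat_lit 76) (nat_lit 116458697315) (nat_lit 76) (nat_lit 107959042134) (nat_lit 3) (nat_lit 4) (nat_lit 4) (nat_lit 5) (nat_lit 4) (nat_lit 4) (nat_lit 480) (nat_lit 327) (nat_lit 213)) (XT.nd (nat_lit 78) (nat_lit 0) (nat_lit 0) (XT.lf (nat_lit 0) (nat_lit 544581523268) (nat_lit 76) (nat_lit 112333670923) (nat_lit 76) (nat_lit 103832455208) (nat_lit 3) (nat_lit 4) (nat_lit 4) (nat_lit 5) (nat_lit 4) (nat_lit 4) (nat_lit 481) (nat_lit 327) (nat_lit 212))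 (XT.lf (nat_lit 0) (nat_lit 590802208818) (nat_lit 76) (nat_lit 108005767784) (nat_lit 76) (nat_lit 99503065847) (nat_lit 3) (nat_lit 4) (nat_lit 4) (nat_lit 5) (nat_lit 4) (nat_lit 4) (nat_lit 482) (nat_lit 327) (nat_lit 211)))) (XT.nd (nat_lit 43836) (nat_lit 0) (nat_lit 6460) (XT.nd (nat_lit 78) (nat_lit 0) (nat_lit 0) (XT.lf (nat_lit 0) (nat_lit 639327515854) (nat_lit 76) (nat_lit 103464683367) (nat_lit 76) (nat_lit 94960565980) (nat_lit 3) (nat_lit 4) (nat_lit 4) (nat_lit 5) (nat_lit 4) (nat_lit 4) (nat_lit 483) (nat_lit 327) (nat_lit 210)) (XT.lf (nat_lit 0) (nat_lit 690272980821) (nat_lit 76) (nat_lit 98699605566) (nat_lit 76) (nat_lit 90194140131) (nat_lit 3) (nat_lit 4) (nat_lit 4) (nat_lit 5) (nat_lit 4) (nat_lit 4) (nat_lit 484) (nat_lit 327) (nat_lit 209))) (XT.nd (nat_lit 78) (nat_lit 0) (nat_lit 0) (XT.lf (nat_lit 0) (nat_lit 383328652) (nat_lit 304) (nat_lit 3316603679) (nat_lit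 0) (nat_lit 383328652) (nat_lit 88) (nat_lit 5) (nat_lit 92) (nat_lit 4) (nat_lit 88) (nat_lit 4) (nat_lit 364) (nat_lit 328) (nat_lit 328)) (XT.lf (nat_lit 0) (nat_lit 4701423489) (nat_lit 304) (nat_lit 47196207) (nat_lit 0) (nat_lit 3569470121) (nat_lit 88) (nat_lit 5) (nat_lit 92) (nat_lit 4) (nat_lit 88) (nat_lit 4) (nat_lit 365) (nat_lit 328) (nat_lit 327)))))) (XT.nd (nat_lit 546) (nat_lit 1064) (nat_lit 0) (XT.nd (nat_lit 234) (nat_lit 760) (nat_lit 0) (XT.nd (nat_lit 78) (nat_lit 456) (nat_lit 0) (XT.lf (nat_lit 0) (nat_lit 290500771) (nat_lit 380) (nat_lit 1614477613) (nat_lit 76) (nat_lit 6574745597) (nat_lit 83) (nat_lit 5) (nat_lit 88) (nat_lit 5) (nat_lit 84) (nat_lit 4) (nat_lit 366) (nat_lit 328) (nat_lit 326)) (XT.nd (nat_lit 78) (nat_lit 228) (nat_lit 0) (XT.lf (nat_lit 0) (nat_lit 4215915587) (nat_lit 304) (nat_lit 3300083988) (nat_lit 0) (nat_lit 1133325808) (nat_lit 80)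 (nat_lit 5) (nat_lit 84) (nat_lit 4) (nat_lit 80) (nat_lit 4) (nat_lit 367) (nat_lit 328) (nat_lit 325)) (XT.lf (nat_lit 0) (nat_lit 3756809829) (nat_lit 228) (nat_lit 4543197784) (nat_lit 228) (nat_lit 529347169) (nat_lit 77) (nat_lit 4) (nat_lit 80) (nat_lit 5) (nat_lit 80) (nat_lit 4) (nat_lit 368) (nat_lit 328) (nat_lit 324)))) (XT.nd (nat_lit 156) (nat_lit 228) (nat_lit 0) (XT.nd (nat_lit 78) (nat_lit 228) (nat_lit 0) (XT.lf (nat_lit 0) (nat_lit 2050024516) (nat_lit 228) (nat_lit 1340604856) (nat_lit 304) (nat_lit 5628282840) (nat_lit 73) (nat_lit 5) (nat_lit 76) (nat_lit 5) (nat_lit 77) (nat_lit 4) (nat_lit 369) (nat_lit 328) (nat_lit 323)) (XT.lf (nat_lit 0) (nat_lit 229573226) (nat_lit 228) (nat_lit 7230641699) (nat_lit 228) (nat_lit 1758787670) (nat_lit 70) (nat_lit 4) (nat_lit 73) (nat_lit 5) (nat_lit 73) (nat_lit 4) (nat_lit 370) (nat_lit 328) (nat_lit 322))) (XT.nd (nat_lit 78)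 (nat_lit 152) (nat_lit 0) (XT.lf (nat_lit 0) (nat_lit 2222529753) (nat_lit 304) (nat_lit 1681818629) (nat_lit 76) (nat_lit 5523399069) (nat_lit 69) (nat_lit 5) (nat_lit 73) (nat_lit 5) (nat_lit 70) (nat_lit 4) (nat_lit 371) (nat_lit 328) (nat_lit 321)) (XT.lf (nat_lit 0) (nat_lit 5934532846) (nat_lit 152) (nat_lit 359225545) (nat_lit 228) (nat_lit 3354282851) (nat_lit 67) (nat_lit 5) (nat_lit 69) (nat_lit 5) (nat_lit 70) (nat_lit 4) (nat_lit 372) (nat_lit 328) (nat_lit 320))))) (XT.nd (nat_lit 234) (nat_lit 608) (nat_lit 0) (XT.nd (nat_lit 78) (nat_lit 152) (nat_lit 0) (XT.lf (nat_lit 0) (nat_lit 670097574) (nat_lit 304) (nat_lit 5924007621) (nat_lit 76) (nat_lit 3284604832) (nat_lit 63) (nat_lit 5) (nat_lit 67) (nat_lit 5) (nat_lit 64) (nat_lit 4) (nat_lit 373) (nat_lit 328) (nat_lit 319)) (XT.nd (nat_lit 78) (nat_lit 0) (nat_lit 0) (XT.lf (nat_lit 0) (nat_lit 1791737782) (nat_lit 152) (nat_lit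 2949608277) (nat_lit 228) (nat_lit 5378942029) (nat_lit 61) (nat_lit 5) (nat_lit 63) (nat_lit 5) (nat_lit 64) (nat_lit 4) (nat_lit 374) (nat_lit 328) (nat_lit 318)) (XT.lf (nat_lit 0) (nat_lit 8994382056) (nat_lit 228) (nat_lit 508521758) (nat_lit 0) (nat_lit 872171885) (nat_lit 61) (nat_lit 5) (nat_lit 64) (nat_lit 4) (nat_lit 61) (nat_lit 4) (nat_lit 375) (nat_lit 328) (nat_lit 317)))) (XT.nd (nat_lit 156) (nat_lit 228) (nat_lit 0) (XT.nd (nat_lit 78) (nat_lit 152) (nat_lit 0) (XT.lf (nat_lit 0) (nat_lit 2765351380) (nat_lit 228) (nat_lit 2997728765) (nat_lit 76) (nat_lit 4875458083) (nat_lit 58) (nat_lit 5) (nat_lit 61) (nat_lit 5) (nat_lit 59) (nat_lit 4) (nat_lit 376) (nat_lit 328) (nat_lit 316)) (XT.lf (nat_lit 0) (nat_lit 5231718190) (nat_lit 152) (nat_lit 1800954085) (nat_lit 228) (nat_lit 3883387388) (nat_lit 56) (nat_lit 5) (nat_lit 58) (nat_lit 5) (nat_lit 59) (nat_lit 4) (nat_lit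 377) (nat_lit 328) (nat_lit 315))) (XT.nd (nat_lit 78) (nat_lit 0) (nat_lit 0) (XT.lf (nat_lit 0) (nat_lit 296711479) (nat_lit 228) (nat_lit 8609958115) (nat_lit 76) (nat_lit 2300551597) (nat_lit 53) (nat_lit 5) (nat_lit 56) (nat_lit 5) (nat_lit 54) (nat_lit 4) (nat_lit 378) (nat_lit 328) (nat_lit 314)) (XT.lf (nat_lit 0) (nat_lit 4554956614) (nat_lit 228) (nat_lit 328507974) (nat_lit 76) (nat_lit 6626341940) (nat_lit 53) (nat_lit 5) (nat_lit 56) (nat_lit 5) (nat_lit 54) (nat_lit 4) (nat_lit 379) (nat_lit 328) (nat_lit 313))))))))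
noncomputable def xc68 : XT := (XT.nd (nat_lit 2106) (nat_lit 988) (nat_lit 0) (XT.nd (nat_lit 1014) (nat_lit 988) (nat_lit 0) (XT.nd (nat_lit 468) (nat_lit 608) (nat_lit 0) (XT.nd (nat_lit 234) (nat_lit 304) (nat_lit 0) (XT.nd (nat_lit 78) (nat_lit 304) (nat_lit 0) (XT.lf (nat_lit 0) (nat_lit 8431236602) (nat_lit 152) (nat_lit 604874107) (nat_lit 228) (nat_lit 2790940363) (nat_lit 51) (nat_lit 5) (nat_lit 53) (nat_lit 5) (nat_lit 54) (nat_lit 4) (nat_lit 380) (nat_lit 328) (nat_lit 312)) (XT.nd (nat_lit 78) (nat_lit 76) (nat_lit 0) (XT.lf (nat_lit 0) (nat_lit 1561146013) (nat_lit 228) (nat_lit 6798790073) (nat_lit 76) (nat_lit 3797485023) (nat_lit 48) (nat_lit 5) (nat_lit 51) (nat_lit 5) (nat_lit 49) (nat_lit 4) (nat_lit 381) (nat_lit 328) (nat_lit 311)) (XT.lf (nat_lit 0) (nat_lit 1965932928) (nat_lit 76) (nat_lit 4050459201) (nat_lit 152) (nat_lit 6486688120) (nat_lit 47) (nat_lit 5) (nat_lit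 48) (nat_lit 5) (nat_lit 49) (nat_lit 4) (nat_lit 382) (nat_lit 328) (nat_lit 310)))) (XT.nd (nat_lit 78) (nat_lit 304) (nat_lit 0) (XT.lf (nat_lit 0) (nat_lit 10700275576) (nat_lit 152) (nat_lit 1673443228) (nat_lit 0) (nat_lit 492034288) (nat_lit 47) (nat_lit 5) (nat_lit 49) (nat_lit 4) (nat_lit 47) (nat_lit 4) (nat_lit 383) (nat_lit 328) (nat_lit 309)) (XT.nd (nat_lit 78) (nat_lit 76) (nat_lit 0) (XT.lf (nat_lit 0) (nat_lit 2369371335) (nat_lit 228) (nat_lit 5669381448) (nat_lit 76) (nat_lit 5202303003) (nat_lit 44) (nat_lit 5) (nat_lit 47) (nat_lit 5) (nat_lit 45) (nat_lit 4) (nat_lit 384) (nat_lit 328) (nat_lit 308)) (XT.lf (nat_lit 0) (nat_lit 3582744906) (nat_lit 76) (nat_lit 3447757239) (nat_lit 152) (nat_lit 6604251962) (nat_lit 43) (nat_lit 5) (nat_lit 44) (nat_lit 5) (nat_lit 45) (nat_lit 4) (nat_lit 385) (nat_lit 328) (nat_lit 307))))) (XT.nd (nat_lit 234) (nat_lit 304) (nat_lit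 0) (XT.nd (nat_lit 78) (nat_lit 304) (nat_lit 0) (XT.lf (nat_lit 0) (nat_lit 11932229478) (nat_lit 152) (nat_lit 772405918) (nat_lit 0) (nat_lit 1343145103) (nat_lit 43) (nat_lit 5) (nat_lit 45) (nat_lit 4) (nat_lit 43) (nat_lit 4) (nat_lit 386) (nat_lit 328) (nat_lit 306)) (XT.nd (nat_lit 78) (nat_lit 76) (nat_lit 0) (XT.lf (nat_lit 0) (nat_lit 2606975515) (nat_lit 228) (nat_lit 5506693050) (nat_lit 76) (nat_lit 6361153673) (nat_lit 40) (nat_lit 5) (nat_lit 43) (nat_lit 5) (nat_lit 41) (nat_lit 4) (nat_lit 387) (nat_lit 328) (nat_lit 305)) (XT.lf (nat_lit 0) (nat_lit 4208483992) (nat_lit 76) (nat_lit 3259278690) (nat_lit 152) (nat_lit 7455075200) (nat_lit 39) (nat_lit 5) (nat_lit 40) (nat_lit 5) (nat_lit 41) (nat_lit 4) (nat_lit 388) (nat_lit 328) (nat_lit 304)))) (XT.nd (nat_lit 156) (nat_lit 76) (nat_lit 0) (XT.nd (nat_lit 78) (nat_lit 228) (nat_lit 0) (XT.lf (nat_lit 0) (nat_lit 12590078528)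 (nat_lit 152) (nat_lit 1010273388) (nat_lit 0) (nat_lit 1791994508) (nat_lit 39) (nat_lit 5) (nat_lit 41) (nat_lit 4) (nat_lit 39) (nat_lit 4) (nat_lit 389) (nat_lit 328) (nat_lit 303)) (XT.lf (nat_lit 0) (nat_lit 2115766213) (nat_lit 228) (nat_lit 6676236039) (nat_lit 76) (nat_lit 7086753907) (nat_lit 36) (nat_lit 5) (nat_lit 39) (nat_lit 5) (nat_lit 37) (nat_lit 4) (nat_lit 390) (nat_lit 328) (nat_lit 302))) (XT.nd (nat_lit 78) (nat_lit 0) (nat_lit 0) (XT.lf (nat_lit 0) (nat_lit 3453436002) (nat_lit 76) (nat_lit 3703737133) (nat_lit 152) (nat_lit 9231448344) (nat_lit 35) (nat_lit 5) (nat_lit 36) (nat_lit 5) (nat_lit 37) (nat_lit 4) (nat_lit 391) (nat_lit 328) (nat_lit 301)) (XT.lf (nat_lit 0) (nat_lit 12492136772) (nat_lit 152) (nat_lit 2808321145) (nat_lit 0) (nat_lit 1621461470) (nat_lit 35) (nat_lit 5) (nat_lit 37) (nat_lit 4) (nat_lit 35) (nat_lit 4) (nat_lit 392) (nat_lit 328) (nat_lit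 300)))))) (XT.nd (nat_lit 546) (nat_lit 456) (nat_lit 0) (XT.nd (nat_lit 234) (nat_lit 228) (nat_lit 0) (XT.nd (nat_lit 78) (nat_lit 76) (nat_lit 0) (XT.lf (nat_lit 0) (nat_lit 682637648) (nat_lit 228) (nat_lit 9648538092) (nat_lit 76) (nat_lit 7145728199) (nat_lit 32) (nat_lit 5) (nat_lit 35) (nat_lit 5) (nat_lit 33) (nat_lit 4) (nat_lit 393) (nat_lit 328) (nat_lit 299)) (XT.nd (nat_lit 78) (nat_lit 0) (nat_lit 0) (XT.lf (nat_lit 0) (nat_lit 814325459) (nat_lit 76) (nat_lit 5054503455) (nat_lit 152) (nat_lit 12188838634) (nat_lit 31) (nat_lit 5) (nat_lit 32) (nat_lit 5) (nat_lit 33) (nat_lit 4) (nat_lit 394) (nat_lit 328) (nat_lit 298)) (XT.lf (nat_lit 0) (nat_lit 11394492363) (nat_lit 152) (nat_lit 6710261898) (nat_lit 0) (nat_lit 558718168) (nat_lit 31) (nat_lit 5) (nat_lit 33) (nat_lit 4) (nat_lit 31) (nat_lit 4) (nat_lit 395) (nat_lit 328) (nat_lit 297)))) (XT.nd (nat_lit 156) (nat_lit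 76) (nat_lit 0) (XT.nd (nat_lit 78) (nat_lit 76) (nat_lit 0) (XT.lf (nat_lit 0) (nat_lit 4234520063) (nat_lit 76) (nat_lit 13021838421) (nat_lit 76) (nat_lit 2040223783) (nat_lit 30) (nat_lit 4) (nat_lit 31) (nat_lit 5) (nat_lit 31) (nat_lit 4) (nat_lit 396) (nat_lit 328) (nat_lit 296)) (XT.lf (nat_lit 0) (nat_lit 3366223658) (nat_lit 152) (nat_lit 4219751796) (nat_lit 76) (nat_lit 12371354955) (nat_lit 29) (nat_lit 5) (nat_lit 31) (nat_lit 5) (nat_lit 30) (nat_lit 4) (nat_lit 397) (nat_lit 328) (nat_lit 295))) (XT.nd (nat_lit 78) (nat_lit 0) (nat_lit 0) (XT.lf (nat_lit 0) (nat_lit 7201860093) (nat_lit 76) (nat_lit 1800409161) (nat_lit 152) (nat_lit 11645791590) (nat_lit 28) (nat_lit 5) (nat_lit 29) (nat_lit 5) (nat_lit 30) (nat_lit 4) (nat_lit 398) (nat_lit 328) (nat_lit 294)) (XT.lf (nat_lit 0) (nat_lit 14975300880) (nat_lit 152) (nat_lit 2256903585) (nat_lit 0) (nat_lit 4138372941) (nat_lit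 28) (nat_lit 5) (nat_lit 30) (nat_lit 4) (nat_lit 28) (nat_lit 4) (nat_lit 399) (nat_lit 328) (nat_lit 293))))) (XT.nd (nat_lit 234) (nat_lit 228) (nat_lit 0) (XT.nd (nat_lit 78) (nat_lit 152) (nat_lit 0) (XT.lf (nat_lit 0) (nat_lit 9617502396) (nat_lit 76) (nat_lit 11728974440) (nat_lit 76) (nat_lit 777776697) (nat_lit 27) (nat_lit 4) (nat_lit 28) (nat_lit 5) (nat_lit 28) (nat_lit 4) (nat_lit 400) (nat_lit 328) (nat_lit 292)) (XT.nd (nat_lit 78) (nat_lit 76) (nat_lit 0) (XT.lf (nat_lit 0) (nat_lit 4915552038) (nat_lit 152) (nat_lit 983144447) (nat_lit 76) (nat_lit 17014984981) (nat_lit 26) (nat_lit 5) (nat_lit 28) (nat_lit 5) (nat_lit 27) (nat_lit 4) (nat_lit 401) (nat_lit 328) (nat_lit 291)) (XT.lf (nat_lit 0) (nat_lit 10973468720) (nat_lit 152) (nat_lit 12421778843) (nat_lit 0) (nat_lit 341399951) (nat_lit 25) (nat_lit 5) (nat_lit 27) (nat_lit 4) (nat_lit 25) (nat_lit 4) (nat_lit 402)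 (nat_lit 328) (nat_lit 290)))) (XT.nd (nat_lit 156) (nat_lit 152) (nat_lit 0) (XT.nd (nat_lit 78) (nat_lit 76) (nat_lit 0) (XT.lf (nat_lit 0) (nat_lit 17372034366) (nat_lit 152) (nat_lit 580891184) (nat_lit 0) (nat_lit 6645955548) (nat_lit 25) (nat_lit 5) (nat_lit 27) (nat_lit 4) (nat_lit 25) (nat_lit 4) (nat_lit 403) (nat_lit 328) (nat_lit 289)) (XT.lf (nat_lit 0) (nat_lit 12100372213) (nat_lit 76) (nat_lit 12106819860) (nat_lit 76) (nat_lit 1291207660) (nat_lit 24) (nat_lit 4) (nat_lit 25) (nat_lit 5) (nat_lit 25) (nat_lit 4) (nat_lit 404) (nat_lit 328) (nat_lit 288))) (XT.nd (nat_lit 78) (nat_lit 76) (nat_lit 0) (XT.lf (nat_lit 0) (nat_lit 4720942810) (nat_lit 152) (nat_lit 1222949324) (nat_lit 76) (nat_lit 20498256852) (nat_lit 23) (nat_lit 5) (nat_lit 25) (nat_lit 5) (nat_lit 24) (nat_lit 4) (nat_lit 405) (nat_lit 328) (nat_lit 287)) (XT.lf (nat_lit 0) (nat_lit 11116207823) (nat_lit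 152) (nat_lit 15652457118) (nat_lit 0) (nat_lit 657073059) (nat_lit 22) (nat_lit 5) (nat_lit 24) (nat_lit 4) (nat_lit 22) (nat_lit 4) (nat_lit 406) (nat_lit 328) (nat_lit 286))))))) (XT.nd (nat_lit 1014) (nat_lit 456) (nat_lit 0) (XT.nd (nat_lit 468) (nat_lit 228) (nat_lit 0) (XT.nd (nat_lit 234) (nat_lit 152) (nat_lit 0) (XT.nd (nat_lit 78) (nat_lit 152) (nat_lit 0) (XT.lf (nat_lit 0) (nat_lit 17881295903) (nat_lit 152) (nat_lit 3226211163) (nat_lit 0) (nat_lit 7348501806) (nat_lit 22) (nat_lit 5) (nat_lit 24) (nat_lit 4) (nat_lit 22) (nat_lit 4) (nat_lit 407) (nat_lit 328) (nat_lit 285)) (XT.nd (nat_lit 78) (nat_lit 76) (nat_lit 0) (XT.lf (nat_lit 0) (nat_lit 10015485638) (nat_lit 76) (nat_lit 15060349402) (nat_lit 76) (nat_lit 4457403557) (nat_lit 21) (nat_lit 4) (nat_lit 22) (nat_lit 5) (nat_lit 22) (nat_lit 4) (nat_lit 408) (nat_lit 328) (nat_lit 284)) (XT.lf (nat_lit 0) (nat_lit 1893321806)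 (nat_lit 152) (nat_lit 6788447329) (nat_lit 76) (nat_lit 21981507404) (nat_lit 20) (nat_lit 5) (nat_lit 22) (nat_lit 5) (nat_lit 21) (nat_lit 4) (nat_lit 409) (nat_lit 328) (nat_lit 283)))) (XT.nd (nat_lit 78) (nat_lit 76) (nat_lit 0) (XT.lf (nat_lit 0) (nat_lit 6594815687) (nat_lit 76) (nat_lit 1857965981) (nat_lit 152) (nat_lit 23391335731) (nat_lit 19) (nat_lit 5) (nat_lit 20) (nat_lit 5) (nat_lit 21) (nat_lit 4) (nat_lit 410) (nat_lit 328) (nat_lit 282)) (XT.nd (nat_lit 78) (nat_lit 76) (nat_lit 0) (XT.lf (nat_lit 0) (nat_lit 15478153887) (nat_lit 152) (nat_lit 12400786886) (nat_lit 0) (nat_lit 5198166791) (nat_lit 19) (nat_lit 5) (nat_lit 21) (nat_lit 4) (nat_lit 19) (nat_lit 4) (nat_lit 411) (nat_lit 328) (nat_lit 281)) (XT.lf (nat_lit 0) (nat_lit 975966503) (nat_lit 76) (nat_lit 21865697072) (nat_lit 76) (nat_lit 11530744247) (nat_lit 18) (nat_lit 4) (nat_lit 19) (nat_lit 5) (nat_lit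 19) (nat_lit 4) (nat_lit 412) (nat_lit 328) (nat_lit 280))))) (XT.nd (nat_lit 234) (nat_lit 76) (nat_lit 0) (XT.nd (nat_lit 78) (nat_lit 152) (nat_lit 0) (XT.lf (nat_lit 0) (nat_lit 15338973425) (nat_lit 76) (nat_lit 15386596785) (nat_lit 76) (nat_lit 4999295647) (nat_lit 18) (nat_lit 4) (nat_lit 19) (nat_lit 5) (nat_lit 19) (nat_lit 4) (nat_lit 413) (nat_lit 328) (nat_lit 279)) (XT.nd (nat_lit 78) (nat_lit 76) (nat_lit 0) (XT.lf (nat_lit 0) (nat_lit 1743288862) (nat_lit 152) (nat_lit 6863414507) (nat_lit 76) (nat_lit 28539593194) (nat_lit 17) (nat_lit 5) (nat_lit 19) (nat_lit 5) (nat_lit 18) (nat_lit 4) (nat_lit 414) (nat_lit 328) (nat_lit 278)) (XT.lf (nat_lit 0) (nat_lit 7385245144) (nat_lit 76) (nat_lit 1331771091) (nat_lit 152) (nat_lit 29914586963) (nat_lit 16) (nat_lit 5) (nat_lit 17) (nat_lit 5) (nat_lit 18) (nat_lit 4) (nat_lit 415) (nat_lit 328) (nat_lit 277)))) (XT.nd (nat_lit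 156) (nat_lit 76) (nat_lit 0) (XT.nd (nat_lit 78) (nat_lit 0) (nat_lit 0) (XT.lf (nat_lit 0) (nat_lit 16202905956) (nat_lit 152) (nat_lit 17805629351) (nat_lit 0) (nat_lit 6174469213) (nat_lit 16) (nat_lit 5) (nat_lit 18) (nat_lit 4) (nat_lit 16) (nat_lit 4) (nat_lit 416) (nat_lit 328) (nat_lit 276)) (XT.lf (nat_lit 0) (nat_lit 24034319364) (nat_lit 152) (nat_lit 3814231743) (nat_lit 0) (nat_lit 13964866348) (nat_lit 16) (nat_lit 5) (nat_lit 18) (nat_lit 4) (nat_lit 16) (nat_lit 4) (nat_lit 417) (nat_lit 328) (nat_lit 275))) (XT.nd (nat_lit 78) (nat_lit 0) (nat_lit 0) (XT.lf (nat_lit 0) (nat_lit 11138439937) (nat_lit 76) (nat_lit 21244572328) (nat_lit 76) (nat_lit 11136056194) (nat_lit 15) (nat_lit 4) (nat_lit 16) (nat_lit 5) (nat_lit 16) (nat_lit 4) (nat_lit 418) (nat_lit 328) (nat_lit 274)) (XT.lf (nat_lit 0) (nat_lit 26877900229) (nat_lit 76) (nat_lit 14288480777) (nat_lit 76) (nat_lit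 4142761675) (nat_lit 15) (nat_lit 4) (nat_lit 16) (nat_lit 5) (nat_lit 16) (nat_lit 4) (nat_lit 419) (nat_lit 328) (nat_lit 273)))))) (XT.nd (nat_lit 546) (nat_lit 228) (nat_lit 0) (XT.nd (nat_lit 234) (nat_lit 76) (nat_lit 0) (XT.nd (nat_lit 78) (nat_lit 76) (nat_lit 0) (XT.lf (nat_lit 0) (nat_lit 3051929728) (nat_lit 152) (nat_lit 3924694557) (nat_lit 76) (nat_lit 40211892675) (nat_lit 14) (nat_lit 5) (nat_lit 16) (nat_lit 5) (nat_lit 15) (nat_lit 4) (nat_lit 420) (nat_lit 328) (nat_lit 272)) (XT.nd (nat_lit 78) (nat_lit 0) (nat_lit 0) (XT.lf (nat_lit 0) (nat_lit 10617706374) (nat_lit 152) (nat_lit 37643996258) (nat_lit 0) (nat_lit 889235239) (nat_lit 13) (nat_lit 5) (nat_lit 15) (nat_lit 4) (nat_lit 13) (nat_lit 4) (nat_lit 421) (nat_lit 328) (nat_lit 271)) (XT.lf (nat_lit 0) (nat_lit 18700145787) (nat_lit 152) (nat_lit 23563349910) (nat_lit 0) (nat_lit 8941067677) (nat_lit 13) (nat_lit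 5) (nat_lit 15) (nat_lit 4) (nat_lit 13) (nat_lit 4) (nat_lit 422) (nat_lit 328) (nat_lit 270)))) (XT.nd (nat_lit 156) (nat_lit 0) (nat_lit 0) (XT.nd (nat_lit 78) (nat_lit 76) (nat_lit 0) (XT.lf (nat_lit 0) (nat_lit 27145227958) (nat_lit 152) (nat_lit 8860717943) (nat_lit 0) (nat_lit 17357000349) (nat_lit 13) (nat_lit 5) (nat_lit 15) (nat_lit 4) (nat_lit 13) (nat_lit 4) (nat_lit 423) (nat_lit 328) (nat_lit 269)) (XT.lf (nat_lit 0) (nat_lit 6713789089) (nat_lit 76) (nat_lit 29364092199) (nat_lit 76) (nat_lit 19548103162) (nat_lit 12) (nat_lit 4) (nat_lit 13) (nat_lit 5) (nat_lit 13) (nat_lit 4) (nat_lit 424) (nat_lit 328) (nat_lit 268))) (XT.nd (nat_lit 78) (nat_lit 0) (nat_lit 0) (XT.lf (nat_lit 0) (nat_lit 23297766197) (nat_lit 76) (nat_lit 22270638463) (nat_lit 76) (nat_lit 12428209969) (nat_lit 12) (nat_lit 4) (nat_lit 13) (nat_lit 5) (nat_lit 13) (nat_lit 4) (nat_lit 425) (nat_lit 328)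 (nat_lit 267)) (XT.lf (nat_lit 0) (nat_lit 40637723691) (nat_lit 76) (nat_lit 14858756061) (nat_lit 76) (nat_lit 4991147134) (nat_lit 12) (nat_lit 4) (nat_lit 13) (nat_lit 5) (nat_lit 13) (nat_lit 4) (nat_lit 426) (nat_lit 328) (nat_lit 266))))) (XT.nd (nat_lit 234) (nat_lit 76) (nat_lit 0) (XT.nd (nat_lit 78) (nat_lit 76) (nat_lit 0) (XT.lf (nat_lit 0) (nat_lit 2691789905) (nat_lit 152) (nat_lit 4373420987) (nat_lit 76) (nat_lit 56037570512) (nat_lit 11) (nat_lit 5) (nat_lit 13) (nat_lit 5) (nat_lit 12) (nat_lit 4) (nat_lit 427) (nat_lit 328) (nat_lit 265)) (XT.nd (nat_lit 78) (nat_lit 0) (nat_lit 0) (XT.lf (nat_lit 0) (nat_lit 10767579046) (nat_lit 152) (nat_lit 53742938005) (nat_lit 0) (nat_lit 1325265058) (nat_lit 10) (nat_lit 5) (nat_lit 12) (nat_lit 4) (nat_lit 10) (nat_lit 4) (nat_lit 428) (nat_lit 328) (nat_lit 264)) (XT.lf (nat_lit 0) (nat_lit 19404244011) (nat_lit 152) (nat_lit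 39352122023) (nat_lit 0) (nat_lit 9941214017) (nat_lit 10) (nat_lit 5) (nat_lit 12) (nat_lit 4) (nat_lit 10) (nat_lit 4) (nat_lit 429) (nat_lit 328) (nat_lit 263)))) (XT.nd (nat_lit 156) (nat_lit 76) (nat_lit 0) (XT.nd (nat_lit 78) (nat_lit 0) (nat_lit 0) (XT.lf (nat_lit 0) (nat_lit 28440345119) (nat_lit 152) (nat_lit 24306158477) (nat_lit 0) (nat_lit 18957585596) (nat_lit 10) (nat_lit 5) (nat_lit 12) (nat_lit 4) (nat_lit 10) (nat_lit 4) (nat_lit 430) (nat_lit 328) (nat_lit 262)) (XT.lf (nat_lit 0) (nat_lit 37897396895) (nat_lit 152) (nat_lit 8569223645) (nat_lit 0) (nat_lit 28395847345) (nat_lit 10) (nat_lit 5) (nat_lit 12) (nat_lit 4) (nat_lit 10) (nat_lit 4) (nat_lit 431) (nat_lit 328) (nat_lit 261))) (XT.nd (nat_lit 78) (nat_lit 0) (nat_lit 0) (XT.lf (nat_lit 0) (nat_lit 8157233789) (nat_lit 76) (nat_lit 39768039621) (nat_lit 76) (nat_lit 30248594807) (nat_lit 9) (nat_lit 4) (nat_lit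 10) (nat_lit 5) (nat_lit 10) (nat_lit 4) (nat_lit 432) (nat_lit 328) (nat_lit 260)) (XT.lf (nat_lit 0) (nat_lit 25960053668) (nat_lit 76) (nat_lit 32610731011) (nat_lit 76) (nat_lit 23074243088) (nat_lit 9) (nat_lit 4) (nat_lit 10) (nat_lit 5) (nat_lit 10) (nat_lit 4) (nat_lit 433) (nat_lit 328) (nat_lit 259))))))))
noncomputable def xc69 : XT := (XT.nd (nat_lit 2106) (nat_lit 76) (nat_lit 0) (XT.nd (nat_lit 1014) (nat_lit 152) (nat_lit 0) (XT.nd (nat_lit 468) (nat_lit 76) (nat_lit 0) (XT.nd (nat_lit 234) (nat_lit 76) (nat_lit 0) (XT.nd (nat_lit 78) (nat_lit 76) (nat_lit 0) (XT.lf (nat_lit 0) (nat_lit 44598286426) (nat_lit 76) (nat_lit 25122777449) (nat_lit 76) (nat_lit 15570057993) (nat_lit 9) (nat_lit 4) (nat_lit 10) (nat_lit 5) (nat_lit 10) (nat_lit 4) (nat_lit 434) (nat_lit 328) (nat_lit 258)) (XT.nd (nat_lit 78) (nat_lit 76) (nat_lit 0) (XT.lf (nat_lit 0) (nat_lit 64116308807) (nat_lit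 76) (nat_lit 17286350473) (nat_lit 76) (nat_lit 7718172415) (nat_lit 9) (nat_lit 4) (nat_lit 10) (nat_lit 5) (nat_lit 10) (nat_lit 4) (nat_lit 435) (nat_lit 328) (nat_lit 257)) (XT.lf (nat_lit 0) (nat_lit 484102013) (nat_lit 152) (nat_lit 8590491408) (nat_lit 76) (nat_lit 84068291777) (nat_lit 8) (nat_lit 5) (nat_lit 10) (nat_lit 5) (nat_lit 9) (nat_lit 4) (nat_lit 436) (nat_lit 328) (nat_lit 256)))) (XT.nd (nat_lit 78) (nat_lit 0) (nat_lit 0) (XT.lf (nat_lit 0) (nat_lit 8749682945) (nat_lit 76) (nat_lit 199880414) (nat_lit 152) (nat_lit 88404529904) (nat_lit 7) (nat_lit 5) (nat_lit 8) (nat_lit 5) (nat_lit 9) (nat_lit 4) (nat_lit 437) (nat_lit 328) (nat_lit 255)) (XT.nd (nat_lit 78) (nat_lit 0) (nat_lit 0) (XT.lf (nat_lit 0) (nat_lit 18104424433) (nat_lit 152) (nat_lit 74706350957) (nat_lit 0) (nat_lit 8951780943) (nat_lit 7) (nat_lit 5) (nat_lit 9) (nat_lit 4) (nat_lit 7) (nat_lit 4) (nat_lit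 438) (nat_lit 328) (nat_lit 254)) (XT.lf (nat_lit 0) (nat_lit 27697344468) (nat_lit 152) (nat_lit 60162494421) (nat_lit 0) (nat_lit 18532588758) (nat_lit 7) (nat_lit 5) (nat_lit 9) (nat_lit 4) (nat_lit 7) (nat_lit 4) (nat_lit 439) (nat_lit 328) (nat_lit 253))))) (XT.nd (nat_lit 234) (nat_lit 76) (nat_lit 0) (XT.nd (nat_lit 78) (nat_lit 0) (nat_lit 0) (XT.lf (nat_lit 0) (nat_lit 37748043057) (nat_lit 152) (nat_lit 44935091789) (nat_lit 0) (nat_lit 28571751900) (nat_lit 7) (nat_lit 5) (nat_lit 9) (nat_lit 4) (nat_lit 7) (nat_lit 4) (nat_lit 440) (nat_lit 328) (nat_lit 252)) (XT.nd (nat_lit 78) (nat_lit 0) (nat_lit 0) (XT.lf (nat_lit 0) (nat_lit 48280450434) (nat_lit 152) (nat_lit 28987887339) (nat_lit 0) (nat_lit 39093173137) (nat_lit 7) (nat_lit 5) (nat_lit 9) (nat_lit 4) (nat_lit 7) (nat_lit 4) (nat_lit 441) (nat_lit 328) (nat_lit 251)) (XT.lf (nat_lit 0) (nat_lit 59319643760) (nat_lit 152)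 (nat_lit 12282911539) (nat_lit 0) (nat_lit 50121903473) (nat_lit 7) (nat_lit 5) (nat_lit 9) (nat_lit 4) (nat_lit 7) (nat_lit 4) (nat_lit 442) (nat_lit 328) (nat_lit 250)))) (XT.nd (nat_lit 156) (nat_lit 0) (nat_lit 0) (XT.nd (nat_lit 78) (nat_lit 0) (nat_lit 0) (XT.lf (nat_lit 0) (nat_lit 5392193222) (nat_lit 76) (nat_lit 65583900854) (nat_lit 76) (nat_lit 56376195814) (nat_lit 6) (nat_lit 4) (nat_lit 7) (nat_lit 5) (nat_lit 7) (nat_lit 4) (nat_lit 443) (nat_lit 328) (nat_lit 249)) (XT.lf (nat_lit 0) (nat_lit 24340392613) (nat_lit 76) (nat_lit 59064421777) (nat_lit 76) (nat_lit 49847226496) (nat_lit 6) (nat_lit 4) (nat_lit 7) (nat_lit 5) (nat_lit 7) (nat_lit 4) (nat_lit 444) (nat_lit 328) (nat_lit 248))) (XT.nd (nat_lit 78) (nat_lit 0) (nat_lit 0) (XT.lf (nat_lit 0) (nat_lit 44200672866) (nat_lit 76) (nat_lit 52236612549) (nat_lit 76) (nat_lit 43010378944) (nat_lit 6) (nat_lit 4) (nat_lit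 7) (nat_lit 5) (nat_lit 7) (nat_lit 4) (nat_lit 445) (nat_lit 328) (nat_lit 247)) (XT.lf (nat_lit 0) (nat_lit 65020320362) (nat_lit 76) (nat_lit 45084216482) (nat_lit 76) (nat_lit 35849374949) (nat_lit 6) (nat_lit 4) (nat_lit 7) (nat_lit 5) (nat_lit 7) (nat_lit 4) (nat_lit 446) (nat_lit 328) (nat_lit 246)))))) (XT.nd (nat_lit 546) (nat_lit 0) (nat_lit 0) (XT.nd (nat_lit 234) (nat_lit 152) (nat_lit 0) (XT.nd (nat_lit 78) (nat_lit 0) (nat_lit 0) (XT.lf (nat_lit 0) (nat_lit 86848905692) (nat_lit 76) (nat_lit 37590204062) (nat_lit 76) (nat_lit 28347164502) (nat_lit 6) (nat_lit 4) (nat_lit 7) (nat_lit 5) (nat_lit 7) (nat_lit 4) (nat_lit 447) (nat_lit 328) (nat_lit 245)) (XT.nd (nat_lit 78) (nat_lit 0) (nat_lit 0) (XT.lf (nat_lit 0) (nat_lit 109738401677) (nat_lit 76) (nat_lit 29736732401) (nat_lit 76) (nat_lit 20485885197) (nat_lit 6) (nat_lit 4) (nat_lit 7) (nat_lit 5) (nat_lit 7) (nat_lit 4)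 (nat_lit 448) (nat_lit 328) (nat_lit 244)) (XT.lf (nat_lit 0) (nat_lit 133743307117) (nat_lit 76) (nat_lit 21505102758) (nat_lit 76) (nat_lit 12246819702) (nat_lit 6) (nat_lit 4) (nat_lit 7) (nat_lit 5) (nat_lit 7) (nat_lit 4) (nat_lit 449) (nat_lit 328) (nat_lit 243)))) (XT.nd (nat_lit 156) (nat_lit 0) (nat_lit 0) (XT.nd (nat_lit 78) (nat_lit 152) (nat_lit 0) (XT.lf (nat_lit 0) (nat_lit 158920776549) (nat_lit 76) (nat_lit 12875716015) (nat_lit 76) (nat_lit 3610351195) (nat_lit 6) (nat_lit 4) (nat_lit 7) (nat_lit 5) (nat_lit 7) (nat_lit 4) (nat_lit 450) (nat_lit 328) (nat_lit 242)) (XT.lf (nat_lit 0) (nat_lit 1581683690) (nat_lit 76) (nat_lit 3712849503) (nat_lit 152) (nat_lit 178414681207) (nat_lit 4) (nat_lit 5) (nat_lit 5) (nat_lit 5) (nat_lit 6) (nat_lit 4) (nat_lit 451) (nat_lit 328) (nat_lit 241))) (XT.nd (nat_lit 78) (nat_lit 0) (nat_lit 0) (XT.lf (nat_lit 0) (nat_lit 14885957037)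 (nat_lit 152) (nat_lit 171470397141) (nat_lit 0) (nat_lit 6049259204) (nat_lit 4) (nat_lit 5) (nat_lit 6) (nat_lit 4) (nat_lit 4) (nat_lit 4) (nat_lit 452) (nat_lit 328) (nat_lit 240)) (XT.lf (nat_lit 0) (nat_lit 25005063414) (nat_lit 152) (nat_lit 160366824362) (nat_lit 0) (nat_lit 16162539396) (nat_lit 4) (nat_lit 5) (nat_lit 6) (nat_lit 4) (nat_lit 4) (nat_lit 4) (nat_lit 453) (nat_lit 328) (nat_lit 239))))) (XT.nd (nat_lit 234) (nat_lit 0) (nat_lit 0) (XT.nd (nat_lit 78) (nat_lit 0) (nat_lit 0) (XT.lf (nat_lit 0) (nat_lit 35617977449) (nat_lit 152) (nat_lit 148732407311) (nat_lit 0) (nat_lit 26769904683) (nat_lit 4) (nat_lit 5) (nat_lit 6) (nat_lit 4) (nat_lit 4) (nat_lit 4) (nat_lit 454) (nat_lit 328) (nat_lit 238)) (XT.nd (nat_lit 78) (nat_lit 0) (nat_lit 0) (XT.lf (nat_lit 0) (nat_lit 46749967983) (nat_lit 152) (nat_lit 136539444994) (nat_lit 0) (nat_lit 37896610697) (nat_lit 4) (nat_lit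 5) (nat_lit 6) (nat_lit 4) (nat_lit 4) (nat_lit 4) (nat_lit 455) (nat_lit 328) (nat_lit 237)) (XT.lf (nat_lit 0) (nat_lit 58427539757) (nat_lit 152) (nat_lit 123758906549) (nat_lit 0) (nat_lit 49569149594) (nat_lit 4) (nat_lit 5) (nat_lit 6) (nat_lit 4) (nat_lit 4) (nat_lit 4) (nat_lit 456) (nat_lit 328) (nat_lit 236)))) (XT.nd (nat_lit 156) (nat_lit 0) (nat_lit 0) (XT.nd (nat_lit 78) (nat_lit 0) (nat_lit 0) (XT.lf (nat_lit 0) (nat_lit 70678496513) (nat_lit 152) (nat_lit 110360362122) (nat_lit 0) (nat_lit 61815313133) (nat_lit 4) (nat_lit 5) (nat_lit 6) (nat_lit 4) (nat_lit 4) (nat_lit 4) (nat_lit 457) (nat_lit 328) (nat_lit 235)) (XT.lf (nat_lit 0) (nat_lit 83532007196) (nat_lit 152) (nat_lit 96311910417) (nat_lit 0) (nat_lit 74664258848) (nat_lit 4) (nat_lit 5) (nat_lit 6) (nat_lit 4) (nat_lit 4) (nat_lit 4) (nat_lit 458) (nat_lit 328) (nat_lit 234))) (XT.nd (nat_lit 78) (nat_lit 0) (nat_lit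 0) (XT.lf (nat_lit 0) (nat_lit 97018675402) (nat_lit 152) (nat_lit 81580102739) (nat_lit 0) (nat_lit 88146579465) (nat_lit 4) (nat_lit 5) (nat_lit 6) (nat_lit 4) (nat_lit 4) (nat_lit 4) (nat_lit 459) (nat_lit 328) (nat_lit 233)) (XT.lf (nat_lit 0) (nat_lit 111170612246) (nat_lit 152) (nat_lit 66129863357) (nat_lit 0) (nat_lit 102294375749) (nat_lit 4) (nat_lit 5) (nat_lit 6) (nat_lit 4) (nat_lit 4) (nat_lit 4) (nat_lit 460) (nat_lit 328) (nat_lit 232))))))) (XT.nd (nat_lit 1014) (nat_lit 0) (nat_lit 0) (XT.nd (nat_lit 468) (nat_lit 0) (nat_lit 0) (XT.nd (nat_lit 234) (nat_lit 76) (nat_lit 0) (XT.nd (nat_lit 78) (nat_lit 0) (nat_lit 0) (XT.lf (nat_lit 0) (nat_lit 126021512817) (nat_lit 152) (nat_lit 49924405985) (nat_lit 0) (nat_lit 117141332928) (nat_lit 4) (nat_lit 5) (nat_lit 6) (nat_lit 4) (nat_lit 4) (nat_lit 4) (nat_lit 461) (nat_lit 328) (nat_lit 231)) (XT.nd (nat_lit 78) (nat_lit 0)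 (nat_lit 0) (XT.lf (nat_lit 0) (nat_lit 141606736400) (nat_lit 152) (nat_lit 32925146201) (nat_lit 0) (nat_lit 132722800901) (nat_lit 4) (nat_lit 5) (nat_lit 6) (nat_lit 4) (nat_lit 4) (nat_lit 4) (nat_lit 462) (nat_lit 328) (nat_lit 230)) (XT.lf (nat_lit 0) (nat_lit 157963390671) (nat_lit 152) (nat_lit 15091609578) (nat_lit 0) (nat_lit 149075878401) (nat_lit 4) (nat_lit 5) (nat_lit 6) (nat_lit 4) (nat_lit 4) (nat_lit 4) (nat_lit 463) (nat_lit 328) (nat_lit 229)))) (XT.nd (nat_lit 78) (nat_lit 0) (nat_lit 0) (XT.lf (nat_lit 0) (nat_lit 3738314083) (nat_lit 76) (nat_lit 171450471522) (nat_lit 76) (nat_lit 162559552802) (nat_lit 3) (nat_lit 4) (nat_lit 4) (nat_lit 5) (nat_lit 4) (nat_lit 4) (nat_lit 464) (nat_lit 328) (nat_lit 228)) (XT.nd (nat_lit 78) (nat_lit 0) (nat_lit 0) (XT.lf (nat_lit 0) (nat_lit 24018982299) (nat_lit 76) (nat_lit 169504719731) (nat_lit 76) (nat_lit 160610556773) (nat_lit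 3) (nat_lit 4) (nat_lit 4) (nat_lit 5) (nat_lit 4) (nat_lit 4) (nat_lit 465) (nat_lit 328) (nat_lit 227)) (XT.lf (nat_lit 0) (nat_lit 45299685606) (nat_lit 76) (nat_lit 167468695844) (nat_lit 76) (nat_lit 158571443136) (nat_lit 3) (nat_lit 4) (nat_lit 4) (nat_lit 5) (nat_lit 4) (nat_lit 4) (nat_lit 466) (nat_lit 328) (nat_lit 226))))) (XT.nd (nat_lit 234) (nat_lit 0) (nat_lit 0) (XT.nd (nat_lit 78) (nat_lit 0) (nat_lit 0) (XT.lf (nat_lit 0) (nat_lit 67631092346) (nat_lit 76) (nat_lit 165337552185) (nat_lit 76) (nat_lit 156437356858) (nat_lit 3) (nat_lit 4) (nat_lit 4) (nat_lit 5) (nat_lit 4) (nat_lit 4) (nat_lit 467) (nat_lit 328) (nat_lit 225)) (XT.nd (nat_lit 78) (nat_lit 0) (nat_lit 0) (XT.lf (nat_lit 0) (nat_lit 91066372535) (nat_lit 76) (nat_lit 163106214603) (nat_lit 76) (nat_lit 154203216782) (nat_lit 3) (nat_lit 4) (nat_lit 4) (nat_lit 5) (nat_lit 4) (nat_lit 4) (nat_lit 468) (nat_lit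 328) (nat_lit 224)) (XT.lf (nat_lit 0) (nat_lit 115661324459) (nat_lit 76) (nat_lit 160769370390) (nat_lit 76) (nat_lit 151863703526) (nat_lit 3) (nat_lit 4) (nat_lit 4) (nat_lit 5) (nat_lit 4) (nat_lit 4) (nat_lit 469) (nat_lit 328) (nat_lit 223)))) (XT.nd (nat_lit 156) (nat_lit 0) (nat_lit 0) (XT.nd (nat_lit 78) (nat_lit 0) (nat_lit 0) (XT.lf (nat_lit 0) (nat_lit 141474507527) (nat_lit 76) (nat_lit 158321455629) (nat_lit 76) (nat_lit 149413246821) (nat_lit 3) (nat_lit 4) (nat_lit 4) (nat_lit 5) (nat_lit 4) (nat_lit 4) (nat_lit 470) (nat_lit 328) (nat_lit 222)) (XT.lf (nat_lit 0) (nat_lit 168567381699) (nat_lit 76) (nat_lit 155756641954) (nat_lit 76) (nat_lit 146846012246) (nat_lit 3) (nat_lit 4) (nat_lit 4) (nat_lit 5) (nat_lit 4) (nat_lit 4) (nat_lit 471) (nat_lit 328) (nat_lit 221))) (XT.nd (nat_lit 78) (nat_lit 0) (nat_lit 0) (XT.lf (nat_lit 0) (nat_lit 197004453818) (nat_lit 76) (nat_lit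 153068822665) (nat_lit 76) (nat_lit 144155887337) (nat_lit 3) (nat_lit 4) (nat_lit 4) (nat_lit 5) (nat_lit 4) (nat_lit 4) (nat_lit 472) (nat_lit 328) (nat_lit 220)) (XT.lf (nat_lit 0) (nat_lit 226853431199) (nat_lit 76) (nat_lit 150251598191) (nat_lit 76) (nat_lit 141336467036) (nat_lit 3) (nat_lit 4) (nat_lit 4) (nat_lit 5) (nat_lit 4) (nat_lit 4) (nat_lit 473) (nat_lit 328) (nat_lit 219)))))) (XT.nd (nat_lit 546) (nat_lit 0) (nat_lit 0) (XT.nd (nat_lit 234) (nat_lit 0) (nat_lit 0) (XT.nd (nat_lit 78) (nat_lit 0) (nat_lit 0) (XT.lf (nat_lit 0) (nat_lit 258185382835) (nat_lit 76) (nat_lit 147298260856) (nat_lit 76) (nat_lit 138381038437) (nat_lit 3) (nat_lit 4) (nat_lit 4) (nat_lit 5) (nat_lit 4) (nat_lit 4) (nat_lit 474) (nat_lit 328) (nat_lit 218)) (XT.nd (nat_lit 78) (nat_lit 0) (nat_lit 0) (XT.lf (nat_lit 0) (nat_lit 291074908612) (nat_lit 76) (nat_lit 144201778905) (nat_lit 76) (nat_lit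 135282564805) (nat_lit 3) (nat_lit 4) (nat_lit 4) (nat_lit 5) (nat_lit 4) (nat_lit 4) (nat_lit 475) (nat_lit 328) (nat_lit 217)) (XT.lf (nat_lit 0) (nat_lit 325600316923) (nat_lit 76) (nat_lit 140954779760) (nat_lit 76) (nat_lit 132033668822) (nat_lit 3) (nat_lit 4) (nat_lit 4) (nat_lit 5) (nat_lit 4) (nat_lit 4) (nat_lit 476) (nat_lit 328) (nat_lit 216)))) (XT.nd (nat_lit 156) (nat_lit 0) (nat_lit 0) (XT.nd (nat_lit 78) (nat_lit 0) (nat_lit 0) (XT.lf (nat_lit 0) (nat_lit 361843811123) (nat_lit 76) (nat_lit 137549532472) (nat_lit 76) (nat_lit 128626615021) (nat_lit 3) (nat_lit 4) (nat_lit 4) (nat_lit 5) (nat_lit 4) (nat_lit 4) (nat_lit 477) (nat_lit 328) (nat_lit 215)) (XT.lf (nat_lit 0) (nat_lit 399891685245) (nat_lit 76) (nat_lit 133977929310) (nat_lit 76) (nat_lit 125053291370) (nat_lit 3) (nat_lit 4) (nat_lit 4) (nat_lit 5) (nat_lit 4) (nat_lit 4) (nat_lit 478) (nat_lit 328) (nat_lit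 214))) (XT.nd (nat_lit 78) (nat_lit 0) (nat_lit 0) (XT.lf (nat_lit 0) (nat_lit 439834529466) (nat_lit 76) (nat_lit 130231466455) (nat_lit 76) (nat_lit 121305189955) (nat_lit 3) (nat_lit 4) (nat_lit 4) (nat_lit 5) (nat_lit 4) (nat_lit 4) (nat_lit 479) (nat_lit 328) (nat_lit 213)) (XT.lf (nat_lit 0) (nat_lit 481767445795) (nat_lit 76) (nat_lit 126301223758) (nat_lit 76) (nat_lit 117373386724) (nat_lit 3) (nat_lit 4) (nat_lit 4) (nat_lit 5) (nat_lit 4) (nat_lit 4) (nat_lit 480) (nat_lit 328) (nat_lit 212))))) (XT.nd (nat_lit 234) (nat_lit 0) (nat_lit 0) (XT.nd (nat_lit 78) (nat_lit 0) (nat_lit 0) (XT.lf (nat_lit 0) (nat_lit 525790274510) (nat_lit 76) (nat_lit 122177843500) (nat_lit 76) (nat_lit 113248520243) (nat_lit 3) (nat_lit 4) (nat_lit 4) (nat_lit 5) (nat_lit 4) (nat_lit 4) (nat_lit 481) (nat_lit 328) (nat_lit 211)) (XT.nd (nat_lit 78) (nat_lit 0) (nat_lit 0) (XT.lf (nat_lit 0) (nat_lit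 572007831868) (nat_lit 76) (nat_lit 117851508107) (nat_lit 76) (nat_lit 108920769400) (nat_lit 3) (nat_lit 4) (nat_lit 4) (nat_lit 5) (nat_lit 4) (nat_lit 4) (nat_lit 482) (nat_lit 328) (nat_lit 210)) (XT.lf (nat_lit 0) (nat_lit 620530159675) (nat_lit 76) (nat_lit 113311916781) (nat_lit 76) (nat_lit 104379830026) (nat_lit 3) (nat_lit 4) (nat_lit 4) (nat_lit 5) (nat_lit 4) (nat_lit 4) (nat_lit 483) (nat_lit 328) (nat_lit 209)))) (XT.nd (nat_lit 43680) (nat_lit 0) (nat_lit 6460) (XT.nd (nat_lit 43602) (nat_lit 0) (nat_lit 7068) (XT.lf (nat_lit 0) (nat_lit 671472787281) (nat_lit 76) (nat_lit 108548260971) (nat_lit 76) (nat_lit 99614890361) (nat_lit 3) (nat_lit 4) (nat_lit 4) (nat_lit 5) (nat_lit 4) (nat_lit 4) (nat_lit 484) (nat_lit 328) (nat_lit 208)) (XT.lf (nat_lit 0) (nat_lit 1138625271) (nat_lit 380) (nat_lit 1664655517) (nat_lit 0) (nat_lit 1138625271) (nat_lit 96) (nat_lit 5) (nat_lit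 101) (nat_lit 4) (nat_lit 96) (nat_lit 4) (nat_lit 362) (nat_lit 329) (nat_lit 329))) (XT.nd (nat_lit 78) (nat_lit 304) (nat_lit 0) (XT.lf (nat_lit 0) (nat_lit 3011206234) (nat_lit 304) (nat_lit 3129505045) (nat_lit 304) (nat_lit 1881526457) (nat_lit 92) (nat_lit 4) (nat_lit 96) (nat_lit 5) (nat_lit 96) (nat_lit 4) (nat_lit 363) (nat_lit 329) (nat_lit 328)) (XT.lf (nat_lit 0) (nat_lit 1418305079) (nat_lit 228) (nat_lit 462102093) (nat_lit 304) (nat_lit 6289895320) (nat_lit 88) (nat_lit 5) (nat_lit 91) (nat_lit 5) (nat_lit 92) (nat_lit 4) (nat_lit 364) (nat_lit 329) (nat_lit 327))))))))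
noncomputable def xc70 : XT := (XT.nd (nat_lit 2106) (nat_lit 1520) (nat_lit 0) (XT.nd (nat_lit 1014) (nat_lit 1520) (nat_lit 0) (XT.nd (nat_lit 468) (nat_lit 1292) (nat_lit 0) (XT.nd (nat_lit 234) (nat_lit 532) (nat_lit 0) (XT.nd (nat_lit 78) (nat_lit 608) (nat_lit 0) (XT.lf (nat_lit 0) (nat_lit 5729848290) (nat_lit 304) (nat_lit 265033789) (nat_lit 0) (nat_lit 2331293059) (nat_lit 88) (nat_lit 5) (nat_lit 92) (nat_lit 4) (nat_lit 88) (nat_lit 4) (nat_lit 365) (nat_lit 329) (nat_lit 326)) (XT.nd (nat_lit 78) (nat_lit 228) (nat_lit 0) (XT.lf (nat_lit 0) (nat_lit 1197306985) (nat_lit 380) (nat_lit 1970790983) (nat_lit 76) (nat_lit 5322993576) (nat_lit 83) (nat_lit 5) (nat_lit 88) (nat_lit 5) (nat_lit 84) (nat_lit 4) (nat_lit 366) (nat_lit 329) (nat_lit 325)) (XT.lf (nat_lit 0) (nat_lit 4894928835) (nat_lit 228) (nat_lit 128497026) (nat_lit 304) (nat_lit 3642265174) (nat_lit 80) (nat_lit 5)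 (nat_lit 83) (nat_lit 5) (nat_lit 84) (nat_lit 4) (nat_lit 367) (nat_lit 329) (nat_lit 324)))) (XT.nd (nat_lit 78) (nat_lit 228) (nat_lit 0) (XT.lf (nat_lit 0) (nat_lit 168651733) (nat_lit 304) (nat_lit 5686983012) (nat_lit 76) (nat_lit 2994149847) (nat_lit 76) (nat_lit 5) (nat_lit 80) (nat_lit 5) (nat_lit 77) (nat_lit 4) (nat_lit 368) (nat_lit 329) (nat_lit 323)) (XT.nd (nat_lit 78) (nat_lit 0) (nat_lit 0) (XT.lf (nat_lit 0) (nat_lit 1299003427) (nat_lit 228) (nat_lit 2689486096) (nat_lit 304) (nat_lit 5054627846) (nat_lit 73) (nat_lit 5) (nat_lit 76) (nat_lit 5) (nat_lit 77) (nat_lit 4) (nat_lit 369) (nat_lit 329) (nat_lit 322)) (XT.lf (nat_lit 0) (nat_lit 7963247571) (nat_lit 304) (nat_lit 637536825) (nat_lit 0) (nat_lit 647192121) (nat_lit 73) (nat_lit 5) (nat_lit 77) (nat_lit 4) (nat_lit 73) (nat_lit 4) (nat_lit 370) (nat_lit 329) (nat_lit 321))))) (XT.nd (nat_lit 234) (nat_lit 532)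 (nat_lit 0) (XT.nd (nat_lit 78) (nat_lit 456) (nat_lit 0) (XT.lf (nat_lit 0) (nat_lit 2601353215) (nat_lit 304) (nat_lit 2712948592) (nat_lit 76) (nat_lit 4146077462) (nat_lit 69) (nat_lit 5) (nat_lit 73) (nat_lit 5) (nat_lit 70) (nat_lit 4) (nat_lit 371) (nat_lit 329) (nat_lit 320)) (XT.nd (nat_lit 78) (nat_lit 304) (nat_lit 0) (XT.lf (nat_lit 0) (nat_lit 4764803095) (nat_lit 152) (nat_lit 1823219808) (nat_lit 228) (nat_lit 3096901765) (nat_lit 67) (nat_lit 5) (nat_lit 69) (nat_lit 5) (nat_lit 70) (nat_lit 4) (nat_lit 372) (nat_lit 329) (nat_lit 319)) (XT.lf (nat_lit 0) (nat_lit 808598822) (nat_lit 304) (nat_lit 7297109128) (nat_lit 76) (nat_lit 1815238146) (nat_lit 63) (nat_lit 5) (nat_lit 67) (nat_lit 5) (nat_lit 64) (nat_lit 4) (nat_lit 373) (nat_lit 329) (nat_lit 318)))) (XT.nd (nat_lit 156) (nat_lit 380) (nat_lit 0) (XT.nd (nat_lit 78) (nat_lit 0) (nat_lit 0) (XT.lf (nat_lit 0) (nat_lit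 267082153) (nat_lit 152) (nat_lit 4524194873) (nat_lit 228) (nat_lit 5375696083) (nat_lit 61) (nat_lit 5) (nat_lit 63) (nat_lit 5) (nat_lit 64) (nat_lit 4) (nat_lit 374) (nat_lit 329) (nat_lit 317)) (XT.lf (nat_lit 0) (nat_lit 8255570694) (nat_lit 152) (nat_lit 711414582) (nat_lit 228) (nat_lit 1458661297) (nat_lit 61) (nat_lit 5) (nat_lit 63) (nat_lit 5) (nat_lit 64) (nat_lit 4) (nat_lit 375) (nat_lit 329) (nat_lit 316))) (XT.nd (nat_lit 78) (nat_lit 152) (nat_lit 0) (XT.lf (nat_lit 0) (nat_lit 2588088998) (nat_lit 228) (nat_lit 4857501407) (nat_lit 76) (nat_lit 3248686727) (nat_lit 58) (nat_lit 5) (nat_lit 61) (nat_lit 5) (nat_lit 59) (nat_lit 4) (nat_lit 376) (nat_lit 329) (nat_lit 315)) (XT.lf (nat_lit 0) (nat_lit 3207999629) (nat_lit 152) (nat_lit 3555391097) (nat_lit 228) (nat_lit 4213025616) (nat_lit 56) (nat_lit 5) (nat_lit 58) (nat_lit 5) (nat_lit 59) (nat_lit 4) (nat_lit 377) (nat_lit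 329) (nat_lit 314)))))) (XT.nd (nat_lit 546) (nat_lit 608) (nat_lit 0) (XT.nd (nat_lit 234) (nat_lit 532) (nat_lit 0) (XT.nd (nat_lit 78) (nat_lit 228) (nat_lit 0) (XT.lf (nat_lit 0) (nat_lit 374353645) (nat_lit 152) (nat_lit 10748500859) (nat_lit 152) (nat_lit 151070988) (nat_lit 54) (nat_lit 4) (nat_lit 56) (nat_lit 5) (nat_lit 56) (nat_lit 4) (nat_lit 378) (nat_lit 329) (nat_lit 313)) (XT.nd (nat_lit 78) (nat_lit 152) (nat_lit 0) (XT.lf (nat_lit 0) (nat_lit 4052673493) (nat_lit 228) (nat_lit 2716070527) (nat_lit 76) (nat_lit 4810866059) (nat_lit 53) (nat_lit 5) (nat_lit 56) (nat_lit 5) (nat_lit 54) (nat_lit 4) (nat_lit 379) (nat_lit 329) (nat_lit 312)) (XT.lf (nat_lit 0) (nat_lit 5866040848) (nat_lit 152) (nat_lit 2571226496) (nat_lit 228) (nat_lit 3464429128) (nat_lit 51) (nat_lit 5) (nat_lit 53) (nat_lit 5) (nat_lit 54) (nat_lit 4) (nat_lit 380) (nat_lit 329) (nat_lit 311)))) (XT.nd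 (nat_lit 156) (nat_lit 304) (nat_lit 0) (XT.nd (nat_lit 78) (nat_lit 0) (nat_lit 0) (XT.lf (nat_lit 0) (nat_lit 776840194) (nat_lit 228) (nat_lit 9662063622) (nat_lit 76) (nat_lit 1800319638) (nat_lit 48) (nat_lit 5) (nat_lit 51) (nat_lit 5) (nat_lit 49) (nat_lit 4) (nat_lit 381) (nat_lit 329) (nat_lit 310)) (XT.lf (nat_lit 0) (nat_lit 5145776830) (nat_lit 228) (nat_lit 1056725933) (nat_lit 76) (nat_lit 6386707255) (nat_lit 48) (nat_lit 5) (nat_lit 51) (nat_lit 5) (nat_lit 49) (nat_lit 4) (nat_lit 382) (nat_lit 329) (nat_lit 309))) (XT.nd (nat_lit 78) (nat_lit 228) (nat_lit 0) (XT.lf (nat_lit 0) (nat_lit 8048136385) (nat_lit 76) (nat_lit 1702094730) (nat_lit 152) (nat_lit 3205634586) (nat_lit 47) (nat_lit 5) (nat_lit 48) (nat_lit 5) (nat_lit 49) (nat_lit 4) (nat_lit 383) (nat_lit 329) (nat_lit 308)) (XT.lf (nat_lit 0) (nat_lit 1228067260) (nat_lit 228) (nat_lit 9156927638) (nat_lit 76) (nat_lit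 2953717733) (nat_lit 44) (nat_lit 5) (nat_lit 47) (nat_lit 5) (nat_lit 45) (nat_lit 4) (nat_lit 384) (nat_lit 329) (nat_lit 307))))) (XT.nd (nat_lit 234) (nat_lit 304) (nat_lit 0) (XT.nd (nat_lit 78) (nat_lit 304) (nat_lit 0) (XT.lf (nat_lit 0) (nat_lit 5781029977) (nat_lit 228) (nat_lit 112108170) (nat_lit 76) (nat_lit 7844691041) (nat_lit 44) (nat_lit 5) (nat_lit 47) (nat_lit 5) (nat_lit 45) (nat_lit 4) (nat_lit 385) (nat_lit 329) (nat_lit 306)) (XT.nd (nat_lit 78) (nat_lit 228) (nat_lit 0) (XT.lf (nat_lit 0) (nat_lit 9508418980) (nat_lit 76) (nat_lit 1099699318) (nat_lit 152) (nat_lit 3546478598) (nat_lit 43) (nat_lit 5) (nat_lit 44) (nat_lit 5) (nat_lit 45) (nat_lit 4) (nat_lit 386) (nat_lit 329) (nat_lit 305)) (XT.lf (nat_lit 0) (nat_lit 1089577075) (nat_lit 228) (nat_lit 9671254627) (nat_lit 76) (nat_lit 3828545939) (nat_lit 40) (nat_lit 5) (nat_lit 43) (nat_lit 5) (nat_lit 41) (nat_lit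 4) (nat_lit 387) (nat_lit 329) (nat_lit 304)))) (XT.nd (nat_lit 156) (nat_lit 228) (nat_lit 0) (XT.nd (nat_lit 78) (nat_lit 76) (nat_lit 0) (XT.lf (nat_lit 0) (nat_lit 5835519313) (nat_lit 228) (nat_lit 179631753) (nat_lit 76) (nat_lit 9027992554) (nat_lit 40) (nat_lit 5) (nat_lit 43) (nat_lit 5) (nat_lit 41) (nat_lit 4) (nat_lit 388) (nat_lit 329) (nat_lit 303)) (XT.lf (nat_lit 0) (nat_lit 9930942916) (nat_lit 76) (nat_lit 946928135) (nat_lit 152) (nat_lit 4638787019) (nat_lit 39) (nat_lit 5) (nat_lit 40) (nat_lit 5) (nat_lit 41) (nat_lit 4) (nat_lit 389) (nat_lit 329) (nat_lit 302))) (XT.nd (nat_lit 78) (nat_lit 0) (nat_lit 0) (XT.lf (nat_lit 0) (nat_lit 199620077) (nat_lit 228) (nat_lit 11575698361) (nat_lit 76) (nat_lit 4236110369) (nat_lit 36) (nat_lit 5) (nat_lit 39) (nat_lit 5) (nat_lit 37) (nat_lit 4) (nat_lit 390) (nat_lit 329) (nat_lit 301)) (XT.lf (nat_lit 0) (nat_lit 5140808566)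 (nat_lit 228) (nat_lit 1641702101) (nat_lit 76) (nat_lit 9743801036) (nat_lit 36) (nat_lit 5) (nat_lit 39) (nat_lit 5) (nat_lit 37) (nat_lit 4) (nat_lit 391) (nat_lit 329) (nat_lit 300))))))) (XT.nd (nat_lit 1014) (nat_lit 608) (nat_lit 0) (XT.nd (nat_lit 468) (nat_lit 380) (nat_lit 0) (XT.nd (nat_lit 234) (nat_lit 228) (nat_lit 0) (XT.nd (nat_lit 78) (nat_lit 228) (nat_lit 0) (XT.lf (nat_lit 0) (nat_lit 8907867319) (nat_lit 76) (nat_lit 1469869485) (nat_lit 152) (nat_lit 6686780915) (nat_lit 35) (nat_lit 5) (nat_lit 36) (nat_lit 5) (nat_lit 37) (nat_lit 4) (nat_lit 392) (nat_lit 329) (nat_lit 299)) (XT.nd (nat_lit 78) (nat_lit 76) (nat_lit 0) (XT.lf (nat_lit 0) (nat_lit 2254394774) (nat_lit 152) (nat_lit 13659901717) (nat_lit 152) (nat_lit 1713460668) (nat_lit 33) (nat_lit 4) (nat_lit 35) (nat_lit 5) (nat_lit 35) (nat_lit 4) (nat_lit 393) (nat_lit 329) (nat_lit 298)) (XT.lf (nat_lit 0) (nat_lit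 3471172132) (nat_lit 228) (nat_lit 4991327266) (nat_lit 76) (nat_lit 9750184435) (nat_lit 32) (nat_lit 5) (nat_lit 35) (nat_lit 5) (nat_lit 33) (nat_lit 4) (nat_lit 394) (nat_lit 329) (nat_lit 297)))) (XT.nd (nat_lit 78) (nat_lit 152) (nat_lit 0) (XT.lf (nat_lit 0) (nat_lit 5911782080) (nat_lit 76) (nat_lit 2952678740) (nat_lit 152) (nat_lit 9960651845) (nat_lit 31) (nat_lit 5) (nat_lit 32) (nat_lit 5) (nat_lit 33) (nat_lit 4) (nat_lit 395) (nat_lit 329) (nat_lit 296)) (XT.nd (nat_lit 78) (nat_lit 152) (nat_lit 0) (XT.lf (nat_lit 0) (nat_lit 14572742298) (nat_lit 152) (nat_lit 2135853577) (nat_lit 0) (nat_lit 2757310826) (nat_lit 31) (nat_lit 5) (nat_lit 33) (nat_lit 4) (nat_lit 31) (nat_lit 4) (nat_lit 396) (nat_lit 329) (nat_lit 295)) (XT.lf (nat_lit 0) (nat_lit 528312405) (nat_lit 152) (nat_lit 10864672621) (nat_lit 76) (nat_lit 8739715569) (nat_lit 29) (nat_lit 5) (nat_lit 31) (nat_lit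 5) (nat_lit 30) (nat_lit 4) (nat_lit 397) (nat_lit 329) (nat_lit 294))))) (XT.nd (nat_lit 234) (nat_lit 228) (nat_lit 0) (XT.nd (nat_lit 78) (nat_lit 76) (nat_lit 0) (XT.lf (nat_lit 0) (nat_lit 260499560) (nat_lit 76) (nat_lit 5756180962) (nat_lit 152) (nat_lit 14814138671) (nat_lit 28) (nat_lit 5) (nat_lit 29) (nat_lit 5) (nat_lit 30) (nat_lit 4) (nat_lit 398) (nat_lit 329) (nat_lit 293)) (XT.nd (nat_lit 78) (nat_lit 76) (nat_lit 0) (XT.lf (nat_lit 0) (nat_lit 11888840089) (nat_lit 152) (nat_lit 9393730699) (nat_lit 0) (nat_lit 275812655) (nat_lit 28) (nat_lit 5) (nat_lit 30) (nat_lit 4) (nat_lit 28) (nat_lit 4) (nat_lit 399) (nat_lit 329) (nat_lit 292)) (XT.lf (nat_lit 0) (nat_lit 2171431741) (nat_lit 76) (nat_lit 15935081343) (nat_lit 76) (nat_lit 4213225525) (nat_lit 27) (nat_lit 4) (nat_lit 28) (nat_lit 5) (nat_lit 28) (nat_lit 4) (nat_lit 400) (nat_lit 329) (nat_lit 291)))) (XT.nd (nat_lit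 156) (nat_lit 76) (nat_lit 0) (XT.nd (nat_lit 78) (nat_lit 76) (nat_lit 0) (XT.lf (nat_lit 0) (nat_lit 1552891406) (nat_lit 152) (nat_lit 8642074515) (nat_lit 76) (nat_lit 12918744382) (nat_lit 26) (nat_lit 5) (nat_lit 28) (nat_lit 5) (nat_lit 27) (nat_lit 4) (nat_lit 401) (nat_lit 329) (nat_lit 290)) (XT.lf (nat_lit 0) (nat_lit 3338615585) (nat_lit 76) (nat_lit 4106666383) (nat_lit 152) (nat_lit 16499674049) (nat_lit 25) (nat_lit 5) (nat_lit 26) (nat_lit 5) (nat_lit 27) (nat_lit 4) (nat_lit 402) (nat_lit 329) (nat_lit 289))) (XT.nd (nat_lit 78) (nat_lit 76) (nat_lit 0) (XT.lf (nat_lit 0) (nat_lit 13744483754) (nat_lit 152) (nat_lit 8769119677) (nat_lit 0) (nat_lit 2298557563) (nat_lit 25) (nat_lit 5) (nat_lit 27) (nat_lit 4) (nat_lit 25) (nat_lit 4) (nat_lit 403) (nat_lit 329) (nat_lit 288)) (XT.lf (nat_lit 0) (nat_lit 3574713712) (nat_lit 76) (nat_lit 16838249478) (nat_lit 76) (nat_lit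 5307053401) (nat_lit 24) (nat_lit 4) (nat_lit 25) (nat_lit 5) (nat_lit 25) (nat_lit 4) (nat_lit 404) (nat_lit 329) (nat_lit 287)))))) (XT.nd (nat_lit 546) (nat_lit 228) (nat_lit 0) (XT.nd (nat_lit 234) (nat_lit 228) (nat_lit 0) (XT.nd (nat_lit 78) (nat_lit 76) (nat_lit 0) (XT.lf (nat_lit 0) (nat_lit 800124073) (nat_lit 152) (nat_lit 9972151142) (nat_lit 76) (nat_lit 15896303582) (nat_lit 23) (nat_lit 5) (nat_lit 25) (nat_lit 5) (nat_lit 24) (nat_lit 4) (nat_lit 405) (nat_lit 329) (nat_lit 286)) (XT.nd (nat_lit 78) (nat_lit 0) (nat_lit 0) (XT.lf (nat_lit 0) (nat_lit 2682336063) (nat_lit 76) (nat_lit 4328436549) (nat_lit 152) (nat_lit 20650628655) (nat_lit 22) (nat_lit 5) (nat_lit 23) (nat_lit 5) (nat_lit 24) (nat_lit 4) (nat_lit 406) (nat_lit 329) (nat_lit 285)) (XT.lf (nat_lit 0) (nat_lit 13676489889) (nat_lit 152) (nat_lit 12546908293) (nat_lit 0) (nat_lit 2473245006) (nat_lit 22) (nat_lit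 5) (nat_lit 24) (nat_lit 4) (nat_lit 22) (nat_lit 4) (nat_lit 407) (nat_lit 329) (nat_lit 284)))) (XT.nd (nat_lit 156) (nat_lit 152) (nat_lit 0) (XT.nd (nat_lit 78) (nat_lit 0) (nat_lit 0) (XT.lf (nat_lit 0) (nat_lit 325930745) (nat_lit 76) (nat_lit 20363539288) (nat_lit 76) (nat_lit 9093483217) (nat_lit 21) (nat_lit 4) (nat_lit 22) (nat_lit 5) (nat_lit 22) (nat_lit 4) (nat_lit 408) (nat_lit 329) (nat_lit 283)) (XT.lf (nat_lit 0) (nat_lit 14159554428) (nat_lit 76) (nat_lit 14045069299) (nat_lit 76) (nat_lit 2711383526) (nat_lit 21) (nat_lit 4) (nat_lit 22) (nat_lit 5) (nat_lit 22) (nat_lit 4) (nat_lit 409) (nat_lit 329) (nat_lit 282))) (XT.nd (nat_lit 78) (nat_lit 76) (nat_lit 0) (XT.lf (nat_lit 0) (nat_lit 3803105445) (nat_lit 152) (nat_lit 3597919325) (nat_lit 76) (nat_lit 24704529625) (nat_lit 20) (nat_lit 5) (nat_lit 22) (nat_lit 5) (nat_lit 21) (nat_lit 4) (nat_lit 410) (nat_lit 329)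 (nat_lit 281)) (XT.lf (nat_lit 0) (nat_lit 10397572157) (nat_lit 76) (nat_lit 260755482) (nat_lit 152) (nat_lit 22688726387) (nat_lit 19) (nat_lit 5) (nat_lit 20) (nat_lit 5) (nat_lit 21) (nat_lit 4) (nat_lit 411) (nat_lit 329) (nat_lit 280))))) (XT.nd (nat_lit 234) (nat_lit 152) (nat_lit 0) (XT.nd (nat_lit 78) (nat_lit 76) (nat_lit 0) (XT.lf (nat_lit 0) (nat_lit 17975198936) (nat_lit 152) (nat_lit 9653304713) (nat_lit 0) (nat_lit 7016184428) (nat_lit 19) (nat_lit 5) (nat_lit 21) (nat_lit 4) (nat_lit 19) (nat_lit 4) (nat_lit 412) (nat_lit 329) (nat_lit 279)) (XT.nd (nat_lit 78) (nat_lit 0) (nat_lit 0) (XT.lf (nat_lit 0) (nat_lit 4337971483) (nat_lit 76) (nat_lit 21338586908) (nat_lit 76) (nat_lit 10329716862) (nat_lit 18) (nat_lit 4) (nat_lit 19) (nat_lit 5) (nat_lit 19) (nat_lit 4) (nat_lit 413) (nat_lit 329) (nat_lit 278)) (XT.lf (nat_lit 0) (nat_lit 19261357005) (nat_lit 76) (nat_lit 14612693274)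 (nat_lit 76) (nat_lit 3556341765) (nat_lit 18) (nat_lit 4) (nat_lit 19) (nat_lit 5) (nat_lit 19) (nat_lit 4) (nat_lit 414) (nat_lit 329) (nat_lit 277)))) (XT.nd (nat_lit 156) (nat_lit 0) (nat_lit 0) (XT.nd (nat_lit 78) (nat_lit 76) (nat_lit 0) (XT.lf (nat_lit 0) (nat_lit 3391153014) (nat_lit 152) (nat_lit 4149708271) (nat_lit 76) (nat_lit 31384618044) (nat_lit 17) (nat_lit 5) (nat_lit 19) (nat_lit 5) (nat_lit 18) (nat_lit 4) (nat_lit 415) (nat_lit 329) (nat_lit 276)) (XT.lf (nat_lit 0) (nat_lit 10687388987) (nat_lit 152) (nat_lit 29725528772) (nat_lit 0) (nat_lit 73447046) (nat_lit 16) (nat_lit 5) (nat_lit 18) (nat_lit 4) (nat_lit 16) (nat_lit 4) (nat_lit 416) (nat_lit 329) (nat_lit 275))) (XT.nd (nat_lit 78) (nat_lit 0) (nat_lit 0) (XT.lf (nat_lit 0) (nat_lit 18495293400) (nat_lit 152) (nat_lit 15780372846) (nat_lit 0) (nat_lit 7842288342) (nat_lit 16) (nat_lit 5) (nat_lit 18) (nat_lit 4)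 (nat_lit 16) (nat_lit 4) (nat_lit 417) (nat_lit 329) (nat_lit 274)) (XT.lf (nat_lit 0) (nat_lit 26647694519) (nat_lit 152) (nat_lit 1228240499) (nat_lit 0) (nat_lit 15957486492) (nat_lit 16) (nat_lit 5) (nat_lit 18) (nat_lit 4) (nat_lit 16) (nat_lit 4) (nat_lit 418) (nat_lit 329) (nat_lit 273))))))))
noncomputable def xc71 : XT := (XT.nd (nat_lit 2106) (nat_lit 228) (nat_lit 0) (XT.nd (nat_lit 1014) (nat_lit 304) (nat_lit 0) (XT.nd (nat_lit 468) (nat_lit 228) (nat_lit 0) (XT.nd (nat_lit 234) (nat_lit 76) (nat_lit 0) (XT.nd (nat_lit 78) (nat_lit 76) (nat_lit 0) (XT.lf (nat_lit 0) (nat_lit 14427279236) (nat_lit 76) (nat_lit 20961973849) (nat_lit 76) (nat_lit 10236334423) (nat_lit 15) (nat_lit 4) (nat_lit 16) (nat_lit 5) (nat_lit 16) (nat_lit 4) (nat_lit 419) (nat_lit 329) (nat_lit 272)) (XT.nd (nat_lit 78) (nat_lit 76) (nat_lit 0) (XT.lf (nat_lit 0) (nat_lit 30823621242) (nat_lit 76) (nat_lit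 13722117106) (nat_lit 76) (nat_lit 2962733490) (nat_lit 15) (nat_lit 4) (nat_lit 16) (nat_lit 5) (nat_lit 16) (nat_lit 4) (nat_lit 420) (nat_lit 329) (nat_lit 271)) (XT.lf (nat_lit 0) (nat_lit 4483353152) (nat_lit 152) (nat_lit 1600646976) (nat_lit 76) (nat_lit 43399932343) (nat_lit 14) (nat_lit 5) (nat_lit 16) (nat_lit 5) (nat_lit 15) (nat_lit 4) (nat_lit 421) (nat_lit 329) (nat_lit 270)))) (XT.nd (nat_lit 78) (nat_lit 0) (nat_lit 0) (XT.lf (nat_lit 0) (nat_lit 12424330396) (nat_lit 152) (nat_lit 37002759822) (nat_lit 0) (nat_lit 2117541907) (nat_lit 13) (nat_lit 5) (nat_lit 15) (nat_lit 4) (nat_lit 13) (nat_lit 4) (nat_lit 422) (nat_lit 329) (nat_lit 269)) (XT.nd (nat_lit 78) (nat_lit 0) (nat_lit 0) (XT.lf (nat_lit 0) (nat_lit 20850142317) (nat_lit 152) (nat_lit 22338244787) (nat_lit 0) (nat_lit 10515592400) (nat_lit 13) (nat_lit 5) (nat_lit 15) (nat_lit 4) (nat_lit 13) (nat_lit 4) (nat_lit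 423) (nat_lit 329) (nat_lit 268)) (XT.lf (nat_lit 0) (nat_lit 29659621966) (nat_lit 152) (nat_lit 7014922775) (nat_lit 0) (nat_lit 19298632593) (nat_lit 13) (nat_lit 5) (nat_lit 15) (nat_lit 4) (nat_lit 13) (nat_lit 4) (nat_lit 424) (nat_lit 329) (nat_lit 267))))) (XT.nd (nat_lit 234) (nat_lit 152) (nat_lit 0) (XT.nd (nat_lit 78) (nat_lit 0) (nat_lit 0) (XT.lf (nat_lit 0) (nat_lit 9301392978) (nat_lit 76) (nat_lit 29717572127) (nat_lit 76) (nat_lit 19331402320) (nat_lit 12) (nat_lit 4) (nat_lit 13) (nat_lit 5) (nat_lit 13) (nat_lit 4) (nat_lit 425) (nat_lit 329) (nat_lit 266)) (XT.nd (nat_lit 78) (nat_lit 0) (nat_lit 0) (XT.lf (nat_lit 0) (nat_lit 26607334922) (nat_lit 76) (nat_lit 22322527831) (nat_lit 76) (nat_lit 11912376659) (nat_lit 12) (nat_lit 4) (nat_lit 13) (nat_lit 5) (nat_lit 13) (nat_lit 4) (nat_lit 426) (nat_lit 329) (nat_lit 265)) (XT.lf (nat_lit 0) (nat_lit 44712162651) (nat_lit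 76) (nat_lit 14590605717) (nat_lit 76) (nat_lit 4157615149) (nat_lit 12) (nat_lit 4) (nat_lit 13) (nat_lit 5) (nat_lit 13) (nat_lit 4) (nat_lit 427) (nat_lit 329) (nat_lit 264)))) (XT.nd (nat_lit 156) (nat_lit 0) (nat_lit 0) (XT.nd (nat_lit 78) (nat_lit 76) (nat_lit 0) (XT.lf (nat_lit 0) (nat_lit 3824878180) (nat_lit 152) (nat_lit 2613742104) (nat_lit 76) (nat_lit 59769328555) (nat_lit 11) (nat_lit 5) (nat_lit 13) (nat_lit 5) (nat_lit 12) (nat_lit 4) (nat_lit 428) (nat_lit 329) (nat_lit 263)) (XT.lf (nat_lit 0) (nat_lit 12302366540) (nat_lit 152) (nat_lit 54449600262) (nat_lit 0) (nat_lit 2325739513) (nat_lit 10) (nat_lit 5) (nat_lit 12) (nat_lit 4) (nat_lit 10) (nat_lit 4) (nat_lit 429) (nat_lit 329) (nat_lit 262))) (XT.nd (nat_lit 78) (nat_lit 0) (nat_lit 0) (XT.lf (nat_lit 0) (nat_lit 21323416728) (nat_lit 152) (nat_lit 39433552273) (nat_lit 0) (nat_lit 11327999672) (nat_lit 10) (nat_lit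 5) (nat_lit 12) (nat_lit 4) (nat_lit 10) (nat_lit 4) (nat_lit 430) (nat_lit 329) (nat_lit 261)) (XT.lf (nat_lit 0) (nat_lit 30766134294) (nat_lit 152) (nat_lit 23725108448) (nat_lit 0) (nat_lit 20752821975) (nat_lit 10) (nat_lit 5) (nat_lit 12) (nat_lit 4) (nat_lit 10) (nat_lit 4) (nat_lit 431) (nat_lit 329) (nat_lit 260)))))) (XT.nd (nat_lit 546) (nat_lit 76) (nat_lit 0) (XT.nd (nat_lit 234) (nat_lit 152) (nat_lit 0) (XT.nd (nat_lit 78) (nat_lit 76) (nat_lit 0) (XT.lf (nat_lit 0) (nat_lit 40653001902) (nat_lit 152) (nat_lit 7286867729) (nat_lit 0) (nat_lit 30622646473) (nat_lit 10) (nat_lit 5) (nat_lit 12) (nat_lit 4) (nat_lit 10) (nat_lit 4) (nat_lit 432) (nat_lit 329) (nat_lit 259)) (XT.nd (nat_lit 78) (nat_lit 0) (nat_lit 0) (XT.lf (nat_lit 0) (nat_lit 10248318752) (nat_lit 76) (nat_lit 40919245934) (nat_lit 76) (nat_lit 30872658974) (nat_lit 9) (nat_lit 4) (nat_lit 10) (nat_lit 5) (nat_lit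 10) (nat_lit 4) (nat_lit 433) (nat_lit 329) (nat_lit 258)) (XT.lf (nat_lit 0) (nat_lit 28861126136) (nat_lit 76) (nat_lit 33443938354) (nat_lit 76) (nat_lit 23381892792) (nat_lit 9) (nat_lit 4) (nat_lit 10) (nat_lit 5) (nat_lit 10) (nat_lit 4) (nat_lit 434) (nat_lit 329) (nat_lit 257)))) (XT.nd (nat_lit 156) (nat_lit 152) (nat_lit 0) (XT.nd (nat_lit 78) (nat_lit 0) (nat_lit 0) (XT.lf (nat_lit 0) (nat_lit 48354933876) (nat_lit 76) (nat_lit 25619555171) (nat_lit 76) (nat_lit 15542787130) (nat_lit 9) (nat_lit 4) (nat_lit 10) (nat_lit 5) (nat_lit 10) (nat_lit 4) (nat_lit 435) (nat_lit 329) (nat_lit 256)) (XT.lf (nat_lit 0) (nat_lit 68776155797) (nat_lit 76) (nat_lit 17427466901) (nat_lit 76) (nat_lit 7336677452) (nat_lit 9) (nat_lit 4) (nat_lit 10) (nat_lit 5) (nat_lit 10) (nat_lit 4) (nat_lit 436) (nat_lit 329) (nat_lit 255))) (XT.nd (nat_lit 78) (nat_lit 76) (nat_lit 0) (XT.lf (nat_lit 0) (nat_lit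 1215775567) (nat_lit 152) (nat_lit 7611803257) (nat_lit 76) (nat_lit 88937048544) (nat_lit 8) (nat_lit 5) (nat_lit 10) (nat_lit 5) (nat_lit 9) (nat_lit 4) (nat_lit 437) (nat_lit 329) (nat_lit 254)) (XT.lf (nat_lit 0) (nat_lit 10099950029) (nat_lit 152) (nat_lit 91621830858) (nat_lit 0) (nat_lit 464844314) (nat_lit 7) (nat_lit 5) (nat_lit 9) (nat_lit 4) (nat_lit 7) (nat_lit 4) (nat_lit 438) (nat_lit 329) (nat_lit 253))))) (XT.nd (nat_lit 234) (nat_lit 76) (nat_lit 0) (XT.nd (nat_lit 78) (nat_lit 0) (nat_lit 0) (XT.lf (nat_lit 0) (nat_lit 19682203015) (nat_lit 152) (nat_lit 77099265410) (nat_lit 0) (nat_lit 10035561854) (nat_lit 7) (nat_lit 5) (nat_lit 9) (nat_lit 4) (nat_lit 7) (nat_lit 4) (nat_lit 439) (nat_lit 329) (nat_lit 252)) (XT.nd (nat_lit 78) (nat_lit 0) (nat_lit 0) (XT.lf (nat_lit 0) (nat_lit 29722742511) (nat_lit 152) (nat_lit 61892140004) (nat_lit 0) (nat_lit 20065115210) (nat_lit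 7) (nat_lit 5) (nat_lit 9) (nat_lit 4) (nat_lit 7) (nat_lit 4) (nat_lit 440) (nat_lit 329) (nat_lit 251)) (XT.lf (nat_lit 0) (nat_lit 40245474561) (nat_lit 152) (nat_lit 45964247200) (nat_lit 0) (nat_lit 30577384270) (nat_lit 7) (nat_lit 5) (nat_lit 9) (nat_lit 4) (nat_lit 7) (nat_lit 4) (nat_lit 441) (nat_lit 329) (nat_lit 250)))) (XT.nd (nat_lit 156) (nat_lit 76) (nat_lit 0) (XT.nd (nat_lit 78) (nat_lit 0) (nat_lit 0) (XT.lf (nat_lit 0) (nat_lit 51275453291) (nat_lit 152) (nat_lit 29277663441) (nat_lit 0) (nat_lit 41597398246) (nat_lit 7) (nat_lit 5) (nat_lit 9) (nat_lit 4) (nat_lit 7) (nat_lit 4) (nat_lit 442) (nat_lit 329) (nat_lit 249)) (XT.lf (nat_lit 0) (nat_lit 62838940553) (nat_lit 152) (nat_lit 11792658768) (nat_lit 0) (nat_lit 53151395268) (nat_lit 7) (nat_lit 5) (nat_lit 9) (nat_lit 4) (nat_lit 7) (nat_lit 4) (nat_lit 443) (nat_lit 329) (nat_lit 248))) (XT.nd (nat_lit 78) (nat_lit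 0) (nat_lit 0) (XT.lf (nat_lit 0) (nat_lit 6748388355) (nat_lit 76) (nat_lit 68320441360) (nat_lit 76) (nat_lit 58623857750) (nat_lit 6) (nat_lit 4) (nat_lit 7) (nat_lit 5) (nat_lit 7) (nat_lit 4) (nat_lit 444) (nat_lit 329) (nat_lit 247)) (XT.lf (nat_lit 0) (nat_lit 26592255550) (nat_lit 76) (nat_lit 61500829021) (nat_lit 76) (nat_lit 51795637483) (nat_lit 6) (nat_lit 4) (nat_lit 7) (nat_lit 5) (nat_lit 7) (nat_lit 4) (nat_lit 445) (nat_lit 329) (nat_lit 246))))))) (XT.nd (nat_lit 1092) (nat_lit 76) (nat_lit 0) (XT.nd (nat_lit 546) (nat_lit 0) (nat_lit 0) (XT.nd (nat_lit 234) (nat_lit 152) (nat_lit 0) (XT.nd (nat_lit 78) (nat_lit 0) (nat_lit 0) (XT.lf (nat_lit 0) (nat_lit 47396271562) (nat_lit 76) (nat_lit 54356239515) (nat_lit 76) (nat_lit 44642849951) (nat_lit 6) (nat_lit 4) (nat_lit 7) (nat_lit 5) (nat_lit 7) (nat_lit 4) (nat_lit 446) (nat_lit 329) (nat_lit 245)) (XT.nd (nat_lit 78) (nat_lit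 0) (nat_lit 0) (XT.lf (nat_lit 0) (nat_lit 69209969765) (nat_lit 76) (nat_lit 46869661915) (nat_lit 76) (nat_lit 37148464706) (nat_lit 6) (nat_lit 4) (nat_lit 7) (nat_lit 5) (nat_lit 7) (nat_lit 4) (nat_lit 447) (nat_lit 329) (nat_lit 244)) (XT.lf (nat_lit 0) (nat_lit 92085287533) (nat_lit 76) (nat_lit 39023271035) (nat_lit 76) (nat_lit 29294637974) (nat_lit 6) (nat_lit 4) (nat_lit 7) (nat_lit 5) (nat_lit 7) (nat_lit 4) (nat_lit 448) (nat_lit 329) (nat_lit 243)))) (XT.nd (nat_lit 156) (nat_lit 152) (nat_lit 0) (XT.nd (nat_lit 78) (nat_lit 0) (nat_lit 0) (XT.lf (nat_lit 0) (nat_lit 116076689909) (nat_lit 76) (nat_lit 30798384993) (nat_lit 76) (nat_lit 21062670168) (nat_lit 6) (nat_lit 4) (nat_lit 7) (nat_lit 5) (nat_lit 7) (nat_lit 4) (nat_lit 449) (nat_lit 329) (nat_lit 242)) (XT.lf (nat_lit 0) (nat_lit 141241299281) (nat_lit 76) (nat_lit 22175420726) (nat_lit 76) (nat_lit 12432961365) (nat_lit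 6) (nat_lit 4) (nat_lit 7) (nat_lit 5) (nat_lit 7) (nat_lit 4) (nat_lit 450) (nat_lit 329) (nat_lit 241))) (XT.nd (nat_lit 78) (nat_lit 152) (nat_lit 0) (XT.lf (nat_lit 0) (nat_lit 167639031384) (nat_lit 76) (nat_lit 13133847368) (nat_lit 76) (nat_lit 3384964638) (nat_lit 6) (nat_lit 4) (nat_lit 7) (nat_lit 5) (nat_lit 7) (nat_lit 4) (nat_lit 451) (nat_lit 329) (nat_lit 240)) (XT.lf (nat_lit 0) (nat_lit 2433324279) (nat_lit 76) (nat_lit 3512199868) (nat_lit 152) (nat_lit 186929824626) (nat_lit 4) (nat_lit 5) (nat_lit 5) (nat_lit 5) (nat_lit 6) (nat_lit 4) (nat_lit 452) (nat_lit 329) (nat_lit 239))))) (XT.nd (nat_lit 234) (nat_lit 0) (nat_lit 0) (XT.nd (nat_lit 78) (nat_lit 0) (nat_lit 0) (XT.lf (nat_lit 0) (nat_lit 16003869553) (nat_lit 152) (nat_lit 179295486855) (nat_lit 0) (nat_lit 6707844402) (nat_lit 4) (nat_lit 5) (nat_lit 6) (nat_lit 4) (nat_lit 4) (nat_lit 4) (nat_lit 453) (nat_lit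 329) (nat_lit 238)) (XT.nd (nat_lit 78) (nat_lit 0) (nat_lit 0) (XT.lf (nat_lit 0) (nat_lit 26611140074) (nat_lit 152) (nat_lit 167672374968) (nat_lit 0) (nat_lit 17309830403) (nat_lit 4) (nat_lit 5) (nat_lit 6) (nat_lit 4) (nat_lit 4) (nat_lit 4) (nat_lit 454) (nat_lit 329) (nat_lit 237)) (XT.lf (nat_lit 0) (nat_lit 37737755835) (nat_lit 152) (nat_lit 155490179474) (nat_lit 0) (nat_lit 28431413286) (nat_lit 4) (nat_lit 5) (nat_lit 6) (nat_lit 4) (nat_lit 4) (nat_lit 4) (nat_lit 455) (nat_lit 329) (nat_lit 236)))) (XT.nd (nat_lit 156) (nat_lit 0) (nat_lit 0) (XT.nd (nat_lit 78) (nat_lit 0) (nat_lit 0) (XT.lf (nat_lit 0) (nat_lit 49410208776) (nat_lit 152) (nat_lit 142719895146) (nat_lit 0) (nat_lit 40099073011) (nat_lit 4) (nat_lit 5) (nat_lit 6) (nat_lit 4) (nat_lit 4) (nat_lit 4) (nat_lit 456) (nat_lit 329) (nat_lit 235)) (XT.lf (nat_lit 0) (nat_lit 61656290454) (nat_lit 152) (nat_lit 129331116545)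 (nat_lit 0) (nat_lit 52340589720) (nat_lit 4) (nat_lit 5) (nat_lit 6) (nat_lit 4) (nat_lit 4) (nat_lit 4) (nat_lit 457) (nat_lit 329) (nat_lit 234))) (XT.nd (nat_lit 78) (nat_lit 0) (nat_lit 0) (XT.lf (nat_lit 0) (nat_lit 74505158204) (nat_lit 152) (nat_lit 115291965627) (nat_lit 0) (nat_lit 65185109882) (nat_lit 4) (nat_lit 5) (nat_lit 6) (nat_lit 4) (nat_lit 4) (nat_lit 4) (nat_lit 458) (nat_lit 329) (nat_lit 233)) (XT.lf (nat_lit 0) (nat_lit 87987404570) (nat_lit 152) (nat_lit 100569015842) (nat_lit 0) (nat_lit 78663215688) (nat_lit 4) (nat_lit 5) (nat_lit 6) (nat_lit 4) (nat_lit 4) (nat_lit 4) (nat_lit 459) (nat_lit 329) (nat_lit 232)))))) (XT.nd (nat_lit 546) (nat_lit 0) (nat_lit 0) (XT.nd (nat_lit 234) (nat_lit 76) (nat_lit 0) (XT.nd (nat_lit 78) (nat_lit 0) (nat_lit 0) (XT.lf (nat_lit 0) (nat_lit 102135130139) (nat_lit 152) (nat_lit 85127212547) (nat_lit 0) (nat_lit 92806997865) (nat_lit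 4) (nat_lit 5) (nat_lit 6) (nat_lit 4) (nat_lit 4) (nat_lit 4) (nat_lit 460) (nat_lit 329) (nat_lit 231)) (XT.nd (nat_lit 78) (nat_lit 0) (nat_lit 0) (XT.lf (nat_lit 0) (nat_lit 116982019970) (nat_lit 152) (nat_lit 68929789544) (nat_lit 0) (nat_lit 107650132085) (nat_lit 4) (nat_lit 5) (nat_lit 6) (nat_lit 4) (nat_lit 4) (nat_lit 4) (nat_lit 461) (nat_lit 329) (nat_lit 230)) (XT.lf (nat_lit 0) (nat_lit 132563423801) (nat_lit 152) (nat_lit 51938181541) (nat_lit 0) (nat_lit 123227959145) (nat_lit 4) (nat_lit 5) (nat_lit 6) (nat_lit 4) (nat_lit 4) (nat_lit 4) (nat_lit 462) (nat_lit 329) (nat_lit 229)))) (XT.nd (nat_lit 156) (nat_lit 76) (nat_lit 0) (XT.nd (nat_lit 78) (nat_lit 0) (nat_lit 0) (XT.lf (nat_lit 0) (nat_lit 148916440214) (nat_lit 152) (nat_lit 34111932327) (nat_lit 0) (nat_lit 139577569108) (nat_lit 4) (nat_lit 5) (nat_lit 6) (nat_lit 4) (nat_lit 4) (nat_lit 4) (nat_lit 463) (nat_lit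 329) (nat_lit 228)) (XT.lf (nat_lit 0) (nat_lit 166080004961) (nat_lit 152) (nat_lit 15408598453) (nat_lit 0) (nat_lit 156737889618) (nat_lit 4) (nat_lit 5) (nat_lit 6) (nat_lit 4) (nat_lit 4) (nat_lit 4) (nat_lit 464) (nat_lit 329) (nat_lit 227))) (XT.nd (nat_lit 78) (nat_lit 0) (nat_lit 0) (XT.lf (nat_lit 0) (nat_lit 4355763462) (nat_lit 76) (nat_lit 179807225886) (nat_lit 76) (nat_lit 170462020793) (nat_lit 3) (nat_lit 4) (nat_lit 4) (nat_lit 5) (nat_lit 4) (nat_lit 4) (nat_lit 465) (nat_lit 329) (nat_lit 226)) (XT.lf (nat_lit 0) (nat_lit 25629963485) (nat_lit 76) (nat_lit 177774461229) (nat_lit 76) (nat_lit 168426313517) (nat_lit 3) (nat_lit 4) (nat_lit 4) (nat_lit 5) (nat_lit 4) (nat_lit 4) (nat_lit 466) (nat_lit 329) (nat_lit 225))))) (XT.nd (nat_lit 234) (nat_lit 0) (nat_lit 0) (XT.nd (nat_lit 78) (nat_lit 0) (nat_lit 0) (XT.lf (nat_lit 0) (nat_lit 47955176621) (nat_lit 76) (nat_lit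 175646421600) (nat_lit 76) (nat_lit 166295471393) (nat_lit 3) (nat_lit 4) (nat_lit 4) (nat_lit 5) (nat_lit 4) (nat_lit 4) (nat_lit 467) (nat_lit 329) (nat_lit 224)) (XT.nd (nat_lit 78) (nat_lit 0) (nat_lit 0) (XT.lf (nat_lit 0) (nat_lit 71384558139) (nat_lit 76) (nat_lit 173418040236) (nat_lit 76) (nat_lit 164064420987) (nat_lit 3) (nat_lit 4) (nat_lit 4) (nat_lit 5) (nat_lit 4) (nat_lit 4) (nat_lit 468) (nat_lit 329) (nat_lit 223)) (XT.lf (nat_lit 0) (nat_lit 95973892282) (nat_lit 76) (nat_lit 171084011468) (nat_lit 76) (nat_lit 161727850274) (nat_lit 3) (nat_lit 4) (nat_lit 4) (nat_lit 5) (nat_lit 4) (nat_lit 4) (nat_lit 469) (nat_lit 329) (nat_lit 222)))) (XT.nd (nat_lit 156) (nat_lit 0) (nat_lit 0) (XT.nd (nat_lit 78) (nat_lit 0) (nat_lit 0) (XT.lf (nat_lit 0) (nat_lit 121781725082) (nat_lit 76) (nat_lit 168638778085) (nat_lit 76) (nat_lit 159280195991) (nat_lit 3) (nat_lit 4) (nat_lit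 4) (nat_lit 5) (nat_lit 4) (nat_lit 4) (nat_lit 470) (nat_lit 329) (nat_lit 221)) (XT.lf (nat_lit 0) (nat_lit 148869503760) (nat_lit 76) (nat_lit 166076518102) (nat_lit 76) (nat_lit 156715630389) (nat_lit 3) (nat_lit 4) (nat_lit 4) (nat_lit 5) (nat_lit 4) (nat_lit 4) (nat_lit 471) (nat_lit 329) (nat_lit 220))) (XT.nd (nat_lit 78) (nat_lit 0) (nat_lit 0) (XT.lf (nat_lit 0) (nat_lit 177301723028) (nat_lit 76) (nat_lit 163391130901) (nat_lit 76) (nat_lit 154028047360) (nat_lit 3) (nat_lit 4) (nat_lit 4) (nat_lit 5) (nat_lit 4) (nat_lit 4) (nat_lit 472) (nat_lit 329) (nat_lit 219)) (XT.lf (nat_lit 0) (nat_lit 207146078646) (nat_lit 76) (nat_lit 160576222702) (nat_lit 76) (nat_lit 151211047897) (nat_lit 3) (nat_lit 4) (nat_lit 4) (nat_lit 5) (nat_lit 4) (nat_lit 4) (nat_lit 473) (nat_lit 329) (nat_lit 218))))))))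
noncomputable def xc72 : XT := (XT.nd (nat_lit 45474) (nat_lit 0) (nat_lit 1748) (XT.nd (nat_lit 44382) (nat_lit 0) (nat_lit 4408) (XT.nd (nat_lit 468) (nat_lit 0) (nat_lit 0) (XT.nd (nat_lit 234) (nat_lit 0) (nat_lit 0) (XT.nd (nat_lit 78) (nat_lit 0) (nat_lit 0) (XT.lf (nat_lit 0) (nat_lit 238473628604) (nat_lit 76) (nat_lit 157625091342) (nat_lit 76) (nat_lit 148257924857) (nat_lit 3) (nat_lit 4) (nat_lit 4) (nat_lit 5) (nat_lit 4) (nat_lit 4) (nat_lit 474) (nat_lit 329) (nat_lit 217)) (XT.nd (nat_lit 78) (nat_lit 0) (nat_lit 0) (XT.lf (nat_lit 0) (nat_lit 271358962306) (nat_lit 76) (nat_lit 154530710320) (nat_lit 76) (nat_lit 145161646996) (nat_lit 3) (nat_lit 4) (nat_lit 4) (nat_lit 5) (nat_lit 4) (nat_lit 4) (nat_lit 475) (nat_lit 329) (nat_lit 216)) (XT.lf (nat_lit 0) (nat_lit 305880378165) (nat_lit 76) (nat_lit 151285712060) (nat_lit 76) (nat_lit 141914842223) (nat_lit 3) (nat_lit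 4) (nat_lit 4) (nat_lit 5) (nat_lit 4) (nat_lit 4) (nat_lit 476) (nat_lit 329) (nat_lit 215)))) (XT.nd (nat_lit 78) (nat_lit 0) (nat_lit 0) (XT.lf (nat_lit 0) (nat_lit 342120070030) (nat_lit 76) (nat_lit 147882370377) (nat_lit 76) (nat_lit 138509780052) (nat_lit 3) (nat_lit 4) (nat_lit 4) (nat_lit 5) (nat_lit 4) (nat_lit 4) (nat_lit 477) (nat_lit 329) (nat_lit 214)) (XT.nd (nat_lit 78) (nat_lit 0) (nat_lit 0) (XT.lf (nat_lit 0) (nat_lit 380164322880) (nat_lit 76) (nat_lit 144312582076) (nat_lit 76) (nat_lit 134938353190) (nat_lit 3) (nat_lit 4) (nat_lit 4) (nat_lit 5) (nat_lit 4) (nat_lit 4) (nat_lit 478) (nat_lit 329) (nat_lit 213)) (XT.lf (nat_lit 0) (nat_lit 420103718270) (nat_lit 76) (nat_lit 140567847661) (nat_lit 76) (nat_lit 131192058241) (nat_lit 3) (nat_lit 4) (nat_lit 4) (nat_lit 5) (nat_lit 4) (nat_lit 4) (nat_lit 479) (nat_lit 329) (nat_lit 212))))) (XT.nd (nat_lit 234) (nat_lit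 0) (nat_lit 0) (XT.nd (nat_lit 78) (nat_lit 0) (nat_lit 0) (XT.lf (nat_lit 0) (nat_lit 462033349998) (nat_lit 76) (nat_lit 136639251097) (nat_lit 76) (nat_lit 127261975455) (nat_lit 3) (nat_lit 4) (nat_lit 4) (nat_lit 5) (nat_lit 4) (nat_lit 4) (nat_lit 480) (nat_lit 329) (nat_lit 211)) (XT.nd (nat_lit 78) (nat_lit 0) (nat_lit 0) (XT.lf (nat_lit 0) (nat_lit 506053050522) (nat_lit 76) (nat_lit 132517438584) (nat_lit 76) (nat_lit 123138747492) (nat_lit 3) (nat_lit 4) (nat_lit 4) (nat_lit 5) (nat_lit 4) (nat_lit 4) (nat_lit 481) (nat_lit 329) (nat_lit 210)) (XT.lf (nat_lit 0) (nat_lit 552267628651) (nat_lit 76) (nat_lit 128192596282) (nat_lit 76) (nat_lit 118812557142) (nat_lit 3) (nat_lit 4) (nat_lit 4) (nat_lit 5) (nat_lit 4) (nat_lit 4) (nat_lit 482) (nat_lit 329) (nat_lit 209)))) (XT.nd (nat_lit 43524) (nat_lit 0) (nat_lit 7448) (XT.nd (nat_lit 78) (nat_lit 0) (nat_lit 0) (XT.lf (nat_lit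 0) (nat_lit 600787119096) (nat_lit 76) (nat_lit 123654426947) (nat_lit 76) (nat_lit 114273103953) (nat_lit 3) (nat_lit 4) (nat_lit 4) (nat_lit 5) (nat_lit 4) (nat_lit 4) (nat_lit 483) (nat_lit 329) (nat_lit 208)) (XT.lf (nat_lit 0) (nat_lit 651727044453) (nat_lit 76) (nat_lit 118892125415) (nat_lit 76) (nat_lit 109509579701) (nat_lit 3) (nat_lit 4) (nat_lit 4) (nat_lit 5) (nat_lit 4) (nat_lit 4) (nat_lit 484) (nat_lit 329) (nat_lit 207))) (XT.nd (nat_lit 78) (nat_lit 380) (nat_lit 0) (XT.lf (nat_lit 0) (nat_lit 1897587069) (nat_lit 456) (nat_lit 19532369) (nat_lit 0) (nat_lit 1897587069) (nat_lit 106) (nat_lit 5) (nat_lit 112) (nat_lit 4) (nat_lit 106) (nat_lit 4) (nat_lit 360) (nat_lit 330) (nat_lit 330)) (XT.lf (nat_lit 0) (nat_lit 6062495612) (nat_lit 380) (nat_lit 1534205859) (nat_lit 380) (nat_lit 158309465) (nat_lit 101) (nat_lit 4) (nat_lit 106) (nat_lit 5) (nat_lit 106) (nat_lit 4)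 (nat_lit 361) (nat_lit 330) (nat_lit 329)))))) (XT.nd (nat_lit 546) (nat_lit 1140) (nat_lit 0) (XT.nd (nat_lit 234) (nat_lit 912) (nat_lit 0) (XT.nd (nat_lit 78) (nat_lit 608) (nat_lit 0) (XT.lf (nat_lit 0) (nat_lit 3506773829) (nat_lit 380) (nat_lit 3432707896) (nat_lit 0) (nat_lit 948417723) (nat_lit 96) (nat_lit 5) (nat_lit 101) (nat_lit 4) (nat_lit 96) (nat_lit 4) (nat_lit 362) (nat_lit 330) (nat_lit 328)) (XT.nd (nat_lit 78) (nat_lit 304) (nat_lit 0) (XT.lf (nat_lit 0) (nat_lit 2802661435) (nat_lit 304) (nat_lit 4487313131) (nat_lit 304) (nat_lit 740405989) (nat_lit 92) (nat_lit 4) (nat_lit 96) (nat_lit 5) (nat_lit 96) (nat_lit 4) (nat_lit 363) (nat_lit 330) (nat_lit 327)) (XT.lf (nat_lit 0) (nat_lit 1073319473) (nat_lit 228) (nat_lit 1830182957) (nat_lit 304) (nat_lit 5278165729) (nat_lit 88) (nat_lit 5) (nat_lit 91) (nat_lit 5) (nat_lit 92) (nat_lit 4) (nat_lit 364) (nat_lit 330) (nat_lit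 326)))) (XT.nd (nat_lit 156) (nat_lit 532) (nat_lit 0) (XT.nd (nat_lit 78) (nat_lit 380) (nat_lit 0) (XT.lf (nat_lit 0) (nat_lit 6657193154) (nat_lit 304) (nat_lit 701227615) (nat_lit 0) (nat_lit 983944262) (nat_lit 88) (nat_lit 5) (nat_lit 92) (nat_lit 4) (nat_lit 88) (nat_lit 4) (nat_lit 365) (nat_lit 330) (nat_lit 325)) (XT.lf (nat_lit 0) (nat_lit 1998524853) (nat_lit 380) (nat_lit 2554096820) (nat_lit 76) (nat_lit 3958020495) (nat_lit 83) (nat_lit 5) (nat_lit 88) (nat_lit 5) (nat_lit 84) (nat_lit 4) (nat_lit 366) (nat_lit 330) (nat_lit 324))) (XT.nd (nat_lit 78) (nat_lit 304) (nat_lit 0) (XT.lf (nat_lit 0) (nat_lit 4191944576) (nat_lit 228) (nat_lit 1551605757) (nat_lit 304) (nat_lit 2945777706) (nat_lit 80) (nat_lit 5) (nat_lit 83) (nat_lit 5) (nat_lit 84) (nat_lit 4) (nat_lit 367) (nat_lit 330) (nat_lit 323)) (XT.lf (nat_lit 0) (nat_lit 737245921) (nat_lit 304) (nat_lit 6554596994)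 (nat_lit 76) (nat_lit 1586343800) (nat_lit 76) (nat_lit 5) (nat_lit 80) (nat_lit 5) (nat_lit 77) (nat_lit 4) (nat_lit 368) (nat_lit 330) (nat_lit 322))))) (XT.nd (nat_lit 234) (nat_lit 608) (nat_lit 0) (XT.nd (nat_lit 78) (nat_lit 304) (nat_lit 0) (XT.lf (nat_lit 0) (nat_lit 300103090) (nat_lit 228) (nat_lit 4173317567) (nat_lit 304) (nat_lit 4602309378) (nat_lit 73) (nat_lit 5) (nat_lit 76) (nat_lit 5) (nat_lit 77) (nat_lit 4) (nat_lit 369) (nat_lit 330) (nat_lit 321)) (XT.nd (nat_lit 78) (nat_lit 304) (nat_lit 0) (XT.lf (nat_lit 0) (nat_lit 7524786420) (nat_lit 228) (nat_lit 846602006) (nat_lit 304) (nat_lit 913066358) (nat_lit 73) (nat_lit 5) (nat_lit 76) (nat_lit 5) (nat_lit 77) (nat_lit 4) (nat_lit 370) (nat_lit 330) (nat_lit 320)) (XT.lf (nat_lit 0) (nat_lit 2863210661) (nat_lit 304) (nat_lit 4003015370) (nat_lit 76) (nat_lit 2635260511) (nat_lit 69) (nat_lit 5) (nat_lit 73) (nat_lit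 5) (nat_lit 70) (nat_lit 4) (nat_lit 371) (nat_lit 330) (nat_lit 319)))) (XT.nd (nat_lit 156) (nat_lit 152) (nat_lit 0) (XT.nd (nat_lit 78) (nat_lit 304) (nat_lit 0) (XT.lf (nat_lit 0) (nat_lit 3332551386) (nat_lit 152) (nat_lit 3431828273) (nat_lit 228) (nat_lit 2965949851) (nat_lit 67) (nat_lit 5) (nat_lit 69) (nat_lit 5) (nat_lit 70) (nat_lit 4) (nat_lit 372) (nat_lit 330) (nat_lit 318)) (XT.lf (nat_lit 0) (nat_lit 821254559) (nat_lit 304) (nat_lit 8949514732) (nat_lit 76) (nat_lit 201205104) (nat_lit 63) (nat_lit 5) (nat_lit 67) (nat_lit 5) (nat_lit 64) (nat_lit 4) (nat_lit 373) (nat_lit 330) (nat_lit 317))) (XT.nd (nat_lit 78) (nat_lit 152) (nat_lit 0) (XT.lf (nat_lit 0) (nat_lit 4738080832) (nat_lit 304) (nat_lit 1491734242) (nat_lit 76) (nat_lit 3991498398) (nat_lit 63) (nat_lit 5) (nat_lit 67) (nat_lit 5) (nat_lit 64) (nat_lit 4) (nat_lit 374) (nat_lit 330) (nat_lit 316)) (XT.lf (nat_lit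 0) (nat_lit 6351146759) (nat_lit 152) (nat_lit 2478334037) (nat_lit 228) (nat_lit 1654740092) (nat_lit 61) (nat_lit 5) (nat_lit 63) (nat_lit 5) (nat_lit 64) (nat_lit 4) (nat_lit 375) (nat_lit 330) (nat_lit 315))))))) (XT.nd (nat_lit 1014) (nat_lit 1064) (nat_lit 0) (XT.nd (nat_lit 468) (nat_lit 836) (nat_lit 0) (XT.nd (nat_lit 234) (nat_lit 380) (nat_lit 0) (XT.nd (nat_lit 78) (nat_lit 152) (nat_lit 0) (XT.lf (nat_lit 0) (nat_lit 2278095835) (nat_lit 228) (nat_lit 7013569970) (nat_lit 76) (nat_lit 1467365031) (nat_lit 58) (nat_lit 5) (nat_lit 61) (nat_lit 5) (nat_lit 59) (nat_lit 4) (nat_lit 376) (nat_lit 330) (nat_lit 314)) (XT.nd (nat_lit 78) (nat_lit 0) (nat_lit 0) (XT.lf (nat_lit 0) (nat_lit 883067000) (nat_lit 152) (nat_lit 5476485896) (nat_lit 228) (nat_lit 4686325398) (nat_lit 56) (nat_lit 5) (nat_lit 58) (nat_lit 5) (nat_lit 59) (nat_lit 4) (nat_lit 377) (nat_lit 330) (nat_lit 313))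 (XT.lf (nat_lit 0) (nat_lit 9227528142) (nat_lit 152) (nat_lit 1421006962) (nat_lit 228) (nat_lit 698391671) (nat_lit 56) (nat_lit 5) (nat_lit 58) (nat_lit 5) (nat_lit 59) (nat_lit 4) (nat_lit 378) (nat_lit 330) (nat_lit 312)))) (XT.nd (nat_lit 78) (nat_lit 152) (nat_lit 0) (XT.lf (nat_lit 0) (nat_lit 3409430000) (nat_lit 228) (nat_lit 5418849587) (nat_lit 76) (nat_lit 2830444895) (nat_lit 53) (nat_lit 5) (nat_lit 56) (nat_lit 5) (nat_lit 54) (nat_lit 4) (nat_lit 379) (nat_lit 330) (nat_lit 311)) (XT.nd (nat_lit 78) (nat_lit 0) (nat_lit 0) (XT.lf (nat_lit 0) (nat_lit 2979905611) (nat_lit 152) (nat_lit 4715238199) (nat_lit 228) (nat_lit 4290624240) (nat_lit 51) (nat_lit 5) (nat_lit 53) (nat_lit 5) (nat_lit 54) (nat_lit 4) (nat_lit 380) (nat_lit 330) (nat_lit 310)) (XT.lf (nat_lit 0) (nat_lit 11803224320) (nat_lit 152) (nat_lit 375748878) (nat_lit 228) (nat_lit 151024829) (nat_lit 51) (nat_lit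 5) (nat_lit 53) (nat_lit 5) (nat_lit 54) (nat_lit 4) (nat_lit 381) (nat_lit 330) (nat_lit 309))))) (XT.nd (nat_lit 234) (nat_lit 380) (nat_lit 0) (XT.nd (nat_lit 78) (nat_lit 228) (nat_lit 0) (XT.lf (nat_lit 0) (nat_lit 4155276028) (nat_lit 228) (nat_lit 4352782381) (nat_lit 76) (nat_lit 4175428935) (nat_lit 48) (nat_lit 5) (nat_lit 51) (nat_lit 5) (nat_lit 49) (nat_lit 4) (nat_lit 382) (nat_lit 330) (nat_lit 308)) (XT.nd (nat_lit 78) (nat_lit 152) (nat_lit 0) (XT.lf (nat_lit 0) (nat_lit 4552709498) (nat_lit 76) (nat_lit 4102002274) (nat_lit 152) (nat_lit 4400693021) (nat_lit 47) (nat_lit 5) (nat_lit 48) (nat_lit 5) (nat_lit 49) (nat_lit 4) (nat_lit 383) (nat_lit 330) (nat_lit 307)) (XT.lf (nat_lit 0) (nat_lit 436559466) (nat_lit 152) (nat_lit 12930069518) (nat_lit 152) (nat_lit 79934810) (nat_lit 45) (nat_lit 4) (nat_lit 47) (nat_lit 5) (nat_lit 47) (nat_lit 4) (nat_lit 384) (nat_lit 330)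 (nat_lit 306)))) (XT.nd (nat_lit 156) (nat_lit 228) (nat_lit 0) (XT.nd (nat_lit 78) (nat_lit 76) (nat_lit 0) (XT.lf (nat_lit 0) (nat_lit 4425842125) (nat_lit 228) (nat_lit 4052162258) (nat_lit 76) (nat_lit 5370234942) (nat_lit 44) (nat_lit 5) (nat_lit 47) (nat_lit 5) (nat_lit 45) (nat_lit 4) (nat_lit 385) (nat_lit 330) (nat_lit 305)) (XT.lf (nat_lit 0) (nat_lit 5351286496) (nat_lit 76) (nat_lit 3789364037) (nat_lit 152) (nat_lit 5129979412) (nat_lit 43) (nat_lit 5) (nat_lit 44) (nat_lit 5) (nat_lit 45) (nat_lit 4) (nat_lit 386) (nat_lit 330) (nat_lit 304))) (XT.nd (nat_lit 78) (nat_lit 76) (nat_lit 0) (XT.lf (nat_lit 0) (nat_lit 478277972) (nat_lit 152) (nat_lit 13611538039) (nat_lit 152) (nat_lit 624410661) (nat_lit 41) (nat_lit 4) (nat_lit 43) (nat_lit 5) (nat_lit 43) (nat_lit 4) (nat_lit 387) (nat_lit 330) (nat_lit 303)) (XT.lf (nat_lit 0) (nat_lit 4094717855) (nat_lit 228) (nat_lit 4819202168)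 (nat_lit 76) (nat_lit 6256907710) (nat_lit 40) (nat_lit 5) (nat_lit 43) (nat_lit 5) (nat_lit 41) (nat_lit 4) (nat_lit 388) (nat_lit 330) (nat_lit 302)))))) (XT.nd (nat_lit 546) (nat_lit 456) (nat_lit 0) (XT.nd (nat_lit 234) (nat_lit 304) (nat_lit 0) (XT.nd (nat_lit 78) (nat_lit 228) (nat_lit 0) (XT.lf (nat_lit 0) (nat_lit 5054707130) (nat_lit 76) (nat_lit 3961660508) (nat_lit 152) (nat_lit 6634016980) (nat_lit 39) (nat_lit 5) (nat_lit 40) (nat_lit 5) (nat_lit 41) (nat_lit 4) (nat_lit 389) (nat_lit 330) (nat_lit 301)) (XT.nd (nat_lit 78) (nat_lit 228) (nat_lit 0) (XT.lf (nat_lit 0) (nat_lit 14195689566) (nat_lit 152) (nat_lit 746792844) (nat_lit 0) (nat_lit 1210871777) (nat_lit 39) (nat_lit 5) (nat_lit 41) (nat_lit 4) (nat_lit 39) (nat_lit 4) (nat_lit 390) (nat_lit 330) (nat_lit 300)) (XT.lf (nat_lit 0) (nat_lit 2989843026) (nat_lit 228) (nat_lit 7041773052) (nat_lit 76) (nat_lit 6640972491)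 (nat_lit 36) (nat_lit 5) (nat_lit 39) (nat_lit 5) (nat_lit 37) (nat_lit 4) (nat_lit 391) (nat_lit 330) (nat_lit 299)))) (XT.nd (nat_lit 156) (nat_lit 228) (nat_lit 0) (XT.nd (nat_lit 78) (nat_lit 0) (nat_lit 0) (XT.lf (nat_lit 0) (nat_lit 3249463762) (nat_lit 76) (nat_lit 4846967939) (nat_lit 152) (nat_lit 9120885898) (nat_lit 35) (nat_lit 5) (nat_lit 36) (nat_lit 5) (nat_lit 37) (nat_lit 4) (nat_lit 392) (nat_lit 330) (nat_lit 298)) (XT.lf (nat_lit 0) (nat_lit 13503342149) (nat_lit 152) (nat_lit 3653741685) (nat_lit 0) (nat_lit 629961415) (nat_lit 35) (nat_lit 5) (nat_lit 37) (nat_lit 4) (nat_lit 35) (nat_lit 4) (nat_lit 393) (nat_lit 330) (nat_lit 297))) (XT.nd (nat_lit 78) (nat_lit 0) (nat_lit 0) (XT.lf (nat_lit 0) (nat_lit 881690385) (nat_lit 228) (nat_lit 11219047908) (nat_lit 76) (nat_lit 6278320435) (nat_lit 32) (nat_lit 5) (nat_lit 35) (nat_lit 5) (nat_lit 33) (nat_lit 4) (nat_lit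 394) (nat_lit 330) (nat_lit 296)) (XT.lf (nat_lit 0) (nat_lit 6143055094) (nat_lit 228) (nat_lit 579090698) (nat_lit 76) (nat_lit 12275942933) (nat_lit 32) (nat_lit 5) (nat_lit 35) (nat_lit 5) (nat_lit 33) (nat_lit 4) (nat_lit 395) (nat_lit 330) (nat_lit 295))))) (XT.nd (nat_lit 234) (nat_lit 228) (nat_lit 0) (XT.nd (nat_lit 78) (nat_lit 152) (nat_lit 0) (XT.lf (nat_lit 0) (nat_lit 10793983745) (nat_lit 76) (nat_lit 964666521) (nat_lit 152) (nat_lit 7884871539) (nat_lit 31) (nat_lit 5) (nat_lit 32) (nat_lit 5) (nat_lit 33) (nat_lit 4) (nat_lit 396) (nat_lit 330) (nat_lit 294)) (XT.nd (nat_lit 78) (nat_lit 76) (nat_lit 0) (XT.lf (nat_lit 0) (nat_lit 2283896143) (nat_lit 76) (nat_lit 15419150647) (nat_lit 76) (nat_lit 2615787902) (nat_lit 30) (nat_lit 4) (nat_lit 31) (nat_lit 5) (nat_lit 31) (nat_lit 4) (nat_lit 397) (nat_lit 330) (nat_lit 293)) (XT.lf (nat_lit 0) (nat_lit 2914802838) (nat_lit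 152) (nat_lit 6948000219) (nat_lit 76) (nat_lit 11158271253) (nat_lit 29) (nat_lit 5) (nat_lit 31) (nat_lit 5) (nat_lit 30) (nat_lit 4) (nat_lit 398) (nat_lit 330) (nat_lit 292)))) (XT.nd (nat_lit 156) (nat_lit 152) (nat_lit 0) (XT.nd (nat_lit 78) (nat_lit 0) (nat_lit 0) (XT.lf (nat_lit 0) (nat_lit 4661496603) (nat_lit 76) (nat_lit 3972216784) (nat_lit 152) (nat_lit 13122591515) (nat_lit 28) (nat_lit 5) (nat_lit 29) (nat_lit 5) (nat_lit 30) (nat_lit 4) (nat_lit 399) (nat_lit 330) (nat_lit 291)) (XT.lf (nat_lit 0) (nat_lit 14719991641) (nat_lit 152) (nat_lit 5604673302) (nat_lit 0) (nat_lit 2199568568) (nat_lit 28) (nat_lit 5) (nat_lit 30) (nat_lit 4) (nat_lit 28) (nat_lit 4) (nat_lit 400) (nat_lit 330) (nat_lit 290))) (XT.nd (nat_lit 78) (nat_lit 76) (nat_lit 0) (XT.lf (nat_lit 0) (nat_lit 6470057842) (nat_lit 76) (nat_lit 14737398959) (nat_lit 76) (nat_lit 2118265334) (nat_lit 27) (nat_lit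 4) (nat_lit 28) (nat_lit 5) (nat_lit 28) (nat_lit 4) (nat_lit 401) (nat_lit 330) (nat_lit 289)) (XT.lf (nat_lit 0) (nat_lit 3756085673) (nat_lit 152) (nat_lit 5013168044) (nat_lit 76) (nat_lit 15393662800) (nat_lit 26) (nat_lit 5) (nat_lit 28) (nat_lit 5) (nat_lit 27) (nat_lit 4) (nat_lit 402) (nat_lit 330) (nat_lit 288))))))))
noncomputable def xc73 : XT := (XT.nd (nat_lit 2106) (nat_lit 532) (nat_lit 0) (XT.nd (nat_lit 1014) (nat_lit 532) (nat_lit 0) (XT.nd (nat_lit 468) (nat_lit 304) (nat_lit 0) (XT.nd (nat_lit 234) (nat_lit 152) (nat_lit 0) (XT.nd (nat_lit 78) (nat_lit 76) (nat_lit 0) (XT.lf (nat_lit 0) (nat_lit 7501056396) (nat_lit 76) (nat_lit 2403203823) (nat_lit 152) (nat_lit 15133415684) (nat_lit 25) (nat_lit 5) (nat_lit 26) (nat_lit 5) (nat_lit 27) (nat_lit 4) (nat_lit 403) (nat_lit 330) (nat_lit 287)) (XT.nd (nat_lit 78) (nat_lit 76) (nat_lit 0) (XT.lf (nat_lit 0) (nat_lit 16447437281)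 (nat_lit 152) (nat_lit 5331160144) (nat_lit 0) (nat_lit 4173202098) (nat_lit 25) (nat_lit 5) (nat_lit 27) (nat_lit 4) (nat_lit 25) (nat_lit 4) (nat_lit 404) (nat_lit 330) (nat_lit 286)) (XT.lf (nat_lit 0) (nat_lit 7567342084) (nat_lit 76) (nat_lit 15845557048) (nat_lit 76) (nat_lit 3493979564) (nat_lit 24) (nat_lit 4) (nat_lit 25) (nat_lit 5) (nat_lit 25) (nat_lit 4) (nat_lit 405) (nat_lit 330) (nat_lit 285)))) (XT.nd (nat_lit 78) (nat_lit 76) (nat_lit 0) (XT.lf (nat_lit 0) (nat_lit 2756229209) (nat_lit 152) (nat_lit 6774966939) (nat_lit 76) (nat_lit 18374848515) (nat_lit 23) (nat_lit 5) (nat_lit 25) (nat_lit 5) (nat_lit 24) (nat_lit 4) (nat_lit 406) (nat_lit 330) (nat_lit 284)) (XT.nd (nat_lit 78) (nat_lit 0) (nat_lit 0) (XT.lf (nat_lit 0) (nat_lit 6452635083) (nat_lit 76) (nat_lit 2790303281) (nat_lit 152) (nat_lit 19707301013) (nat_lit 22) (nat_lit 5) (nat_lit 23) (nat_lit 5) (nat_lit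 24) (nat_lit 4) (nat_lit 407) (nat_lit 330) (nat_lit 283)) (XT.lf (nat_lit 0) (nat_lit 16178429282) (nat_lit 152) (nat_lit 9647567376) (nat_lit 0) (nat_lit 4214429518) (nat_lit 22) (nat_lit 5) (nat_lit 24) (nat_lit 4) (nat_lit 22) (nat_lit 4) (nat_lit 408) (nat_lit 330) (nat_lit 282))))) (XT.nd (nat_lit 234) (nat_lit 152) (nat_lit 0) (XT.nd (nat_lit 78) (nat_lit 76) (nat_lit 0) (XT.lf (nat_lit 0) (nat_lit 3812031576) (nat_lit 76) (nat_lit 19697623326) (nat_lit 76) (nat_lit 7673023846) (nat_lit 21) (nat_lit 4) (nat_lit 22) (nat_lit 5) (nat_lit 22) (nat_lit 4) (nat_lit 409) (nat_lit 330) (nat_lit 281)) (XT.nd (nat_lit 78) (nat_lit 76) (nat_lit 0) (XT.lf (nat_lit 0) (nat_lit 18172107668) (nat_lit 76) (nat_lit 13143424738) (nat_lit 76) (nat_lit 1061111243) (nat_lit 21) (nat_lit 4) (nat_lit 22) (nat_lit 5) (nat_lit 22) (nat_lit 4) (nat_lit 410) (nat_lit 330) (nat_lit 280)) (XT.lf (nat_lit 0) (nat_lit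 5639625841) (nat_lit 152) (nat_lit 576046249) (nat_lit 76) (nat_lit 27412723772) (nat_lit 20) (nat_lit 5) (nat_lit 22) (nat_lit 5) (nat_lit 21) (nat_lit 4) (nat_lit 411) (nat_lit 330) (nat_lit 279)))) (XT.nd (nat_lit 156) (nat_lit 76) (nat_lit 0) (XT.nd (nat_lit 78) (nat_lit 0) (nat_lit 0) (XT.lf (nat_lit 0) (nat_lit 12828052537) (nat_lit 152) (nat_lit 20885517933) (nat_lit 0) (nat_lit 1218883453) (nat_lit 19) (nat_lit 5) (nat_lit 21) (nat_lit 4) (nat_lit 19) (nat_lit 4) (nat_lit 412) (nat_lit 330) (nat_lit 278)) (XT.lf (nat_lit 0) (nat_lit 20436895260) (nat_lit 152) (nat_lit 7081528662) (nat_lit 0) (nat_lit 8780244712) (nat_lit 19) (nat_lit 5) (nat_lit 21) (nat_lit 4) (nat_lit 19) (nat_lit 4) (nat_lit 413) (nat_lit 330) (nat_lit 277))) (XT.nd (nat_lit 78) (nat_lit 0) (nat_lit 0) (XT.lf (nat_lit 0) (nat_lit 7560046161) (nat_lit 76) (nat_lit 20935770205) (nat_lit 76) (nat_lit 9233899216) (nat_lit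 18) (nat_lit 4) (nat_lit 19) (nat_lit 5) (nat_lit 19) (nat_lit 4) (nat_lit 414) (nat_lit 330) (nat_lit 276)) (XT.lf (nat_lit 0) (nat_lit 23086497335) (nat_lit 76) (nat_lit 13943569797) (nat_lit 76) (nat_lit 2198631721) (nat_lit 18) (nat_lit 4) (nat_lit 19) (nat_lit 5) (nat_lit 19) (nat_lit 4) (nat_lit 415) (nat_lit 330) (nat_lit 275)))))) (XT.nd (nat_lit 546) (nat_lit 152) (nat_lit 0) (XT.nd (nat_lit 234) (nat_lit 228) (nat_lit 0) (XT.nd (nat_lit 78) (nat_lit 76) (nat_lit 0) (XT.lf (nat_lit 0) (nat_lit 4976311307) (nat_lit 152) (nat_lit 1584516168) (nat_lit 76) (nat_lit 34240057736) (nat_lit 17) (nat_lit 5) (nat_lit 19) (nat_lit 5) (nat_lit 18) (nat_lit 4) (nat_lit 416) (nat_lit 330) (nat_lit 274)) (XT.nd (nat_lit 78) (nat_lit 0) (nat_lit 0) (XT.lf (nat_lit 0) (nat_lit 12633417623) (nat_lit 152) (nat_lit 28435102380) (nat_lit 0) (nat_lit 1371496225) (nat_lit 16) (nat_lit 5) (nat_lit 18) (nat_lit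 4) (nat_lit 16) (nat_lit 4) (nat_lit 417) (nat_lit 330) (nat_lit 273)) (XT.lf (nat_lit 0) (nat_lit 20764495390) (nat_lit 152) (nat_lit 13924912601) (nat_lit 0) (nat_lit 9467142594) (nat_lit 16) (nat_lit 5) (nat_lit 18) (nat_lit 4) (nat_lit 16) (nat_lit 4) (nat_lit 418) (nat_lit 330) (nat_lit 272)))) (XT.nd (nat_lit 156) (nat_lit 152) (nat_lit 0) (XT.nd (nat_lit 78) (nat_lit 0) (nat_lit 0) (XT.lf (nat_lit 0) (nat_lit 1269531739) (nat_lit 76) (nat_lit 28010784949) (nat_lit 76) (nat_lit 16679687963) (nat_lit 15) (nat_lit 4) (nat_lit 16) (nat_lit 5) (nat_lit 16) (nat_lit 4) (nat_lit 419) (nat_lit 330) (nat_lit 271)) (XT.lf (nat_lit 0) (nat_lit 17626572722) (nat_lit 76) (nat_lit 20790274722) (nat_lit 76) (nat_lit 9427040413) (nat_lit 15) (nat_lit 4) (nat_lit 16) (nat_lit 5) (nat_lit 16) (nat_lit 4) (nat_lit 420) (nat_lit 330) (nat_lit 270))) (XT.nd (nat_lit 78) (nat_lit 152) (nat_lit 0) (XT.lf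 (nat_lit 0) (nat_lit 34724735185) (nat_lit 76) (nat_lit 13246510753) (nat_lit 76) (nat_lit 1852669468) (nat_lit 15) (nat_lit 4) (nat_lit 16) (nat_lit 5) (nat_lit 16) (nat_lit 4) (nat_lit 421) (nat_lit 330) (nat_lit 269)) (XT.lf (nat_lit 0) (nat_lit 625304678) (nat_lit 76) (nat_lit 5251912620) (nat_lit 152) (nat_lit 46022364395) (nat_lit 13) (nat_lit 5) (nat_lit 14) (nat_lit 5) (nat_lit 15) (nat_lit 4) (nat_lit 422) (nat_lit 330) (nat_lit 268))))) (XT.nd (nat_lit 234) (nat_lit 152) (nat_lit 0) (XT.nd (nat_lit 78) (nat_lit 0) (nat_lit 0) (XT.lf (nat_lit 0) (nat_lit 14202679527) (nat_lit 152) (nat_lit 36564066747) (nat_lit 0) (nat_lit 3297201229) (nat_lit 13) (nat_lit 5) (nat_lit 15) (nat_lit 4) (nat_lit 13) (nat_lit 4) (nat_lit 423) (nat_lit 330) (nat_lit 267)) (XT.nd (nat_lit 78) (nat_lit 0) (nat_lit 0) (XT.lf (nat_lit 0) (nat_lit 22994680491) (nat_lit 152) (nat_lit 21275317917) (nat_lit 0)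 (nat_lit 12064021760) (nat_lit 13) (nat_lit 5) (nat_lit 15) (nat_lit 4) (nat_lit 13) (nat_lit 4) (nat_lit 424) (nat_lit 330) (nat_lit 266)) (XT.lf (nat_lit 0) (nat_lit 32192156453) (nat_lit 152) (nat_lit 5289631666) (nat_lit 0) (nat_lit 21237516356) (nat_lit 13) (nat_lit 5) (nat_lit 15) (nat_lit 4) (nat_lit 13) (nat_lit 4) (nat_lit 425) (nat_lit 330) (nat_lit 265)))) (XT.nd (nat_lit 156) (nat_lit 76) (nat_lit 0) (XT.nd (nat_lit 78) (nat_lit 0) (nat_lit 0) (XT.lf (nat_lit 0) (nat_lit 11809015403) (nat_lit 76) (nat_lit 30192362587) (nat_lit 76) (nat_lit 19214883094) (nat_lit 12) (nat_lit 4) (nat_lit 13) (nat_lit 5) (nat_lit 13) (nat_lit 4) (nat_lit 426) (nat_lit 330) (nat_lit 264)) (XT.lf (nat_lit 0) (nat_lit 29882990026) (nat_lit 76) (nat_lit 22475713131) (nat_lit 76) (nat_lit 11476481833) (nat_lit 12) (nat_lit 4) (nat_lit 13) (nat_lit 5) (nat_lit 13) (nat_lit 4) (nat_lit 427) (nat_lit 330)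 (nat_lit 263))) (XT.nd (nat_lit 78) (nat_lit 76) (nat_lit 0) (XT.lf (nat_lit 0) (nat_lit 48800426362) (nat_lit 76) (nat_lit 14403049249) (nat_lit 76) (nat_lit 3383101945) (nat_lit 12) (nat_lit 4) (nat_lit 13) (nat_lit 5) (nat_lit 13) (nat_lit 4) (nat_lit 428) (nat_lit 330) (nat_lit 262)) (XT.lf (nat_lit 0) (nat_lit 4921789917) (nat_lit 152) (nat_lit 950007501) (nat_lit 76) (nat_lit 63601223117) (nat_lit 11) (nat_lit 5) (nat_lit 13) (nat_lit 5) (nat_lit 12) (nat_lit 4) (nat_lit 429) (nat_lit 330) (nat_lit 261))))))) (XT.nd (nat_lit 1014) (nat_lit 228) (nat_lit 0) (XT.nd (nat_lit 468) (nat_lit 152) (nat_lit 0) (XT.nd (nat_lit 234) (nat_lit 76) (nat_lit 0) (XT.nd (nat_lit 78) (nat_lit 0) (nat_lit 0) (XT.lf (nat_lit 0) (nat_lit 13821256787) (nat_lit 152) (nat_lit 55375722323) (nat_lit 0) (nat_lit 3289383588) (nat_lit 10) (nat_lit 5) (nat_lit 12) (nat_lit 4) (nat_lit 10) (nat_lit 4) (nat_lit 430)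 (nat_lit 330) (nat_lit 260)) (XT.nd (nat_lit 78) (nat_lit 0) (nat_lit 0) (XT.lf (nat_lit 0) (nat_lit 23250322726) (nat_lit 152) (nat_lit 39694412789) (nat_lit 0) (nat_lit 12701406417) (nat_lit 10) (nat_lit 5) (nat_lit 12) (nat_lit 4) (nat_lit 10) (nat_lit 4) (nat_lit 431) (nat_lit 330) (nat_lit 259)) (XT.lf (nat_lit 0) (nat_lit 33124188782) (nat_lit 152) (nat_lit 23282014253) (nat_lit 0) (nat_lit 22559040942) (nat_lit 10) (nat_lit 5) (nat_lit 12) (nat_lit 4) (nat_lit 10) (nat_lit 4) (nat_lit 432) (nat_lit 330) (nat_lit 258)))) (XT.nd (nat_lit 78) (nat_lit 76) (nat_lit 0) (XT.lf (nat_lit 0) (nat_lit 43466364162) (nat_lit 152) (nat_lit 6099449576) (nat_lit 0) (nat_lit 32885757719) (nat_lit 10) (nat_lit 5) (nat_lit 12) (nat_lit 4) (nat_lit 10) (nat_lit 4) (nat_lit 433) (nat_lit 330) (nat_lit 257)) (XT.nd (nat_lit 78) (nat_lit 0) (nat_lit 0) (XT.lf (nat_lit 0) (nat_lit 12287467818) (nat_lit 76)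 (nat_lit 42205847081) (nat_lit 76) (nat_lit 31610518160) (nat_lit 9) (nat_lit 4) (nat_lit 10) (nat_lit 5) (nat_lit 10) (nat_lit 4) (nat_lit 434) (nat_lit 330) (nat_lit 256)) (XT.lf (nat_lit 0) (nat_lit 31758213994) (nat_lit 76) (nat_lit 34392934177) (nat_lit 76) (nat_lit 23783583848) (nat_lit 9) (nat_lit 4) (nat_lit 10) (nat_lit 5) (nat_lit 10) (nat_lit 4) (nat_lit 435) (nat_lit 330) (nat_lit 255))))) (XT.nd (nat_lit 234) (nat_lit 76) (nat_lit 0) (XT.nd (nat_lit 78) (nat_lit 76) (nat_lit 0) (XT.lf (nat_lit 0) (nat_lit 52157472522) (nat_lit 76) (nat_lit 26211769982) (nat_lit 76) (nat_lit 15589065931) (nat_lit 9) (nat_lit 4) (nat_lit 10) (nat_lit 5) (nat_lit 10) (nat_lit 4) (nat_lit 436) (nat_lit 330) (nat_lit 254)) (XT.nd (nat_lit 78) (nat_lit 76) (nat_lit 0) (XT.lf (nat_lit 0) (nat_lit 73533813066) (nat_lit 76) (nat_lit 17642875534) (nat_lit 76) (nat_lit 7007453653) (nat_lit 9) (nat_lit 4)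 (nat_lit 10) (nat_lit 5) (nat_lit 10) (nat_lit 4) (nat_lit 437) (nat_lit 330) (nat_lit 253)) (XT.lf (nat_lit 0) (nat_lit 1918259087) (nat_lit 152) (nat_lit 6715102969) (nat_lit 76) (nat_lit 93987385941) (nat_lit 8) (nat_lit 5) (nat_lit 10) (nat_lit 5) (nat_lit 9) (nat_lit 4) (nat_lit 438) (nat_lit 330) (nat_lit 252)))) (XT.nd (nat_lit 156) (nat_lit 0) (nat_lit 0) (XT.nd (nat_lit 78) (nat_lit 0) (nat_lit 0) (XT.lf (nat_lit 0) (nat_lit 11245478349) (nat_lit 152) (nat_lit 94924443263) (nat_lit 0) (nat_lit 1093983543) (nat_lit 7) (nat_lit 5) (nat_lit 9) (nat_lit 4) (nat_lit 7) (nat_lit 4) (nat_lit 439) (nat_lit 330) (nat_lit 251)) (XT.lf (nat_lit 0) (nat_lit 21276342518) (nat_lit 152) (nat_lit 79736629502) (nat_lit 0) (nat_lit 11114384721) (nat_lit 7) (nat_lit 5) (nat_lit 9) (nat_lit 4) (nat_lit 7) (nat_lit 4) (nat_lit 440) (nat_lit 330) (nat_lit 250))) (XT.nd (nat_lit 78) (nat_lit 0) (nat_lit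 0) (XT.lf (nat_lit 0) (nat_lit 31789859972) (nat_lit 152) (nat_lit 63827128739) (nat_lit 0) (nat_lit 21617937422) (nat_lit 7) (nat_lit 5) (nat_lit 9) (nat_lit 4) (nat_lit 7) (nat_lit 4) (nat_lit 441) (nat_lit 330) (nat_lit 249)) (XT.lf (nat_lit 0) (nat_lit 42811062894) (nat_lit 152) (nat_lit 47158061212) (nat_lit 0) (nat_lit 32629650104) (nat_lit 7) (nat_lit 5) (nat_lit 9) (nat_lit 4) (nat_lit 7) (nat_lit 4) (nat_lit 442) (nat_lit 330) (nat_lit 248)))))) (XT.nd (nat_lit 546) (nat_lit 152) (nat_lit 0) (XT.nd (nat_lit 234) (nat_lit 0) (nat_lit 0) (XT.nd (nat_lit 78) (nat_lit 76) (nat_lit 0) (XT.lf (nat_lit 0) (nat_lit 54366192245) (nat_lit 152) (nat_lit 29689738663) (nat_lit 0) (nat_lit 44175741131) (nat_lit 7) (nat_lit 5) (nat_lit 9) (nat_lit 4) (nat_lit 7) (nat_lit 4) (nat_lit 443) (nat_lit 330) (nat_lit 247)) (XT.nd (nat_lit 78) (nat_lit 76) (nat_lit 0) (XT.lf (nat_lit 0) (nat_lit 66482760238)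 (nat_lit 152) (nat_lit 11380569849) (nat_lit 0) (nat_lit 56283701195) (nat_lit 7) (nat_lit 5) (nat_lit 9) (nat_lit 4) (nat_lit 7) (nat_lit 4) (nat_lit 444) (nat_lit 330) (nat_lit 246)) (XT.lf (nat_lit 0) (nat_lit 8071372826) (nat_lit 76) (nat_lit 71244259766) (nat_lit 76) (nat_lit 61037002697) (nat_lit 6) (nat_lit 4) (nat_lit 7) (nat_lit 5) (nat_lit 7) (nat_lit 4) (nat_lit 445) (nat_lit 330) (nat_lit 245)))) (XT.nd (nat_lit 156) (nat_lit 0) (nat_lit 0) (XT.nd (nat_lit 78) (nat_lit 0) (nat_lit 0) (XT.lf (nat_lit 0) (nat_lit 28860501711) (nat_lit 76) (nat_lit 64107105080) (nat_lit 76) (nat_lit 53892040366) (nat_lit 6) (nat_lit 4) (nat_lit 7) (nat_lit 5) (nat_lit 7) (nat_lit 4) (nat_lit 446) (nat_lit 330) (nat_lit 244)) (XT.lf (nat_lit 0) (nat_lit 50660021697) (nat_lit 76) (nat_lit 56627608261) (nat_lit 76) (nat_lit 46405107695) (nat_lit 6) (nat_lit 4) (nat_lit 7) (nat_lit 5) (nat_lit 7) (nat_lit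 4) (nat_lit 447) (nat_lit 330) (nat_lit 243))) (XT.nd (nat_lit 78) (nat_lit 0) (nat_lit 0) (XT.lf (nat_lit 0) (nat_lit 73521836402) (nat_lit 76) (nat_lit 48787960982) (nat_lit 76) (nat_lit 38558378652) (nat_lit 6) (nat_lit 4) (nat_lit 7) (nat_lit 5) (nat_lit 7) (nat_lit 4) (nat_lit 448) (nat_lit 330) (nat_lit 242)) (XT.lf (nat_lit 0) (nat_lit 97500378718) (nat_lit 76) (nat_lit 40569497416) (nat_lit 76) (nat_lit 30333170550) (nat_lit 6) (nat_lit 4) (nat_lit 7) (nat_lit 5) (nat_lit 7) (nat_lit 4) (nat_lit 449) (nat_lit 330) (nat_lit 241))))) (XT.nd (nat_lit 234) (nat_lit 152) (nat_lit 0) (XT.nd (nat_lit 78) (nat_lit 0) (nat_lit 0) (XT.lf (nat_lit 0) (nat_lit 122652740413) (nat_lit 76) (nat_lit 31952649794) (nat_lit 76) (nat_lit 21709899560) (nat_lit 6) (nat_lit 4) (nat_lit 7) (nat_lit 5) (nat_lit 7) (nat_lit 4) (nat_lit 450) (nat_lit 330) (nat_lit 240)) (XT.nd (nat_lit 78) (nat_lit 0) (nat_lit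 0) (XT.lf (nat_lit 0) (nat_lit 149038808062) (nat_lit 76) (nat_lit 22916901812) (nat_lit 76) (nat_lit 12668034083) (nat_lit 6) (nat_lit 4) (nat_lit 7) (nat_lit 5) (nat_lit 7) (nat_lit 4) (nat_lit 451) (nat_lit 330) (nat_lit 239)) (XT.lf (nat_lit 0) (nat_lit 176721405637) (nat_lit 76) (nat_lit 13440739783) (nat_lit 76) (nat_lit 3186045870) (nat_lit 6) (nat_lit 4) (nat_lit 7) (nat_lit 5) (nat_lit 7) (nat_lit 4) (nat_lit 452) (nat_lit 330) (nat_lit 238)))) (XT.nd (nat_lit 156) (nat_lit 0) (nat_lit 0) (XT.nd (nat_lit 78) (nat_lit 0) (nat_lit 0) (XT.lf (nat_lit 0) (nat_lit 3255721926) (nat_lit 76) (nat_lit 3337431530) (nat_lit 152) (nat_lit 195908433188) (nat_lit 4) (nat_lit 5) (nat_lit 5) (nat_lit 5) (nat_lit 6) (nat_lit 4) (nat_lit 453) (nat_lit 330) (nat_lit 237)) (XT.lf (nat_lit 0) (nat_lit 17142942544) (nat_lit 152) (nat_lit 187581412995) (nat_lit 0) (nat_lit 7366249991) (nat_lit 4) (nat_lit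 5) (nat_lit 6) (nat_lit 4) (nat_lit 4) (nat_lit 4) (nat_lit 454) (nat_lit 330) (nat_lit 236))) (XT.nd (nat_lit 78) (nat_lit 0) (nat_lit 0) (XT.lf (nat_lit 0) (nat_lit 28264439472) (nat_lit 152) (nat_lit 175409471619) (nat_lit 0) (nat_lit 18482953702) (nat_lit 4) (nat_lit 5) (nat_lit 6) (nat_lit 4) (nat_lit 4) (nat_lit 4) (nat_lit 455) (nat_lit 330) (nat_lit 235)) (XT.lf (nat_lit 0) (nat_lit 39932017335) (nat_lit 152) (nat_lit 162648953117) (nat_lit 0) (nat_lit 30145966597) (nat_lit 4) (nat_lit 5) (nat_lit 6) (nat_lit 4) (nat_lit 4) (nat_lit 4) (nat_lit 456) (nat_lit 330) (nat_lit 234))))))))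
noncomputable def xc74 : XT := (XT.nd (nat_lit 2106) (nat_lit 0) (nat_lit 0) (XT.nd (nat_lit 1014) (nat_lit 0) (nat_lit 0) (XT.nd (nat_lit 468) (nat_lit 76) (nat_lit 0) (XT.nd (nat_lit 234) (nat_lit 0) (nat_lit 0) (XT.nd (nat_lit 78) (nat_lit 0) (nat_lit 0) (XT.lf (nat_lit 0) (nat_lit 52173456081) (nat_lit 152) (nat_lit 149269475303) (nat_lit 0) (nat_lit 42383057754) (nat_lit 4) (nat_lit 5) (nat_lit 6) (nat_lit 4) (nat_lit 4) (nat_lit 4) (nat_lit 457) (nat_lit 330) (nat_lit 233)) (XT.nd (nat_lit 78) (nat_lit 0) (nat_lit 0) (XT.lf (nat_lit 0) (nat_lit 65017901991) (nat_lit 152) (nat_lit 135239182277) (nat_lit 0) (nat_lit 55223363104) (nat_lit 4) (nat_lit 5) (nat_lit 6) (nat_lit 4) (nat_lit 4) (nat_lit 4) (nat_lit 458) (nat_lit 330) (nat_lit 232)) (XT.lf (nat_lit 0) (nat_lit 78495937081) (nat_lit 152) (nat_lit 120524668579) (nat_lit 0) (nat_lit 68697454803) (nat_lit 4) (nat_lit 5) (nat_lit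 6) (nat_lit 4) (nat_lit 4) (nat_lit 4) (nat_lit 459) (nat_lit 330) (nat_lit 231)))) (XT.nd (nat_lit 78) (nat_lit 0) (nat_lit 0) (XT.lf (nat_lit 0) (nat_lit 92639651910) (nat_lit 152) (nat_lit 105090899653) (nat_lit 0) (nat_lit 82837414021) (nat_lit 4) (nat_lit 5) (nat_lit 6) (nat_lit 4) (nat_lit 4) (nat_lit 4) (nat_lit 460) (nat_lit 330) (nat_lit 230)) (XT.nd (nat_lit 78) (nat_lit 0) (nat_lit 0) (XT.lf (nat_lit 0) (nat_lit 107482721989) (nat_lit 152) (nat_lit 88901128431) (nat_lit 0) (nat_lit 97676907328) (nat_lit 4) (nat_lit 5) (nat_lit 6) (nat_lit 4) (nat_lit 4) (nat_lit 4) (nat_lit 461) (nat_lit 330) (nat_lit 229)) (XT.lf (nat_lit 0) (nat_lit 123060487962) (nat_lit 152) (nat_lit 71916807837) (nat_lit 0) (nat_lit 113251266852) (nat_lit 4) (nat_lit 5) (nat_lit 6) (nat_lit 4) (nat_lit 4) (nat_lit 4) (nat_lit 462) (nat_lit 330) (nat_lit 228))))) (XT.nd (nat_lit 234) (nat_lit 76) (nat_lit 0)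 (XT.nd (nat_lit 78) (nat_lit 0) (nat_lit 0) (XT.lf (nat_lit 0) (nat_lit 139410039747) (nat_lit 152) (nat_lit 54097499014) (nat_lit 0) (nat_lit 129597574400) (nat_lit 4) (nat_lit 5) (nat_lit 6) (nat_lit 4) (nat_lit 4) (nat_lit 4) (nat_lit 463) (nat_lit 330) (nat_lit 227)) (XT.nd (nat_lit 78) (nat_lit 0) (nat_lit 0) (XT.lf (nat_lit 0) (nat_lit 156570304849) (nat_lit 152) (nat_lit 35400775035) (nat_lit 0) (nat_lit 146754749752) (nat_lit 4) (nat_lit 5) (nat_lit 6) (nat_lit 4) (nat_lit 4) (nat_lit 4) (nat_lit 464) (nat_lit 330) (nat_lit 226)) (XT.lf (nat_lit 0) (nat_lit 174582141042) (nat_lit 152) (nat_lit 15782119891) (nat_lit 0) (nat_lit 164763643326) (nat_lit 4) (nat_lit 5) (nat_lit 6) (nat_lit 4) (nat_lit 4) (nat_lit 4) (nat_lit 465) (nat_lit 330) (nat_lit 225)))) (XT.nd (nat_lit 156) (nat_lit 0) (nat_lit 0) (XT.nd (nat_lit 78) (nat_lit 0) (nat_lit 0) (XT.lf (nat_lit 0) (nat_lit 4964058369)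 (nat_lit 76) (nat_lit 188601878144) (nat_lit 76) (nat_lit 178780577932) (nat_lit 3) (nat_lit 4) (nat_lit 4) (nat_lit 5) (nat_lit 4) (nat_lit 4) (nat_lit 466) (nat_lit 330) (nat_lit 224)) (XT.lf (nat_lit 0) (nat_lit 27283372835) (nat_lit 76) (nat_lit 186476794732) (nat_lit 76) (nat_lit 176652825479) (nat_lit 3) (nat_lit 4) (nat_lit 4) (nat_lit 5) (nat_lit 4) (nat_lit 4) (nat_lit 467) (nat_lit 330) (nat_lit 223))) (XT.nd (nat_lit 78) (nat_lit 0) (nat_lit 0) (XT.lf (nat_lit 0) (nat_lit 50707136572) (nat_lit 76) (nat_lit 184251228814) (nat_lit 76) (nat_lit 174424717616) (nat_lit 3) (nat_lit 4) (nat_lit 4) (nat_lit 5) (nat_lit 4) (nat_lit 4) (nat_lit 468) (nat_lit 330) (nat_lit 222)) (XT.lf (nat_lit 0) (nat_lit 75291120446) (nat_lit 76) (nat_lit 181919881424) (nat_lit 76) (nat_lit 172090949325) (nat_lit 3) (nat_lit 4) (nat_lit 4) (nat_lit 5) (nat_lit 4) (nat_lit 4) (nat_lit 469) (nat_lit 330)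 (nat_lit 221)))))) (XT.nd (nat_lit 546) (nat_lit 0) (nat_lit 0) (XT.nd (nat_lit 234) (nat_lit 0) (nat_lit 0) (XT.nd (nat_lit 78) (nat_lit 0) (nat_lit 0) (XT.lf (nat_lit 0) (nat_lit 101093857753) (nat_lit 76) (nat_lit 179477201733) (nat_lit 76) (nat_lit 169645964015) (nat_lit 3) (nat_lit 4) (nat_lit 4) (nat_lit 5) (nat_lit 4) (nat_lit 4) (nat_lit 470) (nat_lit 330) (nat_lit 220)) (XT.nd (nat_lit 78) (nat_lit 0) (nat_lit 0) (XT.lf (nat_lit 0) (nat_lit 128176783580) (nat_lit 76) (nat_lit 176917373838) (nat_lit 76) (nat_lit 167083940293) (nat_lit 3) (nat_lit 4) (nat_lit 4) (nat_lit 5) (nat_lit 4) (nat_lit 4) (nat_lit 471) (nat_lit 330) (nat_lit 219)) (XT.lf (nat_lit 0) (nat_lit 156604381086) (nat_lit 76) (nat_lit 174234302911) (nat_lit 76) (nat_lit 164398778101) (nat_lit 3) (nat_lit 4) (nat_lit 4) (nat_lit 5) (nat_lit 4) (nat_lit 4) (nat_lit 472) (nat_lit 330) (nat_lit 218)))) (XT.nd (nat_lit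 156) (nat_lit 0) (nat_lit 0) (XT.nd (nat_lit 78) (nat_lit 0) (nat_lit 0) (XT.lf (nat_lit 0) (nat_lit 186444335025) (nat_lit 76) (nat_lit 171421600688) (nat_lit 76) (nat_lit 161584084197) (nat_lit 3) (nat_lit 4) (nat_lit 4) (nat_lit 5) (nat_lit 4) (nat_lit 4) (nat_lit 473) (nat_lit 330) (nat_lit 217)) (XT.lf (nat_lit 0) (nat_lit 217767692908) (nat_lit 76) (nat_lit 168472570257) (nat_lit 76) (nat_lit 158633156929) (nat_lit 3) (nat_lit 4) (nat_lit 4) (nat_lit 5) (nat_lit 4) (nat_lit 4) (nat_lit 474) (nat_lit 330) (nat_lit 216))) (XT.nd (nat_lit 78) (nat_lit 0) (nat_lit 0) (XT.lf (nat_lit 0) (nat_lit 250649034157) (nat_lit 76) (nat_lit 165380190120) (nat_lit 76) (nat_lit 155538970278) (nat_lit 3) (nat_lit 4) (nat_lit 4) (nat_lit 5) (nat_lit 4) (nat_lit 4) (nat_lit 475) (nat_lit 330) (nat_lit 215)) (XT.lf (nat_lit 0) (nat_lit 285166647681) (nat_lit 76) (nat_lit 162137097465) (nat_lit 76) (nat_lit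 152294157135) (nat_lit 3) (nat_lit 4) (nat_lit 4) (nat_lit 5) (nat_lit 4) (nat_lit 4) (nat_lit 476) (nat_lit 330) (nat_lit 214))))) (XT.nd (nat_lit 234) (nat_lit 0) (nat_lit 0) (XT.nd (nat_lit 78) (nat_lit 0) (nat_lit 0) (XT.lf (nat_lit 0) (nat_lit 321402718273) (nat_lit 76) (nat_lit 158735570643) (nat_lit 76) (nat_lit 148890991752) (nat_lit 3) (nat_lit 4) (nat_lit 4) (nat_lit 5) (nat_lit 4) (nat_lit 4) (nat_lit 477) (nat_lit 330) (nat_lit 213)) (XT.nd (nat_lit 78) (nat_lit 0) (nat_lit 0) (XT.lf (nat_lit 0) (nat_lit 359443522293) (nat_lit 76) (nat_lit 155167510781) (nat_lit 76) (nat_lit 145321371357) (nat_lit 3) (nat_lit 4) (nat_lit 4) (nat_lit 5) (nat_lit 4) (nat_lit 4) (nat_lit 478) (nat_lit 330) (nat_lit 212)) (XT.lf (nat_lit 0) (nat_lit 399379633082) (nat_lit 76) (nat_lit 151424422499) (nat_lit 76) (nat_lit 141576796852) (nat_lit 3) (nat_lit 4) (nat_lit 4) (nat_lit 5) (nat_lit 4) (nat_lit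 4) (nat_lit 479) (nat_lit 330) (nat_lit 211)))) (XT.nd (nat_lit 156) (nat_lit 0) (nat_lit 0) (XT.nd (nat_lit 78) (nat_lit 0) (nat_lit 0) (XT.lf (nat_lit 0) (nat_lit 441306136620) (nat_lit 76) (nat_lit 147497393681) (nat_lit 76) (nat_lit 137648352584) (nat_lit 3) (nat_lit 4) (nat_lit 4) (nat_lit 5) (nat_lit 4) (nat_lit 4) (nat_lit 480) (nat_lit 330) (nat_lit 210)) (XT.lf (nat_lit 0) (nat_lit 485322857914) (nat_lit 76) (nat_lit 143377074259) (nat_lit 76) (nat_lit 133526685115) (nat_lit 3) (nat_lit 4) (nat_lit 4) (nat_lit 5) (nat_lit 4) (nat_lit 4) (nat_lit 481) (nat_lit 330) (nat_lit 209))) (XT.nd (nat_lit 78) (nat_lit 0) (nat_lit 0) (XT.lf (nat_lit 0) (nat_lit 531534598682) (nat_lit 76) (nat_lit 139053653949) (nat_lit 76) (nat_lit 129201980949) (nat_lit 3) (nat_lit 4) (nat_lit 4) (nat_lit 5) (nat_lit 4) (nat_lit 4) (nat_lit 482) (nat_lit 330) (nat_lit 208)) (XT.lf (nat_lit 0) (nat_lit 580051386879)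 (nat_lit 76) (nat_lit 134516838892) (nat_lit 76) (nat_lit 124663943173) (nat_lit 3) (nat_lit 4) (nat_lit 4) (nat_lit 5) (nat_lit 4) (nat_lit 4) (nat_lit 483) (nat_lit 330) (nat_lit 207))))))) (XT.nd (nat_lit 44226) (nat_lit 0) (nat_lit 3344) (XT.nd (nat_lit 43680) (nat_lit 0) (nat_lit 5548) (XT.nd (nat_lit 43446) (nat_lit 0) (nat_lit 7068) (XT.nd (nat_lit 43290) (nat_lit 0) (nat_lit 7828) (XT.lf (nat_lit 0) (nat_lit 630988738665) (nat_lit 76) (nat_lit 129755827148) (nat_lit 76) (nat_lit 119901766935) (nat_lit 3) (nat_lit 4) (nat_lit 4) (nat_lit 5) (nat_lit 4) (nat_lit 4) (nat_lit 484) (nat_lit 330) (nat_lit 206)) (XT.nd (nat_lit 78) (nat_lit 456) (nat_lit 0) (XT.lf (nat_lit 0) (nat_lit 1695122604) (nat_lit 380) (nat_lit 1002475900) (nat_lit 380) (nat_lit 1002475900) (nat_lit 112) (nat_lit 4) (nat_lit 117) (nat_lit 5) (nat_lit 117) (nat_lit 4) (nat_lit 358) (nat_lit 331) (nat_lit 331)) (XT.lf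 (nat_lit 0) (nat_lit 1553261026) (nat_lit 456) (nat_lit 5851366253) (nat_lit 0) (nat_lit 108569813) (nat_lit 106) (nat_lit 5) (nat_lit 112) (nat_lit 4) (nat_lit 106) (nat_lit 4) (nat_lit 359) (nat_lit 331) (nat_lit 330)))) (XT.nd (nat_lit 78) (nat_lit 760) (nat_lit 0) (XT.lf (nat_lit 0) (nat_lit 5159836203) (nat_lit 456) (nat_lit 134378865) (nat_lit 0) (nat_lit 2339248596) (nat_lit 106) (nat_lit 5) (nat_lit 112) (nat_lit 4) (nat_lit 106) (nat_lit 4) (nat_lit 360) (nat_lit 331) (nat_lit 329)) (XT.nd (nat_lit 78) (nat_lit 304) (nat_lit 0) (XT.lf (nat_lit 0) (nat_lit 1083257067) (nat_lit 456) (nat_lit 1910288135) (nat_lit 76) (nat_lit 4768650617) (nat_lit 100) (nat_lit 5) (nat_lit 106) (nat_lit 5) (nat_lit 101) (nat_lit 4) (nat_lit 361) (nat_lit 331) (nat_lit 328)) (XT.lf (nat_lit 0) (nat_lit 4148848549) (nat_lit 304) (nat_lit 498854992) (nat_lit 380) (nat_lit 3252078195) (nat_lit 96) (nat_lit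 5) (nat_lit 100) (nat_lit 5) (nat_lit 101) (nat_lit 4) (nat_lit 362) (nat_lit 331) (nat_lit 327))))) (XT.nd (nat_lit 234) (nat_lit 912) (nat_lit 0) (XT.nd (nat_lit 78) (nat_lit 228) (nat_lit 0) (XT.lf (nat_lit 0) (nat_lit 287081113) (nat_lit 380) (nat_lit 5666240621) (nat_lit 76) (nat_lit 2093132331) (nat_lit 91) (nat_lit 5) (nat_lit 96) (nat_lit 5) (nat_lit 92) (nat_lit 4) (nat_lit 363) (nat_lit 331) (nat_lit 326)) (XT.nd (nat_lit 78) (nat_lit 0) (nat_lit 0) (XT.lf (nat_lit 0) (nat_lit 510520109) (nat_lit 228) (nat_lit 3315493470) (nat_lit 304) (nat_lit 4375250722) (nat_lit 88) (nat_lit 5) (nat_lit 91) (nat_lit 5) (nat_lit 92) (nat_lit 4) (nat_lit 364) (nat_lit 331) (nat_lit 325)) (XT.lf (nat_lit 0) (nat_lit 7001824167) (nat_lit 228) (nat_lit 491515817) (nat_lit 304) (nat_lit 872974362) (nat_lit 88) (nat_lit 5) (nat_lit 91) (nat_lit 5) (nat_lit 92) (nat_lit 4) (nat_lit 365) (nat_lit 331)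 (nat_lit 324)))) (XT.nd (nat_lit 156) (nat_lit 304) (nat_lit 0) (XT.nd (nat_lit 78) (nat_lit 228) (nat_lit 0) (XT.lf (nat_lit 0) (nat_lit 2696062037) (nat_lit 380) (nat_lit 3365783948) (nat_lit 76) (nat_lit 2476576420) (nat_lit 83) (nat_lit 5) (nat_lit 88) (nat_lit 5) (nat_lit 84) (nat_lit 4) (nat_lit 366) (nat_lit 331) (nat_lit 323)) (XT.lf (nat_lit 0) (nat_lit 3257808265) (nat_lit 228) (nat_lit 3101915868) (nat_lit 304) (nat_lit 2361482509) (nat_lit 80) (nat_lit 5) (nat_lit 83) (nat_lit 5) (nat_lit 84) (nat_lit 4) (nat_lit 367) (nat_lit 331) (nat_lit 322))) (XT.nd (nat_lit 78) (nat_lit 0) (nat_lit 0) (XT.lf (nat_lit 0) (nat_lit 1194731606) (nat_lit 304) (nat_lit 7669188053) (nat_lit 76) (nat_lit 51122346) (nat_lit 76) (nat_lit 5) (nat_lit 80) (nat_lit 5) (nat_lit 77) (nat_lit 4) (nat_lit 368) (nat_lit 331) (nat_lit 321)) (XT.lf (nat_lit 0) (nat_lit 4861394777) (nat_lit 304) (nat_lit 918679148)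 (nat_lit 76) (nat_lit 3336013065) (nat_lit 76) (nat_lit 5) (nat_lit 80) (nat_lit 5) (nat_lit 77) (nat_lit 4) (nat_lit 369) (nat_lit 331) (nat_lit 320)))))) (XT.nd (nat_lit 546) (nat_lit 836) (nat_lit 0) (XT.nd (nat_lit 234) (nat_lit 684) (nat_lit 0) (XT.nd (nat_lit 78) (nat_lit 456) (nat_lit 0) (XT.lf (nat_lit 0) (nat_lit 6182568075) (nat_lit 228) (nat_lit 2498784974) (nat_lit 304) (nat_lit 647384009) (nat_lit 73) (nat_lit 5) (nat_lit 76) (nat_lit 5) (nat_lit 77) (nat_lit 4) (nat_lit 370) (nat_lit 331) (nat_lit 319)) (XT.nd (nat_lit 78) (nat_lit 152) (nat_lit 0) (XT.lf (nat_lit 0) (nat_lit 3008725563) (nat_lit 304) (nat_lit 5555090547) (nat_lit 76) (nat_lit 987351035) (nat_lit 69) (nat_lit 5) (nat_lit 73) (nat_lit 5) (nat_lit 70) (nat_lit 4) (nat_lit 371) (nat_lit 331) (nat_lit 318)) (XT.lf (nat_lit 0) (nat_lit 1634367596) (nat_lit 152) (nat_lit 5188880960) (nat_lit 228) (nat_lit 2961115320)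 (nat_lit 67) (nat_lit 5) (nat_lit 69) (nat_lit 5) (nat_lit 70) (nat_lit 4) (nat_lit 372) (nat_lit 331) (nat_lit 317)))) (XT.nd (nat_lit 156) (nat_lit 380) (nat_lit 0) (XT.nd (nat_lit 78) (nat_lit 228) (nat_lit 0) (XT.lf (nat_lit 0) (nat_lit 747012115) (nat_lit 228) (nat_lit 851528916) (nat_lit 76) (nat_lit 8431429532) (nat_lit 66) (nat_lit 5) (nat_lit 69) (nat_lit 5) (nat_lit 67) (nat_lit 5) (nat_lit 373) (nat_lit 331) (nat_lit 316)) (XT.lf (nat_lit 0) (nat_lit 4566176401) (nat_lit 304) (nat_lit 3520580618) (nat_lit 76) (nat_lit 2197454259) (nat_lit 63) (nat_lit 5) (nat_lit 67) (nat_lit 5) (nat_lit 64) (nat_lit 4) (nat_lit 374) (nat_lit 331) (nat_lit 315))) (XT.nd (nat_lit 78) (nat_lit 228) (nat_lit 0) (XT.lf (nat_lit 0) (nat_lit 4163518447) (nat_lit 152) (nat_lit 4403955489) (nat_lit 228) (nat_lit 1984167538) (nat_lit 61) (nat_lit 5) (nat_lit 63) (nat_lit 5) (nat_lit 64) (nat_lit 4) (nat_lit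 375) (nat_lit 331) (nat_lit 314)) (XT.lf (nat_lit 0) (nat_lit 1353879344) (nat_lit 152) (nat_lit 488379438) (nat_lit 228) (nat_lit 8990313484) (nat_lit 58) (nat_lit 5) (nat_lit 60) (nat_lit 5) (nat_lit 61) (nat_lit 5) (nat_lit 376) (nat_lit 331) (nat_lit 313))))) (XT.nd (nat_lit 234) (nat_lit 456) (nat_lit 0) (XT.nd (nat_lit 78) (nat_lit 380) (nat_lit 0) (XT.lf (nat_lit 0) (nat_lit 5847498052) (nat_lit 228) (nat_lit 1692648641) (nat_lit 76) (nat_lit 3583099172) (nat_lit 58) (nat_lit 5) (nat_lit 61) (nat_lit 5) (nat_lit 59) (nat_lit 4) (nat_lit 377) (nat_lit 331) (nat_lit 312)) (XT.nd (nat_lit 78) (nat_lit 228) (nat_lit 0) (XT.lf (nat_lit 0) (nat_lit 6507342761) (nat_lit 152) (nat_lit 3548259058) (nat_lit 228) (nat_lit 1372750976) (nat_lit 56) (nat_lit 5) (nat_lit 58) (nat_lit 5) (nat_lit 59) (nat_lit 4) (nat_lit 378) (nat_lit 331) (nat_lit 311)) (XT.lf (nat_lit 0) (nat_lit 2623694600) (nat_lit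 228) (nat_lit 8443280342) (nat_lit 76) (nat_lit 680363157) (nat_lit 53) (nat_lit 5) (nat_lit 56) (nat_lit 5) (nat_lit 54) (nat_lit 4) (nat_lit 379) (nat_lit 331) (nat_lit 310)))) (XT.nd (nat_lit 156) (nat_lit 304) (nat_lit 0) (XT.nd (nat_lit 78) (nat_lit 152) (nat_lit 0) (XT.lf (nat_lit 0) (nat_lit 6811627180) (nat_lit 228) (nat_lit 226550089) (nat_lit 76) (nat_lit 5041106008) (nat_lit 53) (nat_lit 5) (nat_lit 56) (nat_lit 5) (nat_lit 54) (nat_lit 4) (nat_lit 380) (nat_lit 331) (nat_lit 309)) (XT.lf (nat_lit 0) (nat_lit 8504026063) (nat_lit 152) (nat_lit 2737629687) (nat_lit 228) (nat_lit 1184559495) (nat_lit 51) (nat_lit 5) (nat_lit 53) (nat_lit 5) (nat_lit 54) (nat_lit 4) (nat_lit 381) (nat_lit 331) (nat_lit 308))) (XT.nd (nat_lit 78) (nat_lit 76) (nat_lit 0) (XT.lf (nat_lit 0) (nat_lit 3011837667) (nat_lit 228) (nat_lit 7993006298) (nat_lit 76) (nat_lit 1782827418) (nat_lit 48) (nat_lit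 5) (nat_lit 51) (nat_lit 5) (nat_lit 49) (nat_lit 4) (nat_lit 382) (nat_lit 331) (nat_lit 307)) (XT.lf (nat_lit 0) (nat_lit 706039598) (nat_lit 76) (nat_lit 6697133534) (nat_lit 152) (nat_lit 5761831038) (nat_lit 47) (nat_lit 5) (nat_lit 48) (nat_lit 5) (nat_lit 49) (nat_lit 4) (nat_lit 383) (nat_lit 331) (nat_lit 306))))))))
noncomputable def xc75 : XT := (XT.nd (nat_lit 2106) (nat_lit 912) (nat_lit 0) (XT.nd (nat_lit 1014) (nat_lit 760) (nat_lit 0) (XT.nd (nat_lit 468) (nat_lit 684) (nat_lit 0) (XT.nd (nat_lit 234) (nat_lit 228) (nat_lit 0) (XT.nd (nat_lit 78) (nat_lit 304) (nat_lit 0) (XT.lf (nat_lit 0) (nat_lit 9949468662) (nat_lit 76) (nat_lit 2103549916) (nat_lit 152) (nat_lit 1506258012) (nat_lit 47) (nat_lit 5) (nat_lit 48) (nat_lit 5) (nat_lit 49) (nat_lit 4) (nat_lit 384) (nat_lit 331) (nat_lit 305)) (XT.nd (nat_lit 78) (nat_lit 76) (nat_lit 0) (XT.lf (nat_lit 0) (nat_lit 2905775260)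 (nat_lit 228) (nat_lit 8361468650) (nat_lit 76) (nat_lit 2701800319) (nat_lit 44) (nat_lit 5) (nat_lit 47) (nat_lit 5) (nat_lit 45) (nat_lit 4) (nat_lit 385) (nat_lit 331) (nat_lit 304)) (XT.lf (nat_lit 0) (nat_lit 816826007) (nat_lit 76) (nat_lit 6687842573) (nat_lit 152) (nat_lit 6892570515) (nat_lit 43) (nat_lit 5) (nat_lit 44) (nat_lit 5) (nat_lit 45) (nat_lit 4) (nat_lit 386) (nat_lit 331) (nat_lit 303)))) (XT.nd (nat_lit 78) (nat_lit 228) (nat_lit 0) (XT.lf (nat_lit 0) (nat_lit 10582925394) (nat_lit 76) (nat_lit 1801576406) (nat_lit 152) (nat_lit 2459808725) (nat_lit 43) (nat_lit 5) (nat_lit 44) (nat_lit 5) (nat_lit 45) (nat_lit 4) (nat_lit 387) (nat_lit 331) (nat_lit 302)) (XT.nd (nat_lit 78) (nat_lit 0) (nat_lit 0) (XT.lf (nat_lit 0) (nat_lit 2175507313) (nat_lit 228) (nat_lit 9855971619) (nat_lit 76) (nat_lit 3278000610) (nat_lit 40) (nat_lit 5) (nat_lit 43) (nat_lit 5) (nat_lit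 41) (nat_lit 4) (nat_lit 388) (nat_lit 331) (nat_lit 301)) (XT.lf (nat_lit 0) (nat_lit 6975791095) (nat_lit 228) (nat_lit 220602014) (nat_lit 76) (nat_lit 8598718604) (nat_lit 40) (nat_lit 5) (nat_lit 43) (nat_lit 5) (nat_lit 41) (nat_lit 4) (nat_lit 389) (nat_lit 331) (nat_lit 300))))) (XT.nd (nat_lit 234) (nat_lit 380) (nat_lit 0) (XT.nd (nat_lit 78) (nat_lit 228) (nat_lit 0) (XT.lf (nat_lit 0) (nat_lit 10068945326) (nat_lit 76) (nat_lit 2021473809) (nat_lit 152) (nat_lit 4210903497) (nat_lit 39) (nat_lit 5) (nat_lit 40) (nat_lit 5) (nat_lit 41) (nat_lit 4) (nat_lit 390) (nat_lit 331) (nat_lit 299)) (XT.nd (nat_lit 78) (nat_lit 0) (nat_lit 0) (XT.lf (nat_lit 0) (nat_lit 645237355) (nat_lit 228) (nat_lit 12870165679) (nat_lit 76) (nat_lit 3315093209) (nat_lit 36) (nat_lit 5) (nat_lit 39) (nat_lit 5) (nat_lit 37) (nat_lit 4) (nat_lit 391) (nat_lit 331) (nat_lit 298)) (XT.lf (nat_lit 0) (nat_lit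 5661096579) (nat_lit 228) (nat_lit 2756482813) (nat_lit 76) (nat_lit 8962188103) (nat_lit 36) (nat_lit 5) (nat_lit 39) (nat_lit 5) (nat_lit 37) (nat_lit 4) (nat_lit 392) (nat_lit 331) (nat_lit 297)))) (XT.nd (nat_lit 156) (nat_lit 152) (nat_lit 0) (XT.nd (nat_lit 78) (nat_lit 152) (nat_lit 0) (XT.lf (nat_lit 0) (nat_lit 7974519408) (nat_lit 76) (nat_lit 2999646103) (nat_lit 152) (nat_lit 6980027184) (nat_lit 35) (nat_lit 5) (nat_lit 36) (nat_lit 5) (nat_lit 37) (nat_lit 4) (nat_lit 393) (nat_lit 331) (nat_lit 296)) (XT.lf (nat_lit 0) (nat_lit 615605531) (nat_lit 152) (nat_lit 15958741559) (nat_lit 152) (nat_lit 1981929792) (nat_lit 33) (nat_lit 4) (nat_lit 35) (nat_lit 5) (nat_lit 35) (nat_lit 4) (nat_lit 394) (nat_lit 331) (nat_lit 295))) (XT.nd (nat_lit 78) (nat_lit 76) (nat_lit 0) (XT.lf (nat_lit 0) (nat_lit 3305131433) (nat_lit 228) (nat_lit 7340187988) (nat_lit 76) (nat_lit 8533426242)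 (nat_lit 32) (nat_lit 5) (nat_lit 35) (nat_lit 5) (nat_lit 33) (nat_lit 4) (nat_lit 395) (nat_lit 331) (nat_lit 294)) (XT.lf (nat_lit 0) (nat_lit 3740052484) (nat_lit 76) (nat_lit 5034601902) (nat_lit 152) (nat_lit 11056832473) (nat_lit 31) (nat_lit 5) (nat_lit 32) (nat_lit 5) (nat_lit 33) (nat_lit 4) (nat_lit 396) (nat_lit 331) (nat_lit 293)))))) (XT.nd (nat_lit 546) (nat_lit 380) (nat_lit 0) (XT.nd (nat_lit 234) (nat_lit 228) (nat_lit 0) (XT.nd (nat_lit 78) (nat_lit 152) (nat_lit 0) (XT.lf (nat_lit 0) (nat_lit 14584110821) (nat_lit 152) (nat_lit 5034826033) (nat_lit 0) (nat_lit 894614186) (nat_lit 31) (nat_lit 5) (nat_lit 33) (nat_lit 4) (nat_lit 31) (nat_lit 4) (nat_lit 397) (nat_lit 331) (nat_lit 292)) (XT.nd (nat_lit 78) (nat_lit 76) (nat_lit 0) (XT.lf (nat_lit 0) (nat_lit 6571056405) (nat_lit 76) (nat_lit 14228334645) (nat_lit 76) (nat_lit 424568207) (nat_lit 30) (nat_lit 4) (nat_lit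 31) (nat_lit 5) (nat_lit 31) (nat_lit 4) (nat_lit 398) (nat_lit 331) (nat_lit 291)) (XT.lf (nat_lit 0) (nat_lit 5201200406) (nat_lit 152) (nat_lit 3250133987) (nat_lit 76) (nat_lit 13513527134) (nat_lit 29) (nat_lit 5) (nat_lit 31) (nat_lit 5) (nat_lit 30) (nat_lit 4) (nat_lit 399) (nat_lit 331) (nat_lit 290)))) (XT.nd (nat_lit 156) (nat_lit 152) (nat_lit 0) (XT.nd (nat_lit 78) (nat_lit 0) (nat_lit 0) (XT.lf (nat_lit 0) (nat_lit 8874591447) (nat_lit 76) (nat_lit 2291668235) (nat_lit 152) (nat_lit 11572594933) (nat_lit 28) (nat_lit 5) (nat_lit 29) (nat_lit 5) (nat_lit 30) (nat_lit 4) (nat_lit 400) (nat_lit 331) (nat_lit 289)) (XT.lf (nat_lit 0) (nat_lit 17484752718) (nat_lit 152) (nat_lit 2022100679) (nat_lit 0) (nat_lit 4041941809) (nat_lit 28) (nat_lit 5) (nat_lit 30) (nat_lit 4) (nat_lit 28) (nat_lit 4) (nat_lit 401) (nat_lit 331) (nat_lit 288))) (XT.nd (nat_lit 78) (nat_lit 76) (nat_lit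 0) (XT.lf (nat_lit 0) (nat_lit 10594063695) (nat_lit 76) (nat_lit 13665256252) (nat_lit 76) (nat_lit 132911963) (nat_lit 27) (nat_lit 4) (nat_lit 28) (nat_lit 5) (nat_lit 28) (nat_lit 4) (nat_lit 402) (nat_lit 331) (nat_lit 287)) (XT.lf (nat_lit 0) (nat_lit 5871826190) (nat_lit 152) (nat_lit 1580370485) (nat_lit 76) (nat_lit 17822285803) (nat_lit 26) (nat_lit 5) (nat_lit 28) (nat_lit 5) (nat_lit 27) (nat_lit 4) (nat_lit 403) (nat_lit 331) (nat_lit 286))))) (XT.nd (nat_lit 234) (nat_lit 228) (nat_lit 0) (XT.nd (nat_lit 78) (nat_lit 76) (nat_lit 0) (XT.lf (nat_lit 0) (nat_lit 11500154597) (nat_lit 76) (nat_lit 792029885) (nat_lit 152) (nat_lit 13902565319) (nat_lit 25) (nat_lit 5) (nat_lit 26) (nat_lit 5) (nat_lit 27) (nat_lit 4) (nat_lit 404) (nat_lit 331) (nat_lit 285)) (XT.nd (nat_lit 78) (nat_lit 76) (nat_lit 0) (XT.lf (nat_lit 0) (nat_lit 19098135077) (nat_lit 152) (nat_lit 2081695007)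 (nat_lit 0) (nat_lit 5977977084) (nat_lit 25) (nat_lit 5) (nat_lit 27) (nat_lit 4) (nat_lit 25) (nat_lit 4) (nat_lit 405) (nat_lit 331) (nat_lit 284)) (XT.lf (nat_lit 0) (nat_lit 11405022282) (nat_lit 76) (nat_lit 14973794171) (nat_lit 76) (nat_lit 1783484431) (nat_lit 24) (nat_lit 4) (nat_lit 25) (nat_lit 5) (nat_lit 25) (nat_lit 4) (nat_lit 406) (nat_lit 331) (nat_lit 283)))) (XT.nd (nat_lit 156) (nat_lit 76) (nat_lit 0) (XT.nd (nat_lit 78) (nat_lit 76) (nat_lit 0) (XT.lf (nat_lit 0) (nat_lit 4631998884) (nat_lit 152) (nat_lit 3761523212) (nat_lit 76) (nat_lit 20820783461) (nat_lit 23) (nat_lit 5) (nat_lit 25) (nat_lit 5) (nat_lit 24) (nat_lit 4) (nat_lit 407) (nat_lit 331) (nat_lit 282)) (XT.lf (nat_lit 0) (nat_lit 10073391296) (nat_lit 76) (nat_lit 1338385252) (nat_lit 152) (nat_lit 18900503637) (nat_lit 22) (nat_lit 5) (nat_lit 23) (nat_lit 5) (nat_lit 24) (nat_lit 4) (nat_lit 408) (nat_lit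 331) (nat_lit 281))) (XT.nd (nat_lit 78) (nat_lit 76) (nat_lit 0) (XT.lf (nat_lit 0) (nat_lit 18636434554) (nat_lit 152) (nat_lit 6931137281) (nat_lit 0) (nat_lit 5892291367) (nat_lit 22) (nat_lit 5) (nat_lit 24) (nat_lit 4) (nat_lit 22) (nat_lit 4) (nat_lit 409) (nat_lit 331) (nat_lit 280)) (XT.lf (nat_lit 0) (nat_lit 7149847934) (nat_lit 76) (nat_lit 19154982563) (nat_lit 76) (nat_lit 6355873648) (nat_lit 21) (nat_lit 4) (nat_lit 22) (nat_lit 5) (nat_lit 22) (nat_lit 4) (nat_lit 410) (nat_lit 331) (nat_lit 279))))))) (XT.nd (nat_lit 1092) (nat_lit 304) (nat_lit 0) (XT.nd (nat_lit 546) (nat_lit 228) (nat_lit 0) (XT.nd (nat_lit 234) (nat_lit 228) (nat_lit 0) (XT.nd (nat_lit 78) (nat_lit 76) (nat_lit 0) (XT.lf (nat_lit 0) (nat_lit 489460275) (nat_lit 152) (nat_lit 11848063664) (nat_lit 76) (nat_lit 21580310938) (nat_lit 20) (nat_lit 5) (nat_lit 22) (nat_lit 5) (nat_lit 21) (nat_lit 4) (nat_lit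 411) (nat_lit 331) (nat_lit 278)) (XT.nd (nat_lit 78) (nat_lit 0) (nat_lit 0) (XT.lf (nat_lit 0) (nat_lit 2375273943) (nat_lit 76) (nat_lit 5076719573) (nat_lit 152) (nat_lit 27781195793) (nat_lit 19) (nat_lit 5) (nat_lit 20) (nat_lit 5) (nat_lit 21) (nat_lit 4) (nat_lit 412) (nat_lit 331) (nat_lit 277)) (XT.lf (nat_lit 0) (nat_lit 14957965999) (nat_lit 152) (nat_lit 19020802129) (nat_lit 0) (nat_lit 2625781019) (nat_lit 19) (nat_lit 5) (nat_lit 21) (nat_lit 4) (nat_lit 19) (nat_lit 4) (nat_lit 413) (nat_lit 331) (nat_lit 276)))) (XT.nd (nat_lit 156) (nat_lit 152) (nat_lit 0) (XT.nd (nat_lit 78) (nat_lit 76) (nat_lit 0) (XT.lf (nat_lit 0) (nat_lit 22876369389) (nat_lit 152) (nat_lit 4665136809) (nat_lit 0) (nat_lit 10501117322) (nat_lit 19) (nat_lit 5) (nat_lit 21) (nat_lit 4) (nat_lit 19) (nat_lit 4) (nat_lit 414) (nat_lit 331) (nat_lit 275)) (XT.lf (nat_lit 0) (nat_lit 10663831783) (nat_lit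 76) (nat_lit 20649455724) (nat_lit 76) (nat_lit 8233187384) (nat_lit 18) (nat_lit 4) (nat_lit 19) (nat_lit 5) (nat_lit 19) (nat_lit 4) (nat_lit 415) (nat_lit 331) (nat_lit 274))) (XT.nd (nat_lit 78) (nat_lit 152) (nat_lit 0) (XT.lf (nat_lit 0) (nat_lit 26836806311) (nat_lit 76) (nat_lit 13371126390) (nat_lit 76) (nat_lit 915794932) (nat_lit 18) (nat_lit 4) (nat_lit 19) (nat_lit 5) (nat_lit 19) (nat_lit 4) (nat_lit 416) (nat_lit 331) (nat_lit 273)) (XT.lf (nat_lit 0) (nat_lit 879301400) (nat_lit 76) (nat_lit 5643545344) (nat_lit 152) (nat_lit 36253116869) (nat_lit 16) (nat_lit 5) (nat_lit 17) (nat_lit 5) (nat_lit 18) (nat_lit 4) (nat_lit 417) (nat_lit 331) (nat_lit 272))))) (XT.nd (nat_lit 234) (nat_lit 152) (nat_lit 0) (XT.nd (nat_lit 78) (nat_lit 76) (nat_lit 0) (XT.lf (nat_lit 0) (nat_lit 14545504999) (nat_lit 152) (nat_lit 27338306179) (nat_lit 0) (nat_lit 2614108974) (nat_lit 16) (nat_lit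 5) (nat_lit 18) (nat_lit 4) (nat_lit 16) (nat_lit 4) (nat_lit 418) (nat_lit 331) (nat_lit 271)) (XT.nd (nat_lit 78) (nat_lit 76) (nat_lit 0) (XT.lf (nat_lit 0) (nat_lit 23022164441) (nat_lit 152) (nat_lit 12222537926) (nat_lit 0) (nat_lit 11058631093) (nat_lit 16) (nat_lit 5) (nat_lit 18) (nat_lit 4) (nat_lit 16) (nat_lit 4) (nat_lit 419) (nat_lit 331) (nat_lit 270)) (XT.lf (nat_lit 0) (nat_lit 3692941207) (nat_lit 76) (nat_lit 28249611988) (nat_lit 76) (nat_lit 16255471665) (nat_lit 15) (nat_lit 4) (nat_lit 16) (nat_lit 5) (nat_lit 16) (nat_lit 4) (nat_lit 420) (nat_lit 331) (nat_lit 269)))) (XT.nd (nat_lit 156) (nat_lit 152) (nat_lit 0) (XT.nd (nat_lit 78) (nat_lit 0) (nat_lit 0) (XT.lf (nat_lit 0) (nat_lit 20755456483) (nat_lit 76) (nat_lit 20723395878) (nat_lit 76) (nat_lit 8700106055) (nat_lit 15) (nat_lit 4) (nat_lit 16) (nat_lit 5) (nat_lit 16) (nat_lit 4) (nat_lit 421) (nat_lit 331)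 (nat_lit 268)) (XT.lf (nat_lit 0) (nat_lit 38601500635) (nat_lit 76) (nat_lit 12855129071) (nat_lit 76) (nat_lit 804077820) (nat_lit 15) (nat_lit 4) (nat_lit 16) (nat_lit 5) (nat_lit 16) (nat_lit 4) (nat_lit 422) (nat_lit 331) (nat_lit 267))) (XT.nd (nat_lit 78) (nat_lit 0) (nat_lit 0) (XT.lf (nat_lit 0) (nat_lit 2798569779) (nat_lit 76) (nat_lit 4458045092) (nat_lit 152) (nat_lit 47183612314) (nat_lit 13) (nat_lit 5) (nat_lit 14) (nat_lit 5) (nat_lit 15) (nat_lit 4) (nat_lit 423) (nat_lit 331) (nat_lit 266)) (XT.lf (nat_lit 0) (nat_lit 15962366891) (nat_lit 152) (nat_lit 36316232837) (nat_lit 0) (nat_lit 4436013424) (nat_lit 13) (nat_lit 5) (nat_lit 15) (nat_lit 4) (nat_lit 13) (nat_lit 4) (nat_lit 424) (nat_lit 331) (nat_lit 265)))))) (XT.nd (nat_lit 546) (nat_lit 76) (nat_lit 0) (XT.nd (nat_lit 234) (nat_lit 152) (nat_lit 0) (XT.nd (nat_lit 78) (nat_lit 76) (nat_lit 0) (XT.lf (nat_lit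 0) (nat_lit 25143989171) (nat_lit 152) (nat_lit 20361905482) (nat_lit 0) (nat_lit 13594796308) (nat_lit 13) (nat_lit 5) (nat_lit 15) (nat_lit 4) (nat_lit 13) (nat_lit 4) (nat_lit 425) (nat_lit 331) (nat_lit 264)) (XT.nd (nat_lit 78) (nat_lit 76) (nat_lit 0) (XT.lf (nat_lit 0) (nat_lit 34753740138) (nat_lit 152) (nat_lit 3671086268) (nat_lit 0) (nat_lit 23182795470) (nat_lit 13) (nat_lit 5) (nat_lit 15) (nat_lit 4) (nat_lit 13) (nat_lit 4) (nat_lit 426) (nat_lit 331) (nat_lit 263)) (XT.lf (nat_lit 0) (nat_lit 14252121752) (nat_lit 76) (nat_lit 30784893961) (nat_lit 76) (nat_lit 19193233288) (nat_lit 12) (nat_lit 4) (nat_lit 13) (nat_lit 5) (nat_lit 13) (nat_lit 4) (nat_lit 427) (nat_lit 331) (nat_lit 262)))) (XT.nd (nat_lit 156) (nat_lit 152) (nat_lit 0) (XT.nd (nat_lit 78) (nat_lit 0) (nat_lit 0) (XT.lf (nat_lit 0) (nat_lit 33141573412) (nat_lit 76) (nat_lit 22726082831) (nat_lit 76) (nat_lit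 11114692628) (nat_lit 12) (nat_lit 4) (nat_lit 13) (nat_lit 5) (nat_lit 13) (nat_lit 4) (nat_lit 428) (nat_lit 331) (nat_lit 261)) (XT.lf (nat_lit 0) (nat_lit 52920860904) (nat_lit 76) (nat_lit 14291376990) (nat_lit 76) (nat_lit 2661196760) (nat_lit 12) (nat_lit 4) (nat_lit 13) (nat_lit 5) (nat_lit 13) (nat_lit 4) (nat_lit 429) (nat_lit 331) (nat_lit 260))) (XT.nd (nat_lit 78) (nat_lit 0) (nat_lit 0) (XT.lf (nat_lit 0) (nat_lit 650918980) (nat_lit 76) (nat_lit 5348590519) (nat_lit 152) (nat_lit 66905542141) (nat_lit 10) (nat_lit 5) (nat_lit 11) (nat_lit 5) (nat_lit 12) (nat_lit 4) (nat_lit 430) (nat_lit 331) (nat_lit 259)) (XT.lf (nat_lit 0) (nat_lit 15332067400) (nat_lit 152) (nat_lit 56515158822) (nat_lit 0) (nat_lit 4222430635) (nat_lit 10) (nat_lit 5) (nat_lit 12) (nat_lit 4) (nat_lit 10) (nat_lit 4) (nat_lit 431) (nat_lit 331) (nat_lit 258))))) (XT.nd (nat_lit 234) (nat_lit 76) (nat_lit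 0) (XT.nd (nat_lit 78) (nat_lit 0) (nat_lit 0) (XT.lf (nat_lit 0) (nat_lit 25193551027) (nat_lit 152) (nat_lit 40127371889) (nat_lit 0) (nat_lit 14068455660) (nat_lit 10) (nat_lit 5) (nat_lit 12) (nat_lit 4) (nat_lit 10) (nat_lit 4) (nat_lit 432) (nat_lit 331) (nat_lit 257)) (XT.nd (nat_lit 78) (nat_lit 0) (nat_lit 0) (XT.lf (nat_lit 0) (nat_lit 35523933617) (nat_lit 152) (nat_lit 22968246832) (nat_lit 0) (nat_lit 24384115772) (nat_lit 10) (nat_lit 5) (nat_lit 12) (nat_lit 4) (nat_lit 10) (nat_lit 4) (nat_lit 433) (nat_lit 331) (nat_lit 256)) (XT.lf (nat_lit 0) (nat_lit 46347811317) (nat_lit 152) (nat_lit 4996928594) (nat_lit 0) (nat_lit 35193972065) (nat_lit 10) (nat_lit 5) (nat_lit 12) (nat_lit 4) (nat_lit 10) (nat_lit 4) (nat_lit 434) (nat_lit 331) (nat_lit 255)))) (XT.nd (nat_lit 156) (nat_lit 0) (nat_lit 0) (XT.nd (nat_lit 78) (nat_lit 0) (nat_lit 0) (XT.lf (nat_lit 0) (nat_lit 14286633162)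 (nat_lit 76) (nat_lit 43627376487) (nat_lit 76) (nat_lit 32460183512) (nat_lit 9) (nat_lit 4) (nat_lit 10) (nat_lit 5) (nat_lit 10) (nat_lit 4) (nat_lit 435) (nat_lit 331) (nat_lit 254)) (XT.lf (nat_lit 0) (nat_lit 34664974173) (nat_lit 76) (nat_lit 35456616173) (nat_lit 76) (nat_lit 24276705368) (nat_lit 9) (nat_lit 4) (nat_lit 10) (nat_lit 5) (nat_lit 10) (nat_lit 4) (nat_lit 436) (nat_lit 331) (nat_lit 253))) (XT.nd (nat_lit 78) (nat_lit 0) (nat_lit 0) (XT.lf (nat_lit 0) (nat_lit 56021393271) (nat_lit 76) (nat_lit 26897630183) (nat_lit 76) (nat_lit 15705607159) (nat_lit 9) (nat_lit 4) (nat_lit 10) (nat_lit 5) (nat_lit 10) (nat_lit 4) (nat_lit 437) (nat_lit 331) (nat_lit 252)) (XT.lf (nat_lit 0) (nat_lit 78406739075) (nat_lit 76) (nat_lit 17930039979) (nat_lit 76) (nat_lit 6726481509) (nat_lit 9) (nat_lit 4) (nat_lit 10) (nat_lit 5) (nat_lit 10) (nat_lit 4) (nat_lit 438) (nat_lit 331) (nat_lit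 251))))))))
noncomputable def xc76 : XT := (XT.nd (nat_lit 2106) (nat_lit 76) (nat_lit 0) (XT.nd (nat_lit 1014) (nat_lit 152) (nat_lit 0) (XT.nd (nat_lit 468) (nat_lit 76) (nat_lit 0) (XT.nd (nat_lit 234) (nat_lit 0) (nat_lit 0) (XT.nd (nat_lit 78) (nat_lit 76) (nat_lit 0) (XT.lf (nat_lit 0) (nat_lit 2596208089) (nat_lit 152) (nat_lit 5892318026) (nat_lit 76) (nat_lit 99234133895) (nat_lit 8) (nat_lit 5) (nat_lit 10) (nat_lit 5) (nat_lit 9) (nat_lit 4) (nat_lit 439) (nat_lit 331) (nat_lit 250)) (XT.nd (nat_lit 78) (nat_lit 0) (nat_lit 0) (XT.lf (nat_lit 0) (nat_lit 12388732602) (nat_lit 152) (nat_lit 98511047161) (nat_lit 0) (nat_lit 1698249172) (nat_lit 7) (nat_lit 5) (nat_lit 9) (nat_lit 4) (nat_lit 7) (nat_lit 4) (nat_lit 440) (nat_lit 331) (nat_lit 249)) (XT.lf (nat_lit 0) (nat_lit 22893474249) (nat_lit 152) (nat_lit 82619062629) (nat_lit 0) (nat_lit 12193500579) (nat_lit 7) (nat_lit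 5) (nat_lit 9) (nat_lit 4) (nat_lit 7) (nat_lit 4) (nat_lit 441) (nat_lit 331) (nat_lit 248)))) (XT.nd (nat_lit 78) (nat_lit 0) (nat_lit 0) (XT.lf (nat_lit 0) (nat_lit 33906319261) (nat_lit 152) (nat_lit 65966677226) (nat_lit 0) (nat_lit 23197307266) (nat_lit 7) (nat_lit 5) (nat_lit 9) (nat_lit 4) (nat_lit 7) (nat_lit 4) (nat_lit 442) (nat_lit 331) (nat_lit 247)) (XT.nd (nat_lit 78) (nat_lit 0) (nat_lit 0) (XT.lf (nat_lit 0) (nat_lit 45453488696) (nat_lit 152) (nat_lit 48514242415) (nat_lit 0) (nat_lit 34735868774) (nat_lit 7) (nat_lit 5) (nat_lit 9) (nat_lit 4) (nat_lit 7) (nat_lit 4) (nat_lit 443) (nat_lit 331) (nat_lit 246)) (XT.lf (nat_lit 0) (nat_lit 57562475817) (nat_lit 152) (nat_lit 30220204779) (nat_lit 0) (nat_lit 46836657868) (nat_lit 7) (nat_lit 5) (nat_lit 9) (nat_lit 4) (nat_lit 7) (nat_lit 4) (nat_lit 444) (nat_lit 331) (nat_lit 245))))) (XT.nd (nat_lit 234) (nat_lit 0) (nat_lit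 0) (XT.nd (nat_lit 78) (nat_lit 76) (nat_lit 0) (XT.lf (nat_lit 0) (nat_lit 70262111545) (nat_lit 152) (nat_lit 11041007087) (nat_lit 0) (nat_lit 59528485951) (nat_lit 7) (nat_lit 5) (nat_lit 9) (nat_lit 4) (nat_lit 7) (nat_lit 4) (nat_lit 445) (nat_lit 331) (nat_lit 244)) (XT.nd (nat_lit 78) (nat_lit 0) (nat_lit 0) (XT.lf (nat_lit 0) (nat_lit 9368878024) (nat_lit 76) (nat_lit 74360029524) (nat_lit 76) (nat_lit 63618968078) (nat_lit 6) (nat_lit 4) (nat_lit 7) (nat_lit 5) (nat_lit 7) (nat_lit 4) (nat_lit 446) (nat_lit 331) (nat_lit 243)) (XT.lf (nat_lit 0) (nat_lit 31154894946) (nat_lit 76) (nat_lit 66887276305) (nat_lit 76) (nat_lit 56139133096) (nat_lit 6) (nat_lit 4) (nat_lit 7) (nat_lit 5) (nat_lit 7) (nat_lit 4) (nat_lit 447) (nat_lit 331) (nat_lit 242)))) (XT.nd (nat_lit 156) (nat_lit 0) (nat_lit 0) (XT.nd (nat_lit 78) (nat_lit 0) (nat_lit 0) (XT.lf (nat_lit 0) (nat_lit 54003849590)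 (nat_lit 76) (nat_lit 59054051503) (nat_lit 76) (nat_lit 48299163757) (nat_lit 6) (nat_lit 4) (nat_lit 7) (nat_lit 5) (nat_lit 7) (nat_lit 4) (nat_lit 448) (nat_lit 331) (nat_lit 241)) (XT.lf (nat_lit 0) (nat_lit 77970144230) (nat_lit 76) (nat_lit 50841704583) (nat_lit 76) (nat_lit 40080393468) (nat_lit 6) (nat_lit 4) (nat_lit 7) (nat_lit 5) (nat_lit 7) (nat_lit 4) (nat_lit 449) (nat_lit 331) (nat_lit 240))) (XT.nd (nat_lit 78) (nat_lit 0) (nat_lit 0) (XT.lf (nat_lit 0) (nat_lit 103110841471) (nat_lit 76) (nat_lit 42230682337) (nat_lit 76) (nat_lit 31463253728) (nat_lit 6) (nat_lit 4) (nat_lit 7) (nat_lit 5) (nat_lit 7) (nat_lit 4) (nat_lit 450) (nat_lit 331) (nat_lit 239)) (XT.lf (nat_lit 0) (nat_lit 129485800117) (nat_lit 76) (nat_lit 33200482331) (nat_lit 76) (nat_lit 22427227538) (nat_lit 6) (nat_lit 4) (nat_lit 7) (nat_lit 5) (nat_lit 7) (nat_lit 4) (nat_lit 451) (nat_lit 331) (nat_lit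 238)))))) (XT.nd (nat_lit 546) (nat_lit 0) (nat_lit 0) (XT.nd (nat_lit 234) (nat_lit 0) (nat_lit 0) (XT.nd (nat_lit 78) (nat_lit 152) (nat_lit 0) (XT.lf (nat_lit 0) (nat_lit 157157817688) (nat_lit 76) (nat_lit 23729604090) (nat_lit 76) (nat_lit 12950800550) (nat_lit 6) (nat_lit 4) (nat_lit 7) (nat_lit 5) (nat_lit 7) (nat_lit 4) (nat_lit 452) (nat_lit 331) (nat_lit 237)) (XT.nd (nat_lit 78) (nat_lit 152) (nat_lit 0) (XT.lf (nat_lit 0) (nat_lit 186192779939) (nat_lit 76) (nat_lit 13795497904) (nat_lit 76) (nat_lit 3011409842) (nat_lit 6) (nat_lit 4) (nat_lit 7) (nat_lit 5) (nat_lit 7) (nat_lit 4) (nat_lit 453) (nat_lit 331) (nat_lit 236)) (XT.lf (nat_lit 0) (nat_lit 4054092089) (nat_lit 76) (nat_lit 3186499631) (nat_lit 152) (nat_lit 205370174423) (nat_lit 4) (nat_lit 5) (nat_lit 5) (nat_lit 5) (nat_lit 6) (nat_lit 4) (nat_lit 454) (nat_lit 331) (nat_lit 235)))) (XT.nd (nat_lit 156) (nat_lit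 0) (nat_lit 0) (XT.nd (nat_lit 78) (nat_lit 0) (nat_lit 0) (XT.lf (nat_lit 0) (nat_lit 18307463380) (nat_lit 152) (nat_lit 196344748315) (nat_lit 0) (nat_lit 8027545137) (nat_lit 4) (nat_lit 5) (nat_lit 6) (nat_lit 4) (nat_lit 4) (nat_lit 4) (nat_lit 455) (nat_lit 331) (nat_lit 234)) (XT.lf (nat_lit 0) (nat_lit 29970398311) (nat_lit 152) (nat_lit 183593530599) (nat_lit 0) (nat_lit 19686132479) (nat_lit 4) (nat_lit 5) (nat_lit 6) (nat_lit 4) (nat_lit 4) (nat_lit 4) (nat_lit 456) (nat_lit 331) (nat_lit 233))) (XT.nd (nat_lit 78) (nat_lit 0) (nat_lit 0) (XT.lf (nat_lit 0) (nat_lit 42207415217) (nat_lit 152) (nat_lit 170222910677) (nat_lit 0) (nat_lit 31919008824) (nat_lit 4) (nat_lit 5) (nat_lit 6) (nat_lit 4) (nat_lit 4) (nat_lit 4) (nat_lit 457) (nat_lit 331) (nat_lit 232)) (XT.lf (nat_lit 0) (nat_lit 55047649851) (nat_lit 152) (nat_lit 156201053739) (nat_lit 0) (nat_lit 44755300068) (nat_lit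 4) (nat_lit 5) (nat_lit 6) (nat_lit 4) (nat_lit 4) (nat_lit 4) (nat_lit 458) (nat_lit 331) (nat_lit 231))))) (XT.nd (nat_lit 234) (nat_lit 0) (nat_lit 0) (XT.nd (nat_lit 78) (nat_lit 0) (nat_lit 0) (XT.lf (nat_lit 0) (nat_lit 68521674201) (nat_lit 152) (nat_lit 141494574410) (nat_lit 0) (nat_lit 58225568808) (nat_lit 4) (nat_lit 5) (nat_lit 6) (nat_lit 4) (nat_lit 4) (nat_lit 4) (nat_lit 459) (nat_lit 331) (nat_lit 230)) (XT.nd (nat_lit 78) (nat_lit 0) (nat_lit 0) (XT.lf (nat_lit 0) (nat_lit 82661569279) (nat_lit 152) (nat_lit 126068457265) (nat_lit 0) (nat_lit 72361887113) (nat_lit 4) (nat_lit 5) (nat_lit 6) (nat_lit 4) (nat_lit 4) (nat_lit 4) (nat_lit 460) (nat_lit 331) (nat_lit 229)) (XT.lf (nat_lit 0) (nat_lit 97501001499) (nat_lit 152) (nat_lit 109885973452) (nat_lit 0) (nat_lit 87197912884) (nat_lit 4) (nat_lit 5) (nat_lit 6) (nat_lit 4) (nat_lit 4) (nat_lit 4) (nat_lit 461) (nat_lit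 331) (nat_lit 228)))) (XT.nd (nat_lit 156) (nat_lit 0) (nat_lit 0) (XT.nd (nat_lit 78) (nat_lit 0) (nat_lit 0) (XT.lf (nat_lit 0) (nat_lit 113075302845) (nat_lit 152) (nat_lit 92908593248) (nat_lit 0) (nat_lit 102768969992) (nat_lit 4) (nat_lit 5) (nat_lit 6) (nat_lit 4) (nat_lit 4) (nat_lit 4) (nat_lit 462) (nat_lit 331) (nat_lit 227)) (XT.lf (nat_lit 0) (nat_lit 129421554985) (nat_lit 152) (nat_lit 75095894321) (nat_lit 0) (nat_lit 119112132382) (nat_lit 4) (nat_lit 5) (nat_lit 6) (nat_lit 4) (nat_lit 4) (nat_lit 4) (nat_lit 463) (nat_lit 331) (nat_lit 226))) (XT.nd (nat_lit 78) (nat_lit 0) (nat_lit 0) (XT.lf (nat_lit 0) (nat_lit 146578677568) (nat_lit 152) (nat_lit 56405465480) (nat_lit 0) (nat_lit 136266312346) (nat_lit 4) (nat_lit 5) (nat_lit 6) (nat_lit 4) (nat_lit 4) (nat_lit 4) (nat_lit 464) (nat_lit 331) (nat_lit 225)) (XT.lf (nat_lit 0) (nat_lit 164587520885) (nat_lit 152) (nat_lit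 36792805706) (nat_lit 0) (nat_lit 154272353169) (nat_lit 4) (nat_lit 5) (nat_lit 6) (nat_lit 4) (nat_lit 4) (nat_lit 4) (nat_lit 465) (nat_lit 331) (nat_lit 224))))))) (XT.nd (nat_lit 1014) (nat_lit 0) (nat_lit 0) (XT.nd (nat_lit 468) (nat_lit 0) (nat_lit 0) (XT.nd (nat_lit 234) (nat_lit 0) (nat_lit 0) (XT.nd (nat_lit 78) (nat_lit 76) (nat_lit 0) (XT.lf (nat_lit 0) (nat_lit 183490963136) (nat_lit 152) (nat_lit 16211218190) (nat_lit 0) (nat_lit 173173126378) (nat_lit 4) (nat_lit 5) (nat_lit 6) (nat_lit 4) (nat_lit 4) (nat_lit 4) (nat_lit 466) (nat_lit 331) (nat_lit 223)) (XT.nd (nat_lit 78) (nat_lit 0) (nat_lit 0) (XT.lf (nat_lit 0) (nat_lit 5566462408) (nat_lit 76) (nat_lit 197854458185) (nat_lit 76) (nat_lit 187534079482) (nat_lit 3) (nat_lit 4) (nat_lit 4) (nat_lit 5) (nat_lit 4) (nat_lit 4) (nat_lit 467) (nat_lit 331) (nat_lit 222)) (XT.lf (nat_lit 0) (nat_lit 28984875876) (nat_lit 76)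 (nat_lit 195631573645) (nat_lit 76) (nat_lit 185308774041) (nat_lit 3) (nat_lit 4) (nat_lit 4) (nat_lit 5) (nat_lit 4) (nat_lit 4) (nat_lit 468) (nat_lit 331) (nat_lit 221)))) (XT.nd (nat_lit 78) (nat_lit 0) (nat_lit 0) (XT.lf (nat_lit 0) (nat_lit 53563764257) (nat_lit 76) (nat_lit 193302779947) (nat_lit 76) (nat_lit 182977674724) (nat_lit 3) (nat_lit 4) (nat_lit 4) (nat_lit 5) (nat_lit 4) (nat_lit 4) (nat_lit 469) (nat_lit 331) (nat_lit 220)) (XT.nd (nat_lit 78) (nat_lit 0) (nat_lit 0) (XT.lf (nat_lit 0) (nat_lit 79361648713) (nat_lit 76) (nat_lit 190862532344) (nat_lit 76) (nat_lit 180535231294) (nat_lit 3) (nat_lit 4) (nat_lit 4) (nat_lit 5) (nat_lit 4) (nat_lit 4) (nat_lit 470) (nat_lit 331) (nat_lit 219)) (XT.lf (nat_lit 0) (nat_lit 106439952778) (nat_lit 76) (nat_lit 188305020723) (nat_lit 76) (nat_lit 177975628409) (nat_lit 3) (nat_lit 4) (nat_lit 4) (nat_lit 5) (nat_lit 4) (nat_lit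 4) (nat_lit 471) (nat_lit 331) (nat_lit 218))))) (XT.nd (nat_lit 234) (nat_lit 0) (nat_lit 0) (XT.nd (nat_lit 78) (nat_lit 0) (nat_lit 0) (XT.lf (nat_lit 0) (nat_lit 134863148605) (nat_lit 76) (nat_lit 185624155772) (nat_lit 76) (nat_lit 175292771777) (nat_lit 3) (nat_lit 4) (nat_lit 4) (nat_lit 5) (nat_lit 4) (nat_lit 4) (nat_lit 472) (nat_lit 331) (nat_lit 217)) (XT.nd (nat_lit 78) (nat_lit 0) (nat_lit 0) (XT.lf (nat_lit 0) (nat_lit 164698910469) (nat_lit 76) (nat_lit 182813554477) (nat_lit 76) (nat_lit 172480273644) (nat_lit 3) (nat_lit 4) (nat_lit 4) (nat_lit 5) (nat_lit 4) (nat_lit 4) (nat_lit 473) (nat_lit 331) (nat_lit 216)) (XT.lf (nat_lit 0) (nat_lit 196018275899) (nat_lit 76) (nat_lit 179866524932) (nat_lit 76) (nat_lit 169531437586) (nat_lit 3) (nat_lit 4) (nat_lit 4) (nat_lit 5) (nat_lit 4) (nat_lit 4) (nat_lit 474) (nat_lit 331) (nat_lit 215)))) (XT.nd (nat_lit 156) (nat_lit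 0) (nat_lit 0) (XT.nd (nat_lit 78) (nat_lit 0) (nat_lit 0) (XT.lf (nat_lit 0) (nat_lit 228895814813) (nat_lit 76) (nat_lit 176776050399) (nat_lit 76) (nat_lit 166439242564) (nat_lit 3) (nat_lit 4) (nat_lit 4) (nat_lit 5) (nat_lit 4) (nat_lit 4) (nat_lit 475) (nat_lit 331) (nat_lit 214)) (XT.lf (nat_lit 0) (nat_lit 263409807065) (nat_lit 76) (nat_lit 173534772605) (nat_lit 76) (nat_lit 163196326210) (nat_lit 3) (nat_lit 4) (nat_lit 4) (nat_lit 5) (nat_lit 4) (nat_lit 4) (nat_lit 476) (nat_lit 331) (nat_lit 213))) (XT.nd (nat_lit 78) (nat_lit 0) (nat_lit 0) (XT.lf (nat_lit 0) (nat_lit 299642428827) (nat_lit 76) (nat_lit 170134974223) (nat_lit 76) (nat_lit 159794967294) (nat_lit 3) (nat_lit 4) (nat_lit 4) (nat_lit 5) (nat_lit 4) (nat_lit 4) (nat_lit 477) (nat_lit 331) (nat_lit 212)) (XT.lf (nat_lit 0) (nat_lit 337679948246) (nat_lit 76) (nat_lit 166568560495) (nat_lit 76) (nat_lit 156227067343)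 (nat_lit 3) (nat_lit 4) (nat_lit 4) (nat_lit 5) (nat_lit 4) (nat_lit 4) (nat_lit 478) (nat_lit 331) (nat_lit 211)))))) (XT.nd (nat_lit 43602) (nat_lit 0) (nat_lit 6688) (XT.nd (nat_lit 234) (nat_lit 0) (nat_lit 0) (XT.nd (nat_lit 78) (nat_lit 0) (nat_lit 0) (XT.lf (nat_lit 0) (nat_lit 377612930845) (nat_lit 76) (nat_lit 162827039958) (nat_lit 76) (nat_lit 152484131356) (nat_lit 3) (nat_lit 4) (nat_lit 4) (nat_lit 5) (nat_lit 4) (nat_lit 4) (nat_lit 479) (nat_lit 331) (nat_lit 210)) (XT.nd (nat_lit 78) (nat_lit 0) (nat_lit 0) (XT.lf (nat_lit 0) (nat_lit 419536455153) (nat_lit 76) (nat_lit 158901504231) (nat_lit 76) (nat_lit 148557247582) (nat_lit 3) (nat_lit 4) (nat_lit 4) (nat_lit 5) (nat_lit 4) (nat_lit 4) (nat_lit 480) (nat_lit 331) (nat_lit 209)) (XT.lf (nat_lit 0) (nat_lit 463550339086) (nat_lit 76) (nat_lit 154782606801) (nat_lit 76) (nat_lit 144437066296) (nat_lit 3) (nat_lit 4) (nat_lit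 4) (nat_lit 5) (nat_lit 4) (nat_lit 4) (nat_lit 481) (nat_lit 331) (nat_lit 208)))) (XT.nd (nat_lit 156) (nat_lit 0) (nat_lit 0) (XT.nd (nat_lit 78) (nat_lit 0) (nat_lit 0) (XT.lf (nat_lit 0) (nat_lit 509759377605) (nat_lit 76) (nat_lit 150460540768) (nat_lit 76) (nat_lit 140113777544) (nat_lit 3) (nat_lit 4) (nat_lit 4) (nat_lit 5) (nat_lit 4) (nat_lit 4) (nat_lit 482) (nat_lit 331) (nat_lit 207)) (XT.lf (nat_lit 0) (nat_lit 558273592231) (nat_lit 76) (nat_lit 145925015499) (nat_lit 76) (nat_lit 135577087781) (nat_lit 3) (nat_lit 4) (nat_lit 4) (nat_lit 5) (nat_lit 4) (nat_lit 4) (nat_lit 483) (nat_lit 331) (nat_lit 206))) (XT.nd (nat_lit 43134) (nat_lit 0) (nat_lit 9500) (XT.lf (nat_lit 0) (nat_lit 609208492998) (nat_lit 76) (nat_lit 141165232125) (nat_lit 76) (nat_lit 130816195365) (nat_lit 3) (nat_lit 4) (nat_lit 4) (nat_lit 5) (nat_lit 4) (nat_lit 4) (nat_lit 484) (nat_lit 331) (nat_lit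 205)) (XT.lf (nat_lit 0) (nat_lit 3447617653) (nat_lit 684) (nat_lit 75761421) (nat_lit 684) (nat_lit 75761421) (nat_lit 128) (nat_lit 4) (nat_lit 137) (nat_lit 5) (nat_lit 137) (nat_lit 4) (nat_lit 356) (nat_lit 332) (nat_lit 332))))) (XT.nd (nat_lit 234) (nat_lit 1140) (nat_lit 0) (XT.nd (nat_lit 78) (nat_lit 836) (nat_lit 0) (XT.lf (nat_lit 0) (nat_lit 3344810624) (nat_lit 836) (nat_lit 2199378194) (nat_lit 0) (nat_lit 1752038562) (nat_lit 117) (nat_lit 5) (nat_lit 128) (nat_lit 4) (nat_lit 117) (nat_lit 4) (nat_lit 357) (nat_lit 332) (nat_lit 331)) (XT.nd (nat_lit 78) (nat_lit 456) (nat_lit 0) (XT.lf (nat_lit 0) (nat_lit 3300066446) (nat_lit 380) (nat_lit 3606941249) (nat_lit 380) (nat_lit 497243413) (nat_lit 112) (nat_lit 4) (nat_lit 117) (nat_lit 5) (nat_lit 117) (nat_lit 4) (nat_lit 358) (nat_lit 332) (nat_lit 330)) (XT.lf (nat_lit 0) (nat_lit 1450499485) (nat_lit 380) (nat_lit 1478714433)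 (nat_lit 456) (nat_lit 4591132656) (nat_lit 106) (nat_lit 5) (nat_lit 111) (nat_lit 5) (nat_lit 112) (nat_lit 4) (nat_lit 359) (nat_lit 332) (nat_lit 329)))) (XT.nd (nat_lit 156) (nat_lit 684) (nat_lit 0) (XT.nd (nat_lit 78) (nat_lit 456) (nat_lit 0) (XT.lf (nat_lit 0) (nat_lit 6436483981) (nat_lit 456) (nat_lit 420548184) (nat_lit 0) (nat_lit 788593083) (nat_lit 106) (nat_lit 5) (nat_lit 112) (nat_lit 4) (nat_lit 106) (nat_lit 4) (nat_lit 360) (nat_lit 332) (nat_lit 328)) (XT.lf (nat_lit 0) (nat_lit 2227341281) (nat_lit 456) (nat_lit 2329819858) (nat_lit 76) (nat_lit 3220248174) (nat_lit 100) (nat_lit 5) (nat_lit 106) (nat_lit 5) (nat_lit 101) (nat_lit 4) (nat_lit 361) (nat_lit 332) (nat_lit 327))) (XT.nd (nat_lit 78) (nat_lit 380) (nat_lit 0) (XT.lf (nat_lit 0) (nat_lit 3625085046) (nat_lit 304) (nat_lit 2086868889) (nat_lit 380) (nat_lit 2207073455) (nat_lit 96) (nat_lit 5) (nat_lit 100)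 (nat_lit 5) (nat_lit 101) (nat_lit 4) (nat_lit 362) (nat_lit 332) (nat_lit 326)) (XT.lf (nat_lit 0) (nat_lit 1192452576) (nat_lit 380) (nat_lit 6332971161) (nat_lit 76) (nat_lit 544806244) (nat_lit 91) (nat_lit 5) (nat_lit 96) (nat_lit 5) (nat_lit 92) (nat_lit 4) (nat_lit 363) (nat_lit 332) (nat_lit 325))))))))
noncomputable def xc77 : XT := (XT.nd (nat_lit 2106) (nat_lit 1672) (nat_lit 0) (XT.nd (nat_lit 1014) (nat_lit 1596) (nat_lit 0) (XT.nd (nat_lit 468) (nat_lit 1216) (nat_lit 0) (XT.nd (nat_lit 234) (nat_lit 532) (nat_lit 0) (XT.nd (nat_lit 78) (nat_lit 608) (nat_lit 0) (XT.lf (nat_lit 0) (nat_lit 4654374905) (nat_lit 380) (nat_lit 262745460) (nat_lit 76) (nat_lit 3311805318) (nat_lit 91) (nat_lit 5) (nat_lit 96) (nat_lit 5) (nat_lit 92) (nat_lit 4) (nat_lit 364) (nat_lit 332) (nat_lit 324)) (XT.nd (nat_lit 78) (nat_lit 380) (nat_lit 0) (XT.lf (nat_lit 0) (nat_lit 6131130610) (nat_lit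 228) (nat_lit 2119195489) (nat_lit 304) (nat_lit 147251683) (nat_lit 88) (nat_lit 5) (nat_lit 91) (nat_lit 5) (nat_lit 92) (nat_lit 4) (nat_lit 365) (nat_lit 332) (nat_lit 323)) (XT.lf (nat_lit 0) (nat_lit 3291579339) (nat_lit 380) (nat_lit 4407784955) (nat_lit 76) (nat_lit 875134101) (nat_lit 83) (nat_lit 5) (nat_lit 88) (nat_lit 5) (nat_lit 84) (nat_lit 4) (nat_lit 366) (nat_lit 332) (nat_lit 322)))) (XT.nd (nat_lit 78) (nat_lit 304) (nat_lit 0) (XT.lf (nat_lit 0) (nat_lit 2090295770) (nat_lit 228) (nat_lit 4783118572) (nat_lit 304) (nat_lit 1887988405) (nat_lit 80) (nat_lit 5) (nat_lit 83) (nat_lit 5) (nat_lit 84) (nat_lit 4) (nat_lit 367) (nat_lit 332) (nat_lit 321)) (XT.nd (nat_lit 78) (nat_lit 228) (nat_lit 0) (XT.lf (nat_lit 0) (nat_lit 1569815526) (nat_lit 304) (nat_lit 97114405) (nat_lit 76) (nat_lit 7292127408) (nat_lit 79) (nat_lit 5) (nat_lit 83) (nat_lit 5) (nat_lit 80) (nat_lit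 5) (nat_lit 368) (nat_lit 332) (nat_lit 320)) (XT.lf (nat_lit 0) (nat_lit 5147122053) (nat_lit 304) (nat_lit 2372982984) (nat_lit 76) (nat_lit 1644489964) (nat_lit 76) (nat_lit 5) (nat_lit 80) (nat_lit 5) (nat_lit 77) (nat_lit 4) (nat_lit 369) (nat_lit 332) (nat_lit 319))))) (XT.nd (nat_lit 234) (nat_lit 684) (nat_lit 0) (XT.nd (nat_lit 78) (nat_lit 304) (nat_lit 0) (XT.lf (nat_lit 0) (nat_lit 4591549409) (nat_lit 228) (nat_lit 4291891457) (nat_lit 304) (nat_lit 498009835) (nat_lit 73) (nat_lit 5) (nat_lit 76) (nat_lit 5) (nat_lit 77) (nat_lit 4) (nat_lit 370) (nat_lit 332) (nat_lit 318)) (XT.nd (nat_lit 78) (nat_lit 0) (nat_lit 0) (XT.lf (nat_lit 0) (nat_lit 2223094770) (nat_lit 228) (nat_lit 828078236) (nat_lit 304) (nat_lit 6557719928) (nat_lit 69) (nat_lit 5) (nat_lit 72) (nat_lit 5) (nat_lit 73) (nat_lit 5) (nat_lit 371) (nat_lit 332) (nat_lit 317)) (XT.lf (nat_lit 0) (nat_lit 6769981178)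 (nat_lit 304) (nat_lit 323108156) (nat_lit 76) (nat_lit 2753806511) (nat_lit 69) (nat_lit 5) (nat_lit 73) (nat_lit 5) (nat_lit 70) (nat_lit 4) (nat_lit 372) (nat_lit 332) (nat_lit 316)))) (XT.nd (nat_lit 156) (nat_lit 228) (nat_lit 0) (XT.nd (nat_lit 78) (nat_lit 228) (nat_lit 0) (XT.lf (nat_lit 0) (nat_lit 572802849) (nat_lit 228) (nat_lit 2968461805) (nat_lit 76) (nat_lit 6554452627) (nat_lit 66) (nat_lit 5) (nat_lit 69) (nat_lit 5) (nat_lit 67) (nat_lit 5) (nat_lit 373) (nat_lit 332) (nat_lit 315)) (XT.lf (nat_lit 0) (nat_lit 4270984536) (nat_lit 304) (nat_lit 5832835858) (nat_lit 76) (nat_lit 252204387) (nat_lit 63) (nat_lit 5) (nat_lit 67) (nat_lit 5) (nat_lit 64) (nat_lit 4) (nat_lit 374) (nat_lit 332) (nat_lit 314))) (XT.nd (nat_lit 78) (nat_lit 76) (nat_lit 0) (XT.lf (nat_lit 0) (nat_lit 1687477118) (nat_lit 152) (nat_lit 6492863750) (nat_lit 228) (nat_lit 2447727983) (nat_lit 61)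 (nat_lit 5) (nat_lit 63) (nat_lit 5) (nat_lit 64) (nat_lit 4) (nat_lit 375) (nat_lit 332) (nat_lit 313)) (XT.lf (nat_lit 0) (nat_lit 1319484088) (nat_lit 228) (nat_lit 1319623079) (nat_lit 76) (nat_lit 8273972157) (nat_lit 60) (nat_lit 5) (nat_lit 63) (nat_lit 5) (nat_lit 61) (nat_lit 5) (nat_lit 376) (nat_lit 332) (nat_lit 312)))))) (XT.nd (nat_lit 546) (nat_lit 684) (nat_lit 0) (XT.nd (nat_lit 234) (nat_lit 380) (nat_lit 0) (XT.nd (nat_lit 78) (nat_lit 380) (nat_lit 0) (XT.lf (nat_lit 0) (nat_lit 5217315431) (nat_lit 228) (nat_lit 4543097703) (nat_lit 76) (nat_lit 1448724712) (nat_lit 58) (nat_lit 5) (nat_lit 61) (nat_lit 5) (nat_lit 59) (nat_lit 4) (nat_lit 377) (nat_lit 332) (nat_lit 311)) (XT.nd (nat_lit 78) (nat_lit 228) (nat_lit 0) (XT.lf (nat_lit 0) (nat_lit 3478356284) (nat_lit 152) (nat_lit 5850061588) (nat_lit 228) (nat_lit 2190690804) (nat_lit 56) (nat_lit 5) (nat_lit 58) (nat_lit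 5) (nat_lit 59) (nat_lit 4) (nat_lit 378) (nat_lit 332) (nat_lit 310)) (XT.lf (nat_lit 0) (nat_lit 21247725) (nat_lit 152) (nat_lit 1698872939) (nat_lit 228) (nat_lit 10124215044) (nat_lit 53) (nat_lit 5) (nat_lit 55) (nat_lit 5) (nat_lit 56) (nat_lit 5) (nat_lit 379) (nat_lit 332) (nat_lit 309)))) (XT.nd (nat_lit 156) (nat_lit 228) (nat_lit 0) (XT.nd (nat_lit 78) (nat_lit 152) (nat_lit 0) (XT.lf (nat_lit 0) (nat_lit 5832713312) (nat_lit 228) (nat_lit 3662356761) (nat_lit 76) (nat_lit 2684989761) (nat_lit 53) (nat_lit 5) (nat_lit 56) (nat_lit 5) (nat_lit 54) (nat_lit 4) (nat_lit 380) (nat_lit 332) (nat_lit 308)) (XT.lf (nat_lit 0) (nat_lit 4873423928) (nat_lit 152) (nat_lit 5286142875) (nat_lit 228) (nat_lit 2372595134) (nat_lit 51) (nat_lit 5) (nat_lit 53) (nat_lit 5) (nat_lit 54) (nat_lit 4) (nat_lit 381) (nat_lit 332) (nat_lit 307))) (XT.nd (nat_lit 78) (nat_lit 0) (nat_lit 0) (XT.lf (nat_lit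 0) (nat_lit 902451217) (nat_lit 152) (nat_lit 823139571) (nat_lit 228) (nat_lit 11175776828) (nat_lit 48) (nat_lit 5) (nat_lit 50) (nat_lit 5) (nat_lit 51) (nat_lit 5) (nat_lit 382) (nat_lit 332) (nat_lit 306)) (XT.lf (nat_lit 0) (nat_lit 6047296260) (nat_lit 228) (nat_lit 3388977163) (nat_lit 76) (nat_lit 3845918311) (nat_lit 48) (nat_lit 5) (nat_lit 51) (nat_lit 5) (nat_lit 49) (nat_lit 4) (nat_lit 383) (nat_lit 332) (nat_lit 305))))) (XT.nd (nat_lit 234) (nat_lit 380) (nat_lit 0) (XT.nd (nat_lit 78) (nat_lit 228) (nat_lit 0) (XT.lf (nat_lit 0) (nat_lit 5664316520) (nat_lit 76) (nat_lit 4933368808) (nat_lit 152) (nat_lit 3083761009) (nat_lit 47) (nat_lit 5) (nat_lit 48) (nat_lit 5) (nat_lit 49) (nat_lit 4) (nat_lit 384) (nat_lit 332) (nat_lit 304)) (XT.nd (nat_lit 78) (nat_lit 0) (nat_lit 0) (XT.lf (nat_lit 0) (nat_lit 1047416280) (nat_lit 152) (nat_lit 172486901) (nat_lit 228) (nat_lit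 12880493702) (nat_lit 44) (nat_lit 5) (nat_lit 46) (nat_lit 5) (nat_lit 47) (nat_lit 5) (nat_lit 385) (nat_lit 332) (nat_lit 303)) (XT.lf (nat_lit 0) (nat_lit 5760379649) (nat_lit 228) (nat_lit 3974348896) (nat_lit 76) (nat_lit 4796792135) (nat_lit 44) (nat_lit 5) (nat_lit 47) (nat_lit 5) (nat_lit 45) (nat_lit 4) (nat_lit 386) (nat_lit 332) (nat_lit 302)))) (XT.nd (nat_lit 156) (nat_lit 76) (nat_lit 0) (XT.nd (nat_lit 78) (nat_lit 228) (nat_lit 0) (XT.lf (nat_lit 0) (nat_lit 5585357378) (nat_lit 76) (nat_lit 4948657719) (nat_lit 152) (nat_lit 4449894605) (nat_lit 43) (nat_lit 5) (nat_lit 44) (nat_lit 5) (nat_lit 45) (nat_lit 4) (nat_lit 387) (nat_lit 332) (nat_lit 301)) (XT.lf (nat_lit 0) (nat_lit 73318138) (nat_lit 228) (nat_lit 15301932414) (nat_lit 76) (nat_lit 84178618) (nat_lit 40) (nat_lit 5) (nat_lit 43) (nat_lit 5) (nat_lit 41) (nat_lit 4) (nat_lit 388) (nat_lit 332) (nat_lit 300)))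 (XT.nd (nat_lit 78) (nat_lit 76) (nat_lit 0) (XT.lf (nat_lit 0) (nat_lit 4833175391) (nat_lit 228) (nat_lit 5739665188) (nat_lit 76) (nat_lit 5374248744) (nat_lit 40) (nat_lit 5) (nat_lit 43) (nat_lit 5) (nat_lit 41) (nat_lit 4) (nat_lit 389) (nat_lit 332) (nat_lit 299)) (XT.lf (nat_lit 0) (nat_lit 4295473690) (nat_lit 76) (nat_lit 5523688211) (nat_lit 152) (nat_lit 6640576754) (nat_lit 39) (nat_lit 5) (nat_lit 40) (nat_lit 5) (nat_lit 41) (nat_lit 4) (nat_lit 390) (nat_lit 332) (nat_lit 298))))))) (XT.nd (nat_lit 1014) (nat_lit 684) (nat_lit 0) (XT.nd (nat_lit 468) (nat_lit 456) (nat_lit 0) (XT.nd (nat_lit 234) (nat_lit 228) (nat_lit 0) (XT.nd (nat_lit 78) (nat_lit 304) (nat_lit 0) (XT.lf (nat_lit 0) (nat_lit 14891216029) (nat_lit 76) (nat_lit 183073828) (nat_lit 152) (nat_lit 1922750865) (nat_lit 39) (nat_lit 5) (nat_lit 40) (nat_lit 5) (nat_lit 41) (nat_lit 4) (nat_lit 391) (nat_lit 332)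 (nat_lit 297)) (XT.nd (nat_lit 78) (nat_lit 76) (nat_lit 0) (XT.lf (nat_lit 0) (nat_lit 3079176748) (nat_lit 228) (nat_lit 9097122638) (nat_lit 76) (nat_lit 5375292620) (nat_lit 36) (nat_lit 5) (nat_lit 39) (nat_lit 5) (nat_lit 37) (nat_lit 4) (nat_lit 392) (nat_lit 332) (nat_lit 296)) (XT.lf (nat_lit 0) (nat_lit 1355310812) (nat_lit 76) (nat_lit 6897312724) (nat_lit 152) (nat_lit 9880379990) (nat_lit 35) (nat_lit 5) (nat_lit 36) (nat_lit 5) (nat_lit 37) (nat_lit 4) (nat_lit 393) (nat_lit 332) (nat_lit 295)))) (XT.nd (nat_lit 78) (nat_lit 228) (nat_lit 0) (XT.lf (nat_lit 0) (nat_lit 12511642165) (nat_lit 76) (nat_lit 1254235906) (nat_lit 152) (nat_lit 4973560962) (nat_lit 35) (nat_lit 5) (nat_lit 36) (nat_lit 5) (nat_lit 37) (nat_lit 4) (nat_lit 394) (nat_lit 332) (nat_lit 294)) (XT.nd (nat_lit 78) (nat_lit 0) (nat_lit 0) (XT.lf (nat_lit 0) (nat_lit 251633391) (nat_lit 228) (nat_lit 14576821586)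 (nat_lit 76) (nat_lit 4543673615) (nat_lit 32) (nat_lit 5) (nat_lit 35) (nat_lit 5) (nat_lit 33) (nat_lit 4) (nat_lit 395) (nat_lit 332) (nat_lit 293)) (XT.lf (nat_lit 0) (nat_lit 5628534516) (nat_lit 228) (nat_lit 3680156739) (nat_lit 76) (nat_lit 10720813914) (nat_lit 32) (nat_lit 5) (nat_lit 35) (nat_lit 5) (nat_lit 33) (nat_lit 4) (nat_lit 396) (nat_lit 332) (nat_lit 292))))) (XT.nd (nat_lit 234) (nat_lit 228) (nat_lit 0) (XT.nd (nat_lit 78) (nat_lit 152) (nat_lit 0) (XT.lf (nat_lit 0) (nat_lit 7889143488) (nat_lit 76) (nat_lit 3441480550) (nat_lit 152) (nat_lit 9386317743) (nat_lit 31) (nat_lit 5) (nat_lit 32) (nat_lit 5) (nat_lit 33) (nat_lit 4) (nat_lit 397) (nat_lit 332) (nat_lit 291)) (XT.nd (nat_lit 78) (nat_lit 152) (nat_lit 0) (XT.lf (nat_lit 0) (nat_lit 17357164204) (nat_lit 152) (nat_lit 1439515431) (nat_lit 0) (nat_lit 2640111257) (nat_lit 31) (nat_lit 5) (nat_lit 33) (nat_lit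 4) (nat_lit 31) (nat_lit 4) (nat_lit 398) (nat_lit 332) (nat_lit 290)) (XT.lf (nat_lit 0) (nat_lit 1607193016) (nat_lit 152) (nat_lit 11525953344) (nat_lit 76) (nat_lit 9050200298) (nat_lit 29) (nat_lit 5) (nat_lit 31) (nat_lit 5) (nat_lit 30) (nat_lit 4) (nat_lit 399) (nat_lit 332) (nat_lit 289)))) (XT.nd (nat_lit 156) (nat_lit 152) (nat_lit 0) (XT.nd (nat_lit 78) (nat_lit 0) (nat_lit 0) (XT.lf (nat_lit 0) (nat_lit 265017250) (nat_lit 76) (nat_lit 7142020227) (nat_lit 152) (nat_lit 15558566368) (nat_lit 28) (nat_lit 5) (nat_lit 29) (nat_lit 5) (nat_lit 30) (nat_lit 4) (nat_lit 400) (nat_lit 332) (nat_lit 288)) (XT.lf (nat_lit 0) (nat_lit 12928316496) (nat_lit 76) (nat_lit 701798686) (nat_lit 152) (nat_lit 10150203221) (nat_lit 28) (nat_lit 5) (nat_lit 29) (nat_lit 5) (nat_lit 30) (nat_lit 4) (nat_lit 401) (nat_lit 332) (nat_lit 287))) (XT.nd (nat_lit 78) (nat_lit 76) (nat_lit 0) (XT.lf (nat_lit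 0) (nat_lit 1426118146) (nat_lit 76) (nat_lit 18795284388) (nat_lit 76) (nat_lit 4411519617) (nat_lit 27) (nat_lit 4) (nat_lit 28) (nat_lit 5) (nat_lit 28) (nat_lit 4) (nat_lit 402) (nat_lit 332) (nat_lit 286)) (XT.lf (nat_lit 0) (nat_lit 1701038898) (nat_lit 152) (nat_lit 10977844446) (nat_lit 76) (nat_lit 12841088283) (nat_lit 26) (nat_lit 5) (nat_lit 28) (nat_lit 5) (nat_lit 27) (nat_lit 4) (nat_lit 403) (nat_lit 332) (nat_lit 285)))))) (XT.nd (nat_lit 546) (nat_lit 380) (nat_lit 0) (XT.nd (nat_lit 234) (nat_lit 152) (nat_lit 0) (XT.nd (nat_lit 78) (nat_lit 76) (nat_lit 0) (XT.lf (nat_lit 0) (nat_lit 1737215886) (nat_lit 76) (nat_lit 6204019417) (nat_lit 152) (nat_lit 18508014373) (nat_lit 25) (nat_lit 5) (nat_lit 26) (nat_lit 5) (nat_lit 27) (nat_lit 4) (nat_lit 404) (nat_lit 332) (nat_lit 284)) (XT.nd (nat_lit 78) (nat_lit 76) (nat_lit 0) (XT.lf (nat_lit 0) (nat_lit 14635072402) (nat_lit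 152) (nat_lit 12067747397) (nat_lit 0) (nat_lit 715095429) (nat_lit 25) (nat_lit 5) (nat_lit 27) (nat_lit 4) (nat_lit 25) (nat_lit 4) (nat_lit 405) (nat_lit 332) (nat_lit 283)) (XT.lf (nat_lit 0) (nat_lit 1036532390) (nat_lit 76) (nat_lit 20691038133) (nat_lit 76) (nat_lit 6704249972) (nat_lit 24) (nat_lit 4) (nat_lit 25) (nat_lit 5) (nat_lit 25) (nat_lit 4) (nat_lit 406) (nat_lit 332) (nat_lit 282)))) (XT.nd (nat_lit 156) (nat_lit 76) (nat_lit 0) (XT.nd (nat_lit 78) (nat_lit 76) (nat_lit 0) (XT.lf (nat_lit 0) (nat_lit 15112972347) (nat_lit 76) (nat_lit 14213149885) (nat_lit 76) (nat_lit 162732022) (nat_lit 24) (nat_lit 4) (nat_lit 25) (nat_lit 5) (nat_lit 25) (nat_lit 4) (nat_lit 407) (nat_lit 332) (nat_lit 281)) (XT.lf (nat_lit 0) (nat_lit 6439978162) (nat_lit 152) (nat_lit 909062345) (nat_lit 76) (nat_lit 23247031269) (nat_lit 23) (nat_lit 5) (nat_lit 25) (nat_lit 5) (nat_lit 24) (nat_lit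 4) (nat_lit 408) (nat_lit 332) (nat_lit 280))) (XT.nd (nat_lit 78) (nat_lit 0) (nat_lit 0) (XT.lf (nat_lit 0) (nat_lit 13530980642) (nat_lit 152) (nat_lit 18182408341) (nat_lit 0) (nat_lit 36950551) (nat_lit 22) (nat_lit 5) (nat_lit 24) (nat_lit 4) (nat_lit 22) (nat_lit 4) (nat_lit 409) (nat_lit 332) (nat_lit 279)) (XT.lf (nat_lit 0) (nat_lit 21064023907) (nat_lit 152) (nat_lit 4376280572) (nat_lit 0) (nat_lit 7517645503) (nat_lit 22) (nat_lit 5) (nat_lit 24) (nat_lit 4) (nat_lit 22) (nat_lit 4) (nat_lit 410) (nat_lit 332) (nat_lit 278))))) (XT.nd (nat_lit 234) (nat_lit 152) (nat_lit 0) (XT.nd (nat_lit 78) (nat_lit 152) (nat_lit 0) (XT.lf (nat_lit 0) (nat_lit 10361956911) (nat_lit 76) (nat_lit 18727224273) (nat_lit 76) (nat_lit 5130990332) (nat_lit 21) (nat_lit 4) (nat_lit 22) (nat_lit 5) (nat_lit 22) (nat_lit 4) (nat_lit 411) (nat_lit 332) (nat_lit 277)) (XT.nd (nat_lit 78) (nat_lit 76)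 (nat_lit 0) (XT.lf (nat_lit 0) (nat_lit 1936125384) (nat_lit 152) (nat_lit 9674658366) (nat_lit 76) (nat_lit 23931731335) (nat_lit 20) (nat_lit 5) (nat_lit 22) (nat_lit 5) (nat_lit 21) (nat_lit 4) (nat_lit 412) (nat_lit 332) (nat_lit 276)) (XT.lf (nat_lit 0) (nat_lit 5215236307) (nat_lit 76) (nat_lit 4006311084) (nat_lit 152) (nat_lit 27703356597) (nat_lit 19) (nat_lit 5) (nat_lit 20) (nat_lit 5) (nat_lit 21) (nat_lit 4) (nat_lit 413) (nat_lit 332) (nat_lit 275)))) (XT.nd (nat_lit 156) (nat_lit 152) (nat_lit 0) (XT.nd (nat_lit 78) (nat_lit 0) (nat_lit 0) (XT.lf (nat_lit 0) (nat_lit 17055987505) (nat_lit 152) (nat_lit 17333301011) (nat_lit 0) (nat_lit 3977889474) (nat_lit 19) (nat_lit 5) (nat_lit 21) (nat_lit 4) (nat_lit 19) (nat_lit 4) (nat_lit 414) (nat_lit 332) (nat_lit 274)) (XT.lf (nat_lit 0) (nat_lit 25306019484) (nat_lit 152) (nat_lit 2385497245) (nat_lit 0) (nat_lit 12188858335) (nat_lit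 19) (nat_lit 5) (nat_lit 21) (nat_lit 4) (nat_lit 19) (nat_lit 4) (nat_lit 415) (nat_lit 332) (nat_lit 273))) (XT.nd (nat_lit 78) (nat_lit 76) (nat_lit 0) (XT.lf (nat_lit 0) (nat_lit 13669389190) (nat_lit 76) (nat_lit 20472764800) (nat_lit 76) (nat_lit 7318400682) (nat_lit 18) (nat_lit 4) (nat_lit 19) (nat_lit 5) (nat_lit 19) (nat_lit 4) (nat_lit 416) (nat_lit 332) (nat_lit 272)) (XT.lf (nat_lit 0) (nat_lit 292041095) (nat_lit 152) (nat_lit 12591111271) (nat_lit 76) (nat_lit 30236293786) (nat_lit 17) (nat_lit 5) (nat_lit 19) (nat_lit 5) (nat_lit 18) (nat_lit 4) (nat_lit 417) (nat_lit 332) (nat_lit 271))))))))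
noncomputable def xc78 : XT := (XT.nd (nat_lit 2106) (nat_lit 304) (nat_lit 0) (XT.nd (nat_lit 1014) (nat_lit 380) (nat_lit 0) (XT.nd (nat_lit 468) (nat_lit 152) (nat_lit 0) (XT.nd (nat_lit 234) (nat_lit 152) (nat_lit 0) (XT.nd (nat_lit 78) (nat_lit 0) (nat_lit 0) (XT.lf (nat_lit 0) (nat_lit 3279778216) (nat_lit 76) (nat_lit 4770620770) (nat_lit 152) (nat_lit 36804219872) (nat_lit 16) (nat_lit 5) (nat_lit 17) (nat_lit 5) (nat_lit 18) (nat_lit 4) (nat_lit 418) (nat_lit 332) (nat_lit 270)) (XT.nd (nat_lit 78) (nat_lit 0) (nat_lit 0) (XT.lf (nat_lit 0) (nat_lit 16434155756) (nat_lit 152) (nat_lit 26420821197) (nat_lit 0) (nat_lit 3809701442) (nat_lit 16) (nat_lit 5) (nat_lit 18) (nat_lit 4) (nat_lit 16) (nat_lit 4) (nat_lit 419) (nat_lit 332) (nat_lit 269)) (XT.lf (nat_lit 0) (nat_lit 25279344574) (nat_lit 152) (nat_lit 10658045498) (nat_lit 0) (nat_lit 12625740760) (nat_lit 16) (nat_lit 5)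 (nat_lit 18) (nat_lit 4) (nat_lit 16) (nat_lit 4) (nat_lit 420) (nat_lit 332) (nat_lit 268)))) (XT.nd (nat_lit 78) (nat_lit 76) (nat_lit 0) (XT.lf (nat_lit 0) (nat_lit 6018116958) (nat_lit 76) (nat_lit 28608385368) (nat_lit 76) (nat_lit 15927020126) (nat_lit 15) (nat_lit 4) (nat_lit 16) (nat_lit 5) (nat_lit 16) (nat_lit 4) (nat_lit 421) (nat_lit 332) (nat_lit 267)) (XT.nd (nat_lit 78) (nat_lit 76) (nat_lit 0) (XT.lf (nat_lit 0) (nat_lit 23831828060) (nat_lit 76) (nat_lit 20756034988) (nat_lit 76) (nat_lit 8048230290) (nat_lit 15) (nat_lit 4) (nat_lit 16) (nat_lit 5) (nat_lit 16) (nat_lit 4) (nat_lit 422) (nat_lit 332) (nat_lit 266)) (XT.lf (nat_lit 0) (nat_lit 184734943) (nat_lit 152) (nat_lit 12354278496) (nat_lit 76) (nat_lit 42285234769) (nat_lit 14) (nat_lit 5) (nat_lit 16) (nat_lit 5) (nat_lit 15) (nat_lit 4) (nat_lit 423) (nat_lit 332) (nat_lit 265))))) (XT.nd (nat_lit 234) (nat_lit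 76) (nat_lit 0) (XT.nd (nat_lit 78) (nat_lit 0) (nat_lit 0) (XT.lf (nat_lit 0) (nat_lit 4881355289) (nat_lit 76) (nat_lit 3722704118) (nat_lit 152) (nat_lit 48508896964) (nat_lit 13) (nat_lit 5) (nat_lit 14) (nat_lit 5) (nat_lit 15) (nat_lit 4) (nat_lit 424) (nat_lit 332) (nat_lit 264)) (XT.nd (nat_lit 78) (nat_lit 0) (nat_lit 0) (XT.lf (nat_lit 0) (nat_lit 17712461099) (nat_lit 152) (nat_lit 36249017498) (nat_lit 0) (nat_lit 5541217391) (nat_lit 13) (nat_lit 5) (nat_lit 15) (nat_lit 4) (nat_lit 13) (nat_lit 4) (nat_lit 425) (nat_lit 332) (nat_lit 263)) (XT.lf (nat_lit 0) (nat_lit 27307832309) (nat_lit 152) (nat_lit 19586641726) (nat_lit 0) (nat_lit 15115872596) (nat_lit 13) (nat_lit 5) (nat_lit 15) (nat_lit 4) (nat_lit 13) (nat_lit 4) (nat_lit 426) (nat_lit 332) (nat_lit 262)))) (XT.nd (nat_lit 156) (nat_lit 0) (nat_lit 0) (XT.nd (nat_lit 78) (nat_lit 76) (nat_lit 0) (XT.lf (nat_lit 0) (nat_lit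 37354897315) (nat_lit 152) (nat_lit 2146679600) (nat_lit 0) (nat_lit 25143208074) (nat_lit 13) (nat_lit 5) (nat_lit 15) (nat_lit 4) (nat_lit 13) (nat_lit 4) (nat_lit 427) (nat_lit 332) (nat_lit 261)) (XT.lf (nat_lit 0) (nat_lit 16645141063) (nat_lit 76) (nat_lit 31492313939) (nat_lit 76) (nat_lit 19261834670) (nat_lit 12) (nat_lit 4) (nat_lit 13) (nat_lit 5) (nat_lit 13) (nat_lit 4) (nat_lit 428) (nat_lit 332) (nat_lit 260))) (XT.nd (nat_lit 78) (nat_lit 0) (nat_lit 0) (XT.lf (nat_lit 0) (nat_lit 36399045628) (nat_lit 76) (nat_lit 23070172952) (nat_lit 76) (nat_lit 10821798419) (nat_lit 12) (nat_lit 4) (nat_lit 13) (nat_lit 5) (nat_lit 13) (nat_lit 4) (nat_lit 429) (nat_lit 332) (nat_lit 259)) (XT.lf (nat_lit 0) (nat_lit 57091088278) (nat_lit 76) (nat_lit 14251456297) (nat_lit 76) (nat_lit 1986038655) (nat_lit 12) (nat_lit 4) (nat_lit 13) (nat_lit 5) (nat_lit 13) (nat_lit 4) (nat_lit 430)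 (nat_lit 332) (nat_lit 258)))))) (XT.nd (nat_lit 546) (nat_lit 152) (nat_lit 0) (XT.nd (nat_lit 234) (nat_lit 76) (nat_lit 0) (XT.nd (nat_lit 78) (nat_lit 0) (nat_lit 0) (XT.lf (nat_lit 0) (nat_lit 2208552434) (nat_lit 76) (nat_lit 4859838594) (nat_lit 152) (nat_lit 69443433047) (nat_lit 10) (nat_lit 5) (nat_lit 11) (nat_lit 5) (nat_lit 12) (nat_lit 4) (nat_lit 431) (nat_lit 332) (nat_lit 257)) (XT.nd (nat_lit 78) (nat_lit 0) (nat_lit 0) (XT.lf (nat_lit 0) (nat_lit 16842206165) (nat_lit 152) (nat_lit 57863048630) (nat_lit 0) (nat_lit 5130674950) (nat_lit 10) (nat_lit 5) (nat_lit 12) (nat_lit 4) (nat_lit 10) (nat_lit 4) (nat_lit 432) (nat_lit 332) (nat_lit 256)) (XT.lf (nat_lit 0) (nat_lit 27161357526) (nat_lit 152) (nat_lit 40726247023) (nat_lit 0) (nat_lit 15435804903) (nat_lit 10) (nat_lit 5) (nat_lit 12) (nat_lit 4) (nat_lit 10) (nat_lit 4) (nat_lit 433) (nat_lit 332) (nat_lit 255))))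 (XT.nd (nat_lit 156) (nat_lit 76) (nat_lit 0) (XT.nd (nat_lit 78) (nat_lit 0) (nat_lit 0) (XT.lf (nat_lit 0) (nat_lit 37974538819) (nat_lit 152) (nat_lit 22776189212) (nat_lit 0) (nat_lit 26235632474) (nat_lit 10) (nat_lit 5) (nat_lit 12) (nat_lit 4) (nat_lit 10) (nat_lit 4) (nat_lit 434) (nat_lit 332) (nat_lit 254)) (XT.lf (nat_lit 0) (nat_lit 49307495713) (nat_lit 152) (nat_lit 3970136964) (nat_lit 0) (nat_lit 37555871538) (nat_lit 10) (nat_lit 5) (nat_lit 12) (nat_lit 4) (nat_lit 10) (nat_lit 4) (nat_lit 435) (nat_lit 332) (nat_lit 253))) (XT.nd (nat_lit 78) (nat_lit 0) (nat_lit 0) (XT.lf (nat_lit 0) (nat_lit 16257011943) (nat_lit 76) (nat_lit 45184017014) (nat_lit 76) (nat_lit 33420280619) (nat_lit 9) (nat_lit 4) (nat_lit 10) (nat_lit 5) (nat_lit 10) (nat_lit 4) (nat_lit 436) (nat_lit 332) (nat_lit 252)) (XT.lf (nat_lit 0) (nat_lit 37594458236) (nat_lit 76) (nat_lit 36634467651) (nat_lit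 76) (nat_lit 24859195810) (nat_lit 9) (nat_lit 4) (nat_lit 10) (nat_lit 5) (nat_lit 10) (nat_lit 4) (nat_lit 437) (nat_lit 332) (nat_lit 251))))) (XT.nd (nat_lit 234) (nat_lit 76) (nat_lit 0) (XT.nd (nat_lit 78) (nat_lit 76) (nat_lit 0) (XT.lf (nat_lit 0) (nat_lit 59961734702) (nat_lit 76) (nat_lit 27675864711) (nat_lit 76) (nat_lit 15889606730) (nat_lit 9) (nat_lit 4) (nat_lit 10) (nat_lit 5) (nat_lit 10) (nat_lit 4) (nat_lit 438) (nat_lit 332) (nat_lit 250)) (XT.nd (nat_lit 78) (nat_lit 76) (nat_lit 0) (XT.lf (nat_lit 0) (nat_lit 83412096759) (nat_lit 76) (nat_lit 18286878186) (nat_lit 76) (nat_lit 6490157215) (nat_lit 9) (nat_lit 4) (nat_lit 10) (nat_lit 5) (nat_lit 10) (nat_lit 4) (nat_lit 439) (nat_lit 332) (nat_lit 249)) (XT.lf (nat_lit 0) (nat_lit 3253942347) (nat_lit 152) (nat_lit 5136103912) (nat_lit 76) (nat_lit 104692329168) (nat_lit 8) (nat_lit 5) (nat_lit 10) (nat_lit 5) (nat_lit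 9) (nat_lit 4) (nat_lit 440) (nat_lit 332) (nat_lit 248)))) (XT.nd (nat_lit 156) (nat_lit 0) (nat_lit 0) (XT.nd (nat_lit 78) (nat_lit 0) (nat_lit 0) (XT.lf (nat_lit 0) (nat_lit 13535135522) (nat_lit 152) (nat_lit 102384791568) (nat_lit 0) (nat_lit 2281634604) (nat_lit 7) (nat_lit 5) (nat_lit 9) (nat_lit 4) (nat_lit 7) (nat_lit 4) (nat_lit 441) (nat_lit 332) (nat_lit 247)) (XT.lf (nat_lit 0) (nat_lit 24540020619) (nat_lit 152) (nat_lit 85748293903) (nat_lit 0) (nat_lit 13277911772) (nat_lit 7) (nat_lit 5) (nat_lit 9) (nat_lit 4) (nat_lit 7) (nat_lit 4) (nat_lit 442) (nat_lit 332) (nat_lit 246))) (XT.nd (nat_lit 78) (nat_lit 0) (nat_lit 0) (XT.lf (nat_lit 0) (nat_lit 36079609183) (nat_lit 152) (nat_lit 68310990270) (nat_lit 0) (nat_lit 24809302309) (nat_lit 7) (nat_lit 5) (nat_lit 9) (nat_lit 4) (nat_lit 7) (nat_lit 4) (nat_lit 443) (nat_lit 332) (nat_lit 245)) (XT.lf (nat_lit 0) (nat_lit 48181376426)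 (nat_lit 152) (nat_lit 50031363281) (nat_lit 0) (nat_lit 36903261908) (nat_lit 7) (nat_lit 5) (nat_lit 9) (nat_lit 4) (nat_lit 7) (nat_lit 4) (nat_lit 444) (nat_lit 332) (nat_lit 244))))))) (XT.nd (nat_lit 1014) (nat_lit 76) (nat_lit 0) (XT.nd (nat_lit 468) (nat_lit 152) (nat_lit 0) (XT.nd (nat_lit 234) (nat_lit 0) (nat_lit 0) (XT.nd (nat_lit 78) (nat_lit 76) (nat_lit 0) (XT.lf (nat_lit 0) (nat_lit 60874136079) (nat_lit 152) (nat_lit 30865890014) (nat_lit 0) (nat_lit 49588585709) (nat_lit 7) (nat_lit 5) (nat_lit 9) (nat_lit 4) (nat_lit 7) (nat_lit 4) (nat_lit 445) (nat_lit 332) (nat_lit 243)) (XT.nd (nat_lit 78) (nat_lit 76) (nat_lit 0) (XT.lf (nat_lit 0) (nat_lit 74188108999) (nat_lit 152) (nat_lit 10768938390) (nat_lit 0) (nat_lit 62895476865) (nat_lit 7) (nat_lit 5) (nat_lit 9) (nat_lit 4) (nat_lit 7) (nat_lit 4) (nat_lit 446) (nat_lit 332) (nat_lit 242)) (XT.lf (nat_lit 0) (nat_lit 10648148733)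 (nat_lit 76) (nat_lit 77673093830) (nat_lit 76) (nat_lit 66373717160) (nat_lit 6) (nat_lit 4) (nat_lit 7) (nat_lit 5) (nat_lit 7) (nat_lit 4) (nat_lit 447) (nat_lit 332) (nat_lit 241)))) (XT.nd (nat_lit 78) (nat_lit 0) (nat_lit 0) (XT.lf (nat_lit 0) (nat_lit 33484855701) (nat_lit 76) (nat_lit 69845985673) (nat_lit 76) (nat_lit 58540185634) (nat_lit 6) (nat_lit 4) (nat_lit 7) (nat_lit 5) (nat_lit 7) (nat_lit 4) (nat_lit 448) (nat_lit 332) (nat_lit 240)) (XT.nd (nat_lit 78) (nat_lit 0) (nat_lit 0) (XT.lf (nat_lit 0) (nat_lit 57439485887) (nat_lit 76) (nat_lit 61639464128) (nat_lit 76) (nat_lit 50327546595) (nat_lit 6) (nat_lit 4) (nat_lit 7) (nat_lit 5) (nat_lit 7) (nat_lit 4) (nat_lit 449) (nat_lit 332) (nat_lit 239)) (XT.lf (nat_lit 0) (nat_lit 82569074125) (nat_lit 76) (nat_lit 53033989859) (nat_lit 76) (nat_lit 41716246142) (nat_lit 6) (nat_lit 4) (nat_lit 7) (nat_lit 5) (nat_lit 7) (nat_lit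 4) (nat_lit 450) (nat_lit 332) (nat_lit 238))))) (XT.nd (nat_lit 234) (nat_lit 152) (nat_lit 0) (XT.nd (nat_lit 78) (nat_lit 0) (nat_lit 0) (XT.lf (nat_lit 0) (nat_lit 108933452767) (nat_lit 76) (nat_lit 44009073641) (nat_lit 76) (nat_lit 32685781177) (nat_lit 6) (nat_lit 4) (nat_lit 7) (nat_lit 5) (nat_lit 7) (nat_lit 4) (nat_lit 451) (nat_lit 332) (nat_lit 237)) (XT.nd (nat_lit 78) (nat_lit 0) (nat_lit 0) (XT.lf (nat_lit 0) (nat_lit 136595394144) (nat_lit 76) (nat_lit 34543227579) (nat_lit 76) (nat_lit 23214650593) (nat_lit 6) (nat_lit 4) (nat_lit 7) (nat_lit 5) (nat_lit 7) (nat_lit 4) (nat_lit 452) (nat_lit 332) (nat_lit 236)) (XT.lf (nat_lit 0) (nat_lit 165620760021) (nat_lit 76) (nat_lit 24613913944) (nat_lit 76) (nat_lit 13280304081) (nat_lit 6) (nat_lit 4) (nat_lit 7) (nat_lit 5) (nat_lit 7) (nat_lit 4) (nat_lit 453) (nat_lit 332) (nat_lit 235)))) (XT.nd (nat_lit 156) (nat_lit 0) (nat_lit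 0) (XT.nd (nat_lit 78) (nat_lit 152) (nat_lit 0) (XT.lf (nat_lit 0) (nat_lit 196078658411) (nat_lit 76) (nat_lit 14197491512) (nat_lit 76) (nat_lit 2859088433) (nat_lit 6) (nat_lit 4) (nat_lit 7) (nat_lit 5) (nat_lit 7) (nat_lit 4) (nat_lit 454) (nat_lit 332) (nat_lit 234)) (XT.lf (nat_lit 0) (nat_lit 4833290177) (nat_lit 76) (nat_lit 3057567492) (nat_lit 152) (nat_lit 215336025162) (nat_lit 4) (nat_lit 5) (nat_lit 5) (nat_lit 5) (nat_lit 6) (nat_lit 4) (nat_lit 455) (nat_lit 332) (nat_lit 233))) (XT.nd (nat_lit 78) (nat_lit 0) (nat_lit 0) (XT.lf (nat_lit 0) (nat_lit 19501633564) (nat_lit 152) (nat_lit 205603495634) (nat_lit 0) (nat_lit 8694666291) (nat_lit 4) (nat_lit 5) (nat_lit 6) (nat_lit 4) (nat_lit 4) (nat_lit 4) (nat_lit 456) (nat_lit 332) (nat_lit 232)) (XT.lf (nat_lit 0) (nat_lit 31734439193) (nat_lit 152) (nat_lit 192241311800) (nat_lit 0) (nat_lit 20923528530) (nat_lit 4) (nat_lit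 5) (nat_lit 6) (nat_lit 4) (nat_lit 4) (nat_lit 4) (nat_lit 457) (nat_lit 332) (nat_lit 231)))))) (XT.nd (nat_lit 546) (nat_lit 76) (nat_lit 0) (XT.nd (nat_lit 234) (nat_lit 0) (nat_lit 0) (XT.nd (nat_lit 78) (nat_lit 0) (nat_lit 0) (XT.lf (nat_lit 0) (nat_lit 44570663088) (nat_lit 152) (nat_lit 178227489231) (nat_lit 0) (nat_lit 33755996814) (nat_lit 4) (nat_lit 5) (nat_lit 6) (nat_lit 4) (nat_lit 4) (nat_lit 4) (nat_lit 458) (nat_lit 332) (nat_lit 230)) (XT.nd (nat_lit 78) (nat_lit 0) (nat_lit 0) (XT.lf (nat_lit 0) (nat_lit 58040867687) (nat_lit 152) (nat_lit 163528661682) (nat_lit 0) (nat_lit 47222624641) (nat_lit 4) (nat_lit 5) (nat_lit 6) (nat_lit 4) (nat_lit 4) (nat_lit 4) (nat_lit 459) (nat_lit 332) (nat_lit 229)) (XT.lf (nat_lit 0) (nat_lit 72177124905) (nat_lit 152) (nat_lit 148109831947) (nat_lit 0) (nat_lit 61355475410) (nat_lit 4) (nat_lit 5) (nat_lit 6) (nat_lit 4) (nat_lit 4)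 (nat_lit 4) (nat_lit 460) (nat_lit 332) (nat_lit 228)))) (XT.nd (nat_lit 156) (nat_lit 0) (nat_lit 0) (XT.nd (nat_lit 78) (nat_lit 0) (nat_lit 0) (XT.lf (nat_lit 0) (nat_lit 87013092499) (nat_lit 152) (nat_lit 131934288524) (nat_lit 0) (nat_lit 76188198766) (nat_lit 4) (nat_lit 5) (nat_lit 6) (nat_lit 4) (nat_lit 4) (nat_lit 4) (nat_lit 461) (nat_lit 332) (nat_lit 227)) (XT.lf (nat_lit 0) (nat_lit 102584094199) (nat_lit 152) (nat_lit 114963518216) (nat_lit 0) (nat_lit 91756110716) (nat_lit 4) (nat_lit 5) (nat_lit 6) (nat_lit 4) (nat_lit 4) (nat_lit 4) (nat_lit 462) (nat_lit 332) (nat_lit 226))) (XT.nd (nat_lit 78) (nat_lit 0) (nat_lit 0) (XT.lf (nat_lit 0) (nat_lit 118927203820) (nat_lit 152) (nat_lit 97157114427) (nat_lit 0) (nat_lit 108096277718) (nat_lit 4) (nat_lit 5) (nat_lit 6) (nat_lit 4) (nat_lit 4) (nat_lit 4) (nat_lit 463) (nat_lit 332) (nat_lit 225)) (XT.lf (nat_lit 0) (nat_lit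 136081333528) (nat_lit 152) (nat_lit 78472680956) (nat_lit 0) (nat_lit 125247604931) (nat_lit 4) (nat_lit 5) (nat_lit 6) (nat_lit 4) (nat_lit 4) (nat_lit 4) (nat_lit 464) (nat_lit 332) (nat_lit 224))))) (XT.nd (nat_lit 234) (nat_lit 76) (nat_lit 0) (XT.nd (nat_lit 78) (nat_lit 0) (nat_lit 0) (XT.lf (nat_lit 0) (nat_lit 154087326488) (nat_lit 152) (nat_lit 58865731059) (nat_lit 0) (nat_lit 143250928849) (nat_lit 4) (nat_lit 5) (nat_lit 6) (nat_lit 4) (nat_lit 4) (nat_lit 4) (nat_lit 465) (nat_lit 332) (nat_lit 223)) (XT.nd (nat_lit 78) (nat_lit 0) (nat_lit 0) (XT.lf (nat_lit 0) (nat_lit 172988054112) (nat_lit 152) (nat_lit 38289581520) (nat_lit 0) (nat_lit 162149114528) (nat_lit 4) (nat_lit 5) (nat_lit 6) (nat_lit 4) (nat_lit 4) (nat_lit 4) (nat_lit 466) (nat_lit 332) (nat_lit 222)) (XT.lf (nat_lit 0) (nat_lit 192828518133) (nat_lit 152) (nat_lit 16695241507) (nat_lit 0) (nat_lit 181987157649)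 (nat_lit 4) (nat_lit 5) (nat_lit 6) (nat_lit 4) (nat_lit 4) (nat_lit 4) (nat_lit 467) (nat_lit 332) (nat_lit 221)))) (XT.nd (nat_lit 156) (nat_lit 0) (nat_lit 0) (XT.nd (nat_lit 78) (nat_lit 0) (nat_lit 0) (XT.lf (nat_lit 0) (nat_lit 6166056385) (nat_lit 76) (nat_lit 207586170786) (nat_lit 76) (nat_lit 196742504683) (nat_lit 3) (nat_lit 4) (nat_lit 4) (nat_lit 5) (nat_lit 4) (nat_lit 4) (nat_lit 468) (nat_lit 332) (nat_lit 220)) (XT.lf (nat_lit 0) (nat_lit 30740091915) (nat_lit 76) (nat_lit 205259809176) (nat_lit 76) (nat_lit 194413947245) (nat_lit 3) (nat_lit 4) (nat_lit 4) (nat_lit 5) (nat_lit 4) (nat_lit 4) (nat_lit 469) (nat_lit 332) (nat_lit 219))) (XT.nd (nat_lit 78) (nat_lit 0) (nat_lit 0) (XT.lf (nat_lit 0) (nat_lit 56533354608) (nat_lit 76) (nat_lit 202821877848) (nat_lit 76) (nat_lit 191973924653) (nat_lit 3) (nat_lit 4) (nat_lit 4) (nat_lit 5) (nat_lit 4) (nat_lit 4) (nat_lit 470)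 (nat_lit 332) (nat_lit 218)) (XT.lf (nat_lit 0) (nat_lit 83607256994) (nat_lit 76) (nat_lit 200266572203) (nat_lit 76) (nat_lit 189416627327) (nat_lit 3) (nat_lit 4) (nat_lit 4) (nat_lit 5) (nat_lit 4) (nat_lit 4) (nat_lit 471) (nat_lit 332) (nat_lit 217))))))))
noncomputable def xc79 : XT := (XT.nd (nat_lit 45084) (nat_lit 0) (nat_lit 2204) (XT.nd (nat_lit 43992) (nat_lit 0) (nat_lit 5776) (XT.nd (nat_lit 468) (nat_lit 0) (nat_lit 0) (XT.nd (nat_lit 234) (nat_lit 0) (nat_lit 0) (XT.nd (nat_lit 78) (nat_lit 0) (nat_lit 0) (XT.lf (nat_lit 0) (nat_lit 112026260746) (nat_lit 76) (nat_lit 197587808180) (nat_lit 76) (nat_lit 186735966466) (nat_lit 3) (nat_lit 4) (nat_lit 4) (nat_lit 5) (nat_lit 4) (nat_lit 4) (nat_lit 472) (nat_lit 332) (nat_lit 216)) (XT.nd (nat_lit 78) (nat_lit 0) (nat_lit 0) (XT.lf (nat_lit 0) (nat_lit 141858030158) (nat_lit 76) (nat_lit 194779207771) (nat_lit 76) (nat_lit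 183925559544) (nat_lit 3) (nat_lit 4) (nat_lit 4) (nat_lit 5) (nat_lit 4) (nat_lit 4) (nat_lit 473) (nat_lit 332) (nat_lit 215)) (XT.lf (nat_lit 0) (nat_lit 173173593253) (nat_lit 76) (nat_lit 191834083830) (nat_lit 76) (nat_lit 180978715115) (nat_lit 3) (nat_lit 4) (nat_lit 4) (nat_lit 5) (nat_lit 4) (nat_lit 4) (nat_lit 474) (nat_lit 332) (nat_lit 214)))) (XT.nd (nat_lit 78) (nat_lit 0) (nat_lit 0) (XT.lf (nat_lit 0) (nat_lit 206047510894) (nat_lit 76) (nat_lit 188745424158) (nat_lit 76) (nat_lit 177888416883) (nat_lit 3) (nat_lit 4) (nat_lit 4) (nat_lit 5) (nat_lit 4) (nat_lit 4) (nat_lit 475) (nat_lit 332) (nat_lit 213)) (XT.nd (nat_lit 78) (nat_lit 0) (nat_lit 0) (XT.lf (nat_lit 0) (nat_lit 240558054316) (nat_lit 76) (nat_lit 185505874804) (nat_lit 76) (nat_lit 174647306995) (nat_lit 3) (nat_lit 4) (nat_lit 4) (nat_lit 5) (nat_lit 4) (nat_lit 4) (nat_lit 476) (nat_lit 332) (nat_lit 212))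 (XT.lf (nat_lit 0) (nat_lit 276787391477) (nat_lit 76) (nat_lit 182107722555) (nat_lit 76) (nat_lit 171247668523) (nat_lit 3) (nat_lit 4) (nat_lit 4) (nat_lit 5) (nat_lit 4) (nat_lit 4) (nat_lit 477) (nat_lit 332) (nat_lit 211))))) (XT.nd (nat_lit 234) (nat_lit 0) (nat_lit 0) (XT.nd (nat_lit 78) (nat_lit 0) (nat_lit 0) (XT.lf (nat_lit 0) (nat_lit 314821782705) (nat_lit 76) (nat_lit 178542876572) (nat_lit 76) (nat_lit 167681407090) (nat_lit 3) (nat_lit 4) (nat_lit 4) (nat_lit 5) (nat_lit 4) (nat_lit 4) (nat_lit 478) (nat_lit 332) (nat_lit 210)) (XT.nd (nat_lit 78) (nat_lit 0) (nat_lit 0) (XT.lf (nat_lit 0) (nat_lit 354751786075) (nat_lit 76) (nat_lit 174802849127) (nat_lit 76) (nat_lit 163940031597) (nat_lit 3) (nat_lit 4) (nat_lit 4) (nat_lit 5) (nat_lit 4) (nat_lit 4) (nat_lit 479) (nat_lit 332) (nat_lit 209)) (XT.lf (nat_lit 0) (nat_lit 396672473021) (nat_lit 76) (nat_lit 170878735391)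 (nat_lit 76) (nat_lit 160014634007) (nat_lit 3) (nat_lit 4) (nat_lit 4) (nat_lit 5) (nat_lit 4) (nat_lit 4) (nat_lit 480) (nat_lit 332) (nat_lit 208)))) (XT.nd (nat_lit 156) (nat_lit 0) (nat_lit 0) (XT.nd (nat_lit 78) (nat_lit 0) (nat_lit 0) (XT.lf (nat_lit 0) (nat_lit 440683654705) (nat_lit 76) (nat_lit 166761192238) (nat_lit 76) (nat_lit 155895868135) (nat_lit 3) (nat_lit 4) (nat_lit 4) (nat_lit 5) (nat_lit 4) (nat_lit 4) (nat_lit 481) (nat_lit 332) (nat_lit 207)) (XT.lf (nat_lit 0) (nat_lit 486890119654) (nat_lit 76) (nat_lit 162440415994) (nat_lit 76) (nat_lit 151573927396) (nat_lit 3) (nat_lit 4) (nat_lit 4) (nat_lit 5) (nat_lit 4) (nat_lit 4) (nat_lit 482) (nat_lit 332) (nat_lit 206))) (XT.nd (nat_lit 43056) (nat_lit 0) (nat_lit 10184) (XT.lf (nat_lit 0) (nat_lit 535401883260) (nat_lit 76) (nat_lit 157906119095) (nat_lit 76) (nat_lit 147038521455) (nat_lit 3) (nat_lit 4) (nat_lit 4)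 (nat_lit 5) (nat_lit 4) (nat_lit 4) (nat_lit 483) (nat_lit 332) (nat_lit 205)) (XT.lf (nat_lit 0) (nat_lit 887276484) (nat_lit 684) (nat_lit 1734520762) (nat_lit 0) (nat_lit 887276484) (nat_lit 137) (nat_lit 5) (nat_lit 146) (nat_lit 4) (nat_lit 137) (nat_lit 4) (nat_lit 354) (nat_lit 333) (nat_lit 333)))))) (XT.nd (nat_lit 546) (nat_lit 1596) (nat_lit 0) (XT.nd (nat_lit 234) (nat_lit 1292) (nat_lit 0) (XT.nd (nat_lit 78) (nat_lit 836) (nat_lit 0) (XT.lf (nat_lit 0) (nat_lit 1569911219) (nat_lit 684) (nat_lit 3645736253) (nat_lit 684) (nat_lit 1889705055) (nat_lit 128) (nat_lit 4) (nat_lit 137) (nat_lit 5) (nat_lit 137) (nat_lit 4) (nat_lit 355) (nat_lit 333) (nat_lit 332)) (XT.nd (nat_lit 78) (nat_lit 760) (nat_lit 0) (XT.lf (nat_lit 0) (nat_lit 1471051701) (nat_lit 760) (nat_lit 412785875) (nat_lit 76) (nat_lit 5317352934) (nat_lit 127) (nat_lit 5) (nat_lit 137) (nat_lit 5) (nat_lit 128)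 (nat_lit 4) (nat_lit 356) (nat_lit 333) (nat_lit 331)) (XT.lf (nat_lit 0) (nat_lit 4854136753) (nat_lit 836) (nat_lit 2378327777) (nat_lit 0) (nat_lit 72028252) (nat_lit 117) (nat_lit 5) (nat_lit 128) (nat_lit 4) (nat_lit 117) (nat_lit 4) (nat_lit 357) (nat_lit 333) (nat_lit 330)))) (XT.nd (nat_lit 156) (nat_lit 456) (nat_lit 0) (XT.nd (nat_lit 78) (nat_lit 380) (nat_lit 0) (XT.lf (nat_lit 0) (nat_lit 890335189) (nat_lit 456) (nat_lit 4401612575) (nat_lit 76) (nat_lit 2123901999) (nat_lit 111) (nat_lit 5) (nat_lit 117) (nat_lit 5) (nat_lit 112) (nat_lit 4) (nat_lit 358) (nat_lit 333) (nat_lit 329)) (XT.lf (nat_lit 0) (nat_lit 1048118409) (nat_lit 380) (nat_lit 3171791111) (nat_lit 456) (nat_lit 3315742794) (nat_lit 106) (nat_lit 5) (nat_lit 111) (nat_lit 5) (nat_lit 112) (nat_lit 4) (nat_lit 359) (nat_lit 333) (nat_lit 328))) (XT.nd (nat_lit 78) (nat_lit 456) (nat_lit 0) (XT.lf (nat_lit 0)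 (nat_lit 6753099957) (nat_lit 380) (nat_lit 888935936) (nat_lit 456) (nat_lit 23196896) (nat_lit 106) (nat_lit 5) (nat_lit 111) (nat_lit 5) (nat_lit 112) (nat_lit 4) (nat_lit 360) (nat_lit 333) (nat_lit 327)) (XT.lf (nat_lit 0) (nat_lit 3281734077) (nat_lit 456) (nat_lit 2949637725) (nat_lit 76) (nat_lit 1569439422) (nat_lit 100) (nat_lit 5) (nat_lit 106) (nat_lit 5) (nat_lit 101) (nat_lit 4) (nat_lit 361) (nat_lit 333) (nat_lit 326))))) (XT.nd (nat_lit 234) (nat_lit 912) (nat_lit 0) (XT.nd (nat_lit 78) (nat_lit 380) (nat_lit 0) (XT.lf (nat_lit 0) (nat_lit 2898715901) (nat_lit 304) (nat_lit 3788045978) (nat_lit 380) (nat_lit 1259685205) (nat_lit 96) (nat_lit 5) (nat_lit 100) (nat_lit 5) (nat_lit 101) (nat_lit 4) (nat_lit 362) (nat_lit 333) (nat_lit 325)) (XT.nd (nat_lit 78) (nat_lit 0) (nat_lit 0) (XT.lf (nat_lit 0) (nat_lit 865484925) (nat_lit 304) (nat_lit 1154095399) (nat_lit 380) (nat_lit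 6081861648) (nat_lit 91) (nat_lit 5) (nat_lit 95) (nat_lit 5) (nat_lit 96) (nat_lit 5) (nat_lit 363) (nat_lit 333) (nat_lit 324)) (XT.lf (nat_lit 0) (nat_lit 5397732096) (nat_lit 380) (nat_lit 1233612870) (nat_lit 76) (nat_lit 1633014528) (nat_lit 91) (nat_lit 5) (nat_lit 96) (nat_lit 5) (nat_lit 92) (nat_lit 4) (nat_lit 364) (nat_lit 333) (nat_lit 323)))) (XT.nd (nat_lit 156) (nat_lit 304) (nat_lit 0) (XT.nd (nat_lit 78) (nat_lit 304) (nat_lit 0) (XT.lf (nat_lit 0) (nat_lit 461791583) (nat_lit 304) (nat_lit 3400824291) (nat_lit 76) (nat_lit 4574034990) (nat_lit 87) (nat_lit 5) (nat_lit 91) (nat_lit 5) (nat_lit 88) (nat_lit 5) (nat_lit 365) (nat_lit 333) (nat_lit 322)) (XT.lf (nat_lit 0) (nat_lit 2921978057) (nat_lit 304) (nat_lit 878228204) (nat_lit 380) (nat_lit 4818064195) (nat_lit 83) (nat_lit 5) (nat_lit 87) (nat_lit 5) (nat_lit 88) (nat_lit 5) (nat_lit 366) (nat_lit 333) (nat_lit 321)))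 (XT.nd (nat_lit 78) (nat_lit 76) (nat_lit 0) (XT.lf (nat_lit 0) (nat_lit 686627298) (nat_lit 228) (nat_lit 6599216735) (nat_lit 304) (nat_lit 1524168027) (nat_lit 80) (nat_lit 5) (nat_lit 83) (nat_lit 5) (nat_lit 84) (nat_lit 4) (nat_lit 367) (nat_lit 333) (nat_lit 320)) (XT.lf (nat_lit 0) (nat_lit 1862023692) (nat_lit 304) (nat_lit 1639672589) (nat_lit 76) (nat_lit 5508709586) (nat_lit 79) (nat_lit 5) (nat_lit 83) (nat_lit 5) (nat_lit 80) (nat_lit 5) (nat_lit 368) (nat_lit 333) (nat_lit 319))))))) (XT.nd (nat_lit 1092) (nat_lit 1368) (nat_lit 0) (XT.nd (nat_lit 546) (nat_lit 988) (nat_lit 0) (XT.nd (nat_lit 234) (nat_lit 456) (nat_lit 0) (XT.nd (nat_lit 78) (nat_lit 532) (nat_lit 0) (XT.lf (nat_lit 0) (nat_lit 5142664500) (nat_lit 228) (nat_lit 186850091) (nat_lit 304) (nat_lit 3891943380) (nat_lit 76) (nat_lit 5) (nat_lit 79) (nat_lit 5) (nat_lit 80) (nat_lit 5) (nat_lit 369) (nat_lit 333)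 (nat_lit 318)) (XT.nd (nat_lit 78) (nat_lit 304) (nat_lit 0) (XT.lf (nat_lit 0) (nat_lit 2747942285) (nat_lit 228) (nat_lit 6230190757) (nat_lit 304) (nat_lit 464588182) (nat_lit 73) (nat_lit 5) (nat_lit 76) (nat_lit 5) (nat_lit 77) (nat_lit 4) (nat_lit 370) (nat_lit 333) (nat_lit 317)) (XT.lf (nat_lit 0) (nat_lit 169730098) (nat_lit 228) (nat_lit 2826232722) (nat_lit 304) (nat_lit 6678573092) (nat_lit 69) (nat_lit 5) (nat_lit 72) (nat_lit 5) (nat_lit 73) (nat_lit 5) (nat_lit 371) (nat_lit 333) (nat_lit 316)))) (XT.nd (nat_lit 156) (nat_lit 228) (nat_lit 0) (XT.nd (nat_lit 78) (nat_lit 228) (nat_lit 0) (XT.lf (nat_lit 0) (nat_lit 6629032162) (nat_lit 304) (nat_lit 2494144526) (nat_lit 76) (nat_lit 793668543) (nat_lit 69) (nat_lit 5) (nat_lit 73) (nat_lit 5) (nat_lit 70) (nat_lit 4) (nat_lit 372) (nat_lit 333) (nat_lit 315)) (XT.lf (nat_lit 0) (nat_lit 278950071) (nat_lit 228) (nat_lit 5362805968)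 (nat_lit 76) (nat_lit 4528578142) (nat_lit 66) (nat_lit 5) (nat_lit 69) (nat_lit 5) (nat_lit 67) (nat_lit 5) (nat_lit 373) (nat_lit 333) (nat_lit 314))) (XT.nd (nat_lit 78) (nat_lit 0) (nat_lit 0) (XT.lf (nat_lit 0) (nat_lit 1971607909) (nat_lit 228) (nat_lit 1910015179) (nat_lit 304) (nat_lit 6553810842) (nat_lit 63) (nat_lit 5) (nat_lit 66) (nat_lit 5) (nat_lit 67) (nat_lit 5) (nat_lit 374) (nat_lit 333) (nat_lit 313)) (XT.lf (nat_lit 0) (nat_lit 7684066525) (nat_lit 304) (nat_lit 1048213878) (nat_lit 76) (nat_lit 1980559256) (nat_lit 63) (nat_lit 5) (nat_lit 67) (nat_lit 5) (nat_lit 64) (nat_lit 4) (nat_lit 375) (nat_lit 333) (nat_lit 312))))) (XT.nd (nat_lit 234) (nat_lit 456) (nat_lit 0) (XT.nd (nat_lit 78) (nat_lit 304) (nat_lit 0) (XT.lf (nat_lit 0) (nat_lit 689458626) (nat_lit 228) (nat_lit 4247133906) (nat_lit 76) (nat_lit 6065104582) (nat_lit 60) (nat_lit 5) (nat_lit 63) (nat_lit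 5) (nat_lit 61) (nat_lit 5) (nat_lit 376) (nat_lit 333) (nat_lit 311)) (XT.nd (nat_lit 78) (nat_lit 152) (nat_lit 0) (XT.lf (nat_lit 0) (nat_lit 3586678276) (nat_lit 152) (nat_lit 880790781) (nat_lit 228) (nat_lit 6836291458) (nat_lit 58) (nat_lit 5) (nat_lit 60) (nat_lit 5) (nat_lit 61) (nat_lit 5) (nat_lit 377) (nat_lit 333) (nat_lit 310)) (XT.lf (nat_lit 0) (nat_lit 133356838) (nat_lit 152) (nat_lit 8331895036) (nat_lit 228) (nat_lit 3154158629) (nat_lit 56) (nat_lit 5) (nat_lit 58) (nat_lit 5) (nat_lit 59) (nat_lit 4) (nat_lit 378) (nat_lit 333) (nat_lit 309)))) (XT.nd (nat_lit 156) (nat_lit 228) (nat_lit 0) (XT.nd (nat_lit 78) (nat_lit 152) (nat_lit 0) (XT.lf (nat_lit 0) (nat_lit 740104822) (nat_lit 228) (nat_lit 3487711250) (nat_lit 76) (nat_lit 7719954786) (nat_lit 55) (nat_lit 5) (nat_lit 58) (nat_lit 5) (nat_lit 56) (nat_lit 5) (nat_lit 379) (nat_lit 333) (nat_lit 308)) (XT.lf (nat_lit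 0) (nat_lit 4709546780) (nat_lit 228) (nat_lit 7431070486) (nat_lit 76) (nat_lit 150046632) (nat_lit 53) (nat_lit 5) (nat_lit 56) (nat_lit 5) (nat_lit 54) (nat_lit 4) (nat_lit 380) (nat_lit 333) (nat_lit 307))) (XT.nd (nat_lit 78) (nat_lit 76) (nat_lit 0) (XT.lf (nat_lit 0) (nat_lit 902773623) (nat_lit 152) (nat_lit 8027356330) (nat_lit 228) (nat_lit 3717960402) (nat_lit 51) (nat_lit 5) (nat_lit 53) (nat_lit 5) (nat_lit 54) (nat_lit 4) (nat_lit 381) (nat_lit 333) (nat_lit 306)) (XT.lf (nat_lit 0) (nat_lit 365157006) (nat_lit 228) (nat_lit 3267116311) (nat_lit 76) (nat_lit 9388989227) (nat_lit 50) (nat_lit 5) (nat_lit 53) (nat_lit 5) (nat_lit 51) (nat_lit 5) (nat_lit 382) (nat_lit 333) (nat_lit 305)))))) (XT.nd (nat_lit 546) (nat_lit 608) (nat_lit 0) (XT.nd (nat_lit 234) (nat_lit 532) (nat_lit 0) (XT.nd (nat_lit 78) (nat_lit 76) (nat_lit 0) (XT.lf (nat_lit 0) (nat_lit 4545868341) (nat_lit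 228) (nat_lit 7819959129) (nat_lit 76) (nat_lit 1043318262) (nat_lit 48) (nat_lit 5) (nat_lit 51) (nat_lit 5) (nat_lit 49) (nat_lit 4) (nat_lit 383) (nat_lit 333) (nat_lit 304)) (XT.nd (nat_lit 78) (nat_lit 0) (nat_lit 0) (XT.lf (nat_lit 0) (nat_lit 1012463907) (nat_lit 76) (nat_lit 7969663712) (nat_lit 152) (nat_lit 4831988123) (nat_lit 47) (nat_lit 5) (nat_lit 48) (nat_lit 5) (nat_lit 49) (nat_lit 4) (nat_lit 384) (nat_lit 333) (nat_lit 303)) (XT.lf (nat_lit 0) (nat_lit 10412815740) (nat_lit 76) (nat_lit 3276525773) (nat_lit 152) (nat_lit 547553068) (nat_lit 47) (nat_lit 5) (nat_lit 48) (nat_lit 5) (nat_lit 49) (nat_lit 4) (nat_lit 385) (nat_lit 333) (nat_lit 302)))) (XT.nd (nat_lit 156) (nat_lit 228) (nat_lit 0) (XT.nd (nat_lit 78) (nat_lit 76) (nat_lit 0) (XT.lf (nat_lit 0) (nat_lit 3858371282) (nat_lit 228) (nat_lit 9126427516) (nat_lit 76) (nat_lit 1691258588) (nat_lit 44) (nat_lit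 5) (nat_lit 47) (nat_lit 5) (nat_lit 45) (nat_lit 4) (nat_lit 386) (nat_lit 333) (nat_lit 301)) (XT.lf (nat_lit 0) (nat_lit 191515211) (nat_lit 76) (nat_lit 8317302648) (nat_lit 152) (nat_lit 6625795328) (nat_lit 43) (nat_lit 5) (nat_lit 44) (nat_lit 5) (nat_lit 45) (nat_lit 4) (nat_lit 387) (nat_lit 333) (nat_lit 300))) (XT.nd (nat_lit 78) (nat_lit 228) (nat_lit 0) (XT.lf (nat_lit 0) (nat_lit 10152779506) (nat_lit 76) (nat_lit 3315295155) (nat_lit 152) (nat_lit 2144222047) (nat_lit 43) (nat_lit 5) (nat_lit 44) (nat_lit 5) (nat_lit 45) (nat_lit 4) (nat_lit 388) (nat_lit 333) (nat_lit 299)) (XT.lf (nat_lit 0) (nat_lit 2504500913) (nat_lit 228) (nat_lit 11677405213) (nat_lit 76) (nat_lit 1928719076) (nat_lit 40) (nat_lit 5) (nat_lit 43) (nat_lit 5) (nat_lit 41) (nat_lit 4) (nat_lit 389) (nat_lit 333) (nat_lit 298))))) (XT.nd (nat_lit 234) (nat_lit 304) (nat_lit 0) (XT.nd (nat_lit 78) (nat_lit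 304) (nat_lit 0) (XT.lf (nat_lit 0) (nat_lit 7386754988) (nat_lit 228) (nat_lit 1846054332) (nat_lit 76) (nat_lit 7395657874) (nat_lit 40) (nat_lit 5) (nat_lit 43) (nat_lit 5) (nat_lit 41) (nat_lit 4) (nat_lit 390) (nat_lit 333) (nat_lit 297)) (XT.nd (nat_lit 78) (nat_lit 228) (nat_lit 0) (XT.lf (nat_lit 0) (nat_lit 8623412552) (nat_lit 76) (nat_lit 3952754839) (nat_lit 152) (nat_lit 4592893395) (nat_lit 39) (nat_lit 5) (nat_lit 40) (nat_lit 5) (nat_lit 41) (nat_lit 4) (nat_lit 391) (nat_lit 333) (nat_lit 296)) (XT.lf (nat_lit 0) (nat_lit 293791545) (nat_lit 228) (nat_lit 15891555607) (nat_lit 76) (nat_lit 1550389748) (nat_lit 36) (nat_lit 5) (nat_lit 39) (nat_lit 5) (nat_lit 37) (nat_lit 4) (nat_lit 392) (nat_lit 333) (nat_lit 295)))) (XT.nd (nat_lit 156) (nat_lit 228) (nat_lit 0) (XT.nd (nat_lit 78) (nat_lit 76) (nat_lit 0) (XT.lf (nat_lit 0) (nat_lit 5411527898) (nat_lit 228) (nat_lit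 5546036525) (nat_lit 76) (nat_lit 7362374484) (nat_lit 36) (nat_lit 5) (nat_lit 39) (nat_lit 5) (nat_lit 37) (nat_lit 4) (nat_lit 393) (nat_lit 333) (nat_lit 294)) (XT.lf (nat_lit 0) (nat_lit 5364406626) (nat_lit 76) (nat_lit 5437042644) (nat_lit 152) (nat_lit 8131096531) (nat_lit 35) (nat_lit 5) (nat_lit 36) (nat_lit 5) (nat_lit 37) (nat_lit 4) (nat_lit 394) (nat_lit 333) (nat_lit 293))) (XT.nd (nat_lit 78) (nat_lit 228) (nat_lit 0) (XT.lf (nat_lit 0) (nat_lit 16494922906) (nat_lit 152) (nat_lit 2689811231) (nat_lit 0) (nat_lit 389355325) (nat_lit 35) (nat_lit 5) (nat_lit 37) (nat_lit 4) (nat_lit 35) (nat_lit 4) (nat_lit 395) (nat_lit 333) (nat_lit 292)) (XT.lf (nat_lit 0) (nat_lit 2319592691) (nat_lit 228) (nat_lit 11470385857) (nat_lit 76) (nat_lit 6447730019) (nat_lit 32) (nat_lit 5) (nat_lit 35) (nat_lit 5) (nat_lit 33) (nat_lit 4) (nat_lit 396) (nat_lit 333) (nat_lit 291))))))))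
noncomputable def xc80 : XT := (XT.nd (nat_lit 2106) (nat_lit 684) (nat_lit 0) (XT.nd (nat_lit 1014) (nat_lit 532) (nat_lit 0) (XT.nd (nat_lit 468) (nat_lit 456) (nat_lit 0) (XT.nd (nat_lit 234) (nat_lit 152) (nat_lit 0) (XT.nd (nat_lit 78) (nat_lit 152) (nat_lit 0) (XT.lf (nat_lit 0) (nat_lit 7867463746) (nat_lit 228) (nat_lit 211519996) (nat_lit 76) (nat_lit 12853876251) (nat_lit 32) (nat_lit 5) (nat_lit 35) (nat_lit 5) (nat_lit 33) (nat_lit 4) (nat_lit 397) (nat_lit 333) (nat_lit 290)) (XT.nd (nat_lit 78) (nat_lit 76) (nat_lit 0) (XT.lf (nat_lit 0) (nat_lit 11877331620) (nat_lit 76) (nat_lit 1940219931) (nat_lit 152) (nat_lit 7838983877) (nat_lit 31) (nat_lit 5) (nat_lit 32) (nat_lit 5) (nat_lit 33) (nat_lit 4) (nat_lit 398) (nat_lit 333) (nat_lit 289)) (XT.lf (nat_lit 0) (nat_lit 2043296529) (nat_lit 76) (nat_lit 18067457712) (nat_lit 76) (nat_lit 2303367102) (nat_lit 30) (nat_lit 4)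 (nat_lit 31) (nat_lit 5) (nat_lit 31) (nat_lit 4) (nat_lit 399) (nat_lit 333) (nat_lit 288)))) (XT.nd (nat_lit 78) (nat_lit 76) (nat_lit 0) (XT.lf (nat_lit 0) (nat_lit 3536733037) (nat_lit 152) (nat_lit 8607797934) (nat_lit 76) (nat_lit 11055322185) (nat_lit 29) (nat_lit 5) (nat_lit 31) (nat_lit 5) (nat_lit 30) (nat_lit 4) (nat_lit 400) (nat_lit 333) (nat_lit 287)) (XT.nd (nat_lit 78) (nat_lit 0) (nat_lit 0) (XT.lf (nat_lit 0) (nat_lit 3716359043) (nat_lit 76) (nat_lit 5875832705) (nat_lit 152) (nat_lit 14430759964) (nat_lit 28) (nat_lit 5) (nat_lit 29) (nat_lit 5) (nat_lit 30) (nat_lit 4) (nat_lit 401) (nat_lit 333) (nat_lit 286)) (XT.lf (nat_lit 0) (nat_lit 16052636503) (nat_lit 152) (nat_lit 8046259799) (nat_lit 0) (nat_lit 783204190) (nat_lit 28) (nat_lit 5) (nat_lit 30) (nat_lit 4) (nat_lit 28) (nat_lit 4) (nat_lit 402) (nat_lit 333) (nat_lit 285))))) (XT.nd (nat_lit 234) (nat_lit 228)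 (nat_lit 0) (XT.nd (nat_lit 78) (nat_lit 152) (nat_lit 0) (XT.lf (nat_lit 0) (nat_lit 4780441404) (nat_lit 76) (nat_lit 18172355461) (nat_lit 76) (nat_lit 2825580847) (nat_lit 27) (nat_lit 4) (nat_lit 28) (nat_lit 5) (nat_lit 28) (nat_lit 4) (nat_lit 403) (nat_lit 333) (nat_lit 284)) (XT.nd (nat_lit 78) (nat_lit 76) (nat_lit 0) (XT.lf (nat_lit 0) (nat_lit 3451514648) (nat_lit 152) (nat_lit 8344828917) (nat_lit 76) (nat_lit 14916197325) (nat_lit 26) (nat_lit 5) (nat_lit 28) (nat_lit 5) (nat_lit 27) (nat_lit 4) (nat_lit 404) (nat_lit 333) (nat_lit 283)) (XT.lf (nat_lit 0) (nat_lit 4954663340) (nat_lit 76) (nat_lit 5018628871) (nat_lit 152) (nat_lit 17716519595) (nat_lit 25) (nat_lit 5) (nat_lit 26) (nat_lit 5) (nat_lit 27) (nat_lit 4) (nat_lit 405) (nat_lit 333) (nat_lit 282)))) (XT.nd (nat_lit 156) (nat_lit 152) (nat_lit 0) (XT.nd (nat_lit 78) (nat_lit 76) (nat_lit 0) (XT.lf (nat_lit 0) (nat_lit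 16946202705) (nat_lit 152) (nat_lit 9633861777) (nat_lit 0) (nat_lit 2129634247) (nat_lit 25) (nat_lit 5) (nat_lit 27) (nat_lit 4) (nat_lit 25) (nat_lit 4) (nat_lit 406) (nat_lit 333) (nat_lit 281)) (XT.lf (nat_lit 0) (nat_lit 4076643725) (nat_lit 76) (nat_lit 20288129092) (nat_lit 76) (nat_lit 5410960917) (nat_lit 24) (nat_lit 4) (nat_lit 25) (nat_lit 5) (nat_lit 25) (nat_lit 4) (nat_lit 407) (nat_lit 333) (nat_lit 280))) (XT.nd (nat_lit 78) (nat_lit 76) (nat_lit 0) (XT.lf (nat_lit 0) (nat_lit 1335913890) (nat_lit 152) (nat_lit 12196258714) (nat_lit 76) (nat_lit 17356068169) (nat_lit 23) (nat_lit 5) (nat_lit 25) (nat_lit 5) (nat_lit 24) (nat_lit 4) (nat_lit 408) (nat_lit 333) (nat_lit 279)) (XT.lf (nat_lit 0) (nat_lit 1862967857) (nat_lit 76) (nat_lit 6357917887) (nat_lit 152) (nat_lit 23831926190) (nat_lit 22) (nat_lit 5) (nat_lit 23) (nat_lit 5) (nat_lit 24) (nat_lit 4) (nat_lit 409) (nat_lit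 333) (nat_lit 278)))))) (XT.nd (nat_lit 546) (nat_lit 304) (nat_lit 0) (XT.nd (nat_lit 234) (nat_lit 152) (nat_lit 0) (XT.nd (nat_lit 78) (nat_lit 76) (nat_lit 0) (XT.lf (nat_lit 0) (nat_lit 15632070270) (nat_lit 152) (nat_lit 16328277737) (nat_lit 0) (nat_lit 1306169096) (nat_lit 22) (nat_lit 5) (nat_lit 24) (nat_lit 4) (nat_lit 22) (nat_lit 4) (nat_lit 410) (nat_lit 333) (nat_lit 277)) (XT.nd (nat_lit 78) (nat_lit 76) (nat_lit 0) (XT.lf (nat_lit 0) (nat_lit 23473930433) (nat_lit 152) (nat_lit 1963426961) (nat_lit 0) (nat_lit 9100547795) (nat_lit 22) (nat_lit 5) (nat_lit 24) (nat_lit 4) (nat_lit 22) (nat_lit 4) (nat_lit 411) (nat_lit 333) (nat_lit 276)) (XT.lf (nat_lit 0) (nat_lit 13469276144) (nat_lit 76) (nat_lit 18406889415) (nat_lit 76) (nat_lit 3988286336) (nat_lit 21) (nat_lit 4) (nat_lit 22) (nat_lit 5) (nat_lit 22) (nat_lit 4) (nat_lit 412) (nat_lit 333) (nat_lit 275)))) (XT.nd (nat_lit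 156) (nat_lit 0) (nat_lit 0) (XT.nd (nat_lit 78) (nat_lit 76) (nat_lit 0) (XT.lf (nat_lit 0) (nat_lit 3322901807) (nat_lit 152) (nat_lit 7649721460) (nat_lit 76) (nat_lit 26282426610) (nat_lit 20) (nat_lit 5) (nat_lit 22) (nat_lit 5) (nat_lit 21) (nat_lit 4) (nat_lit 413) (nat_lit 333) (nat_lit 274)) (XT.lf (nat_lit 0) (nat_lit 7944205530) (nat_lit 76) (nat_lit 3005497869) (nat_lit 152) (nat_lit 27758003804) (nat_lit 19) (nat_lit 5) (nat_lit 20) (nat_lit 5) (nat_lit 21) (nat_lit 4) (nat_lit 414) (nat_lit 333) (nat_lit 273))) (XT.nd (nat_lit 78) (nat_lit 0) (nat_lit 0) (XT.lf (nat_lit 0) (nat_lit 19133388428) (nat_lit 152) (nat_lit 15806731390) (nat_lit 0) (nat_lit 5284103136) (nat_lit 19) (nat_lit 5) (nat_lit 21) (nat_lit 4) (nat_lit 19) (nat_lit 4) (nat_lit 415) (nat_lit 333) (nat_lit 272)) (XT.lf (nat_lit 0) (nat_lit 27737607646) (nat_lit 152) (nat_lit 225500992) (nat_lit 0) (nat_lit 13852890955)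 (nat_lit 19) (nat_lit 5) (nat_lit 21) (nat_lit 4) (nat_lit 19) (nat_lit 4) (nat_lit 416) (nat_lit 333) (nat_lit 271))))) (XT.nd (nat_lit 234) (nat_lit 76) (nat_lit 0) (XT.nd (nat_lit 78) (nat_lit 152) (nat_lit 0) (XT.lf (nat_lit 0) (nat_lit 16595367327) (nat_lit 76) (nat_lit 20399655910) (nat_lit 76) (nat_lit 6481195028) (nat_lit 18) (nat_lit 4) (nat_lit 19) (nat_lit 5) (nat_lit 19) (nat_lit 4) (nat_lit 417) (nat_lit 333) (nat_lit 270)) (XT.nd (nat_lit 78) (nat_lit 76) (nat_lit 0) (XT.lf (nat_lit 0) (nat_lit 1415803295) (nat_lit 152) (nat_lit 11048201449) (nat_lit 76) (nat_lit 32755886717) (nat_lit 17) (nat_lit 5) (nat_lit 19) (nat_lit 5) (nat_lit 18) (nat_lit 4) (nat_lit 418) (nat_lit 333) (nat_lit 269)) (XT.lf (nat_lit 0) (nat_lit 5581192748) (nat_lit 76) (nat_lit 3961440387) (nat_lit 152) (nat_lit 37500165251) (nat_lit 16) (nat_lit 5) (nat_lit 17) (nat_lit 5) (nat_lit 18) (nat_lit 4) (nat_lit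 419) (nat_lit 333) (nat_lit 268)))) (XT.nd (nat_lit 156) (nat_lit 76) (nat_lit 0) (XT.nd (nat_lit 78) (nat_lit 0) (nat_lit 0) (XT.lf (nat_lit 0) (nat_lit 18309265363) (nat_lit 152) (nat_lit 25669843852) (nat_lit 0) (nat_lit 4966070431) (nat_lit 16) (nat_lit 5) (nat_lit 18) (nat_lit 4) (nat_lit 16) (nat_lit 4) (nat_lit 420) (nat_lit 333) (nat_lit 267)) (XT.lf (nat_lit 0) (nat_lit 27546551631) (nat_lit 152) (nat_lit 9217596911) (nat_lit 0) (nat_lit 14176917243) (nat_lit 16) (nat_lit 5) (nat_lit 18) (nat_lit 4) (nat_lit 16) (nat_lit 4) (nat_lit 421) (nat_lit 333) (nat_lit 266))) (XT.nd (nat_lit 78) (nat_lit 0) (nat_lit 0) (XT.lf (nat_lit 0) (nat_lit 8260545428) (nat_lit 76) (nat_lit 29083061128) (nat_lit 76) (nat_lit 15688246306) (nat_lit 15) (nat_lit 4) (nat_lit 16) (nat_lit 5) (nat_lit 16) (nat_lit 4) (nat_lit 422) (nat_lit 333) (nat_lit 265)) (XT.lf (nat_lit 0) (nat_lit 26872488627) (nat_lit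 76) (nat_lit 20883604824) (nat_lit 76) (nat_lit 7464808636) (nat_lit 15) (nat_lit 4) (nat_lit 16) (nat_lit 5) (nat_lit 16) (nat_lit 4) (nat_lit 423) (nat_lit 333) (nat_lit 264))))))) (XT.nd (nat_lit 1014) (nat_lit 304) (nat_lit 0) (XT.nd (nat_lit 468) (nat_lit 152) (nat_lit 0) (XT.nd (nat_lit 234) (nat_lit 76) (nat_lit 0) (XT.nd (nat_lit 78) (nat_lit 76) (nat_lit 0) (XT.lf (nat_lit 0) (nat_lit 1102810119) (nat_lit 152) (nat_lit 11180874837) (nat_lit 76) (nat_lit 45236284710) (nat_lit 14) (nat_lit 5) (nat_lit 16) (nat_lit 5) (nat_lit 15) (nat_lit 4) (nat_lit 424) (nat_lit 333) (nat_lit 263)) (XT.nd (nat_lit 78) (nat_lit 0) (nat_lit 0) (XT.lf (nat_lit 0) (nat_lit 6887651644) (nat_lit 76) (nat_lit 3039684469) (nat_lit 152) (nat_lit 49996567695) (nat_lit 13) (nat_lit 5) (nat_lit 14) (nat_lit 5) (nat_lit 15) (nat_lit 4) (nat_lit 425) (nat_lit 333) (nat_lit 262)) (XT.lf (nat_lit 0) (nat_lit 19461554324)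 (nat_lit 152) (nat_lit 36353507391) (nat_lit 0) (nat_lit 6619551091) (nat_lit 13) (nat_lit 5) (nat_lit 15) (nat_lit 4) (nat_lit 13) (nat_lit 4) (nat_lit 426) (nat_lit 333) (nat_lit 261)))) (XT.nd (nat_lit 78) (nat_lit 76) (nat_lit 0) (XT.lf (nat_lit 0) (nat_lit 29495576467) (nat_lit 152) (nat_lit 18939344306) (nat_lit 0) (nat_lit 16634783207) (nat_lit 13) (nat_lit 5) (nat_lit 15) (nat_lit 4) (nat_lit 13) (nat_lit 4) (nat_lit 427) (nat_lit 333) (nat_lit 260)) (XT.nd (nat_lit 78) (nat_lit 76) (nat_lit 0) (XT.lf (nat_lit 0) (nat_lit 40005835079) (nat_lit 152) (nat_lit 704842622) (nat_lit 0) (nat_lit 27127146555) (nat_lit 13) (nat_lit 5) (nat_lit 15) (nat_lit 4) (nat_lit 13) (nat_lit 4) (nat_lit 428) (nat_lit 333) (nat_lit 259)) (XT.lf (nat_lit 0) (nat_lit 19001582446) (nat_lit 76) (nat_lit 32312440093) (nat_lit 76) (nat_lit 19416708460) (nat_lit 12) (nat_lit 4) (nat_lit 13) (nat_lit 5) (nat_lit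 13) (nat_lit 4) (nat_lit 429) (nat_lit 333) (nat_lit 258))))) (XT.nd (nat_lit 234) (nat_lit 0) (nat_lit 0) (XT.nd (nat_lit 78) (nat_lit 152) (nat_lit 0) (XT.lf (nat_lit 0) (nat_lit 39670602033) (nat_lit 76) (nat_lit 23505120131) (nat_lit 76) (nat_lit 10593156966) (nat_lit 12) (nat_lit 4) (nat_lit 13) (nat_lit 5) (nat_lit 13) (nat_lit 4) (nat_lit 430) (nat_lit 333) (nat_lit 257)) (XT.nd (nat_lit 78) (nat_lit 152) (nat_lit 0) (XT.lf (nat_lit 0) (nat_lit 61328122810) (nat_lit 76) (nat_lit 14279684856) (nat_lit 76) (nat_lit 1352263089) (nat_lit 12) (nat_lit 4) (nat_lit 13) (nat_lit 5) (nat_lit 13) (nat_lit 4) (nat_lit 431) (nat_lit 333) (nat_lit 256)) (XT.lf (nat_lit 0) (nat_lit 3702279379) (nat_lit 76) (nat_lit 4416951657) (nat_lit 152) (nat_lit 72183281615) (nat_lit 10) (nat_lit 5) (nat_lit 11) (nat_lit 5) (nat_lit 12) (nat_lit 4) (nat_lit 432) (nat_lit 333) (nat_lit 255)))) (XT.nd (nat_lit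 156) (nat_lit 0) (nat_lit 0) (XT.nd (nat_lit 78) (nat_lit 0) (nat_lit 0) (XT.lf (nat_lit 0) (nat_lit 18358724995) (nat_lit 152) (nat_lit 59415731099) (nat_lit 0) (nat_lit 6019519611) (nat_lit 10) (nat_lit 5) (nat_lit 12) (nat_lit 4) (nat_lit 10) (nat_lit 4) (nat_lit 433) (nat_lit 333) (nat_lit 254)) (XT.lf (nat_lit 0) (nat_lit 29161719233) (nat_lit 152) (nat_lit 41485921315) (nat_lit 0) (nat_lit 16809796019) (nat_lit 10) (nat_lit 5) (nat_lit 12) (nat_lit 4) (nat_lit 10) (nat_lit 4) (nat_lit 434) (nat_lit 333) (nat_lit 253))) (XT.nd (nat_lit 78) (nat_lit 0) (nat_lit 0) (XT.lf (nat_lit 0) (nat_lit 40484974170) (nat_lit 152) (nat_lit 22699152902) (nat_lit 0) (nat_lit 28120938737) (nat_lit 10) (nat_lit 5) (nat_lit 12) (nat_lit 4) (nat_lit 10) (nat_lit 4) (nat_lit 435) (nat_lit 333) (nat_lit 252)) (XT.lf (nat_lit 0) (nat_lit 52355449937) (nat_lit 152) (nat_lit 3010695460) (nat_lit 0) (nat_lit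 39979879057) (nat_lit 10) (nat_lit 5) (nat_lit 12) (nat_lit 4) (nat_lit 10) (nat_lit 4) (nat_lit 436) (nat_lit 333) (nat_lit 251)))))) (XT.nd (nat_lit 546) (nat_lit 76) (nat_lit 0) (XT.nd (nat_lit 234) (nat_lit 152) (nat_lit 0) (XT.nd (nat_lit 78) (nat_lit 0) (nat_lit 0) (XT.lf (nat_lit 0) (nat_lit 18209134306) (nat_lit 76) (nat_lit 46876570882) (nat_lit 76) (nat_lit 34490013862) (nat_lit 9) (nat_lit 4) (nat_lit 10) (nat_lit 5) (nat_lit 10) (nat_lit 4) (nat_lit 437) (nat_lit 333) (nat_lit 250)) (XT.nd (nat_lit 78) (nat_lit 0) (nat_lit 0) (XT.lf (nat_lit 0) (nat_lit 40559201878) (nat_lit 76) (nat_lit 37926527241) (nat_lit 76) (nat_lit 25529507231) (nat_lit 9) (nat_lit 4) (nat_lit 10) (nat_lit 5) (nat_lit 10) (nat_lit 4) (nat_lit 438) (nat_lit 333) (nat_lit 249)) (XT.lf (nat_lit 0) (nat_lit 63993174513) (nat_lit 76) (nat_lit 28545692430) (nat_lit 76) (nat_lit 16138707667) (nat_lit 9) (nat_lit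 4) (nat_lit 10) (nat_lit 5) (nat_lit 10) (nat_lit 4) (nat_lit 439) (nat_lit 333) (nat_lit 248)))) (XT.nd (nat_lit 156) (nat_lit 76) (nat_lit 0) (XT.nd (nat_lit 78) (nat_lit 76) (nat_lit 0) (XT.lf (nat_lit 0) (nat_lit 88566847384) (nat_lit 76) (nat_lit 18711731127) (nat_lit 76) (nat_lit 6295256124) (nat_lit 9) (nat_lit 4) (nat_lit 10) (nat_lit 5) (nat_lit 10) (nat_lit 4) (nat_lit 440) (nat_lit 333) (nat_lit 247)) (XT.lf (nat_lit 0) (nat_lit 3895481961) (nat_lit 152) (nat_lit 4439775307) (nat_lit 76) (nat_lit 110377275402) (nat_lit 8) (nat_lit 5) (nat_lit 10) (nat_lit 5) (nat_lit 9) (nat_lit 4) (nat_lit 441) (nat_lit 333) (nat_lit 246))) (XT.nd (nat_lit 78) (nat_lit 0) (nat_lit 0) (XT.lf (nat_lit 0) (nat_lit 14689866258) (nat_lit 152) (nat_lit 106550010330) (nat_lit 0) (nat_lit 2847846014) (nat_lit 7) (nat_lit 5) (nat_lit 9) (nat_lit 4) (nat_lit 7) (nat_lit 4) (nat_lit 442) (nat_lit 333) (nat_lit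 245)) (XT.lf (nat_lit 0) (nat_lit 26222234945) (nat_lit 152) (nat_lit 89127117344) (nat_lit 0) (nat_lit 14372407056) (nat_lit 7) (nat_lit 5) (nat_lit 9) (nat_lit 4) (nat_lit 7) (nat_lit 4) (nat_lit 443) (nat_lit 333) (nat_lit 244))))) (XT.nd (nat_lit 234) (nat_lit 76) (nat_lit 0) (XT.nd (nat_lit 78) (nat_lit 0) (nat_lit 0) (XT.lf (nat_lit 0) (nat_lit 38317126113) (nat_lit 152) (nat_lit 70861214780) (nat_lit 0) (nat_lit 26459862373) (nat_lit 7) (nat_lit 5) (nat_lit 9) (nat_lit 4) (nat_lit 7) (nat_lit 4) (nat_lit 444) (nat_lit 333) (nat_lit 243)) (XT.nd (nat_lit 78) (nat_lit 0) (nat_lit 0) (XT.lf (nat_lit 0) (nat_lit 51003337125) (nat_lit 152) (nat_lit 51708812394) (nat_lit 0) (nat_lit 39138991620) (nat_lit 7) (nat_lit 5) (nat_lit 9) (nat_lit 4) (nat_lit 7) (nat_lit 4) (nat_lit 445) (nat_lit 333) (nat_lit 242)) (XT.lf (nat_lit 0) (nat_lit 64311073243) (nat_lit 152) (nat_lit 31624309228) (nat_lit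 0) (nat_lit 52439983201) (nat_lit 7) (nat_lit 5) (nat_lit 9) (nat_lit 4) (nat_lit 7) (nat_lit 4) (nat_lit 446) (nat_lit 333) (nat_lit 241)))) (XT.nd (nat_lit 156) (nat_lit 0) (nat_lit 0) (XT.nd (nat_lit 78) (nat_lit 76) (nat_lit 0) (XT.lf (nat_lit 0) (nat_lit 78272019553) (nat_lit 152) (nat_lit 10559885036) (nat_lit 0) (nat_lit 66394506144) (nat_lit 7) (nat_lit 5) (nat_lit 9) (nat_lit 4) (nat_lit 7) (nat_lit 4) (nat_lit 447) (nat_lit 333) (nat_lit 240)) (XT.lf (nat_lit 0) (nat_lit 11915999987) (nat_lit 76) (nat_lit 81189458571) (nat_lit 76) (nat_lit 69305827668) (nat_lit 6) (nat_lit 4) (nat_lit 7) (nat_lit 5) (nat_lit 7) (nat_lit 4) (nat_lit 448) (nat_lit 333) (nat_lit 239))) (XT.nd (nat_lit 78) (nat_lit 0) (nat_lit 0) (XT.lf (nat_lit 0) (nat_lit 35859521170) (nat_lit 76) (nat_lit 72988485004) (nat_lit 76) (nat_lit 61099027916) (nat_lit 6) (nat_lit 4) (nat_lit 7) (nat_lit 5) (nat_lit 7) (nat_lit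 4) (nat_lit 449) (nat_lit 333) (nat_lit 238)) (XT.lf (nat_lit 0) (nat_lit 60978529403) (nat_lit 76) (nat_lit 64388294522) (nat_lit 76) (nat_lit 52493288687) (nat_lit 6) (nat_lit 4) (nat_lit 7) (nat_lit 5) (nat_lit 7) (nat_lit 4) (nat_lit 450) (nat_lit 333) (nat_lit 237))))))))
noncomputable def xc81 : XT := (XT.nd (nat_lit 2106) (nat_lit 0) (nat_lit 0) (XT.nd (nat_lit 1014) (nat_lit 76) (nat_lit 0) (XT.nd (nat_lit 468) (nat_lit 0) (nat_lit 0) (XT.nd (nat_lit 234) (nat_lit 152) (nat_lit 0) (XT.nd (nat_lit 78) (nat_lit 0) (nat_lit 0) (XT.lf (nat_lit 0) (nat_lit 87332831852) (nat_lit 76) (nat_lit 55368410483) (nat_lit 76) (nat_lit 43468120127) (nat_lit 6) (nat_lit 4) (nat_lit 7) (nat_lit 5) (nat_lit 7) (nat_lit 4) (nat_lit 451) (nat_lit 333) (nat_lit 236)) (XT.nd (nat_lit 78) (nat_lit 0) (nat_lit 0) (XT.lf (nat_lit 0) (nat_lit 114985176854) (nat_lit 76) (nat_lit 45907356972) (nat_lit 76) (nat_lit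 34002033739) (nat_lit 6) (nat_lit 4) (nat_lit 7) (nat_lit 5) (nat_lit 7) (nat_lit 4) (nat_lit 452) (nat_lit 333) (nat_lit 235)) (XT.lf (nat_lit 0) (nat_lit 144001403326) (nat_lit 76) (nat_lit 35982607671) (nat_lit 76) (nat_lit 24072491221) (nat_lit 6) (nat_lit 4) (nat_lit 7) (nat_lit 5) (nat_lit 7) (nat_lit 4) (nat_lit 453) (nat_lit 333) (nat_lit 234)))) (XT.nd (nat_lit 78) (nat_lit 152) (nat_lit 0) (XT.lf (nat_lit 0) (nat_lit 174450597521) (nat_lit 76) (nat_lit 25570532225) (nat_lit 76) (nat_lit 13655850807) (nat_lit 6) (nat_lit 4) (nat_lit 7) (nat_lit 5) (nat_lit 7) (nat_lit 4) (nat_lit 454) (nat_lit 333) (nat_lit 233)) (XT.nd (nat_lit 78) (nat_lit 152) (nat_lit 0) (XT.lf (nat_lit 0) (nat_lit 206405257522) (nat_lit 76) (nat_lit 14646339977) (nat_lit 76) (nat_lit 2727310971) (nat_lit 6) (nat_lit 4) (nat_lit 7) (nat_lit 5) (nat_lit 7) (nat_lit 4) (nat_lit 455) (nat_lit 333) (nat_lit 232))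 (XT.lf (nat_lit 0) (nat_lit 5597851271) (nat_lit 76) (nat_lit 2948988162) (nat_lit 152) (nat_lit 225828306708) (nat_lit 4) (nat_lit 5) (nat_lit 5) (nat_lit 5) (nat_lit 6) (nat_lit 4) (nat_lit 456) (nat_lit 333) (nat_lit 231))))) (XT.nd (nat_lit 234) (nat_lit 0) (nat_lit 0) (XT.nd (nat_lit 78) (nat_lit 0) (nat_lit 0) (XT.lf (nat_lit 0) (nat_lit 20729592353) (nat_lit 152) (nat_lit 215377103436) (nat_lit 0) (nat_lit 9370437155) (nat_lit 4) (nat_lit 5) (nat_lit 6) (nat_lit 4) (nat_lit 4) (nat_lit 4) (nat_lit 457) (nat_lit 333) (nat_lit 230)) (XT.nd (nat_lit 78) (nat_lit 0) (nat_lit 0) (XT.lf (nat_lit 0) (nat_lit 33561996496) (nat_lit 152) (nat_lit 201370932647) (nat_lit 0) (nat_lit 22199264526) (nat_lit 4) (nat_lit 5) (nat_lit 6) (nat_lit 4) (nat_lit 4) (nat_lit 4) (nat_lit 458) (nat_lit 333) (nat_lit 229)) (XT.lf (nat_lit 0) (nat_lit 47028563236) (nat_lit 152) (nat_lit 186679392508) (nat_lit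 0) (nat_lit 35662424817) (nat_lit 4) (nat_lit 5) (nat_lit 6) (nat_lit 4) (nat_lit 4) (nat_lit 4) (nat_lit 459) (nat_lit 333) (nat_lit 228)))) (XT.nd (nat_lit 156) (nat_lit 0) (nat_lit 0) (XT.nd (nat_lit 78) (nat_lit 0) (nat_lit 0) (XT.lf (nat_lit 0) (nat_lit 61161355828) (nat_lit 152) (nat_lit 171267503163) (nat_lit 0) (nat_lit 49791973170) (nat_lit 4) (nat_lit 5) (nat_lit 6) (nat_lit 4) (nat_lit 4) (nat_lit 4) (nat_lit 460) (nat_lit 333) (nat_lit 227)) (XT.lf (nat_lit 0) (nat_lit 75994023776) (nat_lit 152) (nat_lit 155098569635) (nat_lit 0) (nat_lit 64621551368) (nat_lit 4) (nat_lit 5) (nat_lit 6) (nat_lit 4) (nat_lit 4) (nat_lit 4) (nat_lit 461) (nat_lit 333) (nat_lit 226))) (XT.nd (nat_lit 78) (nat_lit 0) (nat_lit 0) (XT.lf (nat_lit 0) (nat_lit 91561882957) (nat_lit 152) (nat_lit 138134094466) (nat_lit 0) (nat_lit 80186467931) (nat_lit 4) (nat_lit 5) (nat_lit 6) (nat_lit 4) (nat_lit 4)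 (nat_lit 4) (nat_lit 462) (nat_lit 333) (nat_lit 225)) (XT.lf (nat_lit 0) (nat_lit 107901999702) (nat_lit 152) (nat_lit 120333686047) (nat_lit 0) (nat_lit 96523782182) (nat_lit 4) (nat_lit 5) (nat_lit 6) (nat_lit 4) (nat_lit 4) (nat_lit 4) (nat_lit 463) (nat_lit 333) (nat_lit 224)))))) (XT.nd (nat_lit 546) (nat_lit 0) (nat_lit 0) (XT.nd (nat_lit 234) (nat_lit 76) (nat_lit 0) (XT.nd (nat_lit 78) (nat_lit 0) (nat_lit 0) (XT.lf (nat_lit 0) (nat_lit 125053279053) (nat_lit 152) (nat_lit 101654962453) (nat_lit 0) (nat_lit 113672392490) (nat_lit 4) (nat_lit 5) (nat_lit 6) (nat_lit 4) (nat_lit 4) (nat_lit 4) (nat_lit 464) (nat_lit 333) (nat_lit 223)) (XT.nd (nat_lit 78) (nat_lit 0) (nat_lit 0) (XT.lf (nat_lit 0) (nat_lit 143056557386) (nat_lit 152) (nat_lit 82053450532) (nat_lit 0) (nat_lit 131673128878) (nat_lit 4) (nat_lit 5) (nat_lit 6) (nat_lit 4) (nat_lit 4) (nat_lit 4) (nat_lit 465) (nat_lit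 333) (nat_lit 222)) (XT.lf (nat_lit 0) (nat_lit 161954699652) (nat_lit 152) (nat_lit 61482480019) (nat_lit 0) (nat_lit 150568850245) (nat_lit 4) (nat_lit 5) (nat_lit 6) (nat_lit 4) (nat_lit 4) (nat_lit 4) (nat_lit 466) (nat_lit 333) (nat_lit 221)))) (XT.nd (nat_lit 156) (nat_lit 76) (nat_lit 0) (XT.nd (nat_lit 78) (nat_lit 0) (nat_lit 0) (XT.lf (nat_lit 0) (nat_lit 181792701428) (nat_lit 152) (nat_lit 39893072413) (nat_lit 0) (nat_lit 170404546401) (nat_lit 4) (nat_lit 5) (nat_lit 6) (nat_lit 4) (nat_lit 4) (nat_lit 4) (nat_lit 467) (nat_lit 333) (nat_lit 220)) (XT.lf (nat_lit 0) (nat_lit 202617796049) (nat_lit 152) (nat_lit 17233824361) (nat_lit 0) (nat_lit 191227445195) (nat_lit 4) (nat_lit 5) (nat_lit 6) (nat_lit 4) (nat_lit 4) (nat_lit 4) (nat_lit 468) (nat_lit 333) (nat_lit 219))) (XT.nd (nat_lit 78) (nat_lit 0) (nat_lit 0) (XT.lf (nat_lit 0) (nat_lit 6765761342) (nat_lit 76) (nat_lit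 217819438229) (nat_lit 76) (nat_lit 206426996110) (nat_lit 3) (nat_lit 4) (nat_lit 4) (nat_lit 5) (nat_lit 4) (nat_lit 4) (nat_lit 469) (nat_lit 333) (nat_lit 218)) (XT.lf (nat_lit 0) (nat_lit 32554622356) (nat_lit 76) (nat_lit 215383712876) (nat_lit 76) (nat_lit 203989279077) (nat_lit 3) (nat_lit 4) (nat_lit 4) (nat_lit 5) (nat_lit 4) (nat_lit 4) (nat_lit 470) (nat_lit 333) (nat_lit 217))))) (XT.nd (nat_lit 234) (nat_lit 0) (nat_lit 0) (XT.nd (nat_lit 78) (nat_lit 0) (nat_lit 0) (XT.lf (nat_lit 0) (nat_lit 59624332668) (nat_lit 76) (nat_lit 212830508161) (nat_lit 76) (nat_lit 201434177523) (nat_lit 3) (nat_lit 4) (nat_lit 4) (nat_lit 5) (nat_lit 4) (nat_lit 4) (nat_lit 471) (nat_lit 333) (nat_lit 216)) (XT.nd (nat_lit 78) (nat_lit 0) (nat_lit 0) (XT.lf (nat_lit 0) (nat_lit 88039343967) (nat_lit 76) (nat_lit 210153745023) (nat_lit 76) (nat_lit 198755607872) (nat_lit 3) (nat_lit 4) (nat_lit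 4) (nat_lit 5) (nat_lit 4) (nat_lit 4) (nat_lit 472) (nat_lit 333) (nat_lit 215)) (XT.lf (nat_lit 0) (nat_lit 117867311043) (nat_lit 76) (nat_lit 207347050218) (nat_lit 76) (nat_lit 195947192579) (nat_lit 3) (nat_lit 4) (nat_lit 4) (nat_lit 5) (nat_lit 4) (nat_lit 4) (nat_lit 473) (nat_lit 333) (nat_lit 214)))) (XT.nd (nat_lit 156) (nat_lit 0) (nat_lit 0) (XT.nd (nat_lit 78) (nat_lit 0) (nat_lit 0) (XT.lf (nat_lit 0) (nat_lit 149179252866) (nat_lit 76) (nat_lit 204403741139) (nat_lit 76) (nat_lit 193002244939) (nat_lit 3) (nat_lit 4) (nat_lit 4) (nat_lit 5) (nat_lit 4) (nat_lit 4) (nat_lit 474) (nat_lit 333) (nat_lit 213)) (XT.lf (nat_lit 0) (nat_lit 182049721677) (nat_lit 76) (nat_lit 201316809907) (nat_lit 76) (nat_lit 189913753173) (nat_lit 3) (nat_lit 4) (nat_lit 4) (nat_lit 5) (nat_lit 4) (nat_lit 4) (nat_lit 475) (nat_lit 333) (nat_lit 212))) (XT.nd (nat_lit 78) (nat_lit 0) (nat_lit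 0) (XT.lf (nat_lit 0) (nat_lit 216556980498) (nat_lit 76) (nat_lit 198078906686) (nat_lit 76) (nat_lit 186674363730) (nat_lit 3) (nat_lit 4) (nat_lit 4) (nat_lit 5) (nat_lit 4) (nat_lit 4) (nat_lit 476) (nat_lit 333) (nat_lit 211)) (XT.lf (nat_lit 0) (nat_lit 252783189469) (nat_lit 76) (nat_lit 194682322182) (nat_lit 76) (nat_lit 183276363776) (nat_lit 3) (nat_lit 4) (nat_lit 4) (nat_lit 5) (nat_lit 4) (nat_lit 4) (nat_lit 477) (nat_lit 333) (nat_lit 210))))))) (XT.nd (nat_lit 43836) (nat_lit 0) (nat_lit 5016) (XT.nd (nat_lit 43290) (nat_lit 0) (nat_lit 8208) (XT.nd (nat_lit 234) (nat_lit 0) (nat_lit 0) (XT.nd (nat_lit 78) (nat_lit 0) (nat_lit 0) (XT.lf (nat_lit 0) (nat_lit 290814601467) (nat_lit 76) (nat_lit 191118969290) (nat_lit 76) (nat_lit 179711662836) (nat_lit 3) (nat_lit 4) (nat_lit 4) (nat_lit 5) (nat_lit 4) (nat_lit 4) (nat_lit 478) (nat_lit 333) (nat_lit 209)) (XT.nd (nat_lit 78)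 (nat_lit 0) (nat_lit 0) (XT.lf (nat_lit 0) (nat_lit 330741767475) (nat_lit 76) (nat_lit 187380363836) (nat_lit 76) (nat_lit 175971773527) (nat_lit 3) (nat_lit 4) (nat_lit 4) (nat_lit 5) (nat_lit 4) (nat_lit 4) (nat_lit 479) (nat_lit 333) (nat_lit 208)) (XT.lf (nat_lit 0) (nat_lit 372659752173) (nat_lit 76) (nat_lit 183457604379) (nat_lit 76) (nat_lit 172047791351) (nat_lit 3) (nat_lit 4) (nat_lit 4) (nat_lit 5) (nat_lit 4) (nat_lit 4) (nat_lit 480) (nat_lit 333) (nat_lit 207)))) (XT.nd (nat_lit 78) (nat_lit 0) (nat_lit 0) (XT.lf (nat_lit 0) (nat_lit 416668360287) (nat_lit 76) (nat_lit 179341351014) (nat_lit 76) (nat_lit 167930373492) (nat_lit 3) (nat_lit 4) (nat_lit 4) (nat_lit 5) (nat_lit 4) (nat_lit 4) (nat_lit 481) (nat_lit 333) (nat_lit 206)) (XT.nd (nat_lit 78) (nat_lit 0) (nat_lit 0) (XT.lf (nat_lit 0) (nat_lit 462872374216) (nat_lit 76) (nat_lit 175021803139) (nat_lit 76) (nat_lit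 163609716574) (nat_lit 3) (nat_lit 4) (nat_lit 4) (nat_lit 5) (nat_lit 4) (nat_lit 4) (nat_lit 482) (nat_lit 333) (nat_lit 205)) (XT.lf (nat_lit 0) (nat_lit 511381803518) (nat_lit 76) (nat_lit 170488676116) (nat_lit 76) (nat_lit 159075533321) (nat_lit 3) (nat_lit 4) (nat_lit 4) (nat_lit 5) (nat_lit 4) (nat_lit 4) (nat_lit 483) (nat_lit 333) (nat_lit 204))))) (XT.nd (nat_lit 234) (nat_lit 1976) (nat_lit 0) (XT.nd (nat_lit 78) (nat_lit 684) (nat_lit 0) (XT.lf (nat_lit 0) (nat_lit 346866855) (nat_lit 532) (nat_lit 1542620243) (nat_lit 532) (nat_lit 1542620243) (nat_lit 146) (nat_lit 4) (nat_lit 153) (nat_lit 5) (nat_lit 153) (nat_lit 4) (nat_lit 352) (nat_lit 334) (nat_lit 334)) (XT.nd (nat_lit 78) (nat_lit 608) (nat_lit 0) (XT.lf (nat_lit 0) (nat_lit 251052106) (nat_lit 608) (nat_lit 1421367578) (nat_lit 76) (nat_lit 5267302940) (nat_lit 145) (nat_lit 5) (nat_lit 153) (nat_lit 5) (nat_lit 146)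 (nat_lit 4) (nat_lit 353) (nat_lit 334) (nat_lit 333)) (XT.lf (nat_lit 0) (nat_lit 3468979835) (nat_lit 608) (nat_lit 67038208) (nat_lit 684) (nat_lit 3486310581) (nat_lit 137) (nat_lit 5) (nat_lit 145) (nat_lit 5) (nat_lit 146) (nat_lit 4) (nat_lit 354) (nat_lit 334) (nat_lit 332)))) (XT.nd (nat_lit 156) (nat_lit 1216) (nat_lit 0) (XT.nd (nat_lit 78) (nat_lit 76) (nat_lit 0) (XT.lf (nat_lit 0) (nat_lit 1401979939) (nat_lit 684) (nat_lit 5492021851) (nat_lit 684) (nat_lit 219747228) (nat_lit 128) (nat_lit 4) (nat_lit 137) (nat_lit 5) (nat_lit 137) (nat_lit 4) (nat_lit 355) (nat_lit 334) (nat_lit 331)) (XT.lf (nat_lit 0) (nat_lit 3009367720) (nat_lit 760) (nat_lit 695842859) (nat_lit 76) (nat_lit 3507036655) (nat_lit 127) (nat_lit 5) (nat_lit 137) (nat_lit 5) (nat_lit 128) (nat_lit 4) (nat_lit 356) (nat_lit 334) (nat_lit 330))) (XT.nd (nat_lit 78) (nat_lit 456) (nat_lit 0) (XT.lf (nat_lit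 0) (nat_lit 4555613133) (nat_lit 760) (nat_lit 1755404228) (nat_lit 836) (nat_lit 1008655563) (nat_lit 117) (nat_lit 5) (nat_lit 127) (nat_lit 5) (nat_lit 128) (nat_lit 4) (nat_lit 357) (nat_lit 334) (nat_lit 329)) (XT.lf (nat_lit 0) (nat_lit 2177476170) (nat_lit 456) (nat_lit 4894901156) (nat_lit 76) (nat_lit 362994781) (nat_lit 111) (nat_lit 5) (nat_lit 117) (nat_lit 5) (nat_lit 112) (nat_lit 4) (nat_lit 358) (nat_lit 334) (nat_lit 328)))))) (XT.nd (nat_lit 546) (nat_lit 1368) (nat_lit 0) (XT.nd (nat_lit 234) (nat_lit 988) (nat_lit 0) (XT.nd (nat_lit 78) (nat_lit 456) (nat_lit 0) (XT.lf (nat_lit 0) (nat_lit 455568243) (nat_lit 380) (nat_lit 4971101545) (nat_lit 456) (nat_lit 2132568521) (nat_lit 106) (nat_lit 5) (nat_lit 111) (nat_lit 5) (nat_lit 112) (nat_lit 4) (nat_lit 359) (nat_lit 334) (nat_lit 327)) (XT.nd (nat_lit 78) (nat_lit 380) (nat_lit 0) (XT.lf (nat_lit 0) (nat_lit 1052703314)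 (nat_lit 456) (nat_lit 1627740532) (nat_lit 76) (nat_lit 5011017258) (nat_lit 105) (nat_lit 5) (nat_lit 111) (nat_lit 5) (nat_lit 106) (nat_lit 5) (nat_lit 360) (nat_lit 334) (nat_lit 326)) (XT.lf (nat_lit 0) (nat_lit 4058060883) (nat_lit 380) (nat_lit 193912549) (nat_lit 456) (nat_lit 3580332460) (nat_lit 100) (nat_lit 5) (nat_lit 105) (nat_lit 5) (nat_lit 106) (nat_lit 5) (nat_lit 361) (nat_lit 334) (nat_lit 325)))) (XT.nd (nat_lit 156) (nat_lit 608) (nat_lit 0) (XT.nd (nat_lit 78) (nat_lit 76) (nat_lit 0) (XT.lf (nat_lit 0) (nat_lit 1968011663) (nat_lit 304) (nat_lit 5606436682) (nat_lit 380) (nat_lit 407657759) (nat_lit 96) (nat_lit 5) (nat_lit 100) (nat_lit 5) (nat_lit 101) (nat_lit 4) (nat_lit 362) (nat_lit 334) (nat_lit 324)) (XT.lf (nat_lit 0) (nat_lit 2766638186) (nat_lit 380) (nat_lit 222093896) (nat_lit 76) (nat_lit 5151622045) (nat_lit 95) (nat_lit 5) (nat_lit 100) (nat_lit 5)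 (nat_lit 96) (nat_lit 5) (nat_lit 363) (nat_lit 334) (nat_lit 323))) (XT.nd (nat_lit 78) (nat_lit 304) (nat_lit 0) (XT.lf (nat_lit 0) (nat_lit 5884561904) (nat_lit 304) (nat_lit 167944584) (nat_lit 380) (nat_lit 2255411042) (nat_lit 91) (nat_lit 5) (nat_lit 95) (nat_lit 5) (nat_lit 96) (nat_lit 5) (nat_lit 364) (nat_lit 334) (nat_lit 322)) (XT.lf (nat_lit 0) (nat_lit 969396030) (nat_lit 304) (nat_lit 4763595366) (nat_lit 76) (nat_lit 2750971583) (nat_lit 87) (nat_lit 5) (nat_lit 91) (nat_lit 5) (nat_lit 88) (nat_lit 5) (nat_lit 365) (nat_lit 334) (nat_lit 321))))) (XT.nd (nat_lit 234) (nat_lit 760) (nat_lit 0) (XT.nd (nat_lit 78) (nat_lit 304) (nat_lit 0) (XT.lf (nat_lit 0) (nat_lit 1432912923) (nat_lit 304) (nat_lit 2792674921) (nat_lit 380) (nat_lit 4444133260) (nat_lit 83) (nat_lit 5) (nat_lit 87) (nat_lit 5) (nat_lit 88) (nat_lit 5) (nat_lit 366) (nat_lit 334) (nat_lit 320)) (XT.nd (nat_lit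 78) (nat_lit 304) (nat_lit 0) (XT.lf (nat_lit 0) (nat_lit 7612929439) (nat_lit 380) (nat_lit 925923988) (nat_lit 76) (nat_lit 327550176) (nat_lit 83) (nat_lit 5) (nat_lit 88) (nat_lit 5) (nat_lit 84) (nat_lit 4) (nat_lit 367) (nat_lit 334) (nat_lit 319)) (XT.lf (nat_lit 0) (nat_lit 2051762495) (nat_lit 304) (nat_lit 3424530394) (nat_lit 76) (nat_lit 3593931427) (nat_lit 79) (nat_lit 5) (nat_lit 83) (nat_lit 5) (nat_lit 80) (nat_lit 5) (nat_lit 368) (nat_lit 334) (nat_lit 318)))) (XT.nd (nat_lit 156) (nat_lit 304) (nat_lit 0) (XT.nd (nat_lit 78) (nat_lit 228) (nat_lit 0) (XT.lf (nat_lit 0) (nat_lit 3219519211) (nat_lit 228) (nat_lit 2215316034) (nat_lit 304) (nat_lit 3850684616) (nat_lit 76) (nat_lit 5) (nat_lit 79) (nat_lit 5) (nat_lit 80) (nat_lit 5) (nat_lit 369) (nat_lit 334) (nat_lit 317)) (XT.lf (nat_lit 0) (nat_lit 647357160) (nat_lit 228) (nat_lit 8318297872) (nat_lit 304) (nat_lit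 547039477) (nat_lit 73) (nat_lit 5) (nat_lit 76) (nat_lit 5) (nat_lit 77) (nat_lit 4) (nat_lit 370) (nat_lit 334) (nat_lit 316))) (XT.nd (nat_lit 78) (nat_lit 228) (nat_lit 0) (XT.lf (nat_lit 0) (nat_lit 2860640179) (nat_lit 304) (nat_lit 2083301747) (nat_lit 76) (nat_lit 4803426617) (nat_lit 72) (nat_lit 5) (nat_lit 76) (nat_lit 5) (nat_lit 73) (nat_lit 5) (nat_lit 371) (nat_lit 334) (nat_lit 315)) (XT.lf (nat_lit 0) (nat_lit 5037161706) (nat_lit 228) (nat_lit 1358598684) (nat_lit 304) (nat_lit 3598833467) (nat_lit 69) (nat_lit 5) (nat_lit 72) (nat_lit 5) (nat_lit 73) (nat_lit 5) (nat_lit 372) (nat_lit 334) (nat_lit 314))))))))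
noncomputable def xc82 : XT := (XT.nd (nat_lit 2106) (nat_lit 1368) (nat_lit 0) (XT.nd (nat_lit 1014) (nat_lit 1216) (nat_lit 0) (XT.nd (nat_lit 468) (nat_lit 836) (nat_lit 0) (XT.nd (nat_lit 234) (nat_lit 380) (nat_lit 0) (XT.nd (nat_lit 78) (nat_lit 304) (nat_lit 0) (XT.lf (nat_lit 0) (nat_lit 2211446245) (nat_lit 152) (nat_lit 7902725902) (nat_lit 228) (nat_lit 139717707) (nat_lit 67) (nat_lit 5) (nat_lit 69) (nat_lit 5) (nat_lit 70) (nat_lit 4) (nat_lit 373) (nat_lit 334) (nat_lit 313)) (XT.nd (nat_lit 78) (nat_lit 228) (nat_lit 0) (XT.lf (nat_lit 0) (nat_lit 3387562120) (nat_lit 228) (nat_lit 844861467) (nat_lit 76) (nat_lit 6290684353) (nat_lit 66) (nat_lit 5) (nat_lit 69) (nat_lit 5) (nat_lit 67) (nat_lit 5) (nat_lit 374) (nat_lit 334) (nat_lit 312)) (XT.lf (nat_lit 0) (nat_lit 6779078188) (nat_lit 228) (nat_lit 317444589) (nat_lit 304) (nat_lit 3708680281) (nat_lit 63) (nat_lit 5)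 (nat_lit 66) (nat_lit 5) (nat_lit 67) (nat_lit 5) (nat_lit 375) (nat_lit 334) (nat_lit 311)))) (XT.nd (nat_lit 78) (nat_lit 228) (nat_lit 0) (XT.lf (nat_lit 0) (nat_lit 3619544332) (nat_lit 152) (nat_lit 7407307282) (nat_lit 228) (nat_lit 72785091) (nat_lit 61) (nat_lit 5) (nat_lit 63) (nat_lit 5) (nat_lit 64) (nat_lit 4) (nat_lit 376) (nat_lit 334) (nat_lit 310)) (XT.nd (nat_lit 78) (nat_lit 0) (nat_lit 0) (XT.lf (nat_lit 0) (nat_lit 172198350) (nat_lit 152) (nat_lit 3436338531) (nat_lit 228) (nat_lit 7798184122) (nat_lit 58) (nat_lit 5) (nat_lit 60) (nat_lit 5) (nat_lit 61) (nat_lit 5) (nat_lit 377) (nat_lit 334) (nat_lit 309)) (XT.lf (nat_lit 0) (nat_lit 7519249601) (nat_lit 228) (nat_lit 3422457944) (nat_lit 76) (nat_lit 785029496) (nat_lit 58) (nat_lit 5) (nat_lit 61) (nat_lit 5) (nat_lit 59) (nat_lit 4) (nat_lit 378) (nat_lit 334) (nat_lit 308))))) (XT.nd (nat_lit 234) (nat_lit 456)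 (nat_lit 0) (XT.nd (nat_lit 78) (nat_lit 228) (nat_lit 0) (XT.lf (nat_lit 0) (nat_lit 4730805197) (nat_lit 152) (nat_lit 6936856871) (nat_lit 228) (nat_lit 393008108) (nat_lit 56) (nat_lit 5) (nat_lit 58) (nat_lit 5) (nat_lit 59) (nat_lit 4) (nat_lit 379) (nat_lit 334) (nat_lit 307)) (XT.nd (nat_lit 78) (nat_lit 0) (nat_lit 0) (XT.lf (nat_lit 0) (nat_lit 826174313) (nat_lit 152) (nat_lit 2654726791) (nat_lit 228) (nat_lit 8928385324) (nat_lit 53) (nat_lit 5) (nat_lit 55) (nat_lit 5) (nat_lit 56) (nat_lit 5) (nat_lit 380) (nat_lit 334) (nat_lit 306)) (XT.lf (nat_lit 0) (nat_lit 7603772834) (nat_lit 228) (nat_lit 3308001315) (nat_lit 76) (nat_lit 1859834632) (nat_lit 53) (nat_lit 5) (nat_lit 56) (nat_lit 5) (nat_lit 54) (nat_lit 4) (nat_lit 381) (nat_lit 334) (nat_lit 305)))) (XT.nd (nat_lit 156) (nat_lit 76) (nat_lit 0) (XT.nd (nat_lit 78) (nat_lit 228) (nat_lit 0) (XT.lf (nat_lit 0) (nat_lit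 5370041085) (nat_lit 152) (nat_lit 6607778823) (nat_lit 228) (nat_lit 1171995911) (nat_lit 51) (nat_lit 5) (nat_lit 53) (nat_lit 5) (nat_lit 54) (nat_lit 4) (nat_lit 382) (nat_lit 334) (nat_lit 304)) (XT.lf (nat_lit 0) (nat_lit 893512329) (nat_lit 152) (nat_lit 2022353569) (nat_lit 228) (nat_lit 10629274970) (nat_lit 48) (nat_lit 5) (nat_lit 50) (nat_lit 5) (nat_lit 51) (nat_lit 5) (nat_lit 383) (nat_lit 334) (nat_lit 303))) (XT.nd (nat_lit 78) (nat_lit 76) (nat_lit 0) (XT.lf (nat_lit 0) (nat_lit 7265218089) (nat_lit 228) (nat_lit 3888590646) (nat_lit 76) (nat_lit 2800655989) (nat_lit 48) (nat_lit 5) (nat_lit 51) (nat_lit 5) (nat_lit 49) (nat_lit 4) (nat_lit 384) (nat_lit 334) (nat_lit 302)) (XT.lf (nat_lit 0) (nat_lit 5315737954) (nat_lit 76) (nat_lit 6555278825) (nat_lit 152) (nat_lit 2511305632) (nat_lit 47) (nat_lit 5) (nat_lit 48) (nat_lit 5) (nat_lit 49) (nat_lit 4) (nat_lit 385) (nat_lit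 334) (nat_lit 301)))))) (XT.nd (nat_lit 546) (nat_lit 608) (nat_lit 0) (XT.nd (nat_lit 234) (nat_lit 304) (nat_lit 0) (XT.nd (nat_lit 78) (nat_lit 76) (nat_lit 0) (XT.lf (nat_lit 0) (nat_lit 126450775) (nat_lit 152) (nat_lit 1681158769) (nat_lit 228) (nat_lit 13022909068) (nat_lit 44) (nat_lit 5) (nat_lit 46) (nat_lit 5) (nat_lit 47) (nat_lit 5) (nat_lit 386) (nat_lit 334) (nat_lit 300)) (XT.nd (nat_lit 78) (nat_lit 76) (nat_lit 0) (XT.lf (nat_lit 0) (nat_lit 6391698549) (nat_lit 228) (nat_lit 5431842349) (nat_lit 76) (nat_lit 3468858382) (nat_lit 44) (nat_lit 5) (nat_lit 47) (nat_lit 5) (nat_lit 45) (nat_lit 4) (nat_lit 387) (nat_lit 334) (nat_lit 299)) (XT.lf (nat_lit 0) (nat_lit 4285047408) (nat_lit 76) (nat_lit 6941934019) (nat_lit 152) (nat_lit 4549306725) (nat_lit 43) (nat_lit 5) (nat_lit 44) (nat_lit 5) (nat_lit 45) (nat_lit 4) (nat_lit 388) (nat_lit 334) (nat_lit 298)))) (XT.nd (nat_lit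 156) (nat_lit 76) (nat_lit 0) (XT.nd (nat_lit 78) (nat_lit 152) (nat_lit 0) (XT.lf (nat_lit 0) (nat_lit 40354795) (nat_lit 152) (nat_lit 1734084773) (nat_lit 76) (nat_lit 14508862579) (nat_lit 42) (nat_lit 5) (nat_lit 44) (nat_lit 5) (nat_lit 43) (nat_lit 5) (nat_lit 389) (nat_lit 334) (nat_lit 297)) (XT.lf (nat_lit 0) (nat_lit 4831555319) (nat_lit 228) (nat_lit 8279757269) (nat_lit 76) (nat_lit 3694389975) (nat_lit 40) (nat_lit 5) (nat_lit 43) (nat_lit 5) (nat_lit 41) (nat_lit 4) (nat_lit 390) (nat_lit 334) (nat_lit 296))) (XT.nd (nat_lit 78) (nat_lit 0) (nat_lit 0) (XT.lf (nat_lit 0) (nat_lit 1914852282) (nat_lit 76) (nat_lit 7968117007) (nat_lit 152) (nat_lit 7470232262) (nat_lit 39) (nat_lit 5) (nat_lit 40) (nat_lit 5) (nat_lit 41) (nat_lit 4) (nat_lit 391) (nat_lit 334) (nat_lit 295)) (XT.lf (nat_lit 0) (nat_lit 12785345246) (nat_lit 76) (nat_lit 2475002301) (nat_lit 152) (nat_lit 2664068951)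 (nat_lit 39) (nat_lit 5) (nat_lit 40) (nat_lit 5) (nat_lit 41) (nat_lit 4) (nat_lit 392) (nat_lit 334) (nat_lit 294))))) (XT.nd (nat_lit 234) (nat_lit 304) (nat_lit 0) (XT.nd (nat_lit 78) (nat_lit 76) (nat_lit 0) (XT.lf (nat_lit 0) (nat_lit 2383140468) (nat_lit 228) (nat_lit 12870950297) (nat_lit 76) (nat_lit 3264401839) (nat_lit 36) (nat_lit 5) (nat_lit 39) (nat_lit 5) (nat_lit 37) (nat_lit 4) (nat_lit 393) (nat_lit 334) (nat_lit 293)) (XT.nd (nat_lit 78) (nat_lit 76) (nat_lit 0) (XT.lf (nat_lit 0) (nat_lit 7657970337) (nat_lit 228) (nat_lit 2189830646) (nat_lit 76) (nat_lit 9289057593) (nat_lit 36) (nat_lit 5) (nat_lit 39) (nat_lit 5) (nat_lit 37) (nat_lit 4) (nat_lit 394) (nat_lit 334) (nat_lit 292)) (XT.lf (nat_lit 0) (nat_lit 9207529700) (nat_lit 76) (nat_lit 4071583468) (nat_lit 152) (nat_lit 6502909899) (nat_lit 35) (nat_lit 5) (nat_lit 36) (nat_lit 5) (nat_lit 37) (nat_lit 4) (nat_lit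 395) (nat_lit 334) (nat_lit 291)))) (XT.nd (nat_lit 156) (nat_lit 76) (nat_lit 0) (XT.nd (nat_lit 78) (nat_lit 76) (nat_lit 0) (XT.lf (nat_lit 0) (nat_lit 669989432) (nat_lit 152) (nat_lit 18529810939) (nat_lit 152) (nat_lit 1258729425) (nat_lit 33) (nat_lit 4) (nat_lit 35) (nat_lit 5) (nat_lit 35) (nat_lit 4) (nat_lit 396) (nat_lit 334) (nat_lit 290)) (XT.lf (nat_lit 0) (nat_lit 4299860425) (nat_lit 228) (nat_lit 8565196026) (nat_lit 76) (nat_lit 8291089512) (nat_lit 32) (nat_lit 5) (nat_lit 35) (nat_lit 5) (nat_lit 33) (nat_lit 4) (nat_lit 397) (nat_lit 334) (nat_lit 289))) (XT.nd (nat_lit 78) (nat_lit 0) (nat_lit 0) (XT.lf (nat_lit 0) (nat_lit 3193161418) (nat_lit 76) (nat_lit 6893042189) (nat_lit 152) (nat_lit 11801808550) (nat_lit 31) (nat_lit 5) (nat_lit 32) (nat_lit 5) (nat_lit 33) (nat_lit 4) (nat_lit 398) (nat_lit 334) (nat_lit 288)) (XT.lf (nat_lit 0) (nat_lit 15730818116) (nat_lit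 76) (nat_lit 519467077) (nat_lit 152) (nat_lit 6401772296) (nat_lit 31) (nat_lit 5) (nat_lit 32) (nat_lit 5) (nat_lit 33) (nat_lit 4) (nat_lit 399) (nat_lit 334) (nat_lit 287))))))) (XT.nd (nat_lit 1014) (nat_lit 608) (nat_lit 0) (XT.nd (nat_lit 468) (nat_lit 380) (nat_lit 0) (XT.nd (nat_lit 234) (nat_lit 152) (nat_lit 0) (XT.nd (nat_lit 78) (nat_lit 152) (nat_lit 0) (XT.lf (nat_lit 0) (nat_lit 5415088981) (nat_lit 76) (nat_lit 17433729701) (nat_lit 76) (nat_lit 599180576) (nat_lit 30) (nat_lit 4) (nat_lit 31) (nat_lit 5) (nat_lit 31) (nat_lit 4) (nat_lit 400) (nat_lit 334) (nat_lit 286)) (XT.nd (nat_lit 78) (nat_lit 76) (nat_lit 0) (XT.lf (nat_lit 0) (nat_lit 5390830796) (nat_lit 152) (nat_lit 5868615879) (nat_lit 76) (nat_lit 13016353031) (nat_lit 29) (nat_lit 5) (nat_lit 31) (nat_lit 5) (nat_lit 30) (nat_lit 4) (nat_lit 401) (nat_lit 334) (nat_lit 285)) (XT.lf (nat_lit 0) (nat_lit 7020626819)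 (nat_lit 76) (nat_lit 4697253788) (nat_lit 152) (nat_lit 13423740391) (nat_lit 28) (nat_lit 5) (nat_lit 29) (nat_lit 5) (nat_lit 30) (nat_lit 4) (nat_lit 402) (nat_lit 334) (nat_lit 284)))) (XT.nd (nat_lit 78) (nat_lit 152) (nat_lit 0) (XT.lf (nat_lit 0) (nat_lit 18444856045) (nat_lit 152) (nat_lit 5421962986) (nat_lit 0) (nat_lit 2179741066) (nat_lit 28) (nat_lit 5) (nat_lit 30) (nat_lit 4) (nat_lit 28) (nat_lit 4) (nat_lit 403) (nat_lit 334) (nat_lit 283)) (XT.nd (nat_lit 78) (nat_lit 76) (nat_lit 0) (XT.lf (nat_lit 0) (nat_lit 7997256990) (nat_lit 76) (nat_lit 17663564484) (nat_lit 76) (nat_lit 1328297758) (nat_lit 27) (nat_lit 4) (nat_lit 28) (nat_lit 5) (nat_lit 28) (nat_lit 4) (nat_lit 404) (nat_lit 334) (nat_lit 282)) (XT.lf (nat_lit 0) (nat_lit 5134678867) (nat_lit 152) (nat_lit 5875986234) (nat_lit 76) (nat_lit 16961829982) (nat_lit 26) (nat_lit 5) (nat_lit 28) (nat_lit 5) (nat_lit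 27) (nat_lit 4) (nat_lit 405) (nat_lit 334) (nat_lit 281))))) (XT.nd (nat_lit 234) (nat_lit 228) (nat_lit 0) (XT.nd (nat_lit 78) (nat_lit 76) (nat_lit 0) (XT.lf (nat_lit 0) (nat_lit 8041930891) (nat_lit 76) (nat_lit 3913014721) (nat_lit 152) (nat_lit 17045070748) (nat_lit 25) (nat_lit 5) (nat_lit 26) (nat_lit 5) (nat_lit 27) (nat_lit 4) (nat_lit 406) (nat_lit 334) (nat_lit 280)) (XT.nd (nat_lit 78) (nat_lit 76) (nat_lit 0) (XT.lf (nat_lit 0) (nat_lit 19226054049) (nat_lit 152) (nat_lit 7360658730) (nat_lit 0) (nat_lit 3486713733) (nat_lit 25) (nat_lit 5) (nat_lit 27) (nat_lit 4) (nat_lit 25) (nat_lit 4) (nat_lit 407) (nat_lit 334) (nat_lit 279)) (XT.lf (nat_lit 0) (nat_lit 6990938239) (nat_lit 76) (nat_lit 19998716093) (nat_lit 76) (nat_lit 4204410048) (nat_lit 24) (nat_lit 4) (nat_lit 25) (nat_lit 5) (nat_lit 25) (nat_lit 4) (nat_lit 408) (nat_lit 334) (nat_lit 278)))) (XT.nd (nat_lit 156)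 (nat_lit 76) (nat_lit 0) (XT.nd (nat_lit 78) (nat_lit 76) (nat_lit 0) (XT.lf (nat_lit 0) (nat_lit 2764445322) (nat_lit 152) (nat_lit 10179541446) (nat_lit 76) (nat_lit 19420466879) (nat_lit 23) (nat_lit 5) (nat_lit 25) (nat_lit 5) (nat_lit 24) (nat_lit 4) (nat_lit 409) (nat_lit 334) (nat_lit 277)) (XT.lf (nat_lit 0) (nat_lit 4540283064) (nat_lit 76) (nat_lit 5428884232) (nat_lit 152) (nat_lit 23619316344) (nat_lit 22) (nat_lit 5) (nat_lit 23) (nat_lit 5) (nat_lit 24) (nat_lit 4) (nat_lit 410) (nat_lit 334) (nat_lit 276))) (XT.nd (nat_lit 78) (nat_lit 76) (nat_lit 0) (XT.lf (nat_lit 0) (nat_lit 17705774098) (nat_lit 152) (nat_lit 14638341491) (nat_lit 0) (nat_lit 2521020423) (nat_lit 22) (nat_lit 5) (nat_lit 24) (nat_lit 4) (nat_lit 22) (nat_lit 4) (nat_lit 411) (nat_lit 334) (nat_lit 275)) (XT.lf (nat_lit 0) (nat_lit 336161070) (nat_lit 76) (nat_lit 25547286028) (nat_lit 76) (nat_lit 10319465266)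 (nat_lit 21) (nat_lit 4) (nat_lit 22) (nat_lit 5) (nat_lit 22) (nat_lit 4) (nat_lit 412) (nat_lit 334) (nat_lit 274)))))) (XT.nd (nat_lit 546) (nat_lit 304) (nat_lit 0) (XT.nd (nat_lit 234) (nat_lit 152) (nat_lit 0) (XT.nd (nat_lit 78) (nat_lit 152) (nat_lit 0) (XT.lf (nat_lit 0) (nat_lit 16491240076) (nat_lit 76) (nat_lit 18187373504) (nat_lit 76) (nat_lit 2918536469) (nat_lit 21) (nat_lit 4) (nat_lit 22) (nat_lit 5) (nat_lit 22) (nat_lit 4) (nat_lit 413) (nat_lit 334) (nat_lit 273)) (XT.nd (nat_lit 78) (nat_lit 76) (nat_lit 0) (XT.lf (nat_lit 0) (nat_lit 4659087854) (nat_lit 152) (nat_lit 5756770051) (nat_lit 76) (nat_lit 28643358560) (nat_lit 20) (nat_lit 5) (nat_lit 22) (nat_lit 5) (nat_lit 21) (nat_lit 4) (nat_lit 414) (nat_lit 334) (nat_lit 272)) (XT.lf (nat_lit 0) (nat_lit 10580152684) (nat_lit 76) (nat_lit 2066313562) (nat_lit 152) (nat_lit 27939082568) (nat_lit 19) (nat_lit 5) (nat_lit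 20) (nat_lit 5) (nat_lit 21) (nat_lit 4) (nat_lit 415) (nat_lit 334) (nat_lit 271)))) (XT.nd (nat_lit 156) (nat_lit 76) (nat_lit 0) (XT.nd (nat_lit 78) (nat_lit 76) (nat_lit 0) (XT.lf (nat_lit 0) (nat_lit 21200807553) (nat_lit 152) (nat_lit 14426333564) (nat_lit 0) (nat_lit 6552679438) (nat_lit 19) (nat_lit 5) (nat_lit 21) (nat_lit 4) (nat_lit 19) (nat_lit 4) (nat_lit 416) (nat_lit 334) (nat_lit 270)) (XT.lf (nat_lit 0) (nat_lit 1891117623) (nat_lit 76) (nat_lit 28320752911) (nat_lit 76) (nat_lit 13640487472) (nat_lit 18) (nat_lit 4) (nat_lit 19) (nat_lit 5) (nat_lit 19) (nat_lit 4) (nat_lit 417) (nat_lit 334) (nat_lit 269))) (XT.nd (nat_lit 78) (nat_lit 76) (nat_lit 0) (XT.lf (nat_lit 0) (nat_lit 19459157170) (nat_lit 76) (nat_lit 20424856728) (nat_lit 76) (nat_lit 5713984315) (nat_lit 18) (nat_lit 4) (nat_lit 19) (nat_lit 5) (nat_lit 19) (nat_lit 4) (nat_lit 418) (nat_lit 334) (nat_lit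 268)) (XT.lf (nat_lit 0) (nat_lit 2492634407) (nat_lit 152) (nat_lit 9630121377) (nat_lit 76) (nat_lit 35307765626) (nat_lit 17) (nat_lit 5) (nat_lit 19) (nat_lit 5) (nat_lit 18) (nat_lit 4) (nat_lit 419) (nat_lit 334) (nat_lit 267))))) (XT.nd (nat_lit 234) (nat_lit 228) (nat_lit 0) (XT.nd (nat_lit 78) (nat_lit 0) (nat_lit 0) (XT.lf (nat_lit 0) (nat_lit 7798960431) (nat_lit 76) (nat_lit 3209207262) (nat_lit 152) (nat_lit 38337290870) (nat_lit 16) (nat_lit 5) (nat_lit 17) (nat_lit 5) (nat_lit 18) (nat_lit 4) (nat_lit 420) (nat_lit 334) (nat_lit 266)) (XT.nd (nat_lit 78) (nat_lit 0) (nat_lit 0) (XT.lf (nat_lit 0) (nat_lit 20180195135) (nat_lit 152) (nat_lit 25073954272) (nat_lit 0) (nat_lit 6090459138) (nat_lit 16) (nat_lit 5) (nat_lit 18) (nat_lit 4) (nat_lit 16) (nat_lit 4) (nat_lit 421) (nat_lit 334) (nat_lit 265)) (XT.lf (nat_lit 0) (nat_lit 29833847311) (nat_lit 152) (nat_lit 7888589355)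 (nat_lit 0) (nat_lit 15720129949) (nat_lit 16) (nat_lit 5) (nat_lit 18) (nat_lit 4) (nat_lit 16) (nat_lit 4) (nat_lit 422) (nat_lit 334) (nat_lit 264)))) (XT.nd (nat_lit 156) (nat_lit 152) (nat_lit 0) (XT.nd (nat_lit 78) (nat_lit 0) (nat_lit 0) (XT.lf (nat_lit 0) (nat_lit 10434590950) (nat_lit 76) (nat_lit 29670326647) (nat_lit 76) (nat_lit 15533769889) (nat_lit 15) (nat_lit 4) (nat_lit 16) (nat_lit 5) (nat_lit 16) (nat_lit 4) (nat_lit 423) (nat_lit 334) (nat_lit 263)) (XT.lf (nat_lit 0) (nat_lit 29893273297) (nat_lit 76) (nat_lit 21102177887) (nat_lit 76) (nat_lit 6943869323) (nat_lit 15) (nat_lit 4) (nat_lit 16) (nat_lit 5) (nat_lit 16) (nat_lit 4) (nat_lit 424) (nat_lit 334) (nat_lit 262))) (XT.nd (nat_lit 78) (nat_lit 76) (nat_lit 0) (XT.lf (nat_lit 0) (nat_lit 1982293872) (nat_lit 152) (nat_lit 10115322130) (nat_lit 76) (nat_lit 48257090514) (nat_lit 14) (nat_lit 5) (nat_lit 16) (nat_lit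 5) (nat_lit 15) (nat_lit 4) (nat_lit 425) (nat_lit 334) (nat_lit 261)) (XT.lf (nat_lit 0) (nat_lit 8830427506) (nat_lit 76) (nat_lit 2403319617) (nat_lit 152) (nat_lit 51645807310) (nat_lit 13) (nat_lit 5) (nat_lit 14) (nat_lit 5) (nat_lit 15) (nat_lit 4) (nat_lit 426) (nat_lit 334) (nat_lit 260))))))))
noncomputable def xc83 : XT := (XT.nd (nat_lit 2106) (nat_lit 228) (nat_lit 0) (XT.nd (nat_lit 1014) (nat_lit 228) (nat_lit 0) (XT.nd (nat_lit 468) (nat_lit 228) (nat_lit 0) (XT.nd (nat_lit 234) (nat_lit 0) (nat_lit 0) (XT.nd (nat_lit 78) (nat_lit 76) (nat_lit 0) (XT.lf (nat_lit 0) (nat_lit 21217824938) (nat_lit 152) (nat_lit 36622011803) (nat_lit 0) (nat_lit 7677306723) (nat_lit 13) (nat_lit 5) (nat_lit 15) (nat_lit 4) (nat_lit 13) (nat_lit 4) (nat_lit 427) (nat_lit 334) (nat_lit 259)) (XT.nd (nat_lit 78) (nat_lit 76) (nat_lit 0) (XT.lf (nat_lit 0) (nat_lit 31716253288) (nat_lit 152) (nat_lit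 18410910609) (nat_lit 0) (nat_lit 18158691965) (nat_lit 13) (nat_lit 5) (nat_lit 15) (nat_lit 4) (nat_lit 13) (nat_lit 4) (nat_lit 428) (nat_lit 334) (nat_lit 258)) (XT.lf (nat_lit 0) (nat_lit 687048825) (nat_lit 76) (nat_lit 42040183811) (nat_lit 76) (nat_lit 28466390956) (nat_lit 12) (nat_lit 4) (nat_lit 13) (nat_lit 5) (nat_lit 13) (nat_lit 4) (nat_lit 429) (nat_lit 334) (nat_lit 257)))) (XT.nd (nat_lit 78) (nat_lit 0) (nat_lit 0) (XT.lf (nat_lit 0) (nat_lit 21334141686) (nat_lit 76) (nat_lit 33243717842) (nat_lit 76) (nat_lit 19654466384) (nat_lit 12) (nat_lit 4) (nat_lit 13) (nat_lit 5) (nat_lit 13) (nat_lit 4) (nat_lit 430) (nat_lit 334) (nat_lit 256)) (XT.nd (nat_lit 78) (nat_lit 0) (nat_lit 0) (XT.lf (nat_lit 0) (nat_lit 42970779866) (nat_lit 76) (nat_lit 24028619703) (nat_lit 76) (nat_lit 10424645767) (nat_lit 12) (nat_lit 4) (nat_lit 13) (nat_lit 5) (nat_lit 13) (nat_lit 4) (nat_lit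 431) (nat_lit 334) (nat_lit 255)) (XT.lf (nat_lit 0) (nat_lit 65648479171) (nat_lit 76) (nat_lit 14372948685) (nat_lit 76) (nat_lit 754953341) (nat_lit 12) (nat_lit 4) (nat_lit 13) (nat_lit 5) (nat_lit 13) (nat_lit 4) (nat_lit 432) (nat_lit 334) (nat_lit 254))))) (XT.nd (nat_lit 234) (nat_lit 76) (nat_lit 0) (XT.nd (nat_lit 78) (nat_lit 0) (nat_lit 0) (XT.lf (nat_lit 0) (nat_lit 5142086611) (nat_lit 76) (nat_lit 4015686889) (nat_lit 152) (nat_lit 75128207070) (nat_lit 10) (nat_lit 5) (nat_lit 11) (nat_lit 5) (nat_lit 12) (nat_lit 4) (nat_lit 433) (nat_lit 334) (nat_lit 253)) (XT.nd (nat_lit 78) (nat_lit 0) (nat_lit 0) (XT.lf (nat_lit 0) (nat_lit 19888369655) (nat_lit 152) (nat_lit 61170671883) (nat_lit 0) (nat_lit 6894020230) (nat_lit 10) (nat_lit 5) (nat_lit 12) (nat_lit 4) (nat_lit 10) (nat_lit 4) (nat_lit 434) (nat_lit 334) (nat_lit 252)) (XT.lf (nat_lit 0) (nat_lit 31202384632) (nat_lit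 152) (nat_lit 42402269027) (nat_lit 0) (nat_lit 18196499761) (nat_lit 10) (nat_lit 5) (nat_lit 12) (nat_lit 4) (nat_lit 10) (nat_lit 4) (nat_lit 435) (nat_lit 334) (nat_lit 251)))) (XT.nd (nat_lit 156) (nat_lit 76) (nat_lit 0) (XT.nd (nat_lit 78) (nat_lit 0) (nat_lit 0) (XT.lf (nat_lit 0) (nat_lit 43064060438) (nat_lit 152) (nat_lit 22731302592) (nat_lit 0) (nat_lit 30047189427) (nat_lit 10) (nat_lit 5) (nat_lit 12) (nat_lit 4) (nat_lit 10) (nat_lit 4) (nat_lit 436) (nat_lit 334) (nat_lit 250)) (XT.lf (nat_lit 0) (nat_lit 55501639157) (nat_lit 152) (nat_lit 2110936942) (nat_lit 0) (nat_lit 42474305156) (nat_lit 10) (nat_lit 5) (nat_lit 12) (nat_lit 4) (nat_lit 10) (nat_lit 4) (nat_lit 437) (nat_lit 334) (nat_lit 249))) (XT.nd (nat_lit 78) (nat_lit 0) (nat_lit 0) (XT.lf (nat_lit 0) (nat_lit 20152944098) (nat_lit 76) (nat_lit 48706433910) (nat_lit 76) (nat_lit 35669135156) (nat_lit 9) (nat_lit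 4) (nat_lit 10) (nat_lit 5) (nat_lit 10) (nat_lit 4) (nat_lit 438) (nat_lit 334) (nat_lit 248)) (XT.lf (nat_lit 0) (nat_lit 43571307759) (nat_lit 76) (nat_lit 39333362635) (nat_lit 76) (nat_lit 26286573641) (nat_lit 9) (nat_lit 4) (nat_lit 10) (nat_lit 5) (nat_lit 10) (nat_lit 4) (nat_lit 439) (nat_lit 334) (nat_lit 247)))))) (XT.nd (nat_lit 546) (nat_lit 76) (nat_lit 0) (XT.nd (nat_lit 234) (nat_lit 76) (nat_lit 0) (XT.nd (nat_lit 78) (nat_lit 76) (nat_lit 0) (XT.lf (nat_lit 0) (nat_lit 68130114941) (nat_lit 76) (nat_lit 29506795177) (nat_lit 76) (nat_lit 16450967858) (nat_lit 9) (nat_lit 4) (nat_lit 10) (nat_lit 5) (nat_lit 10) (nat_lit 4) (nat_lit 440) (nat_lit 334) (nat_lit 246)) (XT.nd (nat_lit 78) (nat_lit 76) (nat_lit 0) (XT.lf (nat_lit 0) (nat_lit 93887838993) (nat_lit 76) (nat_lit 19203334946) (nat_lit 76) (nat_lit 6138899699) (nat_lit 9) (nat_lit 4) (nat_lit 10) (nat_lit 5) (nat_lit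 10) (nat_lit 4) (nat_lit 441) (nat_lit 334) (nat_lit 245)) (XT.lf (nat_lit 0) (nat_lit 4524580319) (nat_lit 152) (nat_lit 3797243619) (nat_lit 76) (nat_lit 116304601554) (nat_lit 8) (nat_lit 5) (nat_lit 10) (nat_lit 5) (nat_lit 9) (nat_lit 4) (nat_lit 442) (nat_lit 334) (nat_lit 244)))) (XT.nd (nat_lit 156) (nat_lit 0) (nat_lit 0) (XT.nd (nat_lit 78) (nat_lit 0) (nat_lit 0) (XT.lf (nat_lit 0) (nat_lit 15857896042) (nat_lit 152) (nat_lit 111012185843) (nat_lit 0) (nat_lit 3400333263) (nat_lit 7) (nat_lit 5) (nat_lit 9) (nat_lit 4) (nat_lit 7) (nat_lit 4) (nat_lit 443) (nat_lit 334) (nat_lit 243)) (XT.lf (nat_lit 0) (nat_lit 27946238569) (nat_lit 152) (nat_lit 92759354160) (nat_lit 0) (nat_lit 15481594026) (nat_lit 7) (nat_lit 5) (nat_lit 9) (nat_lit 4) (nat_lit 7) (nat_lit 4) (nat_lit 444) (nat_lit 334) (nat_lit 242))) (XT.nd (nat_lit 78) (nat_lit 0) (nat_lit 0) (XT.lf (nat_lit 0) (nat_lit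 40626212778) (nat_lit 152) (nat_lit 73619400232) (nat_lit 0) (nat_lit 28154823698) (nat_lit 7) (nat_lit 5) (nat_lit 9) (nat_lit 4) (nat_lit 7) (nat_lit 4) (nat_lit 445) (nat_lit 334) (nat_lit 241)) (XT.lf (nat_lit 0) (nat_lit 53928009085) (nat_lit 152) (nat_lit 53546752741) (nat_lit 0) (nat_lit 41450196637) (nat_lit 7) (nat_lit 5) (nat_lit 9) (nat_lit 4) (nat_lit 7) (nat_lit 4) (nat_lit 446) (nat_lit 334) (nat_lit 240))))) (XT.nd (nat_lit 234) (nat_lit 0) (nat_lit 0) (XT.nd (nat_lit 78) (nat_lit 76) (nat_lit 0) (XT.lf (nat_lit 0) (nat_lit 67883298433) (nat_lit 152) (nat_lit 32493619667) (nat_lit 0) (nat_lit 55399368490) (nat_lit 7) (nat_lit 5) (nat_lit 9) (nat_lit 4) (nat_lit 7) (nat_lit 4) (nat_lit 447) (nat_lit 334) (nat_lit 239)) (XT.nd (nat_lit 78) (nat_lit 76) (nat_lit 0) (XT.lf (nat_lit 0) (nat_lit 82525307700) (nat_lit 152) (nat_lit 10409874505) (nat_lit 0) (nat_lit 70035551573) (nat_lit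 7) (nat_lit 5) (nat_lit 9) (nat_lit 4) (nat_lit 7) (nat_lit 4) (nat_lit 448) (nat_lit 334) (nat_lit 238)) (XT.lf (nat_lit 0) (nat_lit 13178869209) (nat_lit 76) (nat_lit 84915788688) (nat_lit 76) (nat_lit 72420483814) (nat_lit 6) (nat_lit 4) (nat_lit 7) (nat_lit 5) (nat_lit 7) (nat_lit 4) (nat_lit 449) (nat_lit 334) (nat_lit 237)))) (XT.nd (nat_lit 156) (nat_lit 0) (nat_lit 0) (XT.nd (nat_lit 78) (nat_lit 0) (nat_lit 0) (XT.lf (nat_lit 0) (nat_lit 38287801249) (nat_lit 76) (nat_lit 76320630385) (nat_lit 76) (nat_lit 63820040990) (nat_lit 6) (nat_lit 4) (nat_lit 7) (nat_lit 5) (nat_lit 7) (nat_lit 4) (nat_lit 450) (nat_lit 334) (nat_lit 236)) (XT.lf (nat_lit 0) (nat_lit 64632507322) (nat_lit 76) (nat_lit 67305538897) (nat_lit 76) (nat_lit 54799916625) (nat_lit 6) (nat_lit 4) (nat_lit 7) (nat_lit 5) (nat_lit 7) (nat_lit 4) (nat_lit 451) (nat_lit 334) (nat_lit 235))) (XT.nd (nat_lit 78) (nat_lit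 0) (nat_lit 0) (XT.lf (nat_lit 0) (nat_lit 92275712919) (nat_lit 76) (nat_lit 57849049721) (nat_lit 76) (nat_lit 45338634232) (nat_lit 6) (nat_lit 4) (nat_lit 7) (nat_lit 5) (nat_lit 7) (nat_lit 4) (nat_lit 452) (nat_lit 334) (nat_lit 234)) (XT.lf (nat_lit 0) (nat_lit 121283235196) (nat_lit 76) (nat_lit 47928647405) (nat_lit 76) (nat_lit 35413666948) (nat_lit 6) (nat_lit 4) (nat_lit 7) (nat_lit 5) (nat_lit 7) (nat_lit 4) (nat_lit 453) (nat_lit 334) (nat_lit 233))))))) (XT.nd (nat_lit 1014) (nat_lit 76) (nat_lit 0) (XT.nd (nat_lit 468) (nat_lit 0) (nat_lit 0) (XT.nd (nat_lit 234) (nat_lit 152) (nat_lit 0) (XT.nd (nat_lit 78) (nat_lit 0) (nat_lit 0) (XT.lf (nat_lit 0) (nat_lit 151724139682) (nat_lit 76) (nat_lit 37520711944) (nat_lit 76) (nat_lit 25001383899) (nat_lit 6) (nat_lit 4) (nat_lit 7) (nat_lit 5) (nat_lit 7) (nat_lit 4) (nat_lit 454) (nat_lit 334) (nat_lit 232)) (XT.nd (nat_lit 78)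 (nat_lit 0) (nat_lit 0) (XT.lf (nat_lit 0) (nat_lit 183670904722) (nat_lit 76) (nat_lit 26600462540) (nat_lit 76) (nat_lit 14076993934) (nat_lit 6) (nat_lit 4) (nat_lit 7) (nat_lit 5) (nat_lit 7) (nat_lit 4) (nat_lit 455) (nat_lit 334) (nat_lit 231)) (XT.lf (nat_lit 0) (nat_lit 217199594040) (nat_lit 76) (nat_lit 15141898599) (nat_lit 76) (nat_lit 2614486602) (nat_lit 6) (nat_lit 4) (nat_lit 7) (nat_lit 5) (nat_lit 7) (nat_lit 4) (nat_lit 456) (nat_lit 334) (nat_lit 230)))) (XT.nd (nat_lit 78) (nat_lit 0) (nat_lit 0) (XT.lf (nat_lit 0) (nat_lit 6352026450) (nat_lit 76) (nat_lit 2859287723) (nat_lit 152) (nat_lit 236870724573) (nat_lit 4) (nat_lit 5) (nat_lit 5) (nat_lit 5) (nat_lit 6) (nat_lit 4) (nat_lit 457) (nat_lit 334) (nat_lit 229)) (XT.nd (nat_lit 78) (nat_lit 0) (nat_lit 0) (XT.lf (nat_lit 0) (nat_lit 21995438965) (nat_lit 152) (nat_lit 225686487423) (nat_lit 0) (nat_lit 10057587175)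 (nat_lit 4) (nat_lit 5) (nat_lit 6) (nat_lit 4) (nat_lit 4) (nat_lit 4) (nat_lit 458) (nat_lit 334) (nat_lit 228)) (XT.lf (nat_lit 0) (nat_lit 35458541077) (nat_lit 152) (nat_lit 211001887675) (nat_lit 0) (nat_lit 23517445050) (nat_lit 4) (nat_lit 5) (nat_lit 6) (nat_lit 4) (nat_lit 4) (nat_lit 4) (nat_lit 459) (nat_lit 334) (nat_lit 227))))) (XT.nd (nat_lit 234) (nat_lit 0) (nat_lit 0) (XT.nd (nat_lit 78) (nat_lit 0) (nat_lit 0) (XT.lf (nat_lit 0) (nat_lit 49588034023) (nat_lit 152) (nat_lit 195596608225) (nat_lit 0) (nat_lit 37643848246) (nat_lit 4) (nat_lit 5) (nat_lit 6) (nat_lit 4) (nat_lit 4) (nat_lit 4) (nat_lit 460) (nat_lit 334) (nat_lit 226)) (XT.nd (nat_lit 78) (nat_lit 0) (nat_lit 0) (XT.lf (nat_lit 0) (nat_lit 64417559452) (nat_lit 152) (nat_lit 179433969836) (nat_lit 0) (nat_lit 52470431055) (nat_lit 4) (nat_lit 5) (nat_lit 6) (nat_lit 4) (nat_lit 4) (nat_lit 4) (nat_lit 461)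 (nat_lit 334) (nat_lit 225)) (XT.lf (nat_lit 0) (nat_lit 79982425758) (nat_lit 152) (nat_lit 162475490037) (nat_lit 0) (nat_lit 68032494867) (nat_lit 4) (nat_lit 5) (nat_lit 6) (nat_lit 4) (nat_lit 4) (nat_lit 4) (nat_lit 462) (nat_lit 334) (nat_lit 224)))) (XT.nd (nat_lit 156) (nat_lit 0) (nat_lit 0) (XT.nd (nat_lit 78) (nat_lit 0) (nat_lit 0) (XT.lf (nat_lit 0) (nat_lit 96319692146) (nat_lit 152) (nat_lit 144680791494) (nat_lit 0) (nat_lit 84367092213) (nat_lit 4) (nat_lit 5) (nat_lit 6) (nat_lit 4) (nat_lit 4) (nat_lit 4) (nat_lit 463) (nat_lit 334) (nat_lit 223)) (XT.lf (nat_lit 0) (nat_lit 113468256870) (nat_lit 152) (nat_lit 126007505877) (nat_lit 0) (nat_lit 101513114992) (nat_lit 4) (nat_lit 5) (nat_lit 6) (nat_lit 4) (nat_lit 4) (nat_lit 4) (nat_lit 464) (nat_lit 334) (nat_lit 222))) (XT.nd (nat_lit 78) (nat_lit 0) (nat_lit 0) (XT.lf (nat_lit 0) (nat_lit 131468949846) (nat_lit 152)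 (nat_lit 106411172983) (nat_lit 0) (nat_lit 119511387067) (nat_lit 4) (nat_lit 5) (nat_lit 6) (nat_lit 4) (nat_lit 4) (nat_lit 4) (nat_lit 465) (nat_lit 334) (nat_lit 221)) (XT.lf (nat_lit 0) (nat_lit 150364629866) (nat_lit 152) (nat_lit 85845134876) (nat_lit 0) (nat_lit 138404761468) (nat_lit 4) (nat_lit 5) (nat_lit 6) (nat_lit 4) (nat_lit 4) (nat_lit 4) (nat_lit 466) (nat_lit 334) (nat_lit 220)))))) (XT.nd (nat_lit 546) (nat_lit 0) (nat_lit 0) (XT.nd (nat_lit 234) (nat_lit 76) (nat_lit 0) (XT.nd (nat_lit 78) (nat_lit 0) (nat_lit 0) (XT.lf (nat_lit 0) (nat_lit 170200286644) (nat_lit 152) (nat_lit 64260424798) (nat_lit 0) (nat_lit 158238222419) (nat_lit 4) (nat_lit 5) (nat_lit 6) (nat_lit 4) (nat_lit 4) (nat_lit 4) (nat_lit 467) (nat_lit 334) (nat_lit 219)) (XT.nd (nat_lit 78) (nat_lit 0) (nat_lit 0) (XT.lf (nat_lit 0) (nat_lit 191023147936) (nat_lit 152) (nat_lit 41605650584) (nat_lit 0)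 (nat_lit 179058992447) (nat_lit 4) (nat_lit 5) (nat_lit 6) (nat_lit 4) (nat_lit 4) (nat_lit 4) (nat_lit 468) (nat_lit 334) (nat_lit 218)) (XT.lf (nat_lit 0) (nat_lit 212882791983) (nat_lit 152) (nat_lit 17826872294) (nat_lit 0) (nat_lit 200916644813) (nat_lit 4) (nat_lit 5) (nat_lit 6) (nat_lit 4) (nat_lit 4) (nat_lit 4) (nat_lit 469) (nat_lit 334) (nat_lit 217)))) (XT.nd (nat_lit 156) (nat_lit 0) (nat_lit 0) (XT.nd (nat_lit 78) (nat_lit 0) (nat_lit 0) (XT.lf (nat_lit 0) (nat_lit 7368359738) (nat_lit 76) (nat_lit 228577946561) (nat_lit 76) (nat_lit 216609902553) (nat_lit 3) (nat_lit 4) (nat_lit 4) (nat_lit 5) (nat_lit 4) (nat_lit 4) (nat_lit 470) (nat_lit 334) (nat_lit 216)) (XT.lf (nat_lit 0) (nat_lit 34434077597) (nat_lit 76) (nat_lit 226026742730) (nat_lit 76) (nat_lit 214056892209) (nat_lit 3) (nat_lit 4) (nat_lit 4) (nat_lit 5) (nat_lit 4) (nat_lit 4) (nat_lit 471) (nat_lit 334) (nat_lit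 215))) (XT.nd (nat_lit 78) (nat_lit 0) (nat_lit 0) (XT.lf (nat_lit 0) (nat_lit 62845286561) (nat_lit 76) (nat_lit 223351885197) (nat_lit 76) (nat_lit 211380314188) (nat_lit 3) (nat_lit 4) (nat_lit 4) (nat_lit 5) (nat_lit 4) (nat_lit 4) (nat_lit 472) (nat_lit 334) (nat_lit 214)) (XT.lf (nat_lit 0) (nat_lit 92669632365) (nat_lit 76) (nat_lit 220547005254) (nat_lit 76) (nat_lit 208573795684) (nat_lit 3) (nat_lit 4) (nat_lit 4) (nat_lit 5) (nat_lit 4) (nat_lit 4) (nat_lit 473) (nat_lit 334) (nat_lit 213))))) (XT.nd (nat_lit 234) (nat_lit 0) (nat_lit 0) (XT.nd (nat_lit 78) (nat_lit 0) (nat_lit 0) (XT.lf (nat_lit 0) (nat_lit 123978125357) (nat_lit 76) (nat_lit 217605424614) (nat_lit 76) (nat_lit 205630654510) (nat_lit 3) (nat_lit 4) (nat_lit 4) (nat_lit 5) (nat_lit 4) (nat_lit 4) (nat_lit 474) (nat_lit 334) (nat_lit 212)) (XT.nd (nat_lit 78) (nat_lit 0) (nat_lit 0) (XT.lf (nat_lit 0) (nat_lit 156845309568)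 (nat_lit 76) (nat_lit 214520139515) (nat_lit 76) (nat_lit 202543883189) (nat_lit 3) (nat_lit 4) (nat_lit 4) (nat_lit 5) (nat_lit 4) (nat_lit 4) (nat_lit 475) (nat_lit 334) (nat_lit 211)) (XT.lf (nat_lit 0) (nat_lit 191349440198) (nat_lit 76) (nat_lit 211283804040) (nat_lit 76) (nat_lit 199306132263) (nat_lit 3) (nat_lit 4) (nat_lit 4) (nat_lit 5) (nat_lit 4) (nat_lit 4) (nat_lit 476) (nat_lit 334) (nat_lit 210)))) (XT.nd (nat_lit 156) (nat_lit 0) (nat_lit 0) (XT.nd (nat_lit 78) (nat_lit 0) (nat_lit 0) (XT.lf (nat_lit 0) (nat_lit 227572669939) (nat_lit 76) (nat_lit 207888712627) (nat_lit 76) (nat_lit 195909692803) (nat_lit 3) (nat_lit 4) (nat_lit 4) (nat_lit 5) (nat_lit 4) (nat_lit 4) (nat_lit 477) (nat_lit 334) (nat_lit 209)) (XT.lf (nat_lit 0) (nat_lit 265601244576) (nat_lit 76) (nat_lit 204326781727) (nat_lit 76) (nat_lit 192346478047) (nat_lit 3) (nat_lit 4) (nat_lit 4) (nat_lit 5) (nat_lit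 4) (nat_lit 4) (nat_lit 478) (nat_lit 334) (nat_lit 208))) (XT.nd (nat_lit 78) (nat_lit 0) (nat_lit 0) (XT.lf (nat_lit 0) (nat_lit 305525708335) (nat_lit 76) (nat_lit 200589530550) (nat_lit 76) (nat_lit 188608004152) (nat_lit 3) (nat_lit 4) (nat_lit 4) (nat_lit 5) (nat_lit 4) (nat_lit 4) (nat_lit 479) (nat_lit 334) (nat_lit 207)) (XT.lf (nat_lit 0) (nat_lit 347441119463) (nat_lit 76) (nat_lit 196668060881) (nat_lit 76) (nat_lit 184685369988) (nat_lit 3) (nat_lit 4) (nat_lit 4) (nat_lit 5) (nat_lit 4) (nat_lit 4) (nat_lit 480) (nat_lit 334) (nat_lit 206))))))))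
noncomputable def xc84 : XT := (XT.nd (nat_lit 44772) (nat_lit 0) (nat_lit 2128) (XT.nd (nat_lit 43680) (nat_lit 0) (nat_lit 5016) (XT.nd (nat_lit 43134) (nat_lit 0) (nat_lit 8208) (XT.nd (nat_lit 42900) (nat_lit 0) (nat_lit 10868) (XT.nd (nat_lit 78) (nat_lit 0) (nat_lit 0) (XT.lf (nat_lit 0) (nat_lit 391447276557) (nat_lit 76) (nat_lit 192553035886) (nat_lit 76) (nat_lit 180569235951) (nat_lit 3) (nat_lit 4) (nat_lit 4) (nat_lit 5) (nat_lit 4) (nat_lit 4) (nat_lit 481) (nat_lit 334) (nat_lit 205)) (XT.nd (nat_lit 78) (nat_lit 0) (nat_lit 0) (XT.lf (nat_lit 0) (nat_lit 437648956182) (nat_lit 76) (nat_lit 188234657887) (nat_lit 76) (nat_lit 176249801721) (nat_lit 3) (nat_lit 4) (nat_lit 4) (nat_lit 5) (nat_lit 4) (nat_lit 4) (nat_lit 482) (nat_lit 334) (nat_lit 204)) (XT.lf (nat_lit 0) (nat_lit 486156162337) (nat_lit 76) (nat_lit 183702645032) (nat_lit 76) (nat_lit 171716782932) (nat_lit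 3) (nat_lit 4) (nat_lit 4) (nat_lit 5) (nat_lit 4) (nat_lit 4) (nat_lit 483) (nat_lit 334) (nat_lit 203)))) (XT.nd (nat_lit 78) (nat_lit 1064) (nat_lit 0) (XT.lf (nat_lit 0) (nat_lit 2559337882) (nat_lit 380) (nat_lit 404044559) (nat_lit 380) (nat_lit 404044559) (nat_lit 160) (nat_lit 4) (nat_lit 165) (nat_lit 5) (nat_lit 165) (nat_lit 4) (nat_lit 350) (nat_lit 335) (nat_lit 335)) (XT.nd (nat_lit 78) (nat_lit 532) (nat_lit 0) (XT.lf (nat_lit 0) (nat_lit 2451926438) (nat_lit 532) (nat_lit 3926339464) (nat_lit 0) (nat_lit 419100821) (nat_lit 153) (nat_lit 5) (nat_lit 160) (nat_lit 4) (nat_lit 153) (nat_lit 4) (nat_lit 351) (nat_lit 335) (nat_lit 334)) (XT.lf (nat_lit 0) (nat_lit 616408125) (nat_lit 532) (nat_lit 5110485546) (nat_lit 532) (nat_lit 1141635533) (nat_lit 146) (nat_lit 4) (nat_lit 153) (nat_lit 5) (nat_lit 153) (nat_lit 4) (nat_lit 352) (nat_lit 335) (nat_lit 333))))) (XT.nd (nat_lit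 234) (nat_lit 1216) (nat_lit 0) (XT.nd (nat_lit 78) (nat_lit 1368) (nat_lit 0) (XT.lf (nat_lit 0) (nat_lit 2050197138) (nat_lit 608) (nat_lit 1609778638) (nat_lit 76) (nat_lit 3286719515) (nat_lit 145) (nat_lit 5) (nat_lit 153) (nat_lit 5) (nat_lit 146) (nat_lit 4) (nat_lit 353) (nat_lit 335) (nat_lit 332)) (XT.nd (nat_lit 78) (nat_lit 760) (nat_lit 0) (XT.lf (nat_lit 0) (nat_lit 3199145899) (nat_lit 608) (nat_lit 2053468671) (nat_lit 684) (nat_lit 1780873936) (nat_lit 137) (nat_lit 5) (nat_lit 145) (nat_lit 5) (nat_lit 146) (nat_lit 4) (nat_lit 354) (nat_lit 335) (nat_lit 331)) (XT.lf (nat_lit 0) (nat_lit 1038529980) (nat_lit 684) (nat_lit 290327998) (nat_lit 760) (nat_lit 5800409369) (nat_lit 127) (nat_lit 5) (nat_lit 136) (nat_lit 5) (nat_lit 137) (nat_lit 5) (nat_lit 355) (nat_lit 335) (nat_lit 330)))) (XT.nd (nat_lit 156) (nat_lit 380) (nat_lit 0) (XT.nd (nat_lit 78) (nat_lit 836) (nat_lit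 0) (XT.lf (nat_lit 0) (nat_lit 4471937544) (nat_lit 760) (nat_lit 1150524888) (nat_lit 76) (nat_lit 1609133340) (nat_lit 127) (nat_lit 5) (nat_lit 137) (nat_lit 5) (nat_lit 128) (nat_lit 4) (nat_lit 356) (nat_lit 335) (nat_lit 329)) (XT.lf (nat_lit 0) (nat_lit 339870394) (nat_lit 836) (nat_lit 3338203746) (nat_lit 76) (nat_lit 3664694256) (nat_lit 116) (nat_lit 5) (nat_lit 127) (nat_lit 5) (nat_lit 117) (nat_lit 5) (nat_lit 357) (nat_lit 335) (nat_lit 328))) (XT.nd (nat_lit 78) (nat_lit 0) (nat_lit 0) (XT.lf (nat_lit 0) (nat_lit 1860432603) (nat_lit 380) (nat_lit 1546877536) (nat_lit 456) (nat_lit 4054735096) (nat_lit 111) (nat_lit 5) (nat_lit 116) (nat_lit 5) (nat_lit 117) (nat_lit 5) (nat_lit 358) (nat_lit 335) (nat_lit 327)) (XT.lf (nat_lit 0) (nat_lit 6557497734) (nat_lit 456) (nat_lit 318045815) (nat_lit 76) (nat_lit 715360680) (nat_lit 111) (nat_lit 5) (nat_lit 117) (nat_lit 5) (nat_lit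 112) (nat_lit 4) (nat_lit 359) (nat_lit 335) (nat_lit 326)))))) (XT.nd (nat_lit 546) (nat_lit 1368) (nat_lit 0) (XT.nd (nat_lit 234) (nat_lit 608) (nat_lit 0) (XT.nd (nat_lit 78) (nat_lit 760) (nat_lit 0) (XT.lf (nat_lit 0) (nat_lit 2044664241) (nat_lit 456) (nat_lit 2538356641) (nat_lit 76) (nat_lit 3142887686) (nat_lit 105) (nat_lit 5) (nat_lit 111) (nat_lit 5) (nat_lit 106) (nat_lit 5) (nat_lit 360) (nat_lit 335) (nat_lit 325)) (XT.nd (nat_lit 78) (nat_lit 380) (nat_lit 0) (XT.lf (nat_lit 0) (nat_lit 3041098774) (nat_lit 380) (nat_lit 2123332069) (nat_lit 456) (nat_lit 2706334395) (nat_lit 100) (nat_lit 5) (nat_lit 105) (nat_lit 5) (nat_lit 106) (nat_lit 5) (nat_lit 361) (nat_lit 335) (nat_lit 324)) (XT.lf (nat_lit 0) (nat_lit 339802126) (nat_lit 380) (nat_lit 7200813661) (nat_lit 76) (nat_lit 485199529) (nat_lit 95) (nat_lit 5) (nat_lit 100) (nat_lit 5) (nat_lit 96) (nat_lit 5) (nat_lit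 362) (nat_lit 335) (nat_lit 323)))) (XT.nd (nat_lit 156) (nat_lit 304) (nat_lit 0) (XT.nd (nat_lit 78) (nat_lit 304) (nat_lit 0) (XT.lf (nat_lit 0) (nat_lit 3439920249) (nat_lit 380) (nat_lit 1491570278) (nat_lit 76) (nat_lit 3255342798) (nat_lit 95) (nat_lit 5) (nat_lit 100) (nat_lit 5) (nat_lit 96) (nat_lit 5) (nat_lit 363) (nat_lit 335) (nat_lit 322)) (XT.lf (nat_lit 0) (nat_lit 4497950555) (nat_lit 304) (nat_lit 2147969841) (nat_lit 380) (nat_lit 1712499938) (nat_lit 91) (nat_lit 5) (nat_lit 95) (nat_lit 5) (nat_lit 96) (nat_lit 5) (nat_lit 364) (nat_lit 335) (nat_lit 321))) (XT.nd (nat_lit 78) (nat_lit 0) (nat_lit 0) (XT.lf (nat_lit 0) (nat_lit 1381483213) (nat_lit 304) (nat_lit 6355706079) (nat_lit 76) (nat_lit 802552433) (nat_lit 87) (nat_lit 5) (nat_lit 91) (nat_lit 5) (nat_lit 88) (nat_lit 5) (nat_lit 365) (nat_lit 335) (nat_lit 320)) (XT.lf (nat_lit 0) (nat_lit 4559137161) (nat_lit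 304) (nat_lit 279950118) (nat_lit 76) (nat_lit 3890365551) (nat_lit 87) (nat_lit 5) (nat_lit 91) (nat_lit 5) (nat_lit 88) (nat_lit 5) (nat_lit 366) (nat_lit 335) (nat_lit 319))))) (XT.nd (nat_lit 234) (nat_lit 532) (nat_lit 0) (XT.nd (nat_lit 78) (nat_lit 532) (nat_lit 0) (XT.lf (nat_lit 0) (nat_lit 6150225118) (nat_lit 304) (nat_lit 1731813354) (nat_lit 380) (nat_lit 1047343714) (nat_lit 83) (nat_lit 5) (nat_lit 87) (nat_lit 5) (nat_lit 88) (nat_lit 5) (nat_lit 367) (nat_lit 335) (nat_lit 318)) (XT.nd (nat_lit 78) (nat_lit 228) (nat_lit 0) (XT.lf (nat_lit 0) (nat_lit 2139483693) (nat_lit 304) (nat_lit 5455937480) (nat_lit 76) (nat_lit 1543233936) (nat_lit 79) (nat_lit 5) (nat_lit 83) (nat_lit 5) (nat_lit 80) (nat_lit 5) (nat_lit 368) (nat_lit 335) (nat_lit 317)) (XT.lf (nat_lit 0) (nat_lit 1045447466) (nat_lit 228) (nat_lit 4391363281) (nat_lit 304) (nat_lit 3921448653) (nat_lit 76) (nat_lit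 5) (nat_lit 79) (nat_lit 5) (nat_lit 80) (nat_lit 5) (nat_lit 369) (nat_lit 335) (nat_lit 316)))) (XT.nd (nat_lit 156) (nat_lit 228) (nat_lit 0) (XT.nd (nat_lit 78) (nat_lit 304) (nat_lit 0) (XT.lf (nat_lit 0) (nat_lit 7913920261) (nat_lit 228) (nat_lit 974043611) (nat_lit 304) (nat_lit 701473948) (nat_lit 76) (nat_lit 5) (nat_lit 79) (nat_lit 5) (nat_lit 80) (nat_lit 5) (nat_lit 370) (nat_lit 335) (nat_lit 315)) (XT.lf (nat_lit 0) (nat_lit 2618130340) (nat_lit 304) (nat_lit 4596207841) (nat_lit 76) (nat_lit 2614563681) (nat_lit 72) (nat_lit 5) (nat_lit 76) (nat_lit 5) (nat_lit 73) (nat_lit 5) (nat_lit 371) (nat_lit 335) (nat_lit 314))) (XT.nd (nat_lit 78) (nat_lit 0) (nat_lit 0) (XT.lf (nat_lit 0) (nat_lit 2367772397) (nat_lit 228) (nat_lit 3695855618) (nat_lit 304) (nat_lit 4016997944) (nat_lit 69) (nat_lit 5) (nat_lit 72) (nat_lit 5) (nat_lit 73) (nat_lit 5) (nat_lit 372) (nat_lit 335)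 (nat_lit 313)) (XT.lf (nat_lit 0) (nat_lit 9663906304) (nat_lit 304) (nat_lit 650157451) (nat_lit 76) (nat_lit 31781691) (nat_lit 69) (nat_lit 5) (nat_lit 73) (nat_lit 5) (nat_lit 70) (nat_lit 4) (nat_lit 373) (nat_lit 335) (nat_lit 312))))))) (XT.nd (nat_lit 1014) (nat_lit 1216) (nat_lit 0) (XT.nd (nat_lit 468) (nat_lit 684) (nat_lit 0) (XT.nd (nat_lit 234) (nat_lit 380) (nat_lit 0) (XT.nd (nat_lit 78) (nat_lit 380) (nat_lit 0) (XT.lf (nat_lit 0) (nat_lit 2805291405) (nat_lit 228) (nat_lit 3884099336) (nat_lit 76) (nat_lit 3928981509) (nat_lit 66) (nat_lit 5) (nat_lit 69) (nat_lit 5) (nat_lit 67) (nat_lit 5) (nat_lit 374) (nat_lit 335) (nat_lit 311)) (XT.nd (nat_lit 78) (nat_lit 152) (nat_lit 0) (XT.lf (nat_lit 0) (nat_lit 3568220808) (nat_lit 228) (nat_lit 2851381312) (nat_lit 304) (nat_lit 4485612272) (nat_lit 63) (nat_lit 5) (nat_lit 66) (nat_lit 5) (nat_lit 67) (nat_lit 5) (nat_lit 375)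 (nat_lit 335) (nat_lit 310)) (XT.lf (nat_lit 0) (nat_lit 168224640) (nat_lit 152) (nat_lit 10044423423) (nat_lit 228) (nat_lit 993877955) (nat_lit 61) (nat_lit 5) (nat_lit 63) (nat_lit 5) (nat_lit 64) (nat_lit 4) (nat_lit 376) (nat_lit 335) (nat_lit 309)))) (XT.nd (nat_lit 78) (nat_lit 304) (nat_lit 0) (XT.lf (nat_lit 0) (nat_lit 2670704399) (nat_lit 228) (nat_lit 3447020433) (nat_lit 76) (nat_lit 5398928090) (nat_lit 60) (nat_lit 5) (nat_lit 63) (nat_lit 5) (nat_lit 61) (nat_lit 5) (nat_lit 377) (nat_lit 335) (nat_lit 308)) (XT.nd (nat_lit 78) (nat_lit 152) (nat_lit 0) (XT.lf (nat_lit 0) (nat_lit 4515628993) (nat_lit 152) (nat_lit 1954996945) (nat_lit 228) (nat_lit 5371594533) (nat_lit 58) (nat_lit 5) (nat_lit 60) (nat_lit 5) (nat_lit 61) (nat_lit 5) (nat_lit 378) (nat_lit 335) (nat_lit 307)) (XT.lf (nat_lit 0) (nat_lit 659771067) (nat_lit 152) (nat_lit 9824287271) (nat_lit 228) (nat_lit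 1698855651) (nat_lit 56) (nat_lit 5) (nat_lit 58) (nat_lit 5) (nat_lit 59) (nat_lit 4) (nat_lit 379) (nat_lit 335) (nat_lit 306))))) (XT.nd (nat_lit 234) (nat_lit 304) (nat_lit 0) (XT.nd (nat_lit 78) (nat_lit 304) (nat_lit 0) (XT.lf (nat_lit 0) (nat_lit 2163303559) (nat_lit 228) (nat_lit 3440555103) (nat_lit 76) (nat_lit 6931378563) (nat_lit 55) (nat_lit 5) (nat_lit 58) (nat_lit 5) (nat_lit 56) (nat_lit 5) (nat_lit 380) (nat_lit 335) (nat_lit 305)) (XT.nd (nat_lit 78) (nat_lit 152) (nat_lit 0) (XT.lf (nat_lit 0) (nat_lit 5048305328) (nat_lit 152) (nat_lit 1112633684) (nat_lit 228) (nat_lit 6742892213) (nat_lit 53) (nat_lit 5) (nat_lit 55) (nat_lit 5) (nat_lit 56) (nat_lit 5) (nat_lit 381) (nat_lit 335) (nat_lit 304)) (XT.lf (nat_lit 0) (nat_lit 623303502) (nat_lit 152) (nat_lit 9781952948) (nat_lit 228) (nat_lit 2883277657) (nat_lit 51) (nat_lit 5) (nat_lit 53) (nat_lit 5) (nat_lit 54) (nat_lit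 4) (nat_lit 382) (nat_lit 335) (nat_lit 303)))) (XT.nd (nat_lit 156) (nat_lit 76) (nat_lit 0) (XT.nd (nat_lit 78) (nat_lit 152) (nat_lit 0) (XT.lf (nat_lit 0) (nat_lit 1207363241) (nat_lit 228) (nat_lit 4058706155) (nat_lit 76) (nat_lit 8421733779) (nat_lit 50) (nat_lit 5) (nat_lit 53) (nat_lit 5) (nat_lit 51) (nat_lit 5) (nat_lit 383) (nat_lit 335) (nat_lit 302)) (XT.lf (nat_lit 0) (nat_lit 4963050855) (nat_lit 152) (nat_lit 445802204) (nat_lit 228) (nat_lit 8695675180) (nat_lit 48) (nat_lit 5) (nat_lit 50) (nat_lit 5) (nat_lit 51) (nat_lit 5) (nat_lit 384) (nat_lit 335) (nat_lit 301))) (XT.nd (nat_lit 78) (nat_lit 76) (nat_lit 0) (XT.lf (nat_lit 0) (nat_lit 9888847547) (nat_lit 228) (nat_lit 162506401) (nat_lit 76) (nat_lit 4487329890) (nat_lit 48) (nat_lit 5) (nat_lit 51) (nat_lit 5) (nat_lit 49) (nat_lit 4) (nat_lit 385) (nat_lit 335) (nat_lit 300)) (XT.lf (nat_lit 0) (nat_lit 9438804536)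 (nat_lit 76) (nat_lit 5238717984) (nat_lit 152) (nat_lit 312805701) (nat_lit 47) (nat_lit 5) (nat_lit 48) (nat_lit 5) (nat_lit 49) (nat_lit 4) (nat_lit 386) (nat_lit 335) (nat_lit 299)))))) (XT.nd (nat_lit 546) (nat_lit 608) (nat_lit 0) (XT.nd (nat_lit 234) (nat_lit 304) (nat_lit 0) (XT.nd (nat_lit 78) (nat_lit 76) (nat_lit 0) (XT.lf (nat_lit 0) (nat_lit 4001457092) (nat_lit 152) (nat_lit 99486889) (nat_lit 228) (nat_lit 11360533303) (nat_lit 44) (nat_lit 5) (nat_lit 46) (nat_lit 5) (nat_lit 47) (nat_lit 5) (nat_lit 387) (nat_lit 335) (nat_lit 298)) (XT.nd (nat_lit 78) (nat_lit 76) (nat_lit 0) (XT.lf (nat_lit 0) (nat_lit 8834103163) (nat_lit 228) (nat_lit 1938439870) (nat_lit 76) (nat_lit 5177935646) (nat_lit 44) (nat_lit 5) (nat_lit 47) (nat_lit 5) (nat_lit 45) (nat_lit 4) (nat_lit 388) (nat_lit 335) (nat_lit 297)) (XT.lf (nat_lit 0) (nat_lit 8203568656) (nat_lit 76) (nat_lit 5664328895)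 (nat_lit 152) (nat_lit 2592846102) (nat_lit 43) (nat_lit 5) (nat_lit 44) (nat_lit 5) (nat_lit 45) (nat_lit 4) (nat_lit 389) (nat_lit 335) (nat_lit 296)))) (XT.nd (nat_lit 156) (nat_lit 76) (nat_lit 0) (XT.nd (nat_lit 78) (nat_lit 0) (nat_lit 0) (XT.lf (nat_lit 0) (nat_lit 1832658533) (nat_lit 152) (nat_lit 251685689) (nat_lit 228) (nat_lit 14910679274) (nat_lit 40) (nat_lit 5) (nat_lit 42) (nat_lit 5) (nat_lit 43) (nat_lit 5) (nat_lit 390) (nat_lit 335) (nat_lit 295)) (XT.lf (nat_lit 0) (nat_lit 7070257220) (nat_lit 228) (nat_lit 5082390751) (nat_lit 76) (nat_lit 5393154776) (nat_lit 40) (nat_lit 5) (nat_lit 43) (nat_lit 5) (nat_lit 41) (nat_lit 4) (nat_lit 391) (nat_lit 335) (nat_lit 294))) (XT.nd (nat_lit 78) (nat_lit 0) (nat_lit 0) (XT.lf (nat_lit 0) (nat_lit 5563701626) (nat_lit 76) (nat_lit 6770913067) (nat_lit 152) (nat_lit 5788059006) (nat_lit 39) (nat_lit 5) (nat_lit 40) (nat_lit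 5) (nat_lit 41) (nat_lit 4) (nat_lit 392) (nat_lit 335) (nat_lit 293)) (XT.lf (nat_lit 0) (nat_lit 16808523680) (nat_lit 76) (nat_lit 1079124045) (nat_lit 152) (nat_lit 839477285) (nat_lit 39) (nat_lit 5) (nat_lit 40) (nat_lit 5) (nat_lit 41) (nat_lit 4) (nat_lit 393) (nat_lit 335) (nat_lit 292))))) (XT.nd (nat_lit 234) (nat_lit 304) (nat_lit 0) (XT.nd (nat_lit 78) (nat_lit 76) (nat_lit 0) (XT.lf (nat_lit 0) (nat_lit 4384074675) (nat_lit 228) (nat_lit 10054014283) (nat_lit 76) (nat_lit 4911968963) (nat_lit 36) (nat_lit 5) (nat_lit 39) (nat_lit 5) (nat_lit 37) (nat_lit 4) (nat_lit 394) (nat_lit 335) (nat_lit 291)) (XT.nd (nat_lit 78) (nat_lit 0) (nat_lit 0) (XT.lf (nat_lit 0) (nat_lit 1029321123) (nat_lit 76) (nat_lit 8819787064) (nat_lit 152) (nat_lit 10153923777) (nat_lit 35) (nat_lit 5) (nat_lit 36) (nat_lit 5) (nat_lit 37) (nat_lit 4) (nat_lit 395) (nat_lit 335) (nat_lit 290)) (XT.lf (nat_lit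 0) (nat_lit 12910448354) (nat_lit 76) (nat_lit 2790073021) (nat_lit 152) (nat_lit 4982484909) (nat_lit 35) (nat_lit 5) (nat_lit 36) (nat_lit 5) (nat_lit 37) (nat_lit 4) (nat_lit 396) (nat_lit 335) (nat_lit 289)))) (XT.nd (nat_lit 156) (nat_lit 76) (nat_lit 0) (XT.nd (nat_lit 78) (nat_lit 0) (nat_lit 0) (XT.lf (nat_lit 0) (nat_lit 496148141) (nat_lit 228) (nat_lit 17444276166) (nat_lit 76) (nat_lit 3453065597) (nat_lit 32) (nat_lit 5) (nat_lit 35) (nat_lit 5) (nat_lit 33) (nat_lit 4) (nat_lit 397) (nat_lit 335) (nat_lit 288)) (XT.lf (nat_lit 0) (nat_lit 6205817708) (nat_lit 228) (nat_lit 5838164106) (nat_lit 76) (nat_lit 10085211327) (nat_lit 32) (nat_lit 5) (nat_lit 35) (nat_lit 5) (nat_lit 33) (nat_lit 4) (nat_lit 398) (nat_lit 335) (nat_lit 287))) (XT.nd (nat_lit 78) (nat_lit 0) (nat_lit 0) (XT.lf (nat_lit 0) (nat_lit 6457219408) (nat_lit 76) (nat_lit 5792204917) (nat_lit 152) (nat_lit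 10649841097) (nat_lit 31) (nat_lit 5) (nat_lit 32) (nat_lit 5) (nat_lit 33) (nat_lit 4) (nat_lit 399) (nat_lit 335) (nat_lit 286)) (XT.lf (nat_lit 0) (nat_lit 18655691864) (nat_lit 152) (nat_lit 4244519657) (nat_lit 0) (nat_lit 804612016) (nat_lit 31) (nat_lit 5) (nat_lit 33) (nat_lit 4) (nat_lit 31) (nat_lit 4) (nat_lit 400) (nat_lit 335) (nat_lit 285))))))))
noncomputable def xc85 : XT := (XT.nd (nat_lit 2106) (nat_lit 532) (nat_lit 0) (XT.nd (nat_lit 1014) (nat_lit 608) (nat_lit 0) (XT.nd (nat_lit 468) (nat_lit 380) (nat_lit 0) (XT.nd (nat_lit 234) (nat_lit 152) (nat_lit 0) (XT.nd (nat_lit 78) (nat_lit 76) (nat_lit 0) (XT.lf (nat_lit 0) (nat_lit 988388321) (nat_lit 152) (nat_lit 15906093205) (nat_lit 76) (nat_lit 7646364914) (nat_lit 29) (nat_lit 5) (nat_lit 31) (nat_lit 5) (nat_lit 30) (nat_lit 4) (nat_lit 401) (nat_lit 335) (nat_lit 284)) (XT.nd (nat_lit 78) (nat_lit 76) (nat_lit 0)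 (XT.lf (nat_lit 0) (nat_lit 7181697602) (nat_lit 152) (nat_lit 3287151478) (nat_lit 76) (nat_lit 14944508312) (nat_lit 29) (nat_lit 5) (nat_lit 31) (nat_lit 5) (nat_lit 30) (nat_lit 4) (nat_lit 402) (nat_lit 335) (nat_lit 283)) (XT.lf (nat_lit 0) (nat_lit 10200184077) (nat_lit 76) (nat_lit 3596632984) (nat_lit 152) (nat_lit 12527074738) (nat_lit 28) (nat_lit 5) (nat_lit 29) (nat_lit 5) (nat_lit 30) (nat_lit 4) (nat_lit 403) (nat_lit 335) (nat_lit 282)))) (XT.nd (nat_lit 78) (nat_lit 152) (nat_lit 0) (XT.lf (nat_lit 0) (nat_lit 20808901764) (nat_lit 152) (nat_lit 2947836825) (nat_lit 0) (nat_lit 3519908769) (nat_lit 28) (nat_lit 5) (nat_lit 30) (nat_lit 4) (nat_lit 28) (nat_lit 4) (nat_lit 404) (nat_lit 335) (nat_lit 281)) (XT.nd (nat_lit 78) (nat_lit 0) (nat_lit 0) (XT.lf (nat_lit 0) (nat_lit 88582569) (nat_lit 152) (nat_lit 17171028430) (nat_lit 76) (nat_lit 11007983581) (nat_lit 26) (nat_lit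 5) (nat_lit 28) (nat_lit 5) (nat_lit 27) (nat_lit 4) (nat_lit 405) (nat_lit 335) (nat_lit 280)) (XT.lf (nat_lit 0) (nat_lit 6761561097) (nat_lit 152) (nat_lit 3552022164) (nat_lit 76) (nat_lit 18988899070) (nat_lit 26) (nat_lit 5) (nat_lit 28) (nat_lit 5) (nat_lit 27) (nat_lit 4) (nat_lit 406) (nat_lit 335) (nat_lit 279))))) (XT.nd (nat_lit 234) (nat_lit 228) (nat_lit 0) (XT.nd (nat_lit 78) (nat_lit 76) (nat_lit 0) (XT.lf (nat_lit 0) (nat_lit 11019568827) (nat_lit 76) (nat_lit 2878238615) (nat_lit 152) (nat_lit 16484830111) (nat_lit 25) (nat_lit 5) (nat_lit 26) (nat_lit 5) (nat_lit 27) (nat_lit 4) (nat_lit 407) (nat_lit 335) (nat_lit 278)) (XT.nd (nat_lit 78) (nat_lit 76) (nat_lit 0) (XT.lf (nat_lit 0) (nat_lit 21486713857) (nat_lit 152) (nat_lit 5229919662) (nat_lit 0) (nat_lit 4795378467) (nat_lit 25) (nat_lit 5) (nat_lit 27) (nat_lit 4) (nat_lit 25) (nat_lit 4) (nat_lit 408) (nat_lit 335)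 (nat_lit 277)) (XT.lf (nat_lit 0) (nat_lit 9798954382) (nat_lit 76) (nat_lit 19816049219) (nat_lit 76) (nat_lit 3074858292) (nat_lit 24) (nat_lit 4) (nat_lit 25) (nat_lit 5) (nat_lit 25) (nat_lit 4) (nat_lit 409) (nat_lit 335) (nat_lit 276)))) (XT.nd (nat_lit 156) (nat_lit 76) (nat_lit 0) (XT.nd (nat_lit 78) (nat_lit 76) (nat_lit 0) (XT.lf (nat_lit 0) (nat_lit 4137802045) (nat_lit 152) (nat_lit 8306178196) (nat_lit 76) (nat_lit 21476837435) (nat_lit 23) (nat_lit 5) (nat_lit 25) (nat_lit 5) (nat_lit 24) (nat_lit 4) (nat_lit 410) (nat_lit 335) (nat_lit 275)) (XT.lf (nat_lit 0) (nat_lit 7111212694) (nat_lit 76) (nat_lit 4569326586) (nat_lit 152) (nat_lit 23526625785) (nat_lit 22) (nat_lit 5) (nat_lit 23) (nat_lit 5) (nat_lit 24) (nat_lit 4) (nat_lit 411) (nat_lit 335) (nat_lit 274))) (XT.nd (nat_lit 78) (nat_lit 76) (nat_lit 0) (XT.lf (nat_lit 0) (nat_lit 19763035877) (nat_lit 152) (nat_lit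 13096925111) (nat_lit 0) (nat_lit 3689740716) (nat_lit 22) (nat_lit 5) (nat_lit 24) (nat_lit 4) (nat_lit 22) (nat_lit 4) (nat_lit 412) (nat_lit 335) (nat_lit 273)) (XT.lf (nat_lit 0) (nat_lit 2589635909) (nat_lit 76) (nat_lit 25739069013) (nat_lit 76) (nat_lit 9626710735) (nat_lit 21) (nat_lit 4) (nat_lit 22) (nat_lit 5) (nat_lit 22) (nat_lit 4) (nat_lit 413) (nat_lit 335) (nat_lit 272)))))) (XT.nd (nat_lit 546) (nat_lit 304) (nat_lit 0) (XT.nd (nat_lit 234) (nat_lit 152) (nat_lit 0) (XT.nd (nat_lit 78) (nat_lit 152) (nat_lit 0) (XT.lf (nat_lit 0) (nat_lit 19445960923) (nat_lit 76) (nat_lit 18062855211) (nat_lit 76) (nat_lit 1913293965) (nat_lit 21) (nat_lit 4) (nat_lit 22) (nat_lit 5) (nat_lit 22) (nat_lit 4) (nat_lit 414) (nat_lit 335) (nat_lit 271)) (XT.nd (nat_lit 78) (nat_lit 76) (nat_lit 0) (XT.lf (nat_lit 0) (nat_lit 5953303885) (nat_lit 152) (nat_lit 3980719681) (nat_lit 76) (nat_lit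 31025014578) (nat_lit 20) (nat_lit 5) (nat_lit 22) (nat_lit 5) (nat_lit 21) (nat_lit 4) (nat_lit 415) (nat_lit 335) (nat_lit 270)) (XT.lf (nat_lit 0) (nat_lit 13139760661) (nat_lit 76) (nat_lit 1181457629) (nat_lit 152) (nat_lit 28241414088) (nat_lit 19) (nat_lit 5) (nat_lit 20) (nat_lit 5) (nat_lit 21) (nat_lit 4) (nat_lit 416) (nat_lit 335) (nat_lit 269)))) (XT.nd (nat_lit 156) (nat_lit 76) (nat_lit 0) (XT.nd (nat_lit 78) (nat_lit 76) (nat_lit 0) (XT.lf (nat_lit 0) (nat_lit 23268330654) (nat_lit 152) (nat_lit 13178730155) (nat_lit 0) (nat_lit 7791307646) (nat_lit 19) (nat_lit 5) (nat_lit 21) (nat_lit 4) (nat_lit 19) (nat_lit 4) (nat_lit 417) (nat_lit 335) (nat_lit 268)) (XT.lf (nat_lit 0) (nat_lit 3922836816) (nat_lit 76) (nat_lit 28789379149) (nat_lit 76) (nat_lit 13283206641) (nat_lit 18) (nat_lit 4) (nat_lit 19) (nat_lit 5) (nat_lit 19) (nat_lit 4) (nat_lit 418) (nat_lit 335) (nat_lit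 267))) (XT.nd (nat_lit 78) (nat_lit 76) (nat_lit 0) (XT.lf (nat_lit 0) (nat_lit 22277032468) (nat_lit 76) (nat_lit 20543802986) (nat_lit 76) (nat_lit 5009869049) (nat_lit 18) (nat_lit 4) (nat_lit 19) (nat_lit 5) (nat_lit 19) (nat_lit 4) (nat_lit 419) (nat_lit 335) (nat_lit 266)) (XT.lf (nat_lit 0) (nat_lit 3529774924) (nat_lit 152) (nat_lit 8324334797) (nat_lit 76) (nat_lit 37902255561) (nat_lit 17) (nat_lit 5) (nat_lit 19) (nat_lit 5) (nat_lit 18) (nat_lit 4) (nat_lit 420) (nat_lit 335) (nat_lit 265))))) (XT.nd (nat_lit 234) (nat_lit 228) (nat_lit 0) (XT.nd (nat_lit 78) (nat_lit 0) (nat_lit 0) (XT.lf (nat_lit 0) (nat_lit 9947373800) (nat_lit 76) (nat_lit 2507712846) (nat_lit 152) (nat_lit 39312765260) (nat_lit 16) (nat_lit 5) (nat_lit 17) (nat_lit 5) (nat_lit 18) (nat_lit 4) (nat_lit 421) (nat_lit 335) (nat_lit 264)) (XT.nd (nat_lit 78) (nat_lit 0) (nat_lit 0) (XT.lf (nat_lit 0) (nat_lit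 22055841175) (nat_lit 152) (nat_lit 24622997317) (nat_lit 0) (nat_lit 7189617183) (nat_lit 16) (nat_lit 5) (nat_lit 18) (nat_lit 4) (nat_lit 16) (nat_lit 4) (nat_lit 422) (nat_lit 335) (nat_lit 263)) (XT.lf (nat_lit 0) (nat_lit 32150907566) (nat_lit 152) (nat_lit 6659538185) (nat_lit 0) (nat_lit 17262931769) (nat_lit 16) (nat_lit 5) (nat_lit 18) (nat_lit 4) (nat_lit 16) (nat_lit 4) (nat_lit 423) (nat_lit 335) (nat_lit 262)))) (XT.nd (nat_lit 156) (nat_lit 152) (nat_lit 0) (XT.nd (nat_lit 78) (nat_lit 0) (nat_lit 0) (XT.lf (nat_lit 0) (nat_lit 12553615963) (nat_lit 76) (nat_lit 30367550430) (nat_lit 76) (nat_lit 15458858627) (nat_lit 15) (nat_lit 4) (nat_lit 16) (nat_lit 5) (nat_lit 16) (nat_lit 4) (nat_lit 424) (nat_lit 335) (nat_lit 261)) (XT.lf (nat_lit 0) (nat_lit 32909170739) (nat_lit 76) (nat_lit 21408436734) (nat_lit 76) (nat_lit 6480015402) (nat_lit 15) (nat_lit 4) (nat_lit 16) (nat_lit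 5) (nat_lit 16) (nat_lit 4) (nat_lit 425) (nat_lit 335) (nat_lit 260))) (XT.nd (nat_lit 78) (nat_lit 76) (nat_lit 0) (XT.lf (nat_lit 0) (nat_lit 2829112190) (nat_lit 152) (nat_lit 9147531368) (nat_lit 76) (nat_lit 51358372765) (nat_lit 14) (nat_lit 5) (nat_lit 16) (nat_lit 5) (nat_lit 15) (nat_lit 4) (nat_lit 426) (nat_lit 335) (nat_lit 259)) (XT.lf (nat_lit 0) (nat_lit 10721738705) (nat_lit 76) (nat_lit 1808429747) (nat_lit 152) (nat_lit 53456588588) (nat_lit 13) (nat_lit 5) (nat_lit 14) (nat_lit 5) (nat_lit 15) (nat_lit 4) (nat_lit 427) (nat_lit 335) (nat_lit 258))))))) (XT.nd (nat_lit 1014) (nat_lit 228) (nat_lit 0) (XT.nd (nat_lit 468) (nat_lit 228) (nat_lit 0) (XT.nd (nat_lit 234) (nat_lit 0) (nat_lit 0) (XT.nd (nat_lit 78) (nat_lit 76) (nat_lit 0) (XT.lf (nat_lit 0) (nat_lit 22989095231) (nat_lit 152) (nat_lit 37047968667) (nat_lit 0) (nat_lit 8720381200) (nat_lit 13) (nat_lit 5) (nat_lit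 15) (nat_lit 4) (nat_lit 13) (nat_lit 4) (nat_lit 428) (nat_lit 335) (nat_lit 257)) (XT.nd (nat_lit 78) (nat_lit 76) (nat_lit 0) (XT.lf (nat_lit 0) (nat_lit 33978617425) (nat_lit 152) (nat_lit 17993224019) (nat_lit 0) (nat_lit 19694444793) (nat_lit 13) (nat_lit 5) (nat_lit 15) (nat_lit 4) (nat_lit 13) (nat_lit 4) (nat_lit 429) (nat_lit 335) (nat_lit 256)) (XT.lf (nat_lit 0) (nat_lit 2038048998) (nat_lit 76) (nat_lit 43490436567) (nat_lit 76) (nat_lit 29191541456) (nat_lit 12) (nat_lit 4) (nat_lit 13) (nat_lit 5) (nat_lit 13) (nat_lit 4) (nat_lit 430) (nat_lit 335) (nat_lit 255)))) (XT.nd (nat_lit 78) (nat_lit 0) (nat_lit 0) (XT.lf (nat_lit 0) (nat_lit 23654798990) (nat_lit 76) (nat_lit 34285183320) (nat_lit 76) (nat_lit 19972266801) (nat_lit 12) (nat_lit 4) (nat_lit 13) (nat_lit 5) (nat_lit 13) (nat_lit 4) (nat_lit 431) (nat_lit 335) (nat_lit 254)) (XT.nd (nat_lit 78) (nat_lit 0) (nat_lit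 0) (XT.lf (nat_lit 0) (nat_lit 46313557164) (nat_lit 76) (nat_lit 24638888389) (nat_lit 76) (nat_lit 10312618149) (nat_lit 12) (nat_lit 4) (nat_lit 13) (nat_lit 5) (nat_lit 13) (nat_lit 4) (nat_lit 432) (nat_lit 335) (nat_lit 253)) (XT.lf (nat_lit 0) (nat_lit 70068272943) (nat_lit 76) (nat_lit 14528584406) (nat_lit 76) (nat_lit 189596336) (nat_lit 12) (nat_lit 4) (nat_lit 13) (nat_lit 5) (nat_lit 13) (nat_lit 4) (nat_lit 433) (nat_lit 335) (nat_lit 252))))) (XT.nd (nat_lit 234) (nat_lit 76) (nat_lit 0) (XT.nd (nat_lit 78) (nat_lit 0) (nat_lit 0) (XT.lf (nat_lit 0) (nat_lit 6537234719) (nat_lit 76) (nat_lit 3652196992) (nat_lit 152) (nat_lit 78282133410) (nat_lit 10) (nat_lit 5) (nat_lit 11) (nat_lit 5) (nat_lit 12) (nat_lit 4) (nat_lit 434) (nat_lit 335) (nat_lit 251)) (XT.nd (nat_lit 78) (nat_lit 0) (nat_lit 0) (XT.lf (nat_lit 0) (nat_lit 21437625697) (nat_lit 152) (nat_lit 63126397522)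 (nat_lit 0) (nat_lit 7758924996) (nat_lit 10) (nat_lit 5) (nat_lit 12) (nat_lit 4) (nat_lit 10) (nat_lit 4) (nat_lit 435) (nat_lit 335) (nat_lit 250)) (XT.lf (nat_lit 0) (nat_lit 33290920587) (nat_lit 152) (nat_lit 43472089188) (nat_lit 0) (nat_lit 19601756896) (nat_lit 10) (nat_lit 5) (nat_lit 12) (nat_lit 4) (nat_lit 10) (nat_lit 4) (nat_lit 436) (nat_lit 335) (nat_lit 249)))) (XT.nd (nat_lit 156) (nat_lit 76) (nat_lit 0) (XT.nd (nat_lit 78) (nat_lit 0) (nat_lit 0) (XT.lf (nat_lit 0) (nat_lit 45720517482) (nat_lit 152) (nat_lit 22867588397) (nat_lit 0) (nat_lit 32021389038) (nat_lit 10) (nat_lit 5) (nat_lit 12) (nat_lit 4) (nat_lit 10) (nat_lit 4) (nat_lit 437) (nat_lit 335) (nat_lit 248)) (XT.lf (nat_lit 0) (nat_lit 58756010661) (nat_lit 152) (nat_lit 1263836813) (nat_lit 0) (nat_lit 45047391975) (nat_lit 10) (nat_lit 5) (nat_lit 12) (nat_lit 4) (nat_lit 10) (nat_lit 4) (nat_lit 438) (nat_lit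 335) (nat_lit 247))) (XT.nd (nat_lit 78) (nat_lit 0) (nat_lit 0) (XT.lf (nat_lit 0) (nat_lit 22097873005) (nat_lit 76) (nat_lit 50675573731) (nat_lit 76) (nat_lit 36957916722) (nat_lit 9) (nat_lit 4) (nat_lit 10) (nat_lit 5) (nat_lit 10) (nat_lit 4) (nat_lit 439) (nat_lit 335) (nat_lit 246)) (XT.lf (nat_lit 0) (nat_lit 46642522387) (nat_lit 76) (nat_lit 40856048030) (nat_lit 76) (nat_lit 27129783092) (nat_lit 9) (nat_lit 4) (nat_lit 10) (nat_lit 5) (nat_lit 10) (nat_lit 4) (nat_lit 440) (nat_lit 335) (nat_lit 245)))))) (XT.nd (nat_lit 546) (nat_lit 76) (nat_lit 0) (XT.nd (nat_lit 234) (nat_lit 76) (nat_lit 0) (XT.nd (nat_lit 78) (nat_lit 76) (nat_lit 0) (XT.lf (nat_lit 0) (nat_lit 72386762821) (nat_lit 76) (nat_lit 30559294234) (nat_lit 76) (nat_lit 16824831269) (nat_lit 9) (nat_lit 4) (nat_lit 10) (nat_lit 5) (nat_lit 10) (nat_lit 4) (nat_lit 441) (nat_lit 335) (nat_lit 244)) (XT.nd (nat_lit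 78) (nat_lit 76) (nat_lit 0) (XT.lf (nat_lit 0) (nat_lit 99391890117) (nat_lit 76) (nat_lit 19760796263) (nat_lit 76) (nat_lit 6018525654) (nat_lit 9) (nat_lit 4) (nat_lit 10) (nat_lit 5) (nat_lit 10) (nat_lit 4) (nat_lit 442) (nat_lit 335) (nat_lit 243)) (XT.lf (nat_lit 0) (nat_lit 5144754242) (nat_lit 152) (nat_lit 3202960263) (nat_lit 76) (nat_lit 122490319053) (nat_lit 8) (nat_lit 5) (nat_lit 10) (nat_lit 5) (nat_lit 9) (nat_lit 4) (nat_lit 443) (nat_lit 335) (nat_lit 242)))) (XT.nd (nat_lit 156) (nat_lit 0) (nat_lit 0) (XT.nd (nat_lit 78) (nat_lit 0) (nat_lit 0) (XT.lf (nat_lit 0) (nat_lit 17044021204) (nat_lit 152) (nat_lit 115777919848) (nat_lit 0) (nat_lit 3942318133) (nat_lit 7) (nat_lit 5) (nat_lit 9) (nat_lit 4) (nat_lit 7) (nat_lit 4) (nat_lit 444) (nat_lit 335) (nat_lit 241)) (XT.lf (nat_lit 0) (nat_lit 29718055602) (nat_lit 152) (nat_lit 96649821595) (nat_lit 0) (nat_lit 16609929162)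 (nat_lit 7) (nat_lit 5) (nat_lit 9) (nat_lit 4) (nat_lit 7) (nat_lit 4) (nat_lit 445) (nat_lit 335) (nat_lit 240))) (XT.nd (nat_lit 78) (nat_lit 0) (nat_lit 0) (XT.lf (nat_lit 0) (nat_lit 43014194945) (nat_lit 152) (nat_lit 76588465222) (nat_lit 0) (nat_lit 29899951012) (nat_lit 7) (nat_lit 5) (nat_lit 9) (nat_lit 4) (nat_lit 7) (nat_lit 4) (nat_lit 446) (nat_lit 335) (nat_lit 239)) (XT.lf (nat_lit 0) (nat_lit 56964096709) (nat_lit 152) (nat_lit 55546085595) (nat_lit 0) (nat_lit 43844026591) (nat_lit 7) (nat_lit 5) (nat_lit 9) (nat_lit 4) (nat_lit 7) (nat_lit 4) (nat_lit 447) (nat_lit 335) (nat_lit 238))))) (XT.nd (nat_lit 234) (nat_lit 0) (nat_lit 0) (XT.nd (nat_lit 78) (nat_lit 76) (nat_lit 0) (XT.lf (nat_lit 0) (nat_lit 71600974944) (nat_lit 152) (nat_lit 33472581810) (nat_lit 0) (nat_lit 58475356079) (nat_lit 7) (nat_lit 5) (nat_lit 9) (nat_lit 4) (nat_lit 7) (nat_lit 4) (nat_lit 448)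 (nat_lit 335) (nat_lit 237)) (XT.nd (nat_lit 78) (nat_lit 76) (nat_lit 0) (XT.lf (nat_lit 0) (nat_lit 86959679361) (nat_lit 152) (nat_lit 10315397906) (nat_lit 0) (nat_lit 73828775975) (nat_lit 7) (nat_lit 5) (nat_lit 9) (nat_lit 4) (nat_lit 7) (nat_lit 4) (nat_lit 449) (nat_lit 335) (nat_lit 236)) (XT.lf (nat_lit 0) (nat_lit 14442864118) (nat_lit 76) (nat_lit 88859407771) (nat_lit 76) (nat_lit 75723471508) (nat_lit 6) (nat_lit 4) (nat_lit 7) (nat_lit 5) (nat_lit 7) (nat_lit 4) (nat_lit 450) (nat_lit 335) (nat_lit 235)))) (XT.nd (nat_lit 156) (nat_lit 0) (nat_lit 0) (XT.nd (nat_lit 78) (nat_lit 0) (nat_lit 0) (XT.lf (nat_lit 0) (nat_lit 40778430786) (nat_lit 76) (nat_lit 79848880618) (nat_lit 76) (nat_lit 66708151138) (nat_lit 6) (nat_lit 4) (nat_lit 7) (nat_lit 5) (nat_lit 7) (nat_lit 4) (nat_lit 451) (nat_lit 335) (nat_lit 234)) (XT.lf (nat_lit 0) (nat_lit 68412932188) (nat_lit 76) (nat_lit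 70396738426) (nat_lit 76) (nat_lit 57251443978) (nat_lit 6) (nat_lit 4) (nat_lit 7) (nat_lit 5) (nat_lit 7) (nat_lit 4) (nat_lit 452) (nat_lit 335) (nat_lit 233))) (XT.nd (nat_lit 78) (nat_lit 0) (nat_lit 0) (XT.lf (nat_lit 0) (nat_lit 97412164755) (nat_lit 76) (nat_lit 60480476096) (nat_lit 76) (nat_lit 47330834060) (nat_lit 6) (nat_lit 4) (nat_lit 7) (nat_lit 5) (nat_lit 7) (nat_lit 4) (nat_lit 453) (nat_lit 335) (nat_lit 232)) (XT.lf (nat_lit 0) (nat_lit 127845174280) (nat_lit 76) (nat_lit 50076483479) (nat_lit 76) (nat_lit 36922700882) (nat_lit 6) (nat_lit 4) (nat_lit 7) (nat_lit 5) (nat_lit 7) (nat_lit 4) (nat_lit 454) (nat_lit 335) (nat_lit 231))))))))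
noncomputable def xc86 : XT := (XT.nd (nat_lit 2106) (nat_lit 0) (nat_lit 0) (XT.nd (nat_lit 1014) (nat_lit 76) (nat_lit 0) (XT.nd (nat_lit 468) (nat_lit 0) (nat_lit 0) (XT.nd (nat_lit 234) (nat_lit 152) (nat_lit 0) (XT.nd (nat_lit 78) (nat_lit 0) (nat_lit 0) (XT.lf (nat_lit 0) (nat_lit 159784420308) (nat_lit 76) (nat_lit 39159989165) (nat_lit 76) (nat_lit 26002263177) (nat_lit 6) (nat_lit 4) (nat_lit 7) (nat_lit 5) (nat_lit 7) (nat_lit 4) (nat_lit 455) (nat_lit 335) (nat_lit 230)) (XT.nd (nat_lit 78) (nat_lit 0) (nat_lit 0) (XT.lf (nat_lit 0) (nat_lit 193305948664) (nat_lit 76) (nat_lit 27705001499) (nat_lit 76) (nat_lit 14543519901) (nat_lit 6) (nat_lit 4) (nat_lit 7) (nat_lit 5) (nat_lit 7) (nat_lit 4) (nat_lit 456) (nat_lit 335) (nat_lit 229)) (XT.lf (nat_lit 0) (nat_lit 228489572511) (nat_lit 76) (nat_lit 15684246702) (nat_lit 76) (nat_lit 2519188332) (nat_lit 6) (nat_lit 4) (nat_lit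 7) (nat_lit 5) (nat_lit 7) (nat_lit 4) (nat_lit 457) (nat_lit 335) (nat_lit 228)))) (XT.nd (nat_lit 78) (nat_lit 0) (nat_lit 0) (XT.lf (nat_lit 0) (nat_lit 7099816087) (nat_lit 76) (nat_lit 2787150208) (nat_lit 152) (nat_lit 248488412756) (nat_lit 4) (nat_lit 5) (nat_lit 5) (nat_lit 5) (nat_lit 6) (nat_lit 4) (nat_lit 458) (nat_lit 335) (nat_lit 227)) (XT.nd (nat_lit 78) (nat_lit 0) (nat_lit 0) (XT.lf (nat_lit 0) (nat_lit 23303253538) (nat_lit 152) (nat_lit 236554057886) (nat_lit 0) (nat_lit 10758768721) (nat_lit 4) (nat_lit 5) (nat_lit 6) (nat_lit 4) (nat_lit 4) (nat_lit 4) (nat_lit 459) (nat_lit 335) (nat_lit 226)) (XT.lf (nat_lit 0) (nat_lit 37429603964) (nat_lit 152) (nat_lit 221155073575) (nat_lit 0) (nat_lit 24882176529) (nat_lit 4) (nat_lit 5) (nat_lit 6) (nat_lit 4) (nat_lit 4) (nat_lit 4) (nat_lit 460) (nat_lit 335) (nat_lit 225))))) (XT.nd (nat_lit 234) (nat_lit 0) (nat_lit 0) (XT.nd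 (nat_lit 78) (nat_lit 0) (nat_lit 0) (XT.lf (nat_lit 0) (nat_lit 52256136518) (nat_lit 152) (nat_lit 204998430556) (nat_lit 0) (nat_lit 39705906588) (nat_lit 4) (nat_lit 5) (nat_lit 6) (nat_lit 4) (nat_lit 4) (nat_lit 4) (nat_lit 461) (nat_lit 335) (nat_lit 224)) (XT.nd (nat_lit 78) (nat_lit 0) (nat_lit 0) (XT.lf (nat_lit 0) (nat_lit 67818152466) (nat_lit 152) (nat_lit 188045660633) (nat_lit 0) (nat_lit 55265253494) (nat_lit 4) (nat_lit 5) (nat_lit 6) (nat_lit 4) (nat_lit 4) (nat_lit 4) (nat_lit 462) (nat_lit 335) (nat_lit 223)) (XT.lf (nat_lit 0) (nat_lit 84152704228) (nat_lit 152) (nat_lit 170256400067) (nat_lit 0) (nat_lit 71597263311) (nat_lit 4) (nat_lit 5) (nat_lit 6) (nat_lit 4) (nat_lit 4) (nat_lit 4) (nat_lit 463) (nat_lit 335) (nat_lit 222)))) (XT.nd (nat_lit 156) (nat_lit 0) (nat_lit 0) (XT.nd (nat_lit 78) (nat_lit 0) (nat_lit 0) (XT.lf (nat_lit 0) (nat_lit 101298683594) (nat_lit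 152) (nat_lit 151588293476) (nat_lit 0) (nat_lit 88740821776) (nat_lit 4) (nat_lit 5) (nat_lit 6) (nat_lit 4) (nat_lit 4) (nat_lit 4) (nat_lit 464) (nat_lit 335) (nat_lit 221)) (XT.lf (nat_lit 0) (nat_lit 119296914323) (nat_lit 152) (nat_lit 131996892988) (nat_lit 0) (nat_lit 106736746887) (nat_lit 4) (nat_lit 5) (nat_lit 6) (nat_lit 4) (nat_lit 4) (nat_lit 4) (nat_lit 465) (nat_lit 335) (nat_lit 220))) (XT.nd (nat_lit 78) (nat_lit 0) (nat_lit 0) (XT.lf (nat_lit 0) (nat_lit 138190249347) (nat_lit 152) (nat_lit 111435552410) (nat_lit 0) (nat_lit 125627886083) (nat_lit 4) (nat_lit 5) (nat_lit 6) (nat_lit 4) (nat_lit 4) (nat_lit 4) (nat_lit 466) (nat_lit 335) (nat_lit 219)) (XT.lf (nat_lit 0) (nat_lit 158023672796) (nat_lit 152) (nat_lit 89855316170) (nat_lit 0) (nat_lit 145459218268) (nat_lit 4) (nat_lit 5) (nat_lit 6) (nat_lit 4) (nat_lit 4) (nat_lit 4) (nat_lit 467) (nat_lit 335) (nat_lit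 218)))))) (XT.nd (nat_lit 546) (nat_lit 0) (nat_lit 0) (XT.nd (nat_lit 234) (nat_lit 76) (nat_lit 0) (XT.nd (nat_lit 78) (nat_lit 0) (nat_lit 0) (XT.lf (nat_lit 0) (nat_lit 178844407108) (nat_lit 152) (nat_lit 67204802753) (nat_lit 0) (nat_lit 166277960899) (nat_lit 4) (nat_lit 5) (nat_lit 6) (nat_lit 4) (nat_lit 4) (nat_lit 4) (nat_lit 468) (nat_lit 335) (nat_lit 217)) (XT.nd (nat_lit 78) (nat_lit 0) (nat_lit 0) (XT.lf (nat_lit 0) (nat_lit 200702025458) (nat_lit 152) (nat_lit 43430082365) (nat_lit 0) (nat_lit 188133682411) (nat_lit 4) (nat_lit 5) (nat_lit 6) (nat_lit 4) (nat_lit 4) (nat_lit 4) (nat_lit 469) (nat_lit 335) (nat_lit 216)) (XT.lf (nat_lit 0) (nat_lit 223648569796) (nat_lit 152) (nat_lit 18474548529) (nat_lit 0) (nat_lit 211078420235) (nat_lit 4) (nat_lit 5) (nat_lit 6) (nat_lit 4) (nat_lit 4) (nat_lit 4) (nat_lit 470) (nat_lit 335) (nat_lit 215)))) (XT.nd (nat_lit 156) (nat_lit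 0) (nat_lit 0) (XT.nd (nat_lit 78) (nat_lit 0) (nat_lit 0) (XT.lf (nat_lit 0) (nat_lit 7976514985) (nat_lit 76) (nat_lit 239886695518) (nat_lit 76) (nat_lit 227314825469) (nat_lit 3) (nat_lit 4) (nat_lit 4) (nat_lit 5) (nat_lit 4) (nat_lit 4) (nat_lit 471) (nat_lit 335) (nat_lit 214)) (XT.lf (nat_lit 0) (nat_lit 36384102677) (nat_lit 76) (nat_lit 237213652847) (nat_lit 76) (nat_lit 224640144237) (nat_lit 3) (nat_lit 4) (nat_lit 4) (nat_lit 5) (nat_lit 4) (nat_lit 4) (nat_lit 472) (nat_lit 335) (nat_lit 213))) (XT.nd (nat_lit 78) (nat_lit 0) (nat_lit 0) (XT.lf (nat_lit 0) (nat_lit 66204999651) (nat_lit 76) (nat_lit 234410501343) (nat_lit 76) (nat_lit 221835432200) (nat_lit 3) (nat_lit 4) (nat_lit 4) (nat_lit 5) (nat_lit 4) (nat_lit 4) (nat_lit 473) (nat_lit 335) (nat_lit 212)) (XT.lf (nat_lit 0) (nat_lit 97510208042) (nat_lit 76) (nat_lit 231470566836) (nat_lit 76) (nat_lit 218894011470) (nat_lit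 3) (nat_lit 4) (nat_lit 4) (nat_lit 5) (nat_lit 4) (nat_lit 4) (nat_lit 474) (nat_lit 335) (nat_lit 211))))) (XT.nd (nat_lit 234) (nat_lit 0) (nat_lit 0) (XT.nd (nat_lit 78) (nat_lit 0) (nat_lit 0) (XT.lf (nat_lit 0) (nat_lit 130374264062) (nat_lit 76) (nat_lit 228386849483) (nat_lit 76) (nat_lit 215808878667) (nat_lit 3) (nat_lit 4) (nat_lit 4) (nat_lit 5) (nat_lit 4) (nat_lit 4) (nat_lit 475) (nat_lit 335) (nat_lit 210)) (XT.nd (nat_lit 78) (nat_lit 0) (nat_lit 0) (XT.lf (nat_lit 0) (nat_lit 164875415463) (nat_lit 76) (nat_lit 225152007098) (nat_lit 76) (nat_lit 212572688235) (nat_lit 3) (nat_lit 4) (nat_lit 4) (nat_lit 5) (nat_lit 4) (nat_lit 4) (nat_lit 476) (nat_lit 335) (nat_lit 209)) (XT.lf (nat_lit 0) (nat_lit 201095807842) (nat_lit 76) (nat_lit 221758337677) (nat_lit 76) (nat_lit 209177734959) (nat_lit 3) (nat_lit 4) (nat_lit 4) (nat_lit 5) (nat_lit 4) (nat_lit 4) (nat_lit 477) (nat_lit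 335) (nat_lit 208)))) (XT.nd (nat_lit 156) (nat_lit 0) (nat_lit 0) (XT.nd (nat_lit 78) (nat_lit 0) (nat_lit 0) (XT.lf (nat_lit 0) (nat_lit 239121680231) (nat_lit 76) (nat_lit 218197761054) (nat_lit 76) (nat_lit 205615935617) (nat_lit 3) (nat_lit 4) (nat_lit 4) (nat_lit 5) (nat_lit 4) (nat_lit 4) (nat_lit 478) (nat_lit 335) (nat_lit 207)) (XT.lf (nat_lit 0) (nat_lit 279043570419) (nat_lit 76) (nat_lit 214461799666) (nat_lit 76) (nat_lit 201878809735) (nat_lit 3) (nat_lit 4) (nat_lit 4) (nat_lit 5) (nat_lit 4) (nat_lit 4) (nat_lit 479) (nat_lit 335) (nat_lit 206))) (XT.nd (nat_lit 78) (nat_lit 0) (nat_lit 0) (XT.lf (nat_lit 0) (nat_lit 320956530527) (nat_lit 76) (nat_lit 210541558366) (nat_lit 76) (nat_lit 197957459393) (nat_lit 3) (nat_lit 4) (nat_lit 4) (nat_lit 5) (nat_lit 4) (nat_lit 4) (nat_lit 480) (nat_lit 335) (nat_lit 205)) (XT.lf (nat_lit 0) (nat_lit 364960353317) (nat_lit 76) (nat_lit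 206427703247) (nat_lit 76) (nat_lit 193842548043) (nat_lit 3) (nat_lit 4) (nat_lit 4) (nat_lit 5) (nat_lit 4) (nat_lit 4) (nat_lit 481) (nat_lit 335) (nat_lit 204))))))) (XT.nd (nat_lit 43524) (nat_lit 0) (nat_lit 5244) (XT.nd (nat_lit 42978) (nat_lit 0) (nat_lit 8208) (XT.nd (nat_lit 42744) (nat_lit 0) (nat_lit 11400) (XT.nd (nat_lit 78) (nat_lit 0) (nat_lit 0) (XT.lf (nat_lit 0) (nat_lit 411159809796) (nat_lit 76) (nat_lit 202110439416) (nat_lit 76) (nat_lit 189524278278) (nat_lit 3) (nat_lit 4) (nat_lit 4) (nat_lit 5) (nat_lit 4) (nat_lit 4) (nat_lit 482) (nat_lit 335) (nat_lit 203)) (XT.nd (nat_lit 42588) (nat_lit 0) (nat_lit 12312) (XT.lf (nat_lit 0) (nat_lit 459664898668) (nat_lit 76) (nat_lit 197579487673) (nat_lit 76) (nat_lit 184992368502) (nat_lit 3) (nat_lit 4) (nat_lit 4) (nat_lit 5) (nat_lit 4) (nat_lit 4) (nat_lit 483) (nat_lit 335) (nat_lit 202)) (XT.lf (nat_lit 0) (nat_lit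 787483816) (nat_lit 380) (nat_lit 1739201725) (nat_lit 0) (nat_lit 787483816) (nat_lit 165) (nat_lit 5) (nat_lit 170) (nat_lit 4) (nat_lit 165) (nat_lit 4) (nat_lit 348) (nat_lit 336) (nat_lit 336)))) (XT.nd (nat_lit 78) (nat_lit 532) (nat_lit 0) (XT.lf (nat_lit 0) (nat_lit 691511936) (nat_lit 380) (nat_lit 4114592181) (nat_lit 380) (nat_lit 1873401939) (nat_lit 160) (nat_lit 4) (nat_lit 165) (nat_lit 5) (nat_lit 165) (nat_lit 4) (nat_lit 349) (nat_lit 336) (nat_lit 335)) (XT.nd (nat_lit 78) (nat_lit 456) (nat_lit 0) (XT.lf (nat_lit 0) (nat_lit 1300280908) (nat_lit 456) (nat_lit 1710081276) (nat_lit 76) (nat_lit 3727793356) (nat_lit 159) (nat_lit 5) (nat_lit 165) (nat_lit 5) (nat_lit 160) (nat_lit 4) (nat_lit 350) (nat_lit 336) (nat_lit 334)) (XT.lf (nat_lit 0) (nat_lit 2697708710) (nat_lit 456) (nat_lit 1744335907) (nat_lit 532) (nat_lit 2362681432) (nat_lit 153) (nat_lit 5) (nat_lit 159)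 (nat_lit 5) (nat_lit 160) (nat_lit 4) (nat_lit 351) (nat_lit 336) (nat_lit 333))))) (XT.nd (nat_lit 234) (nat_lit 1976) (nat_lit 0) (XT.nd (nat_lit 78) (nat_lit 608) (nat_lit 0) (XT.lf (nat_lit 0) (nat_lit 366784321) (nat_lit 532) (nat_lit 340282230) (nat_lit 608) (nat_lit 6173584921) (nat_lit 145) (nat_lit 5) (nat_lit 152) (nat_lit 5) (nat_lit 153) (nat_lit 5) (nat_lit 352) (nat_lit 336) (nat_lit 332)) (XT.nd (nat_lit 78) (nat_lit 608) (nat_lit 0) (XT.lf (nat_lit 0) (nat_lit 3778711356) (nat_lit 608) (nat_lit 1956822587) (nat_lit 76) (nat_lit 1226634620) (nat_lit 145) (nat_lit 5) (nat_lit 153) (nat_lit 5) (nat_lit 146) (nat_lit 4) (nat_lit 353) (nat_lit 336) (nat_lit 331)) (XT.lf (nat_lit 0) (nat_lit 2769014579) (nat_lit 608) (nat_lit 4130793280) (nat_lit 684) (nat_lit 153276908) (nat_lit 137) (nat_lit 5) (nat_lit 145) (nat_lit 5) (nat_lit 146) (nat_lit 4) (nat_lit 354) (nat_lit 336) (nat_lit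 330)))) (XT.nd (nat_lit 156) (nat_lit 1216) (nat_lit 0) (XT.nd (nat_lit 78) (nat_lit 0) (nat_lit 0) (XT.lf (nat_lit 0) (nat_lit 474664410) (nat_lit 684) (nat_lit 2347541486) (nat_lit 760) (nat_lit 4329546585) (nat_lit 127) (nat_lit 5) (nat_lit 136) (nat_lit 5) (nat_lit 137) (nat_lit 5) (nat_lit 355) (nat_lit 336) (nat_lit 329)) (XT.lf (nat_lit 0) (nat_lit 5474917340) (nat_lit 684) (nat_lit 393469303) (nat_lit 760) (nat_lit 1390588394) (nat_lit 127) (nat_lit 5) (nat_lit 136) (nat_lit 5) (nat_lit 137) (nat_lit 5) (nat_lit 356) (nat_lit 336) (nat_lit 328))) (XT.nd (nat_lit 78) (nat_lit 380) (nat_lit 0) (XT.lf (nat_lit 0) (nat_lit 1578751828) (nat_lit 836) (nat_lit 4109970250) (nat_lit 76) (nat_lit 1684719929) (nat_lit 116) (nat_lit 5) (nat_lit 127) (nat_lit 5) (nat_lit 117) (nat_lit 5) (nat_lit 357) (nat_lit 336) (nat_lit 327)) (XT.lf (nat_lit 0) (nat_lit 990015197) (nat_lit 380) (nat_lit 3576071793)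 (nat_lit 456) (nat_lit 2930679577) (nat_lit 111) (nat_lit 5) (nat_lit 116) (nat_lit 5) (nat_lit 117) (nat_lit 5) (nat_lit 358) (nat_lit 336) (nat_lit 326)))))) (XT.nd (nat_lit 546) (nat_lit 1140) (nat_lit 0) (XT.nd (nat_lit 234) (nat_lit 988) (nat_lit 0) (XT.nd (nat_lit 78) (nat_lit 760) (nat_lit 0) (XT.lf (nat_lit 0) (nat_lit 10489993) (nat_lit 456) (nat_lit 1284728188) (nat_lit 76) (nat_lit 6334238041) (nat_lit 110) (nat_lit 5) (nat_lit 116) (nat_lit 5) (nat_lit 111) (nat_lit 5) (nat_lit 359) (nat_lit 336) (nat_lit 325)) (XT.nd (nat_lit 78) (nat_lit 380) (nat_lit 0) (XT.lf (nat_lit 0) (nat_lit 2955790143) (nat_lit 456) (nat_lit 3645787123) (nat_lit 76) (nat_lit 1167098039) (nat_lit 105) (nat_lit 5) (nat_lit 111) (nat_lit 5) (nat_lit 106) (nat_lit 5) (nat_lit 360) (nat_lit 336) (nat_lit 324)) (XT.lf (nat_lit 0) (nat_lit 1824445048) (nat_lit 380) (nat_lit 4171520237) (nat_lit 456) (nat_lit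 1921581220) (nat_lit 100) (nat_lit 5) (nat_lit 105) (nat_lit 5) (nat_lit 106) (nat_lit 5) (nat_lit 361) (nat_lit 336) (nat_lit 323)))) (XT.nd (nat_lit 156) (nat_lit 608) (nat_lit 0) (XT.nd (nat_lit 78) (nat_lit 304) (nat_lit 0) (XT.lf (nat_lit 0) (nat_lit 1018817450) (nat_lit 456) (nat_lit 540294291) (nat_lit 76) (nat_lit 6516934984) (nat_lit 99) (nat_lit 5) (nat_lit 105) (nat_lit 5) (nat_lit 100) (nat_lit 5) (nat_lit 362) (nat_lit 336) (nat_lit 322)) (XT.lf (nat_lit 0) (nat_lit 4027516920) (nat_lit 380) (nat_lit 2973667705) (nat_lit 76) (nat_lit 1240481238) (nat_lit 95) (nat_lit 5) (nat_lit 100) (nat_lit 5) (nat_lit 96) (nat_lit 5) (nat_lit 363) (nat_lit 336) (nat_lit 321))) (XT.nd (nat_lit 78) (nat_lit 304) (nat_lit 0) (XT.lf (nat_lit 0) (nat_lit 2895267013) (nat_lit 304) (nat_lit 4257780754) (nat_lit 380) (nat_lit 1264257332) (nat_lit 91) (nat_lit 5) (nat_lit 95) (nat_lit 5) (nat_lit 96)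 (nat_lit 5) (nat_lit 364) (nat_lit 336) (nat_lit 320)) (XT.lf (nat_lit 0) (nat_lit 401565406) (nat_lit 228) (nat_lit 1318047297) (nat_lit 304) (nat_lit 6883478284) (nat_lit 87) (nat_lit 5) (nat_lit 90) (nat_lit 5) (nat_lit 91) (nat_lit 5) (nat_lit 365) (nat_lit 336) (nat_lit 319))))) (XT.nd (nat_lit 234) (nat_lit 532) (nat_lit 0) (XT.nd (nat_lit 78) (nat_lit 608) (nat_lit 0) (XT.lf (nat_lit 0) (nat_lit 4823196735) (nat_lit 304) (nat_lit 2176515176) (nat_lit 76) (nat_lit 1796818520) (nat_lit 87) (nat_lit 5) (nat_lit 91) (nat_lit 5) (nat_lit 88) (nat_lit 5) (nat_lit 366) (nat_lit 336) (nat_lit 318)) (XT.nd (nat_lit 78) (nat_lit 304) (nat_lit 0) (XT.lf (nat_lit 0) (nat_lit 4120777472) (nat_lit 304) (nat_lit 3942690919) (nat_lit 380) (nat_lit 937146541) (nat_lit 83) (nat_lit 5) (nat_lit 87) (nat_lit 5) (nat_lit 88) (nat_lit 5) (nat_lit 367) (nat_lit 336) (nat_lit 317)) (XT.lf (nat_lit 0) (nat_lit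 1466151957) (nat_lit 228) (nat_lit 669700084) (nat_lit 304) (nat_lit 7079486341) (nat_lit 79) (nat_lit 5) (nat_lit 82) (nat_lit 5) (nat_lit 83) (nat_lit 5) (nat_lit 368) (nat_lit 336) (nat_lit 316)))) (XT.nd (nat_lit 156) (nat_lit 304) (nat_lit 0) (XT.nd (nat_lit 78) (nat_lit 228) (nat_lit 0) (XT.lf (nat_lit 0) (nat_lit 5357065271) (nat_lit 304) (nat_lit 1340407179) (nat_lit 76) (nat_lit 2741296353) (nat_lit 79) (nat_lit 5) (nat_lit 83) (nat_lit 5) (nat_lit 80) (nat_lit 5) (nat_lit 369) (nat_lit 336) (nat_lit 315)) (XT.lf (nat_lit 0) (nat_lit 5415267544) (nat_lit 228) (nat_lit 3323275992) (nat_lit 304) (nat_lit 934906897) (nat_lit 76) (nat_lit 5) (nat_lit 79) (nat_lit 5) (nat_lit 80) (nat_lit 5) (nat_lit 370) (nat_lit 336) (nat_lit 314))) (XT.nd (nat_lit 78) (nat_lit 0) (nat_lit 0) (XT.lf (nat_lit 0) (nat_lit 2265205938) (nat_lit 304) (nat_lit 7380403717) (nat_lit 76) (nat_lit 273852842)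 (nat_lit 72) (nat_lit 5) (nat_lit 76) (nat_lit 5) (nat_lit 73) (nat_lit 5) (nat_lit 371) (nat_lit 336) (nat_lit 313)) (XT.lf (nat_lit 0) (nat_lit 5628073300) (nat_lit 304) (nat_lit 559869920) (nat_lit 76) (nat_lit 3987391704) (nat_lit 72) (nat_lit 5) (nat_lit 76) (nat_lit 5) (nat_lit 73) (nat_lit 5) (nat_lit 372) (nat_lit 336) (nat_lit 312))))))))
noncomputable def xc87 : XT := (XT.nd (nat_lit 2106) (nat_lit 1368) (nat_lit 0) (XT.nd (nat_lit 1014) (nat_lit 1216) (nat_lit 0) (XT.nd (nat_lit 468) (nat_lit 760) (nat_lit 0) (XT.nd (nat_lit 234) (nat_lit 380) (nat_lit 0) (XT.nd (nat_lit 78) (nat_lit 456) (nat_lit 0) (XT.lf (nat_lit 0) (nat_lit 6683500486) (nat_lit 228) (nat_lit 2490780631) (nat_lit 304) (nat_lit 1268992832) (nat_lit 69) (nat_lit 5) (nat_lit 72) (nat_lit 5) (nat_lit 73) (nat_lit 5) (nat_lit 373) (nat_lit 336) (nat_lit 311)) (XT.nd (nat_lit 78) (nat_lit 228) (nat_lit 0) (XT.lf (nat_lit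 0) (nat_lit 2102642261) (nat_lit 228) (nat_lit 7216445744) (nat_lit 76) (nat_lit 1403904794) (nat_lit 66) (nat_lit 5) (nat_lit 69) (nat_lit 5) (nat_lit 67) (nat_lit 5) (nat_lit 374) (nat_lit 336) (nat_lit 310)) (XT.lf (nat_lit 0) (nat_lit 57950473) (nat_lit 228) (nat_lit 5561797860) (nat_lit 304) (nat_lit 5394960675) (nat_lit 63) (nat_lit 5) (nat_lit 66) (nat_lit 5) (nat_lit 67) (nat_lit 5) (nat_lit 375) (nat_lit 336) (nat_lit 309)))) (XT.nd (nat_lit 78) (nat_lit 380) (nat_lit 0) (XT.lf (nat_lit 0) (nat_lit 7814347977) (nat_lit 228) (nat_lit 1535730878) (nat_lit 304) (nat_lit 1969090724) (nat_lit 63) (nat_lit 5) (nat_lit 66) (nat_lit 5) (nat_lit 67) (nat_lit 5) (nat_lit 376) (nat_lit 336) (nat_lit 308)) (XT.nd (nat_lit 78) (nat_lit 152) (nat_lit 0) (XT.lf (nat_lit 0) (nat_lit 1603812477) (nat_lit 228) (nat_lit 7377843975) (nat_lit 76) (nat_lit 2654557875) (nat_lit 60) (nat_lit 5) (nat_lit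 63) (nat_lit 5) (nat_lit 61) (nat_lit 5) (nat_lit 377) (nat_lit 336) (nat_lit 307)) (XT.lf (nat_lit 0) (nat_lit 389356470) (nat_lit 152) (nat_lit 4910470203) (nat_lit 228) (nat_lit 6667161951) (nat_lit 58) (nat_lit 5) (nat_lit 60) (nat_lit 5) (nat_lit 61) (nat_lit 5) (nat_lit 378) (nat_lit 336) (nat_lit 306))))) (XT.nd (nat_lit 234) (nat_lit 380) (nat_lit 0) (XT.nd (nat_lit 78) (nat_lit 380) (nat_lit 0) (XT.lf (nat_lit 0) (nat_lit 8673220626) (nat_lit 152) (nat_lit 553283289) (nat_lit 228) (nat_lit 3085526826) (nat_lit 58) (nat_lit 5) (nat_lit 60) (nat_lit 5) (nat_lit 61) (nat_lit 5) (nat_lit 379) (nat_lit 336) (nat_lit 305)) (XT.nd (nat_lit 78) (nat_lit 152) (nat_lit 0) (XT.lf (nat_lit 0) (nat_lit 714012754) (nat_lit 228) (nat_lit 8024440101) (nat_lit 76) (nat_lit 3932343532) (nat_lit 55) (nat_lit 5) (nat_lit 58) (nat_lit 5) (nat_lit 56) (nat_lit 5) (nat_lit 380) (nat_lit 336) (nat_lit 304))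 (XT.lf (nat_lit 0) (nat_lit 249704360) (nat_lit 152) (nat_lit 4350156770) (nat_lit 228) (nat_lit 8445127973) (nat_lit 53) (nat_lit 5) (nat_lit 55) (nat_lit 5) (nat_lit 56) (nat_lit 5) (nat_lit 381) (nat_lit 336) (nat_lit 303)))) (XT.nd (nat_lit 156) (nat_lit 228) (nat_lit 0) (XT.nd (nat_lit 78) (nat_lit 152) (nat_lit 0) (XT.lf (nat_lit 0) (nat_lit 8747473171) (nat_lit 228) (nat_lit 4347438220) (nat_lit 76) (nat_lit 339624782) (nat_lit 53) (nat_lit 5) (nat_lit 56) (nat_lit 5) (nat_lit 54) (nat_lit 4) (nat_lit 382) (nat_lit 336) (nat_lit 302)) (XT.lf (nat_lit 0) (nat_lit 4474469783) (nat_lit 152) (nat_lit 8698049560) (nat_lit 228) (nat_lit 667555988) (nat_lit 51) (nat_lit 5) (nat_lit 53) (nat_lit 5) (nat_lit 54) (nat_lit 4) (nat_lit 383) (nat_lit 336) (nat_lit 301))) (XT.nd (nat_lit 78) (nat_lit 152) (nat_lit 0) (XT.lf (nat_lit 0) (nat_lit 3443307095) (nat_lit 228) (nat_lit 551125119) (nat_lit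 76) (nat_lit 10268496641) (nat_lit 50) (nat_lit 5) (nat_lit 53) (nat_lit 5) (nat_lit 51) (nat_lit 5) (nat_lit 384) (nat_lit 336) (nat_lit 300)) (XT.lf (nat_lit 0) (nat_lit 7824719435) (nat_lit 228) (nat_lit 5857420376) (nat_lit 76) (nat_lit 1019881087) (nat_lit 48) (nat_lit 5) (nat_lit 51) (nat_lit 5) (nat_lit 49) (nat_lit 4) (nat_lit 385) (nat_lit 336) (nat_lit 299)))))) (XT.nd (nat_lit 546) (nat_lit 608) (nat_lit 0) (XT.nd (nat_lit 234) (nat_lit 304) (nat_lit 0) (XT.nd (nat_lit 78) (nat_lit 228) (nat_lit 0) (XT.lf (nat_lit 0) (nat_lit 3497326121) (nat_lit 76) (nat_lit 8990787776) (nat_lit 152) (nat_lit 2671822397) (nat_lit 47) (nat_lit 5) (nat_lit 48) (nat_lit 5) (nat_lit 49) (nat_lit 4) (nat_lit 386) (nat_lit 336) (nat_lit 298)) (XT.nd (nat_lit 78) (nat_lit 152) (nat_lit 0) (XT.lf (nat_lit 0) (nat_lit 1722592968) (nat_lit 152) (nat_lit 2257436921) (nat_lit 76) (nat_lit 11657645229) (nat_lit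 46) (nat_lit 5) (nat_lit 48) (nat_lit 5) (nat_lit 47) (nat_lit 5) (nat_lit 387) (nat_lit 336) (nat_lit 297)) (XT.lf (nat_lit 0) (nat_lit 6326093283) (nat_lit 228) (nat_lit 8445681130) (nat_lit 76) (nat_lit 1361391077) (nat_lit 44) (nat_lit 5) (nat_lit 47) (nat_lit 5) (nat_lit 45) (nat_lit 4) (nat_lit 388) (nat_lit 336) (nat_lit 296)))) (XT.nd (nat_lit 156) (nat_lit 228) (nat_lit 0) (XT.nd (nat_lit 78) (nat_lit 0) (nat_lit 0) (XT.lf (nat_lit 0) (nat_lit 1425215002) (nat_lit 76) (nat_lit 9798304952) (nat_lit 152) (nat_lit 5426734645) (nat_lit 43) (nat_lit 5) (nat_lit 44) (nat_lit 5) (nat_lit 45) (nat_lit 4) (nat_lit 389) (nat_lit 336) (nat_lit 295)) (XT.lf (nat_lit 0) (nat_lit 11973628156) (nat_lit 76) (nat_lit 4473892891) (nat_lit 152) (nat_lit 741603183) (nat_lit 43) (nat_lit 5) (nat_lit 44) (nat_lit 5) (nat_lit 45) (nat_lit 4) (nat_lit 390) (nat_lit 336) (nat_lit 294))) (XT.nd (nat_lit 78)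 (nat_lit 0) (nat_lit 0) (XT.lf (nat_lit 0) (nat_lit 4086458425) (nat_lit 228) (nat_lit 12476972092) (nat_lit 76) (nat_lit 1186136222) (nat_lit 40) (nat_lit 5) (nat_lit 43) (nat_lit 5) (nat_lit 41) (nat_lit 4) (nat_lit 391) (nat_lit 336) (nat_lit 293)) (XT.lf (nat_lit 0) (nat_lit 9235220544) (nat_lit 228) (nat_lit 2060905408) (nat_lit 76) (nat_lit 7036096236) (nat_lit 40) (nat_lit 5) (nat_lit 43) (nat_lit 5) (nat_lit 41) (nat_lit 4) (nat_lit 392) (nat_lit 336) (nat_lit 292))))) (XT.nd (nat_lit 234) (nat_lit 304) (nat_lit 0) (XT.nd (nat_lit 78) (nat_lit 228) (nat_lit 0) (XT.lf (nat_lit 0) (nat_lit 9064659252) (nat_lit 76) (nat_lit 5662193605) (nat_lit 152) (nat_lit 4212895181) (nat_lit 39) (nat_lit 5) (nat_lit 40) (nat_lit 5) (nat_lit 41) (nat_lit 4) (nat_lit 393) (nat_lit 336) (nat_lit 291)) (XT.nd (nat_lit 78) (nat_lit 0) (nat_lit 0) (XT.lf (nat_lit 0) (nat_lit 888213875) (nat_lit 228) (nat_lit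 18418563044) (nat_lit 76) (nat_lit 270062209) (nat_lit 36) (nat_lit 5) (nat_lit 39) (nat_lit 5) (nat_lit 37) (nat_lit 4) (nat_lit 394) (nat_lit 336) (nat_lit 290)) (XT.lf (nat_lit 0) (nat_lit 6310105787) (nat_lit 228) (nat_lit 7417954427) (nat_lit 76) (nat_lit 6503913926) (nat_lit 36) (nat_lit 5) (nat_lit 39) (nat_lit 5) (nat_lit 37) (nat_lit 4) (nat_lit 395) (nat_lit 336) (nat_lit 289)))) (XT.nd (nat_lit 156) (nat_lit 228) (nat_lit 0) (XT.nd (nat_lit 78) (nat_lit 0) (nat_lit 0) (XT.lf (nat_lit 0) (nat_lit 4168922579) (nat_lit 76) (nat_lit 7846405350) (nat_lit 152) (nat_lit 8903933790) (nat_lit 35) (nat_lit 5) (nat_lit 36) (nat_lit 5) (nat_lit 37) (nat_lit 4) (nat_lit 396) (nat_lit 336) (nat_lit 288)) (XT.lf (nat_lit 0) (nat_lit 16497052105) (nat_lit 76) (nat_lit 1582556607) (nat_lit 152) (nat_lit 3557622321) (nat_lit 35) (nat_lit 5) (nat_lit 36) (nat_lit 5) (nat_lit 37) (nat_lit 4) (nat_lit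 397) (nat_lit 336) (nat_lit 287))) (XT.nd (nat_lit 78) (nat_lit 0) (nat_lit 0) (XT.lf (nat_lit 0) (nat_lit 2131397703) (nat_lit 228) (nat_lit 15311450239) (nat_lit 76) (nat_lit 4939592534) (nat_lit 32) (nat_lit 5) (nat_lit 35) (nat_lit 5) (nat_lit 33) (nat_lit 4) (nat_lit 398) (nat_lit 336) (nat_lit 286)) (XT.lf (nat_lit 0) (nat_lit 8049863027) (nat_lit 228) (nat_lit 3268129707) (nat_lit 76) (nat_lit 11840780137) (nat_lit 32) (nat_lit 5) (nat_lit 35) (nat_lit 5) (nat_lit 33) (nat_lit 4) (nat_lit 399) (nat_lit 336) (nat_lit 285))))))) (XT.nd (nat_lit 1092) (nat_lit 608) (nat_lit 0) (XT.nd (nat_lit 546) (nat_lit 304) (nat_lit 0) (XT.nd (nat_lit 234) (nat_lit 228) (nat_lit 0) (XT.nd (nat_lit 78) (nat_lit 152) (nat_lit 0) (XT.lf (nat_lit 0) (nat_lit 9595862619) (nat_lit 76) (nat_lit 4770713682) (nat_lit 152) (nat_lit 9602235301) (nat_lit 31) (nat_lit 5) (nat_lit 32) (nat_lit 5) (nat_lit 33) (nat_lit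 4) (nat_lit 400) (nat_lit 336) (nat_lit 284)) (XT.nd (nat_lit 78) (nat_lit 152) (nat_lit 0) (XT.lf (nat_lit 0) (nat_lit 21041000960) (nat_lit 152) (nat_lit 1722717676) (nat_lit 0) (nat_lit 2053545517) (nat_lit 31) (nat_lit 5) (nat_lit 33) (nat_lit 4) (nat_lit 31) (nat_lit 4) (nat_lit 401) (nat_lit 336) (nat_lit 283)) (XT.lf (nat_lit 0) (nat_lit 2486688943) (nat_lit 152) (nat_lit 13963402442) (nat_lit 76) (nat_lit 9245195188) (nat_lit 29) (nat_lit 5) (nat_lit 31) (nat_lit 5) (nat_lit 30) (nat_lit 4) (nat_lit 402) (nat_lit 336) (nat_lit 282)))) (XT.nd (nat_lit 156) (nat_lit 152) (nat_lit 0) (XT.nd (nat_lit 78) (nat_lit 76) (nat_lit 0) (XT.lf (nat_lit 0) (nat_lit 8920669346) (nat_lit 152) (nat_lit 843894363) (nat_lit 76) (nat_lit 16850316611) (nat_lit 29) (nat_lit 5) (nat_lit 31) (nat_lit 5) (nat_lit 30) (nat_lit 4) (nat_lit 403) (nat_lit 336) (nat_lit 281)) (XT.lf (nat_lit 0) (nat_lit 13275749668)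 (nat_lit 76) (nat_lit 2565141736) (nat_lit 152) (nat_lit 11731339883) (nat_lit 28) (nat_lit 5) (nat_lit 29) (nat_lit 5) (nat_lit 30) (nat_lit 4) (nat_lit 404) (nat_lit 336) (nat_lit 280))) (XT.nd (nat_lit 78) (nat_lit 152) (nat_lit 0) (XT.lf (nat_lit 0) (nat_lit 23157104601) (nat_lit 152) (nat_lit 605229292) (nat_lit 0) (nat_lit 4812621349) (nat_lit 28) (nat_lit 5) (nat_lit 30) (nat_lit 4) (nat_lit 28) (nat_lit 4) (nat_lit 405) (nat_lit 336) (nat_lit 279)) (XT.lf (nat_lit 0) (nat_lit 1397914827) (nat_lit 152) (nat_lit 15536471869) (nat_lit 76) (nat_lit 12681218558) (nat_lit 26) (nat_lit 5) (nat_lit 28) (nat_lit 5) (nat_lit 27) (nat_lit 4) (nat_lit 406) (nat_lit 336) (nat_lit 278))))) (XT.nd (nat_lit 234) (nat_lit 228) (nat_lit 0) (XT.nd (nat_lit 78) (nat_lit 76) (nat_lit 0) (XT.lf (nat_lit 0) (nat_lit 8342404038) (nat_lit 152) (nat_lit 1355234717) (nat_lit 76) (nat_lit 21007711450) (nat_lit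 26) (nat_lit 5) (nat_lit 28) (nat_lit 5) (nat_lit 27) (nat_lit 4) (nat_lit 407) (nat_lit 336) (nat_lit 277)) (XT.nd (nat_lit 78) (nat_lit 0) (nat_lit 0) (XT.lf (nat_lit 0) (nat_lit 13906639234) (nat_lit 76) (nat_lit 1906117128) (nat_lit 152) (nat_lit 16027897763) (nat_lit 25) (nat_lit 5) (nat_lit 26) (nat_lit 5) (nat_lit 27) (nat_lit 4) (nat_lit 408) (nat_lit 336) (nat_lit 276)) (XT.lf (nat_lit 0) (nat_lit 23739604747) (nat_lit 152) (nat_lit 3224955776) (nat_lit 0) (nat_lit 6064017274) (nat_lit 25) (nat_lit 5) (nat_lit 27) (nat_lit 4) (nat_lit 25) (nat_lit 4) (nat_lit 409) (nat_lit 336) (nat_lit 275)))) (XT.nd (nat_lit 156) (nat_lit 76) (nat_lit 0) (XT.nd (nat_lit 78) (nat_lit 76) (nat_lit 0) (XT.lf (nat_lit 0) (nat_lit 12518806165) (nat_lit 76) (nat_lit 19734196189) (nat_lit 76) (nat_lit 2013388274) (nat_lit 24) (nat_lit 4) (nat_lit 25) (nat_lit 5) (nat_lit 25) (nat_lit 4) (nat_lit 410)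 (nat_lit 336) (nat_lit 274)) (XT.lf (nat_lit 0) (nat_lit 5464995509) (nat_lit 152) (nat_lit 6560634207) (nat_lit 76) (nat_lit 23535121222) (nat_lit 23) (nat_lit 5) (nat_lit 25) (nat_lit 5) (nat_lit 24) (nat_lit 4) (nat_lit 411) (nat_lit 336) (nat_lit 273))) (XT.nd (nat_lit 78) (nat_lit 0) (nat_lit 0) (XT.lf (nat_lit 0) (nat_lit 9592773762) (nat_lit 76) (nat_lit 3771940889) (nat_lit 152) (nat_lit 23547713195) (nat_lit 22) (nat_lit 5) (nat_lit 23) (nat_lit 5) (nat_lit 24) (nat_lit 4) (nat_lit 412) (nat_lit 336) (nat_lit 272)) (XT.lf (nat_lit 0) (nat_lit 21814201796) (nat_lit 152) (nat_lit 11689790910) (nat_lit 0) (nat_lit 4819959518) (nat_lit 22) (nat_lit 5) (nat_lit 24) (nat_lit 4) (nat_lit 22) (nat_lit 4) (nat_lit 413) (nat_lit 336) (nat_lit 271)))))) (XT.nd (nat_lit 546) (nat_lit 304) (nat_lit 0) (XT.nd (nat_lit 234) (nat_lit 152) (nat_lit 0) (XT.nd (nat_lit 78) (nat_lit 76) (nat_lit 0)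 (XT.lf (nat_lit 0) (nat_lit 4747840412) (nat_lit 76) (nat_lit 26041368209) (nat_lit 76) (nat_lit 9011694531) (nat_lit 21) (nat_lit 4) (nat_lit 22) (nat_lit 5) (nat_lit 22) (nat_lit 4) (nat_lit 414) (nat_lit 336) (nat_lit 270)) (XT.nd (nat_lit 78) (nat_lit 76) (nat_lit 0) (XT.lf (nat_lit 0) (nat_lit 22350375834) (nat_lit 76) (nat_lit 18028232015) (nat_lit 76) (nat_lit 964814148) (nat_lit 21) (nat_lit 4) (nat_lit 22) (nat_lit 5) (nat_lit 22) (nat_lit 4) (nat_lit 415) (nat_lit 336) (nat_lit 269)) (XT.lf (nat_lit 0) (nat_lit 7213564669) (nat_lit 152) (nat_lit 2307747617) (nat_lit 76) (nat_lit 33437478994) (nat_lit 20) (nat_lit 5) (nat_lit 22) (nat_lit 5) (nat_lit 21) (nat_lit 4) (nat_lit 416) (nat_lit 336) (nat_lit 268)))) (XT.nd (nat_lit 156) (nat_lit 76) (nat_lit 0) (XT.nd (nat_lit 78) (nat_lit 0) (nat_lit 0) (XT.lf (nat_lit 0) (nat_lit 15638563064) (nat_lit 76) (nat_lit 344229730) (nat_lit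 152) (nat_lit 28660629818) (nat_lit 19) (nat_lit 5) (nat_lit 20) (nat_lit 5) (nat_lit 21) (nat_lit 4) (nat_lit 417) (nat_lit 336) (nat_lit 267)) (XT.lf (nat_lit 0) (nat_lit 25345563717) (nat_lit 152) (nat_lit 12051798103) (nat_lit 0) (nat_lit 9007171655) (nat_lit 19) (nat_lit 5) (nat_lit 21) (nat_lit 4) (nat_lit 19) (nat_lit 4) (nat_lit 418) (nat_lit 336) (nat_lit 266))) (XT.nd (nat_lit 78) (nat_lit 0) (nat_lit 0) (XT.lf (nat_lit 0) (nat_lit 5876042884) (nat_lit 76) (nat_lit 29369518033) (nat_lit 76) (nat_lit 13004686515) (nat_lit 18) (nat_lit 4) (nat_lit 19) (nat_lit 5) (nat_lit 19) (nat_lit 4) (nat_lit 419) (nat_lit 336) (nat_lit 265)) (XT.lf (nat_lit 0) (nat_lit 25064278595) (nat_lit 76) (nat_lit 20752583541) (nat_lit 76) (nat_lit 4362571590) (nat_lit 18) (nat_lit 4) (nat_lit 19) (nat_lit 5) (nat_lit 19) (nat_lit 4) (nat_lit 420) (nat_lit 336) (nat_lit 264))))) (XT.nd (nat_lit 234) (nat_lit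 152) (nat_lit 0) (XT.nd (nat_lit 78) (nat_lit 76) (nat_lit 0) (XT.lf (nat_lit 0) (nat_lit 4533936047) (nat_lit 152) (nat_lit 7119424418) (nat_lit 76) (nat_lit 40549387980) (nat_lit 17) (nat_lit 5) (nat_lit 19) (nat_lit 5) (nat_lit 18) (nat_lit 4) (nat_lit 421) (nat_lit 336) (nat_lit 263)) (XT.nd (nat_lit 78) (nat_lit 0) (nat_lit 0) (XT.lf (nat_lit 0) (nat_lit 12039722398) (nat_lit 76) (nat_lit 1851280094) (nat_lit 152) (nat_lit 40424534904) (nat_lit 16) (nat_lit 5) (nat_lit 17) (nat_lit 5) (nat_lit 18) (nat_lit 4) (nat_lit 422) (nat_lit 336) (nat_lit 262)) (XT.lf (nat_lit 0) (nat_lit 23944697891) (nat_lit 152) (nat_lit 24307975147) (nat_lit 0) (nat_lit 8269855493) (nat_lit 16) (nat_lit 5) (nat_lit 18) (nat_lit 4) (nat_lit 16) (nat_lit 4) (nat_lit 423) (nat_lit 336) (nat_lit 261)))) (XT.nd (nat_lit 156) (nat_lit 76) (nat_lit 0) (XT.nd (nat_lit 78) (nat_lit 76) (nat_lit 0) (XT.lf (nat_lit 0)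 (nat_lit 34507085951) (nat_lit 152) (nat_lit 5519970299) (nat_lit 0) (nat_lit 18812514024) (nat_lit 16) (nat_lit 5) (nat_lit 18) (nat_lit 4) (nat_lit 16) (nat_lit 4) (nat_lit 424) (nat_lit 336) (nat_lit 260)) (XT.lf (nat_lit 0) (nat_lit 14630090834) (nat_lit 76) (nat_lit 31172737429) (nat_lit 76) (nat_lit 15459375475) (nat_lit 15) (nat_lit 4) (nat_lit 16) (nat_lit 5) (nat_lit 16) (nat_lit 4) (nat_lit 425) (nat_lit 336) (nat_lit 259))) (XT.nd (nat_lit 78) (nat_lit 76) (nat_lit 0) (XT.lf (nat_lit 0) (nat_lit 35934433155) (nat_lit 76) (nat_lit 21799629502) (nat_lit 76) (nat_lit 6068372283) (nat_lit 15) (nat_lit 4) (nat_lit 16) (nat_lit 5) (nat_lit 16) (nat_lit 4) (nat_lit 426) (nat_lit 336) (nat_lit 258)) (XT.lf (nat_lit 0) (nat_lit 3648757028) (nat_lit 152) (nat_lit 8268348418) (nat_lit 76) (nat_lit 54550715645) (nat_lit 14) (nat_lit 5) (nat_lit 16) (nat_lit 5) (nat_lit 15) (nat_lit 4) (nat_lit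 427) (nat_lit 336) (nat_lit 257))))))))
noncomputable def xc88 : XT := (XT.nd (nat_lit 2106) (nat_lit 228) (nat_lit 0) (XT.nd (nat_lit 1014) (nat_lit 228) (nat_lit 0) (XT.nd (nat_lit 468) (nat_lit 228) (nat_lit 0) (XT.nd (nat_lit 234) (nat_lit 76) (nat_lit 0) (XT.nd (nat_lit 78) (nat_lit 0) (nat_lit 0) (XT.lf (nat_lit 0) (nat_lit 12572827747) (nat_lit 76) (nat_lit 1250274499) (nat_lit 152) (nat_lit 55429636532) (nat_lit 13) (nat_lit 5) (nat_lit 14) (nat_lit 5) (nat_lit 15) (nat_lit 4) (nat_lit 428) (nat_lit 336) (nat_lit 256)) (XT.nd (nat_lit 78) (nat_lit 0) (nat_lit 0) (XT.lf (nat_lit 0) (nat_lit 24782884728) (nat_lit 152) (nat_lit 37625860319) (nat_lit 0) (nat_lit 9754322383) (nat_lit 13) (nat_lit 5) (nat_lit 15) (nat_lit 4) (nat_lit 13) (nat_lit 4) (nat_lit 429) (nat_lit 336) (nat_lit 255)) (XT.lf (nat_lit 0) (nat_lit 36291200425) (nat_lit 152) (nat_lit 17679069238) (nat_lit 0) (nat_lit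 21248616673) (nat_lit 13) (nat_lit 5) (nat_lit 15) (nat_lit 4) (nat_lit 13) (nat_lit 4) (nat_lit 430) (nat_lit 336) (nat_lit 254)))) (XT.nd (nat_lit 78) (nat_lit 0) (nat_lit 0) (XT.lf (nat_lit 0) (nat_lit 3334189752) (nat_lit 76) (nat_lit 45073796096) (nat_lit 76) (nat_lit 30017858623) (nat_lit 12) (nat_lit 4) (nat_lit 13) (nat_lit 5) (nat_lit 13) (nat_lit 4) (nat_lit 431) (nat_lit 336) (nat_lit 253)) (XT.nd (nat_lit 78) (nat_lit 0) (nat_lit 0) (XT.lf (nat_lit 0) (nat_lit 25974908754) (nat_lit 76) (nat_lit 35436430773) (nat_lit 76) (nat_lit 20367775469) (nat_lit 12) (nat_lit 4) (nat_lit 13) (nat_lit 5) (nat_lit 13) (nat_lit 4) (nat_lit 432) (nat_lit 336) (nat_lit 252)) (XT.lf (nat_lit 0) (nat_lit 49712444369) (nat_lit 76) (nat_lit 25334631177) (nat_lit 76) (nat_lit 10253863654) (nat_lit 12) (nat_lit 4) (nat_lit 13) (nat_lit 5) (nat_lit 13) (nat_lit 4) (nat_lit 433) (nat_lit 336) (nat_lit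 251))))) (XT.nd (nat_lit 234) (nat_lit 76) (nat_lit 0) (XT.nd (nat_lit 78) (nat_lit 76) (nat_lit 0) (XT.lf (nat_lit 0) (nat_lit 336820748) (nat_lit 152) (nat_lit 14401820434) (nat_lit 76) (nat_lit 74260789568) (nat_lit 11) (nat_lit 5) (nat_lit 13) (nat_lit 5) (nat_lit 12) (nat_lit 4) (nat_lit 434) (nat_lit 336) (nat_lit 250)) (XT.nd (nat_lit 78) (nat_lit 0) (nat_lit 0) (XT.lf (nat_lit 0) (nat_lit 7896335708) (nat_lit 76) (nat_lit 3322993471) (nat_lit 152) (nat_lit 81649769319) (nat_lit 10) (nat_lit 5) (nat_lit 11) (nat_lit 5) (nat_lit 12) (nat_lit 4) (nat_lit 435) (nat_lit 336) (nat_lit 249)) (XT.lf (nat_lit 0) (nat_lit 23012761004) (nat_lit 152) (nat_lit 65282438074) (nat_lit 0) (nat_lit 8618711385) (nat_lit 10) (nat_lit 5) (nat_lit 12) (nat_lit 4) (nat_lit 10) (nat_lit 4) (nat_lit 436) (nat_lit 336) (nat_lit 248)))) (XT.nd (nat_lit 156) (nat_lit 76) (nat_lit 0) (XT.nd (nat_lit 78) (nat_lit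 0) (nat_lit 0) (XT.lf (nat_lit 0) (nat_lit 35434756162) (nat_lit 152) (nat_lit 44693046671) (nat_lit 0) (nat_lit 21031216302) (nat_lit 10) (nat_lit 5) (nat_lit 12) (nat_lit 4) (nat_lit 10) (nat_lit 4) (nat_lit 437) (nat_lit 336) (nat_lit 247)) (XT.lf (nat_lit 0) (nat_lit 48463009590) (nat_lit 152) (nat_lit 23103684982) (nat_lit 0) (nat_lit 34050431406) (nat_lit 10) (nat_lit 5) (nat_lit 12) (nat_lit 4) (nat_lit 10) (nat_lit 4) (nat_lit 438) (nat_lit 336) (nat_lit 246))) (XT.nd (nat_lit 78) (nat_lit 76) (nat_lit 0) (XT.lf (nat_lit 0) (nat_lit 62128540940) (nat_lit 152) (nat_lit 462949764) (nat_lit 0) (nat_lit 47707354827) (nat_lit 10) (nat_lit 5) (nat_lit 12) (nat_lit 4) (nat_lit 10) (nat_lit 4) (nat_lit 439) (nat_lit 336) (nat_lit 245)) (XT.lf (nat_lit 0) (nat_lit 24052908789) (nat_lit 76) (nat_lit 52786511716) (nat_lit 76) (nat_lit 38357127576) (nat_lit 9) (nat_lit 4) (nat_lit 10) (nat_lit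 5) (nat_lit 10) (nat_lit 4) (nat_lit 440) (nat_lit 336) (nat_lit 244)))))) (XT.nd (nat_lit 546) (nat_lit 76) (nat_lit 0) (XT.nd (nat_lit 234) (nat_lit 152) (nat_lit 0) (XT.nd (nat_lit 78) (nat_lit 0) (nat_lit 0) (XT.lf (nat_lit 0) (nat_lit 49784307681) (nat_lit 76) (nat_lit 42496145000) (nat_lit 76) (nat_lit 28058953216) (nat_lit 9) (nat_lit 4) (nat_lit 10) (nat_lit 5) (nat_lit 10) (nat_lit 4) (nat_lit 441) (nat_lit 336) (nat_lit 243)) (XT.nd (nat_lit 78) (nat_lit 0) (nat_lit 0) (XT.lf (nat_lit 0) (nat_lit 76777204938) (nat_lit 76) (nat_lit 31703729964) (nat_lit 76) (nat_lit 17259102328) (nat_lit 9) (nat_lit 4) (nat_lit 10) (nat_lit 5) (nat_lit 10) (nat_lit 4) (nat_lit 442) (nat_lit 336) (nat_lit 242)) (XT.lf (nat_lit 0) (nat_lit 105095869362) (nat_lit 76) (nat_lit 20383570379) (nat_lit 76) (nat_lit 5931860980) (nat_lit 9) (nat_lit 4) (nat_lit 10) (nat_lit 5) (nat_lit 10) (nat_lit 4) (nat_lit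 443) (nat_lit 336) (nat_lit 241)))) (XT.nd (nat_lit 156) (nat_lit 0) (nat_lit 0) (XT.nd (nat_lit 78) (nat_lit 76) (nat_lit 0) (XT.lf (nat_lit 0) (nat_lit 5759311598) (nat_lit 152) (nat_lit 2651865160) (nat_lit 76) (nat_lit 128950878018) (nat_lit 8) (nat_lit 5) (nat_lit 10) (nat_lit 5) (nat_lit 9) (nat_lit 4) (nat_lit 444) (nat_lit 336) (nat_lit 240)) (XT.lf (nat_lit 0) (nat_lit 18252893792) (nat_lit 152) (nat_lit 120854910818) (nat_lit 0) (nat_lit 4476820168) (nat_lit 7) (nat_lit 5) (nat_lit 9) (nat_lit 4) (nat_lit 7) (nat_lit 4) (nat_lit 445) (nat_lit 336) (nat_lit 239))) (XT.nd (nat_lit 78) (nat_lit 0) (nat_lit 0) (XT.lf (nat_lit 0) (nat_lit 31543645551) (nat_lit 152) (nat_lit 100804307891) (nat_lit 0) (nat_lit 17761745743) (nat_lit 7) (nat_lit 5) (nat_lit 9) (nat_lit 4) (nat_lit 7) (nat_lit 4) (nat_lit 446) (nat_lit 336) (nat_lit 238)) (XT.lf (nat_lit 0) (nat_lit 45488416282) (nat_lit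 152) (nat_lit 79772169642) (nat_lit 0) (nat_lit 31700967727) (nat_lit 7) (nat_lit 5) (nat_lit 9) (nat_lit 4) (nat_lit 7) (nat_lit 4) (nat_lit 447) (nat_lit 336) (nat_lit 237))))) (XT.nd (nat_lit 234) (nat_lit 76) (nat_lit 0) (XT.nd (nat_lit 78) (nat_lit 0) (nat_lit 0) (XT.lf (nat_lit 0) (nat_lit 60120407820) (nat_lit 152) (nat_lit 57708419550) (nat_lit 0) (nat_lit 46327674744) (nat_lit 7) (nat_lit 5) (nat_lit 9) (nat_lit 4) (nat_lit 7) (nat_lit 4) (nat_lit 448) (nat_lit 336) (nat_lit 236)) (XT.nd (nat_lit 78) (nat_lit 0) (nat_lit 0) (XT.lf (nat_lit 0) (nat_lit 75474458240) (nat_lit 152) (nat_lit 34560524877) (nat_lit 0) (nat_lit 61676692286) (nat_lit 7) (nat_lit 5) (nat_lit 9) (nat_lit 4) (nat_lit 7) (nat_lit 4) (nat_lit 449) (nat_lit 336) (nat_lit 235)) (XT.lf (nat_lit 0) (nat_lit 91587124804) (nat_lit 152) (nat_lit 10273371588) (nat_lit 0) (nat_lit 77784565634) (nat_lit 7) (nat_lit 5) (nat_lit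 9) (nat_lit 4) (nat_lit 7) (nat_lit 4) (nat_lit 450) (nat_lit 336) (nat_lit 234)))) (XT.nd (nat_lit 156) (nat_lit 0) (nat_lit 0) (XT.nd (nat_lit 78) (nat_lit 0) (nat_lit 0) (XT.lf (nat_lit 0) (nat_lit 15713806824) (nat_lit 76) (nat_lit 93028300744) (nat_lit 76) (nat_lit 79221176605) (nat_lit 6) (nat_lit 4) (nat_lit 7) (nat_lit 5) (nat_lit 7) (nat_lit 4) (nat_lit 451) (nat_lit 336) (nat_lit 233)) (XT.lf (nat_lit 0) (nat_lit 43340018516) (nat_lit 76) (nat_lit 83580298538) (nat_lit 76) (nat_lit 69768826811) (nat_lit 6) (nat_lit 4) (nat_lit 7) (nat_lit 5) (nat_lit 7) (nat_lit 4) (nat_lit 452) (nat_lit 336) (nat_lit 232))) (XT.nd (nat_lit 78) (nat_lit 0) (nat_lit 0) (XT.lf (nat_lit 0) (nat_lit 72331356122) (nat_lit 76) (nat_lit 73667979052) (nat_lit 76) (nat_lit 59852366764) (nat_lit 6) (nat_lit 4) (nat_lit 7) (nat_lit 5) (nat_lit 7) (nat_lit 4) (nat_lit 453) (nat_lit 336) (nat_lit 231)) (XT.lf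 (nat_lit 0) (nat_lit 102756846635) (nat_lit 76) (nat_lit 63267741524) (nat_lit 76) (nat_lit 49448185846) (nat_lit 6) (nat_lit 4) (nat_lit 7) (nat_lit 5) (nat_lit 7) (nat_lit 4) (nat_lit 454) (nat_lit 336) (nat_lit 230))))))) (XT.nd (nat_lit 1014) (nat_lit 76) (nat_lit 0) (XT.nd (nat_lit 468) (nat_lit 0) (nat_lit 0) (XT.nd (nat_lit 234) (nat_lit 152) (nat_lit 0) (XT.nd (nat_lit 78) (nat_lit 0) (nat_lit 0) (XT.lf (nat_lit 0) (nat_lit 134688931701) (nat_lit 76) (nat_lit 52354823485) (nat_lit 76) (nat_lit 38531512196) (nat_lit 6) (nat_lit 4) (nat_lit 7) (nat_lit 5) (nat_lit 7) (nat_lit 4) (nat_lit 455) (nat_lit 336) (nat_lit 229)) (XT.nd (nat_lit 78) (nat_lit 0) (nat_lit 0) (XT.lf (nat_lit 0) (nat_lit 168203640092) (nat_lit 76) (nat_lit 40903241796) (nat_lit 76) (nat_lit 27076353735) (nat_lit 6) (nat_lit 4) (nat_lit 7) (nat_lit 5) (nat_lit 7) (nat_lit 4) (nat_lit 456) (nat_lit 336) (nat_lit 228))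 (XT.lf (nat_lit 0) (nat_lit 203380768734) (nat_lit 76) (nat_lit 28885730786) (nat_lit 76) (nat_lit 15055436276) (nat_lit 6) (nat_lit 4) (nat_lit 7) (nat_lit 5) (nat_lit 7) (nat_lit 4) (nat_lit 457) (nat_lit 336) (nat_lit 227)))) (XT.nd (nat_lit 78) (nat_lit 152) (nat_lit 0) (XT.lf (nat_lit 0) (nat_lit 240304072695) (nat_lit 76) (nat_lit 16273677335) (nat_lit 76) (nat_lit 2440138587) (nat_lit 6) (nat_lit 4) (nat_lit 7) (nat_lit 5) (nat_lit 7) (nat_lit 4) (nat_lit 458) (nat_lit 336) (nat_lit 226)) (XT.nd (nat_lit 78) (nat_lit 0) (nat_lit 0) (XT.lf (nat_lit 0) (nat_lit 7845000373) (nat_lit 76) (nat_lit 2731403953) (nat_lit 152) (nat_lit 260707982558) (nat_lit 4) (nat_lit 5) (nat_lit 5) (nat_lit 5) (nat_lit 6) (nat_lit 4) (nat_lit 459) (nat_lit 336) (nat_lit 225)) (XT.lf (nat_lit 0) (nat_lit 24657117008) (nat_lit 152) (nat_lit 248003752700) (nat_lit 0) (nat_lit 11476573087) (nat_lit 4) (nat_lit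 5) (nat_lit 6) (nat_lit 4) (nat_lit 4) (nat_lit 4) (nat_lit 460) (nat_lit 336) (nat_lit 224))))) (XT.nd (nat_lit 234) (nat_lit 0) (nat_lit 0) (XT.nd (nat_lit 78) (nat_lit 0) (nat_lit 0) (XT.lf (nat_lit 0) (nat_lit 39480799204) (nat_lit 152) (nat_lit 231852819558) (nat_lit 0) (nat_lit 26297586241) (nat_lit 4) (nat_lit 5) (nat_lit 6) (nat_lit 4) (nat_lit 4) (nat_lit 4) (nat_lit 461) (nat_lit 336) (nat_lit 223)) (XT.nd (nat_lit 78) (nat_lit 0) (nat_lit 0) (XT.lf (nat_lit 0) (nat_lit 55040100526) (nat_lit 152) (nat_lit 214905487612) (nat_lit 0) (nat_lit 41854345618) (nat_lit 4) (nat_lit 5) (nat_lit 6) (nat_lit 4) (nat_lit 4) (nat_lit 4) (nat_lit 462) (nat_lit 336) (nat_lit 222)) (XT.lf (nat_lit 0) (nat_lit 71372066930) (nat_lit 152) (nat_lit 197121406072) (nat_lit 0) (nat_lit 58183891122) (nat_lit 4) (nat_lit 5) (nat_lit 6) (nat_lit 4) (nat_lit 4) (nat_lit 4) (nat_lit 463) (nat_lit 336) (nat_lit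 221)))) (XT.nd (nat_lit 156) (nat_lit 0) (nat_lit 0) (XT.nd (nat_lit 78) (nat_lit 0) (nat_lit 0) (XT.lf (nat_lit 0) (nat_lit 88515584049) (nat_lit 152) (nat_lit 178458231887) (nat_lit 0) (nat_lit 75325102622) (nat_lit 4) (nat_lit 5) (nat_lit 6) (nat_lit 4) (nat_lit 4) (nat_lit 4) (nat_lit 464) (nat_lit 336) (nat_lit 220)) (XT.lf (nat_lit 0) (nat_lit 106511469783) (nat_lit 152) (nat_lit 158871528928) (nat_lit 0) (nat_lit 93318792528) (nat_lit 4) (nat_lit 5) (nat_lit 6) (nat_lit 4) (nat_lit 4) (nat_lit 4) (nat_lit 465) (nat_lit 336) (nat_lit 219))) (XT.nd (nat_lit 78) (nat_lit 0) (nat_lit 0) (XT.lf (nat_lit 0) (nat_lit 125402571477) (nat_lit 152) (nat_lit 138314662188) (nat_lit 0) (nat_lit 112207802958) (nat_lit 4) (nat_lit 5) (nat_lit 6) (nat_lit 4) (nat_lit 4) (nat_lit 4) (nat_lit 466) (nat_lit 336) (nat_lit 218)) (XT.lf (nat_lit 0) (nat_lit 145233867946) (nat_lit 152) (nat_lit 116738686745)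 (nat_lit 0) (nat_lit 132037107746) (nat_lit 4) (nat_lit 5) (nat_lit 6) (nat_lit 4) (nat_lit 4) (nat_lit 4) (nat_lit 467) (nat_lit 336) (nat_lit 217)))))) (XT.nd (nat_lit 546) (nat_lit 0) (nat_lit 0) (XT.nd (nat_lit 234) (nat_lit 76) (nat_lit 0) (XT.nd (nat_lit 78) (nat_lit 0) (nat_lit 0) (XT.lf (nat_lit 0) (nat_lit 166052576561) (nat_lit 152) (nat_lit 94092231231) (nat_lit 0) (nat_lit 152853919523) (nat_lit 4) (nat_lit 5) (nat_lit 6) (nat_lit 4) (nat_lit 4) (nat_lit 4) (nat_lit 468) (nat_lit 336) (nat_lit 216)) (XT.nd (nat_lit 78) (nat_lit 0) (nat_lit 0) (XT.lf (nat_lit 0) (nat_lit 187908265677) (nat_lit 152) (nat_lit 70321375512) (nat_lit 0) (nat_lit 174707802126) (nat_lit 4) (nat_lit 5) (nat_lit 6) (nat_lit 4) (nat_lit 4) (nat_lit 4) (nat_lit 469) (nat_lit 336) (nat_lit 215)) (XT.lf (nat_lit 0) (nat_lit 210852972649) (nat_lit 152) (nat_lit 45369522313) (nat_lit 0) (nat_lit 197650788609)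 (nat_lit 4) (nat_lit 5) (nat_lit 6) (nat_lit 4) (nat_lit 4) (nat_lit 4) (nat_lit 470) (nat_lit 336) (nat_lit 214)))) (XT.nd (nat_lit 156) (nat_lit 0) (nat_lit 0) (XT.nd (nat_lit 78) (nat_lit 76) (nat_lit 0) (XT.lf (nat_lit 0) (nat_lit 234941327731) (nat_lit 152) (nat_lit 19177262460) (nat_lit 0) (nat_lit 221737505131) (nat_lit 4) (nat_lit 5) (nat_lit 6) (nat_lit 4) (nat_lit 4) (nat_lit 4) (nat_lit 471) (nat_lit 336) (nat_lit 213)) (XT.lf (nat_lit 0) (nat_lit 8592789496) (nat_lit 76) (nat_lit 251772052179) (nat_lit 76) (nat_lit 238566669046) (nat_lit 3) (nat_lit 4) (nat_lit 4) (nat_lit 5) (nat_lit 4) (nat_lit 4) (nat_lit 472) (nat_lit 336) (nat_lit 212))) (XT.nd (nat_lit 78) (nat_lit 0) (nat_lit 0) (XT.lf (nat_lit 0) (nat_lit 38410401870) (nat_lit 76) (nat_lit 248970546808) (nat_lit 76) (nat_lit 235763677452) (nat_lit 3) (nat_lit 4) (nat_lit 4) (nat_lit 5) (nat_lit 4) (nat_lit 4) (nat_lit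 473) (nat_lit 336) (nat_lit 211)) (XT.lf (nat_lit 0) (nat_lit 69712482070) (nat_lit 76) (nat_lit 246032180047) (nat_lit 76) (nat_lit 232823895241) (nat_lit 3) (nat_lit 4) (nat_lit 4) (nat_lit 5) (nat_lit 4) (nat_lit 4) (nat_lit 474) (nat_lit 336) (nat_lit 210))))) (XT.nd (nat_lit 234) (nat_lit 0) (nat_lit 0) (XT.nd (nat_lit 78) (nat_lit 0) (nat_lit 0) (XT.lf (nat_lit 0) (nat_lit 102573558861) (nat_lit 76) (nat_lit 242949955785) (nat_lit 76) (nat_lit 229740322931) (nat_lit 3) (nat_lit 4) (nat_lit 4) (nat_lit 5) (nat_lit 4) (nat_lit 4) (nat_lit 475) (nat_lit 336) (nat_lit 209)) (XT.nd (nat_lit 78) (nat_lit 0) (nat_lit 0) (XT.lf (nat_lit 0) (nat_lit 137071872900) (nat_lit 76) (nat_lit 239716535392) (nat_lit 76) (nat_lit 226505618683) (nat_lit 3) (nat_lit 4) (nat_lit 4) (nat_lit 5) (nat_lit 4) (nat_lit 4) (nat_lit 476) (nat_lit 336) (nat_lit 208)) (XT.lf (nat_lit 0) (nat_lit 173289563031) (nat_lit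 76) (nat_lit 236324220249) (nat_lit 76) (nat_lit 223112080821) (nat_lit 3) (nat_lit 4) (nat_lit 4) (nat_lit 5) (nat_lit 4) (nat_lit 4) (nat_lit 477) (nat_lit 336) (nat_lit 207)))) (XT.nd (nat_lit 156) (nat_lit 0) (nat_lit 0) (XT.nd (nat_lit 78) (nat_lit 0) (nat_lit 0) (XT.lf (nat_lit 0) (nat_lit 211312861849) (nat_lit 76) (nat_lit 232764933414) (nat_lit 76) (nat_lit 219551629492) (nat_lit 3) (nat_lit 4) (nat_lit 4) (nat_lit 5) (nat_lit 4) (nat_lit 4) (nat_lit 478) (nat_lit 336) (nat_lit 206)) (XT.lf (nat_lit 0) (nat_lit 251232301018) (nat_lit 76) (nat_lit 229030200396) (nat_lit 76) (nat_lit 215815787431) (nat_lit 3) (nat_lit 4) (nat_lit 4) (nat_lit 5) (nat_lit 4) (nat_lit 4) (nat_lit 479) (nat_lit 336) (nat_lit 205))) (XT.nd (nat_lit 78) (nat_lit 0) (nat_lit 0) (XT.lf (nat_lit 0) (nat_lit 293142926822) (nat_lit 76) (nat_lit 225111128972) (nat_lit 76) (nat_lit 211895659777) (nat_lit 3) (nat_lit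 4) (nat_lit 4) (nat_lit 5) (nat_lit 4) (nat_lit 4) (nat_lit 480) (nat_lit 336) (nat_lit 204)) (XT.lf (nat_lit 0) (nat_lit 337144526465) (nat_lit 76) (nat_lit 220998388020) (nat_lit 76) (nat_lit 207781912891) (nat_lit 3) (nat_lit 4) (nat_lit 4) (nat_lit 5) (nat_lit 4) (nat_lit 4) (nat_lit 481) (nat_lit 336) (nat_lit 203))))))))
noncomputable def xc89 : XT := (XT.nd (nat_lit 44460) (nat_lit 0) (nat_lit 2432) (XT.nd (nat_lit 43368) (nat_lit 0) (nat_lit 5548) (XT.nd (nat_lit 42822) (nat_lit 0) (nat_lit 9424) (XT.nd (nat_lit 42588) (nat_lit 0) (nat_lit 11856) (XT.nd (nat_lit 78) (nat_lit 0) (nat_lit 0) (XT.lf (nat_lit 0) (nat_lit 383341865660) (nat_lit 76) (nat_lit 216682185301) (nat_lit 76) (nat_lit 203464752139) (nat_lit 3) (nat_lit 4) (nat_lit 4) (nat_lit 5) (nat_lit 4) (nat_lit 4) (nat_lit 482) (nat_lit 336) (nat_lit 202)) (XT.nd (nat_lit 42432) (nat_lit 0) (nat_lit 12692) (XT.lf (nat_lit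 0) (nat_lit 431844938073) (nat_lit 76) (nat_lit 212152244140) (nat_lit 76) (nat_lit 198933898567) (nat_lit 3) (nat_lit 4) (nat_lit 4) (nat_lit 5) (nat_lit 4) (nat_lit 4) (nat_lit 483) (nat_lit 336) (nat_lit 201)) (XT.lf (nat_lit 0) (nat_lit 826967446) (nat_lit 228) (nat_lit 1223034547) (nat_lit 228) (nat_lit 1223034547) (nat_lit 170) (nat_lit 4) (nat_lit 173) (nat_lit 5) (nat_lit 173) (nat_lit 4) (nat_lit 346) (nat_lit 337) (nat_lit 337)))) (XT.nd (nat_lit 78) (nat_lit 760) (nat_lit 0) (XT.lf (nat_lit 0) (nat_lit 730741762) (nat_lit 304) (nat_lit 972891627) (nat_lit 76) (nat_lit 4882141101) (nat_lit 169) (nat_lit 5) (nat_lit 173) (nat_lit 5) (nat_lit 170) (nat_lit 4) (nat_lit 347) (nat_lit 337) (nat_lit 336)) (XT.nd (nat_lit 78) (nat_lit 456) (nat_lit 0) (XT.lf (nat_lit 0) (nat_lit 3071958096) (nat_lit 304) (nat_lit 779807802) (nat_lit 380) (nat_lit 2780475518) (nat_lit 165) (nat_lit 5) (nat_lit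 169) (nat_lit 5) (nat_lit 170) (nat_lit 4) (nat_lit 348) (nat_lit 337) (nat_lit 335)) (XT.lf (nat_lit 0) (nat_lit 286238029) (nat_lit 456) (nat_lit 6142118934) (nat_lit 76) (nat_lit 259836072) (nat_lit 159) (nat_lit 5) (nat_lit 165) (nat_lit 5) (nat_lit 160) (nat_lit 4) (nat_lit 349) (nat_lit 337) (nat_lit 334))))) (XT.nd (nat_lit 234) (nat_lit 1900) (nat_lit 0) (XT.nd (nat_lit 78) (nat_lit 532) (nat_lit 0) (XT.lf (nat_lit 0) (nat_lit 3317148859) (nat_lit 456) (nat_lit 1961577348) (nat_lit 76) (nat_lit 1470863647) (nat_lit 159) (nat_lit 5) (nat_lit 165) (nat_lit 5) (nat_lit 160) (nat_lit 4) (nat_lit 350) (nat_lit 337) (nat_lit 333)) (XT.nd (nat_lit 78) (nat_lit 76) (nat_lit 0) (XT.lf (nat_lit 0) (nat_lit 2370873583) (nat_lit 456) (nat_lit 4004068119) (nat_lit 532) (nat_lit 445483122) (nat_lit 153) (nat_lit 5) (nat_lit 159) (nat_lit 5) (nat_lit 160) (nat_lit 4) (nat_lit 351) (nat_lit 337)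 (nat_lit 332)) (XT.lf (nat_lit 0) (nat_lit 2479758527) (nat_lit 532) (nat_lit 83873234) (nat_lit 76) (nat_lit 4335438835) (nat_lit 152) (nat_lit 5) (nat_lit 159) (nat_lit 5) (nat_lit 153) (nat_lit 5) (nat_lit 352) (nat_lit 337) (nat_lit 331)))) (XT.nd (nat_lit 156) (nat_lit 684) (nat_lit 0) (XT.nd (nat_lit 78) (nat_lit 684) (nat_lit 0) (XT.lf (nat_lit 0) (nat_lit 4507309212) (nat_lit 532) (nat_lit 948205197) (nat_lit 608) (nat_lit 1529924666) (nat_lit 145) (nat_lit 5) (nat_lit 152) (nat_lit 5) (nat_lit 153) (nat_lit 5) (nat_lit 353) (nat_lit 337) (nat_lit 330)) (XT.lf (nat_lit 0) (nat_lit 1355535604) (nat_lit 684) (nat_lit 4925465791) (nat_lit 76) (nat_lit 799069497) (nat_lit 136) (nat_lit 5) (nat_lit 145) (nat_lit 5) (nat_lit 137) (nat_lit 5) (nat_lit 354) (nat_lit 337) (nat_lit 329))) (XT.nd (nat_lit 78) (nat_lit 684) (nat_lit 0) (XT.lf (nat_lit 0) (nat_lit 4248842399) (nat_lit 684) (nat_lit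 251630230) (nat_lit 76) (nat_lit 2682059022) (nat_lit 136) (nat_lit 5) (nat_lit 145) (nat_lit 5) (nat_lit 137) (nat_lit 5) (nat_lit 355) (nat_lit 337) (nat_lit 328)) (XT.lf (nat_lit 0) (nat_lit 4674074641) (nat_lit 684) (nat_lit 2549323232) (nat_lit 760) (nat_lit 69984444) (nat_lit 127) (nat_lit 5) (nat_lit 136) (nat_lit 5) (nat_lit 137) (nat_lit 5) (nat_lit 356) (nat_lit 337) (nat_lit 327)))))) (XT.nd (nat_lit 546) (nat_lit 1444) (nat_lit 0) (XT.nd (nat_lit 234) (nat_lit 1140) (nat_lit 0) (XT.nd (nat_lit 78) (nat_lit 456) (nat_lit 0) (XT.lf (nat_lit 0) (nat_lit 2340396861) (nat_lit 760) (nat_lit 409213846) (nat_lit 836) (nat_lit 4662624031) (nat_lit 116) (nat_lit 5) (nat_lit 126) (nat_lit 5) (nat_lit 127) (nat_lit 5) (nat_lit 357) (nat_lit 337) (nat_lit 326)) (XT.nd (nat_lit 78) (nat_lit 456) (nat_lit 0) (XT.lf (nat_lit 0) (nat_lit 5651752433) (nat_lit 836) (nat_lit 64571180) (nat_lit 76)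 (nat_lit 1823535824) (nat_lit 116) (nat_lit 5) (nat_lit 127) (nat_lit 5) (nat_lit 117) (nat_lit 5) (nat_lit 358) (nat_lit 337) (nat_lit 325)) (XT.lf (nat_lit 0) (nat_lit 956225217) (nat_lit 456) (nat_lit 2469288812) (nat_lit 76) (nat_lit 4249431322) (nat_lit 110) (nat_lit 5) (nat_lit 116) (nat_lit 5) (nat_lit 111) (nat_lit 5) (nat_lit 359) (nat_lit 337) (nat_lit 324)))) (XT.nd (nat_lit 156) (nat_lit 380) (nat_lit 0) (XT.nd (nat_lit 78) (nat_lit 380) (nat_lit 0) (XT.lf (nat_lit 0) (nat_lit 2851595896) (nat_lit 380) (nat_lit 951510211) (nat_lit 456) (nat_lit 4016014247) (nat_lit 105) (nat_lit 5) (nat_lit 110) (nat_lit 5) (nat_lit 111) (nat_lit 5) (nat_lit 360) (nat_lit 337) (nat_lit 323)) (XT.lf (nat_lit 0) (nat_lit 405202912) (nat_lit 380) (nat_lit 6343353693) (nat_lit 456) (nat_lit 1224204475) (nat_lit 100) (nat_lit 5) (nat_lit 105) (nat_lit 5) (nat_lit 106) (nat_lit 5) (nat_lit 361) (nat_lit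 337) (nat_lit 322))) (XT.nd (nat_lit 78) (nat_lit 304) (nat_lit 0) (XT.lf (nat_lit 0) (nat_lit 1636934575) (nat_lit 456) (nat_lit 2093408190) (nat_lit 76) (nat_lit 4403251292) (nat_lit 99) (nat_lit 5) (nat_lit 105) (nat_lit 5) (nat_lit 100) (nat_lit 5) (nat_lit 362) (nat_lit 337) (nat_lit 321)) (XT.lf (nat_lit 0) (nat_lit 3617863318) (nat_lit 304) (nat_lit 927443921) (nat_lit 380) (nat_lit 3758951058) (nat_lit 95) (nat_lit 5) (nat_lit 99) (nat_lit 5) (nat_lit 100) (nat_lit 5) (nat_lit 363) (nat_lit 337) (nat_lit 320))))) (XT.nd (nat_lit 234) (nat_lit 836) (nat_lit 0) (XT.nd (nat_lit 78) (nat_lit 304) (nat_lit 0) (XT.lf (nat_lit 0) (nat_lit 1072695364) (nat_lit 304) (nat_lit 6502400683) (nat_lit 380) (nat_lit 909615978) (nat_lit 91) (nat_lit 5) (nat_lit 95) (nat_lit 5) (nat_lit 96) (nat_lit 5) (nat_lit 364) (nat_lit 337) (nat_lit 319)) (XT.nd (nat_lit 78) (nat_lit 228) (nat_lit 0) (XT.lf (nat_lit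 0) (nat_lit 2004461757) (nat_lit 380) (nat_lit 1573478932) (nat_lit 76) (nat_lit 5095227298) (nat_lit 90) (nat_lit 5) (nat_lit 95) (nat_lit 5) (nat_lit 91) (nat_lit 5) (nat_lit 365) (nat_lit 337) (nat_lit 318)) (XT.lf (nat_lit 0) (nat_lit 4557773793) (nat_lit 228) (nat_lit 445200527) (nat_lit 304) (nat_lit 3868910346) (nat_lit 87) (nat_lit 5) (nat_lit 90) (nat_lit 5) (nat_lit 91) (nat_lit 5) (nat_lit 366) (nat_lit 337) (nat_lit 317)))) (XT.nd (nat_lit 156) (nat_lit 456) (nat_lit 0) (XT.nd (nat_lit 78) (nat_lit 76) (nat_lit 0) (XT.lf (nat_lit 0) (nat_lit 1852851879) (nat_lit 304) (nat_lit 6299516224) (nat_lit 380) (nat_lit 928167491) (nat_lit 83) (nat_lit 5) (nat_lit 87) (nat_lit 5) (nat_lit 88) (nat_lit 5) (nat_lit 367) (nat_lit 337) (nat_lit 316)) (XT.lf (nat_lit 0) (nat_lit 2073656671) (nat_lit 380) (nat_lit 994017426) (nat_lit 76) (nat_lit 6231142729) (nat_lit 82) (nat_lit 5) (nat_lit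 87) (nat_lit 5) (nat_lit 83) (nat_lit 5) (nat_lit 368) (nat_lit 337) (nat_lit 315))) (XT.nd (nat_lit 78) (nat_lit 228) (nat_lit 0) (XT.lf (nat_lit 0) (nat_lit 5194149186) (nat_lit 304) (nat_lit 3946307843) (nat_lit 76) (nat_lit 386845721) (nat_lit 79) (nat_lit 5) (nat_lit 83) (nat_lit 5) (nat_lit 80) (nat_lit 5) (nat_lit 369) (nat_lit 337) (nat_lit 314)) (XT.lf (nat_lit 0) (nat_lit 2657986744) (nat_lit 228) (nat_lit 5829843013) (nat_lit 304) (nat_lit 1278563044) (nat_lit 76) (nat_lit 5) (nat_lit 79) (nat_lit 5) (nat_lit 80) (nat_lit 5) (nat_lit 370) (nat_lit 337) (nat_lit 313))))))) (XT.nd (nat_lit 1014) (nat_lit 1368) (nat_lit 0) (XT.nd (nat_lit 468) (nat_lit 760) (nat_lit 0) (XT.nd (nat_lit 234) (nat_lit 456) (nat_lit 0) (XT.nd (nat_lit 78) (nat_lit 456) (nat_lit 0) (XT.lf (nat_lit 0) (nat_lit 1844098423) (nat_lit 304) (nat_lit 446169215) (nat_lit 76) (nat_lit 7726844841) (nat_lit 75) (nat_lit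 5) (nat_lit 79) (nat_lit 5) (nat_lit 76) (nat_lit 5) (nat_lit 371) (nat_lit 337) (nat_lit 312)) (XT.nd (nat_lit 78) (nat_lit 228) (nat_lit 0) (XT.lf (nat_lit 0) (nat_lit 5120405704) (nat_lit 304) (nat_lit 3686425509) (nat_lit 76) (nat_lit 1470497712) (nat_lit 72) (nat_lit 5) (nat_lit 76) (nat_lit 5) (nat_lit 73) (nat_lit 5) (nat_lit 372) (nat_lit 337) (nat_lit 311)) (XT.lf (nat_lit 0) (nat_lit 3390165324) (nat_lit 228) (nat_lit 5183612545) (nat_lit 304) (nat_lit 1976147116) (nat_lit 69) (nat_lit 5) (nat_lit 72) (nat_lit 5) (nat_lit 73) (nat_lit 5) (nat_lit 373) (nat_lit 337) (nat_lit 310)))) (XT.nd (nat_lit 78) (nat_lit 380) (nat_lit 0) (XT.lf (nat_lit 0) (nat_lit 1299295374) (nat_lit 304) (nat_lit 33369056) (nat_lit 76) (nat_lit 9503486570) (nat_lit 68) (nat_lit 5) (nat_lit 72) (nat_lit 5) (nat_lit 69) (nat_lit 5) (nat_lit 374) (nat_lit 337) (nat_lit 309)) (XT.nd (nat_lit 78) (nat_lit 228)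 (nat_lit 0) (XT.lf (nat_lit 0) (nat_lit 4753762554) (nat_lit 228) (nat_lit 3639744222) (nat_lit 76) (nat_lit 2737505552) (nat_lit 66) (nat_lit 5) (nat_lit 69) (nat_lit 5) (nat_lit 67) (nat_lit 5) (nat_lit 375) (nat_lit 337) (nat_lit 308)) (XT.lf (nat_lit 0) (nat_lit 3934863357) (nat_lit 228) (nat_lit 4451107277) (nat_lit 304) (nat_lit 3054420936) (nat_lit 63) (nat_lit 5) (nat_lit 66) (nat_lit 5) (nat_lit 67) (nat_lit 5) (nat_lit 376) (nat_lit 337) (nat_lit 307))))) (XT.nd (nat_lit 234) (nat_lit 380) (nat_lit 0) (XT.nd (nat_lit 78) (nat_lit 152) (nat_lit 0) (XT.lf (nat_lit 0) (nat_lit 126075891) (nat_lit 152) (nat_lit 280942809) (nat_lit 228) (nat_lit 11358586297) (nat_lit 60) (nat_lit 5) (nat_lit 62) (nat_lit 5) (nat_lit 63) (nat_lit 5) (nat_lit 377) (nat_lit 337) (nat_lit 306)) (XT.nd (nat_lit 78) (nat_lit 152) (nat_lit 0) (XT.lf (nat_lit 0) (nat_lit 4054963204) (nat_lit 228) (nat_lit 3940768471)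 (nat_lit 76) (nat_lit 4103061942) (nat_lit 60) (nat_lit 5) (nat_lit 63) (nat_lit 5) (nat_lit 61) (nat_lit 5) (nat_lit 378) (nat_lit 337) (nat_lit 305)) (XT.lf (nat_lit 0) (nat_lit 4153405420) (nat_lit 152) (nat_lit 3727933233) (nat_lit 228) (nat_lit 4567522493) (nat_lit 58) (nat_lit 5) (nat_lit 60) (nat_lit 5) (nat_lit 61) (nat_lit 5) (nat_lit 379) (nat_lit 337) (nat_lit 304)))) (XT.nd (nat_lit 156) (nat_lit 152) (nat_lit 0) (XT.nd (nat_lit 78) (nat_lit 228) (nat_lit 0) (XT.lf (nat_lit 0) (nat_lit 11906203344) (nat_lit 228) (nat_lit 155716585) (nat_lit 76) (nat_lit 754173755) (nat_lit 58) (nat_lit 5) (nat_lit 61) (nat_lit 5) (nat_lit 59) (nat_lit 4) (nat_lit 380) (nat_lit 337) (nat_lit 303)) (XT.lf (nat_lit 0) (nat_lit 2963517019) (nat_lit 228) (nat_lit 4754904849) (nat_lit 76) (nat_lit 5474661905) (nat_lit 55) (nat_lit 5) (nat_lit 58) (nat_lit 5) (nat_lit 56) (nat_lit 5) (nat_lit 381) (nat_lit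 337) (nat_lit 302))) (XT.nd (nat_lit 78) (nat_lit 0) (nat_lit 0) (XT.lf (nat_lit 0) (nat_lit 3873741073) (nat_lit 152) (nat_lit 3120883961) (nat_lit 228) (nat_lit 6593839504) (nat_lit 53) (nat_lit 5) (nat_lit 55) (nat_lit 5) (nat_lit 56) (nat_lit 5) (nat_lit 382) (nat_lit 337) (nat_lit 301)) (XT.lf (nat_lit 0) (nat_lit 11268046018) (nat_lit 228) (nat_lit 1043155641) (nat_lit 76) (nat_lit 1690391385) (nat_lit 53) (nat_lit 5) (nat_lit 56) (nat_lit 5) (nat_lit 54) (nat_lit 4) (nat_lit 383) (nat_lit 337) (nat_lit 300)))))) (XT.nd (nat_lit 546) (nat_lit 608) (nat_lit 0) (XT.nd (nat_lit 234) (nat_lit 380) (nat_lit 0) (XT.nd (nat_lit 78) (nat_lit 152) (nat_lit 0) (XT.lf (nat_lit 0) (nat_lit 1393477320) (nat_lit 228) (nat_lit 6289117196) (nat_lit 76) (nat_lit 6745970351) (nat_lit 50) (nat_lit 5) (nat_lit 53) (nat_lit 5) (nat_lit 51) (nat_lit 5) (nat_lit 384) (nat_lit 337) (nat_lit 299)) (XT.nd (nat_lit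 78) (nat_lit 0) (nat_lit 0) (XT.lf (nat_lit 0) (nat_lit 2879012714) (nat_lit 152) (nat_lit 2754720477) (nat_lit 228) (nat_lit 9240988530) (nat_lit 48) (nat_lit 5) (nat_lit 50) (nat_lit 5) (nat_lit 51) (nat_lit 5) (nat_lit 385) (nat_lit 337) (nat_lit 298)) (XT.lf (nat_lit 0) (nat_lit 10168546750) (nat_lit 228) (nat_lit 2763604189) (nat_lit 76) (nat_lit 2406921877) (nat_lit 48) (nat_lit 5) (nat_lit 51) (nat_lit 5) (nat_lit 49) (nat_lit 4) (nat_lit 386) (nat_lit 337) (nat_lit 297)))) (XT.nd (nat_lit 156) (nat_lit 76) (nat_lit 0) (XT.nd (nat_lit 78) (nat_lit 228) (nat_lit 0) (XT.lf (nat_lit 0) (nat_lit 7004255646) (nat_lit 76) (nat_lit 8019897593) (nat_lit 152) (nat_lit 797798604) (nat_lit 47) (nat_lit 5) (nat_lit 48) (nat_lit 5) (nat_lit 49) (nat_lit 4) (nat_lit 387) (nat_lit 337) (nat_lit 296)) (XT.lf (nat_lit 0) (nat_lit 893232624) (nat_lit 152) (nat_lit 2780253663) (nat_lit 228) (nat_lit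 12652471970) (nat_lit 44) (nat_lit 5) (nat_lit 46) (nat_lit 5) (nat_lit 47) (nat_lit 5) (nat_lit 388) (nat_lit 337) (nat_lit 295))) (XT.nd (nat_lit 78) (nat_lit 76) (nat_lit 0) (XT.lf (nat_lit 0) (nat_lit 8476169406) (nat_lit 228) (nat_lit 5615621296) (nat_lit 76) (nat_lit 2755999315) (nat_lit 44) (nat_lit 5) (nat_lit 47) (nat_lit 5) (nat_lit 45) (nat_lit 4) (nat_lit 389) (nat_lit 337) (nat_lit 294)) (XT.lf (nat_lit 0) (nat_lit 4696362483) (nat_lit 76) (nat_lit 8884741677) (nat_lit 152) (nat_lit 3811514021) (nat_lit 43) (nat_lit 5) (nat_lit 44) (nat_lit 5) (nat_lit 45) (nat_lit 4) (nat_lit 390) (nat_lit 337) (nat_lit 293))))) (XT.nd (nat_lit 234) (nat_lit 304) (nat_lit 0) (XT.nd (nat_lit 78) (nat_lit 228) (nat_lit 0) (XT.lf (nat_lit 0) (nat_lit 985454376) (nat_lit 152) (nat_lit 2358797801) (nat_lit 76) (nat_lit 14617677214) (nat_lit 42) (nat_lit 5) (nat_lit 44) (nat_lit 5) (nat_lit 43) (nat_lit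 5) (nat_lit 391) (nat_lit 337) (nat_lit 292)) (XT.nd (nat_lit 78) (nat_lit 76) (nat_lit 0) (XT.lf (nat_lit 0) (nat_lit 6015972263) (nat_lit 228) (nat_lit 9981197001) (nat_lit 76) (nat_lit 2553332291) (nat_lit 40) (nat_lit 5) (nat_lit 43) (nat_lit 5) (nat_lit 41) (nat_lit 4) (nat_lit 392) (nat_lit 337) (nat_lit 291)) (XT.lf (nat_lit 0) (nat_lit 833806523) (nat_lit 76) (nat_lit 10519232073) (nat_lit 152) (nat_lit 7812721397) (nat_lit 39) (nat_lit 5) (nat_lit 40) (nat_lit 5) (nat_lit 41) (nat_lit 4) (nat_lit 393) (nat_lit 337) (nat_lit 290)))) (XT.nd (nat_lit 156) (nat_lit 76) (nat_lit 0) (XT.nd (nat_lit 78) (nat_lit 228) (nat_lit 0) (XT.lf (nat_lit 0) (nat_lit 12441041914) (nat_lit 76) (nat_lit 4632591162) (nat_lit 152) (nat_lit 2732322911) (nat_lit 39) (nat_lit 5) (nat_lit 40) (nat_lit 5) (nat_lit 41) (nat_lit 4) (nat_lit 394) (nat_lit 337) (nat_lit 289)) (XT.lf (nat_lit 0) (nat_lit 2558174453)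 (nat_lit 228) (nat_lit 16350195415) (nat_lit 76) (nat_lit 1565800096) (nat_lit 36) (nat_lit 5) (nat_lit 39) (nat_lit 5) (nat_lit 37) (nat_lit 4) (nat_lit 395) (nat_lit 337) (nat_lit 288))) (XT.nd (nat_lit 78) (nat_lit 76) (nat_lit 0) (XT.lf (nat_lit 0) (nat_lit 8173753823) (nat_lit 228) (nat_lit 4941903786) (nat_lit 76) (nat_lit 8050285600) (nat_lit 36) (nat_lit 5) (nat_lit 39) (nat_lit 5) (nat_lit 37) (nat_lit 4) (nat_lit 396) (nat_lit 337) (nat_lit 287)) (XT.lf (nat_lit 0) (nat_lit 7178398549) (nat_lit 76) (nat_lit 6955849365) (nat_lit 152) (nat_lit 7754857304) (nat_lit 35) (nat_lit 5) (nat_lit 36) (nat_lit 5) (nat_lit 37) (nat_lit 4) (nat_lit 397) (nat_lit 337) (nat_lit 286))))))))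
noncomputable def xc90 : XT := (XT.nd (nat_lit 2106) (nat_lit 684) (nat_lit 0) (XT.nd (nat_lit 1014) (nat_lit 684) (nat_lit 0) (XT.nd (nat_lit 468) (nat_lit 304) (nat_lit 0) (XT.nd (nat_lit 234) (nat_lit 228) (nat_lit 0) (XT.nd (nat_lit 78) (nat_lit 228) (nat_lit 0) (XT.lf (nat_lit 0) (nat_lit 19989552178) (nat_lit 76) (nat_lit 439897531) (nat_lit 152) (nat_lit 2217148032) (nat_lit 35) (nat_lit 5) (nat_lit 36) (nat_lit 5) (nat_lit 37) (nat_lit 4) (nat_lit 398) (nat_lit 337) (nat_lit 285)) (XT.nd (nat_lit 78) (nat_lit 0) (nat_lit 0) (XT.lf (nat_lit 0) (nat_lit 3698686096) (nat_lit 228) (nat_lit 13351363128) (nat_lit 76) (nat_lit 6378294298) (nat_lit 32) (nat_lit 5) (nat_lit 35) (nat_lit 5) (nat_lit 33) (nat_lit 4) (nat_lit 399) (nat_lit 337) (nat_lit 284)) (XT.lf (nat_lit 0) (nat_lit 9843516662) (nat_lit 228) (nat_lit 835669884) (nat_lit 76) (nat_lit 13567792608) (nat_lit 32) (nat_lit 5) (nat_lit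 35) (nat_lit 5) (nat_lit 33) (nat_lit 4) (nat_lit 400) (nat_lit 337) (nat_lit 283)))) (XT.nd (nat_lit 78) (nat_lit 152) (nat_lit 0) (XT.lf (nat_lit 0) (nat_lit 12629653247) (nat_lit 76) (nat_lit 3820041675) (nat_lit 152) (nat_lit 8649151737) (nat_lit 31) (nat_lit 5) (nat_lit 32) (nat_lit 5) (nat_lit 33) (nat_lit 4) (nat_lit 401) (nat_lit 337) (nat_lit 282)) (XT.nd (nat_lit 78) (nat_lit 76) (nat_lit 0) (XT.lf (nat_lit 0) (nat_lit 693176371) (nat_lit 76) (nat_lit 22728179605) (nat_lit 76) (nat_lit 2570198008) (nat_lit 30) (nat_lit 4) (nat_lit 31) (nat_lit 5) (nat_lit 31) (nat_lit 4) (nat_lit 402) (nat_lit 337) (nat_lit 281)) (XT.lf (nat_lit 0) (nat_lit 3925201356) (nat_lit 152) (nat_lit 12178130003) (nat_lit 76) (nat_lit 10810867218) (nat_lit 29) (nat_lit 5) (nat_lit 31) (nat_lit 5) (nat_lit 30) (nat_lit 4) (nat_lit 403) (nat_lit 337) (nat_lit 280))))) (XT.nd (nat_lit 234) (nat_lit 152) (nat_lit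 0) (XT.nd (nat_lit 78) (nat_lit 76) (nat_lit 0) (XT.lf (nat_lit 0) (nat_lit 1527999846) (nat_lit 76) (nat_lit 9114157389) (nat_lit 152) (nat_lit 17239557784) (nat_lit 28) (nat_lit 5) (nat_lit 29) (nat_lit 5) (nat_lit 30) (nat_lit 4) (nat_lit 404) (nat_lit 337) (nat_lit 279)) (XT.nd (nat_lit 78) (nat_lit 76) (nat_lit 0) (XT.lf (nat_lit 0) (nat_lit 16266572424) (nat_lit 76) (nat_lit 1594693247) (nat_lit 152) (nat_lit 11028030604) (nat_lit 28) (nat_lit 5) (nat_lit 29) (nat_lit 5) (nat_lit 30) (nat_lit 4) (nat_lit 405) (nat_lit 337) (nat_lit 278)) (XT.lf (nat_lit 0) (nat_lit 1676676186) (nat_lit 76) (nat_lit 23850636087) (nat_lit 76) (nat_lit 4415649211) (nat_lit 27) (nat_lit 4) (nat_lit 28) (nat_lit 5) (nat_lit 28) (nat_lit 4) (nat_lit 406) (nat_lit 337) (nat_lit 277)))) (XT.nd (nat_lit 156) (nat_lit 0) (nat_lit 0) (XT.nd (nat_lit 78) (nat_lit 76) (nat_lit 0) (XT.lf (nat_lit 0) (nat_lit 2651396174)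 (nat_lit 152) (nat_lit 14051973030) (nat_lit 76) (nat_lit 14333724655) (nat_lit 26) (nat_lit 5) (nat_lit 28) (nat_lit 5) (nat_lit 27) (nat_lit 4) (nat_lit 407) (nat_lit 337) (nat_lit 276)) (XT.lf (nat_lit 0) (nat_lit 754802347) (nat_lit 76) (nat_lit 9143730858) (nat_lit 152) (nat_lit 22285027035) (nat_lit 25) (nat_lit 5) (nat_lit 26) (nat_lit 5) (nat_lit 27) (nat_lit 4) (nat_lit 408) (nat_lit 337) (nat_lit 275))) (XT.nd (nat_lit 78) (nat_lit 0) (nat_lit 0) (XT.lf (nat_lit 0) (nat_lit 16720875473) (nat_lit 76) (nat_lit 989147776) (nat_lit 152) (nat_lit 15667230198) (nat_lit 25) (nat_lit 5) (nat_lit 26) (nat_lit 5) (nat_lit 27) (nat_lit 4) (nat_lit 409) (nat_lit 337) (nat_lit 274)) (XT.lf (nat_lit 0) (nat_lit 25995569290) (nat_lit 152) (nat_lit 1330457653) (nat_lit 0) (nat_lit 7300433452) (nat_lit 25) (nat_lit 5) (nat_lit 27) (nat_lit 4) (nat_lit 25) (nat_lit 4) (nat_lit 410) (nat_lit 337)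 (nat_lit 273)))))) (XT.nd (nat_lit 546) (nat_lit 304) (nat_lit 0) (XT.nd (nat_lit 234) (nat_lit 152) (nat_lit 0) (XT.nd (nat_lit 78) (nat_lit 152) (nat_lit 0) (XT.lf (nat_lit 0) (nat_lit 15167335194) (nat_lit 76) (nat_lit 19747975847) (nat_lit 76) (nat_lit 1011823736) (nat_lit 24) (nat_lit 4) (nat_lit 25) (nat_lit 5) (nat_lit 25) (nat_lit 4) (nat_lit 411) (nat_lit 337) (nat_lit 272)) (XT.nd (nat_lit 78) (nat_lit 76) (nat_lit 0) (XT.lf (nat_lit 0) (nat_lit 6754393458) (nat_lit 152) (nat_lit 4928708639) (nat_lit 76) (nat_lit 25604795120) (nat_lit 23) (nat_lit 5) (nat_lit 25) (nat_lit 5) (nat_lit 24) (nat_lit 4) (nat_lit 412) (nat_lit 337) (nat_lit 271)) (XT.lf (nat_lit 0) (nat_lit 12000757514) (nat_lit 76) (nat_lit 3030059906) (nat_lit 152) (nat_lit 23677258601) (nat_lit 22) (nat_lit 5) (nat_lit 23) (nat_lit 5) (nat_lit 24) (nat_lit 4) (nat_lit 413) (nat_lit 337) (nat_lit 270)))) (XT.nd (nat_lit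 156) (nat_lit 76) (nat_lit 0) (XT.nd (nat_lit 78) (nat_lit 76) (nat_lit 0) (XT.lf (nat_lit 0) (nat_lit 23869097035) (nat_lit 152) (nat_lit 10404003396) (nat_lit 0) (nat_lit 5918764085) (nat_lit 22) (nat_lit 5) (nat_lit 24) (nat_lit 4) (nat_lit 22) (nat_lit 4) (nat_lit 414) (nat_lit 337) (nat_lit 269)) (XT.lf (nat_lit 0) (nat_lit 6825343733) (nat_lit 76) (nat_lit 26450326184) (nat_lit 76) (nat_lit 8467855910) (nat_lit 21) (nat_lit 4) (nat_lit 22) (nat_lit 5) (nat_lit 22) (nat_lit 4) (nat_lit 415) (nat_lit 337) (nat_lit 268))) (XT.nd (nat_lit 78) (nat_lit 76) (nat_lit 0) (XT.lf (nat_lit 0) (nat_lit 25220381577) (nat_lit 76) (nat_lit 18079062248) (nat_lit 76) (nat_lit 65985000) (nat_lit 21) (nat_lit 4) (nat_lit 22) (nat_lit 5) (nat_lit 22) (nat_lit 4) (nat_lit 416) (nat_lit 337) (nat_lit 267)) (XT.lf (nat_lit 0) (nat_lit 8447345479) (nat_lit 152) (nat_lit 725168515) (nat_lit 76) (nat_lit 35890499146)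 (nat_lit 20) (nat_lit 5) (nat_lit 22) (nat_lit 5) (nat_lit 21) (nat_lit 4) (nat_lit 417) (nat_lit 337) (nat_lit 266))))) (XT.nd (nat_lit 234) (nat_lit 152) (nat_lit 0) (XT.nd (nat_lit 78) (nat_lit 76) (nat_lit 0) (XT.lf (nat_lit 0) (nat_lit 17646590780) (nat_lit 152) (nat_lit 28748632217) (nat_lit 0) (nat_lit 437078232) (nat_lit 19) (nat_lit 5) (nat_lit 21) (nat_lit 4) (nat_lit 19) (nat_lit 4) (nat_lit 418) (nat_lit 337) (nat_lit 265)) (XT.nd (nat_lit 78) (nat_lit 76) (nat_lit 0) (XT.lf (nat_lit 0) (nat_lit 27441700433) (nat_lit 152) (nat_lit 11034552580) (nat_lit 0) (nat_lit 10207007450) (nat_lit 19) (nat_lit 5) (nat_lit 21) (nat_lit 4) (nat_lit 19) (nat_lit 4) (nat_lit 419) (nat_lit 337) (nat_lit 264)) (XT.lf (nat_lit 0) (nat_lit 7763554079) (nat_lit 76) (nat_lit 30058556225) (nat_lit 76) (nat_lit 12799881877) (nat_lit 18) (nat_lit 4) (nat_lit 19) (nat_lit 5) (nat_lit 19) (nat_lit 4) (nat_lit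 420) (nat_lit 337) (nat_lit 263)))) (XT.nd (nat_lit 156) (nat_lit 76) (nat_lit 0) (XT.nd (nat_lit 78) (nat_lit 76) (nat_lit 0) (XT.lf (nat_lit 0) (nat_lit 27835310667) (nat_lit 76) (nat_lit 21047891090) (nat_lit 76) (nat_lit 3766377346) (nat_lit 18) (nat_lit 4) (nat_lit 19) (nat_lit 5) (nat_lit 19) (nat_lit 4) (nat_lit 421) (nat_lit 337) (nat_lit 262)) (XT.lf (nat_lit 0) (nat_lit 5511356095) (nat_lit 152) (nat_lit 6004985554) (nat_lit 76) (nat_lit 43258961361) (nat_lit 17) (nat_lit 5) (nat_lit 19) (nat_lit 5) (nat_lit 18) (nat_lit 4) (nat_lit 422) (nat_lit 337) (nat_lit 261))) (XT.nd (nat_lit 78) (nat_lit 0) (nat_lit 0) (XT.lf (nat_lit 0) (nat_lit 14088402311) (nat_lit 76) (nat_lit 1234711769) (nat_lit 152) (nat_lit 41671277641) (nat_lit 16) (nat_lit 5) (nat_lit 17) (nat_lit 5) (nat_lit 18) (nat_lit 4) (nat_lit 423) (nat_lit 337) (nat_lit 260)) (XT.lf (nat_lit 0) (nat_lit 25854916601) (nat_lit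 152) (nat_lit 24120950290) (nat_lit 0) (nat_lit 9337096522) (nat_lit 16) (nat_lit 5) (nat_lit 18) (nat_lit 4) (nat_lit 16) (nat_lit 4) (nat_lit 424) (nat_lit 337) (nat_lit 259))))))) (XT.nd (nat_lit 1014) (nat_lit 228) (nat_lit 0) (XT.nd (nat_lit 468) (nat_lit 228) (nat_lit 0) (XT.nd (nat_lit 234) (nat_lit 152) (nat_lit 0) (XT.nd (nat_lit 78) (nat_lit 76) (nat_lit 0) (XT.lf (nat_lit 0) (nat_lit 36911472454) (nat_lit 152) (nat_lit 4460327276) (nat_lit 0) (nat_lit 20375757110) (nat_lit 16) (nat_lit 5) (nat_lit 18) (nat_lit 4) (nat_lit 16) (nat_lit 4) (nat_lit 425) (nat_lit 337) (nat_lit 258)) (XT.nd (nat_lit 78) (nat_lit 0) (nat_lit 0) (XT.lf (nat_lit 0) (nat_lit 16675694309) (nat_lit 76) (nat_lit 32084489474) (nat_lit 76) (nat_lit 15531731021) (nat_lit 15) (nat_lit 4) (nat_lit 16) (nat_lit 5) (nat_lit 16) (nat_lit 4) (nat_lit 426) (nat_lit 337) (nat_lit 257)) (XT.lf (nat_lit 0) (nat_lit 38982677606)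 (nat_lit 76) (nat_lit 22273530189) (nat_lit 76) (nat_lit 5704540205) (nat_lit 15) (nat_lit 4) (nat_lit 16) (nat_lit 5) (nat_lit 16) (nat_lit 4) (nat_lit 427) (nat_lit 337) (nat_lit 256)))) (XT.nd (nat_lit 78) (nat_lit 76) (nat_lit 0) (XT.lf (nat_lit 0) (nat_lit 4446332502) (nat_lit 152) (nat_lit 7469466956) (nat_lit 76) (nat_lit 57844622620) (nat_lit 14) (nat_lit 5) (nat_lit 16) (nat_lit 5) (nat_lit 15) (nat_lit 4) (nat_lit 428) (nat_lit 337) (nat_lit 255)) (XT.nd (nat_lit 78) (nat_lit 0) (nat_lit 0) (XT.lf (nat_lit 0) (nat_lit 14394214809) (nat_lit 76) (nat_lit 724510007) (nat_lit 152) (nat_lit 57566395923) (nat_lit 13) (nat_lit 5) (nat_lit 14) (nat_lit 5) (nat_lit 15) (nat_lit 4) (nat_lit 429) (nat_lit 337) (nat_lit 254)) (XT.lf (nat_lit 0) (nat_lit 26606459563) (nat_lit 152) (nat_lit 38351138114) (nat_lit 0) (nat_lit 10784371494) (nat_lit 13) (nat_lit 5) (nat_lit 15) (nat_lit 4) (nat_lit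 13) (nat_lit 4) (nat_lit 430) (nat_lit 337) (nat_lit 253))))) (XT.nd (nat_lit 234) (nat_lit 152) (nat_lit 0) (XT.nd (nat_lit 78) (nat_lit 76) (nat_lit 0) (XT.lf (nat_lit 0) (nat_lit 38662361017) (nat_lit 152) (nat_lit 17462055823) (nat_lit 0) (nat_lit 22827555118) (nat_lit 13) (nat_lit 5) (nat_lit 15) (nat_lit 4) (nat_lit 13) (nat_lit 4) (nat_lit 431) (nat_lit 337) (nat_lit 252)) (XT.nd (nat_lit 78) (nat_lit 0) (nat_lit 0) (XT.lf (nat_lit 0) (nat_lit 4584108587) (nat_lit 76) (nat_lit 46791284270) (nat_lit 76) (nat_lit 30944366151) (nat_lit 12) (nat_lit 4) (nat_lit 13) (nat_lit 5) (nat_lit 13) (nat_lit 4) (nat_lit 432) (nat_lit 337) (nat_lit 251)) (XT.lf (nat_lit 0) (nat_lit 28305282141) (nat_lit 76) (nat_lit 36697584091) (nat_lit 76) (nat_lit 20839130525) (nat_lit 12) (nat_lit 4) (nat_lit 13) (nat_lit 5) (nat_lit 13) (nat_lit 4) (nat_lit 433) (nat_lit 337) (nat_lit 250)))) (XT.nd (nat_lit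 156) (nat_lit 76) (nat_lit 0) (XT.nd (nat_lit 78) (nat_lit 76) (nat_lit 0) (XT.lf (nat_lit 0) (nat_lit 53180569396) (nat_lit 76) (nat_lit 26115012049) (nat_lit 76) (nat_lit 10245572344) (nat_lit 12) (nat_lit 4) (nat_lit 13) (nat_lit 5) (nat_lit 13) (nat_lit 4) (nat_lit 434) (nat_lit 337) (nat_lit 249)) (XT.lf (nat_lit 0) (nat_lit 833956772) (nat_lit 152) (nat_lit 14170291312) (nat_lit 76) (nat_lit 78421116994) (nat_lit 11) (nat_lit 5) (nat_lit 13) (nat_lit 5) (nat_lit 12) (nat_lit 4) (nat_lit 435) (nat_lit 337) (nat_lit 248))) (XT.nd (nat_lit 78) (nat_lit 0) (nat_lit 0) (XT.lf (nat_lit 0) (nat_lit 9227423925) (nat_lit 76) (nat_lit 3024913330) (nat_lit 152) (nat_lit 85236592695) (nat_lit 10) (nat_lit 5) (nat_lit 11) (nat_lit 5) (nat_lit 12) (nat_lit 4) (nat_lit 436) (nat_lit 337) (nat_lit 247)) (XT.lf (nat_lit 0) (nat_lit 24619865288) (nat_lit 152) (nat_lit 67639277143) (nat_lit 0) (nat_lit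 9477619870) (nat_lit 10) (nat_lit 5) (nat_lit 12) (nat_lit 4) (nat_lit 10) (nat_lit 4) (nat_lit 437) (nat_lit 337) (nat_lit 246)))))) (XT.nd (nat_lit 546) (nat_lit 152) (nat_lit 0) (XT.nd (nat_lit 234) (nat_lit 0) (nat_lit 0) (XT.nd (nat_lit 78) (nat_lit 76) (nat_lit 0) (XT.lf (nat_lit 0) (nat_lit 37641223716) (nat_lit 152) (nat_lit 46063620115) (nat_lit 0) (nat_lit 22490370370) (nat_lit 10) (nat_lit 5) (nat_lit 12) (nat_lit 4) (nat_lit 10) (nat_lit 4) (nat_lit 438) (nat_lit 337) (nat_lit 245)) (XT.nd (nat_lit 78) (nat_lit 76) (nat_lit 0) (XT.lf (nat_lit 0) (nat_lit 51300188399) (nat_lit 152) (nat_lit 23435936956) (nat_lit 0) (nat_lit 36141137026) (nat_lit 10) (nat_lit 5) (nat_lit 12) (nat_lit 4) (nat_lit 10) (nat_lit 4) (nat_lit 439) (nat_lit 337) (nat_lit 244)) (XT.lf (nat_lit 0) (nat_lit 307489351) (nat_lit 76) (nat_lit 65326592101) (nat_lit 76) (nat_lit 50159733084) (nat_lit 9) (nat_lit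 4) (nat_lit 10) (nat_lit 5) (nat_lit 10) (nat_lit 4) (nat_lit 440) (nat_lit 337) (nat_lit 243)))) (XT.nd (nat_lit 156) (nat_lit 0) (nat_lit 0) (XT.nd (nat_lit 78) (nat_lit 0) (nat_lit 0) (XT.lf (nat_lit 0) (nat_lit 26026658204) (nat_lit 76) (nat_lit 55042308320) (nat_lit 76) (nat_lit 39868013450) (nat_lit 9) (nat_lit 4) (nat_lit 10) (nat_lit 5) (nat_lit 10) (nat_lit 4) (nat_lit 441) (nat_lit 337) (nat_lit 242)) (XT.lf (nat_lit 0) (nat_lit 53007907804) (nat_lit 76) (nat_lit 44255686553) (nat_lit 76) (nat_lit 29074309920) (nat_lit 9) (nat_lit 4) (nat_lit 10) (nat_lit 5) (nat_lit 10) (nat_lit 4) (nat_lit 442) (nat_lit 337) (nat_lit 241))) (XT.nd (nat_lit 78) (nat_lit 0) (nat_lit 0) (XT.lf (nat_lit 0) (nat_lit 81315479222) (nat_lit 76) (nat_lit 32941044370) (nat_lit 76) (nat_lit 17752923199) (nat_lit 9) (nat_lit 4) (nat_lit 10) (nat_lit 5) (nat_lit 10) (nat_lit 4) (nat_lit 443) (nat_lit 337)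 (nat_lit 240)) (XT.lf (nat_lit 0) (nat_lit 111016771437) (nat_lit 76) (nat_lit 21071442144) (nat_lit 76) (nat_lit 5876897605) (nat_lit 9) (nat_lit 4) (nat_lit 10) (nat_lit 5) (nat_lit 10) (nat_lit 4) (nat_lit 444) (nat_lit 337) (nat_lit 239))))) (XT.nd (nat_lit 234) (nat_lit 0) (nat_lit 0) (XT.nd (nat_lit 78) (nat_lit 76) (nat_lit 0) (XT.lf (nat_lit 0) (nat_lit 6371376628) (nat_lit 152) (nat_lit 2139339944) (nat_lit 76) (nat_lit 135703222837) (nat_lit 8) (nat_lit 5) (nat_lit 10) (nat_lit 5) (nat_lit 9) (nat_lit 4) (nat_lit 445) (nat_lit 337) (nat_lit 238)) (XT.nd (nat_lit 78) (nat_lit 0) (nat_lit 0) (XT.lf (nat_lit 0) (nat_lit 19489050071) (nat_lit 152) (nat_lit 126251937518) (nat_lit 0) (nat_lit 5006680341) (nat_lit 7) (nat_lit 5) (nat_lit 9) (nat_lit 4) (nat_lit 7) (nat_lit 4) (nat_lit 446) (nat_lit 337) (nat_lit 237)) (XT.lf (nat_lit 0) (nat_lit 33428934105) (nat_lit 152) (nat_lit 105229552961)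 (nat_lit 0) (nat_lit 18941279853) (nat_lit 7) (nat_lit 5) (nat_lit 9) (nat_lit 4) (nat_lit 7) (nat_lit 4) (nat_lit 447) (nat_lit 337) (nat_lit 236)))) (XT.nd (nat_lit 156) (nat_lit 0) (nat_lit 0) (XT.nd (nat_lit 78) (nat_lit 0) (nat_lit 0) (XT.lf (nat_lit 0) (nat_lit 48056271645) (nat_lit 152) (nat_lit 83175092100) (nat_lit 0) (nat_lit 33563584516) (nat_lit 7) (nat_lit 5) (nat_lit 9) (nat_lit 4) (nat_lit 7) (nat_lit 4) (nat_lit 448) (nat_lit 337) (nat_lit 235)) (XT.lf (nat_lit 0) (nat_lit 63405889686) (nat_lit 152) (nat_lit 60036044314) (nat_lit 0) (nat_lit 48908409341) (nat_lit 7) (nat_lit 5) (nat_lit 9) (nat_lit 4) (nat_lit 7) (nat_lit 4) (nat_lit 449) (nat_lit 337) (nat_lit 234))) (XT.nd (nat_lit 78) (nat_lit 0) (nat_lit 0) (XT.lf (nat_lit 0) (nat_lit 79514334937) (nat_lit 152) (nat_lit 35757316632) (nat_lit 0) (nat_lit 65012289624) (nat_lit 7) (nat_lit 5) (nat_lit 9) (nat_lit 4) (nat_lit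 7) (nat_lit 4) (nat_lit 450) (nat_lit 337) (nat_lit 233)) (XT.lf (nat_lit 0) (nat_lit 96419960840) (nat_lit 152) (nat_lit 10281102560) (nat_lit 0) (nat_lit 81913567938) (nat_lit 7) (nat_lit 5) (nat_lit 9) (nat_lit 4) (nat_lit 7) (nat_lit 4) (nat_lit 451) (nat_lit 337) (nat_lit 232))))))))
noncomputable def xc91 : XT := (XT.nd (nat_lit 2106) (nat_lit 0) (nat_lit 0) (XT.nd (nat_lit 1014) (nat_lit 76) (nat_lit 0) (XT.nd (nat_lit 468) (nat_lit 152) (nat_lit 0) (XT.nd (nat_lit 234) (nat_lit 0) (nat_lit 0) (XT.nd (nat_lit 78) (nat_lit 0) (nat_lit 0) (XT.lf (nat_lit 0) (nat_lit 16997274489) (nat_lit 76) (nat_lit 97431119485) (nat_lit 76) (nat_lit 82920586023) (nat_lit 6) (nat_lit 4) (nat_lit 7) (nat_lit 5) (nat_lit 7) (nat_lit 4) (nat_lit 452) (nat_lit 337) (nat_lit 231)) (XT.nd (nat_lit 78) (nat_lit 0) (nat_lit 0) (XT.lf (nat_lit 0) (nat_lit 45981093084) (nat_lit 76) (nat_lit 87522555088) (nat_lit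 76) (nat_lit 73008078235) (nat_lit 6) (nat_lit 4) (nat_lit 7) (nat_lit 5) (nat_lit 7) (nat_lit 4) (nat_lit 453) (nat_lit 337) (nat_lit 230)) (XT.lf (nat_lit 0) (nat_lit 76399422634) (nat_lit 76) (nat_lit 77125893836) (nat_lit 76) (nat_lit 62607661372) (nat_lit 6) (nat_lit 4) (nat_lit 7) (nat_lit 5) (nat_lit 7) (nat_lit 4) (nat_lit 454) (nat_lit 337) (nat_lit 229)))) (XT.nd (nat_lit 78) (nat_lit 0) (nat_lit 0) (XT.lf (nat_lit 0) (nat_lit 108324687735) (nat_lit 76) (nat_lit 66216381773) (nat_lit 76) (nat_lit 51694572538) (nat_lit 6) (nat_lit 4) (nat_lit 7) (nat_lit 5) (nat_lit 7) (nat_lit 4) (nat_lit 455) (nat_lit 337) (nat_lit 228)) (XT.nd (nat_lit 78) (nat_lit 0) (nat_lit 0) (XT.lf (nat_lit 0) (nat_lit 141832900922) (nat_lit 76) (nat_lit 54768043871) (nat_lit 76) (nat_lit 40242828186) (nat_lit 6) (nat_lit 4) (nat_lit 7) (nat_lit 5) (nat_lit 7) (nat_lit 4) (nat_lit 456) (nat_lit 337) (nat_lit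 227)) (XT.lf (nat_lit 0) (nat_lit 177003843655) (nat_lit 76) (nat_lit 42753622183) (nat_lit 76) (nat_lit 28225162260) (nat_lit 6) (nat_lit 4) (nat_lit 7) (nat_lit 5) (nat_lit 7) (nat_lit 4) (nat_lit 457) (nat_lit 337) (nat_lit 226))))) (XT.nd (nat_lit 234) (nat_lit 0) (nat_lit 0) (XT.nd (nat_lit 78) (nat_lit 152) (nat_lit 0) (XT.lf (nat_lit 0) (nat_lit 213921256274) (nat_lit 76) (nat_lit 30144510942) (nat_lit 76) (nat_lit 15612961269) (nat_lit 6) (nat_lit 4) (nat_lit 7) (nat_lit 5) (nat_lit 7) (nat_lit 4) (nat_lit 458) (nat_lit 337) (nat_lit 225)) (XT.nd (nat_lit 78) (nat_lit 152) (nat_lit 0) (XT.lf (nat_lit 0) (nat_lit 252673037380) (nat_lit 76) (nat_lit 16910688455) (nat_lit 76) (nat_lit 2376196163) (nat_lit 6) (nat_lit 4) (nat_lit 7) (nat_lit 5) (nat_lit 7) (nat_lit 4) (nat_lit 459) (nat_lit 337) (nat_lit 224)) (XT.lf (nat_lit 0) (nat_lit 8591167383) (nat_lit 76) (nat_lit 2691009284) (nat_lit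 152) (nat_lit 273557575940) (nat_lit 4) (nat_lit 5) (nat_lit 5) (nat_lit 5) (nat_lit 6) (nat_lit 4) (nat_lit 460) (nat_lit 337) (nat_lit 223)))) (XT.nd (nat_lit 156) (nat_lit 0) (nat_lit 0) (XT.nd (nat_lit 78) (nat_lit 0) (nat_lit 0) (XT.lf (nat_lit 0) (nat_lit 26061130041) (nat_lit 152) (nat_lit 260061075863) (nat_lit 0) (nat_lit 12213545442) (nat_lit 4) (nat_lit 5) (nat_lit 6) (nat_lit 4) (nat_lit 4) (nat_lit 4) (nat_lit 461) (nat_lit 337) (nat_lit 222)) (XT.lf (nat_lit 0) (nat_lit 41617846005) (nat_lit 152) (nat_lit 243118922943) (nat_lit 0) (nat_lit 27767840506) (nat_lit 4) (nat_lit 5) (nat_lit 6) (nat_lit 4) (nat_lit 4) (nat_lit 4) (nat_lit 462) (nat_lit 337) (nat_lit 221))) (XT.nd (nat_lit 78) (nat_lit 0) (nat_lit 0) (XT.lf (nat_lit 0) (nat_lit 57947350162) (nat_lit 152) (nat_lit 225339773809) (nat_lit 0) (nat_lit 44095039045) (nat_lit 4) (nat_lit 5) (nat_lit 6) (nat_lit 4) (nat_lit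 4) (nat_lit 4) (nat_lit 463) (nat_lit 337) (nat_lit 220)) (XT.lf (nat_lit 0) (nat_lit 75088522286) (nat_lit 152) (nat_lit 206681297154) (nat_lit 0) (nat_lit 61234015340) (nat_lit 4) (nat_lit 5) (nat_lit 6) (nat_lit 4) (nat_lit 4) (nat_lit 4) (nat_lit 464) (nat_lit 337) (nat_lit 219)))))) (XT.nd (nat_lit 546) (nat_lit 76) (nat_lit 0) (XT.nd (nat_lit 234) (nat_lit 0) (nat_lit 0) (XT.nd (nat_lit 78) (nat_lit 0) (nat_lit 0) (XT.lf (nat_lit 0) (nat_lit 93082174689) (nat_lit 152) (nat_lit 187099068032) (nat_lit 0) (nat_lit 79225576480) (nat_lit 4) (nat_lit 5) (nat_lit 6) (nat_lit 4) (nat_lit 4) (nat_lit 4) (nat_lit 465) (nat_lit 337) (nat_lit 218)) (XT.nd (nat_lit 78) (nat_lit 0) (nat_lit 0) (XT.lf (nat_lit 0) (nat_lit 111971149403) (nat_lit 152) (nat_lit 166546462089) (nat_lit 0) (nat_lit 98112559513) (nat_lit 4) (nat_lit 5) (nat_lit 6) (nat_lit 4) (nat_lit 4) (nat_lit 4) (nat_lit 466) (nat_lit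 337) (nat_lit 217)) (XT.lf (nat_lit 0) (nat_lit 131800420176) (nat_lit 152) (nat_lit 144974544549) (nat_lit 0) (nat_lit 117939933447) (nat_lit 4) (nat_lit 5) (nat_lit 6) (nat_lit 4) (nat_lit 4) (nat_lit 4) (nat_lit 467) (nat_lit 337) (nat_lit 216)))) (XT.nd (nat_lit 156) (nat_lit 0) (nat_lit 0) (XT.nd (nat_lit 78) (nat_lit 0) (nat_lit 0) (XT.lf (nat_lit 0) (nat_lit 152617199557) (nat_lit 152) (nat_lit 122331953704) (nat_lit 0) (nat_lit 138754906315) (nat_lit 4) (nat_lit 5) (nat_lit 6) (nat_lit 4) (nat_lit 4) (nat_lit 4) (nat_lit 468) (nat_lit 337) (nat_lit 215)) (XT.lf (nat_lit 0) (nat_lit 174471051307) (nat_lit 152) (nat_lit 98564778622) (nat_lit 0) (nat_lit 160607037577) (nat_lit 4) (nat_lit 5) (nat_lit 6) (nat_lit 4) (nat_lit 4) (nat_lit 4) (nat_lit 469) (nat_lit 337) (nat_lit 214))) (XT.nd (nat_lit 78) (nat_lit 0) (nat_lit 0) (XT.lf (nat_lit 0) (nat_lit 197414008407) (nat_lit 152) (nat_lit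 73616430792) (nat_lit 0) (nat_lit 183548356116) (nat_lit 4) (nat_lit 5) (nat_lit 6) (nat_lit 4) (nat_lit 4) (nat_lit 4) (nat_lit 470) (nat_lit 337) (nat_lit 213)) (XT.lf (nat_lit 0) (nat_lit 221500696944) (nat_lit 152) (nat_lit 47427509385) (nat_lit 0) (nat_lit 207633484120) (nat_lit 4) (nat_lit 5) (nat_lit 6) (nat_lit 4) (nat_lit 4) (nat_lit 4) (nat_lit 471) (nat_lit 337) (nat_lit 212))))) (XT.nd (nat_lit 234) (nat_lit 0) (nat_lit 0) (XT.nd (nat_lit 78) (nat_lit 76) (nat_lit 0) (XT.lf (nat_lit 0) (nat_lit 246788466178) (nat_lit 152) (nat_lit 19935659828) (nat_lit 0) (nat_lit 232919767131) (nat_lit 4) (nat_lit 5) (nat_lit 6) (nat_lit 4) (nat_lit 4) (nat_lit 4) (nat_lit 472) (nat_lit 337) (nat_lit 211)) (XT.nd (nat_lit 78) (nat_lit 0) (nat_lit 0) (XT.lf (nat_lit 0) (nat_lit 9219661408) (nat_lit 76) (nat_lit 264261808426) (nat_lit 76) (nat_lit 250391693929) (nat_lit 3) (nat_lit 4) (nat_lit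 4) (nat_lit 5) (nat_lit 4) (nat_lit 4) (nat_lit 473) (nat_lit 337) (nat_lit 210)) (XT.lf (nat_lit 0) (nat_lit 40518762379) (nat_lit 76) (nat_lit 261324934756) (nat_lit 76) (nat_lit 247453472211) (nat_lit 3) (nat_lit 4) (nat_lit 4) (nat_lit 5) (nat_lit 4) (nat_lit 4) (nat_lit 474) (nat_lit 337) (nat_lit 209)))) (XT.nd (nat_lit 156) (nat_lit 0) (nat_lit 0) (XT.nd (nat_lit 78) (nat_lit 0) (nat_lit 0) (XT.lf (nat_lit 0) (nat_lit 73377001808) (nat_lit 76) (nat_lit 258244132485) (nat_lit 76) (nat_lit 244371386086) (nat_lit 3) (nat_lit 4) (nat_lit 4) (nat_lit 5) (nat_lit 4) (nat_lit 4) (nat_lit 475) (nat_lit 337) (nat_lit 208)) (XT.lf (nat_lit 0) (nat_lit 107872613599) (nat_lit 76) (nat_lit 255012066370) (nat_lit 76) (nat_lit 241138097251) (nat_lit 3) (nat_lit 4) (nat_lit 4) (nat_lit 5) (nat_lit 4) (nat_lit 4) (nat_lit 476) (nat_lit 337) (nat_lit 207))) (XT.nd (nat_lit 78) (nat_lit 0) (nat_lit 0)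 (XT.lf (nat_lit 0) (nat_lit 144087730159) (nat_lit 76) (nat_lit 251621041015) (nat_lit 76) (nat_lit 237745907402) (nat_lit 3) (nat_lit 4) (nat_lit 4) (nat_lit 5) (nat_lit 4) (nat_lit 4) (nat_lit 477) (nat_lit 337) (nat_lit 206)) (XT.lf (nat_lit 0) (nat_lit 182108577958) (nat_lit 76) (nat_lit 248062982550) (nat_lit 76) (nat_lit 234186739895) (nat_lit 3) (nat_lit 4) (nat_lit 4) (nat_lit 5) (nat_lit 4) (nat_lit 4) (nat_lit 478) (nat_lit 337) (nat_lit 205))))))) (XT.nd (nat_lit 43290) (nat_lit 0) (nat_lit 6384) (XT.nd (nat_lit 42744) (nat_lit 0) (nat_lit 11324) (XT.nd (nat_lit 234) (nat_lit 0) (nat_lit 0) (XT.nd (nat_lit 78) (nat_lit 0) (nat_lit 0) (XT.lf (nat_lit 0) (nat_lit 222025682822) (nat_lit 76) (nat_lit 244329419407) (nat_lit 76) (nat_lit 230452120522) (nat_lit 3) (nat_lit 4) (nat_lit 4) (nat_lit 5) (nat_lit 4) (nat_lit 4) (nat_lit 479) (nat_lit 337) (nat_lit 204)) (XT.nd (nat_lit 78)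 (nat_lit 0) (nat_lit 0) (XT.lf (nat_lit 0) (nat_lit 263934085479) (nat_lit 76) (nat_lit 240411462151) (nat_lit 76) (nat_lit 226533157331) (nat_lit 3) (nat_lit 4) (nat_lit 4) (nat_lit 5) (nat_lit 4) (nat_lit 4) (nat_lit 480) (nat_lit 337) (nat_lit 203)) (XT.lf (nat_lit 0) (nat_lit 307933567840) (nat_lit 76) (nat_lit 236299782312) (nat_lit 76) (nat_lit 222420519460) (nat_lit 3) (nat_lit 4) (nat_lit 4) (nat_lit 5) (nat_lit 4) (nat_lit 4) (nat_lit 481) (nat_lit 337) (nat_lit 202)))) (XT.nd (nat_lit 42354) (nat_lit 0) (nat_lit 12920) (XT.nd (nat_lit 78) (nat_lit 0) (nat_lit 0) (XT.lf (nat_lit 0) (nat_lit 354128890575) (nat_lit 76) (nat_lit 231984590175) (nat_lit 76) (nat_lit 218104414911) (nat_lit 3) (nat_lit 4) (nat_lit 4) (nat_lit 5) (nat_lit 4) (nat_lit 4) (nat_lit 482) (nat_lit 337) (nat_lit 201)) (XT.lf (nat_lit 0) (nat_lit 402630042550) (nat_lit 76) (nat_lit 227455611474) (nat_lit 76) (nat_lit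 213574567247) (nat_lit 3) (nat_lit 4) (nat_lit 4) (nat_lit 5) (nat_lit 4) (nat_lit 4) (nat_lit 483) (nat_lit 337) (nat_lit 200))) (XT.nd (nat_lit 78) (nat_lit 0) (nat_lit 0) (XT.lf (nat_lit 0) (nat_lit 162402413) (nat_lit 228) (nat_lit 2919556214) (nat_lit 0) (nat_lit 162402413) (nat_lit 173) (nat_lit 5) (nat_lit 176) (nat_lit 4) (nat_lit 173) (nat_lit 4) (nat_lit 344) (nat_lit 338) (nat_lit 338)) (XT.lf (nat_lit 0) (nat_lit 3465373239) (nat_lit 228) (nat_lit 2178693377) (nat_lit 0) (nat_lit 870915385) (nat_lit 173) (nat_lit 5) (nat_lit 176) (nat_lit 4) (nat_lit 173) (nat_lit 4) (nat_lit 345) (nat_lit 338) (nat_lit 337))))) (XT.nd (nat_lit 234) (nat_lit 988) (nat_lit 0) (XT.nd (nat_lit 78) (nat_lit 304) (nat_lit 0) (XT.lf (nat_lit 0) (nat_lit 51246982) (nat_lit 304) (nat_lit 4960313781) (nat_lit 76) (nat_lit 1539100231) (nat_lit 169) (nat_lit 5) (nat_lit 173) (nat_lit 5) (nat_lit 170) (nat_lit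 4) (nat_lit 346) (nat_lit 338) (nat_lit 336)) (XT.nd (nat_lit 78) (nat_lit 304) (nat_lit 0) (XT.lf (nat_lit 0) (nat_lit 3061775583) (nat_lit 304) (nat_lit 1141979903) (nat_lit 76) (nat_lit 2389177180) (nat_lit 169) (nat_lit 5) (nat_lit 173) (nat_lit 5) (nat_lit 170) (nat_lit 4) (nat_lit 347) (nat_lit 338) (nat_lit 335)) (XT.lf (nat_lit 0) (nat_lit 2835567963) (nat_lit 304) (nat_lit 3259738405) (nat_lit 380) (nat_lit 548544201) (nat_lit 165) (nat_lit 5) (nat_lit 169) (nat_lit 5) (nat_lit 170) (nat_lit 4) (nat_lit 348) (nat_lit 338) (nat_lit 334)))) (XT.nd (nat_lit 156) (nat_lit 532) (nat_lit 0) (XT.nd (nat_lit 78) (nat_lit 0) (nat_lit 0) (XT.lf (nat_lit 0) (nat_lit 194684044) (nat_lit 380) (nat_lit 2160180345) (nat_lit 456) (nat_lit 4347858137) (nat_lit 159) (nat_lit 5) (nat_lit 164) (nat_lit 5) (nat_lit 165) (nat_lit 5) (nat_lit 349) (nat_lit 338) (nat_lit 333)) (XT.lf (nat_lit 0) (nat_lit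 4396567642) (nat_lit 380) (nat_lit 890516514) (nat_lit 456) (nat_lit 1482035662) (nat_lit 159) (nat_lit 5) (nat_lit 164) (nat_lit 5) (nat_lit 165) (nat_lit 5) (nat_lit 350) (nat_lit 338) (nat_lit 332))) (XT.nd (nat_lit 78) (nat_lit 0) (nat_lit 0) (XT.lf (nat_lit 0) (nat_lit 1358697065) (nat_lit 532) (nat_lit 4969911504) (nat_lit 76) (nat_lit 515134117) (nat_lit 152) (nat_lit 5) (nat_lit 159) (nat_lit 5) (nat_lit 153) (nat_lit 5) (nat_lit 351) (nat_lit 338) (nat_lit 331)) (XT.lf (nat_lit 0) (nat_lit 4195949535) (nat_lit 532) (nat_lit 674475811) (nat_lit 76) (nat_lit 2055358841) (nat_lit 152) (nat_lit 5) (nat_lit 159) (nat_lit 5) (nat_lit 153) (nat_lit 5) (nat_lit 352) (nat_lit 338) (nat_lit 330)))))) (XT.nd (nat_lit 546) (nat_lit 1748) (nat_lit 0) (XT.nd (nat_lit 234) (nat_lit 1976) (nat_lit 0) (XT.nd (nat_lit 78) (nat_lit 608) (nat_lit 0) (XT.lf (nat_lit 0) (nat_lit 72352384) (nat_lit 608)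 (nat_lit 3182497435) (nat_lit 76) (nat_lit 3761334625) (nat_lit 144) (nat_lit 5) (nat_lit 152) (nat_lit 5) (nat_lit 145) (nat_lit 5) (nat_lit 353) (nat_lit 338) (nat_lit 329)) (XT.nd (nat_lit 78) (nat_lit 0) (nat_lit 0) (XT.lf (nat_lit 0) (nat_lit 1352135906) (nat_lit 608) (nat_lit 1462117815) (nat_lit 684) (nat_lit 4300147000) (nat_lit 136) (nat_lit 5) (nat_lit 144) (nat_lit 5) (nat_lit 145) (nat_lit 5) (nat_lit 354) (nat_lit 338) (nat_lit 328)) (XT.lf (nat_lit 0) (nat_lit 5618200045) (nat_lit 684) (nat_lit 1129709812) (nat_lit 76) (nat_lit 473466493) (nat_lit 136) (nat_lit 5) (nat_lit 145) (nat_lit 5) (nat_lit 137) (nat_lit 5) (nat_lit 355) (nat_lit 338) (nat_lit 327)))) (XT.nd (nat_lit 156) (nat_lit 456) (nat_lit 0) (XT.nd (nat_lit 78) (nat_lit 760) (nat_lit 0) (XT.lf (nat_lit 0) (nat_lit 1140341619) (nat_lit 760) (nat_lit 3650702360) (nat_lit 76) (nat_lit 2544233616) (nat_lit 126) (nat_lit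 5) (nat_lit 136) (nat_lit 5) (nat_lit 127) (nat_lit 5) (nat_lit 356) (nat_lit 338) (nat_lit 326)) (XT.lf (nat_lit 0) (nat_lit 1209542960) (nat_lit 760) (nat_lit 2668167263) (nat_lit 836) (nat_lit 3580404958) (nat_lit 116) (nat_lit 5) (nat_lit 126) (nat_lit 5) (nat_lit 127) (nat_lit 5) (nat_lit 357) (nat_lit 338) (nat_lit 325))) (XT.nd (nat_lit 78) (nat_lit 456) (nat_lit 0) (XT.lf (nat_lit 0) (nat_lit 6314147418) (nat_lit 760) (nat_lit 375974960) (nat_lit 836) (nat_lit 900142521) (nat_lit 116) (nat_lit 5) (nat_lit 126) (nat_lit 5) (nat_lit 127) (nat_lit 5) (nat_lit 358) (nat_lit 338) (nat_lit 324)) (XT.lf (nat_lit 0) (nat_lit 1827399161) (nat_lit 456) (nat_lit 3846686473) (nat_lit 76) (nat_lit 2054787368) (nat_lit 110) (nat_lit 5) (nat_lit 116) (nat_lit 5) (nat_lit 111) (nat_lit 5) (nat_lit 359) (nat_lit 338) (nat_lit 323))))) (XT.nd (nat_lit 234) (nat_lit 912) (nat_lit 0) (XT.nd (nat_lit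 78) (nat_lit 456) (nat_lit 0) (XT.lf (nat_lit 0) (nat_lit 1364531335) (nat_lit 380) (nat_lit 3229923787) (nat_lit 456) (nat_lit 3282617423) (nat_lit 105) (nat_lit 5) (nat_lit 110) (nat_lit 5) (nat_lit 111) (nat_lit 5) (nat_lit 360) (nat_lit 338) (nat_lit 322)) (XT.nd (nat_lit 78) (nat_lit 456) (nat_lit 0) (XT.lf (nat_lit 0) (nat_lit 6844663996) (nat_lit 380) (nat_lit 607870984) (nat_lit 456) (nat_lit 582578531) (nat_lit 105) (nat_lit 5) (nat_lit 110) (nat_lit 5) (nat_lit 111) (nat_lit 5) (nat_lit 361) (nat_lit 338) (nat_lit 321)) (XT.lf (nat_lit 0) (nat_lit 2174790529) (nat_lit 456) (nat_lit 3856489048) (nat_lit 76) (nat_lit 2168356490) (nat_lit 99) (nat_lit 5) (nat_lit 105) (nat_lit 5) (nat_lit 100) (nat_lit 5) (nat_lit 362) (nat_lit 338) (nat_lit 320)))) (XT.nd (nat_lit 156) (nat_lit 608) (nat_lit 0) (XT.nd (nat_lit 78) (nat_lit 0) (nat_lit 0) (XT.lf (nat_lit 0) (nat_lit 1732985967) (nat_lit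 304) (nat_lit 3269103467) (nat_lit 380) (nat_lit 3372291951) (nat_lit 95) (nat_lit 5) (nat_lit 99) (nat_lit 5) (nat_lit 100) (nat_lit 5) (nat_lit 363) (nat_lit 338) (nat_lit 319)) (XT.lf (nat_lit 0) (nat_lit 7611845029) (nat_lit 304) (nat_lit 321452344) (nat_lit 380) (nat_lit 626492867) (nat_lit 95) (nat_lit 5) (nat_lit 99) (nat_lit 5) (nat_lit 100) (nat_lit 5) (nat_lit 364) (nat_lit 338) (nat_lit 318))) (XT.nd (nat_lit 78) (nat_lit 228) (nat_lit 0) (XT.lf (nat_lit 0) (nat_lit 2208276683) (nat_lit 380) (nat_lit 3763957634) (nat_lit 76) (nat_lit 2779326854) (nat_lit 90) (nat_lit 5) (nat_lit 95) (nat_lit 5) (nat_lit 91) (nat_lit 5) (nat_lit 365) (nat_lit 338) (nat_lit 317)) (XT.lf (nat_lit 0) (nat_lit 2232391025) (nat_lit 228) (nat_lit 2890770937) (nat_lit 304) (nat_lit 3831319786) (nat_lit 87) (nat_lit 5) (nat_lit 90) (nat_lit 5) (nat_lit 91) (nat_lit 5) (nat_lit 366) (nat_lit 338) (nat_lit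 316))))))))
noncomputable def xc92 : XT := (XT.nd (nat_lit 2106) (nat_lit 1596) (nat_lit 0) (XT.nd (nat_lit 1014) (nat_lit 1520) (nat_lit 0) (XT.nd (nat_lit 468) (nat_lit 912) (nat_lit 0) (XT.nd (nat_lit 234) (nat_lit 532) (nat_lit 0) (XT.nd (nat_lit 78) (nat_lit 608) (nat_lit 0) (XT.lf (nat_lit 0) (nat_lit 8159237354) (nat_lit 304) (nat_lit 637860921) (nat_lit 76) (nat_lit 371721783) (nat_lit 87) (nat_lit 5) (nat_lit 91) (nat_lit 5) (nat_lit 88) (nat_lit 5) (nat_lit 367) (nat_lit 338) (nat_lit 315)) (XT.nd (nat_lit 78) (nat_lit 228) (nat_lit 0) (XT.lf (nat_lit 0) (nat_lit 1938679762) (nat_lit 380) (nat_lit 3655329328) (nat_lit 76) (nat_lit 3795983596) (nat_lit 82) (nat_lit 5) (nat_lit 87) (nat_lit 5) (nat_lit 83) (nat_lit 5) (nat_lit 368) (nat_lit 338) (nat_lit 314)) (XT.lf (nat_lit 0) (nat_lit 2777092396) (nat_lit 228) (nat_lit 2188427318) (nat_lit 304) (nat_lit 4657660062) (nat_lit 79)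 (nat_lit 5) (nat_lit 82) (nat_lit 5) (nat_lit 83) (nat_lit 5) (nat_lit 369) (nat_lit 338) (nat_lit 313)))) (XT.nd (nat_lit 78) (nat_lit 532) (nat_lit 0) (XT.lf (nat_lit 0) (nat_lit 8140916266) (nat_lit 304) (nat_lit 352821227) (nat_lit 76) (nat_lit 1374464193) (nat_lit 79) (nat_lit 5) (nat_lit 83) (nat_lit 5) (nat_lit 80) (nat_lit 5) (nat_lit 370) (nat_lit 338) (nat_lit 312)) (XT.nd (nat_lit 78) (nat_lit 228) (nat_lit 0) (XT.lf (nat_lit 0) (nat_lit 1361745156) (nat_lit 304) (nat_lit 3624203001) (nat_lit 76) (nat_lit 5135739153) (nat_lit 75) (nat_lit 5) (nat_lit 79) (nat_lit 5) (nat_lit 76) (nat_lit 5) (nat_lit 371) (nat_lit 338) (nat_lit 311)) (XT.lf (nat_lit 0) (nat_lit 3273104302) (nat_lit 228) (nat_lit 1248842564) (nat_lit 304) (nat_lit 5865777420) (nat_lit 72) (nat_lit 5) (nat_lit 75) (nat_lit 5) (nat_lit 76) (nat_lit 5) (nat_lit 372) (nat_lit 338) (nat_lit 310))))) (XT.nd (nat_lit 234)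 (nat_lit 456) (nat_lit 0) (XT.nd (nat_lit 78) (nat_lit 456) (nat_lit 0) (XT.lf (nat_lit 0) (nat_lit 7863445916) (nat_lit 304) (nat_lit 185487471) (nat_lit 76) (nat_lit 2616995139) (nat_lit 72) (nat_lit 5) (nat_lit 76) (nat_lit 5) (nat_lit 73) (nat_lit 5) (nat_lit 373) (nat_lit 338) (nat_lit 309)) (XT.nd (nat_lit 78) (nat_lit 152) (nat_lit 0) (XT.lf (nat_lit 0) (nat_lit 457258332) (nat_lit 304) (nat_lit 3777170914) (nat_lit 76) (nat_lit 6720491014) (nat_lit 68) (nat_lit 5) (nat_lit 72) (nat_lit 5) (nat_lit 69) (nat_lit 5) (nat_lit 374) (nat_lit 338) (nat_lit 308)) (XT.lf (nat_lit 0) (nat_lit 3612175498) (nat_lit 152) (nat_lit 156863019) (nat_lit 228) (nat_lit 7487889969) (nat_lit 66) (nat_lit 5) (nat_lit 68) (nat_lit 5) (nat_lit 69) (nat_lit 5) (nat_lit 375) (nat_lit 338) (nat_lit 307)))) (XT.nd (nat_lit 156) (nat_lit 228) (nat_lit 0) (XT.nd (nat_lit 78) (nat_lit 228) (nat_lit 0) (XT.lf (nat_lit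 0) (nat_lit 7300737013) (nat_lit 228) (nat_lit 250281267) (nat_lit 76) (nat_lit 4020326878) (nat_lit 66) (nat_lit 5) (nat_lit 69) (nat_lit 5) (nat_lit 67) (nat_lit 5) (nat_lit 376) (nat_lit 338) (nat_lit 306)) (XT.lf (nat_lit 0) (nat_lit 7645452657) (nat_lit 228) (nat_lit 3413997810) (nat_lit 304) (nat_lit 839534025) (nat_lit 63) (nat_lit 5) (nat_lit 66) (nat_lit 5) (nat_lit 67) (nat_lit 5) (nat_lit 377) (nat_lit 338) (nat_lit 305))) (XT.nd (nat_lit 78) (nat_lit 0) (nat_lit 0) (XT.lf (nat_lit 0) (nat_lit 2680821256) (nat_lit 228) (nat_lit 8592168796) (nat_lit 76) (nat_lit 967571736) (nat_lit 60) (nat_lit 5) (nat_lit 63) (nat_lit 5) (nat_lit 61) (nat_lit 5) (nat_lit 378) (nat_lit 338) (nat_lit 304)) (XT.lf (nat_lit 0) (nat_lit 6408242070) (nat_lit 228) (nat_lit 685681995) (nat_lit 76) (nat_lit 5501662816) (nat_lit 60) (nat_lit 5) (nat_lit 63) (nat_lit 5) (nat_lit 61) (nat_lit 5) (nat_lit 379)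 (nat_lit 338) (nat_lit 303)))))) (XT.nd (nat_lit 546) (nat_lit 608) (nat_lit 0) (XT.nd (nat_lit 234) (nat_lit 532) (nat_lit 0) (XT.nd (nat_lit 78) (nat_lit 228) (nat_lit 0) (XT.lf (nat_lit 0) (nat_lit 7757521158) (nat_lit 152) (nat_lit 2619036943) (nat_lit 228) (nat_lit 2589098113) (nat_lit 58) (nat_lit 5) (nat_lit 60) (nat_lit 5) (nat_lit 61) (nat_lit 5) (nat_lit 380) (nat_lit 338) (nat_lit 302)) (XT.nd (nat_lit 78) (nat_lit 0) (nat_lit 0) (XT.lf (nat_lit 0) (nat_lit 1180897463) (nat_lit 228) (nat_lit 10115020009) (nat_lit 76) (nat_lit 2055906028) (nat_lit 55) (nat_lit 5) (nat_lit 58) (nat_lit 5) (nat_lit 56) (nat_lit 5) (nat_lit 381) (nat_lit 338) (nat_lit 301)) (XT.lf (nat_lit 0) (nat_lit 5119678020) (nat_lit 228) (nat_lit 1663165051) (nat_lit 76) (nat_lit 6968985655) (nat_lit 55) (nat_lit 5) (nat_lit 58) (nat_lit 5) (nat_lit 56) (nat_lit 5) (nat_lit 382) (nat_lit 338) (nat_lit 300))))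 (XT.nd (nat_lit 156) (nat_lit 228) (nat_lit 0) (XT.nd (nat_lit 78) (nat_lit 152) (nat_lit 0) (XT.lf (nat_lit 0) (nat_lit 7343211795) (nat_lit 152) (nat_lit 1964655463) (nat_lit 228) (nat_lit 4861359264) (nat_lit 53) (nat_lit 5) (nat_lit 55) (nat_lit 5) (nat_lit 56) (nat_lit 5) (nat_lit 383) (nat_lit 338) (nat_lit 299)) (XT.lf (nat_lit 0) (nat_lit 2168331149) (nat_lit 152) (nat_lit 11586493969) (nat_lit 228) (nat_lit 850216173) (nat_lit 51) (nat_lit 5) (nat_lit 53) (nat_lit 5) (nat_lit 54) (nat_lit 4) (nat_lit 384) (nat_lit 338) (nat_lit 298))) (XT.nd (nat_lit 78) (nat_lit 152) (nat_lit 0) (XT.lf (nat_lit 0) (nat_lit 3342495267) (nat_lit 228) (nat_lit 3398289529) (nat_lit 76) (nat_lit 8314821550) (nat_lit 50) (nat_lit 5) (nat_lit 53) (nat_lit 5) (nat_lit 51) (nat_lit 5) (nat_lit 385) (nat_lit 338) (nat_lit 297)) (XT.lf (nat_lit 0) (nat_lit 6176548756) (nat_lit 152) (nat_lit 1577958907) (nat_lit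 228) (nat_lit 7771596173) (nat_lit 48) (nat_lit 5) (nat_lit 50) (nat_lit 5) (nat_lit 51) (nat_lit 5) (nat_lit 386) (nat_lit 338) (nat_lit 296))))) (XT.nd (nat_lit 234) (nat_lit 304) (nat_lit 0) (XT.nd (nat_lit 78) (nat_lit 228) (nat_lit 0) (XT.lf (nat_lit 0) (nat_lit 175663046) (nat_lit 76) (nat_lit 12275111542) (nat_lit 152) (nat_lit 3566181290) (nat_lit 47) (nat_lit 5) (nat_lit 48) (nat_lit 5) (nat_lit 49) (nat_lit 4) (nat_lit 387) (nat_lit 338) (nat_lit 295)) (XT.nd (nat_lit 78) (nat_lit 152) (nat_lit 0) (XT.lf (nat_lit 0) (nat_lit 951806355) (nat_lit 152) (nat_lit 6164595324) (nat_lit 76) (nat_lit 9408822336) (nat_lit 46) (nat_lit 5) (nat_lit 48) (nat_lit 5) (nat_lit 47) (nat_lit 5) (nat_lit 388) (nat_lit 338) (nat_lit 294)) (XT.lf (nat_lit 0) (nat_lit 3969109226) (nat_lit 152) (nat_lit 1614123447) (nat_lit 228) (nat_lit 11472391157) (nat_lit 44) (nat_lit 5) (nat_lit 46) (nat_lit 5) (nat_lit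 47) (nat_lit 5) (nat_lit 389) (nat_lit 338) (nat_lit 293)))) (XT.nd (nat_lit 156) (nat_lit 228) (nat_lit 0) (XT.nd (nat_lit 78) (nat_lit 76) (nat_lit 0) (XT.lf (nat_lit 0) (nat_lit 10563262647) (nat_lit 228) (nat_lit 2946430578) (nat_lit 76) (nat_lit 4097008972) (nat_lit 44) (nat_lit 5) (nat_lit 47) (nat_lit 5) (nat_lit 45) (nat_lit 4) (nat_lit 390) (nat_lit 338) (nat_lit 292)) (XT.lf (nat_lit 0) (nat_lit 7833572200) (nat_lit 76) (nat_lit 8055982368) (nat_lit 152) (nat_lit 2290926588) (nat_lit 43) (nat_lit 5) (nat_lit 44) (nat_lit 5) (nat_lit 45) (nat_lit 4) (nat_lit 391) (nat_lit 338) (nat_lit 291))) (XT.nd (nat_lit 78) (nat_lit 0) (nat_lit 0) (XT.lf (nat_lit 0) (nat_lit 351112948) (nat_lit 152) (nat_lit 2266615268) (nat_lit 228) (nat_lit 16162877135) (nat_lit 40) (nat_lit 5) (nat_lit 42) (nat_lit 5) (nat_lit 43) (nat_lit 5) (nat_lit 392) (nat_lit 338) (nat_lit 290)) (XT.lf (nat_lit 0) (nat_lit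 7881569894) (nat_lit 228) (nat_lit 7650666197) (nat_lit 76) (nat_lit 3867293017) (nat_lit 40) (nat_lit 5) (nat_lit 43) (nat_lit 5) (nat_lit 41) (nat_lit 4) (nat_lit 393) (nat_lit 338) (nat_lit 289))))))) (XT.nd (nat_lit 1014) (nat_lit 684) (nat_lit 0) (XT.nd (nat_lit 468) (nat_lit 532) (nat_lit 0) (XT.nd (nat_lit 234) (nat_lit 76) (nat_lit 0) (XT.nd (nat_lit 78) (nat_lit 228) (nat_lit 0) (XT.lf (nat_lit 0) (nat_lit 3659448945) (nat_lit 76) (nat_lit 9794991654) (nat_lit 152) (nat_lit 6592674582) (nat_lit 39) (nat_lit 5) (nat_lit 40) (nat_lit 5) (nat_lit 41) (nat_lit 4) (nat_lit 394) (nat_lit 338) (nat_lit 288)) (XT.nd (nat_lit 78) (nat_lit 228) (nat_lit 0) (XT.lf (nat_lit 0) (nat_lit 15714476958) (nat_lit 76) (nat_lit 3673552128) (nat_lit 152) (nat_lit 1334955356) (nat_lit 39) (nat_lit 5) (nat_lit 40) (nat_lit 5) (nat_lit 41) (nat_lit 4) (nat_lit 395) (nat_lit 338) (nat_lit 287)) (XT.lf (nat_lit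 0) (nat_lit 4160504839) (nat_lit 228) (nat_lit 14456325792) (nat_lit 76) (nat_lit 2807114841) (nat_lit 36) (nat_lit 5) (nat_lit 39) (nat_lit 5) (nat_lit 37) (nat_lit 4) (nat_lit 396) (nat_lit 338) (nat_lit 286)))) (XT.nd (nat_lit 78) (nat_lit 76) (nat_lit 0) (XT.lf (nat_lit 0) (nat_lit 9986652622) (nat_lit 228) (nat_lit 2606732886) (nat_lit 76) (nat_lit 9560442489) (nat_lit 36) (nat_lit 5) (nat_lit 39) (nat_lit 5) (nat_lit 37) (nat_lit 4) (nat_lit 397) (nat_lit 338) (nat_lit 285)) (XT.nd (nat_lit 78) (nat_lit 0) (nat_lit 0) (XT.lf (nat_lit 0) (nat_lit 10077935113) (nat_lit 76) (nat_lit 6140035256) (nat_lit 152) (nat_lit 6696547402) (nat_lit 35) (nat_lit 5) (nat_lit 36) (nat_lit 5) (nat_lit 37) (nat_lit 4) (nat_lit 398) (nat_lit 338) (nat_lit 284)) (XT.lf (nat_lit 0) (nat_lit 22772450968) (nat_lit 152) (nat_lit 314598611) (nat_lit 0) (nat_lit 625618557) (nat_lit 35) (nat_lit 5) (nat_lit 37)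 (nat_lit 4) (nat_lit 35) (nat_lit 4) (nat_lit 399) (nat_lit 338) (nat_lit 283))))) (XT.nd (nat_lit 234) (nat_lit 228) (nat_lit 0) (XT.nd (nat_lit 78) (nat_lit 76) (nat_lit 0) (XT.lf (nat_lit 0) (nat_lit 5208535147) (nat_lit 228) (nat_lit 11546677658) (nat_lit 76) (nat_lit 7778136122) (nat_lit 32) (nat_lit 5) (nat_lit 35) (nat_lit 5) (nat_lit 33) (nat_lit 4) (nat_lit 400) (nat_lit 338) (nat_lit 282)) (XT.nd (nat_lit 78) (nat_lit 0) (nat_lit 0) (XT.lf (nat_lit 0) (nat_lit 1525912618) (nat_lit 76) (nat_lit 10095427217) (nat_lit 152) (nat_lit 13773547782) (nat_lit 31) (nat_lit 5) (nat_lit 32) (nat_lit 5) (nat_lit 33) (nat_lit 4) (nat_lit 401) (nat_lit 338) (nat_lit 281)) (XT.lf (nat_lit 0) (nat_lit 15577686926) (nat_lit 76) (nat_lit 2932397326) (nat_lit 152) (nat_lit 7781658911) (nat_lit 31) (nat_lit 5) (nat_lit 32) (nat_lit 5) (nat_lit 33) (nat_lit 4) (nat_lit 402) (nat_lit 338) (nat_lit 280))))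 (XT.nd (nat_lit 156) (nat_lit 76) (nat_lit 0) (XT.nd (nat_lit 78) (nat_lit 76) (nat_lit 0) (XT.lf (nat_lit 0) (nat_lit 3051498499) (nat_lit 76) (nat_lit 22772199675) (nat_lit 76) (nat_lit 1405726362) (nat_lit 30) (nat_lit 4) (nat_lit 31) (nat_lit 5) (nat_lit 31) (nat_lit 4) (nat_lit 403) (nat_lit 338) (nat_lit 279)) (XT.lf (nat_lit 0) (nat_lit 5313459578) (nat_lit 152) (nat_lit 10534480893) (nat_lit 76) (nat_lit 12352238035) (nat_lit 29) (nat_lit 5) (nat_lit 31) (nat_lit 5) (nat_lit 30) (nat_lit 4) (nat_lit 404) (nat_lit 338) (nat_lit 278))) (XT.nd (nat_lit 78) (nat_lit 0) (nat_lit 0) (XT.lf (nat_lit 0) (nat_lit 3820623907) (nat_lit 76) (nat_lit 8523478996) (nat_lit 152) (nat_lit 16873082079) (nat_lit 28) (nat_lit 5) (nat_lit 29) (nat_lit 5) (nat_lit 30) (nat_lit 4) (nat_lit 405) (nat_lit 338) (nat_lit 277)) (XT.lf (nat_lit 0) (nat_lit 19190590634) (nat_lit 76) (nat_lit 677869565) (nat_lit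 152) (nat_lit 10409476330) (nat_lit 28) (nat_lit 5) (nat_lit 29) (nat_lit 5) (nat_lit 30) (nat_lit 4) (nat_lit 406) (nat_lit 338) (nat_lit 276)))))) (XT.nd (nat_lit 546) (nat_lit 304) (nat_lit 0) (XT.nd (nat_lit 234) (nat_lit 152) (nat_lit 0) (XT.nd (nat_lit 78) (nat_lit 152) (nat_lit 0) (XT.lf (nat_lit 0) (nat_lit 3876772252) (nat_lit 76) (nat_lit 24035841955) (nat_lit 76) (nat_lit 3471936157) (nat_lit 27) (nat_lit 4) (nat_lit 28) (nat_lit 5) (nat_lit 28) (nat_lit 4) (nat_lit 407) (nat_lit 338) (nat_lit 275)) (XT.nd (nat_lit 78) (nat_lit 76) (nat_lit 0) (XT.lf (nat_lit 0) (nat_lit 3857513018) (nat_lit 152) (nat_lit 12703485574) (nat_lit 76) (nat_lit 15974170678) (nat_lit 26) (nat_lit 5) (nat_lit 28) (nat_lit 5) (nat_lit 27) (nat_lit 4) (nat_lit 408) (nat_lit 338) (nat_lit 274)) (XT.lf (nat_lit 0) (nat_lit 2810546538) (nat_lit 76) (nat_lit 8636845774) (nat_lit 152) (nat_lit 22292552241) (nat_lit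 25) (nat_lit 5) (nat_lit 26) (nat_lit 5) (nat_lit 27) (nat_lit 4) (nat_lit 409) (nat_lit 338) (nat_lit 273)))) (XT.nd (nat_lit 156) (nat_lit 76) (nat_lit 0) (XT.nd (nat_lit 78) (nat_lit 76) (nat_lit 0) (XT.lf (nat_lit 0) (nat_lit 19478827887) (nat_lit 76) (nat_lit 120441711) (nat_lit 152) (nat_lit 15396566807) (nat_lit 25) (nat_lit 5) (nat_lit 26) (nat_lit 5) (nat_lit 27) (nat_lit 4) (nat_lit 410) (nat_lit 338) (nat_lit 272)) (XT.lf (nat_lit 0) (nat_lit 483103950) (nat_lit 76) (nat_lit 27789386689) (nat_lit 76) (nat_lit 8036347580) (nat_lit 24) (nat_lit 4) (nat_lit 25) (nat_lit 5) (nat_lit 25) (nat_lit 4) (nat_lit 411) (nat_lit 338) (nat_lit 271))) (XT.nd (nat_lit 78) (nat_lit 76) (nat_lit 0) (XT.lf (nat_lit 0) (nat_lit 17760249546) (nat_lit 76) (nat_lit 19852898313) (nat_lit 76) (nat_lit 62656235) (nat_lit 24) (nat_lit 4) (nat_lit 25) (nat_lit 5) (nat_lit 25) (nat_lit 4) (nat_lit 412) (nat_lit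 338) (nat_lit 270)) (XT.lf (nat_lit 0) (nat_lit 8013789479) (nat_lit 152) (nat_lit 3397405043) (nat_lit 76) (nat_lit 27694937676) (nat_lit 23) (nat_lit 5) (nat_lit 25) (nat_lit 5) (nat_lit 24) (nat_lit 4) (nat_lit 413) (nat_lit 338) (nat_lit 269))))) (XT.nd (nat_lit 234) (nat_lit 152) (nat_lit 0) (XT.nd (nat_lit 78) (nat_lit 76) (nat_lit 0) (XT.lf (nat_lit 0) (nat_lit 14349861208) (nat_lit 76) (nat_lit 2337591901) (nat_lit 152) (nat_lit 23910699533) (nat_lit 22) (nat_lit 5) (nat_lit 23) (nat_lit 5) (nat_lit 24) (nat_lit 4) (nat_lit 414) (nat_lit 338) (nat_lit 268)) (XT.nd (nat_lit 78) (nat_lit 76) (nat_lit 0) (XT.lf (nat_lit 0) (nat_lit 25937096239) (nat_lit 152) (nat_lit 9227807141) (nat_lit 0) (nat_lit 6992758153) (nat_lit 22) (nat_lit 5) (nat_lit 24) (nat_lit 4) (nat_lit 22) (nat_lit 4) (nat_lit 415) (nat_lit 338) (nat_lit 267)) (XT.lf (nat_lit 0) (nat_lit 8835646112) (nat_lit 76) (nat_lit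 26962765000) (nat_lit 76) (nat_lit 7989277415) (nat_lit 21) (nat_lit 4) (nat_lit 22) (nat_lit 5) (nat_lit 22) (nat_lit 4) (nat_lit 416) (nat_lit 338) (nat_lit 266)))) (XT.nd (nat_lit 156) (nat_lit 0) (nat_lit 0) (XT.nd (nat_lit 78) (nat_lit 76) (nat_lit 0) (XT.lf (nat_lit 0) (nat_lit 764459540) (nat_lit 152) (nat_lit 17434106954) (nat_lit 76) (nat_lit 27293551949) (nat_lit 20) (nat_lit 5) (nat_lit 22) (nat_lit 5) (nat_lit 21) (nat_lit 4) (nat_lit 417) (nat_lit 338) (nat_lit 265)) (XT.lf (nat_lit 0) (nat_lit 804425347) (nat_lit 76) (nat_lit 8869776514) (nat_lit 152) (nat_lit 37601680722) (nat_lit 19) (nat_lit 5) (nat_lit 20) (nat_lit 5) (nat_lit 21) (nat_lit 4) (nat_lit 418) (nat_lit 338) (nat_lit 264))) (XT.nd (nat_lit 78) (nat_lit 0) (nat_lit 0) (XT.lf (nat_lit 0) (nat_lit 19318309396) (nat_lit 152) (nat_lit 28643363420) (nat_lit 0) (nat_lit 1172719965) (nat_lit 19) (nat_lit 5) (nat_lit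 21) (nat_lit 4) (nat_lit 19) (nat_lit 4) (nat_lit 419) (nat_lit 338) (nat_lit 263)) (XT.lf (nat_lit 0) (nat_lit 29565584575) (nat_lit 152) (nat_lit 10117041726) (nat_lit 0) (nat_lit 11397155748) (nat_lit 19) (nat_lit 5) (nat_lit 21) (nat_lit 4) (nat_lit 19) (nat_lit 4) (nat_lit 420) (nat_lit 338) (nat_lit 262))))))))
noncomputable def xc93 : XT := (XT.nd (nat_lit 2106) (nat_lit 304) (nat_lit 0) (XT.nd (nat_lit 1014) (nat_lit 380) (nat_lit 0) (XT.nd (nat_lit 468) (nat_lit 304) (nat_lit 0) (XT.nd (nat_lit 234) (nat_lit 76) (nat_lit 0) (XT.nd (nat_lit 78) (nat_lit 76) (nat_lit 0) (XT.lf (nat_lit 0) (nat_lit 9597272872) (nat_lit 76) (nat_lit 30854511057) (nat_lit 76) (nat_lit 12664330425) (nat_lit 18) (nat_lit 4) (nat_lit 19) (nat_lit 5) (nat_lit 19) (nat_lit 4) (nat_lit 421) (nat_lit 338) (nat_lit 261)) (XT.nd (nat_lit 78) (nat_lit 76) (nat_lit 0) (XT.lf (nat_lit 0) (nat_lit 30603781999) (nat_lit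 76) (nat_lit 21426978046) (nat_lit 76) (nat_lit 3216081408) (nat_lit 18) (nat_lit 4) (nat_lit 19) (nat_lit 5) (nat_lit 19) (nat_lit 4) (nat_lit 422) (nat_lit 338) (nat_lit 260)) (XT.lf (nat_lit 0) (nat_lit 6467852013) (nat_lit 152) (nat_lit 4971529539) (nat_lit 76) (nat_lit 46040597849) (nat_lit 17) (nat_lit 5) (nat_lit 19) (nat_lit 5) (nat_lit 18) (nat_lit 4) (nat_lit 423) (nat_lit 338) (nat_lit 259)))) (XT.nd (nat_lit 78) (nat_lit 0) (nat_lit 0) (XT.lf (nat_lit 0) (nat_lit 16105016344) (nat_lit 76) (nat_lit 653243430) (nat_lit 152) (nat_lit 43052361696) (nat_lit 16) (nat_lit 5) (nat_lit 17) (nat_lit 5) (nat_lit 18) (nat_lit 4) (nat_lit 424) (nat_lit 338) (nat_lit 258)) (XT.nd (nat_lit 78) (nat_lit 0) (nat_lit 0) (XT.lf (nat_lit 0) (nat_lit 27794359770) (nat_lit 152) (nat_lit 24054958244) (nat_lit 0) (nat_lit 10396920286) (nat_lit 16) (nat_lit 5) (nat_lit 18) (nat_lit 4) (nat_lit 16) (nat_lit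 4) (nat_lit 425) (nat_lit 338) (nat_lit 257)) (XT.lf (nat_lit 0) (nat_lit 39372948304) (nat_lit 152) (nat_lit 3471877392) (nat_lit 0) (nat_lit 21959277288) (nat_lit 16) (nat_lit 5) (nat_lit 18) (nat_lit 4) (nat_lit 16) (nat_lit 4) (nat_lit 426) (nat_lit 338) (nat_lit 256))))) (XT.nd (nat_lit 234) (nat_lit 152) (nat_lit 0) (XT.nd (nat_lit 78) (nat_lit 76) (nat_lit 0) (XT.lf (nat_lit 0) (nat_lit 18701405494) (nat_lit 76) (nat_lit 33101970340) (nat_lit 76) (nat_lit 15672840722) (nat_lit 15) (nat_lit 4) (nat_lit 16) (nat_lit 5) (nat_lit 16) (nat_lit 4) (nat_lit 427) (nat_lit 338) (nat_lit 255)) (XT.nd (nat_lit 78) (nat_lit 76) (nat_lit 0) (XT.lf (nat_lit 0) (nat_lit 42066979552) (nat_lit 76) (nat_lit 22828403263) (nat_lit 76) (nat_lit 5384551167) (nat_lit 15) (nat_lit 4) (nat_lit 16) (nat_lit 5) (nat_lit 16) (nat_lit 4) (nat_lit 428) (nat_lit 338) (nat_lit 254)) (XT.lf (nat_lit 0) (nat_lit 5226597084)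 (nat_lit 152) (nat_lit 6743349480) (nat_lit 76) (nat_lit 61250569120) (nat_lit 14) (nat_lit 5) (nat_lit 16) (nat_lit 5) (nat_lit 15) (nat_lit 4) (nat_lit 429) (nat_lit 338) (nat_lit 253)))) (XT.nd (nat_lit 156) (nat_lit 76) (nat_lit 0) (XT.nd (nat_lit 78) (nat_lit 0) (nat_lit 0) (XT.lf (nat_lit 0) (nat_lit 16195781038) (nat_lit 76) (nat_lit 227149822) (nat_lit 152) (nat_lit 59869003760) (nat_lit 13) (nat_lit 5) (nat_lit 14) (nat_lit 5) (nat_lit 15) (nat_lit 4) (nat_lit 430) (nat_lit 338) (nat_lit 252)) (XT.lf (nat_lit 0) (nat_lit 28466878323) (nat_lit 152) (nat_lit 39220155137) (nat_lit 0) (nat_lit 11815502079) (nat_lit 13) (nat_lit 5) (nat_lit 15) (nat_lit 4) (nat_lit 13) (nat_lit 4) (nat_lit 431) (nat_lit 338) (nat_lit 251))) (XT.nd (nat_lit 78) (nat_lit 76) (nat_lit 0) (XT.lf (nat_lit 0) (nat_lit 41100332193) (nat_lit 152) (nat_lit 17336549202) (nat_lit 0) (nat_lit 24437420503) (nat_lit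 13) (nat_lit 5) (nat_lit 15) (nat_lit 4) (nat_lit 13) (nat_lit 4) (nat_lit 432) (nat_lit 338) (nat_lit 250)) (XT.lf (nat_lit 0) (nat_lit 5795816825) (nat_lit 76) (nat_lit 48644497797) (nat_lit 76) (nat_lit 31970599966) (nat_lit 12) (nat_lit 4) (nat_lit 13) (nat_lit 5) (nat_lit 13) (nat_lit 4) (nat_lit 433) (nat_lit 338) (nat_lit 249)))))) (XT.nd (nat_lit 546) (nat_lit 228) (nat_lit 0) (XT.nd (nat_lit 234) (nat_lit 76) (nat_lit 0) (XT.nd (nat_lit 78) (nat_lit 76) (nat_lit 0) (XT.lf (nat_lit 0) (nat_lit 30656263209) (nat_lit 76) (nat_lit 38069272165) (nat_lit 76) (nat_lit 21384911344) (nat_lit 12) (nat_lit 4) (nat_lit 13) (nat_lit 5) (nat_lit 13) (nat_lit 4) (nat_lit 434) (nat_lit 338) (nat_lit 248)) (XT.nd (nat_lit 78) (nat_lit 76) (nat_lit 0) (XT.lf (nat_lit 0) (nat_lit 56730756876) (nat_lit 76) (nat_lit 26979628242) (nat_lit 76) (nat_lit 10285302669) (nat_lit 12) (nat_lit 4) (nat_lit 13)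 (nat_lit 5) (nat_lit 13) (nat_lit 4) (nat_lit 435) (nat_lit 338) (nat_lit 247)) (XT.lf (nat_lit 0) (nat_lit 1311296321) (nat_lit 152) (nat_lit 14015658356) (nat_lit 76) (nat_lit 82747876197) (nat_lit 11) (nat_lit 5) (nat_lit 13) (nat_lit 5) (nat_lit 12) (nat_lit 4) (nat_lit 436) (nat_lit 338) (nat_lit 246)))) (XT.nd (nat_lit 156) (nat_lit 0) (nat_lit 0) (XT.nd (nat_lit 78) (nat_lit 0) (nat_lit 0) (XT.lf (nat_lit 0) (nat_lit 10538020909) (nat_lit 76) (nat_lit 2755088869) (nat_lit 152) (nat_lit 89048839483) (nat_lit 10) (nat_lit 5) (nat_lit 11) (nat_lit 5) (nat_lit 12) (nat_lit 4) (nat_lit 437) (nat_lit 338) (nat_lit 245)) (XT.lf (nat_lit 0) (nat_lit 26264886882) (nat_lit 152) (nat_lit 70198308725) (nat_lit 0) (nat_lit 10339684914) (nat_lit 10) (nat_lit 5) (nat_lit 12) (nat_lit 4) (nat_lit 10) (nat_lit 4) (nat_lit 438) (nat_lit 338) (nat_lit 244))) (XT.nd (nat_lit 78) (nat_lit 0) (nat_lit 0)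 (XT.lf (nat_lit 0) (nat_lit 39917597597) (nat_lit 152) (nat_lit 47583056097) (nat_lit 0) (nat_lit 23984587984) (nat_lit 10) (nat_lit 5) (nat_lit 12) (nat_lit 4) (nat_lit 10) (nat_lit 4) (nat_lit 439) (nat_lit 338) (nat_lit 243)) (XT.lf (nat_lit 0) (nat_lit 54240733719) (nat_lit 152) (nat_lit 23861309971) (nat_lit 0) (nat_lit 38300288255) (nat_lit 10) (nat_lit 5) (nat_lit 12) (nat_lit 4) (nat_lit 10) (nat_lit 4) (nat_lit 440) (nat_lit 338) (nat_lit 242))))) (XT.nd (nat_lit 234) (nat_lit 152) (nat_lit 0) (XT.nd (nat_lit 78) (nat_lit 0) (nat_lit 0) (XT.lf (nat_lit 0) (nat_lit 1057248557) (nat_lit 76) (nat_lit 68227656010) (nat_lit 76) (nat_lit 52280128781) (nat_lit 9) (nat_lit 4) (nat_lit 10) (nat_lit 5) (nat_lit 10) (nat_lit 4) (nat_lit 441) (nat_lit 338) (nat_lit 241)) (XT.nd (nat_lit 78) (nat_lit 0) (nat_lit 0) (XT.lf (nat_lit 0) (nat_lit 28027405151) (nat_lit 76) (nat_lit 57446551644) (nat_lit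 76) (nat_lit 41492279878) (nat_lit 9) (nat_lit 4) (nat_lit 10) (nat_lit 5) (nat_lit 10) (nat_lit 4) (nat_lit 442) (nat_lit 338) (nat_lit 240)) (XT.lf (nat_lit 0) (nat_lit 56324411801) (nat_lit 76) (nat_lit 46137164127) (nat_lit 76) (nat_lit 30176468993) (nat_lit 9) (nat_lit 4) (nat_lit 10) (nat_lit 5) (nat_lit 10) (nat_lit 4) (nat_lit 443) (nat_lit 338) (nat_lit 239)))) (XT.nd (nat_lit 156) (nat_lit 152) (nat_lit 0) (XT.nd (nat_lit 78) (nat_lit 0) (nat_lit 0) (XT.lf (nat_lit 0) (nat_lit 86015642332) (nat_lit 76) (nat_lit 34272566346) (nat_lit 76) (nat_lit 18305753718) (nat_lit 9) (nat_lit 4) (nat_lit 10) (nat_lit 5) (nat_lit 10) (nat_lit 4) (nat_lit 444) (nat_lit 338) (nat_lit 238)) (XT.lf (nat_lit 0) (nat_lit 117171790151) (nat_lit 76) (nat_lit 21824509258) (nat_lit 76) (nat_lit 5851870446) (nat_lit 9) (nat_lit 4) (nat_lit 10) (nat_lit 5) (nat_lit 10) (nat_lit 4) (nat_lit 445) (nat_lit 338)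 (nat_lit 237))) (XT.nd (nat_lit 78) (nat_lit 76) (nat_lit 0) (XT.lf (nat_lit 0) (nat_lit 6983913214) (nat_lit 152) (nat_lit 1661165469) (nat_lit 76) (nat_lit 142764847396) (nat_lit 8) (nat_lit 5) (nat_lit 10) (nat_lit 5) (nat_lit 9) (nat_lit 4) (nat_lit 446) (nat_lit 338) (nat_lit 236)) (XT.lf (nat_lit 0) (nat_lit 20756937123) (nat_lit 152) (nat_lit 131978848371) (nat_lit 0) (nat_lit 5534582761) (nat_lit 7) (nat_lit 5) (nat_lit 9) (nat_lit 4) (nat_lit 7) (nat_lit 4) (nat_lit 447) (nat_lit 338) (nat_lit 235))))))) (XT.nd (nat_lit 1014) (nat_lit 228) (nat_lit 0) (XT.nd (nat_lit 468) (nat_lit 0) (nat_lit 0) (XT.nd (nat_lit 234) (nat_lit 76) (nat_lit 0) (XT.nd (nat_lit 78) (nat_lit 0) (nat_lit 0) (XT.lf (nat_lit 0) (nat_lit 35379842285) (nat_lit 152) (nat_lit 109933234397) (nat_lit 0) (nat_lit 20152694706) (nat_lit 7) (nat_lit 5) (nat_lit 9) (nat_lit 4) (nat_lit 7) (nat_lit 4) (nat_lit 448) (nat_lit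 338) (nat_lit 234)) (XT.nd (nat_lit 78) (nat_lit 0) (nat_lit 0) (XT.lf (nat_lit 0) (nat_lit 50725239013) (nat_lit 152) (nat_lit 86802612217) (nat_lit 0) (nat_lit 35493526466) (nat_lit 7) (nat_lit 5) (nat_lit 9) (nat_lit 4) (nat_lit 7) (nat_lit 4) (nat_lit 449) (nat_lit 338) (nat_lit 233)) (XT.lf (nat_lit 0) (nat_lit 66829663966) (nat_lit 152) (nat_lit 62531908922) (nat_lit 0) (nat_lit 51593603831) (nat_lit 7) (nat_lit 5) (nat_lit 9) (nat_lit 4) (nat_lit 7) (nat_lit 4) (nat_lit 450) (nat_lit 338) (nat_lit 232)))) (XT.nd (nat_lit 78) (nat_lit 76) (nat_lit 0) (XT.lf (nat_lit 0) (nat_lit 83731461014) (nat_lit 152) (nat_lit 37063337123) (nat_lit 0) (nat_lit 68491260318) (nat_lit 7) (nat_lit 5) (nat_lit 9) (nat_lit 4) (nat_lit 7) (nat_lit 4) (nat_lit 451) (nat_lit 338) (nat_lit 231)) (XT.nd (nat_lit 78) (nat_lit 76) (nat_lit 0) (XT.lf (nat_lit 0) (nat_lit 101470872529) (nat_lit 152) (nat_lit 10336257363)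 (nat_lit 0) (nat_lit 86226728442) (nat_lit 7) (nat_lit 5) (nat_lit 9) (nat_lit 4) (nat_lit 7) (nat_lit 4) (nat_lit 452) (nat_lit 338) (nat_lit 230)) (XT.lf (nat_lit 0) (nat_lit 18298636920) (nat_lit 76) (nat_lit 102077191291) (nat_lit 76) (nat_lit 86829291593) (nat_lit 6) (nat_lit 4) (nat_lit 7) (nat_lit 5) (nat_lit 7) (nat_lit 4) (nat_lit 453) (nat_lit 338) (nat_lit 229))))) (XT.nd (nat_lit 234) (nat_lit 0) (nat_lit 0) (XT.nd (nat_lit 78) (nat_lit 0) (nat_lit 0) (XT.lf (nat_lit 0) (nat_lit 48710146506) (nat_lit 76) (nat_lit 91683936015) (nat_lit 76) (nat_lit 76432459546) (nat_lit 6) (nat_lit 4) (nat_lit 7) (nat_lit 5) (nat_lit 7) (nat_lit 4) (nat_lit 454) (nat_lit 338) (nat_lit 228)) (XT.nd (nat_lit 78) (nat_lit 0) (nat_lit 0) (XT.lf (nat_lit 0) (nat_lit 80628916403) (nat_lit 76) (nat_lit 80777667740) (nat_lit 76) (nat_lit 65522784821) (nat_lit 6) (nat_lit 4) (nat_lit 7) (nat_lit 5) (nat_lit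 7) (nat_lit 4) (nat_lit 455) (nat_lit 338) (nat_lit 227)) (XT.lf (nat_lit 0) (nat_lit 114130943681) (nat_lit 76) (nat_lit 69332419159) (nat_lit 76) (nat_lit 54074292003) (nat_lit 6) (nat_lit 4) (nat_lit 7) (nat_lit 5) (nat_lit 7) (nat_lit 4) (nat_lit 456) (nat_lit 338) (nat_lit 226)))) (XT.nd (nat_lit 156) (nat_lit 0) (nat_lit 0) (XT.nd (nat_lit 78) (nat_lit 0) (nat_lit 0) (XT.lf (nat_lit 0) (nat_lit 149295995072) (nat_lit 76) (nat_lit 57320939682) (nat_lit 76) (nat_lit 42059722775) (nat_lit 6) (nat_lit 4) (nat_lit 7) (nat_lit 5) (nat_lit 7) (nat_lit 4) (nat_lit 457) (nat_lit 338) (nat_lit 225)) (XT.lf (nat_lit 0) (nat_lit 186207796889) (nat_lit 76) (nat_lit 44714630546) (nat_lit 76) (nat_lit 29450471021) (nat_lit 6) (nat_lit 4) (nat_lit 7) (nat_lit 5) (nat_lit 7) (nat_lit 4) (nat_lit 458) (nat_lit 338) (nat_lit 224))) (XT.nd (nat_lit 78) (nat_lit 0) (nat_lit 0) (XT.lf (nat_lit 0) (nat_lit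 224954234374) (nat_lit 76) (nat_lit 31483476731) (nat_lit 76) (nat_lit 16216514711) (nat_lit 6) (nat_lit 4) (nat_lit 7) (nat_lit 5) (nat_lit 7) (nat_lit 4) (nat_lit 459) (nat_lit 338) (nat_lit 223)) (XT.lf (nat_lit 0) (nat_lit 265627560951) (nat_lit 76) (nat_lit 17595975489) (nat_lit 76) (nat_lit 2326344427) (nat_lit 6) (nat_lit 4) (nat_lit 7) (nat_lit 5) (nat_lit 7) (nat_lit 4) (nat_lit 460) (nat_lit 338) (nat_lit 222)))))) (XT.nd (nat_lit 546) (nat_lit 76) (nat_lit 0) (XT.nd (nat_lit 234) (nat_lit 0) (nat_lit 0) (XT.nd (nat_lit 78) (nat_lit 0) (nat_lit 0) (XT.lf (nat_lit 0) (nat_lit 9341738895) (nat_lit 76) (nat_lit 2665047398) (nat_lit 152) (nat_lit 287066923448) (nat_lit 4) (nat_lit 5) (nat_lit 5) (nat_lit 5) (nat_lit 6) (nat_lit 4) (nat_lit 461) (nat_lit 338) (nat_lit 221)) (XT.nd (nat_lit 78) (nat_lit 0) (nat_lit 0) (XT.lf (nat_lit 0) (nat_lit 27519431153) (nat_lit 152) (nat_lit 272753141473)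 (nat_lit 0) (nat_lit 12972198860) (nat_lit 4) (nat_lit 5) (nat_lit 6) (nat_lit 4) (nat_lit 4) (nat_lit 4) (nat_lit 462) (nat_lit 338) (nat_lit 220)) (XT.lf (nat_lit 0) (nat_lit 43846590314) (nat_lit 152) (nat_lit 254978689869) (nat_lit 0) (nat_lit 29297162194) (nat_lit 4) (nat_lit 5) (nat_lit 6) (nat_lit 4) (nat_lit 4) (nat_lit 4) (nat_lit 463) (nat_lit 338) (nat_lit 219)))) (XT.nd (nat_lit 156) (nat_lit 0) (nat_lit 0) (XT.nd (nat_lit 78) (nat_lit 0) (nat_lit 0) (XT.lf (nat_lit 0) (nat_lit 60985529108) (nat_lit 152) (nat_lit 236324687050) (nat_lit 0) (nat_lit 46434009723) (nat_lit 4) (nat_lit 5) (nat_lit 6) (nat_lit 4) (nat_lit 4) (nat_lit 4) (nat_lit 464) (nat_lit 338) (nat_lit 218)) (XT.lf (nat_lit 0) (nat_lit 78977054531) (nat_lit 152) (nat_lit 216746718726) (nat_lit 0) (nat_lit 64423543466) (nat_lit 4) (nat_lit 5) (nat_lit 6) (nat_lit 4) (nat_lit 4) (nat_lit 4) (nat_lit 465) (nat_lit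 338) (nat_lit 217))) (XT.nd (nat_lit 78) (nat_lit 0) (nat_lit 0) (XT.lf (nat_lit 0) (nat_lit 97864003549) (nat_lit 152) (nat_lit 196198170686) (nat_lit 0) (nat_lit 83308595645) (nat_lit 4) (nat_lit 5) (nat_lit 6) (nat_lit 4) (nat_lit 4) (nat_lit 4) (nat_lit 466) (nat_lit 338) (nat_lit 216)) (XT.lf (nat_lit 0) (nat_lit 117691345087) (nat_lit 152) (nat_lit 174630117815) (nat_lit 0) (nat_lit 103134130671) (nat_lit 4) (nat_lit 5) (nat_lit 6) (nat_lit 4) (nat_lit 4) (nat_lit 4) (nat_lit 467) (nat_lit 338) (nat_lit 215))))) (XT.nd (nat_lit 234) (nat_lit 76) (nat_lit 0) (XT.nd (nat_lit 78) (nat_lit 0) (nat_lit 0) (XT.lf (nat_lit 0) (nat_lit 138506287102) (nat_lit 152) (nat_lit 151991207606) (nat_lit 0) (nat_lit 123947352197) (nat_lit 4) (nat_lit 5) (nat_lit 6) (nat_lit 4) (nat_lit 4) (nat_lit 4) (nat_lit 468) (nat_lit 338) (nat_lit 214)) (XT.nd (nat_lit 78) (nat_lit 0) (nat_lit 0) (XT.lf (nat_lit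 0) (nat_lit 160358388980) (nat_lit 152) (nat_lit 128227537893) (nat_lit 0) (nat_lit 145797815515) (nat_lit 4) (nat_lit 5) (nat_lit 6) (nat_lit 4) (nat_lit 4) (nat_lit 4) (nat_lit 469) (nat_lit 338) (nat_lit 213)) (XT.lf (nat_lit 0) (nat_lit 183299679535) (nat_lit 152) (nat_lit 103282528510) (nat_lit 0) (nat_lit 168737545536) (nat_lit 4) (nat_lit 5) (nat_lit 6) (nat_lit 4) (nat_lit 4) (nat_lit 4) (nat_lit 470) (nat_lit 338) (nat_lit 212)))) (XT.nd (nat_lit 156) (nat_lit 76) (nat_lit 0) (XT.nd (nat_lit 78) (nat_lit 0) (nat_lit 0) (XT.lf (nat_lit 0) (nat_lit 207384780887) (nat_lit 152) (nat_lit 77096786576) (nat_lit 0) (nat_lit 192821160665) (nat_lit 4) (nat_lit 5) (nat_lit 6) (nat_lit 4) (nat_lit 4) (nat_lit 4) (nat_lit 471) (nat_lit 338) (nat_lit 211)) (XT.lf (nat_lit 0) (nat_lit 232671038515) (nat_lit 152) (nat_lit 49607965087) (nat_lit 0) (nat_lit 218106002843) (nat_lit 4) (nat_lit 5) (nat_lit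 6) (nat_lit 4) (nat_lit 4) (nat_lit 4) (nat_lit 472) (nat_lit 338) (nat_lit 210))) (XT.nd (nat_lit 78) (nat_lit 76) (nat_lit 0) (XT.lf (nat_lit 0) (nat_lit 259218657795) (nat_lit 152) (nat_lit 20750614469) (nat_lit 0) (nat_lit 244652274075) (nat_lit 4) (nat_lit 5) (nat_lit 6) (nat_lit 4) (nat_lit 4) (nat_lit 4) (nat_lit 473) (nat_lit 338) (nat_lit 209)) (XT.lf (nat_lit 0) (nat_lit 9859540113) (nat_lit 76) (nat_lit 277385242283) (nat_lit 76) (nat_lit 262817574708) (nat_lit 3) (nat_lit 4) (nat_lit 4) (nat_lit 5) (nat_lit 4) (nat_lit 4) (nat_lit 474) (nat_lit 338) (nat_lit 208))))))))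
noncomputable def xc94 : XT := (XT.nd (nat_lit 44148) (nat_lit 0) (nat_lit 3572) (XT.nd (nat_lit 43056) (nat_lit 0) (nat_lit 8132) (XT.nd (nat_lit 468) (nat_lit 0) (nat_lit 0) (XT.nd (nat_lit 234) (nat_lit 0) (nat_lit 0) (XT.nd (nat_lit 78) (nat_lit 0) (nat_lit 0) (XT.lf (nat_lit 0) (nat_lit 42715077293) (nat_lit 76) (nat_lit 274305794289) (nat_lit 76) (nat_lit 259736903996) (nat_lit 3) (nat_lit 4) (nat_lit 4) (nat_lit 5) (nat_lit 4) (nat_lit 4) (nat_lit 475) (nat_lit 338) (nat_lit 207)) (XT.nd (nat_lit 78) (nat_lit 0) (nat_lit 0) (XT.lf (nat_lit 0) (nat_lit 77208115513) (nat_lit 76) (nat_lit 271075017962) (nat_lit 76) (nat_lit 256504963175) (nat_lit 3) (nat_lit 4) (nat_lit 4) (nat_lit 5) (nat_lit 4) (nat_lit 4) (nat_lit 476) (nat_lit 338) (nat_lit 206)) (XT.lf (nat_lit 0) (nat_lit 113420781054) (nat_lit 76) (nat_lit 267685220977) (nat_lit 76) (nat_lit 253114057147) (nat_lit 3) (nat_lit 4)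 (nat_lit 4) (nat_lit 5) (nat_lit 4) (nat_lit 4) (nat_lit 477) (nat_lit 338) (nat_lit 205)))) (XT.nd (nat_lit 78) (nat_lit 0) (nat_lit 0) (XT.lf (nat_lit 0) (nat_lit 151439294548) (nat_lit 76) (nat_lit 264128332388) (nat_lit 76) (nat_lit 249556112327) (nat_lit 3) (nat_lit 4) (nat_lit 4) (nat_lit 5) (nat_lit 4) (nat_lit 4) (nat_lit 478) (nat_lit 338) (nat_lit 204)) (XT.nd (nat_lit 78) (nat_lit 0) (nat_lit 0) (XT.lf (nat_lit 0) (nat_lit 191354176266) (nat_lit 76) (nat_lit 260395883413) (nat_lit 76) (nat_lit 245822657418) (nat_lit 3) (nat_lit 4) (nat_lit 4) (nat_lit 5) (nat_lit 4) (nat_lit 4) (nat_lit 479) (nat_lit 338) (nat_lit 203)) (XT.lf (nat_lit 0) (nat_lit 233260461640) (nat_lit 76) (nat_lit 256478987269) (nat_lit 76) (nat_lit 241904803242) (nat_lit 3) (nat_lit 4) (nat_lit 4) (nat_lit 5) (nat_lit 4) (nat_lit 4) (nat_lit 480) (nat_lit 338) (nat_lit 202))))) (XT.nd (nat_lit 42276) (nat_lit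 0) (nat_lit 12920) (XT.nd (nat_lit 78) (nat_lit 0) (nat_lit 0) (XT.lf (nat_lit 0) (nat_lit 277257927541) (nat_lit 76) (nat_lit 252368318012) (nat_lit 76) (nat_lit 237793221573) (nat_lit 3) (nat_lit 4) (nat_lit 4) (nat_lit 5) (nat_lit 4) (nat_lit 4) (nat_lit 481) (nat_lit 338) (nat_lit 201)) (XT.nd (nat_lit 78) (nat_lit 0) (nat_lit 0) (XT.lf (nat_lit 0) (nat_lit 323451329839) (nat_lit 76) (nat_lit 248054088335) (nat_lit 76) (nat_lit 233478122933) (nat_lit 3) (nat_lit 4) (nat_lit 4) (nat_lit 5) (nat_lit 4) (nat_lit 4) (nat_lit 482) (nat_lit 338) (nat_lit 200)) (XT.lf (nat_lit 0) (nat_lit 371950652825) (nat_lit 76) (nat_lit 243526026263) (nat_lit 76) (nat_lit 228949233276) (nat_lit 3) (nat_lit 4) (nat_lit 4) (nat_lit 5) (nat_lit 4) (nat_lit 4) (nat_lit 483) (nat_lit 338) (nat_lit 199)))) (XT.nd (nat_lit 156) (nat_lit 228) (nat_lit 0) (XT.nd (nat_lit 78) (nat_lit 0) (nat_lit 0) (XT.lf (nat_lit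 0) (nat_lit 34220019) (nat_lit 76) (nat_lit 1596094598) (nat_lit 76) (nat_lit 1596094598) (nat_lit 176) (nat_lit 4) (nat_lit 177) (nat_lit 5) (nat_lit 177) (nat_lit 4) (nat_lit 342) (nat_lit 339) (nat_lit 339)) (XT.lf (nat_lit 0) (nat_lit 3539841054) (nat_lit 76) (nat_lit 2894482152) (nat_lit 76) (nat_lit 34092368) (nat_lit 176) (nat_lit 4) (nat_lit 177) (nat_lit 5) (nat_lit 177) (nat_lit 4) (nat_lit 343) (nat_lit 339) (nat_lit 338))) (XT.nd (nat_lit 78) (nat_lit 0) (nat_lit 0) (XT.lf (nat_lit 0) (nat_lit 550635760) (nat_lit 152) (nat_lit 2442147796) (nat_lit 228) (nat_lit 3498841381) (nat_lit 173) (nat_lit 5) (nat_lit 175) (nat_lit 5) (nat_lit 176) (nat_lit 4) (nat_lit 344) (nat_lit 339) (nat_lit 337)) (XT.lf (nat_lit 0) (nat_lit 4191002135) (nat_lit 152) (nat_lit 1843159094) (nat_lit 228) (nat_lit 488771501) (nat_lit 173) (nat_lit 5) (nat_lit 175) (nat_lit 5) (nat_lit 176) (nat_lit 4) (nat_lit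 345) (nat_lit 339) (nat_lit 336)))))) (XT.nd (nat_lit 546) (nat_lit 3192) (nat_lit 0) (XT.nd (nat_lit 234) (nat_lit 912) (nat_lit 0) (XT.nd (nat_lit 78) (nat_lit 380) (nat_lit 0) (XT.lf (nat_lit 0) (nat_lit 1344316387) (nat_lit 228) (nat_lit 1083438853) (nat_lit 304) (nat_lit 4134055826) (nat_lit 169) (nat_lit 5) (nat_lit 172) (nat_lit 5) (nat_lit 173) (nat_lit 5) (nat_lit 346) (nat_lit 339) (nat_lit 335)) (XT.nd (nat_lit 78) (nat_lit 380) (nat_lit 0) (XT.lf (nat_lit 0) (nat_lit 5164328782) (nat_lit 228) (nat_lit 175984515) (nat_lit 304) (nat_lit 1268744277) (nat_lit 169) (nat_lit 5) (nat_lit 172) (nat_lit 5) (nat_lit 173) (nat_lit 5) (nat_lit 347) (nat_lit 339) (nat_lit 334)) (XT.lf (nat_lit 0) (nat_lit 1569179974) (nat_lit 380) (nat_lit 4222898432) (nat_lit 76) (nat_lit 871120076) (nat_lit 164) (nat_lit 5) (nat_lit 169) (nat_lit 5) (nat_lit 165) (nat_lit 5) (nat_lit 348) (nat_lit 339) (nat_lit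 333)))) (XT.nd (nat_lit 156) (nat_lit 456) (nat_lit 0) (XT.nd (nat_lit 78) (nat_lit 456) (nat_lit 0) (XT.lf (nat_lit 0) (nat_lit 4373779377) (nat_lit 380) (nat_lit 293352912) (nat_lit 76) (nat_lit 2058638472) (nat_lit 164) (nat_lit 5) (nat_lit 169) (nat_lit 5) (nat_lit 165) (nat_lit 5) (nat_lit 349) (nat_lit 339) (nat_lit 332)) (XT.lf (nat_lit 0) (nat_lit 415890652) (nat_lit 456) (nat_lit 2961793792) (nat_lit 76) (nat_lit 3418217011) (nat_lit 158) (nat_lit 5) (nat_lit 164) (nat_lit 5) (nat_lit 159) (nat_lit 5) (nat_lit 350) (nat_lit 339) (nat_lit 331))) (XT.nd (nat_lit 78) (nat_lit 0) (nat_lit 0) (XT.lf (nat_lit 0) (nat_lit 1190623508) (nat_lit 456) (nat_lit 1926419992) (nat_lit 532) (nat_lit 3756988106) (nat_lit 152) (nat_lit 5) (nat_lit 158) (nat_lit 5) (nat_lit 159) (nat_lit 5) (nat_lit 351) (nat_lit 339) (nat_lit 330)) (XT.lf (nat_lit 0) (nat_lit 5537705806) (nat_lit 456) (nat_lit 321309956)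 (nat_lit 532) (nat_lit 1101875586) (nat_lit 152) (nat_lit 5) (nat_lit 158) (nat_lit 5) (nat_lit 159) (nat_lit 5) (nat_lit 352) (nat_lit 339) (nat_lit 329))))) (XT.nd (nat_lit 234) (nat_lit 1976) (nat_lit 0) (XT.nd (nat_lit 78) (nat_lit 608) (nat_lit 0) (XT.lf (nat_lit 0) (nat_lit 1561952618) (nat_lit 608) (nat_lit 4073507024) (nat_lit 76) (nat_lit 1418923001) (nat_lit 144) (nat_lit 5) (nat_lit 152) (nat_lit 5) (nat_lit 145) (nat_lit 5) (nat_lit 353) (nat_lit 339) (nat_lit 328)) (XT.nd (nat_lit 78) (nat_lit 0) (nat_lit 0) (XT.lf (nat_lit 0) (nat_lit 371028873) (nat_lit 608) (nat_lit 3851827730) (nat_lit 684) (nat_lit 2933839031) (nat_lit 136) (nat_lit 5) (nat_lit 144) (nat_lit 5) (nat_lit 145) (nat_lit 5) (nat_lit 354) (nat_lit 339) (nat_lit 327)) (XT.lf (nat_lit 0) (nat_lit 5060828707) (nat_lit 608) (nat_lit 1894884113) (nat_lit 684) (nat_lit 311557566) (nat_lit 136) (nat_lit 5) (nat_lit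 144) (nat_lit 5) (nat_lit 145) (nat_lit 5) (nat_lit 355) (nat_lit 339) (nat_lit 326)))) (XT.nd (nat_lit 156) (nat_lit 1216) (nat_lit 0) (XT.nd (nat_lit 78) (nat_lit 0) (nat_lit 0) (XT.lf (nat_lit 0) (nat_lit 2281053889) (nat_lit 760) (nat_lit 4862267027) (nat_lit 76) (nat_lit 242361222) (nat_lit 126) (nat_lit 5) (nat_lit 136) (nat_lit 5) (nat_lit 127) (nat_lit 5) (nat_lit 356) (nat_lit 339) (nat_lit 325)) (XT.lf (nat_lit 0) (nat_lit 4940175461) (nat_lit 760) (nat_lit 99946233) (nat_lit 76) (nat_lit 2472348923) (nat_lit 126) (nat_lit 5) (nat_lit 136) (nat_lit 5) (nat_lit 127) (nat_lit 5) (nat_lit 357) (nat_lit 339) (nat_lit 324))) (XT.nd (nat_lit 78) (nat_lit 380) (nat_lit 0) (XT.lf (nat_lit 0) (nat_lit 44450499) (nat_lit 836) (nat_lit 2705229881) (nat_lit 76) (nat_lit 4897893688) (nat_lit 115) (nat_lit 5) (nat_lit 126) (nat_lit 5) (nat_lit 116) (nat_lit 5) (nat_lit 358) (nat_lit 339) (nat_lit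 323)) (XT.lf (nat_lit 0) (nat_lit 2366849705) (nat_lit 380) (nat_lit 263347943) (nat_lit 456) (nat_lit 5160964346) (nat_lit 110) (nat_lit 5) (nat_lit 115) (nat_lit 5) (nat_lit 116) (nat_lit 5) (nat_lit 359) (nat_lit 339) (nat_lit 322))))))) (XT.nd (nat_lit 1014) (nat_lit 1900) (nat_lit 0) (XT.nd (nat_lit 468) (nat_lit 1140) (nat_lit 0) (XT.nd (nat_lit 234) (nat_lit 684) (nat_lit 0) (XT.nd (nat_lit 78) (nat_lit 836) (nat_lit 0) (XT.lf (nat_lit 0) (nat_lit 5317925773) (nat_lit 456) (nat_lit 311772165) (nat_lit 76) (nat_lit 2313661699) (nat_lit 110) (nat_lit 5) (nat_lit 116) (nat_lit 5) (nat_lit 111) (nat_lit 5) (nat_lit 360) (nat_lit 339) (nat_lit 321)) (XT.nd (nat_lit 78) (nat_lit 380) (nat_lit 0) (XT.lf (nat_lit 0) (nat_lit 13967430) (nat_lit 456) (nat_lit 3004630537) (nat_lit 76) (nat_lit 5085685645) (nat_lit 104) (nat_lit 5) (nat_lit 110) (nat_lit 5) (nat_lit 105) (nat_lit 5) (nat_lit 361)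 (nat_lit 339) (nat_lit 320)) (XT.lf (nat_lit 0) (nat_lit 2437325576) (nat_lit 380) (nat_lit 199454387) (nat_lit 456) (nat_lit 5637394330) (nat_lit 99) (nat_lit 5) (nat_lit 104) (nat_lit 5) (nat_lit 105) (nat_lit 5) (nat_lit 362) (nat_lit 339) (nat_lit 319)))) (XT.nd (nat_lit 78) (nat_lit 684) (nat_lit 0) (XT.lf (nat_lit 0) (nat_lit 5384721830) (nat_lit 456) (nat_lit 358267601) (nat_lit 76) (nat_lit 2709924118) (nat_lit 99) (nat_lit 5) (nat_lit 105) (nat_lit 5) (nat_lit 100) (nat_lit 5) (nat_lit 363) (nat_lit 339) (nat_lit 318)) (XT.nd (nat_lit 78) (nat_lit 380) (nat_lit 0) (XT.lf (nat_lit 0) (nat_lit 5451148166) (nat_lit 304) (nat_lit 2811259809) (nat_lit 380) (nat_lit 378615364) (nat_lit 95) (nat_lit 5) (nat_lit 99) (nat_lit 5) (nat_lit 100) (nat_lit 5) (nat_lit 364) (nat_lit 339) (nat_lit 317)) (XT.lf (nat_lit 0) (nat_lit 2325273194) (nat_lit 380) (nat_lit 6187938726) (nat_lit 76) (nat_lit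 325558748) (nat_lit 90) (nat_lit 5) (nat_lit 95) (nat_lit 5) (nat_lit 91) (nat_lit 5) (nat_lit 365) (nat_lit 339) (nat_lit 316))))) (XT.nd (nat_lit 234) (nat_lit 532) (nat_lit 0) (XT.nd (nat_lit 78) (nat_lit 608) (nat_lit 0) (XT.lf (nat_lit 0) (nat_lit 5160236458) (nat_lit 380) (nat_lit 320637944) (nat_lit 76) (nat_lit 3564834405) (nat_lit 90) (nat_lit 5) (nat_lit 95) (nat_lit 5) (nat_lit 91) (nat_lit 5) (nat_lit 366) (nat_lit 339) (nat_lit 315)) (XT.nd (nat_lit 78) (nat_lit 380) (nat_lit 0) (XT.lf (nat_lit 0) (nat_lit 5916955284) (nat_lit 228) (nat_lit 2224382686) (nat_lit 304) (nat_lit 1121478280) (nat_lit 87) (nat_lit 5) (nat_lit 90) (nat_lit 5) (nat_lit 91) (nat_lit 5) (nat_lit 367) (nat_lit 339) (nat_lit 314)) (XT.lf (nat_lit 0) (nat_lit 1707709200) (nat_lit 380) (nat_lit 6571046224) (nat_lit 76) (nat_lit 1211472161) (nat_lit 82) (nat_lit 5) (nat_lit 87) (nat_lit 5) (nat_lit 83) (nat_lit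 5) (nat_lit 368) (nat_lit 339) (nat_lit 313)))) (XT.nd (nat_lit 156) (nat_lit 304) (nat_lit 0) (XT.nd (nat_lit 78) (nat_lit 228) (nat_lit 0) (XT.lf (nat_lit 0) (nat_lit 4649729955) (nat_lit 380) (nat_lit 283880180) (nat_lit 76) (nat_lit 4794063155) (nat_lit 82) (nat_lit 5) (nat_lit 87) (nat_lit 5) (nat_lit 83) (nat_lit 5) (nat_lit 369) (nat_lit 339) (nat_lit 312)) (XT.lf (nat_lit 0) (nat_lit 6412836571) (nat_lit 228) (nat_lit 1345189855) (nat_lit 304) (nat_lit 2218040593) (nat_lit 79) (nat_lit 5) (nat_lit 82) (nat_lit 5) (nat_lit 83) (nat_lit 5) (nat_lit 370) (nat_lit 339) (nat_lit 311))) (XT.nd (nat_lit 78) (nat_lit 0) (nat_lit 0) (XT.lf (nat_lit 0) (nat_lit 772866462) (nat_lit 304) (nat_lit 7079385668) (nat_lit 76) (nat_lit 2383390405) (nat_lit 75) (nat_lit 5) (nat_lit 79) (nat_lit 5) (nat_lit 76) (nat_lit 5) (nat_lit 371) (nat_lit 339) (nat_lit 310)) (XT.lf (nat_lit 0) (nat_lit 3843681167)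 (nat_lit 304) (nat_lit 341772960) (nat_lit 76) (nat_lit 6320709261) (nat_lit 75) (nat_lit 5) (nat_lit 79) (nat_lit 5) (nat_lit 76) (nat_lit 5) (nat_lit 372) (nat_lit 339) (nat_lit 309)))))) (XT.nd (nat_lit 546) (nat_lit 760) (nat_lit 0) (XT.nd (nat_lit 234) (nat_lit 608) (nat_lit 0) (XT.nd (nat_lit 78) (nat_lit 304) (nat_lit 0) (XT.lf (nat_lit 0) (nat_lit 6844534543) (nat_lit 228) (nat_lit 255618159) (nat_lit 304) (nat_lit 3688480137) (nat_lit 72) (nat_lit 5) (nat_lit 75) (nat_lit 5) (nat_lit 76) (nat_lit 5) (nat_lit 373) (nat_lit 339) (nat_lit 308)) (XT.nd (nat_lit 78) (nat_lit 76) (nat_lit 0) (XT.lf (nat_lit 0) (nat_lit 3251960016) (nat_lit 228) (nat_lit 7311230791) (nat_lit 304) (nat_lit 519874814) (nat_lit 69) (nat_lit 5) (nat_lit 72) (nat_lit 5) (nat_lit 73) (nat_lit 5) (nat_lit 374) (nat_lit 339) (nat_lit 307)) (XT.lf (nat_lit 0) (nat_lit 2716675718) (nat_lit 304) (nat_lit 602600094)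 (nat_lit 76) (nat_lit 8070809266) (nat_lit 68) (nat_lit 5) (nat_lit 72) (nat_lit 5) (nat_lit 69) (nat_lit 5) (nat_lit 375) (nat_lit 339) (nat_lit 306)))) (XT.nd (nat_lit 156) (nat_lit 228) (nat_lit 0) (XT.nd (nat_lit 78) (nat_lit 228) (nat_lit 0) (XT.lf (nat_lit 0) (nat_lit 6154239234) (nat_lit 228) (nat_lit 4623038001) (nat_lit 76) (nat_lit 931942644) (nat_lit 66) (nat_lit 5) (nat_lit 69) (nat_lit 5) (nat_lit 67) (nat_lit 5) (nat_lit 376) (nat_lit 339) (nat_lit 305)) (XT.lf (nat_lit 0) (nat_lit 3075035594) (nat_lit 228) (nat_lit 6733338969) (nat_lit 304) (nat_lit 2233724397) (nat_lit 63) (nat_lit 5) (nat_lit 66) (nat_lit 5) (nat_lit 67) (nat_lit 5) (nat_lit 377) (nat_lit 339) (nat_lit 304))) (XT.nd (nat_lit 78) (nat_lit 152) (nat_lit 0) (XT.lf (nat_lit 0) (nat_lit 1225460234) (nat_lit 304) (nat_lit 1195930569) (nat_lit 76) (nat_lit 9968673318) (nat_lit 62) (nat_lit 5) (nat_lit 66) (nat_lit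 5) (nat_lit 63) (nat_lit 5) (nat_lit 378) (nat_lit 339) (nat_lit 303)) (XT.lf (nat_lit 0) (nat_lit 4862986801) (nat_lit 228) (nat_lit 5734039236) (nat_lit 76) (nat_lit 2152567252) (nat_lit 60) (nat_lit 5) (nat_lit 63) (nat_lit 5) (nat_lit 61) (nat_lit 5) (nat_lit 379) (nat_lit 339) (nat_lit 302))))) (XT.nd (nat_lit 234) (nat_lit 380) (nat_lit 0) (XT.nd (nat_lit 78) (nat_lit 228) (nat_lit 0) (XT.lf (nat_lit 0) (nat_lit 2490938542) (nat_lit 152) (nat_lit 6227200908) (nat_lit 228) (nat_lit 4407190260) (nat_lit 58) (nat_lit 5) (nat_lit 60) (nat_lit 5) (nat_lit 61) (nat_lit 5) (nat_lit 380) (nat_lit 339) (nat_lit 301)) (XT.nd (nat_lit 78) (nat_lit 228) (nat_lit 0) (XT.lf (nat_lit 0) (nat_lit 11226073375) (nat_lit 152) (nat_lit 1575119900) (nat_lit 228) (nat_lit 716919909) (nat_lit 58) (nat_lit 5) (nat_lit 60) (nat_lit 5) (nat_lit 61) (nat_lit 5) (nat_lit 381) (nat_lit 339) (nat_lit 300)) (XT.lf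 (nat_lit 0) (nat_lit 3152309146) (nat_lit 228) (nat_lit 7449832875) (nat_lit 76) (nat_lit 3321168619) (nat_lit 55) (nat_lit 5) (nat_lit 58) (nat_lit 5) (nat_lit 56) (nat_lit 5) (nat_lit 382) (nat_lit 339) (nat_lit 299)))) (XT.nd (nat_lit 156) (nat_lit 228) (nat_lit 0) (XT.nd (nat_lit 78) (nat_lit 0) (nat_lit 0) (XT.lf (nat_lit 0) (nat_lit 1315729331) (nat_lit 152) (nat_lit 5901776535) (nat_lit 228) (nat_lit 7129359534) (nat_lit 53) (nat_lit 5) (nat_lit 55) (nat_lit 5) (nat_lit 56) (nat_lit 5) (nat_lit 383) (nat_lit 339) (nat_lit 298)) (XT.lf (nat_lit 0) (nat_lit 10681604738) (nat_lit 152) (nat_lit 872618217) (nat_lit 228) (nat_lit 3233976238) (nat_lit 53) (nat_lit 5) (nat_lit 55) (nat_lit 5) (nat_lit 56) (nat_lit 5) (nat_lit 384) (nat_lit 339) (nat_lit 297))) (XT.nd (nat_lit 78) (nat_lit 0) (nat_lit 0) (XT.lf (nat_lit 0) (nat_lit 925697362) (nat_lit 228) (nat_lit 9991956700) (nat_lit 76)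 (nat_lit 4328444034) (nat_lit 50) (nat_lit 5) (nat_lit 53) (nat_lit 5) (nat_lit 51) (nat_lit 5) (nat_lit 385) (nat_lit 339) (nat_lit 296)) (XT.lf (nat_lit 0) (nat_lit 5214240512) (nat_lit 228) (nat_lit 660917359) (nat_lit 76) (nat_lit 9847617214) (nat_lit 50) (nat_lit 5) (nat_lit 53) (nat_lit 5) (nat_lit 51) (nat_lit 5) (nat_lit 386) (nat_lit 339) (nat_lit 295))))))))
noncomputable def xc95 : XT := (XT.nd (nat_lit 2106) (nat_lit 988) (nat_lit 0) (XT.nd (nat_lit 1014) (nat_lit 912) (nat_lit 0) (XT.nd (nat_lit 468) (nat_lit 608) (nat_lit 0) (XT.nd (nat_lit 234) (nat_lit 228) (nat_lit 0) (XT.nd (nat_lit 78) (nat_lit 152) (nat_lit 0) (XT.lf (nat_lit 0) (nat_lit 9345771120) (nat_lit 152) (nat_lit 464568785) (nat_lit 228) (nat_lit 6408301347) (nat_lit 48) (nat_lit 5) (nat_lit 50) (nat_lit 5) (nat_lit 51) (nat_lit 5) (nat_lit 387) (nat_lit 339) (nat_lit 294)) (XT.nd (nat_lit 78) (nat_lit 76) (nat_lit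 0) (XT.lf (nat_lit 0) (nat_lit 3062807687) (nat_lit 76) (nat_lit 11661846650) (nat_lit 152) (nat_lit 2010237110) (nat_lit 47) (nat_lit 5) (nat_lit 48) (nat_lit 5) (nat_lit 49) (nat_lit 4) (nat_lit 388) (nat_lit 339) (nat_lit 293)) (XT.lf (nat_lit 0) (nat_lit 2598202682) (nat_lit 152) (nat_lit 3678351604) (nat_lit 76) (nat_lit 10994677546) (nat_lit 46) (nat_lit 5) (nat_lit 48) (nat_lit 5) (nat_lit 47) (nat_lit 5) (nat_lit 389) (nat_lit 339) (nat_lit 292)))) (XT.nd (nat_lit 78) (nat_lit 76) (nat_lit 0) (XT.lf (nat_lit 0) (nat_lit 6916966020) (nat_lit 152) (nat_lit 511026536) (nat_lit 228) (nat_lit 10401834379) (nat_lit 44) (nat_lit 5) (nat_lit 46) (nat_lit 5) (nat_lit 47) (nat_lit 5) (nat_lit 390) (nat_lit 339) (nat_lit 291)) (XT.nd (nat_lit 78) (nat_lit 76) (nat_lit 0) (XT.lf (nat_lit 0) (nat_lit 12600074098) (nat_lit 228) (nat_lit 418040739) (nat_lit 76) (nat_lit 5393206079) (nat_lit 44)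 (nat_lit 5) (nat_lit 47) (nat_lit 5) (nat_lit 45) (nat_lit 4) (nat_lit 391) (nat_lit 339) (nat_lit 290)) (XT.lf (nat_lit 0) (nat_lit 10857805543) (nat_lit 76) (nat_lit 7304136233) (nat_lit 152) (nat_lit 853397512) (nat_lit 43) (nat_lit 5) (nat_lit 44) (nat_lit 5) (nat_lit 45) (nat_lit 4) (nat_lit 392) (nat_lit 339) (nat_lit 289))))) (XT.nd (nat_lit 234) (nat_lit 304) (nat_lit 0) (XT.nd (nat_lit 78) (nat_lit 76) (nat_lit 0) (XT.lf (nat_lit 0) (nat_lit 3007891066) (nat_lit 152) (nat_lit 1212785696) (nat_lit 228) (nat_lit 15425110442) (nat_lit 40) (nat_lit 5) (nat_lit 42) (nat_lit 5) (nat_lit 43) (nat_lit 5) (nat_lit 393) (nat_lit 339) (nat_lit 288)) (XT.nd (nat_lit 78) (nat_lit 76) (nat_lit 0) (XT.lf (nat_lit 0) (nat_lit 9694967226) (nat_lit 228) (nat_lit 5466677372) (nat_lit 76) (nat_lit 5136661397) (nat_lit 40) (nat_lit 5) (nat_lit 43) (nat_lit 5) (nat_lit 41) (nat_lit 4) (nat_lit 394) (nat_lit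 339) (nat_lit 287)) (XT.lf (nat_lit 0) (nat_lit 6367548009) (nat_lit 76) (nat_lit 9150771149) (nat_lit 152) (nat_lit 5461371454) (nat_lit 39) (nat_lit 5) (nat_lit 40) (nat_lit 5) (nat_lit 41) (nat_lit 4) (nat_lit 395) (nat_lit 339) (nat_lit 286)))) (XT.nd (nat_lit 156) (nat_lit 76) (nat_lit 0) (XT.nd (nat_lit 78) (nat_lit 228) (nat_lit 0) (XT.lf (nat_lit 0) (nat_lit 18905083298) (nat_lit 76) (nat_lit 2777258222) (nat_lit 152) (nat_lit 10334688) (nat_lit 39) (nat_lit 5) (nat_lit 40) (nat_lit 5) (nat_lit 41) (nat_lit 4) (nat_lit 396) (nat_lit 339) (nat_lit 285)) (XT.lf (nat_lit 0) (nat_lit 5705873993) (nat_lit 228) (nat_lit 12719841045) (nat_lit 76) (nat_lit 4002368306) (nat_lit 36) (nat_lit 5) (nat_lit 39) (nat_lit 5) (nat_lit 37) (nat_lit 4) (nat_lit 397) (nat_lit 339) (nat_lit 284))) (XT.nd (nat_lit 78) (nat_lit 76) (nat_lit 0) (XT.lf (nat_lit 0) (nat_lit 11759646122) (nat_lit 228) (nat_lit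 394878066) (nat_lit 76) (nat_lit 11043129113) (nat_lit 36) (nat_lit 5) (nat_lit 39) (nat_lit 5) (nat_lit 37) (nat_lit 4) (nat_lit 398) (nat_lit 339) (nat_lit 283)) (XT.lf (nat_lit 0) (nat_lit 12886246051) (nat_lit 76) (nat_lit 5391611551) (nat_lit 152) (nat_lit 5719762286) (nat_lit 35) (nat_lit 5) (nat_lit 36) (nat_lit 5) (nat_lit 37) (nat_lit 4) (nat_lit 399) (nat_lit 339) (nat_lit 282)))))) (XT.nd (nat_lit 546) (nat_lit 380) (nat_lit 0) (XT.nd (nat_lit 234) (nat_lit 228) (nat_lit 0) (XT.nd (nat_lit 78) (nat_lit 76) (nat_lit 0) (XT.lf (nat_lit 0) (nat_lit 300777780) (nat_lit 228) (nat_lit 22869790632) (nat_lit 76) (nat_lit 1665525256) (nat_lit 32) (nat_lit 5) (nat_lit 35) (nat_lit 5) (nat_lit 33) (nat_lit 4) (nat_lit 400) (nat_lit 339) (nat_lit 281)) (XT.nd (nat_lit 78) (nat_lit 76) (nat_lit 0) (XT.lf (nat_lit 0) (nat_lit 6670698636) (nat_lit 228) (nat_lit 9881604623) (nat_lit 76) (nat_lit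 9147475679) (nat_lit 32) (nat_lit 5) (nat_lit 35) (nat_lit 5) (nat_lit 33) (nat_lit 4) (nat_lit 401) (nat_lit 339) (nat_lit 280)) (XT.lf (nat_lit 0) (nat_lit 3808447313) (nat_lit 76) (nat_lit 9572916261) (nat_lit 152) (nat_lit 13224177159) (nat_lit 31) (nat_lit 5) (nat_lit 32) (nat_lit 5) (nat_lit 33) (nat_lit 4) (nat_lit 402) (nat_lit 339) (nat_lit 279)))) (XT.nd (nat_lit 156) (nat_lit 152) (nat_lit 0) (XT.nd (nat_lit 78) (nat_lit 76) (nat_lit 0) (XT.lf (nat_lit 0) (nat_lit 18457751334) (nat_lit 76) (nat_lit 2100653081) (nat_lit 152) (nat_lit 6991648513) (nat_lit 31) (nat_lit 5) (nat_lit 32) (nat_lit 5) (nat_lit 33) (nat_lit 4) (nat_lit 403) (nat_lit 339) (nat_lit 278)) (XT.lf (nat_lit 0) (nat_lit 5311704545) (nat_lit 76) (nat_lit 22919980716) (nat_lit 76) (nat_lit 303240302) (nat_lit 30) (nat_lit 4) (nat_lit 31) (nat_lit 5) (nat_lit 31) (nat_lit 4) (nat_lit 404) (nat_lit 339) (nat_lit 277)))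 (XT.nd (nat_lit 78) (nat_lit 76) (nat_lit 0) (XT.lf (nat_lit 0) (nat_lit 6660310022) (nat_lit 152) (nat_lit 9018070597) (nat_lit 76) (nat_lit 13877629942) (nat_lit 29) (nat_lit 5) (nat_lit 31) (nat_lit 5) (nat_lit 30) (nat_lit 4) (nat_lit 405) (nat_lit 339) (nat_lit 276)) (XT.lf (nat_lit 0) (nat_lit 6021835664) (nat_lit 76) (nat_lit 8000549760) (nat_lit 152) (nat_lit 16602492560) (nat_lit 28) (nat_lit 5) (nat_lit 29) (nat_lit 5) (nat_lit 30) (nat_lit 4) (nat_lit 406) (nat_lit 339) (nat_lit 275))))) (XT.nd (nat_lit 234) (nat_lit 228) (nat_lit 0) (XT.nd (nat_lit 78) (nat_lit 152) (nat_lit 0) (XT.lf (nat_lit 0) (nat_lit 21875433008) (nat_lit 152) (nat_lit 9679620909) (nat_lit 0) (nat_lit 185994920) (nat_lit 28) (nat_lit 5) (nat_lit 30) (nat_lit 4) (nat_lit 28) (nat_lit 4) (nat_lit 407) (nat_lit 339) (nat_lit 274)) (XT.nd (nat_lit 78) (nat_lit 76) (nat_lit 0) (XT.lf (nat_lit 0) (nat_lit 5990123115)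 (nat_lit 76) (nat_lit 24323959735) (nat_lit 76) (nat_lit 2589301205) (nat_lit 27) (nat_lit 4) (nat_lit 28) (nat_lit 5) (nat_lit 28) (nat_lit 4) (nat_lit 408) (nat_lit 339) (nat_lit 273)) (XT.lf (nat_lit 0) (nat_lit 5024127476) (nat_lit 152) (nat_lit 11478264290) (nat_lit 76) (nat_lit 17610756572) (nat_lit 26) (nat_lit 5) (nat_lit 28) (nat_lit 5) (nat_lit 27) (nat_lit 4) (nat_lit 409) (nat_lit 339) (nat_lit 272)))) (XT.nd (nat_lit 156) (nat_lit 152) (nat_lit 0) (XT.nd (nat_lit 78) (nat_lit 0) (nat_lit 0) (XT.lf (nat_lit 0) (nat_lit 4781463047) (nat_lit 76) (nat_lit 8194246678) (nat_lit 152) (nat_lit 22403346614) (nat_lit 25) (nat_lit 5) (nat_lit 26) (nat_lit 5) (nat_lit 27) (nat_lit 4) (nat_lit 410) (nat_lit 339) (nat_lit 271)) (XT.lf (nat_lit 0) (nat_lit 21500687460) (nat_lit 152) (nat_lit 14515053878) (nat_lit 0) (nat_lit 683730310) (nat_lit 25) (nat_lit 5) (nat_lit 27) (nat_lit 4) (nat_lit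 25) (nat_lit 4) (nat_lit 411) (nat_lit 339) (nat_lit 270))) (XT.nd (nat_lit 78) (nat_lit 76) (nat_lit 0) (XT.lf (nat_lit 0) (nat_lit 2254447331) (nat_lit 76) (nat_lit 28338402378) (nat_lit 76) (nat_lit 7486013829) (nat_lit 24) (nat_lit 4) (nat_lit 25) (nat_lit 5) (nat_lit 25) (nat_lit 4) (nat_lit 412) (nat_lit 339) (nat_lit 269)) (XT.lf (nat_lit 0) (nat_lit 814103610) (nat_lit 152) (nat_lit 19217220336) (nat_lit 76) (nat_lit 19484359919) (nat_lit 23) (nat_lit 5) (nat_lit 25) (nat_lit 5) (nat_lit 24) (nat_lit 4) (nat_lit 413) (nat_lit 339) (nat_lit 268))))))) (XT.nd (nat_lit 1092) (nat_lit 456) (nat_lit 0) (XT.nd (nat_lit 546) (nat_lit 228) (nat_lit 0) (XT.nd (nat_lit 234) (nat_lit 228) (nat_lit 0) (XT.nd (nat_lit 78) (nat_lit 76) (nat_lit 0) (XT.lf (nat_lit 0) (nat_lit 9250466570) (nat_lit 152) (nat_lit 1954813592) (nat_lit 76) (nat_lit 29814290274) (nat_lit 23) (nat_lit 5) (nat_lit 25) (nat_lit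 5) (nat_lit 24) (nat_lit 4) (nat_lit 414) (nat_lit 339) (nat_lit 267)) (XT.nd (nat_lit 78) (nat_lit 0) (nat_lit 0) (XT.lf (nat_lit 0) (nat_lit 16653808525) (nat_lit 76) (nat_lit 1688964919) (nat_lit 152) (nat_lit 24244173740) (nat_lit 22) (nat_lit 5) (nat_lit 23) (nat_lit 5) (nat_lit 24) (nat_lit 4) (nat_lit 415) (nat_lit 339) (nat_lit 266)) (XT.lf (nat_lit 0) (nat_lit 28027188558) (nat_lit 152) (nat_lit 8150515934) (nat_lit 0) (nat_lit 8048115666) (nat_lit 22) (nat_lit 5) (nat_lit 24) (nat_lit 4) (nat_lit 22) (nat_lit 4) (nat_lit 416) (nat_lit 339) (nat_lit 265)))) (XT.nd (nat_lit 156) (nat_lit 76) (nat_lit 0) (XT.nd (nat_lit 78) (nat_lit 76) (nat_lit 0) (XT.lf (nat_lit 0) (nat_lit 10791292537) (nat_lit 76) (nat_lit 27576139085) (nat_lit 76) (nat_lit 7570626737) (nat_lit 21) (nat_lit 4) (nat_lit 22) (nat_lit 5) (nat_lit 22) (nat_lit 4) (nat_lit 417) (nat_lit 339) (nat_lit 264)) (XT.lf (nat_lit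 0) (nat_lit 1556901350) (nat_lit 152) (nat_lit 16839045013) (nat_lit 76) (nat_lit 29333013006) (nat_lit 20) (nat_lit 5) (nat_lit 22) (nat_lit 5) (nat_lit 21) (nat_lit 4) (nat_lit 418) (nat_lit 339) (nat_lit 263))) (XT.nd (nat_lit 78) (nat_lit 0) (nat_lit 0) (XT.lf (nat_lit 0) (nat_lit 2287756367) (nat_lit 76) (nat_lit 8610990225) (nat_lit 152) (nat_lit 38703836906) (nat_lit 19) (nat_lit 5) (nat_lit 20) (nat_lit 5) (nat_lit 21) (nat_lit 4) (nat_lit 419) (nat_lit 339) (nat_lit 262)) (XT.lf (nat_lit 0) (nat_lit 21000224028) (nat_lit 152) (nat_lit 28676256845) (nat_lit 0) (nat_lit 1878782558) (nat_lit 19) (nat_lit 5) (nat_lit 21) (nat_lit 4) (nat_lit 19) (nat_lit 4) (nat_lit 420) (nat_lit 339) (nat_lit 261))))) (XT.nd (nat_lit 234) (nat_lit 152) (nat_lit 0) (XT.nd (nat_lit 78) (nat_lit 76) (nat_lit 0) (XT.lf (nat_lit 0) (nat_lit 31725767768) (nat_lit 152) (nat_lit 9290251197) (nat_lit 0) (nat_lit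 12583610293) (nat_lit 19) (nat_lit 5) (nat_lit 21) (nat_lit 4) (nat_lit 19) (nat_lit 4) (nat_lit 421) (nat_lit 339) (nat_lit 260)) (XT.nd (nat_lit 78) (nat_lit 0) (nat_lit 0) (XT.lf (nat_lit 0) (nat_lit 11388284895) (nat_lit 76) (nat_lit 31755991278) (nat_lit 76) (nat_lit 12594104274) (nat_lit 18) (nat_lit 4) (nat_lit 19) (nat_lit 5) (nat_lit 19) (nat_lit 4) (nat_lit 422) (nat_lit 339) (nat_lit 259)) (XT.lf (nat_lit 0) (nat_lit 33382683842) (nat_lit 76) (nat_lit 21887617108) (nat_lit 76) (nat_lit 2706940077) (nat_lit 18) (nat_lit 4) (nat_lit 19) (nat_lit 5) (nat_lit 19) (nat_lit 4) (nat_lit 423) (nat_lit 339) (nat_lit 258)))) (XT.nd (nat_lit 156) (nat_lit 0) (nat_lit 0) (XT.nd (nat_lit 78) (nat_lit 76) (nat_lit 0) (XT.lf (nat_lit 0) (nat_lit 7408866485) (nat_lit 152) (nat_lit 4010396000) (nat_lit 76) (nat_lit 48903796376) (nat_lit 17) (nat_lit 5) (nat_lit 19) (nat_lit 5) (nat_lit 18) (nat_lit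 4) (nat_lit 424) (nat_lit 339) (nat_lit 257)) (XT.lf (nat_lit 0) (nat_lit 18100465725) (nat_lit 76) (nat_lit 102500679) (nat_lit 152) (nat_lit 44567809871) (nat_lit 16) (nat_lit 5) (nat_lit 17) (nat_lit 5) (nat_lit 18) (nat_lit 4) (nat_lit 425) (nat_lit 339) (nat_lit 256))) (XT.nd (nat_lit 78) (nat_lit 0) (nat_lit 0) (XT.lf (nat_lit 0) (nat_lit 29770651308) (nat_lit 152) (nat_lit 24103928778) (nat_lit 0) (nat_lit 11454606607) (nat_lit 16) (nat_lit 5) (nat_lit 18) (nat_lit 4) (nat_lit 16) (nat_lit 4) (nat_lit 426) (nat_lit 339) (nat_lit 255)) (XT.lf (nat_lit 0) (nat_lit 41900237195) (nat_lit 152) (nat_lit 2546635663) (nat_lit 0) (nat_lit 23569470016) (nat_lit 16) (nat_lit 5) (nat_lit 18) (nat_lit 4) (nat_lit 16) (nat_lit 4) (nat_lit 427) (nat_lit 339) (nat_lit 254)))))) (XT.nd (nat_lit 546) (nat_lit 152) (nat_lit 0) (XT.nd (nat_lit 234) (nat_lit 152) (nat_lit 0) (XT.nd (nat_lit 78) (nat_lit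 76) (nat_lit 0) (XT.lf (nat_lit 0) (nat_lit 20717588212) (nat_lit 76) (nat_lit 34224875109) (nat_lit 76) (nat_lit 15880086522) (nat_lit 15) (nat_lit 4) (nat_lit 16) (nat_lit 5) (nat_lit 16) (nat_lit 4) (nat_lit 428) (nat_lit 339) (nat_lit 253)) (XT.nd (nat_lit 78) (nat_lit 76) (nat_lit 0) (XT.lf (nat_lit 0) (nat_lit 45199959429) (nat_lit 76) (nat_lit 23462972238) (nat_lit 76) (nat_lit 5104829929) (nat_lit 15) (nat_lit 4) (nat_lit 16) (nat_lit 5) (nat_lit 16) (nat_lit 4) (nat_lit 429) (nat_lit 339) (nat_lit 252)) (XT.lf (nat_lit 0) (nat_lit 5994002183) (nat_lit 152) (nat_lit 6083155663) (nat_lit 76) (nat_lit 64779052559) (nat_lit 14) (nat_lit 5) (nat_lit 16) (nat_lit 5) (nat_lit 15) (nat_lit 4) (nat_lit 430) (nat_lit 339) (nat_lit 251)))) (XT.nd (nat_lit 156) (nat_lit 76) (nat_lit 0) (XT.nd (nat_lit 78) (nat_lit 0) (nat_lit 0) (XT.lf (nat_lit 0) (nat_lit 17745206761) (nat_lit 152) (nat_lit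 62098628081) (nat_lit 0) (nat_lit 237614039) (nat_lit 13) (nat_lit 5) (nat_lit 15) (nat_lit 4) (nat_lit 13) (nat_lit 4) (nat_lit 431) (nat_lit 339) (nat_lit 250)) (XT.lf (nat_lit 0) (nat_lit 30371034739) (nat_lit 152) (nat_lit 40230106311) (nat_lit 0) (nat_lit 12852455877) (nat_lit 13) (nat_lit 5) (nat_lit 15) (nat_lit 4) (nat_lit 13) (nat_lit 4) (nat_lit 432) (nat_lit 339) (nat_lit 249))) (XT.nd (nat_lit 78) (nat_lit 76) (nat_lit 0) (XT.lf (nat_lit 0) (nat_lit 43613265470) (nat_lit 152) (nat_lit 17297608488) (nat_lit 0) (nat_lit 26084223618) (nat_lit 13) (nat_lit 5) (nat_lit 15) (nat_lit 4) (nat_lit 13) (nat_lit 4) (nat_lit 433) (nat_lit 339) (nat_lit 248)) (XT.lf (nat_lit 0) (nat_lit 6976766676) (nat_lit 76) (nat_lit 50635588277) (nat_lit 76) (nat_lit 33096581672) (nat_lit 12) (nat_lit 4) (nat_lit 13) (nat_lit 5) (nat_lit 13) (nat_lit 4) (nat_lit 434) (nat_lit 339) (nat_lit 247))))) (XT.nd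 (nat_lit 234) (nat_lit 76) (nat_lit 0) (XT.nd (nat_lit 78) (nat_lit 76) (nat_lit 0) (XT.lf (nat_lit 0) (nat_lit 33037799236) (nat_lit 76) (nat_lit 39552607765) (nat_lit 76) (nat_lit 22004110919) (nat_lit 12) (nat_lit 4) (nat_lit 13) (nat_lit 5) (nat_lit 13) (nat_lit 4) (nat_lit 435) (nat_lit 339) (nat_lit 246)) (XT.nd (nat_lit 78) (nat_lit 76) (nat_lit 0) (XT.lf (nat_lit 0) (nat_lit 60375602213) (nat_lit 76) (nat_lit 27928487741) (nat_lit 76) (nat_lit 10370952571) (nat_lit 12) (nat_lit 4) (nat_lit 13) (nat_lit 5) (nat_lit 13) (nat_lit 4) (nat_lit 436) (nat_lit 339) (nat_lit 245)) (XT.lf (nat_lit 0) (nat_lit 1772001010) (nat_lit 152) (nat_lit 13933541026) (nat_lit 76) (nat_lit 87253254908) (nat_lit 11) (nat_lit 5) (nat_lit 13) (nat_lit 5) (nat_lit 12) (nat_lit 4) (nat_lit 437) (nat_lit 339) (nat_lit 244)))) (XT.nd (nat_lit 156) (nat_lit 0) (nat_lit 0) (XT.nd (nat_lit 78) (nat_lit 0) (nat_lit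 0) (XT.lf (nat_lit 0) (nat_lit 11835194779) (nat_lit 76) (nat_lit 2510920296) (nat_lit 152) (nat_lit 93093496561) (nat_lit 10) (nat_lit 5) (nat_lit 11) (nat_lit 5) (nat_lit 12) (nat_lit 4) (nat_lit 438) (nat_lit 339) (nat_lit 243)) (XT.lf (nat_lit 0) (nat_lit 27953667127) (nat_lit 152) (nat_lit 72961800328) (nat_lit 0) (nat_lit 11208763537) (nat_lit 10) (nat_lit 5) (nat_lit 12) (nat_lit 4) (nat_lit 10) (nat_lit 4) (nat_lit 439) (nat_lit 339) (nat_lit 242))) (XT.nd (nat_lit 78) (nat_lit 0) (nat_lit 0) (XT.lf (nat_lit 0) (nat_lit 42271130715) (nat_lit 152) (nat_lit 49251329061) (nat_lit 0) (nat_lit 25519145362) (nat_lit 10) (nat_lit 5) (nat_lit 12) (nat_lit 4) (nat_lit 10) (nat_lit 4) (nat_lit 440) (nat_lit 339) (nat_lit 241)) (XT.lf (nat_lit 0) (nat_lit 57293392537) (nat_lit 152) (nat_lit 24377347049) (nat_lit 0) (nat_lit 40534662646) (nat_lit 10) (nat_lit 5) (nat_lit 12) (nat_lit 4) (nat_lit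 10) (nat_lit 4) (nat_lit 441) (nat_lit 339) (nat_lit 240))))))))
noncomputable def xc96 : XT := (XT.nd (nat_lit 2106) (nat_lit 76) (nat_lit 0) (XT.nd (nat_lit 1014) (nat_lit 152) (nat_lit 0) (XT.nd (nat_lit 468) (nat_lit 152) (nat_lit 0) (XT.nd (nat_lit 234) (nat_lit 76) (nat_lit 0) (XT.nd (nat_lit 78) (nat_lit 0) (nat_lit 0) (XT.lf (nat_lit 0) (nat_lit 1776219591) (nat_lit 76) (nat_lit 71307732056) (nat_lit 76) (nat_lit 54542578797) (nat_lit 9) (nat_lit 4) (nat_lit 10) (nat_lit 5) (nat_lit 10) (nat_lit 4) (nat_lit 442) (nat_lit 339) (nat_lit 239)) (XT.nd (nat_lit 78) (nat_lit 0) (nat_lit 0) (XT.lf (nat_lit 0) (nat_lit 30063164558) (nat_lit 76) (nat_lit 60003348983) (nat_lit 76) (nat_lit 43232078231) (nat_lit 9) (nat_lit 4) (nat_lit 10) (nat_lit 5) (nat_lit 10) (nat_lit 4) (nat_lit 443) (nat_lit 339) (nat_lit 238)) (XT.lf (nat_lit 0) (nat_lit 59744812533) (nat_lit 76) (nat_lit 48143517340)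 (nat_lit 76) (nat_lit 31366420403) (nat_lit 9) (nat_lit 4) (nat_lit 10) (nat_lit 5) (nat_lit 10) (nat_lit 4) (nat_lit 444) (nat_lit 339) (nat_lit 237)))) (XT.nd (nat_lit 78) (nat_lit 76) (nat_lit 0) (XT.lf (nat_lit 0) (nat_lit 90891834108) (nat_lit 76) (nat_lit 35699999432) (nat_lit 76) (nat_lit 18917353747) (nat_lit 9) (nat_lit 4) (nat_lit 10) (nat_lit 5) (nat_lit 10) (nat_lit 4) (nat_lit 445) (nat_lit 339) (nat_lit 236)) (XT.nd (nat_lit 78) (nat_lit 76) (nat_lit 0) (XT.lf (nat_lit 0) (nat_lit 123578388857) (nat_lit 76) (nat_lit 22643167834) (nat_lit 76) (nat_lit 5855237629) (nat_lit 9) (nat_lit 4) (nat_lit 10) (nat_lit 5) (nat_lit 10) (nat_lit 4) (nat_lit 446) (nat_lit 339) (nat_lit 235)) (XT.lf (nat_lit 0) (nat_lit 7599746294) (nat_lit 152) (nat_lit 1213483178) (nat_lit 76) (nat_lit 150153850236) (nat_lit 8) (nat_lit 5) (nat_lit 10) (nat_lit 5) (nat_lit 9) (nat_lit 4) (nat_lit 447) (nat_lit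 339) (nat_lit 234))))) (XT.nd (nat_lit 234) (nat_lit 76) (nat_lit 0) (XT.nd (nat_lit 78) (nat_lit 0) (nat_lit 0) (XT.lf (nat_lit 0) (nat_lit 22060937765) (nat_lit 152) (nat_lit 138046556301) (nat_lit 0) (nat_lit 6063074623) (nat_lit 7) (nat_lit 5) (nat_lit 9) (nat_lit 4) (nat_lit 7) (nat_lit 4) (nat_lit 448) (nat_lit 339) (nat_lit 233)) (XT.nd (nat_lit 78) (nat_lit 0) (nat_lit 0) (XT.lf (nat_lit 0) (nat_lit 37402314195) (nat_lit 152) (nat_lit 114923958508) (nat_lit 0) (nat_lit 21400103464) (nat_lit 7) (nat_lit 5) (nat_lit 9) (nat_lit 4) (nat_lit 7) (nat_lit 4) (nat_lit 449) (nat_lit 339) (nat_lit 232)) (XT.lf (nat_lit 0) (nat_lit 53502910293) (nat_lit 152) (nat_lit 90660897487) (nat_lit 0) (nat_lit 37496559001) (nat_lit 7) (nat_lit 5) (nat_lit 9) (nat_lit 4) (nat_lit 7) (nat_lit 4) (nat_lit 450) (nat_lit 339) (nat_lit 231)))) (XT.nd (nat_lit 156) (nat_lit 76) (nat_lit 0) (XT.nd (nat_lit 78)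 (nat_lit 0) (nat_lit 0) (XT.lf (nat_lit 0) (nat_lit 70401060811) (nat_lit 152) (nat_lit 65199604043) (nat_lit 0) (nat_lit 54390766129) (nat_lit 7) (nat_lit 5) (nat_lit 9) (nat_lit 4) (nat_lit 7) (nat_lit 4) (nat_lit 451) (nat_lit 339) (nat_lit 230)) (XT.lf (nat_lit 0) (nat_lit 88136999442) (nat_lit 152) (nat_lit 38479456051) (nat_lit 0) (nat_lit 72122949149) (nat_lit 7) (nat_lit 5) (nat_lit 9) (nat_lit 4) (nat_lit 7) (nat_lit 4) (nat_lit 452) (nat_lit 339) (nat_lit 229))) (XT.nd (nat_lit 78) (nat_lit 76) (nat_lit 0) (XT.lf (nat_lit 0) (nat_lit 106752954611) (nat_lit 152) (nat_lit 10436834109) (nat_lit 0) (nat_lit 90735327546) (nat_lit 7) (nat_lit 5) (nat_lit 9) (nat_lit 4) (nat_lit 7) (nat_lit 4) (nat_lit 453) (nat_lit 339) (nat_lit 228)) (XT.lf (nat_lit 0) (nat_lit 19623091402) (nat_lit 76) (nat_lit 106976530068) (nat_lit 76) (nat_lit 90955496553) (nat_lit 6) (nat_lit 4) (nat_lit 7) (nat_lit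 5) (nat_lit 7) (nat_lit 4) (nat_lit 454) (nat_lit 339) (nat_lit 227)))))) (XT.nd (nat_lit 546) (nat_lit 152) (nat_lit 0) (XT.nd (nat_lit 234) (nat_lit 0) (nat_lit 0) (XT.nd (nat_lit 78) (nat_lit 0) (nat_lit 0) (XT.lf (nat_lit 0) (nat_lit 51535675390) (nat_lit 76) (nat_lit 96073351114) (nat_lit 76) (nat_lit 80049073362) (nat_lit 6) (nat_lit 4) (nat_lit 7) (nat_lit 5) (nat_lit 7) (nat_lit 4) (nat_lit 455) (nat_lit 339) (nat_lit 226)) (XT.nd (nat_lit 78) (nat_lit 0) (nat_lit 0) (XT.lf (nat_lit 0) (nat_lit 85031811326) (nat_lit 76) (nat_lit 84631044744) (nat_lit 76) (nat_lit 68603677242) (nat_lit 6) (nat_lit 4) (nat_lit 7) (nat_lit 5) (nat_lit 7) (nat_lit 4) (nat_lit 456) (nat_lit 339) (nat_lit 225)) (XT.lf (nat_lit 0) (nat_lit 120191251915) (nat_lit 76) (nat_lit 72622367371) (nat_lit 76) (nat_lit 56592057250) (nat_lit 6) (nat_lit 4) (nat_lit 7) (nat_lit 5) (nat_lit 7) (nat_lit 4) (nat_lit 457)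 (nat_lit 339) (nat_lit 224)))) (XT.nd (nat_lit 156) (nat_lit 0) (nat_lit 0) (XT.nd (nat_lit 78) (nat_lit 0) (nat_lit 0) (XT.lf (nat_lit 0) (nat_lit 157097710112) (nat_lit 76) (nat_lit 60018726908) (nat_lit 76) (nat_lit 43985614292) (nat_lit 6) (nat_lit 4) (nat_lit 7) (nat_lit 5) (nat_lit 7) (nat_lit 4) (nat_lit 458) (nat_lit 339) (nat_lit 223)) (XT.lf (nat_lit 0) (nat_lit 195839058435) (nat_lit 76) (nat_lit 46790114685) (nat_lit 76) (nat_lit 30754333027) (nat_lit 6) (nat_lit 4) (nat_lit 7) (nat_lit 5) (nat_lit 7) (nat_lit 4) (nat_lit 459) (nat_lit 339) (nat_lit 222))) (XT.nd (nat_lit 78) (nat_lit 0) (nat_lit 0) (XT.lf (nat_lit 0) (nat_lit 236507538189) (nat_lit 76) (nat_lit 32905034007) (nat_lit 76) (nat_lit 16866710404) (nat_lit 6) (nat_lit 4) (nat_lit 7) (nat_lit 5) (nat_lit 7) (nat_lit 4) (nat_lit 460) (nat_lit 339) (nat_lit 221)) (XT.lf (nat_lit 0) (nat_lit 279199979090) (nat_lit 76)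 (nat_lit 18330425158) (nat_lit 76) (nat_lit 2289680656) (nat_lit 6) (nat_lit 4) (nat_lit 7) (nat_lit 5) (nat_lit 7) (nat_lit 4) (nat_lit 461) (nat_lit 339) (nat_lit 220))))) (XT.nd (nat_lit 234) (nat_lit 0) (nat_lit 0) (XT.nd (nat_lit 78) (nat_lit 0) (nat_lit 0) (XT.lf (nat_lit 0) (nat_lit 10099994224) (nat_lit 76) (nat_lit 2652710334) (nat_lit 152) (nat_lit 301267406773) (nat_lit 4) (nat_lit 5) (nat_lit 5) (nat_lit 5) (nat_lit 6) (nat_lit 4) (nat_lit 462) (nat_lit 339) (nat_lit 219)) (XT.nd (nat_lit 78) (nat_lit 0) (nat_lit 0) (XT.lf (nat_lit 0) (nat_lit 29036214148) (nat_lit 152) (nat_lit 286108723098) (nat_lit 0) (nat_lit 13755027529) (nat_lit 4) (nat_lit 5) (nat_lit 6) (nat_lit 4) (nat_lit 4) (nat_lit 4) (nat_lit 463) (nat_lit 339) (nat_lit 218)) (XT.lf (nat_lit 0) (nat_lit 46173025961) (nat_lit 152) (nat_lit 267458981077) (nat_lit 0) (nat_lit 30889847662) (nat_lit 4) (nat_lit 5) (nat_lit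 6) (nat_lit 4) (nat_lit 4) (nat_lit 4) (nat_lit 464) (nat_lit 339) (nat_lit 217)))) (XT.nd (nat_lit 156) (nat_lit 0) (nat_lit 0) (XT.nd (nat_lit 78) (nat_lit 0) (nat_lit 0) (XT.lf (nat_lit 0) (nat_lit 64162525688) (nat_lit 152) (nat_lit 247885070655) (nat_lit 0) (nat_lit 48877450551) (nat_lit 4) (nat_lit 5) (nat_lit 6) (nat_lit 4) (nat_lit 4) (nat_lit 4) (nat_lit 465) (nat_lit 339) (nat_lit 216)) (XT.lf (nat_lit 0) (nat_lit 83047545472) (nat_lit 152) (nat_lit 227340387284) (nat_lit 0) (nat_lit 67760663821) (nat_lit 4) (nat_lit 5) (nat_lit 6) (nat_lit 4) (nat_lit 4) (nat_lit 4) (nat_lit 466) (nat_lit 339) (nat_lit 215))) (XT.nd (nat_lit 78) (nat_lit 0) (nat_lit 0) (XT.lf (nat_lit 0) (nat_lit 102873049644) (nat_lit 152) (nat_lit 205776015050) (nat_lit 0) (nat_lit 87584447505) (nat_lit 4) (nat_lit 5) (nat_lit 6) (nat_lit 4) (nat_lit 4) (nat_lit 4) (nat_lit 467) (nat_lit 339) (nat_lit 214)) (XT.lf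 (nat_lit 0) (nat_lit 123686241787) (nat_lit 152) (nat_lit 183140610210) (nat_lit 0) (nat_lit 108396001088) (nat_lit 4) (nat_lit 5) (nat_lit 6) (nat_lit 4) (nat_lit 4) (nat_lit 4) (nat_lit 468) (nat_lit 339) (nat_lit 213))))))) (XT.nd (nat_lit 1014) (nat_lit 0) (nat_lit 0) (XT.nd (nat_lit 468) (nat_lit 76) (nat_lit 0) (XT.nd (nat_lit 234) (nat_lit 0) (nat_lit 0) (XT.nd (nat_lit 78) (nat_lit 0) (nat_lit 0) (XT.lf (nat_lit 0) (nat_lit 145536677120) (nat_lit 152) (nat_lit 159380278943) (nat_lit 0) (nat_lit 130244875887) (nat_lit 4) (nat_lit 5) (nat_lit 6) (nat_lit 4) (nat_lit 4) (nat_lit 4) (nat_lit 469) (nat_lit 339) (nat_lit 212)) (XT.nd (nat_lit 78) (nat_lit 0) (nat_lit 0) (XT.lf (nat_lit 0) (nat_lit 168476380489) (nat_lit 152) (nat_lit 134438449032) (nat_lit 0) (nat_lit 153183093034) (nat_lit 4) (nat_lit 5) (nat_lit 6) (nat_lit 4) (nat_lit 4) (nat_lit 4) (nat_lit 470) (nat_lit 339) (nat_lit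 211)) (XT.lf (nat_lit 0) (nat_lit 192559970235) (nat_lit 152) (nat_lit 108255735168) (nat_lit 0) (nat_lit 177265267330) (nat_lit 4) (nat_lit 5) (nat_lit 6) (nat_lit 4) (nat_lit 4) (nat_lit 4) (nat_lit 471) (nat_lit 339) (nat_lit 210)))) (XT.nd (nat_lit 78) (nat_lit 0) (nat_lit 0) (XT.lf (nat_lit 0) (nat_lit 217844788239) (nat_lit 152) (nat_lit 80769797555) (nat_lit 0) (nat_lit 202548737286) (nat_lit 4) (nat_lit 5) (nat_lit 6) (nat_lit 4) (nat_lit 4) (nat_lit 4) (nat_lit 472) (nat_lit 339) (nat_lit 209)) (XT.nd (nat_lit 78) (nat_lit 0) (nat_lit 0) (XT.lf (nat_lit 0) (nat_lit 244391036448) (nat_lit 152) (nat_lit 51915193485) (nat_lit 0) (nat_lit 229093701640) (nat_lit 4) (nat_lit 5) (nat_lit 6) (nat_lit 4) (nat_lit 4) (nat_lit 4) (nat_lit 473) (nat_lit 339) (nat_lit 208)) (XT.lf (nat_lit 0) (nat_lit 272261920216) (nat_lit 152) (nat_lit 21623221519) (nat_lit 0) (nat_lit 256963362688) (nat_lit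 4) (nat_lit 5) (nat_lit 6) (nat_lit 4) (nat_lit 4) (nat_lit 4) (nat_lit 474) (nat_lit 339) (nat_lit 207))))) (XT.nd (nat_lit 234) (nat_lit 0) (nat_lit 0) (XT.nd (nat_lit 78) (nat_lit 0) (nat_lit 0) (XT.lf (nat_lit 0) (nat_lit 10514780733) (nat_lit 76) (nat_lit 291173183250) (nat_lit 76) (nat_lit 275873461228) (nat_lit 3) (nat_lit 4) (nat_lit 4) (nat_lit 5) (nat_lit 4) (nat_lit 4) (nat_lit 475) (nat_lit 339) (nat_lit 206)) (XT.nd (nat_lit 78) (nat_lit 0) (nat_lit 0) (XT.lf (nat_lit 0) (nat_lit 45005367933) (nat_lit 76) (nat_lit 287943635293) (nat_lit 76) (nat_lit 272642804229) (nat_lit 3) (nat_lit 4) (nat_lit 4) (nat_lit 5) (nat_lit 4) (nat_lit 4) (nat_lit 476) (nat_lit 339) (nat_lit 205)) (XT.lf (nat_lit 0) (nat_lit 81215699170) (nat_lit 76) (nat_lit 284555008183) (nat_lit 76) (nat_lit 269253120889) (nat_lit 3) (nat_lit 4) (nat_lit 4) (nat_lit 5) (nat_lit 4) (nat_lit 4) (nat_lit 477) (nat_lit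 339) (nat_lit 204)))) (XT.nd (nat_lit 156) (nat_lit 0) (nat_lit 0) (XT.nd (nat_lit 78) (nat_lit 0) (nat_lit 0) (XT.lf (nat_lit 0) (nat_lit 119231989517) (nat_lit 76) (nat_lit 280999233762) (nat_lit 76) (nat_lit 265696340533) (nat_lit 3) (nat_lit 4) (nat_lit 4) (nat_lit 5) (nat_lit 4) (nat_lit 4) (nat_lit 478) (nat_lit 339) (nat_lit 203)) (XT.lf (nat_lit 0) (nat_lit 159144753952) (nat_lit 76) (nat_lit 277267845899) (nat_lit 76) (nat_lit 261963994638) (nat_lit 3) (nat_lit 4) (nat_lit 4) (nat_lit 5) (nat_lit 4) (nat_lit 4) (nat_lit 479) (nat_lit 339) (nat_lit 202))) (XT.nd (nat_lit 78) (nat_lit 0) (nat_lit 0) (XT.lf (nat_lit 0) (nat_lit 201049022867) (nat_lit 76) (nat_lit 273351960337) (nat_lit 76) (nat_lit 258047196665) (nat_lit 3) (nat_lit 4) (nat_lit 4) (nat_lit 5) (nat_lit 4) (nat_lit 4) (nat_lit 480) (nat_lit 339) (nat_lit 201)) (XT.lf (nat_lit 0) (nat_lit 245044568330) (nat_lit 76) (nat_lit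 269242253540) (nat_lit 76) (nat_lit 253936620904) (nat_lit 3) (nat_lit 4) (nat_lit 4) (nat_lit 5) (nat_lit 4) (nat_lit 4) (nat_lit 481) (nat_lit 339) (nat_lit 200)))))) (XT.nd (nat_lit 42432) (nat_lit 0) (nat_lit 11324) (XT.nd (nat_lit 42120) (nat_lit 0) (nat_lit 12920) (XT.nd (nat_lit 78) (nat_lit 0) (nat_lit 0) (XT.lf (nat_lit 0) (nat_lit 291236141639) (nat_lit 76) (nat_lit 264928940492) (nat_lit 76) (nat_lit 249622480271) (nat_lit 3) (nat_lit 4) (nat_lit 4) (nat_lit 5) (nat_lit 4) (nat_lit 4) (nat_lit 482) (nat_lit 339) (nat_lit 199)) (XT.nd (nat_lit 41964) (nat_lit 0) (nat_lit 13300) (XT.lf (nat_lit 0) (nat_lit 339733722732) (nat_lit 76) (nat_lit 260401751399) (nat_lit 76) (nat_lit 245094503003) (nat_lit 3) (nat_lit 4) (nat_lit 4) (nat_lit 5) (nat_lit 4) (nat_lit 4) (nat_lit 483) (nat_lit 339) (nat_lit 198)) (XT.lf (nat_lit 0) (nat_lit 1073741823) (nat_lit 0) (nat_lit 0) (nat_lit 0) (nat_lit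 0) (nat_lit 178) (nat_lit 0) (nat_lit 1) (nat_lit 0) (nat_lit 1) (nat_lit 0) (nat_lit 340) (nat_lit 340) (nat_lit 340)))) (XT.nd (nat_lit 156) (nat_lit 228) (nat_lit 0) (XT.nd (nat_lit 78) (nat_lit 76) (nat_lit 0) (XT.lf (nat_lit 0) (nat_lit 3104343519) (nat_lit 76) (nat_lit 3239742363) (nat_lit 0) (nat_lit 100934246) (nat_lit 177) (nat_lit 5) (nat_lit 178) (nat_lit 0) (nat_lit 177) (nat_lit 4) (nat_lit 341) (nat_lit 340) (nat_lit 339)) (XT.lf (nat_lit 0) (nat_lit 12504894) (nat_lit 76) (nat_lit 6154532457) (nat_lit 76) (nat_lit 290733399) (nat_lit 176) (nat_lit 4) (nat_lit 177) (nat_lit 5) (nat_lit 177) (nat_lit 4) (nat_lit 342) (nat_lit 340) (nat_lit 338))) (XT.nd (nat_lit 78) (nat_lit 152) (nat_lit 0) (XT.lf (nat_lit 0) (nat_lit 2681599102) (nat_lit 152) (nat_lit 3090701645) (nat_lit 76) (nat_lit 703621061) (nat_lit 175) (nat_lit 5) (nat_lit 177) (nat_lit 5) (nat_lit 176) (nat_lit 4) (nat_lit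 343) (nat_lit 340) (nat_lit 337)) (XT.lf (nat_lit 0) (nat_lit 327036863) (nat_lit 152) (nat_lit 5287340952) (nat_lit 228) (nat_lit 889465381) (nat_lit 173) (nat_lit 5) (nat_lit 175) (nat_lit 5) (nat_lit 176) (nat_lit 4) (nat_lit 344) (nat_lit 340) (nat_lit 336))))) (XT.nd (nat_lit 234) (nat_lit 1216) (nat_lit 0) (XT.nd (nat_lit 78) (nat_lit 304) (nat_lit 0) (XT.lf (nat_lit 0) (nat_lit 1965160773) (nat_lit 228) (nat_lit 2656747419) (nat_lit 76) (nat_lit 1916046048) (nat_lit 172) (nat_lit 5) (nat_lit 175) (nat_lit 5) (nat_lit 173) (nat_lit 5) (nat_lit 345) (nat_lit 340) (nat_lit 335)) (XT.nd (nat_lit 78) (nat_lit 76) (nat_lit 0) (XT.lf (nat_lit 0) (nat_lit 945886621) (nat_lit 228) (nat_lit 3830535465) (nat_lit 304) (nat_lit 1804586329) (nat_lit 169) (nat_lit 5) (nat_lit 172) (nat_lit 5) (nat_lit 173) (nat_lit 5) (nat_lit 346) (nat_lit 340) (nat_lit 334)) (XT.lf (nat_lit 0) (nat_lit 945142248)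 (nat_lit 304) (nat_lit 1934056242) (nat_lit 76) (nat_lit 3752379261) (nat_lit 168) (nat_lit 5) (nat_lit 172) (nat_lit 5) (nat_lit 169) (nat_lit 5) (nat_lit 347) (nat_lit 340) (nat_lit 333)))) (XT.nd (nat_lit 156) (nat_lit 912) (nat_lit 0) (XT.nd (nat_lit 78) (nat_lit 0) (nat_lit 0) (XT.lf (nat_lit 0) (nat_lit 1874832353) (nat_lit 304) (nat_lit 1766771366) (nat_lit 380) (nat_lit 3048233177) (nat_lit 164) (nat_lit 5) (nat_lit 168) (nat_lit 5) (nat_lit 169) (nat_lit 5) (nat_lit 348) (nat_lit 340) (nat_lit 332)) (XT.lf (nat_lit 0) (nat_lit 5835394592) (nat_lit 304) (nat_lit 516804679) (nat_lit 380) (nat_lit 404972875) (nat_lit 164) (nat_lit 5) (nat_lit 168) (nat_lit 5) (nat_lit 169) (nat_lit 5) (nat_lit 349) (nat_lit 340) (nat_lit 331))) (XT.nd (nat_lit 78) (nat_lit 456) (nat_lit 0) (XT.lf (nat_lit 0) (nat_lit 2209187722) (nat_lit 456) (nat_lit 3722473893) (nat_lit 76) (nat_lit 898748483) (nat_lit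 158) (nat_lit 5) (nat_lit 164) (nat_lit 5) (nat_lit 159) (nat_lit 5) (nat_lit 350) (nat_lit 340) (nat_lit 330)) (XT.lf (nat_lit 0) (nat_lit 348312540) (nat_lit 456) (nat_lit 4479321122) (nat_lit 532) (nat_lit 2085096162) (nat_lit 152) (nat_lit 5) (nat_lit 158) (nat_lit 5) (nat_lit 159) (nat_lit 5) (nat_lit 351) (nat_lit 340) (nat_lit 329))))))))
noncomputable def xc97 : XT := (XT.nd (nat_lit 2106) (nat_lit 2584) (nat_lit 0) (XT.nd (nat_lit 1014) (nat_lit 2432) (nat_lit 0) (XT.nd (nat_lit 468) (nat_lit 2356) (nat_lit 0) (XT.nd (nat_lit 234) (nat_lit 1368) (nat_lit 0) (XT.nd (nat_lit 78) (nat_lit 532) (nat_lit 0) (XT.lf (nat_lit 0) (nat_lit 483538857) (nat_lit 532) (nat_lit 2369189430) (nat_lit 76) (nat_lit 4149877162) (nat_lit 151) (nat_lit 5) (nat_lit 158) (nat_lit 5) (nat_lit 152) (nat_lit 5) (nat_lit 352) (nat_lit 340) (nat_lit 328)) (XT.nd (nat_lit 78) (nat_lit 0) (nat_lit 0) (XT.lf (nat_lit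 0) (nat_lit 1954660145) (nat_lit 532) (nat_lit 1053172678) (nat_lit 608) (nat_lit 4092663969) (nat_lit 144) (nat_lit 5) (nat_lit 151) (nat_lit 5) (nat_lit 152) (nat_lit 5) (nat_lit 353) (nat_lit 340) (nat_lit 327)) (XT.lf (nat_lit 0) (nat_lit 5583949106) (nat_lit 608) (nat_lit 752633861) (nat_lit 76) (nat_lit 870510816) (nat_lit 144) (nat_lit 5) (nat_lit 152) (nat_lit 5) (nat_lit 145) (nat_lit 5) (nat_lit 354) (nat_lit 340) (nat_lit 326)))) (XT.nd (nat_lit 78) (nat_lit 684) (nat_lit 0) (XT.lf (nat_lit 0) (nat_lit 893356137) (nat_lit 684) (nat_lit 3478467281) (nat_lit 76) (nat_lit 2948795719) (nat_lit 135) (nat_lit 5) (nat_lit 144) (nat_lit 5) (nat_lit 136) (nat_lit 5) (nat_lit 355) (nat_lit 340) (nat_lit 325)) (XT.nd (nat_lit 78) (nat_lit 0) (nat_lit 0) (XT.lf (nat_lit 0) (nat_lit 1152258536) (nat_lit 684) (nat_lit 2239819610) (nat_lit 760) (nat_lit 4050943954) (nat_lit 126) (nat_lit 5) (nat_lit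 135) (nat_lit 5) (nat_lit 136) (nat_lit 5) (nat_lit 356) (nat_lit 340) (nat_lit 324)) (XT.lf (nat_lit 0) (nat_lit 5959693975) (nat_lit 760) (nat_lit 1549864907) (nat_lit 76) (nat_lit 64863690) (nat_lit 126) (nat_lit 5) (nat_lit 136) (nat_lit 5) (nat_lit 127) (nat_lit 5) (nat_lit 357) (nat_lit 340) (nat_lit 323))))) (XT.nd (nat_lit 234) (nat_lit 1140) (nat_lit 0) (XT.nd (nat_lit 78) (nat_lit 380) (nat_lit 0) (XT.lf (nat_lit 0) (nat_lit 891959132) (nat_lit 836) (nat_lit 4338133057) (nat_lit 76) (nat_lit 2482690103) (nat_lit 115) (nat_lit 5) (nat_lit 126) (nat_lit 5) (nat_lit 116) (nat_lit 5) (nat_lit 358) (nat_lit 340) (nat_lit 322)) (XT.nd (nat_lit 78) (nat_lit 0) (nat_lit 0) (XT.lf (nat_lit 0) (nat_lit 623524990) (nat_lit 380) (nat_lit 2773972005) (nat_lit 456) (nat_lit 4462915395) (nat_lit 110) (nat_lit 5) (nat_lit 115) (nat_lit 5) (nat_lit 116) (nat_lit 5) (nat_lit 359) (nat_lit 340) (nat_lit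 321)) (XT.lf (nat_lit 0) (nat_lit 5873702513) (nat_lit 380) (nat_lit 122898683) (nat_lit 456) (nat_lit 2020470231) (nat_lit 110) (nat_lit 5) (nat_lit 115) (nat_lit 5) (nat_lit 116) (nat_lit 5) (nat_lit 360) (nat_lit 340) (nat_lit 320)))) (XT.nd (nat_lit 156) (nat_lit 304) (nat_lit 0) (XT.nd (nat_lit 78) (nat_lit 380) (nat_lit 0) (XT.lf (nat_lit 0) (nat_lit 517015145) (nat_lit 456) (nat_lit 5036112501) (nat_lit 76) (nat_lit 2628550553) (nat_lit 104) (nat_lit 5) (nat_lit 110) (nat_lit 5) (nat_lit 105) (nat_lit 5) (nat_lit 361) (nat_lit 340) (nat_lit 319)) (XT.lf (nat_lit 0) (nat_lit 282501127) (nat_lit 380) (nat_lit 2775485289) (nat_lit 456) (nat_lit 5297700613) (nat_lit 99) (nat_lit 5) (nat_lit 104) (nat_lit 5) (nat_lit 105) (nat_lit 5) (nat_lit 362) (nat_lit 340) (nat_lit 318))) (XT.nd (nat_lit 78) (nat_lit 304) (nat_lit 0) (XT.lf (nat_lit 0) (nat_lit 5718865193) (nat_lit 456) (nat_lit 2610139600)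 (nat_lit 76) (nat_lit 209799491) (nat_lit 99) (nat_lit 5) (nat_lit 105) (nat_lit 5) (nat_lit 100) (nat_lit 5) (nat_lit 363) (nat_lit 340) (nat_lit 317)) (XT.lf (nat_lit 0) (nat_lit 3069964490) (nat_lit 304) (nat_lit 5444796537) (nat_lit 380) (nat_lit 216266222) (nat_lit 95) (nat_lit 5) (nat_lit 99) (nat_lit 5) (nat_lit 100) (nat_lit 5) (nat_lit 364) (nat_lit 340) (nat_lit 316)))))) (XT.nd (nat_lit 546) (nat_lit 1140) (nat_lit 0) (XT.nd (nat_lit 234) (nat_lit 684) (nat_lit 0) (XT.nd (nat_lit 78) (nat_lit 228) (nat_lit 0) (XT.lf (nat_lit 0) (nat_lit 45334475) (nat_lit 304) (nat_lit 2347039237) (nat_lit 380) (nat_lit 6540798214) (nat_lit 90) (nat_lit 5) (nat_lit 94) (nat_lit 5) (nat_lit 95) (nat_lit 5) (nat_lit 365) (nat_lit 340) (nat_lit 315)) (XT.nd (nat_lit 78) (nat_lit 228) (nat_lit 0) (XT.lf (nat_lit 0) (nat_lit 5147771083) (nat_lit 380) (nat_lit 3038747499) (nat_lit 76) (nat_lit 957590217)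 (nat_lit 90) (nat_lit 5) (nat_lit 95) (nat_lit 5) (nat_lit 91) (nat_lit 5) (nat_lit 366) (nat_lit 340) (nat_lit 314)) (XT.lf (nat_lit 0) (nat_lit 3055002816) (nat_lit 228) (nat_lit 4988308553) (nat_lit 304) (nat_lit 1322202400) (nat_lit 87) (nat_lit 5) (nat_lit 90) (nat_lit 5) (nat_lit 91) (nat_lit 5) (nat_lit 367) (nat_lit 340) (nat_lit 313)))) (XT.nd (nat_lit 156) (nat_lit 304) (nat_lit 0) (XT.nd (nat_lit 78) (nat_lit 304) (nat_lit 0) (XT.lf (nat_lit 0) (nat_lit 1407569334) (nat_lit 304) (nat_lit 168660107) (nat_lit 76) (nat_lit 8022162021) (nat_lit 86) (nat_lit 5) (nat_lit 90) (nat_lit 5) (nat_lit 87) (nat_lit 5) (nat_lit 368) (nat_lit 340) (nat_lit 312)) (XT.lf (nat_lit 0) (nat_lit 4282729141) (nat_lit 380) (nat_lit 3514631284) (nat_lit 76) (nat_lit 2041836606) (nat_lit 82) (nat_lit 5) (nat_lit 87) (nat_lit 5) (nat_lit 83) (nat_lit 5) (nat_lit 369) (nat_lit 340) (nat_lit 311))) (XT.nd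 (nat_lit 78) (nat_lit 76) (nat_lit 0) (XT.lf (nat_lit 0) (nat_lit 3022441136) (nat_lit 228) (nat_lit 4278044551) (nat_lit 304) (nat_lit 2791648084) (nat_lit 79) (nat_lit 5) (nat_lit 82) (nat_lit 5) (nat_lit 83) (nat_lit 5) (nat_lit 370) (nat_lit 340) (nat_lit 310)) (XT.lf (nat_lit 0) (nat_lit 92052237) (nat_lit 304) (nat_lit 454748521) (nat_lit 76) (nat_lit 9811649123) (nat_lit 78) (nat_lit 5) (nat_lit 82) (nat_lit 5) (nat_lit 79) (nat_lit 5) (nat_lit 371) (nat_lit 340) (nat_lit 309))))) (XT.nd (nat_lit 234) (nat_lit 684) (nat_lit 0) (XT.nd (nat_lit 78) (nat_lit 228) (nat_lit 0) (XT.lf (nat_lit 0) (nat_lit 3110413360) (nat_lit 304) (nat_lit 4134650008) (nat_lit 76) (nat_lit 3386543878) (nat_lit 75) (nat_lit 5) (nat_lit 79) (nat_lit 5) (nat_lit 76) (nat_lit 5) (nat_lit 372) (nat_lit 340) (nat_lit 308)) (XT.nd (nat_lit 78) (nat_lit 0) (nat_lit 0) (XT.lf (nat_lit 0) (nat_lit 2874772830) (nat_lit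 228) (nat_lit 3395407631) (nat_lit 304) (nat_lit 4648744633) (nat_lit 72) (nat_lit 5) (nat_lit 75) (nat_lit 5) (nat_lit 76) (nat_lit 5) (nat_lit 373) (nat_lit 340) (nat_lit 307)) (XT.lf (nat_lit 0) (nat_lit 9599351197) (nat_lit 304) (nat_lit 953647194) (nat_lit 76) (nat_lit 667065402) (nat_lit 72) (nat_lit 5) (nat_lit 76) (nat_lit 5) (nat_lit 73) (nat_lit 5) (nat_lit 374) (nat_lit 340) (nat_lit 306)))) (XT.nd (nat_lit 156) (nat_lit 228) (nat_lit 0) (XT.nd (nat_lit 78) (nat_lit 152) (nat_lit 0) (XT.lf (nat_lit 0) (nat_lit 1601654523) (nat_lit 304) (nat_lit 5010872285) (nat_lit 76) (nat_lit 4917898036) (nat_lit 68) (nat_lit 5) (nat_lit 72) (nat_lit 5) (nat_lit 69) (nat_lit 5) (nat_lit 375) (nat_lit 340) (nat_lit 305)) (XT.lf (nat_lit 0) (nat_lit 2497949467) (nat_lit 152) (nat_lit 2422180863) (nat_lit 228) (nat_lit 6935394541) (nat_lit 66) (nat_lit 5) (nat_lit 68) (nat_lit 5) (nat_lit 69) (nat_lit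 5) (nat_lit 376) (nat_lit 340) (nat_lit 304))) (XT.nd (nat_lit 78) (nat_lit 228) (nat_lit 0) (XT.lf (nat_lit 0) (nat_lit 8456799555) (nat_lit 228) (nat_lit 1769036966) (nat_lit 76) (nat_lit 1968451058) (nat_lit 66) (nat_lit 5) (nat_lit 69) (nat_lit 5) (nat_lit 67) (nat_lit 5) (nat_lit 377) (nat_lit 340) (nat_lit 303)) (XT.lf (nat_lit 0) (nat_lit 6264179778) (nat_lit 228) (nat_lit 5981860075) (nat_lit 304) (nat_lit 300181844) (nat_lit 63) (nat_lit 5) (nat_lit 66) (nat_lit 5) (nat_lit 67) (nat_lit 5) (nat_lit 378) (nat_lit 340) (nat_lit 302))))))) (XT.nd (nat_lit 1014) (nat_lit 1140) (nat_lit 0) (XT.nd (nat_lit 468) (nat_lit 684) (nat_lit 0) (XT.nd (nat_lit 234) (nat_lit 380) (nat_lit 0) (XT.nd (nat_lit 78) (nat_lit 152) (nat_lit 0) (XT.lf (nat_lit 0) (nat_lit 1754172482) (nat_lit 152) (nat_lit 1445442292) (nat_lit 228) (nat_lit 9713746225) (nat_lit 60) (nat_lit 5) (nat_lit 62) (nat_lit 5)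 (nat_lit 63) (nat_lit 5) (nat_lit 379) (nat_lit 340) (nat_lit 301)) (XT.nd (nat_lit 78) (nat_lit 152) (nat_lit 0) (XT.lf (nat_lit 0) (nat_lit 6963845422) (nat_lit 228) (nat_lit 3038665914) (nat_lit 76) (nat_lit 3291140676) (nat_lit 60) (nat_lit 5) (nat_lit 63) (nat_lit 5) (nat_lit 61) (nat_lit 5) (nat_lit 380) (nat_lit 340) (nat_lit 300)) (XT.lf (nat_lit 0) (nat_lit 5549462764) (nat_lit 152) (nat_lit 5419638200) (nat_lit 228) (nat_lit 2721232525) (nat_lit 58) (nat_lit 5) (nat_lit 60) (nat_lit 5) (nat_lit 61) (nat_lit 5) (nat_lit 381) (nat_lit 340) (nat_lit 299)))) (XT.nd (nat_lit 78) (nat_lit 152) (nat_lit 0) (XT.lf (nat_lit 0) (nat_lit 473088039) (nat_lit 152) (nat_lit 563057106) (nat_lit 228) (nat_lit 13069757879) (nat_lit 55) (nat_lit 5) (nat_lit 57) (nat_lit 5) (nat_lit 58) (nat_lit 5) (nat_lit 382) (nat_lit 340) (nat_lit 298)) (XT.nd (nat_lit 78) (nat_lit 152) (nat_lit 0) (XT.lf (nat_lit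 0) (nat_lit 5044497672) (nat_lit 228) (nat_lit 4946190157) (nat_lit 76) (nat_lit 4541619150) (nat_lit 55) (nat_lit 5) (nat_lit 58) (nat_lit 5) (nat_lit 56) (nat_lit 5) (nat_lit 383) (nat_lit 340) (nat_lit 297)) (XT.lf (nat_lit 0) (nat_lit 4211260895) (nat_lit 152) (nat_lit 5063274867) (nat_lit 228) (nat_lit 5704445616) (nat_lit 53) (nat_lit 5) (nat_lit 55) (nat_lit 5) (nat_lit 56) (nat_lit 5) (nat_lit 384) (nat_lit 340) (nat_lit 296))))) (XT.nd (nat_lit 234) (nat_lit 304) (nat_lit 0) (XT.nd (nat_lit 78) (nat_lit 380) (nat_lit 0) (XT.lf (nat_lit 0) (nat_lit 13749869960) (nat_lit 228) (nat_lit 1538310520) (nat_lit 76) (nat_lit 158132298) (nat_lit 53) (nat_lit 5) (nat_lit 56) (nat_lit 5) (nat_lit 54) (nat_lit 4) (nat_lit 385) (nat_lit 340) (nat_lit 295)) (XT.nd (nat_lit 78) (nat_lit 152) (nat_lit 0) (XT.lf (nat_lit 0) (nat_lit 2595430308) (nat_lit 228) (nat_lit 7722710110) (nat_lit 76) (nat_lit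 5608727747) (nat_lit 50) (nat_lit 5) (nat_lit 53) (nat_lit 5) (nat_lit 51) (nat_lit 5) (nat_lit 386) (nat_lit 340) (nat_lit 294)) (XT.lf (nat_lit 0) (nat_lit 2007276857) (nat_lit 152) (nat_lit 5045155923) (nat_lit 228) (nat_lit 9377261872) (nat_lit 48) (nat_lit 5) (nat_lit 50) (nat_lit 5) (nat_lit 51) (nat_lit 5) (nat_lit 387) (nat_lit 340) (nat_lit 293)))) (XT.nd (nat_lit 156) (nat_lit 228) (nat_lit 0) (XT.nd (nat_lit 78) (nat_lit 76) (nat_lit 0) (XT.lf (nat_lit 0) (nat_lit 11823147429) (nat_lit 228) (nat_lit 4555339714) (nat_lit 76) (nat_lit 574642909) (nat_lit 48) (nat_lit 5) (nat_lit 51) (nat_lit 5) (nat_lit 49) (nat_lit 4) (nat_lit 388) (nat_lit 340) (nat_lit 292)) (XT.lf (nat_lit 0) (nat_lit 5826706792) (nat_lit 76) (nat_lit 11131995246) (nat_lit 152) (nat_lit 537730150) (nat_lit 47) (nat_lit 5) (nat_lit 48) (nat_lit 5) (nat_lit 49) (nat_lit 4) (nat_lit 389) (nat_lit 340) (nat_lit 291)))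 (XT.nd (nat_lit 78) (nat_lit 152) (nat_lit 0) (XT.lf (nat_lit 0) (nat_lit 4178276997) (nat_lit 152) (nat_lit 1327599355) (nat_lit 76) (nat_lit 12556124887) (nat_lit 46) (nat_lit 5) (nat_lit 48) (nat_lit 5) (nat_lit 47) (nat_lit 5) (nat_lit 390) (nat_lit 340) (nat_lit 290)) (XT.lf (nat_lit 0) (nat_lit 9227822622) (nat_lit 228) (nat_lit 8901829936) (nat_lit 76) (nat_lit 519973749) (nat_lit 44) (nat_lit 5) (nat_lit 47) (nat_lit 5) (nat_lit 45) (nat_lit 4) (nat_lit 391) (nat_lit 340) (nat_lit 289)))))) (XT.nd (nat_lit 546) (nat_lit 532) (nat_lit 0) (XT.nd (nat_lit 234) (nat_lit 304) (nat_lit 0) (XT.nd (nat_lit 78) (nat_lit 228) (nat_lit 0) (XT.lf (nat_lit 0) (nat_lit 2053738776) (nat_lit 76) (nat_lit 12576792141) (nat_lit 152) (nat_lit 4631075815) (nat_lit 43) (nat_lit 5) (nat_lit 44) (nat_lit 5) (nat_lit 45) (nat_lit 4) (nat_lit 392) (nat_lit 340) (nat_lit 288)) (XT.nd (nat_lit 78) (nat_lit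 152) (nat_lit 0) (XT.lf (nat_lit 0) (nat_lit 495332817) (nat_lit 152) (nat_lit 6118324244) (nat_lit 76) (nat_lit 13284779047) (nat_lit 42) (nat_lit 5) (nat_lit 44) (nat_lit 5) (nat_lit 43) (nat_lit 5) (nat_lit 393) (nat_lit 340) (nat_lit 287)) (XT.lf (nat_lit 0) (nat_lit 5552138201) (nat_lit 152) (nat_lit 214776150) (nat_lit 228) (nat_lit 14794179524) (nat_lit 40) (nat_lit 5) (nat_lit 42) (nat_lit 5) (nat_lit 43) (nat_lit 5) (nat_lit 394) (nat_lit 340) (nat_lit 286)))) (XT.nd (nat_lit 156) (nat_lit 228) (nat_lit 0) (XT.nd (nat_lit 78) (nat_lit 76) (nat_lit 0) (XT.lf (nat_lit 0) (nat_lit 11467079612) (nat_lit 228) (nat_lit 3412100007) (nat_lit 76) (nat_lit 6369461568) (nat_lit 40) (nat_lit 5) (nat_lit 43) (nat_lit 5) (nat_lit 41) (nat_lit 4) (nat_lit 395) (nat_lit 340) (nat_lit 285)) (XT.lf (nat_lit 0) (nat_lit 8976289688) (nat_lit 76) (nat_lit 8579765409) (nat_lit 152) (nat_lit 4409327230)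 (nat_lit 39) (nat_lit 5) (nat_lit 40) (nat_lit 5) (nat_lit 41) (nat_lit 4) (nat_lit 396) (nat_lit 340) (nat_lit 284))) (XT.nd (nat_lit 78) (nat_lit 152) (nat_lit 0) (XT.lf (nat_lit 0) (nat_lit 1211115805) (nat_lit 152) (nat_lit 704928498) (nat_lit 76) (nat_lit 20800010138) (nat_lit 38) (nat_lit 5) (nat_lit 40) (nat_lit 5) (nat_lit 39) (nat_lit 5) (nat_lit 397) (nat_lit 340) (nat_lit 283)) (XT.lf (nat_lit 0) (nat_lit 7204178044) (nat_lit 228) (nat_lit 11125174560) (nat_lit 76) (nat_lit 5159310053) (nat_lit 36) (nat_lit 5) (nat_lit 39) (nat_lit 5) (nat_lit 37) (nat_lit 4) (nat_lit 398) (nat_lit 340) (nat_lit 282))))) (XT.nd (nat_lit 234) (nat_lit 228) (nat_lit 0) (XT.nd (nat_lit 78) (nat_lit 228) (nat_lit 0) (XT.lf (nat_lit 0) (nat_lit 1766348928) (nat_lit 76) (nat_lit 11764105111) (nat_lit 152) (nat_lit 10767774613) (nat_lit 35) (nat_lit 5) (nat_lit 36) (nat_lit 5) (nat_lit 37) (nat_lit 4)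 (nat_lit 399) (nat_lit 340) (nat_lit 281)) (XT.nd (nat_lit 78) (nat_lit 228) (nat_lit 0) (XT.lf (nat_lit 0) (nat_lit 15620729947) (nat_lit 76) (nat_lit 4703890118) (nat_lit 152) (nat_lit 4816079210) (nat_lit 35) (nat_lit 5) (nat_lit 36) (nat_lit 5) (nat_lit 37) (nat_lit 4) (nat_lit 400) (nat_lit 340) (nat_lit 280)) (XT.lf (nat_lit 0) (nat_lit 1460327841) (nat_lit 228) (nat_lit 21877654528) (nat_lit 76) (nat_lit 2682546997) (nat_lit 32) (nat_lit 5) (nat_lit 35) (nat_lit 5) (nat_lit 33) (nat_lit 4) (nat_lit 401) (nat_lit 340) (nat_lit 279)))) (XT.nd (nat_lit 156) (nat_lit 152) (nat_lit 0) (XT.nd (nat_lit 78) (nat_lit 76) (nat_lit 0) (XT.lf (nat_lit 0) (nat_lit 8094244208) (nat_lit 228) (nat_lit 8341755677) (nat_lit 76) (nat_lit 10494130871) (nat_lit 32) (nat_lit 5) (nat_lit 35) (nat_lit 5) (nat_lit 33) (nat_lit 4) (nat_lit 402) (nat_lit 340) (nat_lit 278)) (XT.lf (nat_lit 0) (nat_lit 5999993546)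 (nat_lit 76) (nat_lit 9119786730) (nat_lit 152) (nat_lit 12762439975) (nat_lit 31) (nat_lit 5) (nat_lit 32) (nat_lit 5) (nat_lit 33) (nat_lit 4) (nat_lit 403) (nat_lit 340) (nat_lit 277))) (XT.nd (nat_lit 78) (nat_lit 152) (nat_lit 0) (XT.lf (nat_lit 0) (nat_lit 21286471156) (nat_lit 76) (nat_lit 1318280645) (nat_lit 152) (nat_lit 6271758517) (nat_lit 31) (nat_lit 5) (nat_lit 32) (nat_lit 5) (nat_lit 33) (nat_lit 4) (nat_lit 404) (nat_lit 340) (nat_lit 276)) (XT.lf (nat_lit 0) (nat_lit 721481368) (nat_lit 152) (nat_lit 22433568687) (nat_lit 76) (nat_lit 6755273323) (nat_lit 29) (nat_lit 5) (nat_lit 31) (nat_lit 5) (nat_lit 30) (nat_lit 4) (nat_lit 405) (nat_lit 340) (nat_lit 275))))))))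
noncomputable def xc98 : XT := (XT.nd (nat_lit 2106) (nat_lit 532) (nat_lit 0) (XT.nd (nat_lit 1014) (nat_lit 608) (nat_lit 0) (XT.nd (nat_lit 468) (nat_lit 304) (nat_lit 0) (XT.nd (nat_lit 234) (nat_lit 228) (nat_lit 0) (XT.nd (nat_lit 78) (nat_lit 76) (nat_lit 0) (XT.lf (nat_lit 0) (nat_lit 7973985354) (nat_lit 152) (nat_lit 7615791051) (nat_lit 76) (nat_lit 15394894664) (nat_lit 29) (nat_lit 5) (nat_lit 31) (nat_lit 5) (nat_lit 30) (nat_lit 4) (nat_lit 406) (nat_lit 340) (nat_lit 274)) (XT.nd (nat_lit 78) (nat_lit 0) (nat_lit 0) (XT.lf (nat_lit 0) (nat_lit 8146220473) (nat_lit 76) (nat_lit 7539712680) (nat_lit 152) (nat_lit 16421965377) (nat_lit 28) (nat_lit 5) (nat_lit 29) (nat_lit 5) (nat_lit 30) (nat_lit 4) (nat_lit 407) (nat_lit 340) (nat_lit 273)) (XT.lf (nat_lit 0) (nat_lit 23898603675) (nat_lit 152) (nat_lit 8394005887) (nat_lit 0) (nat_lit 988924690) (nat_lit 28) (nat_lit 5) (nat_lit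 30) (nat_lit 4) (nat_lit 28) (nat_lit 4) (nat_lit 408) (nat_lit 340) (nat_lit 272)))) (XT.nd (nat_lit 78) (nat_lit 152) (nat_lit 0) (XT.lf (nat_lit 0) (nat_lit 8030683467) (nat_lit 76) (nat_lit 24711428181) (nat_lit 76) (nat_lit 1760732923) (nat_lit 27) (nat_lit 4) (nat_lit 28) (nat_lit 5) (nat_lit 28) (nat_lit 4) (nat_lit 409) (nat_lit 340) (nat_lit 271)) (XT.nd (nat_lit 78) (nat_lit 76) (nat_lit 0) (XT.lf (nat_lit 0) (nat_lit 6158543652) (nat_lit 152) (nat_lit 10364743888) (nat_lit 76) (nat_lit 19251273866) (nat_lit 26) (nat_lit 5) (nat_lit 28) (nat_lit 5) (nat_lit 27) (nat_lit 4) (nat_lit 410) (nat_lit 340) (nat_lit 270)) (XT.lf (nat_lit 0) (nat_lit 6680753145) (nat_lit 76) (nat_lit 7810814898) (nat_lit 152) (nat_lit 22613007606) (nat_lit 25) (nat_lit 5) (nat_lit 26) (nat_lit 5) (nat_lit 27) (nat_lit 4) (nat_lit 411) (nat_lit 340) (nat_lit 269))))) (XT.nd (nat_lit 234) (nat_lit 152) (nat_lit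 0) (XT.nd (nat_lit 78) (nat_lit 152) (nat_lit 0) (XT.lf (nat_lit 0) (nat_lit 23413299009) (nat_lit 152) (nat_lit 13630075858) (nat_lit 0) (nat_lit 1449115443) (nat_lit 25) (nat_lit 5) (nat_lit 27) (nat_lit 4) (nat_lit 25) (nat_lit 4) (nat_lit 412) (nat_lit 340) (nat_lit 268)) (XT.nd (nat_lit 78) (nat_lit 76) (nat_lit 0) (XT.lf (nat_lit 0) (nat_lit 3951920884) (nat_lit 76) (nat_lit 28993006266) (nat_lit 76) (nat_lit 6996685377) (nat_lit 24) (nat_lit 4) (nat_lit 25) (nat_lit 5) (nat_lit 25) (nat_lit 4) (nat_lit 413) (nat_lit 340) (nat_lit 267)) (XT.lf (nat_lit 0) (nat_lit 1650987474) (nat_lit 152) (nat_lit 18642403540) (nat_lit 76) (nat_lit 21158202405) (nat_lit 23) (nat_lit 5) (nat_lit 25) (nat_lit 5) (nat_lit 24) (nat_lit 4) (nat_lit 414) (nat_lit 340) (nat_lit 266)))) (XT.nd (nat_lit 156) (nat_lit 76) (nat_lit 0) (XT.nd (nat_lit 78) (nat_lit 76) (nat_lit 0) (XT.lf (nat_lit 0) (nat_lit 10471255311)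 (nat_lit 152) (nat_lit 590003974) (nat_lit 76) (nat_lit 31971313826) (nat_lit 23) (nat_lit 5) (nat_lit 25) (nat_lit 5) (nat_lit 24) (nat_lit 4) (nat_lit 415) (nat_lit 340) (nat_lit 265)) (XT.lf (nat_lit 0) (nat_lit 18925459728) (nat_lit 76) (nat_lit 1079076135) (nat_lit 152) (nat_lit 24674467896) (nat_lit 22) (nat_lit 5) (nat_lit 23) (nat_lit 5) (nat_lit 24) (nat_lit 4) (nat_lit 416) (nat_lit 340) (nat_lit 264))) (XT.nd (nat_lit 78) (nat_lit 76) (nat_lit 0) (XT.lf (nat_lit 0) (nat_lit 30148037789) (nat_lit 152) (nat_lit 7162412193) (nat_lit 0) (nat_lit 9090629935) (nat_lit 22) (nat_lit 5) (nat_lit 24) (nat_lit 4) (nat_lit 22) (nat_lit 4) (nat_lit 417) (nat_lit 340) (nat_lit 263)) (XT.lf (nat_lit 0) (nat_lit 12703976548) (nat_lit 76) (nat_lit 28288493281) (nat_lit 76) (nat_lit 7207104061) (nat_lit 21) (nat_lit 4) (nat_lit 22) (nat_lit 5) (nat_lit 22) (nat_lit 4) (nat_lit 418) (nat_lit 340)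 (nat_lit 262)))))) (XT.nd (nat_lit 546) (nat_lit 304) (nat_lit 0) (XT.nd (nat_lit 234) (nat_lit 152) (nat_lit 0) (XT.nd (nat_lit 78) (nat_lit 76) (nat_lit 0) (XT.lf (nat_lit 0) (nat_lit 2318845132) (nat_lit 152) (nat_lit 16350596094) (nat_lit 76) (nat_lit 31411712145) (nat_lit 20) (nat_lit 5) (nat_lit 22) (nat_lit 5) (nat_lit 21) (nat_lit 4) (nat_lit 419) (nat_lit 340) (nat_lit 261)) (XT.nd (nat_lit 78) (nat_lit 0) (nat_lit 0) (XT.lf (nat_lit 0) (nat_lit 3711087271) (nat_lit 76) (nat_lit 8404555505) (nat_lit 152) (nat_lit 39933425258) (nat_lit 19) (nat_lit 5) (nat_lit 20) (nat_lit 5) (nat_lit 21) (nat_lit 4) (nat_lit 420) (nat_lit 340) (nat_lit 260)) (XT.lf (nat_lit 0) (nat_lit 22699667576) (nat_lit 152) (nat_lit 28840886244) (nat_lit 0) (nat_lit 2559956693) (nat_lit 19) (nat_lit 5) (nat_lit 21) (nat_lit 4) (nat_lit 19) (nat_lit 4) (nat_lit 421) (nat_lit 340) (nat_lit 259)))) (XT.nd (nat_lit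 156) (nat_lit 76) (nat_lit 0) (XT.nd (nat_lit 78) (nat_lit 76) (nat_lit 0) (XT.lf (nat_lit 0) (nat_lit 33930563153) (nat_lit 152) (nat_lit 8546017620) (nat_lit 0) (nat_lit 13772062243) (nat_lit 19) (nat_lit 5) (nat_lit 21) (nat_lit 4) (nat_lit 19) (nat_lit 4) (nat_lit 422) (nat_lit 340) (nat_lit 258)) (XT.lf (nat_lit 0) (nat_lit 13146949371) (nat_lit 76) (nat_lit 32762162423) (nat_lit 76) (nat_lit 12585766248) (nat_lit 18) (nat_lit 4) (nat_lit 19) (nat_lit 5) (nat_lit 19) (nat_lit 4) (nat_lit 423) (nat_lit 340) (nat_lit 257))) (XT.nd (nat_lit 78) (nat_lit 76) (nat_lit 0) (XT.lf (nat_lit 0) (nat_lit 36184437302) (nat_lit 76) (nat_lit 22428066135) (nat_lit 76) (nat_lit 2234626852) (nat_lit 18) (nat_lit 4) (nat_lit 19) (nat_lit 5) (nat_lit 19) (nat_lit 4) (nat_lit 424) (nat_lit 340) (nat_lit 256)) (XT.lf (nat_lit 0) (nat_lit 8339511053) (nat_lit 152) (nat_lit 3113673155) (nat_lit 76) (nat_lit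 51857982688) (nat_lit 17) (nat_lit 5) (nat_lit 19) (nat_lit 5) (nat_lit 18) (nat_lit 4) (nat_lit 425) (nat_lit 340) (nat_lit 255))))) (XT.nd (nat_lit 234) (nat_lit 228) (nat_lit 0) (XT.nd (nat_lit 78) (nat_lit 0) (nat_lit 0) (XT.lf (nat_lit 0) (nat_lit 19670075861) (nat_lit 152) (nat_lit 45803310139) (nat_lit 0) (nat_lit 408047845) (nat_lit 16) (nat_lit 5) (nat_lit 18) (nat_lit 4) (nat_lit 16) (nat_lit 4) (nat_lit 426) (nat_lit 340) (nat_lit 254)) (XT.nd (nat_lit 78) (nat_lit 0) (nat_lit 0) (XT.lf (nat_lit 0) (nat_lit 31791223374) (nat_lit 152) (nat_lit 24262615123) (nat_lit 0) (nat_lit 12515173950) (nat_lit 16) (nat_lit 5) (nat_lit 18) (nat_lit 4) (nat_lit 16) (nat_lit 4) (nat_lit 427) (nat_lit 340) (nat_lit 253)) (XT.lf (nat_lit 0) (nat_lit 44501953341) (nat_lit 152) (nat_lit 1677291166) (nat_lit 0) (nat_lit 25212550195) (nat_lit 16) (nat_lit 5) (nat_lit 18) (nat_lit 4) (nat_lit 16) (nat_lit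 4) (nat_lit 428) (nat_lit 340) (nat_lit 252)))) (XT.nd (nat_lit 156) (nat_lit 152) (nat_lit 0) (XT.nd (nat_lit 78) (nat_lit 0) (nat_lit 0) (XT.lf (nat_lit 0) (nat_lit 22734068479) (nat_lit 76) (nat_lit 35453403447) (nat_lit 76) (nat_lit 16151282471) (nat_lit 15) (nat_lit 4) (nat_lit 16) (nat_lit 5) (nat_lit 16) (nat_lit 4) (nat_lit 429) (nat_lit 340) (nat_lit 251)) (XT.lf (nat_lit 0) (nat_lit 48393862977) (nat_lit 76) (nat_lit 24176391881) (nat_lit 76) (nat_lit 4862158685) (nat_lit 15) (nat_lit 4) (nat_lit 16) (nat_lit 5) (nat_lit 16) (nat_lit 4) (nat_lit 430) (nat_lit 340) (nat_lit 250))) (XT.nd (nat_lit 78) (nat_lit 76) (nat_lit 0) (XT.lf (nat_lit 0) (nat_lit 6752727457) (nat_lit 152) (nat_lit 5482677354) (nat_lit 76) (nat_lit 68440640092) (nat_lit 14) (nat_lit 5) (nat_lit 16) (nat_lit 5) (nat_lit 15) (nat_lit 4) (nat_lit 431) (nat_lit 340) (nat_lit 249)) (XT.lf (nat_lit 0) (nat_lit 19090383765)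 (nat_lit 152) (nat_lit 64297791311) (nat_lit 0) (nat_lit 674426830) (nat_lit 13) (nat_lit 5) (nat_lit 15) (nat_lit 4) (nat_lit 13) (nat_lit 4) (nat_lit 432) (nat_lit 340) (nat_lit 248))))))) (XT.nd (nat_lit 1014) (nat_lit 228) (nat_lit 0) (XT.nd (nat_lit 468) (nat_lit 152) (nat_lit 0) (XT.nd (nat_lit 234) (nat_lit 76) (nat_lit 0) (XT.nd (nat_lit 78) (nat_lit 76) (nat_lit 0) (XT.lf (nat_lit 0) (nat_lit 32325697587) (nat_lit 152) (nat_lit 41378975270) (nat_lit 0) (nat_lit 13899775899) (nat_lit 13) (nat_lit 5) (nat_lit 15) (nat_lit 4) (nat_lit 13) (nat_lit 4) (nat_lit 433) (nat_lit 340) (nat_lit 247)) (XT.nd (nat_lit 78) (nat_lit 76) (nat_lit 0) (XT.lf (nat_lit 0) (nat_lit 46209272659) (nat_lit 152) (nat_lit 17340930478) (nat_lit 0) (nat_lit 27773860730) (nat_lit 13) (nat_lit 5) (nat_lit 15) (nat_lit 4) (nat_lit 13) (nat_lit 4) (nat_lit 434) (nat_lit 340) (nat_lit 246)) (XT.lf (nat_lit 0) (nat_lit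 8133912503) (nat_lit 76) (nat_lit 52767245778) (nat_lit 76) (nat_lit 34322795525) (nat_lit 12) (nat_lit 4) (nat_lit 13) (nat_lit 5) (nat_lit 13) (nat_lit 4) (nat_lit 435) (nat_lit 340) (nat_lit 245)))) (XT.nd (nat_lit 78) (nat_lit 76) (nat_lit 0) (XT.lf (nat_lit 0) (nat_lit 35459505857) (nat_lit 76) (nat_lit 41149169664) (nat_lit 76) (nat_lit 22696111483) (nat_lit 12) (nat_lit 4) (nat_lit 13) (nat_lit 5) (nat_lit 13) (nat_lit 4) (nat_lit 436) (nat_lit 340) (nat_lit 244)) (XT.nd (nat_lit 78) (nat_lit 76) (nat_lit 0) (XT.lf (nat_lit 0) (nat_lit 64127541046) (nat_lit 76) (nat_lit 28961989758) (nat_lit 76) (nat_lit 10500733550) (nat_lit 12) (nat_lit 4) (nat_lit 13) (nat_lit 5) (nat_lit 13) (nat_lit 4) (nat_lit 437) (nat_lit 340) (nat_lit 243)) (XT.lf (nat_lit 0) (nat_lit 2219004574) (nat_lit 152) (nat_lit 13920104475) (nat_lit 76) (nat_lit 91949690806) (nat_lit 11) (nat_lit 5) (nat_lit 13) (nat_lit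 5) (nat_lit 12) (nat_lit 4) (nat_lit 438) (nat_lit 340) (nat_lit 242))))) (XT.nd (nat_lit 234) (nat_lit 76) (nat_lit 0) (XT.nd (nat_lit 78) (nat_lit 0) (nat_lit 0) (XT.lf (nat_lit 0) (nat_lit 13125614675) (nat_lit 76) (nat_lit 2290050875) (nat_lit 152) (nat_lit 97378298468) (nat_lit 10) (nat_lit 5) (nat_lit 11) (nat_lit 5) (nat_lit 12) (nat_lit 4) (nat_lit 439) (nat_lit 340) (nat_lit 241)) (XT.nd (nat_lit 78) (nat_lit 0) (nat_lit 0) (XT.lf (nat_lit 0) (nat_lit 29691972614) (nat_lit 152) (nat_lit 75932861925) (nat_lit 0) (nat_lit 12088561693) (nat_lit 10) (nat_lit 5) (nat_lit 12) (nat_lit 4) (nat_lit 10) (nat_lit 4) (nat_lit 440) (nat_lit 340) (nat_lit 240)) (XT.lf (nat_lit 0) (nat_lit 44709089281) (nat_lit 152) (nat_lit 51069106542) (nat_lit 0) (nat_lit 27099254991) (nat_lit 10) (nat_lit 5) (nat_lit 12) (nat_lit 4) (nat_lit 10) (nat_lit 4) (nat_lit 441) (nat_lit 340) (nat_lit 239)))) (XT.nd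 (nat_lit 156) (nat_lit 0) (nat_lit 0) (XT.nd (nat_lit 78) (nat_lit 76) (nat_lit 0) (XT.lf (nat_lit 0) (nat_lit 60467016478) (nat_lit 152) (nat_lit 24982129667) (nat_lit 0) (nat_lit 42851064694) (nat_lit 10) (nat_lit 5) (nat_lit 12) (nat_lit 4) (nat_lit 10) (nat_lit 4) (nat_lit 442) (nat_lit 340) (nat_lit 238)) (XT.lf (nat_lit 0) (nat_lit 2469210713) (nat_lit 76) (nat_lit 74572613666) (nat_lit 76) (nat_lit 56950835697) (nat_lit 9) (nat_lit 4) (nat_lit 10) (nat_lit 5) (nat_lit 10) (nat_lit 4) (nat_lit 443) (nat_lit 340) (nat_lit 237))) (XT.nd (nat_lit 78) (nat_lit 0) (nat_lit 0) (XT.lf (nat_lit 0) (nat_lit 32141732445) (nat_lit 76) (nat_lit 62717321201) (nat_lit 76) (nat_lit 45089994486) (nat_lit 9) (nat_lit 4) (nat_lit 10) (nat_lit 5) (nat_lit 10) (nat_lit 4) (nat_lit 444) (nat_lit 340) (nat_lit 236)) (XT.lf (nat_lit 0) (nat_lit 63280062359) (nat_lit 76) (nat_lit 50278126320) (nat_lit 76)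 (nat_lit 32645515083) (nat_lit 9) (nat_lit 4) (nat_lit 10) (nat_lit 5) (nat_lit 10) (nat_lit 4) (nat_lit 445) (nat_lit 340) (nat_lit 235)))))) (XT.nd (nat_lit 546) (nat_lit 76) (nat_lit 0) (XT.nd (nat_lit 234) (nat_lit 76) (nat_lit 0) (XT.nd (nat_lit 78) (nat_lit 76) (nat_lit 0) (XT.lf (nat_lit 0) (nat_lit 95958339337) (nat_lit 76) (nat_lit 37225411892) (nat_lit 76) (nat_lit 19587767778) (nat_lit 9) (nat_lit 4) (nat_lit 10) (nat_lit 5) (nat_lit 10) (nat_lit 4) (nat_lit 446) (nat_lit 340) (nat_lit 234)) (XT.nd (nat_lit 78) (nat_lit 76) (nat_lit 0) (XT.lf (nat_lit 0) (nat_lit 130254368798) (nat_lit 76) (nat_lit 23528100025) (nat_lit 76) (nat_lit 5885662694) (nat_lit 9) (nat_lit 4) (nat_lit 10) (nat_lit 5) (nat_lit 10) (nat_lit 4) (nat_lit 447) (nat_lit 340) (nat_lit 233)) (XT.lf (nat_lit 0) (nat_lit 8221581609) (nat_lit 152) (nat_lit 792759999) (nat_lit 76) (nat_lit 157888989886) (nat_lit 8)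 (nat_lit 5) (nat_lit 10) (nat_lit 5) (nat_lit 9) (nat_lit 4) (nat_lit 448) (nat_lit 340) (nat_lit 232)))) (XT.nd (nat_lit 156) (nat_lit 0) (nat_lit 0) (XT.nd (nat_lit 78) (nat_lit 0) (nat_lit 0) (XT.lf (nat_lit 0) (nat_lit 23405393983) (nat_lit 152) (nat_lit 144467038775) (nat_lit 0) (nat_lit 6594584566) (nat_lit 7) (nat_lit 5) (nat_lit 9) (nat_lit 4) (nat_lit 7) (nat_lit 4) (nat_lit 449) (nat_lit 340) (nat_lit 231)) (XT.lf (nat_lit 0) (nat_lit 39502343552) (nat_lit 152) (nat_lit 120211256109) (nat_lit 0) (nat_lit 22687590744) (nat_lit 7) (nat_lit 5) (nat_lit 9) (nat_lit 4) (nat_lit 7) (nat_lit 4) (nat_lit 450) (nat_lit 340) (nat_lit 230))) (XT.nd (nat_lit 78) (nat_lit 0) (nat_lit 0) (XT.lf (nat_lit 0) (nat_lit 56397021185) (nat_lit 152) (nat_lit 94756894433) (nat_lit 0) (nat_lit 39578512767) (nat_lit 7) (nat_lit 5) (nat_lit 9) (nat_lit 4) (nat_lit 7) (nat_lit 4) (nat_lit 451) (nat_lit 340)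 (nat_lit 229)) (XT.lf (nat_lit 0) (nat_lit 74129652307) (nat_lit 152) (nat_lit 68043348123) (nat_lit 0) (nat_lit 57307567117) (nat_lit 7) (nat_lit 5) (nat_lit 9) (nat_lit 4) (nat_lit 7) (nat_lit 4) (nat_lit 452) (nat_lit 340) (nat_lit 228))))) (XT.nd (nat_lit 234) (nat_lit 0) (nat_lit 0) (XT.nd (nat_lit 78) (nat_lit 76) (nat_lit 0) (XT.lf (nat_lit 0) (nat_lit 92742457467) (nat_lit 152) (nat_lit 40007013499) (nat_lit 0) (nat_lit 75916965828) (nat_lit 7) (nat_lit 5) (nat_lit 9) (nat_lit 4) (nat_lit 7) (nat_lit 4) (nat_lit 453) (nat_lit 340) (nat_lit 227)) (XT.nd (nat_lit 78) (nat_lit 76) (nat_lit 0) (XT.lf (nat_lit 0) (nat_lit 112279752868) (nat_lit 152) (nat_lit 10581137381) (nat_lit 0) (nat_lit 95451016991) (nat_lit 7) (nat_lit 5) (nat_lit 9) (nat_lit 4) (nat_lit 7) (nat_lit 4) (nat_lit 454) (nat_lit 340) (nat_lit 226)) (XT.lf (nat_lit 0) (nat_lit 20975695076) (nat_lit 76) (nat_lit 112139850188)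 (nat_lit 76) (nat_lit 95308024561) (nat_lit 6) (nat_lit 4) (nat_lit 7) (nat_lit 5) (nat_lit 7) (nat_lit 4) (nat_lit 455) (nat_lit 340) (nat_lit 225)))) (XT.nd (nat_lit 156) (nat_lit 0) (nat_lit 0) (XT.nd (nat_lit 78) (nat_lit 0) (nat_lit 0) (XT.lf (nat_lit 0) (nat_lit 54466220210) (nat_lit 76) (nat_lit 100700345923) (nat_lit 76) (nat_lit 83865577677) (nat_lit 6) (nat_lit 4) (nat_lit 7) (nat_lit 5) (nat_lit 7) (nat_lit 4) (nat_lit 456) (nat_lit 340) (nat_lit 224)) (XT.lf (nat_lit 0) (nat_lit 89620317179) (nat_lit 76) (nat_lit 88694337223) (nat_lit 76) (nat_lit 71856766482) (nat_lit 6) (nat_lit 4) (nat_lit 7) (nat_lit 5) (nat_lit 7) (nat_lit 4) (nat_lit 457) (nat_lit 340) (nat_lit 223))) (XT.nd (nat_lit 78) (nat_lit 0) (nat_lit 0) (XT.lf (nat_lit 0) (nat_lit 126521686213) (nat_lit 76) (nat_lit 76093238351) (nat_lit 76) (nat_lit 59252998568) (nat_lit 6) (nat_lit 4) (nat_lit 7) (nat_lit 5) (nat_lit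 7) (nat_lit 4) (nat_lit 458) (nat_lit 340) (nat_lit 222)) (XT.lf (nat_lit 0) (nat_lit 165258187714) (nat_lit 76) (nat_lit 62867046692) (nat_lit 76) (nat_lit 46024264965) (nat_lit 6) (nat_lit 4) (nat_lit 7) (nat_lit 5) (nat_lit 7) (nat_lit 4) (nat_lit 459) (nat_lit 340) (nat_lit 221))))))))
noncomputable def xc99 : XT := (XT.nd (nat_lit 44070) (nat_lit 0) (nat_lit 6004) (XT.nd (nat_lit 1014) (nat_lit 76) (nat_lit 0) (XT.nd (nat_lit 468) (nat_lit 0) (nat_lit 0) (XT.nd (nat_lit 234) (nat_lit 152) (nat_lit 0) (XT.nd (nat_lit 78) (nat_lit 0) (nat_lit 0) (XT.lf (nat_lit 0) (nat_lit 205922051448) (nat_lit 76) (nat_lit 48984271314) (nat_lit 76) (nat_lit 32139068686) (nat_lit 6) (nat_lit 4) (nat_lit 7) (nat_lit 5) (nat_lit 7) (nat_lit 4) (nat_lit 460) (nat_lit 340) (nat_lit 220)) (XT.nd (nat_lit 78) (nat_lit 0) (nat_lit 0) (XT.lf (nat_lit 0) (nat_lit 248610096139) (nat_lit 76) (nat_lit 34411857988)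 (nat_lit 76) (nat_lit 17564349741) (nat_lit 6) (nat_lit 4) (nat_lit 7) (nat_lit 5) (nat_lit 7) (nat_lit 4) (nat_lit 461) (nat_lit 340) (nat_lit 219)) (XT.lf (nat_lit 0) (nat_lit 293423959987) (nat_lit 76) (nat_lit 19115110493) (nat_lit 76) (nat_lit 2265406418) (nat_lit 6) (nat_lit 4) (nat_lit 7) (nat_lit 5) (nat_lit 7) (nat_lit 4) (nat_lit 462) (nat_lit 340) (nat_lit 218)))) (XT.nd (nat_lit 78) (nat_lit 0) (nat_lit 0) (XT.lf (nat_lit 0) (nat_lit 10869092243) (nat_lit 76) (nat_lit 2653291943) (nat_lit 152) (nat_lit 316192126003) (nat_lit 4) (nat_lit 5) (nat_lit 5) (nat_lit 5) (nat_lit 6) (nat_lit 4) (nat_lit 463) (nat_lit 340) (nat_lit 217)) (XT.nd (nat_lit 78) (nat_lit 0) (nat_lit 0) (XT.lf (nat_lit 0) (nat_lit 30615744980) (nat_lit 152) (nat_lit 300158308505) (nat_lit 0) (nat_lit 14564519247) (nat_lit 4) (nat_lit 5) (nat_lit 6) (nat_lit 4) (nat_lit 4) (nat_lit 4) (nat_lit 464) (nat_lit 340)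 (nat_lit 216)) (XT.lf (nat_lit 0) (nat_lit 48603315473) (nat_lit 152) (nat_lit 280588262752) (nat_lit 0) (nat_lit 32550283227) (nat_lit 4) (nat_lit 5) (nat_lit 6) (nat_lit 4) (nat_lit 4) (nat_lit 4) (nat_lit 465) (nat_lit 340) (nat_lit 215))))) (XT.nd (nat_lit 234) (nat_lit 0) (nat_lit 0) (XT.nd (nat_lit 78) (nat_lit 0) (nat_lit 0) (XT.lf (nat_lit 0) (nat_lit 67486497891) (nat_lit 152) (nat_lit 260047260017) (nat_lit 0) (nat_lit 51431745156) (nat_lit 4) (nat_lit 5) (nat_lit 6) (nat_lit 4) (nat_lit 4) (nat_lit 4) (nat_lit 466) (nat_lit 340) (nat_lit 214)) (XT.nd (nat_lit 78) (nat_lit 0) (nat_lit 0) (XT.lf (nat_lit 0) (nat_lit 87310252191) (nat_lit 152) (nat_lit 238486393152) (nat_lit 0) (nat_lit 71253860896) (nat_lit 4) (nat_lit 5) (nat_lit 6) (nat_lit 4) (nat_lit 4) (nat_lit 4) (nat_lit 467) (nat_lit 340) (nat_lit 213)) (XT.lf (nat_lit 0) (nat_lit 108121777789) (nat_lit 152) (nat_lit 215854326759)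 (nat_lit 0) (nat_lit 92063825961) (nat_lit 4) (nat_lit 5) (nat_lit 6) (nat_lit 4) (nat_lit 4) (nat_lit 4) (nat_lit 468) (nat_lit 340) (nat_lit 212)))) (XT.nd (nat_lit 156) (nat_lit 0) (nat_lit 0) (XT.nd (nat_lit 78) (nat_lit 0) (nat_lit 0) (XT.lf (nat_lit 0) (nat_lit 129970625936) (nat_lit 152) (nat_lit 192097174965) (nat_lit 0) (nat_lit 113911187886) (nat_lit 4) (nat_lit 5) (nat_lit 6) (nat_lit 4) (nat_lit 4) (nat_lit 4) (nat_lit 469) (nat_lit 340) (nat_lit 211)) (XT.lf (nat_lit 0) (nat_lit 152908817700) (nat_lit 152) (nat_lit 167158373123) (nat_lit 0) (nat_lit 136847964199) (nat_lit 4) (nat_lit 5) (nat_lit 6) (nat_lit 4) (nat_lit 4) (nat_lit 4) (nat_lit 470) (nat_lit 340) (nat_lit 210))) (XT.nd (nat_lit 78) (nat_lit 0) (nat_lit 0) (XT.lf (nat_lit 0) (nat_lit 176990967822) (nat_lit 152) (nat_lit 140978543134) (nat_lit 0) (nat_lit 160928766273) (nat_lit 4) (nat_lit 5) (nat_lit 6) (nat_lit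 4) (nat_lit 4) (nat_lit 4) (nat_lit 471) (nat_lit 340) (nat_lit 209)) (XT.lf (nat_lit 0) (nat_lit 202274414755) (nat_lit 152) (nat_lit 113495352069) (nat_lit 0) (nat_lit 186210929351) (nat_lit 4) (nat_lit 5) (nat_lit 6) (nat_lit 4) (nat_lit 4) (nat_lit 4) (nat_lit 472) (nat_lit 340) (nat_lit 208)))))) (XT.nd (nat_lit 546) (nat_lit 0) (nat_lit 0) (XT.nd (nat_lit 234) (nat_lit 76) (nat_lit 0) (XT.nd (nat_lit 78) (nat_lit 0) (nat_lit 0) (XT.lf (nat_lit 0) (nat_lit 228819357182) (nat_lit 152) (nat_lit 84643363759) (nat_lit 0) (nat_lit 212754649060) (nat_lit 4) (nat_lit 5) (nat_lit 6) (nat_lit 4) (nat_lit 4) (nat_lit 4) (nat_lit 473) (nat_lit 340) (nat_lit 207)) (XT.nd (nat_lit 78) (nat_lit 0) (nat_lit 0) (XT.lf (nat_lit 0) (nat_lit 256688997348) (nat_lit 152) (nat_lit 54353882994) (nat_lit 0) (nat_lit 240623124731) (nat_lit 4) (nat_lit 5) (nat_lit 6) (nat_lit 4) (nat_lit 4) (nat_lit 4) (nat_lit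 474) (nat_lit 340) (nat_lit 206)) (XT.lf (nat_lit 0) (nat_lit 285949691538) (nat_lit 152) (nat_lit 22554791962) (nat_lit 0) (nat_lit 269882709879) (nat_lit 4) (nat_lit 5) (nat_lit 6) (nat_lit 4) (nat_lit 4) (nat_lit 4) (nat_lit 475) (nat_lit 340) (nat_lit 205)))) (XT.nd (nat_lit 156) (nat_lit 0) (nat_lit 0) (XT.nd (nat_lit 78) (nat_lit 0) (nat_lit 0) (XT.lf (nat_lit 0) (nat_lit 11187697651) (nat_lit 76) (nat_lit 305658081735) (nat_lit 76) (nat_lit 289590043845) (nat_lit 3) (nat_lit 4) (nat_lit 4) (nat_lit 5) (nat_lit 4) (nat_lit 4) (nat_lit 476) (nat_lit 340) (nat_lit 204)) (XT.lf (nat_lit 0) (nat_lit 47395805740) (nat_lit 76) (nat_lit 302270568793) (nat_lit 76) (nat_lit 286201524969) (nat_lit 3) (nat_lit 4) (nat_lit 4) (nat_lit 5) (nat_lit 4) (nat_lit 4) (nat_lit 477) (nat_lit 340) (nat_lit 203))) (XT.nd (nat_lit 78) (nat_lit 0) (nat_lit 0) (XT.lf (nat_lit 0) (nat_lit 85409978805) (nat_lit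 76) (nat_lit 298715855483) (nat_lit 76) (nat_lit 282645853627) (nat_lit 3) (nat_lit 4) (nat_lit 4) (nat_lit 5) (nat_lit 4) (nat_lit 4) (nat_lit 478) (nat_lit 340) (nat_lit 202)) (XT.lf (nat_lit 0) (nat_lit 125320726781) (nat_lit 76) (nat_lit 294985478203) (nat_lit 76) (nat_lit 278914563935) (nat_lit 3) (nat_lit 4) (nat_lit 4) (nat_lit 5) (nat_lit 4) (nat_lit 4) (nat_lit 479) (nat_lit 340) (nat_lit 201))))) (XT.nd (nat_lit 234) (nat_lit 0) (nat_lit 0) (XT.nd (nat_lit 78) (nat_lit 0) (nat_lit 0) (XT.lf (nat_lit 0) (nat_lit 167223075257) (nat_lit 76) (nat_lit 291070555102) (nat_lit 76) (nat_lit 274998771870) (nat_lit 3) (nat_lit 4) (nat_lit 4) (nat_lit 5) (nat_lit 4) (nat_lit 4) (nat_lit 480) (nat_lit 340) (nat_lit 200)) (XT.nd (nat_lit 78) (nat_lit 0) (nat_lit 0) (XT.lf (nat_lit 0) (nat_lit 211216791731) (nat_lit 76) (nat_lit 286961764933) (nat_lit 76) (nat_lit 270889154117) (nat_lit 3) (nat_lit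 4) (nat_lit 4) (nat_lit 5) (nat_lit 4) (nat_lit 4) (nat_lit 481) (nat_lit 340) (nat_lit 199)) (XT.lf (nat_lit 0) (nat_lit 257406623147) (nat_lit 76) (nat_lit 282649324864) (nat_lit 76) (nat_lit 266575925873) (nat_lit 3) (nat_lit 4) (nat_lit 4) (nat_lit 5) (nat_lit 4) (nat_lit 4) (nat_lit 482) (nat_lit 340) (nat_lit 198)))) (XT.nd (nat_lit 42120) (nat_lit 0) (nat_lit 12996) (XT.nd (nat_lit 42042) (nat_lit 0) (nat_lit 13224) (XT.lf (nat_lit 0) (nat_lit 305902545293) (nat_lit 76) (nat_lit 278122967180) (nat_lit 76) (nat_lit 262048817545) (nat_lit 3) (nat_lit 4) (nat_lit 4) (nat_lit 5) (nat_lit 4) (nat_lit 4) (nat_lit 483) (nat_lit 340) (nat_lit 197)) (XT.lf (nat_lit 0) (nat_lit 1527136731) (nat_lit 0) (nat_lit 1527136731) (nat_lit 76) (nat_lit 172075827) (nat_lit 177) (nat_lit 5) (nat_lit 177) (nat_lit 3) (nat_lit 178) (nat_lit 0) (nat_lit 341) (nat_lit 341) (nat_lit 338))) (XT.nd (nat_lit 78)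 (nat_lit 0) (nat_lit 0) (XT.lf (nat_lit 0) (nat_lit 2521800084) (nat_lit 228) (nat_lit 234838712) (nat_lit 228) (nat_lit 3711660373) (nat_lit 174) (nat_lit 3) (nat_lit 177) (nat_lit 3) (nat_lit 177) (nat_lit 5) (nat_lit 342) (nat_lit 341) (nat_lit 337)) (XT.lf (nat_lit 76) (nat_lit 3083666745) (nat_lit 0) (nat_lit 2300676859) (nat_lit 228) (nat_lit 1106992185) (nat_lit 175) (nat_lit 5) (nat_lit 174) (nat_lit 3) (nat_lit 177) (nat_lit 5) (nat_lit 343) (nat_lit 341) (nat_lit 336))))))) (XT.nd (nat_lit 1014) (nat_lit 4028) (nat_lit 0) (XT.nd (nat_lit 468) (nat_lit 2128) (nat_lit 0) (XT.nd (nat_lit 234) (nat_lit 304) (nat_lit 0) (XT.nd (nat_lit 78) (nat_lit 304) (nat_lit 0) (XT.lf (nat_lit 0) (nat_lit 1639447806) (nat_lit 228) (nat_lit 69253395) (nat_lit 304) (nat_lit 4814276337) (nat_lit 171) (nat_lit 5) (nat_lit 174) (nat_lit 3) (nat_lit 175) (nat_lit 5) (nat_lit 344) (nat_lit 341) (nat_lit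 335)) (XT.nd (nat_lit 78) (nat_lit 304) (nat_lit 0) (XT.lf (nat_lit 76) (nat_lit 3431727268) (nat_lit 0) (nat_lit 937298096) (nat_lit 304) (nat_lit 2192274182) (nat_lit 172) (nat_lit 5) (nat_lit 171) (nat_lit 5) (nat_lit 175) (nat_lit 5) (nat_lit 345) (nat_lit 341) (nat_lit 334)) (XT.lf (nat_lit 76) (nat_lit 411800629) (nat_lit 0) (nat_lit 42341730) (nat_lit 380) (nat_lit 6154998837) (nat_lit 168) (nat_lit 5) (nat_lit 167) (nat_lit 5) (nat_lit 172) (nat_lit 5) (nat_lit 346) (nat_lit 341) (nat_lit 333)))) (XT.nd (nat_lit 78) (nat_lit 380) (nat_lit 0) (XT.lf (nat_lit 0) (nat_lit 3067705984) (nat_lit 304) (nat_lit 2576302346) (nat_lit 76) (nat_lit 1018279733) (nat_lit 168) (nat_lit 5) (nat_lit 172) (nat_lit 5) (nat_lit 169) (nat_lit 5) (nat_lit 347) (nat_lit 341) (nat_lit 332)) (XT.nd (nat_lit 78) (nat_lit 76) (nat_lit 0) (XT.lf (nat_lit 0) (nat_lit 1159683935) (nat_lit 304) (nat_lit 4519274385)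 (nat_lit 380) (nat_lit 1045912125) (nat_lit 164) (nat_lit 5) (nat_lit 168) (nat_lit 5) (nat_lit 169) (nat_lit 5) (nat_lit 348) (nat_lit 341) (nat_lit 331)) (XT.lf (nat_lit 0) (nat_lit 1473710533) (nat_lit 380) (nat_lit 1748559573) (nat_lit 76) (nat_lit 3572371204) (nat_lit 163) (nat_lit 5) (nat_lit 168) (nat_lit 5) (nat_lit 164) (nat_lit 5) (nat_lit 349) (nat_lit 341) (nat_lit 330))))) (XT.nd (nat_lit 234) (nat_lit 1216) (nat_lit 0) (XT.nd (nat_lit 78) (nat_lit 532) (nat_lit 0) (XT.lf (nat_lit 0) (nat_lit 2211678231) (nat_lit 380) (nat_lit 1765445009) (nat_lit 456) (nat_lit 2895383427) (nat_lit 158) (nat_lit 5) (nat_lit 163) (nat_lit 5) (nat_lit 164) (nat_lit 5) (nat_lit 350) (nat_lit 341) (nat_lit 329)) (XT.nd (nat_lit 78) (nat_lit 532) (nat_lit 0) (XT.lf (nat_lit 0) (nat_lit 6331398877) (nat_lit 380) (nat_lit 167540524) (nat_lit 456) (nat_lit 460770129) (nat_lit 158) (nat_lit 5) (nat_lit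 163) (nat_lit 5) (nat_lit 164) (nat_lit 5) (nat_lit 351) (nat_lit 341) (nat_lit 328)) (XT.lf (nat_lit 0) (nat_lit 1977976154) (nat_lit 532) (nat_lit 3490076145) (nat_lit 76) (nat_lit 1584206697) (nat_lit 151) (nat_lit 5) (nat_lit 158) (nat_lit 5) (nat_lit 152) (nat_lit 5) (nat_lit 352) (nat_lit 341) (nat_lit 327)))) (XT.nd (nat_lit 156) (nat_lit 684) (nat_lit 0) (XT.nd (nat_lit 78) (nat_lit 0) (nat_lit 0) (XT.lf (nat_lit 0) (nat_lit 744149579) (nat_lit 532) (nat_lit 3677331358) (nat_lit 608) (nat_lit 2732753477) (nat_lit 144) (nat_lit 5) (nat_lit 151) (nat_lit 5) (nat_lit 152) (nat_lit 5) (nat_lit 353) (nat_lit 341) (nat_lit 326)) (XT.lf (nat_lit 0) (nat_lit 5208632569) (nat_lit 532) (nat_lit 1715199996) (nat_lit 608) (nat_lit 340729564) (nat_lit 144) (nat_lit 5) (nat_lit 151) (nat_lit 5) (nat_lit 152) (nat_lit 5) (nat_lit 354) (nat_lit 341) (nat_lit 325))) (XT.nd (nat_lit 78) (nat_lit 0)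 (nat_lit 0) (XT.lf (nat_lit 0) (nat_lit 2028044449) (nat_lit 684) (nat_lit 4930627873) (nat_lit 76) (nat_lit 423786674) (nat_lit 135) (nat_lit 5) (nat_lit 144) (nat_lit 5) (nat_lit 136) (nat_lit 5) (nat_lit 355) (nat_lit 341) (nat_lit 324)) (XT.lf (nat_lit 0) (nat_lit 4453027020) (nat_lit 684) (nat_lit 388547474) (nat_lit 76) (nat_lit 2667011143) (nat_lit 135) (nat_lit 5) (nat_lit 144) (nat_lit 5) (nat_lit 136) (nat_lit 5) (nat_lit 356) (nat_lit 341) (nat_lit 323)))))) (XT.nd (nat_lit 546) (nat_lit 1292) (nat_lit 0) (XT.nd (nat_lit 234) (nat_lit 1216) (nat_lit 0) (XT.nd (nat_lit 78) (nat_lit 836) (nat_lit 0) (XT.lf (nat_lit 0) (nat_lit 4421072003) (nat_lit 684) (nat_lit 2538367868) (nat_lit 760) (nat_lit 683641345) (nat_lit 126) (nat_lit 5) (nat_lit 135) (nat_lit 5) (nat_lit 136) (nat_lit 5) (nat_lit 357) (nat_lit 341) (nat_lit 322)) (XT.nd (nat_lit 78) (nat_lit 0) (nat_lit 0) (XT.lf (nat_lit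 0) (nat_lit 1621220562) (nat_lit 760) (nat_lit 52815472) (nat_lit 836) (nat_lit 6112670252) (nat_lit 115) (nat_lit 5) (nat_lit 125) (nat_lit 5) (nat_lit 126) (nat_lit 5) (nat_lit 358) (nat_lit 341) (nat_lit 321)) (XT.lf (nat_lit 0) (nat_lit 4118546611) (nat_lit 836) (nat_lit 1274982879) (nat_lit 76) (nat_lit 2543888456) (nat_lit 115) (nat_lit 5) (nat_lit 126) (nat_lit 5) (nat_lit 116) (nat_lit 5) (nat_lit 359) (nat_lit 341) (nat_lit 320)))) (XT.nd (nat_lit 156) (nat_lit 380) (nat_lit 0) (XT.nd (nat_lit 78) (nat_lit 456) (nat_lit 0) (XT.lf (nat_lit 0) (nat_lit 3881853927) (nat_lit 380) (nat_lit 2766369027) (nat_lit 456) (nat_lit 1449354183) (nat_lit 110) (nat_lit 5) (nat_lit 115) (nat_lit 5) (nat_lit 116) (nat_lit 5) (nat_lit 360) (nat_lit 341) (nat_lit 319)) (XT.lf (nat_lit 0) (nat_lit 946408498) (nat_lit 456) (nat_lit 7280636586) (nat_lit 76) (nat_lit 40891245) (nat_lit 104) (nat_lit 5)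 (nat_lit 110) (nat_lit 5) (nat_lit 105) (nat_lit 5) (nat_lit 361) (nat_lit 341) (nat_lit 318))) (XT.nd (nat_lit 78) (nat_lit 380) (nat_lit 0) (XT.lf (nat_lit 0) (nat_lit 3437065884) (nat_lit 456) (nat_lit 2022850134) (nat_lit 76) (nat_lit 2984569679) (nat_lit 104) (nat_lit 5) (nat_lit 110) (nat_lit 5) (nat_lit 105) (nat_lit 5) (nat_lit 362) (nat_lit 341) (nat_lit 317)) (XT.lf (nat_lit 0) (nat_lit 3509031788) (nat_lit 380) (nat_lit 2508389538) (nat_lit 456) (nat_lit 2614231454) (nat_lit 99) (nat_lit 5) (nat_lit 104) (nat_lit 5) (nat_lit 105) (nat_lit 5) (nat_lit 363) (nat_lit 341) (nat_lit 316))))) (XT.nd (nat_lit 234) (nat_lit 608) (nat_lit 0) (XT.nd (nat_lit 78) (nat_lit 380) (nat_lit 0) (XT.lf (nat_lit 0) (nat_lit 462624518) (nat_lit 304) (nat_lit 8228332854) (nat_lit 380) (nat_lit 139058898) (nat_lit 95) (nat_lit 5) (nat_lit 99) (nat_lit 5) (nat_lit 100) (nat_lit 5) (nat_lit 364) (nat_lit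 341) (nat_lit 315)) (XT.nd (nat_lit 78) (nat_lit 304) (nat_lit 0) (XT.lf (nat_lit 0) (nat_lit 2424462799) (nat_lit 380) (nat_lit 2714812824) (nat_lit 76) (nat_lit 3894977848) (nat_lit 94) (nat_lit 5) (nat_lit 99) (nat_lit 5) (nat_lit 95) (nat_lit 5) (nat_lit 365) (nat_lit 341) (nat_lit 314)) (XT.lf (nat_lit 0) (nat_lit 3221330575) (nat_lit 304) (nat_lit 1858569176) (nat_lit 380) (nat_lit 4170308079) (nat_lit 90) (nat_lit 5) (nat_lit 94) (nat_lit 5) (nat_lit 95) (nat_lit 5) (nat_lit 366) (nat_lit 341) (nat_lit 313)))) (XT.nd (nat_lit 156) (nat_lit 304) (nat_lit 0) (XT.nd (nat_lit 78) (nat_lit 304) (nat_lit 0) (XT.lf (nat_lit 0) (nat_lit 7859793859) (nat_lit 380) (nat_lit 53643456) (nat_lit 76) (nat_lit 1563976333) (nat_lit 90) (nat_lit 5) (nat_lit 95) (nat_lit 5) (nat_lit 91) (nat_lit 5) (nat_lit 367) (nat_lit 341) (nat_lit 312)) (XT.lf (nat_lit 0) (nat_lit 1082248345) (nat_lit 304) (nat_lit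 3436638178) (nat_lit 76) (nat_lit 5193620188) (nat_lit 86) (nat_lit 5) (nat_lit 90) (nat_lit 5) (nat_lit 87) (nat_lit 5) (nat_lit 368) (nat_lit 341) (nat_lit 311))) (XT.nd (nat_lit 78) (nat_lit 0) (nat_lit 0) (XT.lf (nat_lit 0) (nat_lit 2933681958) (nat_lit 304) (nat_lit 900665215) (nat_lit 380) (nat_lit 6125134170) (nat_lit 82) (nat_lit 5) (nat_lit 86) (nat_lit 5) (nat_lit 87) (nat_lit 5) (nat_lit 369) (nat_lit 341) (nat_lit 310)) (XT.lf (nat_lit 0) (nat_lit 6755037462) (nat_lit 380) (nat_lit 620097768) (nat_lit 76) (nat_lit 2842151418) (nat_lit 82) (nat_lit 5) (nat_lit 87) (nat_lit 5) (nat_lit 83) (nat_lit 5) (nat_lit 370) (nat_lit 341) (nat_lit 309))))))))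
noncomputable def xc100 : XT := (XT.nd (nat_lit 2106) (nat_lit 1596) (nat_lit 0) (XT.nd (nat_lit 1014) (nat_lit 1216) (nat_lit 0) (XT.nd (nat_lit 468) (nat_lit 988) (nat_lit 0) (XT.nd (nat_lit 234) (nat_lit 532) (nat_lit 0) (XT.nd (nat_lit 78) (nat_lit 304) (nat_lit 0) (XT.lf (nat_lit 0) (nat_lit 6194307868) (nat_lit 228) (nat_lit 3669004264) (nat_lit 304) (nat_lit 622622371) (nat_lit 79) (nat_lit 5) (nat_lit 82) (nat_lit 5) (nat_lit 83) (nat_lit 5) (nat_lit 371) (nat_lit 341) (nat_lit 308)) (XT.nd (nat_lit 78) (nat_lit 0) (nat_lit 0) (XT.lf (nat_lit 0) (nat_lit 2269295239) (nat_lit 304) (nat_lit 8219317280) (nat_lit 76) (nat_lit 278297135) (nat_lit 75) (nat_lit 5) (nat_lit 79) (nat_lit 5) (nat_lit 76) (nat_lit 5) (nat_lit 372) (nat_lit 341) (nat_lit 307)) (XT.lf (nat_lit 0) (nat_lit 5351107339) (nat_lit 304) (nat_lit 1349359884) (nat_lit 76) (nat_lit 4357670576) (nat_lit 75) (nat_lit 5)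 (nat_lit 79) (nat_lit 5) (nat_lit 76) (nat_lit 5) (nat_lit 373) (nat_lit 341) (nat_lit 306)))) (XT.nd (nat_lit 78) (nat_lit 304) (nat_lit 0) (XT.lf (nat_lit 0) (nat_lit 5962275667) (nat_lit 228) (nat_lit 2653253570) (nat_lit 304) (nat_lit 2746996654) (nat_lit 72) (nat_lit 5) (nat_lit 75) (nat_lit 5) (nat_lit 76) (nat_lit 5) (nat_lit 374) (nat_lit 341) (nat_lit 305)) (XT.nd (nat_lit 78) (nat_lit 0) (nat_lit 0) (XT.lf (nat_lit 0) (nat_lit 364923939) (nat_lit 304) (nat_lit 9738749135) (nat_lit 76) (nat_lit 1577428662) (nat_lit 68) (nat_lit 5) (nat_lit 72) (nat_lit 5) (nat_lit 69) (nat_lit 5) (nat_lit 375) (nat_lit 341) (nat_lit 304)) (XT.lf (nat_lit 0) (nat_lit 3613757092) (nat_lit 304) (nat_lit 2355959153) (nat_lit 76) (nat_lit 6039977973) (nat_lit 68) (nat_lit 5) (nat_lit 72) (nat_lit 5) (nat_lit 69) (nat_lit 5) (nat_lit 376) (nat_lit 341) (nat_lit 303))))) (XT.nd (nat_lit 234) (nat_lit 532)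 (nat_lit 0) (XT.nd (nat_lit 78) (nat_lit 304) (nat_lit 0) (XT.lf (nat_lit 0) (nat_lit 5481441481) (nat_lit 152) (nat_lit 1569344934) (nat_lit 228) (nat_lit 5302662338) (nat_lit 66) (nat_lit 5) (nat_lit 68) (nat_lit 5) (nat_lit 69) (nat_lit 5) (nat_lit 377) (nat_lit 341) (nat_lit 302)) (XT.nd (nat_lit 78) (nat_lit 76) (nat_lit 0) (XT.lf (nat_lit 0) (nat_lit 971944125) (nat_lit 228) (nat_lit 9732256445) (nat_lit 304) (nat_lit 2007982972) (nat_lit 63) (nat_lit 5) (nat_lit 66) (nat_lit 5) (nat_lit 67) (nat_lit 5) (nat_lit 378) (nat_lit 341) (nat_lit 301)) (XT.lf (nat_lit 0) (nat_lit 1490605693) (nat_lit 304) (nat_lit 3778122900) (nat_lit 76) (nat_lit 7814729334) (nat_lit 62) (nat_lit 5) (nat_lit 66) (nat_lit 5) (nat_lit 63) (nat_lit 5) (nat_lit 379) (nat_lit 341) (nat_lit 300)))) (XT.nd (nat_lit 156) (nat_lit 380) (nat_lit 0) (XT.nd (nat_lit 78) (nat_lit 0) (nat_lit 0) (XT.lf (nat_lit 0) (nat_lit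 4609608625) (nat_lit 152) (nat_lit 503397491) (nat_lit 228) (nat_lit 8357842423) (nat_lit 60) (nat_lit 5) (nat_lit 62) (nat_lit 5) (nat_lit 63) (nat_lit 5) (nat_lit 380) (nat_lit 341) (nat_lit 299)) (XT.lf (nat_lit 0) (nat_lit 8997034773) (nat_lit 228) (nat_lit 485769021) (nat_lit 76) (nat_lit 4390795271) (nat_lit 60) (nat_lit 5) (nat_lit 63) (nat_lit 5) (nat_lit 61) (nat_lit 5) (nat_lit 381) (nat_lit 341) (nat_lit 298))) (XT.nd (nat_lit 78) (nat_lit 228) (nat_lit 0) (XT.lf (nat_lit 0) (nat_lit 8488139798) (nat_lit 152) (nat_lit 4675724189) (nat_lit 228) (nat_lit 1128208212) (nat_lit 58) (nat_lit 5) (nat_lit 60) (nat_lit 5) (nat_lit 61) (nat_lit 5) (nat_lit 382) (nat_lit 341) (nat_lit 297)) (XT.lf (nat_lit 0) (nat_lit 2730696310) (nat_lit 228) (nat_lit 11566049708) (nat_lit 76) (nat_lit 431895401) (nat_lit 55) (nat_lit 5) (nat_lit 58) (nat_lit 5) (nat_lit 56) (nat_lit 5) (nat_lit 383) (nat_lit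 341) (nat_lit 296)))))) (XT.nd (nat_lit 546) (nat_lit 532) (nat_lit 0) (XT.nd (nat_lit 234) (nat_lit 380) (nat_lit 0) (XT.nd (nat_lit 78) (nat_lit 304) (nat_lit 0) (XT.lf (nat_lit 0) (nat_lit 6870031463) (nat_lit 228) (nat_lit 2584761015) (nat_lit 76) (nat_lit 5725064824) (nat_lit 55) (nat_lit 5) (nat_lit 58) (nat_lit 5) (nat_lit 56) (nat_lit 5) (nat_lit 384) (nat_lit 341) (nat_lit 295)) (XT.nd (nat_lit 78) (nat_lit 152) (nat_lit 0) (XT.lf (nat_lit 0) (nat_lit 6988486160) (nat_lit 152) (nat_lit 4288238615) (nat_lit 228) (nat_lit 4373902006) (nat_lit 53) (nat_lit 5) (nat_lit 55) (nat_lit 5) (nat_lit 56) (nat_lit 5) (nat_lit 385) (nat_lit 341) (nat_lit 294)) (XT.lf (nat_lit 0) (nat_lit 916894397) (nat_lit 152) (nat_lit 15015275122) (nat_lit 228) (nat_lit 211356163) (nat_lit 51) (nat_lit 5) (nat_lit 53) (nat_lit 5) (nat_lit 54) (nat_lit 4) (nat_lit 386) (nat_lit 341) (nat_lit 293)))) (XT.nd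 (nat_lit 156) (nat_lit 152) (nat_lit 0) (XT.nd (nat_lit 78) (nat_lit 152) (nat_lit 0) (XT.lf (nat_lit 0) (nat_lit 4197717087) (nat_lit 228) (nat_lit 5597422101) (nat_lit 76) (nat_lit 6854117885) (nat_lit 50) (nat_lit 5) (nat_lit 53) (nat_lit 5) (nat_lit 51) (nat_lit 5) (nat_lit 387) (nat_lit 341) (nat_lit 292)) (XT.lf (nat_lit 0) (nat_lit 4578557384) (nat_lit 152) (nat_lit 4267470459) (nat_lit 228) (nat_lit 8332789789) (nat_lit 48) (nat_lit 5) (nat_lit 50) (nat_lit 5) (nat_lit 51) (nat_lit 5) (nat_lit 388) (nat_lit 341) (nat_lit 291))) (XT.nd (nat_lit 78) (nat_lit 152) (nat_lit 0) (XT.lf (nat_lit 0) (nat_lit 13801975013) (nat_lit 228) (nat_lit 2376251331) (nat_lit 76) (nat_lit 1552878525) (nat_lit 48) (nat_lit 5) (nat_lit 51) (nat_lit 5) (nat_lit 49) (nat_lit 4) (nat_lit 389) (nat_lit 341) (nat_lit 290)) (XT.lf (nat_lit 0) (nat_lit 834563345) (nat_lit 152) (nat_lit 9830425152) (nat_lit 76)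 (nat_lit 7637380173) (nat_lit 46) (nat_lit 5) (nat_lit 48) (nat_lit 5) (nat_lit 47) (nat_lit 5) (nat_lit 390) (nat_lit 341) (nat_lit 289))))) (XT.nd (nat_lit 234) (nat_lit 304) (nat_lit 0) (XT.nd (nat_lit 78) (nat_lit 76) (nat_lit 0) (XT.lf (nat_lit 0) (nat_lit 934965669) (nat_lit 152) (nat_lit 4782164272) (nat_lit 228) (nat_lit 13181216831) (nat_lit 44) (nat_lit 5) (nat_lit 46) (nat_lit 5) (nat_lit 47) (nat_lit 5) (nat_lit 391) (nat_lit 341) (nat_lit 288)) (XT.nd (nat_lit 78) (nat_lit 76) (nat_lit 0) (XT.lf (nat_lit 0) (nat_lit 10992440893) (nat_lit 228) (nat_lit 7035541350) (nat_lit 76) (nat_lit 1488718713) (nat_lit 44) (nat_lit 5) (nat_lit 47) (nat_lit 5) (nat_lit 45) (nat_lit 4) (nat_lit 392) (nat_lit 341) (nat_lit 287)) (XT.lf (nat_lit 0) (nat_lit 4430525473) (nat_lit 76) (nat_lit 12208205765) (nat_lit 152) (nat_lit 3521888515) (nat_lit 43) (nat_lit 5) (nat_lit 44) (nat_lit 5) (nat_lit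 45) (nat_lit 4) (nat_lit 393) (nat_lit 341) (nat_lit 286)))) (XT.nd (nat_lit 156) (nat_lit 76) (nat_lit 0) (XT.nd (nat_lit 78) (nat_lit 152) (nat_lit 0) (XT.lf (nat_lit 0) (nat_lit 1756127080) (nat_lit 152) (nat_lit 4217350600) (nat_lit 76) (nat_lit 14857866945) (nat_lit 42) (nat_lit 5) (nat_lit 44) (nat_lit 5) (nat_lit 43) (nat_lit 5) (nat_lit 394) (nat_lit 341) (nat_lit 285)) (XT.lf (nat_lit 0) (nat_lit 7277800124) (nat_lit 228) (nat_lit 13538824220) (nat_lit 76) (nat_lit 711195406) (nat_lit 40) (nat_lit 5) (nat_lit 43) (nat_lit 5) (nat_lit 41) (nat_lit 4) (nat_lit 395) (nat_lit 341) (nat_lit 284))) (XT.nd (nat_lit 78) (nat_lit 76) (nat_lit 0) (XT.lf (nat_lit 0) (nat_lit 13208110712) (nat_lit 228) (nat_lit 1471220895) (nat_lit 76) (nat_lit 7573165577) (nat_lit 40) (nat_lit 5) (nat_lit 43) (nat_lit 5) (nat_lit 41) (nat_lit 4) (nat_lit 396) (nat_lit 341) (nat_lit 283)) (XT.lf (nat_lit 0)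 (nat_lit 11502532089) (nat_lit 76) (nat_lit 8075833682) (nat_lit 152) (nat_lit 3427877224) (nat_lit 39) (nat_lit 5) (nat_lit 40) (nat_lit 5) (nat_lit 41) (nat_lit 4) (nat_lit 397) (nat_lit 341) (nat_lit 282))))))) (XT.nd (nat_lit 1014) (nat_lit 684) (nat_lit 0) (XT.nd (nat_lit 468) (nat_lit 380) (nat_lit 0) (XT.nd (nat_lit 234) (nat_lit 228) (nat_lit 0) (XT.nd (nat_lit 78) (nat_lit 76) (nat_lit 0) (XT.lf (nat_lit 0) (nat_lit 1317292455) (nat_lit 152) (nat_lit 1082991041) (nat_lit 228) (nat_lit 21394977037) (nat_lit 36) (nat_lit 5) (nat_lit 38) (nat_lit 5) (nat_lit 39) (nat_lit 5) (nat_lit 398) (nat_lit 341) (nat_lit 281)) (XT.nd (nat_lit 78) (nat_lit 76) (nat_lit 0) (XT.lf (nat_lit 0) (nat_lit 8664623093) (nat_lit 228) (nat_lit 9658160239) (nat_lit 76) (nat_lit 6285142524) (nat_lit 36) (nat_lit 5) (nat_lit 39) (nat_lit 5) (nat_lit 37) (nat_lit 4) (nat_lit 399) (nat_lit 341) (nat_lit 280))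 (XT.lf (nat_lit 0) (nat_lit 3845305988) (nat_lit 76) (nat_lit 11440594165) (nat_lit 152) (nat_lit 10173143163) (nat_lit 35) (nat_lit 5) (nat_lit 36) (nat_lit 5) (nat_lit 37) (nat_lit 4) (nat_lit 400) (nat_lit 341) (nat_lit 279)))) (XT.nd (nat_lit 78) (nat_lit 228) (nat_lit 0) (XT.lf (nat_lit 0) (nat_lit 18297613695) (nat_lit 76) (nat_lit 4070783480) (nat_lit 152) (nat_lit 3977816332) (nat_lit 35) (nat_lit 5) (nat_lit 36) (nat_lit 5) (nat_lit 37) (nat_lit 4) (nat_lit 401) (nat_lit 341) (nat_lit 278)) (XT.nd (nat_lit 78) (nat_lit 0) (nat_lit 0) (XT.lf (nat_lit 0) (nat_lit 2571449605) (nat_lit 228) (nat_lit 21034461847) (nat_lit 76) (nat_lit 3663609021) (nat_lit 32) (nat_lit 5) (nat_lit 35) (nat_lit 5) (nat_lit 33) (nat_lit 4) (nat_lit 402) (nat_lit 341) (nat_lit 277)) (XT.lf (nat_lit 0) (nat_lit 9487628202) (nat_lit 228) (nat_lit 6914009740) (nat_lit 76) (nat_lit 11825441866) (nat_lit 32) (nat_lit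 5) (nat_lit 35) (nat_lit 5) (nat_lit 33) (nat_lit 4) (nat_lit 403) (nat_lit 341) (nat_lit 276))))) (XT.nd (nat_lit 234) (nat_lit 152) (nat_lit 0) (XT.nd (nat_lit 78) (nat_lit 152) (nat_lit 0) (XT.lf (nat_lit 0) (nat_lit 8115071562) (nat_lit 76) (nat_lit 8730628362) (nat_lit 152) (nat_lit 12382016811) (nat_lit 31) (nat_lit 5) (nat_lit 32) (nat_lit 5) (nat_lit 33) (nat_lit 4) (nat_lit 404) (nat_lit 341) (nat_lit 275)) (XT.nd (nat_lit 78) (nat_lit 152) (nat_lit 0) (XT.lf (nat_lit 0) (nat_lit 24079440750) (nat_lit 76) (nat_lit 579292102) (nat_lit 152) (nat_lit 5615303430) (nat_lit 31) (nat_lit 5) (nat_lit 32) (nat_lit 5) (nat_lit 33) (nat_lit 4) (nat_lit 405) (nat_lit 341) (nat_lit 274)) (XT.lf (nat_lit 0) (nat_lit 1691517180) (nat_lit 152) (nat_lit 21790310859) (nat_lit 76) (nat_lit 7877211490) (nat_lit 29) (nat_lit 5) (nat_lit 31) (nat_lit 5) (nat_lit 30) (nat_lit 4) (nat_lit 406) (nat_lit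 341) (nat_lit 273)))) (XT.nd (nat_lit 156) (nat_lit 76) (nat_lit 0) (XT.nd (nat_lit 78) (nat_lit 76) (nat_lit 0) (XT.lf (nat_lit 0) (nat_lit 9262171998) (nat_lit 152) (nat_lit 6315688925) (nat_lit 76) (nat_lit 16911472255) (nat_lit 29) (nat_lit 5) (nat_lit 31) (nat_lit 5) (nat_lit 30) (nat_lit 4) (nat_lit 407) (nat_lit 341) (nat_lit 272)) (XT.lf (nat_lit 0) (nat_lit 10207312019) (nat_lit 76) (nat_lit 7135868775) (nat_lit 152) (nat_lit 16326372659) (nat_lit 28) (nat_lit 5) (nat_lit 29) (nat_lit 5) (nat_lit 30) (nat_lit 4) (nat_lit 408) (nat_lit 341) (nat_lit 271))) (XT.nd (nat_lit 78) (nat_lit 76) (nat_lit 0) (XT.lf (nat_lit 0) (nat_lit 25936526163) (nat_lit 152) (nat_lit 7208630383) (nat_lit 0) (nat_lit 1758216751) (nat_lit 28) (nat_lit 5) (nat_lit 30) (nat_lit 4) (nat_lit 28) (nat_lit 4) (nat_lit 409) (nat_lit 341) (nat_lit 270)) (XT.lf (nat_lit 0) (nat_lit 10011405119) (nat_lit 76) (nat_lit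 25195317467) (nat_lit 76) (nat_lit 979805086) (nat_lit 27) (nat_lit 4) (nat_lit 28) (nat_lit 5) (nat_lit 28) (nat_lit 4) (nat_lit 410) (nat_lit 341) (nat_lit 269)))))) (XT.nd (nat_lit 546) (nat_lit 304) (nat_lit 0) (XT.nd (nat_lit 234) (nat_lit 228) (nat_lit 0) (XT.nd (nat_lit 78) (nat_lit 76) (nat_lit 0) (XT.lf (nat_lit 0) (nat_lit 7267568160) (nat_lit 152) (nat_lit 9352429050) (nat_lit 76) (nat_lit 20903161338) (nat_lit 26) (nat_lit 5) (nat_lit 28) (nat_lit 5) (nat_lit 27) (nat_lit 4) (nat_lit 411) (nat_lit 341) (nat_lit 268)) (XT.nd (nat_lit 78) (nat_lit 0) (nat_lit 0) (XT.lf (nat_lit 0) (nat_lit 8520656512) (nat_lit 76) (nat_lit 7481950552) (nat_lit 152) (nat_lit 22917801897) (nat_lit 25) (nat_lit 5) (nat_lit 26) (nat_lit 5) (nat_lit 27) (nat_lit 4) (nat_lit 412) (nat_lit 341) (nat_lit 267)) (XT.lf (nat_lit 0) (nat_lit 25343671148) (nat_lit 152) (nat_lit 12850599411) (nat_lit 0) (nat_lit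 2184789916) (nat_lit 25) (nat_lit 5) (nat_lit 27) (nat_lit 4) (nat_lit 25) (nat_lit 4) (nat_lit 413) (nat_lit 341) (nat_lit 266)))) (XT.nd (nat_lit 156) (nat_lit 76) (nat_lit 0) (XT.nd (nat_lit 78) (nat_lit 76) (nat_lit 0) (XT.lf (nat_lit 0) (nat_lit 5586932970) (nat_lit 76) (nat_lit 29751213286) (nat_lit 76) (nat_lit 6563182554) (nat_lit 24) (nat_lit 4) (nat_lit 25) (nat_lit 5) (nat_lit 25) (nat_lit 4) (nat_lit 414) (nat_lit 341) (nat_lit 265)) (XT.lf (nat_lit 0) (nat_lit 2455694383) (nat_lit 152) (nat_lit 18181618672) (nat_lit 76) (nat_lit 22850692562) (nat_lit 23) (nat_lit 5) (nat_lit 25) (nat_lit 5) (nat_lit 24) (nat_lit 4) (nat_lit 415) (nat_lit 341) (nat_lit 264))) (XT.nd (nat_lit 78) (nat_lit 0) (nat_lit 0) (XT.lf (nat_lit 0) (nat_lit 730451055) (nat_lit 76) (nat_lit 10963540490) (nat_lit 152) (nat_lit 33455194789) (nat_lit 22) (nat_lit 5) (nat_lit 23) (nat_lit 5) (nat_lit 24) (nat_lit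 4) (nat_lit 416) (nat_lit 341) (nat_lit 263)) (XT.lf (nat_lit 0) (nat_lit 21176912557) (nat_lit 76) (nat_lit 503245787) (nat_lit 152) (nat_lit 25198971763) (nat_lit 22) (nat_lit 5) (nat_lit 23) (nat_lit 5) (nat_lit 24) (nat_lit 4) (nat_lit 417) (nat_lit 341) (nat_lit 262))))) (XT.nd (nat_lit 234) (nat_lit 152) (nat_lit 0) (XT.nd (nat_lit 78) (nat_lit 152) (nat_lit 0) (XT.lf (nat_lit 0) (nat_lit 32308038139) (nat_lit 152) (nat_lit 6254655672) (nat_lit 0) (nat_lit 10125758697) (nat_lit 22) (nat_lit 5) (nat_lit 24) (nat_lit 4) (nat_lit 22) (nat_lit 4) (nat_lit 418) (nat_lit 341) (nat_lit 261)) (XT.nd (nat_lit 78) (nat_lit 76) (nat_lit 0) (XT.lf (nat_lit 0) (nat_lit 14584635133) (nat_lit 76) (nat_lit 29098425648) (nat_lit 76) (nat_lit 6894394400) (nat_lit 21) (nat_lit 4) (nat_lit 22) (nat_lit 5) (nat_lit 22) (nat_lit 4) (nat_lit 419) (nat_lit 341) (nat_lit 260)) (XT.lf (nat_lit 0) (nat_lit 3055285089)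 (nat_lit 152) (nat_lit 15961412820) (nat_lit 76) (nat_lit 33537443774) (nat_lit 20) (nat_lit 5) (nat_lit 22) (nat_lit 5) (nat_lit 21) (nat_lit 4) (nat_lit 420) (nat_lit 341) (nat_lit 259)))) (XT.nd (nat_lit 156) (nat_lit 76) (nat_lit 0) (XT.nd (nat_lit 78) (nat_lit 0) (nat_lit 0) (XT.lf (nat_lit 0) (nat_lit 5083891599) (nat_lit 76) (nat_lit 8247019806) (nat_lit 152) (nat_lit 41290093352) (nat_lit 19) (nat_lit 5) (nat_lit 20) (nat_lit 5) (nat_lit 21) (nat_lit 4) (nat_lit 421) (nat_lit 341) (nat_lit 258)) (XT.lf (nat_lit 0) (nat_lit 24423705238) (nat_lit 152) (nat_lit 29131743759) (nat_lit 0) (nat_lit 3220593990) (nat_lit 19) (nat_lit 5) (nat_lit 21) (nat_lit 4) (nat_lit 19) (nat_lit 4) (nat_lit 422) (nat_lit 341) (nat_lit 257))) (XT.nd (nat_lit 78) (nat_lit 76) (nat_lit 0) (XT.lf (nat_lit 0) (nat_lit 36188095389) (nat_lit 152) (nat_lit 7876950123) (nat_lit 0) (nat_lit 14967941034) (nat_lit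 19) (nat_lit 5) (nat_lit 21) (nat_lit 4) (nat_lit 19) (nat_lit 4) (nat_lit 423) (nat_lit 341) (nat_lit 256)) (XT.lf (nat_lit 0) (nat_lit 14882981856) (nat_lit 76) (nat_lit 33872716422) (nat_lit 76) (nat_lit 12636330534) (nat_lit 18) (nat_lit 4) (nat_lit 19) (nat_lit 5) (nat_lit 19) (nat_lit 4) (nat_lit 424) (nat_lit 341) (nat_lit 255))))))))
noncomputable def xc101 : XT := (XT.nd (nat_lit 2106) (nat_lit 304) (nat_lit 0) (XT.nd (nat_lit 1014) (nat_lit 380) (nat_lit 0) (XT.nd (nat_lit 468) (nat_lit 228) (nat_lit 0) (XT.nd (nat_lit 234) (nat_lit 76) (nat_lit 0) (XT.nd (nat_lit 78) (nat_lit 152) (nat_lit 0) (XT.lf (nat_lit 0) (nat_lit 39020978231) (nat_lit 76) (nat_lit 23047036945) (nat_lit 76) (nat_lit 1795192455) (nat_lit 18) (nat_lit 4) (nat_lit 19) (nat_lit 5) (nat_lit 19) (nat_lit 4) (nat_lit 425) (nat_lit 341) (nat_lit 254)) (XT.nd (nat_lit 78) (nat_lit 76) (nat_lit 0) (XT.lf (nat_lit 0)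 (nat_lit 9264605648) (nat_lit 152) (nat_lit 2274125389) (nat_lit 76) (nat_lit 54912556647) (nat_lit 17) (nat_lit 5) (nat_lit 19) (nat_lit 5) (nat_lit 18) (nat_lit 4) (nat_lit 426) (nat_lit 341) (nat_lit 253)) (XT.lf (nat_lit 0) (nat_lit 21160283941) (nat_lit 152) (nat_lit 47096799366) (nat_lit 0) (nat_lit 893056916) (nat_lit 16) (nat_lit 5) (nat_lit 18) (nat_lit 4) (nat_lit 16) (nat_lit 4) (nat_lit 427) (nat_lit 341) (nat_lit 252)))) (XT.nd (nat_lit 78) (nat_lit 76) (nat_lit 0) (XT.lf (nat_lit 0) (nat_lit 33863360054) (nat_lit 152) (nat_lit 24526530374) (nat_lit 0) (nat_lit 13583415199) (nat_lit 16) (nat_lit 5) (nat_lit 18) (nat_lit 4) (nat_lit 16) (nat_lit 4) (nat_lit 428) (nat_lit 341) (nat_lit 251)) (XT.nd (nat_lit 78) (nat_lit 76) (nat_lit 0) (XT.lf (nat_lit 0) (nat_lit 47186646733) (nat_lit 152) (nat_lit 857140958) (nat_lit 0) (nat_lit 26894589659) (nat_lit 16) (nat_lit 5) (nat_lit 18)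 (nat_lit 4) (nat_lit 16) (nat_lit 4) (nat_lit 429) (nat_lit 341) (nat_lit 250)) (XT.lf (nat_lit 0) (nat_lit 24760205786) (nat_lit 76) (nat_lit 36788236506) (nat_lit 76) (nat_lit 16484643985) (nat_lit 15) (nat_lit 4) (nat_lit 16) (nat_lit 5) (nat_lit 16) (nat_lit 4) (nat_lit 430) (nat_lit 341) (nat_lit 249))))) (XT.nd (nat_lit 234) (nat_lit 76) (nat_lit 0) (XT.nd (nat_lit 78) (nat_lit 152) (nat_lit 0) (XT.lf (nat_lit 0) (nat_lit 51660636015) (nat_lit 76) (nat_lit 24968223747) (nat_lit 76) (nat_lit 4653645086) (nat_lit 15) (nat_lit 4) (nat_lit 16) (nat_lit 5) (nat_lit 16) (nat_lit 4) (nat_lit 431) (nat_lit 341) (nat_lit 248)) (XT.nd (nat_lit 78) (nat_lit 76) (nat_lit 0) (XT.lf (nat_lit 0) (nat_lit 7506713186) (nat_lit 152) (nat_lit 4936279619) (nat_lit 76) (nat_lit 72246014414) (nat_lit 14) (nat_lit 5) (nat_lit 16) (nat_lit 5) (nat_lit 15) (nat_lit 4) (nat_lit 432) (nat_lit 341) (nat_lit 247))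 (XT.lf (nat_lit 0) (nat_lit 20460246869) (nat_lit 152) (nat_lit 66691122442) (nat_lit 0) (nat_lit 1093574104) (nat_lit 13) (nat_lit 5) (nat_lit 15) (nat_lit 4) (nat_lit 13) (nat_lit 4) (nat_lit 433) (nat_lit 341) (nat_lit 246)))) (XT.nd (nat_lit 156) (nat_lit 76) (nat_lit 0) (XT.nd (nat_lit 78) (nat_lit 0) (nat_lit 0) (XT.lf (nat_lit 0) (nat_lit 34337548101) (nat_lit 152) (nat_lit 42665487429) (nat_lit 0) (nat_lit 14961837010) (nat_lit 13) (nat_lit 5) (nat_lit 15) (nat_lit 4) (nat_lit 13) (nat_lit 4) (nat_lit 434) (nat_lit 341) (nat_lit 245)) (XT.lf (nat_lit 0) (nat_lit 48896465467) (nat_lit 152) (nat_lit 17462799283) (nat_lit 0) (nat_lit 29512146449) (nat_lit 13) (nat_lit 5) (nat_lit 15) (nat_lit 4) (nat_lit 13) (nat_lit 4) (nat_lit 435) (nat_lit 341) (nat_lit 244))) (XT.nd (nat_lit 78) (nat_lit 0) (nat_lit 0) (XT.lf (nat_lit 0) (nat_lit 9273766851) (nat_lit 76) (nat_lit 55042685696) (nat_lit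 76) (nat_lit 35650168651) (nat_lit 12) (nat_lit 4) (nat_lit 13) (nat_lit 5) (nat_lit 13) (nat_lit 4) (nat_lit 436) (nat_lit 341) (nat_lit 243)) (XT.lf (nat_lit 0) (nat_lit 37930727553) (nat_lit 76) (nat_lit 42860987795) (nat_lit 76) (nat_lit 23460663105) (nat_lit 12) (nat_lit 4) (nat_lit 13) (nat_lit 5) (nat_lit 13) (nat_lit 4) (nat_lit 437) (nat_lit 341) (nat_lit 242)))))) (XT.nd (nat_lit 546) (nat_lit 152) (nat_lit 0) (XT.nd (nat_lit 234) (nat_lit 76) (nat_lit 0) (XT.nd (nat_lit 78) (nat_lit 152) (nat_lit 0) (XT.lf (nat_lit 0) (nat_lit 67998914673) (nat_lit 76) (nat_lit 30080907958) (nat_lit 76) (nat_lit 10673147416) (nat_lit 12) (nat_lit 4) (nat_lit 13) (nat_lit 5) (nat_lit 13) (nat_lit 4) (nat_lit 438) (nat_lit 341) (nat_lit 241)) (XT.nd (nat_lit 78) (nat_lit 76) (nat_lit 0) (XT.lf (nat_lit 0) (nat_lit 2655037354) (nat_lit 152) (nat_lit 13972015728) (nat_lit 76) (nat_lit 96849917436)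 (nat_lit 11) (nat_lit 5) (nat_lit 13) (nat_lit 5) (nat_lit 12) (nat_lit 4) (nat_lit 439) (nat_lit 341) (nat_lit 240)) (XT.lf (nat_lit 0) (nat_lit 14415600767) (nat_lit 76) (nat_lit 2090344407) (nat_lit 152) (nat_lit 101911727748) (nat_lit 10) (nat_lit 5) (nat_lit 11) (nat_lit 5) (nat_lit 12) (nat_lit 4) (nat_lit 440) (nat_lit 341) (nat_lit 239)))) (XT.nd (nat_lit 156) (nat_lit 76) (nat_lit 0) (XT.nd (nat_lit 78) (nat_lit 0) (nat_lit 0) (XT.lf (nat_lit 0) (nat_lit 31485525560) (nat_lit 152) (nat_lit 79115420286) (nat_lit 0) (nat_lit 12982658692) (nat_lit 10) (nat_lit 5) (nat_lit 12) (nat_lit 4) (nat_lit 10) (nat_lit 4) (nat_lit 441) (nat_lit 341) (nat_lit 238)) (XT.lf (nat_lit 0) (nat_lit 47238785949) (nat_lit 152) (nat_lit 53037719265) (nat_lit 0) (nat_lit 28730092898) (nat_lit 10) (nat_lit 5) (nat_lit 12) (nat_lit 4) (nat_lit 10) (nat_lit 4) (nat_lit 442) (nat_lit 341) (nat_lit 237))) (XT.nd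 (nat_lit 78) (nat_lit 76) (nat_lit 0) (XT.lf (nat_lit 0) (nat_lit 63770597973) (nat_lit 152) (nat_lit 25674243194) (nat_lit 0) (nat_lit 45256356174) (nat_lit 10) (nat_lit 5) (nat_lit 12) (nat_lit 4) (nat_lit 10) (nat_lit 4) (nat_lit 443) (nat_lit 341) (nat_lit 236)) (XT.lf (nat_lit 0) (nat_lit 3140680448) (nat_lit 76) (nat_lit 78028677462) (nat_lit 76) (nat_lit 59509151142) (nat_lit 9) (nat_lit 4) (nat_lit 10) (nat_lit 5) (nat_lit 10) (nat_lit 4) (nat_lit 444) (nat_lit 341) (nat_lit 235))))) (XT.nd (nat_lit 234) (nat_lit 152) (nat_lit 0) (XT.nd (nat_lit 78) (nat_lit 0) (nat_lit 0) (XT.lf (nat_lit 0) (nat_lit 34270732590) (nat_lit 76) (nat_lit 65593599750) (nat_lit 76) (nat_lit 47069040553) (nat_lit 9) (nat_lit 4) (nat_lit 10) (nat_lit 5) (nat_lit 10) (nat_lit 4) (nat_lit 445) (nat_lit 341) (nat_lit 234)) (XT.nd (nat_lit 78) (nat_lit 0) (nat_lit 0) (XT.lf (nat_lit 0) (nat_lit 66941125975)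 (nat_lit 76) (nat_lit 52544806435) (nat_lit 76) (nat_lit 34015454022) (nat_lit 9) (nat_lit 4) (nat_lit 10) (nat_lit 5) (nat_lit 10) (nat_lit 4) (nat_lit 446) (nat_lit 341) (nat_lit 233)) (XT.lf (nat_lit 0) (nat_lit 101229647254) (nat_lit 76) (nat_lit 38851228962) (nat_lit 76) (nat_lit 20317311580) (nat_lit 9) (nat_lit 4) (nat_lit 10) (nat_lit 5) (nat_lit 10) (nat_lit 4) (nat_lit 447) (nat_lit 341) (nat_lit 232)))) (XT.nd (nat_lit 156) (nat_lit 76) (nat_lit 0) (XT.nd (nat_lit 78) (nat_lit 76) (nat_lit 0) (XT.lf (nat_lit 0) (nat_lit 137217935763) (nat_lit 76) (nat_lit 24480263574) (nat_lit 76) (nat_lit 5941998603) (nat_lit 9) (nat_lit 4) (nat_lit 10) (nat_lit 5) (nat_lit 10) (nat_lit 4) (nat_lit 448) (nat_lit 341) (nat_lit 231)) (XT.lf (nat_lit 0) (nat_lit 8852023954) (nat_lit 152) (nat_lit 395756423) (nat_lit 76) (nat_lit 165989740639) (nat_lit 8) (nat_lit 5) (nat_lit 10) (nat_lit 5) (nat_lit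 9) (nat_lit 4) (nat_lit 449) (nat_lit 341) (nat_lit 230))) (XT.nd (nat_lit 78) (nat_lit 0) (nat_lit 0) (XT.lf (nat_lit 0) (nat_lit 24794629060) (nat_lit 152) (nat_lit 151253342785) (nat_lit 0) (nat_lit 7131439610) (nat_lit 7) (nat_lit 5) (nat_lit 9) (nat_lit 4) (nat_lit 7) (nat_lit 4) (nat_lit 450) (nat_lit 341) (nat_lit 229)) (XT.lf (nat_lit 0) (nat_lit 41685999184) (nat_lit 152) (nat_lit 125805582792) (nat_lit 0) (nat_lit 24019232963) (nat_lit 7) (nat_lit 5) (nat_lit 9) (nat_lit 4) (nat_lit 7) (nat_lit 4) (nat_lit 451) (nat_lit 341) (nat_lit 228))))))) (XT.nd (nat_lit 1014) (nat_lit 76) (nat_lit 0) (XT.nd (nat_lit 468) (nat_lit 152) (nat_lit 0) (XT.nd (nat_lit 234) (nat_lit 76) (nat_lit 0) (XT.nd (nat_lit 78) (nat_lit 0) (nat_lit 0) (XT.lf (nat_lit 0) (nat_lit 59415480297) (nat_lit 152) (nat_lit 99098323800) (nat_lit 0) (nat_lit 41745307627) (nat_lit 7) (nat_lit 5) (nat_lit 9) (nat_lit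 4) (nat_lit 7) (nat_lit 4) (nat_lit 452) (nat_lit 341) (nat_lit 227)) (XT.nd (nat_lit 78) (nat_lit 0) (nat_lit 0) (XT.lf (nat_lit 0) (nat_lit 78025285449) (nat_lit 152) (nat_lit 71067977097) (nat_lit 0) (nat_lit 60351868541) (nat_lit 7) (nat_lit 5) (nat_lit 9) (nat_lit 4) (nat_lit 7) (nat_lit 4) (nat_lit 453) (nat_lit 341) (nat_lit 226)) (XT.lf (nat_lit 0) (nat_lit 97559723699) (nat_lit 152) (nat_lit 41647803761) (nat_lit 0) (nat_lit 79883217040) (nat_lit 7) (nat_lit 5) (nat_lit 9) (nat_lit 4) (nat_lit 7) (nat_lit 4) (nat_lit 454) (nat_lit 341) (nat_lit 225)))) (XT.nd (nat_lit 78) (nat_lit 76) (nat_lit 0) (XT.lf (nat_lit 0) (nat_lit 118065305615) (nat_lit 152) (nat_lit 10767755762) (nat_lit 0) (nat_lit 100385856337) (nat_lit 7) (nat_lit 5) (nat_lit 9) (nat_lit 4) (nat_lit 7) (nat_lit 4) (nat_lit 455) (nat_lit 341) (nat_lit 224)) (XT.nd (nat_lit 78) (nat_lit 0) (nat_lit 0) (XT.lf (nat_lit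 0) (nat_lit 22361395116) (nat_lit 76) (nat_lit 117578582939) (nat_lit 76) (nat_lit 99896331167) (nat_lit 6) (nat_lit 4) (nat_lit 7) (nat_lit 5) (nat_lit 7) (nat_lit 4) (nat_lit 456) (nat_lit 341) (nat_lit 223)) (XT.lf (nat_lit 0) (nat_lit 57510402922) (nat_lit 76) (nat_lit 105575115831) (nat_lit 76) (nat_lit 87890195016) (nat_lit 6) (nat_lit 4) (nat_lit 7) (nat_lit 5) (nat_lit 7) (nat_lit 4) (nat_lit 457) (nat_lit 341) (nat_lit 222))))) (XT.nd (nat_lit 234) (nat_lit 152) (nat_lit 0) (XT.nd (nat_lit 78) (nat_lit 0) (nat_lit 0) (XT.lf (nat_lit 0) (nat_lit 94406925134) (nat_lit 76) (nat_lit 92976437523) (nat_lit 76) (nat_lit 75288974764) (nat_lit 6) (nat_lit 4) (nat_lit 7) (nat_lit 5) (nat_lit 7) (nat_lit 4) (nat_lit 458) (nat_lit 341) (nat_lit 221)) (XT.nd (nat_lit 78) (nat_lit 0) (nat_lit 0) (XT.lf (nat_lit 0) (nat_lit 133138810615) (nat_lit 76) (nat_lit 79752551163) (nat_lit 76) (nat_lit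 62062667504) (nat_lit 6) (nat_lit 4) (nat_lit 7) (nat_lit 5) (nat_lit 7) (nat_lit 4) (nat_lit 459) (nat_lit 341) (nat_lit 220)) (XT.lf (nat_lit 0) (nat_lit 173798278140) (nat_lit 76) (nat_lit 65871971307) (nat_lit 76) (nat_lit 48179782029) (nat_lit 6) (nat_lit 4) (nat_lit 7) (nat_lit 5) (nat_lit 7) (nat_lit 4) (nat_lit 460) (nat_lit 341) (nat_lit 219)))) (XT.nd (nat_lit 156) (nat_lit 152) (nat_lit 0) (XT.nd (nat_lit 78) (nat_lit 0) (nat_lit 0) (XT.lf (nat_lit 0) (nat_lit 216482135964) (nat_lit 76) (nat_lit 51301648956) (nat_lit 76) (nat_lit 33607263850) (nat_lit 6) (nat_lit 4) (nat_lit 7) (nat_lit 5) (nat_lit 7) (nat_lit 4) (nat_lit 461) (nat_lit 341) (nat_lit 218)) (XT.lf (nat_lit 0) (nat_lit 261292012320) (nat_lit 76) (nat_lit 36006892865) (nat_lit 76) (nat_lit 18310416495) (nat_lit 6) (nat_lit 4) (nat_lit 7) (nat_lit 5) (nat_lit 7) (nat_lit 4) (nat_lit 462) (nat_lit 341) (nat_lit 217)))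 (XT.nd (nat_lit 78) (nat_lit 152) (nat_lit 0) (XT.lf (nat_lit 0) (nat_lit 308334597391) (nat_lit 76) (nat_lit 19951286949) (nat_lit 76) (nat_lit 2252818898) (nat_lit 6) (nat_lit 4) (nat_lit 7) (nat_lit 5) (nat_lit 7) (nat_lit 4) (nat_lit 463) (nat_lit 341) (nat_lit 216)) (XT.lf (nat_lit 0) (nat_lit 11652091805) (nat_lit 76) (nat_lit 2666179753) (nat_lit 152) (nat_lit 331875971660) (nat_lit 4) (nat_lit 5) (nat_lit 5) (nat_lit 5) (nat_lit 6) (nat_lit 4) (nat_lit 464) (nat_lit 341) (nat_lit 215)))))) (XT.nd (nat_lit 546) (nat_lit 76) (nat_lit 0) (XT.nd (nat_lit 234) (nat_lit 0) (nat_lit 0) (XT.nd (nat_lit 78) (nat_lit 0) (nat_lit 0) (XT.lf (nat_lit 0) (nat_lit 32262378147) (nat_lit 152) (nat_lit 314934159759) (nat_lit 0) (nat_lit 15403167288) (nat_lit 4) (nat_lit 5) (nat_lit 6) (nat_lit 4) (nat_lit 4) (nat_lit 4) (nat_lit 465) (nat_lit 341) (nat_lit 214)) (XT.nd (nat_lit 78) (nat_lit 0) (nat_lit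 0) (XT.lf (nat_lit 0) (nat_lit 51143810692) (nat_lit 152) (nat_lit 294396662394) (nat_lit 0) (nat_lit 34282961273) (nat_lit 4) (nat_lit 5) (nat_lit 6) (nat_lit 4) (nat_lit 4) (nat_lit 4) (nat_lit 466) (nat_lit 341) (nat_lit 213)) (XT.lf (nat_lit 0) (nat_lit 70965898448) (nat_lit 152) (nat_lit 272839133975) (nat_lit 0) (nat_lit 54103488494) (nat_lit 4) (nat_lit 5) (nat_lit 6) (nat_lit 4) (nat_lit 4) (nat_lit 4) (nat_lit 467) (nat_lit 341) (nat_lit 212)))) (XT.nd (nat_lit 156) (nat_lit 0) (nat_lit 0) (XT.nd (nat_lit 78) (nat_lit 0) (nat_lit 0) (XT.lf (nat_lit 0) (nat_lit 91775836860) (nat_lit 152) (nat_lit 250210247054) (nat_lit 0) (nat_lit 74911940684) (nat_lit 4) (nat_lit 5) (nat_lit 6) (nat_lit 4) (nat_lit 4) (nat_lit 4) (nat_lit 468) (nat_lit 341) (nat_lit 211)) (XT.lf (nat_lit 0) (nat_lit 113623173402) (nat_lit 152) (nat_lit 226456123330) (nat_lit 0) (nat_lit 96757861776) (nat_lit 4) (nat_lit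 5) (nat_lit 6) (nat_lit 4) (nat_lit 4) (nat_lit 4) (nat_lit 469) (nat_lit 341) (nat_lit 210))) (XT.nd (nat_lit 78) (nat_lit 0) (nat_lit 0) (XT.lf (nat_lit 0) (nat_lit 136559925541) (nat_lit 152) (nat_lit 201520205363) (nat_lit 0) (nat_lit 119693265867) (nat_lit 4) (nat_lit 5) (nat_lit 6) (nat_lit 4) (nat_lit 4) (nat_lit 4) (nat_lit 470) (nat_lit 341) (nat_lit 209)) (XT.lf (nat_lit 0) (nat_lit 160640704593) (nat_lit 152) (nat_lit 175343121922) (nat_lit 0) (nat_lit 143772761064) (nat_lit 4) (nat_lit 5) (nat_lit 6) (nat_lit 4) (nat_lit 4) (nat_lit 4) (nat_lit 471) (nat_lit 341) (nat_lit 208))))) (XT.nd (nat_lit 234) (nat_lit 76) (nat_lit 0) (XT.nd (nat_lit 78) (nat_lit 0) (nat_lit 0) (XT.lf (nat_lit 0) (nat_lit 185922845744) (nat_lit 152) (nat_lit 147862546618) (nat_lit 0) (nat_lit 169053679496) (nat_lit 4) (nat_lit 5) (nat_lit 6) (nat_lit 4) (nat_lit 4) (nat_lit 4) (nat_lit 472) (nat_lit 341)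 (nat_lit 207)) (XT.nd (nat_lit 78) (nat_lit 0) (nat_lit 0) (XT.lf (nat_lit 0) (nat_lit 212466544570) (nat_lit 152) (nat_lit 119013049508) (nat_lit 0) (nat_lit 195596213828) (nat_lit 4) (nat_lit 5) (nat_lit 6) (nat_lit 4) (nat_lit 4) (nat_lit 4) (nat_lit 473) (nat_lit 341) (nat_lit 206)) (XT.lf (nat_lit 0) (nat_lit 240335000353) (nat_lit 152) (nat_lit 88725941314) (nat_lit 0) (nat_lit 223463560569) (nat_lit 4) (nat_lit 5) (nat_lit 6) (nat_lit 4) (nat_lit 4) (nat_lit 4) (nat_lit 474) (nat_lit 341) (nat_lit 205)))) (XT.nd (nat_lit 156) (nat_lit 76) (nat_lit 0) (XT.nd (nat_lit 78) (nat_lit 0) (nat_lit 0) (XT.lf (nat_lit 0) (nat_lit 269594566560) (nat_lit 152) (nat_lit 56929109874) (nat_lit 0) (nat_lit 252722070545) (nat_lit 4) (nat_lit 5) (nat_lit 6) (nat_lit 4) (nat_lit 4) (nat_lit 4) (nat_lit 475) (nat_lit 341) (nat_lit 204)) (XT.lf (nat_lit 0) (nat_lit 300314908824) (nat_lit 152) (nat_lit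 23546848446) (nat_lit 0) (nat_lit 283441406875) (nat_lit 4) (nat_lit 5) (nat_lit 6) (nat_lit 4) (nat_lit 4) (nat_lit 4) (nat_lit 476) (nat_lit 341) (nat_lit 203))) (XT.nd (nat_lit 78) (nat_lit 0) (nat_lit 0) (XT.lf (nat_lit 0) (nat_lit 11880577210) (nat_lit 76) (nat_lit 320874082713) (nat_lit 76) (nat_lit 303999622731) (nat_lit 3) (nat_lit 4) (nat_lit 4) (nat_lit 5) (nat_lit 4) (nat_lit 4) (nat_lit 477) (nat_lit 341) (nat_lit 202)) (XT.lf (nat_lit 0) (nat_lit 49892733815) (nat_lit 76) (nat_lit 317320379986) (nat_lit 76) (nat_lit 300445007593) (nat_lit 3) (nat_lit 4) (nat_lit 4) (nat_lit 5) (nat_lit 4) (nat_lit 4) (nat_lit 478) (nat_lit 341) (nat_lit 201))))))))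
noncomputable def xc102 : XT := (XT.nd (nat_lit 44148) (nat_lit 0) (nat_lit 3420) (XT.nd (nat_lit 43056) (nat_lit 0) (nat_lit 7296) (XT.nd (nat_lit 42510) (nat_lit 0) (nat_lit 12084) (XT.nd (nat_lit 234) (nat_lit 0) (nat_lit 0) (XT.nd (nat_lit 78) (nat_lit 0) (nat_lit 0) (XT.lf (nat_lit 0) (nat_lit 89801561352) (nat_lit 76) (nat_lit 313590965166) (nat_lit 76) (nat_lit 296714723809) (nat_lit 3) (nat_lit 4) (nat_lit 4) (nat_lit 5) (nat_lit 4) (nat_lit 4) (nat_lit 479) (nat_lit 341) (nat_lit 200)) (XT.nd (nat_lit 78) (nat_lit 0) (nat_lit 0) (XT.lf (nat_lit 0) (nat_lit 131702080841) (nat_lit 76) (nat_lit 309676958692) (nat_lit 76) (nat_lit 292799889752) (nat_lit 3) (nat_lit 4) (nat_lit 4) (nat_lit 5) (nat_lit 4) (nat_lit 4) (nat_lit 480) (nat_lit 341) (nat_lit 199)) (XT.lf (nat_lit 0) (nat_lit 175694055421) (nat_lit 76) (nat_lit 305569041503) (nat_lit 76) (nat_lit 288691184387) (nat_lit 3) (nat_lit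 4) (nat_lit 4) (nat_lit 5) (nat_lit 4) (nat_lit 4) (nat_lit 481) (nat_lit 341) (nat_lit 198)))) (XT.nd (nat_lit 78) (nat_lit 0) (nat_lit 0) (XT.lf (nat_lit 0) (nat_lit 221882227890) (nat_lit 76) (nat_lit 301257432843) (nat_lit 76) (nat_lit 284378825083) (nat_lit 3) (nat_lit 4) (nat_lit 4) (nat_lit 5) (nat_lit 4) (nat_lit 4) (nat_lit 482) (nat_lit 341) (nat_lit 197)) (XT.nd (nat_lit 42120) (nat_lit 0) (nat_lit 12996) (XT.lf (nat_lit 0) (nat_lit 270376570088) (nat_lit 76) (nat_lit 296731866977) (nat_lit 76) (nat_lit 279852544319) (nat_lit 3) (nat_lit 4) (nat_lit 4) (nat_lit 5) (nat_lit 4) (nat_lit 4) (nat_lit 483) (nat_lit 341) (nat_lit 196)) (XT.lf (nat_lit 0) (nat_lit 2643664817) (nat_lit 228) (nat_lit 300215040) (nat_lit 228) (nat_lit 300215040) (nat_lit 174) (nat_lit 3) (nat_lit 177) (nat_lit 3) (nat_lit 177) (nat_lit 5) (nat_lit 342) (nat_lit 342) (nat_lit 336))))) (XT.nd (nat_lit 234)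 (nat_lit 380) (nat_lit 0) (XT.nd (nat_lit 78) (nat_lit 304) (nat_lit 0) (XT.lf (nat_lit 0) (nat_lit 1492845936) (nat_lit 228) (nat_lit 3880214987) (nat_lit 304) (nat_lit 1141634118) (nat_lit 171) (nat_lit 5) (nat_lit 174) (nat_lit 3) (nat_lit 175) (nat_lit 5) (nat_lit 343) (nat_lit 342) (nat_lit 335)) (XT.nd (nat_lit 78) (nat_lit 304) (nat_lit 0) (XT.lf (nat_lit 0) (nat_lit 4120654720) (nat_lit 228) (nat_lit 605933836) (nat_lit 304) (nat_lit 1823120406) (nat_lit 171) (nat_lit 5) (nat_lit 174) (nat_lit 3) (nat_lit 175) (nat_lit 5) (nat_lit 344) (nat_lit 342) (nat_lit 334)) (XT.lf (nat_lit 0) (nat_lit 163671751) (nat_lit 304) (nat_lit 3763968072) (nat_lit 380) (nat_lit 2664762552) (nat_lit 167) (nat_lit 5) (nat_lit 171) (nat_lit 5) (nat_lit 172) (nat_lit 5) (nat_lit 345) (nat_lit 342) (nat_lit 333)))) (XT.nd (nat_lit 156) (nat_lit 380) (nat_lit 0) (XT.nd (nat_lit 78) (nat_lit 0) (nat_lit 0)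 (XT.lf (nat_lit 0) (nat_lit 2656026338) (nat_lit 304) (nat_lit 316530753) (nat_lit 380) (nat_lit 3670236249) (nat_lit 167) (nat_lit 5) (nat_lit 171) (nat_lit 5) (nat_lit 172) (nat_lit 5) (nat_lit 346) (nat_lit 342) (nat_lit 332)) (XT.lf (nat_lit 76) (nat_lit 3318656054) (nat_lit 0) (nat_lit 1854912728) (nat_lit 380) (nat_lit 1527235265) (nat_lit 168) (nat_lit 5) (nat_lit 167) (nat_lit 5) (nat_lit 172) (nat_lit 5) (nat_lit 347) (nat_lit 342) (nat_lit 331))) (XT.nd (nat_lit 78) (nat_lit 0) (nat_lit 76) (XT.lf (nat_lit 76) (nat_lit 283263512) (nat_lit 0) (nat_lit 600165659) (nat_lit 456) (nat_lit 5884482488) (nat_lit 163) (nat_lit 5) (nat_lit 162) (nat_lit 5) (nat_lit 168) (nat_lit 5) (nat_lit 348) (nat_lit 342) (nat_lit 330)) (XT.lf (nat_lit 0) (nat_lit 3291146295) (nat_lit 380) (nat_lit 2724181486) (nat_lit 76) (nat_lit 825513985) (nat_lit 163) (nat_lit 5) (nat_lit 168) (nat_lit 5) (nat_lit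 164) (nat_lit 5) (nat_lit 349) (nat_lit 342) (nat_lit 329)))))) (XT.nd (nat_lit 546) (nat_lit 2736) (nat_lit 0) (XT.nd (nat_lit 234) (nat_lit 1216) (nat_lit 0) (XT.nd (nat_lit 78) (nat_lit 532) (nat_lit 0) (XT.lf (nat_lit 0) (nat_lit 1155390491) (nat_lit 380) (nat_lit 4556905900) (nat_lit 456) (nat_lit 1210575510) (nat_lit 158) (nat_lit 5) (nat_lit 163) (nat_lit 5) (nat_lit 164) (nat_lit 5) (nat_lit 350) (nat_lit 342) (nat_lit 328)) (XT.nd (nat_lit 78) (nat_lit 456) (nat_lit 0) (XT.lf (nat_lit 0) (nat_lit 1120415817) (nat_lit 456) (nat_lit 1802354230) (nat_lit 76) (nat_lit 4089618288) (nat_lit 157) (nat_lit 5) (nat_lit 163) (nat_lit 5) (nat_lit 158) (nat_lit 5) (nat_lit 351) (nat_lit 342) (nat_lit 327)) (XT.lf (nat_lit 0) (nat_lit 2321216391) (nat_lit 456) (nat_lit 1116476322) (nat_lit 532) (nat_lit 3672266102) (nat_lit 151) (nat_lit 5) (nat_lit 157) (nat_lit 5) (nat_lit 158) (nat_lit 5)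 (nat_lit 352) (nat_lit 342) (nat_lit 326)))) (XT.nd (nat_lit 156) (nat_lit 608) (nat_lit 0) (XT.nd (nat_lit 78) (nat_lit 608) (nat_lit 0) (XT.lf (nat_lit 0) (nat_lit 5793205321) (nat_lit 532) (nat_lit 609359907) (nat_lit 76) (nat_lit 813811104) (nat_lit 151) (nat_lit 5) (nat_lit 158) (nat_lit 5) (nat_lit 152) (nat_lit 5) (nat_lit 353) (nat_lit 342) (nat_lit 325)) (XT.lf (nat_lit 0) (nat_lit 870002266) (nat_lit 608) (nat_lit 3556812879) (nat_lit 76) (nat_lit 2902563184) (nat_lit 143) (nat_lit 5) (nat_lit 151) (nat_lit 5) (nat_lit 144) (nat_lit 5) (nat_lit 354) (nat_lit 342) (nat_lit 324))) (XT.nd (nat_lit 78) (nat_lit 0) (nat_lit 0) (XT.lf (nat_lit 0) (nat_lit 854176739) (nat_lit 608) (nat_lit 2286705944) (nat_lit 684) (nat_lit 4310512636) (nat_lit 135) (nat_lit 5) (nat_lit 143) (nat_lit 5) (nat_lit 144) (nat_lit 5) (nat_lit 355) (nat_lit 342) (nat_lit 323)) (XT.lf (nat_lit 0) (nat_lit 5477068649)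 (nat_lit 684) (nat_lit 2068737199) (nat_lit 76) (nat_lit 36190901) (nat_lit 135) (nat_lit 5) (nat_lit 144) (nat_lit 5) (nat_lit 136) (nat_lit 5) (nat_lit 356) (nat_lit 342) (nat_lit 322))))) (XT.nd (nat_lit 234) (nat_lit 1216) (nat_lit 0) (XT.nd (nat_lit 78) (nat_lit 760) (nat_lit 0) (XT.lf (nat_lit 0) (nat_lit 178702448) (nat_lit 760) (nat_lit 5086507207) (nat_lit 76) (nat_lit 2455093028) (nat_lit 125) (nat_lit 5) (nat_lit 135) (nat_lit 5) (nat_lit 126) (nat_lit 5) (nat_lit 357) (nat_lit 342) (nat_lit 321)) (XT.nd (nat_lit 78) (nat_lit 760) (nat_lit 0) (XT.lf (nat_lit 0) (nat_lit 2439475517) (nat_lit 760) (nat_lit 353709995) (nat_lit 76) (nat_lit 5073989937) (nat_lit 125) (nat_lit 5) (nat_lit 135) (nat_lit 5) (nat_lit 126) (nat_lit 5) (nat_lit 358) (nat_lit 342) (nat_lit 320)) (XT.lf (nat_lit 0) (nat_lit 4671793511) (nat_lit 760) (nat_lit 117377298) (nat_lit 836) (nat_lit 3233485825) (nat_lit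 115) (nat_lit 5) (nat_lit 125) (nat_lit 5) (nat_lit 126) (nat_lit 5) (nat_lit 359) (nat_lit 342) (nat_lit 319)))) (XT.nd (nat_lit 156) (nat_lit 760) (nat_lit 0) (XT.nd (nat_lit 78) (nat_lit 76) (nat_lit 0) (XT.lf (nat_lit 0) (nat_lit 1690482200) (nat_lit 380) (nat_lit 5546543203) (nat_lit 456) (nat_lit 949908899) (nat_lit 110) (nat_lit 5) (nat_lit 115) (nat_lit 5) (nat_lit 116) (nat_lit 5) (nat_lit 360) (nat_lit 342) (nat_lit 318)) (XT.lf (nat_lit 0) (nat_lit 1368710987) (nat_lit 456) (nat_lit 1380096863) (nat_lit 76) (nat_lit 5611178473) (nat_lit 109) (nat_lit 5) (nat_lit 115) (nat_lit 5) (nat_lit 110) (nat_lit 5) (nat_lit 361) (nat_lit 342) (nat_lit 317))) (XT.nd (nat_lit 78) (nat_lit 380) (nat_lit 0) (XT.lf (nat_lit 0) (nat_lit 3750109858) (nat_lit 456) (nat_lit 4535079852) (nat_lit 76) (nat_lit 256832568) (nat_lit 104) (nat_lit 5) (nat_lit 110) (nat_lit 5) (nat_lit 105) (nat_lit 5) (nat_lit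 362) (nat_lit 342) (nat_lit 316)) (XT.lf (nat_lit 0) (nat_lit 865212478) (nat_lit 380) (nat_lit 5382339791) (nat_lit 456) (nat_lit 2485805277) (nat_lit 99) (nat_lit 5) (nat_lit 104) (nat_lit 5) (nat_lit 105) (nat_lit 5) (nat_lit 363) (nat_lit 342) (nat_lit 315))))))) (XT.nd (nat_lit 1014) (nat_lit 1520) (nat_lit 0) (XT.nd (nat_lit 468) (nat_lit 1368) (nat_lit 0) (XT.nd (nat_lit 234) (nat_lit 304) (nat_lit 0) (XT.nd (nat_lit 78) (nat_lit 684) (nat_lit 0) (XT.lf (nat_lit 0) (nat_lit 6598229958) (nat_lit 380) (nat_lit 2265672946) (nat_lit 456) (nat_lit 70698864) (nat_lit 99) (nat_lit 5) (nat_lit 104) (nat_lit 5) (nat_lit 105) (nat_lit 5) (nat_lit 364) (nat_lit 342) (nat_lit 314)) (XT.nd (nat_lit 78) (nat_lit 304) (nat_lit 0) (XT.lf (nat_lit 0) (nat_lit 2377017990) (nat_lit 380) (nat_lit 5711331470) (nat_lit 76) (nat_lit 1056136454) (nat_lit 94) (nat_lit 5) (nat_lit 99) (nat_lit 5) (nat_lit 95)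 (nat_lit 5) (nat_lit 365) (nat_lit 342) (nat_lit 313)) (XT.lf (nat_lit 0) (nat_lit 77793769) (nat_lit 304) (nat_lit 4867541551) (nat_lit 380) (nat_lit 4419479474) (nat_lit 90) (nat_lit 5) (nat_lit 94) (nat_lit 5) (nat_lit 95) (nat_lit 5) (nat_lit 366) (nat_lit 342) (nat_lit 312)))) (XT.nd (nat_lit 78) (nat_lit 304) (nat_lit 0) (XT.lf (nat_lit 0) (nat_lit 6261063205) (nat_lit 304) (nat_lit 1401999201) (nat_lit 380) (nat_lit 1932084213) (nat_lit 90) (nat_lit 5) (nat_lit 94) (nat_lit 5) (nat_lit 95) (nat_lit 5) (nat_lit 367) (nat_lit 342) (nat_lit 311)) (XT.nd (nat_lit 78) (nat_lit 0) (nat_lit 0) (XT.lf (nat_lit 0) (nat_lit 665534857) (nat_lit 304) (nat_lit 6966105586) (nat_lit 76) (nat_lit 2204476431) (nat_lit 86) (nat_lit 5) (nat_lit 90) (nat_lit 5) (nat_lit 87) (nat_lit 5) (nat_lit 368) (nat_lit 342) (nat_lit 310)) (XT.lf (nat_lit 0) (nat_lit 3336928739) (nat_lit 304) (nat_lit 735252061)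 (nat_lit 76) (nat_lit 6014961207) (nat_lit 86) (nat_lit 5) (nat_lit 90) (nat_lit 5) (nat_lit 87) (nat_lit 5) (nat_lit 369) (nat_lit 342) (nat_lit 309))))) (XT.nd (nat_lit 234) (nat_lit 760) (nat_lit 0) (XT.nd (nat_lit 78) (nat_lit 304) (nat_lit 0) (XT.lf (nat_lit 0) (nat_lit 5907241856) (nat_lit 304) (nat_lit 258737155) (nat_lit 380) (nat_lit 4183564827) (nat_lit 82) (nat_lit 5) (nat_lit 86) (nat_lit 5) (nat_lit 87) (nat_lit 5) (nat_lit 370) (nat_lit 342) (nat_lit 308)) (XT.nd (nat_lit 78) (nat_lit 76) (nat_lit 0) (XT.lf (nat_lit 0) (nat_lit 2204268640) (nat_lit 228) (nat_lit 6971163955) (nat_lit 304) (nat_lit 1447713987) (nat_lit 79) (nat_lit 5) (nat_lit 82) (nat_lit 5) (nat_lit 83) (nat_lit 5) (nat_lit 371) (nat_lit 342) (nat_lit 307)) (XT.lf (nat_lit 0) (nat_lit 1394126024) (nat_lit 304) (nat_lit 1688285134) (nat_lit 76) (nat_lit 7826191506) (nat_lit 78) (nat_lit 5) (nat_lit 82) (nat_lit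 5) (nat_lit 79) (nat_lit 5) (nat_lit 372) (nat_lit 342) (nat_lit 306)))) (XT.nd (nat_lit 156) (nat_lit 304) (nat_lit 0) (XT.nd (nat_lit 78) (nat_lit 228) (nat_lit 0) (XT.lf (nat_lit 0) (nat_lit 4368639344) (nat_lit 304) (nat_lit 5780737787) (nat_lit 76) (nat_lit 1055830567) (nat_lit 75) (nat_lit 5) (nat_lit 79) (nat_lit 5) (nat_lit 76) (nat_lit 5) (nat_lit 373) (nat_lit 342) (nat_lit 305)) (XT.lf (nat_lit 0) (nat_lit 1339910340) (nat_lit 228) (nat_lit 6190985781) (nat_lit 304) (nat_lit 3983819306) (nat_lit 72) (nat_lit 5) (nat_lit 75) (nat_lit 5) (nat_lit 76) (nat_lit 5) (nat_lit 374) (nat_lit 342) (nat_lit 304))) (XT.nd (nat_lit 78) (nat_lit 304) (nat_lit 0) (XT.lf (nat_lit 0) (nat_lit 8930470353) (nat_lit 228) (nat_lit 1958773896) (nat_lit 304) (nat_lit 948577588) (nat_lit 72) (nat_lit 5) (nat_lit 75) (nat_lit 5) (nat_lit 76) (nat_lit 5) (nat_lit 375) (nat_lit 342) (nat_lit 303)) (XT.lf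 (nat_lit 0) (nat_lit 2223189033) (nat_lit 304) (nat_lit 7458584929) (nat_lit 76) (nat_lit 2490762033) (nat_lit 68) (nat_lit 5) (nat_lit 72) (nat_lit 5) (nat_lit 69) (nat_lit 5) (nat_lit 376) (nat_lit 342) (nat_lit 302)))))) (XT.nd (nat_lit 546) (nat_lit 684) (nat_lit 0) (XT.nd (nat_lit 234) (nat_lit 456) (nat_lit 0) (XT.nd (nat_lit 78) (nat_lit 228) (nat_lit 0) (XT.lf (nat_lit 0) (nat_lit 166920297) (nat_lit 152) (nat_lit 5382529692) (nat_lit 228) (nat_lit 6972388323) (nat_lit 66) (nat_lit 5) (nat_lit 68) (nat_lit 5) (nat_lit 69) (nat_lit 5) (nat_lit 377) (nat_lit 342) (nat_lit 301)) (XT.nd (nat_lit 78) (nat_lit 228) (nat_lit 0) (XT.lf (nat_lit 0) (nat_lit 8348343070) (nat_lit 152) (nat_lit 764415382) (nat_lit 228) (nat_lit 3772328852) (nat_lit 66) (nat_lit 5) (nat_lit 68) (nat_lit 5) (nat_lit 69) (nat_lit 5) (nat_lit 378) (nat_lit 342) (nat_lit 300)) (XT.lf (nat_lit 0) (nat_lit 3642627416)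 (nat_lit 228) (nat_lit 9278887976) (nat_lit 304) (nat_lit 341636609) (nat_lit 63) (nat_lit 5) (nat_lit 66) (nat_lit 5) (nat_lit 67) (nat_lit 5) (nat_lit 379) (nat_lit 342) (nat_lit 299)))) (XT.nd (nat_lit 156) (nat_lit 228) (nat_lit 0) (XT.nd (nat_lit 78) (nat_lit 152) (nat_lit 0) (XT.lf (nat_lit 0) (nat_lit 3193896569) (nat_lit 304) (nat_lit 1415464327) (nat_lit 76) (nat_lit 9046346204) (nat_lit 62) (nat_lit 5) (nat_lit 66) (nat_lit 5) (nat_lit 63) (nat_lit 5) (nat_lit 380) (nat_lit 342) (nat_lit 298)) (XT.lf (nat_lit 0) (nat_lit 6965163129) (nat_lit 228) (nat_lit 6720020742) (nat_lit 76) (nat_lit 378919195) (nat_lit 60) (nat_lit 5) (nat_lit 63) (nat_lit 5) (nat_lit 61) (nat_lit 5) (nat_lit 381) (nat_lit 342) (nat_lit 297))) (XT.nd (nat_lit 78) (nat_lit 76) (nat_lit 0) (XT.lf (nat_lit 0) (nat_lit 2007557624) (nat_lit 152) (nat_lit 8999014510) (nat_lit 228) (nat_lit 3482282064) (nat_lit 58)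 (nat_lit 5) (nat_lit 60) (nat_lit 5) (nat_lit 61) (nat_lit 5) (nat_lit 382) (nat_lit 342) (nat_lit 296)) (XT.lf (nat_lit 0) (nat_lit 371432072) (nat_lit 228) (nat_lit 3611247426) (nat_lit 76) (nat_lit 10948614715) (nat_lit 57) (nat_lit 5) (nat_lit 60) (nat_lit 5) (nat_lit 58) (nat_lit 5) (nat_lit 383) (nat_lit 342) (nat_lit 295))))) (XT.nd (nat_lit 234) (nat_lit 380) (nat_lit 0) (XT.nd (nat_lit 78) (nat_lit 152) (nat_lit 0) (XT.lf (nat_lit 0) (nat_lit 4365620560) (nat_lit 228) (nat_lit 9659839193) (nat_lit 76) (nat_lit 1364313711) (nat_lit 55) (nat_lit 5) (nat_lit 58) (nat_lit 5) (nat_lit 56) (nat_lit 5) (nat_lit 384) (nat_lit 342) (nat_lit 294)) (XT.nd (nat_lit 78) (nat_lit 152) (nat_lit 0) (XT.lf (nat_lit 0) (nat_lit 8640570593) (nat_lit 228) (nat_lit 347796209) (nat_lit 76) (nat_lit 6878769055) (nat_lit 55) (nat_lit 5) (nat_lit 58) (nat_lit 5) (nat_lit 56) (nat_lit 5) (nat_lit 385) (nat_lit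 342) (nat_lit 293)) (XT.lf (nat_lit 0) (nat_lit 9665948763) (nat_lit 152) (nat_lit 3570042840) (nat_lit 228) (nat_lit 3127049814) (nat_lit 53) (nat_lit 5) (nat_lit 55) (nat_lit 5) (nat_lit 56) (nat_lit 5) (nat_lit 386) (nat_lit 342) (nat_lit 292)))) (XT.nd (nat_lit 156) (nat_lit 152) (nat_lit 0) (XT.nd (nat_lit 78) (nat_lit 0) (nat_lit 0) (XT.lf (nat_lit 0) (nat_lit 1187574470) (nat_lit 228) (nat_lit 13592666075) (nat_lit 76) (nat_lit 2100201806) (nat_lit 50) (nat_lit 5) (nat_lit 53) (nat_lit 5) (nat_lit 51) (nat_lit 5) (nat_lit 387) (nat_lit 342) (nat_lit 291)) (XT.lf (nat_lit 0) (nat_lit 5743217692) (nat_lit 228) (nat_lit 3599358046) (nat_lit 76) (nat_lit 8072065277) (nat_lit 50) (nat_lit 5) (nat_lit 53) (nat_lit 5) (nat_lit 51) (nat_lit 5) (nat_lit 388) (nat_lit 342) (nat_lit 290))) (XT.nd (nat_lit 78) (nat_lit 0) (nat_lit 0) (XT.lf (nat_lit 0) (nat_lit 7048679524) (nat_lit 152) (nat_lit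 3546655083) (nat_lit 228) (nat_lit 7376789662) (nat_lit 48) (nat_lit 5) (nat_lit 50) (nat_lit 5) (nat_lit 51) (nat_lit 5) (nat_lit 389) (nat_lit 342) (nat_lit 289)) (XT.lf (nat_lit 0) (nat_lit 15750731553) (nat_lit 228) (nat_lit 311975128) (nat_lit 76) (nat_lit 2491750089) (nat_lit 48) (nat_lit 5) (nat_lit 51) (nat_lit 5) (nat_lit 49) (nat_lit 4) (nat_lit 390) (nat_lit 342) (nat_lit 288))))))))
noncomputable def xc103 : XT := (XT.nd (nat_lit 2106) (nat_lit 988) (nat_lit 0) (XT.nd (nat_lit 1014) (nat_lit 760) (nat_lit 0) (XT.nd (nat_lit 468) (nat_lit 608) (nat_lit 0) (XT.nd (nat_lit 234) (nat_lit 304) (nat_lit 0) (XT.nd (nat_lit 78) (nat_lit 152) (nat_lit 0) (XT.lf (nat_lit 0) (nat_lit 2128997856) (nat_lit 152) (nat_lit 8132403311) (nat_lit 76) (nat_lit 8893205310) (nat_lit 46) (nat_lit 5) (nat_lit 48) (nat_lit 5) (nat_lit 47) (nat_lit 5) (nat_lit 391) (nat_lit 342) (nat_lit 287)) (XT.nd (nat_lit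 78) (nat_lit 0) (nat_lit 0) (XT.lf (nat_lit 0) (nat_lit 3135941840) (nat_lit 152) (nat_lit 4093731795) (nat_lit 228) (nat_lit 12552022491) (nat_lit 44) (nat_lit 5) (nat_lit 46) (nat_lit 5) (nat_lit 47) (nat_lit 5) (nat_lit 392) (nat_lit 342) (nat_lit 286)) (XT.lf (nat_lit 0) (nat_lit 12724128371) (nat_lit 228) (nat_lit 5290828547) (nat_lit 76) (nat_lit 2418253313) (nat_lit 44) (nat_lit 5) (nat_lit 47) (nat_lit 5) (nat_lit 45) (nat_lit 4) (nat_lit 393) (nat_lit 342) (nat_lit 285)))) (XT.nd (nat_lit 78) (nat_lit 228) (nat_lit 0) (XT.lf (nat_lit 0) (nat_lit 6714727264) (nat_lit 76) (nat_lit 11913921284) (nat_lit 152) (nat_lit 2481891248) (nat_lit 43) (nat_lit 5) (nat_lit 44) (nat_lit 5) (nat_lit 45) (nat_lit 4) (nat_lit 394) (nat_lit 342) (nat_lit 284)) (XT.nd (nat_lit 78) (nat_lit 152) (nat_lit 0) (XT.lf (nat_lit 0) (nat_lit 2965046924) (nat_lit 152) (nat_lit 2426503975) (nat_lit 76) (nat_lit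 16425113078) (nat_lit 42) (nat_lit 5) (nat_lit 44) (nat_lit 5) (nat_lit 43) (nat_lit 5) (nat_lit 395) (nat_lit 342) (nat_lit 283)) (XT.lf (nat_lit 0) (nat_lit 8753763578) (nat_lit 228) (nat_lit 12204828181) (nat_lit 76) (nat_lit 1589832253) (nat_lit 40) (nat_lit 5) (nat_lit 43) (nat_lit 5) (nat_lit 41) (nat_lit 4) (nat_lit 396) (nat_lit 342) (nat_lit 282))))) (XT.nd (nat_lit 234) (nat_lit 304) (nat_lit 0) (XT.nd (nat_lit 78) (nat_lit 228) (nat_lit 0) (XT.lf (nat_lit 0) (nat_lit 382643370) (nat_lit 76) (nat_lit 14550964582) (nat_lit 152) (nat_lit 8378085170) (nat_lit 39) (nat_lit 5) (nat_lit 40) (nat_lit 5) (nat_lit 41) (nat_lit 4) (nat_lit 397) (nat_lit 342) (nat_lit 281)) (XT.nd (nat_lit 78) (nat_lit 228) (nat_lit 0) (XT.lf (nat_lit 0) (nat_lit 13961947053) (nat_lit 76) (nat_lit 7633439427) (nat_lit 152) (nat_lit 2509097509) (nat_lit 39) (nat_lit 5) (nat_lit 40) (nat_lit 5) (nat_lit 41)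 (nat_lit 4) (nat_lit 398) (nat_lit 342) (nat_lit 280)) (XT.lf (nat_lit 0) (nat_lit 3271538850) (nat_lit 152) (nat_lit 283271480) (nat_lit 228) (nat_lit 21378336999) (nat_lit 36) (nat_lit 5) (nat_lit 38) (nat_lit 5) (nat_lit 39) (nat_lit 5) (nat_lit 399) (nat_lit 342) (nat_lit 279)))) (XT.nd (nat_lit 156) (nat_lit 228) (nat_lit 0) (XT.nd (nat_lit 78) (nat_lit 76) (nat_lit 0) (XT.lf (nat_lit 0) (nat_lit 10095800865) (nat_lit 228) (nat_lit 8305899952) (nat_lit 76) (nat_lit 7386580573) (nat_lit 36) (nat_lit 5) (nat_lit 39) (nat_lit 5) (nat_lit 37) (nat_lit 4) (nat_lit 400) (nat_lit 342) (nat_lit 278)) (XT.lf (nat_lit 0) (nat_lit 5843140097) (nat_lit 76) (nat_lit 11185670403) (nat_lit 152) (nat_lit 9654117617) (nat_lit 35) (nat_lit 5) (nat_lit 36) (nat_lit 5) (nat_lit 37) (nat_lit 4) (nat_lit 401) (nat_lit 342) (nat_lit 277))) (XT.nd (nat_lit 78) (nat_lit 228) (nat_lit 0) (XT.lf (nat_lit 0) (nat_lit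 20932083723) (nat_lit 76) (nat_lit 3486747920) (nat_lit 152) (nat_lit 3197961717) (nat_lit 35) (nat_lit 5) (nat_lit 36) (nat_lit 5) (nat_lit 37) (nat_lit 4) (nat_lit 402) (nat_lit 342) (nat_lit 276)) (XT.lf (nat_lit 0) (nat_lit 3641614260) (nat_lit 228) (nat_lit 20329200444) (nat_lit 76) (nat_lit 4614984187) (nat_lit 32) (nat_lit 5) (nat_lit 35) (nat_lit 5) (nat_lit 33) (nat_lit 4) (nat_lit 403) (nat_lit 342) (nat_lit 275)))))) (XT.nd (nat_lit 546) (nat_lit 456) (nat_lit 0) (XT.nd (nat_lit 234) (nat_lit 228) (nat_lit 0) (XT.nd (nat_lit 78) (nat_lit 76) (nat_lit 0) (XT.lf (nat_lit 0) (nat_lit 10858764064) (nat_lit 228) (nat_lit 5586391660) (nat_lit 76) (nat_lit 13148327973) (nat_lit 32) (nat_lit 5) (nat_lit 35) (nat_lit 5) (nat_lit 33) (nat_lit 4) (nat_lit 404) (nat_lit 342) (nat_lit 274)) (XT.nd (nat_lit 78) (nat_lit 0) (nat_lit 0) (XT.lf (nat_lit 0) (nat_lit 10167154698) (nat_lit 76) (nat_lit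 8400585899) (nat_lit 152) (nat_lit 12077267163) (nat_lit 31) (nat_lit 5) (nat_lit 32) (nat_lit 5) (nat_lit 33) (nat_lit 4) (nat_lit 405) (nat_lit 342) (nat_lit 273)) (XT.lf (nat_lit 0) (nat_lit 26731433897) (nat_lit 152) (nat_lit 4896299191) (nat_lit 0) (nat_lit 117914857) (nat_lit 31) (nat_lit 5) (nat_lit 33) (nat_lit 4) (nat_lit 31) (nat_lit 4) (nat_lit 406) (nat_lit 342) (nat_lit 272)))) (XT.nd (nat_lit 156) (nat_lit 76) (nat_lit 0) (XT.nd (nat_lit 78) (nat_lit 0) (nat_lit 0) (XT.lf (nat_lit 0) (nat_lit 2623223873) (nat_lit 152) (nat_lit 21278977185) (nat_lit 76) (nat_lit 8982341452) (nat_lit 29) (nat_lit 5) (nat_lit 31) (nat_lit 5) (nat_lit 30) (nat_lit 4) (nat_lit 407) (nat_lit 342) (nat_lit 271)) (XT.lf (nat_lit 0) (nat_lit 10532071868) (nat_lit 152) (nat_lit 5106855069) (nat_lit 76) (nat_lit 18434445284) (nat_lit 29) (nat_lit 5) (nat_lit 31) (nat_lit 5) (nat_lit 30) (nat_lit 4) (nat_lit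 408) (nat_lit 342) (nat_lit 270))) (XT.nd (nat_lit 78) (nat_lit 0) (nat_lit 0) (XT.lf (nat_lit 0) (nat_lit 12217705305) (nat_lit 76) (nat_lit 6784426803) (nat_lit 152) (nat_lit 16311225546) (nat_lit 28) (nat_lit 5) (nat_lit 29) (nat_lit 5) (nat_lit 30) (nat_lit 4) (nat_lit 409) (nat_lit 342) (nat_lit 269)) (XT.lf (nat_lit 0) (nat_lit 27997971342) (nat_lit 152) (nat_lit 6113210838) (nat_lit 0) (nat_lit 2499048974) (nat_lit 28) (nat_lit 5) (nat_lit 30) (nat_lit 4) (nat_lit 28) (nat_lit 4) (nat_lit 410) (nat_lit 342) (nat_lit 268))))) (XT.nd (nat_lit 234) (nat_lit 228) (nat_lit 0) (XT.nd (nat_lit 78) (nat_lit 152) (nat_lit 0) (XT.lf (nat_lit 0) (nat_lit 11944344971) (nat_lit 76) (nat_lit 25773285497) (nat_lit 76) (nat_lit 240618939) (nat_lit 27) (nat_lit 4) (nat_lit 28) (nat_lit 5) (nat_lit 28) (nat_lit 4) (nat_lit 411) (nat_lit 342) (nat_lit 267)) (XT.nd (nat_lit 78) (nat_lit 76) (nat_lit 0)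 (XT.lf (nat_lit 0) (nat_lit 8357565458) (nat_lit 152) (nat_lit 8431794690) (nat_lit 76) (nat_lit 22573556392) (nat_lit 26) (nat_lit 5) (nat_lit 28) (nat_lit 5) (nat_lit 27) (nat_lit 4) (nat_lit 412) (nat_lit 342) (nat_lit 266)) (XT.lf (nat_lit 0) (nat_lit 10312553927) (nat_lit 76) (nat_lit 7203526454) (nat_lit 152) (nat_lit 23314616174) (nat_lit 25) (nat_lit 5) (nat_lit 26) (nat_lit 5) (nat_lit 27) (nat_lit 4) (nat_lit 413) (nat_lit 342) (nat_lit 265)))) (XT.nd (nat_lit 156) (nat_lit 152) (nat_lit 0) (XT.nd (nat_lit 78) (nat_lit 76) (nat_lit 0) (XT.lf (nat_lit 0) (nat_lit 27299931520) (nat_lit 152) (nat_lit 12167977237) (nat_lit 0) (nat_lit 2895588324) (nat_lit 25) (nat_lit 5) (nat_lit 27) (nat_lit 4) (nat_lit 25) (nat_lit 4) (nat_lit 414) (nat_lit 342) (nat_lit 264)) (XT.lf (nat_lit 0) (nat_lit 7170058342) (nat_lit 76) (nat_lit 30611614500) (nat_lit 76) (nat_lit 6180831849) (nat_lit 24)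 (nat_lit 4) (nat_lit 25) (nat_lit 5) (nat_lit 25) (nat_lit 4) (nat_lit 415) (nat_lit 342) (nat_lit 263))) (XT.nd (nat_lit 78) (nat_lit 76) (nat_lit 0) (XT.lf (nat_lit 0) (nat_lit 3233497276) (nat_lit 152) (nat_lit 17827293669) (nat_lit 76) (nat_lit 24568809989) (nat_lit 23) (nat_lit 5) (nat_lit 25) (nat_lit 5) (nat_lit 24) (nat_lit 4) (nat_lit 416) (nat_lit 342) (nat_lit 262)) (XT.lf (nat_lit 0) (nat_lit 2010002030) (nat_lit 76) (nat_lit 10911923082) (nat_lit 152) (nat_lit 34452507358) (nat_lit 22) (nat_lit 5) (nat_lit 23) (nat_lit 5) (nat_lit 24) (nat_lit 4) (nat_lit 417) (nat_lit 342) (nat_lit 261))))))) (XT.nd (nat_lit 1092) (nat_lit 456) (nat_lit 0) (XT.nd (nat_lit 546) (nat_lit 304) (nat_lit 0) (XT.nd (nat_lit 234) (nat_lit 152) (nat_lit 0) (XT.nd (nat_lit 78) (nat_lit 76) (nat_lit 0) (XT.lf (nat_lit 0) (nat_lit 23377438674) (nat_lit 152) (nat_lit 25773481228) (nat_lit 0) (nat_lit 41454058)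 (nat_lit 22) (nat_lit 5) (nat_lit 24) (nat_lit 4) (nat_lit 22) (nat_lit 4) (nat_lit 418) (nat_lit 342) (nat_lit 260)) (XT.nd (nat_lit 78) (nat_lit 76) (nat_lit 0) (XT.lf (nat_lit 0) (nat_lit 34515366088) (nat_lit 152) (nat_lit 5419200581) (nat_lit 0) (nat_lit 11158665467) (nat_lit 22) (nat_lit 5) (nat_lit 24) (nat_lit 4) (nat_lit 22) (nat_lit 4) (nat_lit 419) (nat_lit 342) (nat_lit 259)) (XT.lf (nat_lit 0) (nat_lit 16443535605) (nat_lit 76) (nat_lit 30005054597) (nat_lit 76) (nat_lit 6628624447) (nat_lit 21) (nat_lit 4) (nat_lit 22) (nat_lit 5) (nat_lit 22) (nat_lit 4) (nat_lit 420) (nat_lit 342) (nat_lit 258)))) (XT.nd (nat_lit 156) (nat_lit 0) (nat_lit 0) (XT.nd (nat_lit 78) (nat_lit 76) (nat_lit 0) (XT.lf (nat_lit 0) (nat_lit 3770859049) (nat_lit 152) (nat_lit 15664959126) (nat_lit 76) (nat_lit 35717849769) (nat_lit 20) (nat_lit 5) (nat_lit 22) (nat_lit 5) (nat_lit 21) (nat_lit 4) (nat_lit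 421) (nat_lit 342) (nat_lit 257)) (XT.lf (nat_lit 0) (nat_lit 6414956895) (nat_lit 76) (nat_lit 8135322293) (nat_lit 152) (nat_lit 42774096280) (nat_lit 19) (nat_lit 5) (nat_lit 20) (nat_lit 5) (nat_lit 21) (nat_lit 4) (nat_lit 422) (nat_lit 342) (nat_lit 256))) (XT.nd (nat_lit 78) (nat_lit 0) (nat_lit 0) (XT.lf (nat_lit 0) (nat_lit 26179180098) (nat_lit 152) (nat_lit 29544170587) (nat_lit 0) (nat_lit 3864743384) (nat_lit 19) (nat_lit 5) (nat_lit 21) (nat_lit 4) (nat_lit 19) (nat_lit 4) (nat_lit 423) (nat_lit 342) (nat_lit 255)) (XT.lf (nat_lit 0) (nat_lit 38506347396) (nat_lit 152) (nat_lit 7276359192) (nat_lit 0) (nat_lit 16176452079) (nat_lit 19) (nat_lit 5) (nat_lit 21) (nat_lit 4) (nat_lit 19) (nat_lit 4) (nat_lit 424) (nat_lit 342) (nat_lit 254))))) (XT.nd (nat_lit 234) (nat_lit 152) (nat_lit 0) (XT.nd (nat_lit 78) (nat_lit 76) (nat_lit 0) (XT.lf (nat_lit 0) (nat_lit 16605530057) (nat_lit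 76) (nat_lit 35087845103) (nat_lit 76) (nat_lit 12743227308) (nat_lit 18) (nat_lit 4) (nat_lit 19) (nat_lit 5) (nat_lit 19) (nat_lit 4) (nat_lit 425) (nat_lit 342) (nat_lit 253)) (XT.nd (nat_lit 78) (nat_lit 76) (nat_lit 0) (XT.lf (nat_lit 0) (nat_lit 41903835817) (nat_lit 76) (nat_lit 23743667706) (nat_lit 76) (nat_lit 1385028504) (nat_lit 18) (nat_lit 4) (nat_lit 19) (nat_lit 5) (nat_lit 19) (nat_lit 4) (nat_lit 426) (nat_lit 342) (nat_lit 252)) (XT.lf (nat_lit 0) (nat_lit 10188714880) (nat_lit 152) (nat_lit 1485127419) (nat_lit 76) (nat_lit 58076937154) (nat_lit 17) (nat_lit 5) (nat_lit 19) (nat_lit 5) (nat_lit 18) (nat_lit 4) (nat_lit 427) (nat_lit 342) (nat_lit 251)))) (XT.nd (nat_lit 156) (nat_lit 76) (nat_lit 0) (XT.nd (nat_lit 78) (nat_lit 0) (nat_lit 0) (XT.lf (nat_lit 0) (nat_lit 22677893863) (nat_lit 152) (nat_lit 48547624568) (nat_lit 0) (nat_lit 1359121715) (nat_lit 16) (nat_lit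 5) (nat_lit 18) (nat_lit 4) (nat_lit 16) (nat_lit 4) (nat_lit 428) (nat_lit 342) (nat_lit 250)) (XT.lf (nat_lit 0) (nat_lit 35994238270) (nat_lit 152) (nat_lit 24891890448) (nat_lit 0) (nat_lit 14663930676) (nat_lit 16) (nat_lit 5) (nat_lit 18) (nat_lit 4) (nat_lit 16) (nat_lit 4) (nat_lit 429) (nat_lit 342) (nat_lit 249))) (XT.nd (nat_lit 78) (nat_lit 76) (nat_lit 0) (XT.lf (nat_lit 0) (nat_lit 49962845940) (nat_lit 152) (nat_lit 80029963) (nat_lit 0) (nat_lit 28621552206) (nat_lit 16) (nat_lit 5) (nat_lit 18) (nat_lit 4) (nat_lit 16) (nat_lit 4) (nat_lit 430) (nat_lit 342) (nat_lit 248)) (XT.lf (nat_lit 0) (nat_lit 26804958827) (nat_lit 76) (nat_lit 38230517162) (nat_lit 76) (nat_lit 16878760438) (nat_lit 15) (nat_lit 4) (nat_lit 16) (nat_lit 5) (nat_lit 16) (nat_lit 4) (nat_lit 431) (nat_lit 342) (nat_lit 247)))))) (XT.nd (nat_lit 546) (nat_lit 228) (nat_lit 0) (XT.nd (nat_lit 234) (nat_lit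 76) (nat_lit 0) (XT.nd (nat_lit 78) (nat_lit 152) (nat_lit 0) (XT.lf (nat_lit 0) (nat_lit 55011994246) (nat_lit 76) (nat_lit 25838414774) (nat_lit 76) (nat_lit 4476693297) (nat_lit 15) (nat_lit 4) (nat_lit 16) (nat_lit 5) (nat_lit 16) (nat_lit 4) (nat_lit 432) (nat_lit 342) (nat_lit 246)) (XT.nd (nat_lit 78) (nat_lit 76) (nat_lit 0) (XT.lf (nat_lit 0) (nat_lit 8259689984) (nat_lit 152) (nat_lit 4438847249) (nat_lit 76) (nat_lit 76206017917) (nat_lit 14) (nat_lit 5) (nat_lit 16) (nat_lit 5) (nat_lit 15) (nat_lit 4) (nat_lit 433) (nat_lit 342) (nat_lit 245)) (XT.lf (nat_lit 0) (nat_lit 21859988388) (nat_lit 152) (nat_lit 69280500845) (nat_lit 0) (nat_lit 1497845491) (nat_lit 13) (nat_lit 5) (nat_lit 15) (nat_lit 4) (nat_lit 13) (nat_lit 4) (nat_lit 434) (nat_lit 342) (nat_lit 244)))) (XT.nd (nat_lit 156) (nat_lit 76) (nat_lit 0) (XT.nd (nat_lit 78) (nat_lit 0) (nat_lit 0) (XT.lf (nat_lit 0)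 (nat_lit 36413215196) (nat_lit 152) (nat_lit 44089068735) (nat_lit 0) (nat_lit 16042874272) (nat_lit 13) (nat_lit 5) (nat_lit 15) (nat_lit 4) (nat_lit 13) (nat_lit 4) (nat_lit 435) (nat_lit 342) (nat_lit 243)) (XT.lf (nat_lit 0) (nat_lit 51682993207) (nat_lit 152) (nat_lit 17660041090) (nat_lit 0) (nat_lit 31304844639) (nat_lit 13) (nat_lit 5) (nat_lit 15) (nat_lit 4) (nat_lit 13) (nat_lit 4) (nat_lit 436) (nat_lit 342) (nat_lit 242))) (XT.nd (nat_lit 78) (nat_lit 0) (nat_lit 0) (XT.lf (nat_lit 0) (nat_lit 10402451768) (nat_lit 76) (nat_lit 57465638693) (nat_lit 76) (nat_lit 37080054273) (nat_lit 12) (nat_lit 4) (nat_lit 13) (nat_lit 5) (nat_lit 13) (nat_lit 4) (nat_lit 437) (nat_lit 342) (nat_lit 241)) (XT.lf (nat_lit 0) (nat_lit 40460594002) (nat_lit 76) (nat_lit 44690531195) (nat_lit 76) (nat_lit 24297865011) (nat_lit 12) (nat_lit 4) (nat_lit 13) (nat_lit 5) (nat_lit 13) (nat_lit 4) (nat_lit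 438) (nat_lit 342) (nat_lit 240))))) (XT.nd (nat_lit 234) (nat_lit 76) (nat_lit 0) (XT.nd (nat_lit 78) (nat_lit 152) (nat_lit 0) (XT.lf (nat_lit 0) (nat_lit 72002031903) (nat_lit 76) (nat_lit 31286376223) (nat_lit 76) (nat_lit 10886965502) (nat_lit 12) (nat_lit 4) (nat_lit 13) (nat_lit 5) (nat_lit 13) (nat_lit 4) (nat_lit 439) (nat_lit 342) (nat_lit 239)) (XT.nd (nat_lit 78) (nat_lit 76) (nat_lit 0) (XT.lf (nat_lit 0) (nat_lit 3082648679) (nat_lit 152) (nat_lit 14086404296) (nat_lit 76) (nat_lit 101967009306) (nat_lit 11) (nat_lit 5) (nat_lit 13) (nat_lit 5) (nat_lit 12) (nat_lit 4) (nat_lit 440) (nat_lit 342) (nat_lit 238)) (XT.lf (nat_lit 0) (nat_lit 15711170246) (nat_lit 76) (nat_lit 1909864792) (nat_lit 152) (nat_lit 106703018768) (nat_lit 10) (nat_lit 5) (nat_lit 11) (nat_lit 5) (nat_lit 12) (nat_lit 4) (nat_lit 441) (nat_lit 342) (nat_lit 237)))) (XT.nd (nat_lit 156) (nat_lit 76) (nat_lit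 0) (XT.nd (nat_lit 78) (nat_lit 0) (nat_lit 0) (XT.lf (nat_lit 0) (nat_lit 33340032508) (nat_lit 152) (nat_lit 82514198344) (nat_lit 0) (nat_lit 13894529872) (nat_lit 10) (nat_lit 5) (nat_lit 12) (nat_lit 4) (nat_lit 10) (nat_lit 4) (nat_lit 442) (nat_lit 342) (nat_lit 236)) (XT.lf (nat_lit 0) (nat_lit 49867611600) (nat_lit 152) (nat_lit 55159135746) (nat_lit 0) (nat_lit 30416824443) (nat_lit 10) (nat_lit 5) (nat_lit 12) (nat_lit 4) (nat_lit 10) (nat_lit 4) (nat_lit 443) (nat_lit 342) (nat_lit 235))) (XT.nd (nat_lit 78) (nat_lit 76) (nat_lit 0) (XT.lf (nat_lit 0) (nat_lit 67213305350) (nat_lit 152) (nat_lit 26452746323) (nat_lit 0) (nat_lit 47757485316) (nat_lit 10) (nat_lit 5) (nat_lit 12) (nat_lit 4) (nat_lit 10) (nat_lit 4) (nat_lit 444) (nat_lit 342) (nat_lit 234)) (XT.lf (nat_lit 0) (nat_lit 3794774969) (nat_lit 76) (nat_lit 81682885134) (nat_lit 76) (nat_lit 62222271883) (nat_lit 9)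 (nat_lit 4) (nat_lit 10) (nat_lit 5) (nat_lit 10) (nat_lit 4) (nat_lit 445) (nat_lit 342) (nat_lit 233))))))))
noncomputable def xc104 : XT := (XT.nd (nat_lit 2106) (nat_lit 76) (nat_lit 0) (XT.nd (nat_lit 1014) (nat_lit 152) (nat_lit 0) (XT.nd (nat_lit 468) (nat_lit 76) (nat_lit 0) (XT.nd (nat_lit 234) (nat_lit 152) (nat_lit 0) (XT.nd (nat_lit 78) (nat_lit 0) (nat_lit 0) (XT.lf (nat_lit 0) (nat_lit 36457660170) (nat_lit 76) (nat_lit 68637826213) (nat_lit 76) (nat_lit 49172647994) (nat_lit 9) (nat_lit 4) (nat_lit 10) (nat_lit 5) (nat_lit 10) (nat_lit 4) (nat_lit 446) (nat_lit 342) (nat_lit 232)) (XT.nd (nat_lit 78) (nat_lit 0) (nat_lit 0) (XT.lf (nat_lit 0) (nat_lit 70739030798) (nat_lit 76) (nat_lit 54947805305) (nat_lit 76) (nat_lit 35478279497) (nat_lit 9) (nat_lit 4) (nat_lit 10) (nat_lit 5) (nat_lit 10) (nat_lit 4) (nat_lit 447) (nat_lit 342) (nat_lit 231)) (XT.lf (nat_lit 0) (nat_lit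 106720509164) (nat_lit 76) (nat_lit 40580227122) (nat_lit 76) (nat_lit 21106560754) (nat_lit 9) (nat_lit 4) (nat_lit 10) (nat_lit 5) (nat_lit 10) (nat_lit 4) (nat_lit 448) (nat_lit 342) (nat_lit 230)))) (XT.nd (nat_lit 78) (nat_lit 152) (nat_lit 0) (XT.lf (nat_lit 0) (nat_lit 144487765453) (nat_lit 76) (nat_lit 25500883145) (nat_lit 76) (nat_lit 6023273386) (nat_lit 9) (nat_lit 4) (nat_lit 10) (nat_lit 5) (nat_lit 10) (nat_lit 4) (nat_lit 449) (nat_lit 342) (nat_lit 229)) (XT.nd (nat_lit 78) (nat_lit 76) (nat_lit 0) (XT.lf (nat_lit 0) (nat_lit 9493594100) (nat_lit 152) (nat_lit 19497464) (nat_lit 76) (nat_lit 174476348995) (nat_lit 8) (nat_lit 5) (nat_lit 10) (nat_lit 5) (nat_lit 9) (nat_lit 4) (nat_lit 450) (nat_lit 342) (nat_lit 228)) (XT.lf (nat_lit 0) (nat_lit 26232968565) (nat_lit 152) (nat_lit 158419594570) (nat_lit 0) (nat_lit 7675880812) (nat_lit 7) (nat_lit 5) (nat_lit 9) (nat_lit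 4) (nat_lit 7) (nat_lit 4) (nat_lit 451) (nat_lit 342) (nat_lit 227))))) (XT.nd (nat_lit 234) (nat_lit 76) (nat_lit 0) (XT.nd (nat_lit 78) (nat_lit 0) (nat_lit 0) (XT.lf (nat_lit 0) (nat_lit 43959449670) (nat_lit 152) (nat_lit 131718323499) (nat_lit 0) (nat_lit 25399117679) (nat_lit 7) (nat_lit 5) (nat_lit 9) (nat_lit 4) (nat_lit 7) (nat_lit 4) (nat_lit 452) (nat_lit 342) (nat_lit 226)) (XT.nd (nat_lit 78) (nat_lit 0) (nat_lit 0) (XT.lf (nat_lit 0) (nat_lit 62566397671) (nat_lit 152) (nat_lit 103693679578) (nat_lit 0) (nat_lit 44002975929) (nat_lit 7) (nat_lit 5) (nat_lit 9) (nat_lit 4) (nat_lit 7) (nat_lit 4) (nat_lit 453) (nat_lit 342) (nat_lit 225)) (XT.lf (nat_lit 0) (nat_lit 82098114825) (nat_lit 152) (nat_lit 74278937464) (nat_lit 0) (nat_lit 63531750464) (nat_lit 7) (nat_lit 5) (nat_lit 9) (nat_lit 4) (nat_lit 7) (nat_lit 4) (nat_lit 454) (nat_lit 342) (nat_lit 224)))) (XT.nd (nat_lit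 156) (nat_lit 76) (nat_lit 0) (XT.nd (nat_lit 78) (nat_lit 0) (nat_lit 0) (XT.lf (nat_lit 0) (nat_lit 102601105220) (nat_lit 152) (nat_lit 43404062056) (nat_lit 0) (nat_lit 84031938365) (nat_lit 7) (nat_lit 5) (nat_lit 9) (nat_lit 4) (nat_lit 7) (nat_lit 4) (nat_lit 455) (nat_lit 342) (nat_lit 223)) (XT.lf (nat_lit 0) (nat_lit 124124185501) (nat_lit 152) (nat_lit 10995541748) (nat_lit 0) (nat_lit 105552349604) (nat_lit 7) (nat_lit 5) (nat_lit 9) (nat_lit 4) (nat_lit 7) (nat_lit 4) (nat_lit 456) (nat_lit 342) (nat_lit 222))) (XT.nd (nat_lit 78) (nat_lit 0) (nat_lit 0) (XT.lf (nat_lit 0) (nat_lit 23785056968) (nat_lit 76) (nat_lit 123304895525) (nat_lit 76) (nat_lit 104730517683) (nat_lit 6) (nat_lit 4) (nat_lit 7) (nat_lit 5) (nat_lit 7) (nat_lit 4) (nat_lit 457) (nat_lit 342) (nat_lit 221)) (XT.lf (nat_lit 0) (nat_lit 60676963160) (nat_lit 76) (nat_lit 110708522517) (nat_lit 76) (nat_lit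 92131723775) (nat_lit 6) (nat_lit 4) (nat_lit 7) (nat_lit 5) (nat_lit 7) (nat_lit 4) (nat_lit 458) (nat_lit 342) (nat_lit 220)))))) (XT.nd (nat_lit 546) (nat_lit 0) (nat_lit 0) (XT.nd (nat_lit 234) (nat_lit 152) (nat_lit 0) (XT.nd (nat_lit 78) (nat_lit 0) (nat_lit 0) (XT.lf (nat_lit 0) (nat_lit 99404452431) (nat_lit 76) (nat_lit 97486831680) (nat_lit 76) (nat_lit 78907727319) (nat_lit 6) (nat_lit 4) (nat_lit 7) (nat_lit 5) (nat_lit 7) (nat_lit 4) (nat_lit 459) (nat_lit 342) (nat_lit 219)) (XT.nd (nat_lit 78) (nat_lit 0) (nat_lit 0) (XT.lf (nat_lit 0) (nat_lit 140059733089) (nat_lit 76) (nat_lit 83608342798) (nat_lit 76) (nat_lit 65027042609) (nat_lit 6) (nat_lit 4) (nat_lit 7) (nat_lit 5) (nat_lit 7) (nat_lit 4) (nat_lit 460) (nat_lit 342) (nat_lit 218)) (XT.lf (nat_lit 0) (nat_lit 182739603421) (nat_lit 76) (nat_lit 69040011851) (nat_lit 76) (nat_lit 50456620397) (nat_lit 6) (nat_lit 4)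 (nat_lit 7) (nat_lit 5) (nat_lit 7) (nat_lit 4) (nat_lit 461) (nat_lit 342) (nat_lit 217)))) (XT.nd (nat_lit 156) (nat_lit 152) (nat_lit 0) (XT.nd (nat_lit 78) (nat_lit 0) (nat_lit 0) (XT.lf (nat_lit 0) (nat_lit 227545682166) (nat_lit 76) (nat_lit 53747152335) (nat_lit 76) (nat_lit 35161769201) (nat_lit 6) (nat_lit 4) (nat_lit 7) (nat_lit 5) (nat_lit 7) (nat_lit 4) (nat_lit 462) (nat_lit 342) (nat_lit 216)) (XT.lf (nat_lit 0) (nat_lit 274584650464) (nat_lit 76) (nat_lit 37693352681) (nat_lit 76) (nat_lit 19106072709) (nat_lit 6) (nat_lit 4) (nat_lit 7) (nat_lit 5) (nat_lit 7) (nat_lit 4) (nat_lit 463) (nat_lit 342) (nat_lit 215))) (XT.nd (nat_lit 78) (nat_lit 152) (nat_lit 0) (XT.lf (nat_lit 0) (nat_lit 323968505858) (nat_lit 76) (nat_lit 20840389556) (nat_lit 76) (nat_lit 2251303071) (nat_lit 6) (nat_lit 4) (nat_lit 7) (nat_lit 5) (nat_lit 7) (nat_lit 4) (nat_lit 464) (nat_lit 342) (nat_lit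 214)) (XT.lf (nat_lit 0) (nat_lit 12451970726) (nat_lit 76) (nat_lit 2690847663) (nat_lit 152) (nat_lit 348355701633) (nat_lit 4) (nat_lit 5) (nat_lit 5) (nat_lit 5) (nat_lit 6) (nat_lit 4) (nat_lit 465) (nat_lit 342) (nat_lit 213))))) (XT.nd (nat_lit 234) (nat_lit 0) (nat_lit 0) (XT.nd (nat_lit 78) (nat_lit 0) (nat_lit 0) (XT.lf (nat_lit 0) (nat_lit 33980572717) (nat_lit 152) (nat_lit 330470378704) (nat_lit 0) (nat_lit 16273481732) (nat_lit 4) (nat_lit 5) (nat_lit 6) (nat_lit 4) (nat_lit 4) (nat_lit 4) (nat_lit 466) (nat_lit 342) (nat_lit 212)) (XT.nd (nat_lit 78) (nat_lit 0) (nat_lit 0) (XT.lf (nat_lit 0) (nat_lit 53801073287) (nat_lit 152) (nat_lit 308916029758) (nat_lit 0) (nat_lit 36092496079) (nat_lit 4) (nat_lit 5) (nat_lit 6) (nat_lit 4) (nat_lit 4) (nat_lit 4) (nat_lit 467) (nat_lit 342) (nat_lit 211)) (XT.lf (nat_lit 0) (nat_lit 74609500094) (nat_lit 152) (nat_lit 286290170906)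 (nat_lit 0) (nat_lit 56899507436) (nat_lit 4) (nat_lit 5) (nat_lit 6) (nat_lit 4) (nat_lit 4) (nat_lit 4) (nat_lit 468) (nat_lit 342) (nat_lit 210)))) (XT.nd (nat_lit 156) (nat_lit 0) (nat_lit 0) (XT.nd (nat_lit 78) (nat_lit 0) (nat_lit 0) (XT.lf (nat_lit 0) (nat_lit 96455397011) (nat_lit 152) (nat_lit 262538931057) (nat_lit 0) (nat_lit 78744056306) (nat_lit 4) (nat_lit 5) (nat_lit 6) (nat_lit 4) (nat_lit 4) (nat_lit 4) (nat_lit 469) (nat_lit 342) (nat_lit 209)) (XT.lf (nat_lit 0) (nat_lit 119390778080) (nat_lit 152) (nat_lit 237605759639) (nat_lit 0) (nat_lit 101678153520) (nat_lit 4) (nat_lit 5) (nat_lit 6) (nat_lit 4) (nat_lit 4) (nat_lit 4) (nat_lit 470) (nat_lit 342) (nat_lit 208))) (XT.nd (nat_lit 78) (nat_lit 0) (nat_lit 0) (XT.lf (nat_lit 0) (nat_lit 143470251350) (nat_lit 152) (nat_lit 211431291958) (nat_lit 0) (nat_lit 125756404070) (nat_lit 4) (nat_lit 5) (nat_lit 6) (nat_lit 4)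 (nat_lit 4) (nat_lit 4) (nat_lit 471) (nat_lit 342) (nat_lit 207)) (XT.lf (nat_lit 0) (nat_lit 168751148900) (nat_lit 152) (nat_lit 183953207853) (nat_lit 0) (nat_lit 151036137126) (nat_lit 4) (nat_lit 5) (nat_lit 6) (nat_lit 4) (nat_lit 4) (nat_lit 4) (nat_lit 472) (nat_lit 342) (nat_lit 206))))))) (XT.nd (nat_lit 43134) (nat_lit 0) (nat_lit 9272) (XT.nd (nat_lit 468) (nat_lit 0) (nat_lit 0) (XT.nd (nat_lit 234) (nat_lit 76) (nat_lit 0) (XT.nd (nat_lit 78) (nat_lit 0) (nat_lit 0) (XT.lf (nat_lit 0) (nat_lit 195293663343) (nat_lit 152) (nat_lit 155106083315) (nat_lit 0) (nat_lit 177577542527) (nat_lit 4) (nat_lit 5) (nat_lit 6) (nat_lit 4) (nat_lit 4) (nat_lit 4) (nat_lit 473) (nat_lit 342) (nat_lit 205)) (XT.nd (nat_lit 78) (nat_lit 0) (nat_lit 0) (XT.lf (nat_lit 0) (nat_lit 223160991143) (nat_lit 152) (nat_lit 124821234713) (nat_lit 0) (nat_lit 205443814097) (nat_lit 4) (nat_lit 5) (nat_lit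 6) (nat_lit 4) (nat_lit 4) (nat_lit 4) (nat_lit 474) (nat_lit 342) (nat_lit 204)) (XT.lf (nat_lit 0) (nat_lit 252419483080) (nat_lit 152) (nat_lit 93026555265) (nat_lit 0) (nat_lit 234701300100) (nat_lit 4) (nat_lit 5) (nat_lit 6) (nat_lit 4) (nat_lit 4) (nat_lit 4) (nat_lit 475) (nat_lit 342) (nat_lit 203)))) (XT.nd (nat_lit 78) (nat_lit 76) (nat_lit 0) (XT.lf (nat_lit 0) (nat_lit 283138802230) (nat_lit 152) (nat_lit 59646343354) (nat_lit 0) (nat_lit 265419661217) (nat_lit 4) (nat_lit 5) (nat_lit 6) (nat_lit 4) (nat_lit 4) (nat_lit 4) (nat_lit 476) (nat_lit 342) (nat_lit 202)) (XT.nd (nat_lit 78) (nat_lit 76) (nat_lit 0) (XT.lf (nat_lit 0) (nat_lit 315392089829) (nat_lit 152) (nat_lit 24601122284) (nat_lit 0) (nat_lit 297672036405) (nat_lit 4) (nat_lit 5) (nat_lit 6) (nat_lit 4) (nat_lit 4) (nat_lit 4) (nat_lit 477) (nat_lit 342) (nat_lit 201)) (XT.lf (nat_lit 0) (nat_lit 12595689678) (nat_lit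 76) (nat_lit 336857103756) (nat_lit 76) (nat_lit 319136181368) (nat_lit 3) (nat_lit 4) (nat_lit 4) (nat_lit 5) (nat_lit 4) (nat_lit 4) (nat_lit 478) (nat_lit 342) (nat_lit 200))))) (XT.nd (nat_lit 234) (nat_lit 0) (nat_lit 0) (XT.nd (nat_lit 78) (nat_lit 0) (nat_lit 0) (XT.lf (nat_lit 0) (nat_lit 52502688227) (nat_lit 76) (nat_lit 333128605564) (nat_lit 76) (nat_lit 315406855592) (nat_lit 3) (nat_lit 4) (nat_lit 4) (nat_lit 5) (nat_lit 4) (nat_lit 4) (nat_lit 479) (nat_lit 342) (nat_lit 199)) (XT.nd (nat_lit 78) (nat_lit 0) (nat_lit 0) (XT.lf (nat_lit 0) (nat_lit 94401465821) (nat_lit 76) (nat_lit 329215472071) (nat_lit 76) (nat_lit 311492933923) (nat_lit 3) (nat_lit 4) (nat_lit 4) (nat_lit 5) (nat_lit 4) (nat_lit 4) (nat_lit 480) (nat_lit 342) (nat_lit 198)) (XT.lf (nat_lit 0) (nat_lit 138391781455) (nat_lit 76) (nat_lit 325108386291) (nat_lit 76) (nat_lit 307385097499) (nat_lit 3) (nat_lit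 4) (nat_lit 4) (nat_lit 5) (nat_lit 4) (nat_lit 4) (nat_lit 481) (nat_lit 342) (nat_lit 197)))) (XT.nd (nat_lit 42276) (nat_lit 0) (nat_lit 12768) (XT.nd (nat_lit 78) (nat_lit 0) (nat_lit 0) (XT.lf (nat_lit 0) (nat_lit 184578373975) (nat_lit 76) (nat_lit 320797569449) (nat_lit 76) (nat_lit 303073565759) (nat_lit 3) (nat_lit 4) (nat_lit 4) (nat_lit 5) (nat_lit 4) (nat_lit 4) (nat_lit 482) (nat_lit 342) (nat_lit 196)) (XT.lf (nat_lit 0) (nat_lit 233071211459) (nat_lit 76) (nat_lit 316272757695) (nat_lit 76) (nat_lit 298548073150) (nat_lit 3) (nat_lit 4) (nat_lit 4) (nat_lit 5) (nat_lit 4) (nat_lit 4) (nat_lit 483) (nat_lit 342) (nat_lit 195))) (XT.nd (nat_lit 78) (nat_lit 0) (nat_lit 0) (XT.lf (nat_lit 0) (nat_lit 1011625316) (nat_lit 0) (nat_lit 1011625316) (nat_lit 228) (nat_lit 1249459339) (nat_lit 171) (nat_lit 5) (nat_lit 171) (nat_lit 3) (nat_lit 174) (nat_lit 3) (nat_lit 343) (nat_lit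 343) (nat_lit 334)) (XT.lf (nat_lit 0) (nat_lit 5304155979) (nat_lit 0) (nat_lit 1279300305) (nat_lit 228) (nat_lit 1592943) (nat_lit 171) (nat_lit 5) (nat_lit 171) (nat_lit 3) (nat_lit 174) (nat_lit 3) (nat_lit 344) (nat_lit 343) (nat_lit 333)))))) (XT.nd (nat_lit 546) (nat_lit 2356) (nat_lit 0) (XT.nd (nat_lit 234) (nat_lit 456) (nat_lit 0) (XT.nd (nat_lit 78) (nat_lit 304) (nat_lit 0) (XT.lf (nat_lit 76) (nat_lit 2064260738) (nat_lit 0) (nat_lit 346077124) (nat_lit 380) (nat_lit 4220730785) (nat_lit 167) (nat_lit 5) (nat_lit 166) (nat_lit 3) (nat_lit 171) (nat_lit 5) (nat_lit 345) (nat_lit 343) (nat_lit 332)) (XT.nd (nat_lit 78) (nat_lit 380) (nat_lit 0) (XT.lf (nat_lit 0) (nat_lit 4823511951) (nat_lit 304) (nat_lit 1158279600) (nat_lit 380) (nat_lit 703689867) (nat_lit 167) (nat_lit 5) (nat_lit 171) (nat_lit 5) (nat_lit 172) (nat_lit 5) (nat_lit 346) (nat_lit 343) (nat_lit 331)) (XT.lf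 (nat_lit 0) (nat_lit 492471736) (nat_lit 380) (nat_lit 4350243414) (nat_lit 456) (nat_lit 1904665676) (nat_lit 162) (nat_lit 5) (nat_lit 167) (nat_lit 5) (nat_lit 168) (nat_lit 5) (nat_lit 347) (nat_lit 343) (nat_lit 330)))) (XT.nd (nat_lit 156) (nat_lit 456) (nat_lit 0) (XT.nd (nat_lit 78) (nat_lit 0) (nat_lit 0) (XT.lf (nat_lit 0) (nat_lit 2781103382) (nat_lit 380) (nat_lit 761590716) (nat_lit 456) (nat_lit 3274313937) (nat_lit 162) (nat_lit 5) (nat_lit 167) (nat_lit 5) (nat_lit 168) (nat_lit 5) (nat_lit 348) (nat_lit 343) (nat_lit 329)) (XT.lf (nat_lit 76) (nat_lit 3017463945) (nat_lit 0) (nat_lit 2079628176) (nat_lit 456) (nat_lit 1797484088) (nat_lit 163) (nat_lit 5) (nat_lit 162) (nat_lit 5) (nat_lit 168) (nat_lit 5) (nat_lit 349) (nat_lit 343) (nat_lit 328))) (XT.nd (nat_lit 78) (nat_lit 0) (nat_lit 76) (XT.lf (nat_lit 0) (nat_lit 416946981) (nat_lit 456) (nat_lit 60974756) (nat_lit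 532) (nat_lit 6503676290) (nat_lit 156) (nat_lit 5) (nat_lit 162) (nat_lit 5) (nat_lit 163) (nat_lit 5) (nat_lit 350) (nat_lit 343) (nat_lit 327)) (XT.lf (nat_lit 0) (nat_lit 2639354748) (nat_lit 456) (nat_lit 3136914432) (nat_lit 76) (nat_lit 1297436752) (nat_lit 157) (nat_lit 5) (nat_lit 163) (nat_lit 5) (nat_lit 158) (nat_lit 5) (nat_lit 351) (nat_lit 343) (nat_lit 326))))) (XT.nd (nat_lit 234) (nat_lit 1368) (nat_lit 0) (XT.nd (nat_lit 78) (nat_lit 608) (nat_lit 0) (XT.lf (nat_lit 0) (nat_lit 897290332) (nat_lit 456) (nat_lit 3978656216) (nat_lit 532) (nat_lit 2299406611) (nat_lit 151) (nat_lit 5) (nat_lit 157) (nat_lit 5) (nat_lit 158) (nat_lit 5) (nat_lit 352) (nat_lit 343) (nat_lit 325)) (XT.nd (nat_lit 78) (nat_lit 608) (nat_lit 0) (XT.lf (nat_lit 0) (nat_lit 5153787633) (nat_lit 456) (nat_lit 2008202745) (nat_lit 532) (nat_lit 123294206) (nat_lit 151) (nat_lit 5) (nat_lit 157) (nat_lit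 5) (nat_lit 158) (nat_lit 5) (nat_lit 353) (nat_lit 343) (nat_lit 324)) (XT.lf (nat_lit 0) (nat_lit 2016871220) (nat_lit 608) (nat_lit 5235216735) (nat_lit 76) (nat_lit 150790778) (nat_lit 143) (nat_lit 5) (nat_lit 151) (nat_lit 5) (nat_lit 144) (nat_lit 5) (nat_lit 354) (nat_lit 343) (nat_lit 323)))) (XT.nd (nat_lit 156) (nat_lit 760) (nat_lit 0) (XT.nd (nat_lit 78) (nat_lit 608) (nat_lit 0) (XT.lf (nat_lit 0) (nat_lit 4221942272) (nat_lit 608) (nat_lit 896579181) (nat_lit 76) (nat_lit 2409699698) (nat_lit 143) (nat_lit 5) (nat_lit 151) (nat_lit 5) (nat_lit 144) (nat_lit 5) (nat_lit 355) (nat_lit 343) (nat_lit 322)) (XT.lf (nat_lit 0) (nat_lit 3689184525) (nat_lit 608) (nat_lit 2803233040) (nat_lit 684) (nat_lit 1169723841) (nat_lit 135) (nat_lit 5) (nat_lit 143) (nat_lit 5) (nat_lit 144) (nat_lit 5) (nat_lit 356) (nat_lit 343) (nat_lit 321))) (XT.nd (nat_lit 78) (nat_lit 0) (nat_lit 0)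 (XT.lf (nat_lit 0) (nat_lit 647214788) (nat_lit 684) (nat_lit 317014261) (nat_lit 760) (nat_lit 6841505696) (nat_lit 125) (nat_lit 5) (nat_lit 134) (nat_lit 5) (nat_lit 135) (nat_lit 5) (nat_lit 357) (nat_lit 343) (nat_lit 320)) (XT.lf (nat_lit 0) (nat_lit 3172708140) (nat_lit 760) (nat_lit 2466363574) (nat_lit 76) (nat_lit 2316179257) (nat_lit 125) (nat_lit 5) (nat_lit 135) (nat_lit 5) (nat_lit 126) (nat_lit 5) (nat_lit 358) (nat_lit 343) (nat_lit 319))))))))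
noncomputable def xc105 : XT := (XT.nd (nat_lit 2106) (nat_lit 2204) (nat_lit 0) (XT.nd (nat_lit 1014) (nat_lit 2052) (nat_lit 0) (XT.nd (nat_lit 468) (nat_lit 1292) (nat_lit 0) (XT.nd (nat_lit 234) (nat_lit 760) (nat_lit 0) (XT.nd (nat_lit 78) (nat_lit 456) (nat_lit 0) (XT.lf (nat_lit 0) (nat_lit 2444431083) (nat_lit 760) (nat_lit 2998106982) (nat_lit 836) (nat_lit 2672214750) (nat_lit 115) (nat_lit 5) (nat_lit 125) (nat_lit 5) (nat_lit 126) (nat_lit 5) (nat_lit 359) (nat_lit 343) (nat_lit 318)) (XT.nd (nat_lit 78) (nat_lit 456) (nat_lit 0) (XT.lf (nat_lit 0) (nat_lit 7598818035) (nat_lit 760) (nat_lit 179410383) (nat_lit 836) (nat_lit 506436362) (nat_lit 115) (nat_lit 5) (nat_lit 125) (nat_lit 5) (nat_lit 126) (nat_lit 5) (nat_lit 360) (nat_lit 343) (nat_lit 317)) (XT.lf (nat_lit 0) (nat_lit 1741018895) (nat_lit 456) (nat_lit 3926985667) (nat_lit 76) (nat_lit 2792238245) (nat_lit 109) (nat_lit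 5) (nat_lit 115) (nat_lit 5) (nat_lit 110) (nat_lit 5) (nat_lit 361) (nat_lit 343) (nat_lit 316)))) (XT.nd (nat_lit 78) (nat_lit 380) (nat_lit 0) (XT.lf (nat_lit 0) (nat_lit 1335270294) (nat_lit 380) (nat_lit 2700342669) (nat_lit 456) (nat_lit 4611028573) (nat_lit 104) (nat_lit 5) (nat_lit 109) (nat_lit 5) (nat_lit 110) (nat_lit 5) (nat_lit 362) (nat_lit 343) (nat_lit 315)) (XT.nd (nat_lit 78) (nat_lit 380) (nat_lit 0) (XT.lf (nat_lit 0) (nat_lit 6437734113) (nat_lit 456) (nat_lit 1941345352) (nat_lit 76) (nat_lit 463684864) (nat_lit 104) (nat_lit 5) (nat_lit 110) (nat_lit 5) (nat_lit 105) (nat_lit 5) (nat_lit 363) (nat_lit 343) (nat_lit 314)) (XT.lf (nat_lit 0) (nat_lit 3683469846) (nat_lit 380) (nat_lit 5300851001) (nat_lit 456) (nat_lit 63196338) (nat_lit 99) (nat_lit 5) (nat_lit 104) (nat_lit 5) (nat_lit 105) (nat_lit 5) (nat_lit 364) (nat_lit 343) (nat_lit 313))))) (XT.nd (nat_lit 234)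 (nat_lit 608) (nat_lit 0) (XT.nd (nat_lit 78) (nat_lit 304) (nat_lit 0) (XT.lf (nat_lit 0) (nat_lit 278541519) (nat_lit 304) (nat_lit 2001932786) (nat_lit 380) (nat_lit 6982130012) (nat_lit 94) (nat_lit 5) (nat_lit 98) (nat_lit 5) (nat_lit 99) (nat_lit 5) (nat_lit 365) (nat_lit 343) (nat_lit 312)) (XT.nd (nat_lit 78) (nat_lit 304) (nat_lit 0) (XT.lf (nat_lit 0) (nat_lit 4780092512) (nat_lit 380) (nat_lit 3210367235) (nat_lit 76) (nat_lit 1495926062) (nat_lit 94) (nat_lit 5) (nat_lit 99) (nat_lit 5) (nat_lit 95) (nat_lit 5) (nat_lit 366) (nat_lit 343) (nat_lit 311)) (XT.lf (nat_lit 0) (nat_lit 2823270220) (nat_lit 304) (nat_lit 4587586787) (nat_lit 380) (nat_lit 2310225572) (nat_lit 90) (nat_lit 5) (nat_lit 94) (nat_lit 5) (nat_lit 95) (nat_lit 5) (nat_lit 367) (nat_lit 343) (nat_lit 310)))) (XT.nd (nat_lit 156) (nat_lit 304) (nat_lit 0) (XT.nd (nat_lit 78) (nat_lit 228) (nat_lit 0) (XT.lf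 (nat_lit 0) (nat_lit 184476590) (nat_lit 380) (nat_lit 786087092) (nat_lit 76) (nat_lit 8997550586) (nat_lit 89) (nat_lit 5) (nat_lit 94) (nat_lit 5) (nat_lit 90) (nat_lit 5) (nat_lit 368) (nat_lit 343) (nat_lit 309)) (XT.lf (nat_lit 0) (nat_lit 2794590626) (nat_lit 304) (nat_lit 4578012745) (nat_lit 76) (nat_lit 2849614547) (nat_lit 86) (nat_lit 5) (nat_lit 90) (nat_lit 5) (nat_lit 87) (nat_lit 5) (nat_lit 369) (nat_lit 343) (nat_lit 308))) (XT.nd (nat_lit 78) (nat_lit 0) (nat_lit 0) (XT.lf (nat_lit 0) (nat_lit 1894721710) (nat_lit 304) (nat_lit 3634615405) (nat_lit 380) (nat_lit 4960011657) (nat_lit 82) (nat_lit 5) (nat_lit 86) (nat_lit 5) (nat_lit 87) (nat_lit 5) (nat_lit 370) (nat_lit 343) (nat_lit 307)) (XT.lf (nat_lit 0) (nat_lit 8420730130) (nat_lit 380) (nat_lit 2007965075) (nat_lit 76) (nat_lit 340172515) (nat_lit 82) (nat_lit 5) (nat_lit 87) (nat_lit 5) (nat_lit 83) (nat_lit 5)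 (nat_lit 371) (nat_lit 343) (nat_lit 306)))))) (XT.nd (nat_lit 546) (nat_lit 836) (nat_lit 0) (XT.nd (nat_lit 234) (nat_lit 684) (nat_lit 0) (XT.nd (nat_lit 78) (nat_lit 228) (nat_lit 0) (XT.lf (nat_lit 0) (nat_lit 458986634) (nat_lit 304) (nat_lit 6142073671) (nat_lit 76) (nat_lit 4457155103) (nat_lit 78) (nat_lit 5) (nat_lit 82) (nat_lit 5) (nat_lit 79) (nat_lit 5) (nat_lit 372) (nat_lit 343) (nat_lit 305)) (XT.nd (nat_lit 78) (nat_lit 0) (nat_lit 0) (XT.lf (nat_lit 0) (nat_lit 799573036) (nat_lit 228) (nat_lit 2515251091) (nat_lit 304) (nat_lit 8045941488) (nat_lit 75) (nat_lit 5) (nat_lit 78) (nat_lit 5) (nat_lit 79) (nat_lit 5) (nat_lit 373) (nat_lit 343) (nat_lit 304)) (XT.lf (nat_lit 0) (nat_lit 6388322417) (nat_lit 304) (nat_lit 3485153038) (nat_lit 76) (nat_lit 1801246653) (nat_lit 75) (nat_lit 5) (nat_lit 79) (nat_lit 5) (nat_lit 76) (nat_lit 5) (nat_lit 374) (nat_lit 343) (nat_lit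 303)))) (XT.nd (nat_lit 156) (nat_lit 380) (nat_lit 0) (XT.nd (nat_lit 78) (nat_lit 76) (nat_lit 0) (XT.lf (nat_lit 0) (nat_lit 3949840050) (nat_lit 228) (nat_lit 5712780449) (nat_lit 304) (nat_lit 2339420844) (nat_lit 72) (nat_lit 5) (nat_lit 75) (nat_lit 5) (nat_lit 76) (nat_lit 5) (nat_lit 375) (nat_lit 343) (nat_lit 302)) (XT.lf (nat_lit 0) (nat_lit 735474866) (nat_lit 304) (nat_lit 558539606) (nat_lit 76) (nat_lit 11050905470) (nat_lit 71) (nat_lit 5) (nat_lit 75) (nat_lit 5) (nat_lit 72) (nat_lit 5) (nat_lit 376) (nat_lit 343) (nat_lit 301))) (XT.nd (nat_lit 78) (nat_lit 152) (nat_lit 0) (XT.lf (nat_lit 0) (nat_lit 4003299866) (nat_lit 304) (nat_lit 5321671397) (nat_lit 76) (nat_lit 3372181712) (nat_lit 68) (nat_lit 5) (nat_lit 72) (nat_lit 5) (nat_lit 69) (nat_lit 5) (nat_lit 377) (nat_lit 343) (nat_lit 300)) (XT.lf (nat_lit 0) (nat_lit 2644627755) (nat_lit 152) (nat_lit 4810325892)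 (nat_lit 228) (nat_lit 5611039546) (nat_lit 66) (nat_lit 5) (nat_lit 68) (nat_lit 5) (nat_lit 69) (nat_lit 5) (nat_lit 378) (nat_lit 343) (nat_lit 299))))) (XT.nd (nat_lit 234) (nat_lit 380) (nat_lit 0) (XT.nd (nat_lit 78) (nat_lit 456) (nat_lit 0) (XT.lf (nat_lit 0) (nat_lit 11117533027) (nat_lit 152) (nat_lit 1369213) (nat_lit 228) (nat_lit 2332404158) (nat_lit 66) (nat_lit 5) (nat_lit 68) (nat_lit 5) (nat_lit 69) (nat_lit 5) (nat_lit 379) (nat_lit 343) (nat_lit 298)) (XT.nd (nat_lit 78) (nat_lit 152) (nat_lit 0) (XT.lf (nat_lit 0) (nat_lit 1203963353) (nat_lit 304) (nat_lit 7665888579) (nat_lit 76) (nat_lit 4978715106) (nat_lit 62) (nat_lit 5) (nat_lit 66) (nat_lit 5) (nat_lit 63) (nat_lit 5) (nat_lit 380) (nat_lit 343) (nat_lit 297)) (XT.lf (nat_lit 0) (nat_lit 855487824) (nat_lit 152) (nat_lit 3988794006) (nat_lit 228) (nat_lit 9419235565) (nat_lit 60) (nat_lit 5) (nat_lit 62) (nat_lit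 5) (nat_lit 63) (nat_lit 5) (nat_lit 381) (nat_lit 343) (nat_lit 296)))) (XT.nd (nat_lit 156) (nat_lit 228) (nat_lit 0) (XT.nd (nat_lit 78) (nat_lit 152) (nat_lit 0) (XT.lf (nat_lit 0) (nat_lit 8768985117) (nat_lit 228) (nat_lit 4719487764) (nat_lit 76) (nat_lit 1205637587) (nat_lit 60) (nat_lit 5) (nat_lit 63) (nat_lit 5) (nat_lit 61) (nat_lit 5) (nat_lit 382) (nat_lit 343) (nat_lit 295)) (XT.lf (nat_lit 0) (nat_lit 4406783488) (nat_lit 152) (nat_lit 8572259981) (nat_lit 228) (nat_lit 2162746721) (nat_lit 58) (nat_lit 5) (nat_lit 60) (nat_lit 5) (nat_lit 61) (nat_lit 5) (nat_lit 383) (nat_lit 343) (nat_lit 294))) (XT.nd (nat_lit 78) (nat_lit 152) (nat_lit 0) (XT.lf (nat_lit 0) (nat_lit 1766997328) (nat_lit 228) (nat_lit 1556538705) (nat_lit 76) (nat_lit 12285110775) (nat_lit 57) (nat_lit 5) (nat_lit 60) (nat_lit 5) (nat_lit 58) (nat_lit 5) (nat_lit 384) (nat_lit 343) (nat_lit 293)) (XT.lf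 (nat_lit 0) (nat_lit 5942984976) (nat_lit 228) (nat_lit 7889304622) (nat_lit 76) (nat_lit 2258673196) (nat_lit 55) (nat_lit 5) (nat_lit 58) (nat_lit 5) (nat_lit 56) (nat_lit 5) (nat_lit 385) (nat_lit 343) (nat_lit 292))))))) (XT.nd (nat_lit 1014) (nat_lit 988) (nat_lit 0) (XT.nd (nat_lit 468) (nat_lit 608) (nat_lit 0) (XT.nd (nat_lit 234) (nat_lit 228) (nat_lit 0) (XT.nd (nat_lit 78) (nat_lit 228) (nat_lit 0) (XT.lf (nat_lit 0) (nat_lit 1839918609) (nat_lit 152) (nat_lit 8555771929) (nat_lit 228) (nat_lit 6198318803) (nat_lit 53) (nat_lit 5) (nat_lit 55) (nat_lit 5) (nat_lit 56) (nat_lit 5) (nat_lit 386) (nat_lit 343) (nat_lit 291)) (XT.nd (nat_lit 78) (nat_lit 228) (nat_lit 0) (XT.lf (nat_lit 0) (nat_lit 12260845562) (nat_lit 152) (nat_lit 2902642302) (nat_lit 228) (nat_lit 1954107708) (nat_lit 53) (nat_lit 5) (nat_lit 55) (nat_lit 5) (nat_lit 56) (nat_lit 5) (nat_lit 387) (nat_lit 343)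 (nat_lit 290)) (XT.lf (nat_lit 0) (nat_lit 2518967243) (nat_lit 228) (nat_lit 12102837321) (nat_lit 76) (nat_lit 3038775228) (nat_lit 50) (nat_lit 5) (nat_lit 53) (nat_lit 5) (nat_lit 51) (nat_lit 5) (nat_lit 388) (nat_lit 343) (nat_lit 289)))) (XT.nd (nat_lit 78) (nat_lit 228) (nat_lit 0) (XT.lf (nat_lit 0) (nat_lit 7241820528) (nat_lit 228) (nat_lit 1713171607) (nat_lit 76) (nat_lit 9269538381) (nat_lit 50) (nat_lit 5) (nat_lit 53) (nat_lit 5) (nat_lit 51) (nat_lit 5) (nat_lit 389) (nat_lit 343) (nat_lit 288)) (XT.nd (nat_lit 78) (nat_lit 76) (nat_lit 0) (XT.lf (nat_lit 0) (nat_lit 9433942771) (nat_lit 152) (nat_lit 2876650968) (nat_lit 228) (nat_lit 6500604550) (nat_lit 48) (nat_lit 5) (nat_lit 50) (nat_lit 5) (nat_lit 51) (nat_lit 5) (nat_lit 390) (nat_lit 343) (nat_lit 287)) (XT.lf (nat_lit 0) (nat_lit 1707192815) (nat_lit 76) (nat_lit 15999369099) (nat_lit 152) (nat_lit 1716957698)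 (nat_lit 47) (nat_lit 5) (nat_lit 48) (nat_lit 5) (nat_lit 49) (nat_lit 4) (nat_lit 391) (nat_lit 343) (nat_lit 286))))) (XT.nd (nat_lit 234) (nat_lit 380) (nat_lit 0) (XT.nd (nat_lit 78) (nat_lit 152) (nat_lit 0) (XT.lf (nat_lit 0) (nat_lit 3371689330) (nat_lit 152) (nat_lit 6553043343) (nat_lit 76) (nat_lit 10130569547) (nat_lit 46) (nat_lit 5) (nat_lit 48) (nat_lit 5) (nat_lit 47) (nat_lit 5) (nat_lit 392) (nat_lit 343) (nat_lit 285)) (XT.nd (nat_lit 78) (nat_lit 0) (nat_lit 0) (XT.lf (nat_lit 0) (nat_lit 5246687128) (nat_lit 152) (nat_lit 3457111635) (nat_lit 228) (nat_lit 12011138189) (nat_lit 44) (nat_lit 5) (nat_lit 46) (nat_lit 5) (nat_lit 47) (nat_lit 5) (nat_lit 393) (nat_lit 343) (nat_lit 284)) (XT.lf (nat_lit 0) (nat_lit 14432502983) (nat_lit 228) (nat_lit 3653791861) (nat_lit 76) (nat_lit 3314765673) (nat_lit 44) (nat_lit 5) (nat_lit 47) (nat_lit 5) (nat_lit 45) (nat_lit 4) (nat_lit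 394) (nat_lit 343) (nat_lit 283)))) (XT.nd (nat_lit 156) (nat_lit 228) (nat_lit 0) (XT.nd (nat_lit 78) (nat_lit 76) (nat_lit 0) (XT.lf (nat_lit 0) (nat_lit 8921371127) (nat_lit 76) (nat_lit 11689032524) (nat_lit 152) (nat_lit 1502954797) (nat_lit 43) (nat_lit 5) (nat_lit 44) (nat_lit 5) (nat_lit 45) (nat_lit 4) (nat_lit 395) (nat_lit 343) (nat_lit 282)) (XT.lf (nat_lit 0) (nat_lit 4130182253) (nat_lit 152) (nat_lit 732215428) (nat_lit 76) (nat_lit 17994081009) (nat_lit 42) (nat_lit 5) (nat_lit 44) (nat_lit 5) (nat_lit 43) (nat_lit 5) (nat_lit 396) (nat_lit 343) (nat_lit 281))) (XT.nd (nat_lit 78) (nat_lit 76) (nat_lit 0) (XT.lf (nat_lit 0) (nat_lit 10200135156) (nat_lit 228) (nat_lit 10991090225) (nat_lit 76) (nat_lit 2434019627) (nat_lit 40) (nat_lit 5) (nat_lit 43) (nat_lit 5) (nat_lit 41) (nat_lit 4) (nat_lit 397) (nat_lit 343) (nat_lit 280)) (XT.lf (nat_lit 0) (nat_lit 2196335881) (nat_lit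 76) (nat_lit 14472621440) (nat_lit 152) (nat_lit 7758728880) (nat_lit 39) (nat_lit 5) (nat_lit 40) (nat_lit 5) (nat_lit 41) (nat_lit 4) (nat_lit 398) (nat_lit 343) (nat_lit 279)))))) (XT.nd (nat_lit 546) (nat_lit 456) (nat_lit 0) (XT.nd (nat_lit 234) (nat_lit 304) (nat_lit 0) (XT.nd (nat_lit 78) (nat_lit 228) (nat_lit 0) (XT.lf (nat_lit 0) (nat_lit 16369149494) (nat_lit 76) (nat_lit 7247595808) (nat_lit 152) (nat_lit 1645732814) (nat_lit 39) (nat_lit 5) (nat_lit 40) (nat_lit 5) (nat_lit 41) (nat_lit 4) (nat_lit 399) (nat_lit 343) (nat_lit 278)) (XT.nd (nat_lit 78) (nat_lit 0) (nat_lit 0) (XT.lf (nat_lit 0) (nat_lit 4678332403) (nat_lit 228) (nat_lit 20992265777) (nat_lit 76) (nat_lit 461780841) (nat_lit 36) (nat_lit 5) (nat_lit 39) (nat_lit 5) (nat_lit 37) (nat_lit 4) (nat_lit 400) (nat_lit 343) (nat_lit 277)) (XT.lf (nat_lit 0) (nat_lit 11505757909) (nat_lit 228) (nat_lit 7056643204) (nat_lit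 76) (nat_lit 8469905904) (nat_lit 36) (nat_lit 5) (nat_lit 39) (nat_lit 5) (nat_lit 37) (nat_lit 4) (nat_lit 401) (nat_lit 343) (nat_lit 276)))) (XT.nd (nat_lit 156) (nat_lit 228) (nat_lit 0) (XT.nd (nat_lit 78) (nat_lit 0) (nat_lit 0) (XT.lf (nat_lit 0) (nat_lit 7773001238) (nat_lit 76) (nat_lit 10994882748) (nat_lit 152) (nat_lit 9204684991) (nat_lit 35) (nat_lit 5) (nat_lit 36) (nat_lit 5) (nat_lit 37) (nat_lit 4) (nat_lit 402) (nat_lit 343) (nat_lit 275)) (XT.lf (nat_lit 0) (nat_lit 23538406134) (nat_lit 76) (nat_lit 2946731816) (nat_lit 152) (nat_lit 2470108844) (nat_lit 35) (nat_lit 5) (nat_lit 36) (nat_lit 5) (nat_lit 37) (nat_lit 4) (nat_lit 403) (nat_lit 343) (nat_lit 274))) (XT.nd (nat_lit 78) (nat_lit 0) (nat_lit 0) (XT.lf (nat_lit 0) (nat_lit 4677746832) (nat_lit 228) (nat_lit 19752023735) (nat_lit 76) (nat_lit 5542508648) (nat_lit 32) (nat_lit 5) (nat_lit 35) (nat_lit 5) (nat_lit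 33) (nat_lit 4) (nat_lit 404) (nat_lit 343) (nat_lit 273)) (XT.lf (nat_lit 0) (nat_lit 12215084989) (nat_lit 228) (nat_lit 4347961975) (nat_lit 76) (nat_lit 14469339850) (nat_lit 32) (nat_lit 5) (nat_lit 35) (nat_lit 5) (nat_lit 33) (nat_lit 4) (nat_lit 405) (nat_lit 343) (nat_lit 272))))) (XT.nd (nat_lit 234) (nat_lit 228) (nat_lit 0) (XT.nd (nat_lit 78) (nat_lit 152) (nat_lit 0) (XT.lf (nat_lit 0) (nat_lit 12168781874) (nat_lit 76) (nat_lit 8125310086) (nat_lit 152) (nat_lit 11843170895) (nat_lit 31) (nat_lit 5) (nat_lit 32) (nat_lit 5) (nat_lit 33) (nat_lit 4) (nat_lit 406) (nat_lit 343) (nat_lit 271)) (XT.nd (nat_lit 78) (nat_lit 152) (nat_lit 0) (XT.lf (nat_lit 0) (nat_lit 28838310348) (nat_lit 152) (nat_lit 3691200748) (nat_lit 0) (nat_lit 764811555) (nat_lit 31) (nat_lit 5) (nat_lit 33) (nat_lit 4) (nat_lit 31) (nat_lit 4) (nat_lit 407) (nat_lit 343) (nat_lit 270)) (XT.lf (nat_lit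 0) (nat_lit 3522757706) (nat_lit 152) (nat_lit 20890908613) (nat_lit 76) (nat_lit 10076600826) (nat_lit 29) (nat_lit 5) (nat_lit 31) (nat_lit 5) (nat_lit 30) (nat_lit 4) (nat_lit 408) (nat_lit 343) (nat_lit 269)))) (XT.nd (nat_lit 156) (nat_lit 152) (nat_lit 0) (XT.nd (nat_lit 78) (nat_lit 76) (nat_lit 0) (XT.lf (nat_lit 0) (nat_lit 11790458927) (nat_lit 152) (nat_lit 3979324079) (nat_lit 76) (nat_lit 19970588789) (nat_lit 29) (nat_lit 5) (nat_lit 31) (nat_lit 5) (nat_lit 30) (nat_lit 4) (nat_lit 409) (nat_lit 343) (nat_lit 268)) (XT.lf (nat_lit 0) (nat_lit 14189159898) (nat_lit 76) (nat_lit 6481257748) (nat_lit 152) (nat_lit 16372622880) (nat_lit 28) (nat_lit 5) (nat_lit 29) (nat_lit 5) (nat_lit 30) (nat_lit 4) (nat_lit 410) (nat_lit 343) (nat_lit 267))) (XT.nd (nat_lit 78) (nat_lit 152) (nat_lit 0) (XT.lf (nat_lit 0) (nat_lit 30091401765) (nat_lit 152) (nat_lit 5098371548) (nat_lit 0) (nat_lit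 3216220366) (nat_lit 28) (nat_lit 5) (nat_lit 30) (nat_lit 4) (nat_lit 28) (nat_lit 4) (nat_lit 411) (nat_lit 343) (nat_lit 266)) (XT.lf (nat_lit 0) (nat_lit 447454478) (nat_lit 152) (nat_lit 25988506693) (nat_lit 76) (nat_lit 13385731330) (nat_lit 26) (nat_lit 5) (nat_lit 28) (nat_lit 5) (nat_lit 27) (nat_lit 4) (nat_lit 412) (nat_lit 343) (nat_lit 265))))))))
noncomputable def xc106 : XT := (XT.nd (nat_lit 2106) (nat_lit 608) (nat_lit 0) (XT.nd (nat_lit 1014) (nat_lit 532) (nat_lit 0) (XT.nd (nat_lit 468) (nat_lit 228) (nat_lit 0) (XT.nd (nat_lit 234) (nat_lit 228) (nat_lit 0) (XT.nd (nat_lit 78) (nat_lit 76) (nat_lit 0) (XT.lf (nat_lit 0) (nat_lit 9434508484) (nat_lit 152) (nat_lit 7594195479) (nat_lit 76) (nat_lit 24269342590) (nat_lit 26) (nat_lit 5) (nat_lit 28) (nat_lit 5) (nat_lit 27) (nat_lit 4) (nat_lit 413) (nat_lit 343) (nat_lit 264)) (XT.nd (nat_lit 78) (nat_lit 0) (nat_lit 0)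 (XT.lf (nat_lit 0) (nat_lit 12067061070) (nat_lit 76) (nat_lit 6971846428) (nat_lit 152) (nat_lit 23800913134) (nat_lit 25) (nat_lit 5) (nat_lit 26) (nat_lit 5) (nat_lit 27) (nat_lit 4) (nat_lit 414) (nat_lit 343) (nat_lit 263)) (XT.lf (nat_lit 0) (nat_lit 29289941080) (nat_lit 152) (nat_lit 11574424040) (nat_lit 0) (nat_lit 3585999407) (nat_lit 25) (nat_lit 5) (nat_lit 27) (nat_lit 4) (nat_lit 25) (nat_lit 4) (nat_lit 415) (nat_lit 343) (nat_lit 262)))) (XT.nd (nat_lit 78) (nat_lit 152) (nat_lit 0) (XT.lf (nat_lit 0) (nat_lit 8711126994) (nat_lit 76) (nat_lit 31573343116) (nat_lit 76) (nat_lit 5845420077) (nat_lit 24) (nat_lit 4) (nat_lit 25) (nat_lit 5) (nat_lit 25) (nat_lit 4) (nat_lit 416) (nat_lit 343) (nat_lit 261)) (XT.nd (nat_lit 78) (nat_lit 76) (nat_lit 0) (XT.lf (nat_lit 0) (nat_lit 3989292931) (nat_lit 152) (nat_lit 17572711924) (nat_lit 76) (nat_lit 26319321055) (nat_lit 23)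 (nat_lit 5) (nat_lit 25) (nat_lit 5) (nat_lit 24) (nat_lit 4) (nat_lit 417) (nat_lit 343) (nat_lit 260)) (XT.lf (nat_lit 0) (nat_lit 3237965553) (nat_lit 76) (nat_lit 10913488004) (nat_lit 152) (nat_lit 35562482232) (nat_lit 22) (nat_lit 5) (nat_lit 23) (nat_lit 5) (nat_lit 24) (nat_lit 4) (nat_lit 418) (nat_lit 343) (nat_lit 259))))) (XT.nd (nat_lit 234) (nat_lit 152) (nat_lit 0) (XT.nd (nat_lit 78) (nat_lit 76) (nat_lit 0) (XT.lf (nat_lit 0) (nat_lit 25110049695) (nat_lit 152) (nat_lit 25968643029) (nat_lit 0) (nat_lit 545068509) (nat_lit 22) (nat_lit 5) (nat_lit 24) (nat_lit 4) (nat_lit 22) (nat_lit 4) (nat_lit 419) (nat_lit 343) (nat_lit 258)) (XT.nd (nat_lit 78) (nat_lit 76) (nat_lit 0) (XT.lf (nat_lit 0) (nat_lit 36778028761) (nat_lit 152) (nat_lit 4648720362) (nat_lit 0) (nat_lit 12194257547) (nat_lit 22) (nat_lit 5) (nat_lit 24) (nat_lit 4) (nat_lit 22) (nat_lit 4) (nat_lit 420) (nat_lit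 343) (nat_lit 257)) (XT.lf (nat_lit 0) (nat_lit 18290355210) (nat_lit 76) (nat_lit 31007990018) (nat_lit 76) (nat_lit 6406323540) (nat_lit 21) (nat_lit 4) (nat_lit 22) (nat_lit 5) (nat_lit 22) (nat_lit 4) (nat_lit 421) (nat_lit 343) (nat_lit 256)))) (XT.nd (nat_lit 156) (nat_lit 0) (nat_lit 0) (XT.nd (nat_lit 78) (nat_lit 76) (nat_lit 0) (XT.lf (nat_lit 0) (nat_lit 4469886995) (nat_lit 152) (nat_lit 15455441246) (nat_lit 76) (nat_lit 37960462263) (nat_lit 20) (nat_lit 5) (nat_lit 22) (nat_lit 5) (nat_lit 21) (nat_lit 4) (nat_lit 422) (nat_lit 343) (nat_lit 255)) (XT.lf (nat_lit 0) (nat_lit 7712458224) (nat_lit 76) (nat_lit 8066760967) (nat_lit 152) (nat_lit 44386268903) (nat_lit 19) (nat_lit 5) (nat_lit 20) (nat_lit 5) (nat_lit 21) (nat_lit 4) (nat_lit 423) (nat_lit 343) (nat_lit 254))) (XT.nd (nat_lit 78) (nat_lit 0) (nat_lit 0) (XT.lf (nat_lit 0) (nat_lit 27972755520) (nat_lit 152) (nat_lit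 30074294890) (nat_lit 0) (nat_lit 4496184357) (nat_lit 19) (nat_lit 5) (nat_lit 21) (nat_lit 4) (nat_lit 19) (nat_lit 4) (nat_lit 424) (nat_lit 343) (nat_lit 253)) (XT.lf (nat_lit 0) (nat_lit 40893204210) (nat_lit 152) (nat_lit 6738192174) (nat_lit 0) (nat_lit 17402611639) (nat_lit 19) (nat_lit 5) (nat_lit 21) (nat_lit 4) (nat_lit 19) (nat_lit 4) (nat_lit 425) (nat_lit 343) (nat_lit 252)))))) (XT.nd (nat_lit 546) (nat_lit 228) (nat_lit 0) (XT.nd (nat_lit 234) (nat_lit 152) (nat_lit 0) (XT.nd (nat_lit 78) (nat_lit 76) (nat_lit 0) (XT.lf (nat_lit 0) (nat_lit 18323243393) (nat_lit 76) (nat_lit 36408217277) (nat_lit 76) (nat_lit 12904270984) (nat_lit 18) (nat_lit 4) (nat_lit 19) (nat_lit 5) (nat_lit 19) (nat_lit 4) (nat_lit 426) (nat_lit 343) (nat_lit 251)) (XT.nd (nat_lit 78) (nat_lit 76) (nat_lit 0) (XT.lf (nat_lit 0) (nat_lit 44844205544) (nat_lit 76) (nat_lit 24517498633) (nat_lit 76) (nat_lit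 1000834511) (nat_lit 18) (nat_lit 4) (nat_lit 19) (nat_lit 5) (nat_lit 19) (nat_lit 4) (nat_lit 427) (nat_lit 343) (nat_lit 250)) (XT.lf (nat_lit 0) (nat_lit 11116181417) (nat_lit 152) (nat_lit 740604434) (nat_lit 76) (nat_lit 61360605033) (nat_lit 17) (nat_lit 5) (nat_lit 19) (nat_lit 5) (nat_lit 18) (nat_lit 4) (nat_lit 428) (nat_lit 343) (nat_lit 249)))) (XT.nd (nat_lit 156) (nat_lit 76) (nat_lit 0) (XT.nd (nat_lit 78) (nat_lit 0) (nat_lit 0) (XT.lf (nat_lit 0) (nat_lit 24228655426) (nat_lit 152) (nat_lit 50155037754) (nat_lit 0) (nat_lit 1809310866) (nat_lit 16) (nat_lit 5) (nat_lit 18) (nat_lit 4) (nat_lit 16) (nat_lit 4) (nat_lit 429) (nat_lit 343) (nat_lit 248)) (XT.lf (nat_lit 0) (nat_lit 38190966251) (nat_lit 152) (nat_lit 25355563026) (nat_lit 0) (nat_lit 15761158700) (nat_lit 16) (nat_lit 5) (nat_lit 18) (nat_lit 4) (nat_lit 16) (nat_lit 4) (nat_lit 430) (nat_lit 343) (nat_lit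 247))) (XT.nd (nat_lit 78) (nat_lit 0) (nat_lit 0) (XT.lf (nat_lit 0) (nat_lit 681516507) (nat_lit 76) (nat_lit 52168222652) (nat_lit 76) (nat_lit 29728450348) (nat_lit 15) (nat_lit 4) (nat_lit 16) (nat_lit 5) (nat_lit 16) (nat_lit 4) (nat_lit 431) (nat_lit 343) (nat_lit 246)) (XT.lf (nat_lit 0) (nat_lit 28876946225) (nat_lit 76) (nat_lit 39781833343) (nat_lit 76) (nat_lit 17332570799) (nat_lit 15) (nat_lit 4) (nat_lit 16) (nat_lit 5) (nat_lit 16) (nat_lit 4) (nat_lit 432) (nat_lit 343) (nat_lit 245))))) (XT.nd (nat_lit 234) (nat_lit 76) (nat_lit 0) (XT.nd (nat_lit 78) (nat_lit 152) (nat_lit 0) (XT.lf (nat_lit 0) (nat_lit 58459488679) (nat_lit 76) (nat_lit 26787278677) (nat_lit 76) (nat_lit 4328977809) (nat_lit 15) (nat_lit 4) (nat_lit 16) (nat_lit 5) (nat_lit 16) (nat_lit 4) (nat_lit 433) (nat_lit 343) (nat_lit 244)) (XT.nd (nat_lit 78) (nat_lit 76) (nat_lit 0) (XT.lf (nat_lit 0) (nat_lit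 9015206129) (nat_lit 152) (nat_lit 3985736231) (nat_lit 76) (nat_lit 80331695486) (nat_lit 14) (nat_lit 5) (nat_lit 16) (nat_lit 5) (nat_lit 15) (nat_lit 4) (nat_lit 434) (nat_lit 343) (nat_lit 243)) (XT.lf (nat_lit 0) (nat_lit 23294692274) (nat_lit 152) (nat_lit 72068627730) (nat_lit 0) (nat_lit 1889828633) (nat_lit 13) (nat_lit 5) (nat_lit 15) (nat_lit 4) (nat_lit 13) (nat_lit 4) (nat_lit 435) (nat_lit 343) (nat_lit 242)))) (XT.nd (nat_lit 156) (nat_lit 76) (nat_lit 0) (XT.nd (nat_lit 78) (nat_lit 0) (nat_lit 0) (XT.lf (nat_lit 0) (nat_lit 38559308782) (nat_lit 152) (nat_lit 45649809641) (nat_lit 0) (nat_lit 17147009288) (nat_lit 13) (nat_lit 5) (nat_lit 15) (nat_lit 4) (nat_lit 13) (nat_lit 4) (nat_lit 436) (nat_lit 343) (nat_lit 241)) (XT.lf (nat_lit 0) (nat_lit 54577078893) (nat_lit 152) (nat_lit 17929983591) (nat_lit 0) (nat_lit 33157697635) (nat_lit 13) (nat_lit 5) (nat_lit 15) (nat_lit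 4) (nat_lit 13) (nat_lit 4) (nat_lit 437) (nat_lit 343) (nat_lit 240))) (XT.nd (nat_lit 78) (nat_lit 0) (nat_lit 0) (XT.lf (nat_lit 0) (nat_lit 11525745852) (nat_lit 76) (nat_lit 60040343495) (nat_lit 76) (nat_lit 38614217701) (nat_lit 12) (nat_lit 4) (nat_lit 13) (nat_lit 5) (nat_lit 13) (nat_lit 4) (nat_lit 438) (nat_lit 343) (nat_lit 239)) (XT.lf (nat_lit 0) (nat_lit 43058072745) (nat_lit 76) (nat_lit 46640698582) (nat_lit 76) (nat_lit 25208149419) (nat_lit 12) (nat_lit 4) (nat_lit 13) (nat_lit 5) (nat_lit 13) (nat_lit 4) (nat_lit 439) (nat_lit 343) (nat_lit 238))))))) (XT.nd (nat_lit 1014) (nat_lit 228) (nat_lit 0) (XT.nd (nat_lit 468) (nat_lit 228) (nat_lit 0) (XT.nd (nat_lit 234) (nat_lit 0) (nat_lit 0) (XT.nd (nat_lit 78) (nat_lit 152) (nat_lit 0) (XT.lf (nat_lit 0) (nat_lit 76149227825) (nat_lit 76) (nat_lit 32579876774) (nat_lit 76) (nat_lit 11141210118) (nat_lit 12) (nat_lit 4)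 (nat_lit 13) (nat_lit 5) (nat_lit 13) (nat_lit 4) (nat_lit 440) (nat_lit 343) (nat_lit 237)) (XT.nd (nat_lit 78) (nat_lit 76) (nat_lit 0) (XT.lf (nat_lit 0) (nat_lit 3504227333) (nat_lit 152) (nat_lit 14260826807) (nat_lit 76) (nat_lit 107314426437) (nat_lit 11) (nat_lit 5) (nat_lit 13) (nat_lit 5) (nat_lit 12) (nat_lit 4) (nat_lit 441) (nat_lit 343) (nat_lit 236)) (XT.lf (nat_lit 0) (nat_lit 17018079725) (nat_lit 76) (nat_lit 1746857500) (nat_lit 152) (nat_lit 111762164838) (nat_lit 10) (nat_lit 5) (nat_lit 11) (nat_lit 5) (nat_lit 12) (nat_lit 4) (nat_lit 442) (nat_lit 343) (nat_lit 235)))) (XT.nd (nat_lit 78) (nat_lit 0) (nat_lit 0) (XT.lf (nat_lit 0) (nat_lit 35261211613) (nat_lit 152) (nat_lit 86134699230) (nat_lit 0) (nat_lit 14827567699) (nat_lit 10) (nat_lit 5) (nat_lit 12) (nat_lit 4) (nat_lit 10) (nat_lit 4) (nat_lit 443) (nat_lit 343) (nat_lit 234)) (XT.nd (nat_lit 78) (nat_lit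 0) (nat_lit 0) (XT.lf (nat_lit 0) (nat_lit 52603065969) (nat_lit 152) (nat_lit 57435941075) (nat_lit 0) (nat_lit 32164628839) (nat_lit 10) (nat_lit 5) (nat_lit 12) (nat_lit 4) (nat_lit 10) (nat_lit 4) (nat_lit 444) (nat_lit 343) (nat_lit 233)) (XT.lf (nat_lit 0) (nat_lit 70804517084) (nat_lit 152) (nat_lit 27317144155) (nat_lit 0) (nat_lit 50361514986) (nat_lit 10) (nat_lit 5) (nat_lit 12) (nat_lit 4) (nat_lit 10) (nat_lit 4) (nat_lit 445) (nat_lit 343) (nat_lit 232))))) (XT.nd (nat_lit 234) (nat_lit 152) (nat_lit 0) (XT.nd (nat_lit 78) (nat_lit 0) (nat_lit 0) (XT.lf (nat_lit 0) (nat_lit 4435362241) (nat_lit 76) (nat_lit 85542787938) (nat_lit 76) (nat_lit 65095438252) (nat_lit 9) (nat_lit 4) (nat_lit 10) (nat_lit 5) (nat_lit 10) (nat_lit 4) (nat_lit 446) (nat_lit 343) (nat_lit 231)) (XT.nd (nat_lit 78) (nat_lit 0) (nat_lit 0) (XT.lf (nat_lit 0) (nat_lit 38709922726) (nat_lit 76) (nat_lit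 71856154235) (nat_lit 76) (nat_lit 51404663988) (nat_lit 9) (nat_lit 4) (nat_lit 10) (nat_lit 5) (nat_lit 10) (nat_lit 4) (nat_lit 447) (nat_lit 343) (nat_lit 230)) (XT.lf (nat_lit 0) (nat_lit 74684915240) (nat_lit 76) (nat_lit 57491801962) (nat_lit 76) (nat_lit 37036368324) (nat_lit 9) (nat_lit 4) (nat_lit 10) (nat_lit 5) (nat_lit 10) (nat_lit 4) (nat_lit 448) (nat_lit 343) (nat_lit 229)))) (XT.nd (nat_lit 156) (nat_lit 152) (nat_lit 0) (XT.nd (nat_lit 78) (nat_lit 0) (nat_lit 0) (XT.lf (nat_lit 0) (nat_lit 112445994529) (nat_lit 76) (nat_lit 42415530280) (nat_lit 76) (nat_lit 21956341032) (nat_lit 9) (nat_lit 4) (nat_lit 10) (nat_lit 5) (nat_lit 10) (nat_lit 4) (nat_lit 449) (nat_lit 343) (nat_lit 228)) (XT.lf (nat_lit 0) (nat_lit 152083067922) (nat_lit 76) (nat_lit 26591443304) (nat_lit 76) (nat_lit 6128677284) (nat_lit 9) (nat_lit 4) (nat_lit 10) (nat_lit 5) (nat_lit 10) (nat_lit 4) (nat_lit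 450) (nat_lit 343) (nat_lit 227))) (XT.nd (nat_lit 78) (nat_lit 0) (nat_lit 0) (XT.lf (nat_lit 0) (nat_lit 349954497) (nat_lit 76) (nat_lit 9804253779) (nat_lit 152) (nat_lit 183025400274) (nat_lit 7) (nat_lit 5) (nat_lit 8) (nat_lit 5) (nat_lit 9) (nat_lit 4) (nat_lit 451) (nat_lit 343) (nat_lit 226)) (XT.lf (nat_lit 0) (nat_lit 27724760352) (nat_lit 152) (nat_lit 165981013886) (nat_lit 0) (nat_lit 8230077774) (nat_lit 7) (nat_lit 5) (nat_lit 9) (nat_lit 4) (nat_lit 7) (nat_lit 4) (nat_lit 452) (nat_lit 343) (nat_lit 225)))))) (XT.nd (nat_lit 546) (nat_lit 152) (nat_lit 0) (XT.nd (nat_lit 234) (nat_lit 76) (nat_lit 0) (XT.nd (nat_lit 78) (nat_lit 0) (nat_lit 0) (XT.lf (nat_lit 0) (nat_lit 46328987257) (nat_lit 152) (nat_lit 137961801186) (nat_lit 0) (nat_lit 26831362059) (nat_lit 7) (nat_lit 5) (nat_lit 9) (nat_lit 4) (nat_lit 7) (nat_lit 4) (nat_lit 453) (nat_lit 343) (nat_lit 224)) (XT.nd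 (nat_lit 78) (nat_lit 0) (nat_lit 0) (XT.lf (nat_lit 0) (nat_lit 65858112891) (nat_lit 152) (nat_lit 108552231663) (nat_lit 0) (nat_lit 46357685199) (nat_lit 7) (nat_lit 5) (nat_lit 9) (nat_lit 4) (nat_lit 7) (nat_lit 4) (nat_lit 454) (nat_lit 343) (nat_lit 223)) (XT.lf (nat_lit 0) (nat_lit 86358635172) (nat_lit 152) (nat_lit 77682282534) (nat_lit 0) (nat_lit 66855538438) (nat_lit 7) (nat_lit 5) (nat_lit 9) (nat_lit 4) (nat_lit 7) (nat_lit 4) (nat_lit 455) (nat_lit 343) (nat_lit 222)))) (XT.nd (nat_lit 156) (nat_lit 76) (nat_lit 0) (XT.nd (nat_lit 78) (nat_lit 0) (nat_lit 0) (XT.lf (nat_lit 0) (nat_lit 107879364868) (nat_lit 152) (nat_lit 45278453918) (nat_lit 0) (nat_lit 88373726189) (nat_lit 7) (nat_lit 5) (nat_lit 9) (nat_lit 4) (nat_lit 7) (nat_lit 4) (nat_lit 456) (nat_lit 343) (nat_lit 221)) (XT.lf (nat_lit 0) (nat_lit 130471541812) (nat_lit 152) (nat_lit 11263593844) (nat_lit 0) (nat_lit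 110963482232) (nat_lit 7) (nat_lit 5) (nat_lit 9) (nat_lit 4) (nat_lit 7) (nat_lit 4) (nat_lit 457) (nat_lit 343) (nat_lit 220))) (XT.nd (nat_lit 78) (nat_lit 0) (nat_lit 0) (XT.lf (nat_lit 0) (nat_lit 25251490857) (nat_lit 76) (nat_lit 129331712582) (nat_lit 76) (nat_lit 109821347384) (nat_lit 6) (nat_lit 4) (nat_lit 7) (nat_lit 5) (nat_lit 7) (nat_lit 4) (nat_lit 458) (nat_lit 343) (nat_lit 219)) (XT.lf (nat_lit 0) (nat_lit 63974793261) (nat_lit 76) (nat_lit 116112112719) (nat_lit 76) (nat_lit 96599551693) (nat_lit 6) (nat_lit 4) (nat_lit 7) (nat_lit 5) (nat_lit 7) (nat_lit 4) (nat_lit 459) (nat_lit 343) (nat_lit 218))))) (XT.nd (nat_lit 234) (nat_lit 152) (nat_lit 0) (XT.nd (nat_lit 78) (nat_lit 0) (nat_lit 0) (XT.lf (nat_lit 0) (nat_lit 104626086427) (nat_lit 76) (nat_lit 102235615242) (nat_lit 76) (nat_lit 82720962951) (nat_lit 6) (nat_lit 4) (nat_lit 7) (nat_lit 5) (nat_lit 7) (nat_lit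 4) (nat_lit 460) (nat_lit 343) (nat_lit 217)) (XT.nd (nat_lit 78) (nat_lit 0) (nat_lit 0) (XT.lf (nat_lit 0) (nat_lit 147302159147) (nat_lit 76) (nat_lit 87669180869) (nat_lit 76) (nat_lit 68152536898) (nat_lit 6) (nat_lit 4) (nat_lit 7) (nat_lit 5) (nat_lit 7) (nat_lit 4) (nat_lit 461) (nat_lit 343) (nat_lit 216)) (XT.lf (nat_lit 0) (nat_lit 192104621119) (nat_lit 76) (nat_lit 72378127616) (nat_lit 76) (nat_lit 52859586806) (nat_lit 6) (nat_lit 4) (nat_lit 7) (nat_lit 5) (nat_lit 7) (nat_lit 4) (nat_lit 462) (nat_lit 343) (nat_lit 215)))) (XT.nd (nat_lit 156) (nat_lit 152) (nat_lit 0) (XT.nd (nat_lit 78) (nat_lit 0) (nat_lit 0) (XT.lf (nat_lit 0) (nat_lit 239140144872) (nat_lit 76) (nat_lit 56326048211) (nat_lit 76) (nat_lit 36805700889) (nat_lit 6) (nat_lit 4) (nat_lit 7) (nat_lit 5) (nat_lit 7) (nat_lit 4) (nat_lit 463) (nat_lit 343) (nat_lit 214)) (XT.lf (nat_lit 0) (nat_lit 288520719746)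 (nat_lit 76) (nat_lit 39474723419) (nat_lit 76) (nat_lit 19952655609) (nat_lit 6) (nat_lit 4) (nat_lit 7) (nat_lit 5) (nat_lit 7) (nat_lit 4) (nat_lit 464) (nat_lit 343) (nat_lit 213))) (XT.nd (nat_lit 78) (nat_lit 152) (nat_lit 0) (XT.lf (nat_lit 0) (nat_lit 340363918541) (nat_lit 76) (nat_lit 21784031038) (nat_lit 76) (nat_lit 2260324667) (nat_lit 6) (nat_lit 4) (nat_lit 7) (nat_lit 5) (nat_lit 7) (nat_lit 4) (nat_lit 465) (nat_lit 343) (nat_lit 212)) (XT.lf (nat_lit 0) (nat_lit 13271643486) (nat_lit 76) (nat_lit 2726849387) (nat_lit 152) (nat_lit 365670023122) (nat_lit 4) (nat_lit 5) (nat_lit 5) (nat_lit 5) (nat_lit 6) (nat_lit 4) (nat_lit 466) (nat_lit 343) (nat_lit 211))))))))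
noncomputable def xc107 : XT := (XT.nd (nat_lit 44382) (nat_lit 0) (nat_lit 4332) (XT.nd (nat_lit 1014) (nat_lit 0) (nat_lit 0) (XT.nd (nat_lit 468) (nat_lit 76) (nat_lit 0) (XT.nd (nat_lit 234) (nat_lit 0) (nat_lit 0) (XT.nd (nat_lit 78) (nat_lit 0) (nat_lit 0) (XT.lf (nat_lit 0) (nat_lit 35774908077) (nat_lit 152) (nat_lit 346802977872) (nat_lit 0) (nat_lit 17178000336) (nat_lit 4) (nat_lit 5) (nat_lit 6) (nat_lit 4) (nat_lit 4) (nat_lit 4) (nat_lit 467) (nat_lit 343) (nat_lit 210)) (XT.nd (nat_lit 78) (nat_lit 0) (nat_lit 0) (XT.lf (nat_lit 0) (nat_lit 56581895259) (nat_lit 152) (nat_lit 324180002896) (nat_lit 0) (nat_lit 37983639471) (nat_lit 4) (nat_lit 5) (nat_lit 6) (nat_lit 4) (nat_lit 4) (nat_lit 4) (nat_lit 468) (nat_lit 343) (nat_lit 209)) (XT.lf (nat_lit 0) (nat_lit 78426421106) (nat_lit 152) (nat_lit 300431509595) (nat_lit 0) (nat_lit 59826881463) (nat_lit 4) (nat_lit 5) (nat_lit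 6) (nat_lit 4) (nat_lit 4) (nat_lit 4) (nat_lit 469) (nat_lit 343) (nat_lit 208)))) (XT.nd (nat_lit 78) (nat_lit 0) (nat_lit 0) (XT.lf (nat_lit 0) (nat_lit 101360496393) (nat_lit 152) (nat_lit 275500953937) (nat_lit 0) (nat_lit 82759734031) (nat_lit 4) (nat_lit 5) (nat_lit 6) (nat_lit 4) (nat_lit 4) (nat_lit 4) (nat_lit 470) (nat_lit 343) (nat_lit 207)) (XT.nd (nat_lit 78) (nat_lit 0) (nat_lit 0) (XT.lf (nat_lit 0) (nat_lit 125438726061) (nat_lit 152) (nat_lit 249328977456) (nat_lit 0) (nat_lit 106836799205) (nat_lit 4) (nat_lit 5) (nat_lit 6) (nat_lit 4) (nat_lit 4) (nat_lit 4) (nat_lit 471) (nat_lit 343) (nat_lit 206)) (XT.lf (nat_lit 0) (nat_lit 150718439229) (nat_lit 152) (nat_lit 221853265923) (nat_lit 0) (nat_lit 132115403330) (nat_lit 4) (nat_lit 5) (nat_lit 6) (nat_lit 4) (nat_lit 4) (nat_lit 4) (nat_lit 472) (nat_lit 343) (nat_lit 205))))) (XT.nd (nat_lit 234) (nat_lit 76) (nat_lit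 0) (XT.nd (nat_lit 78) (nat_lit 0) (nat_lit 0) (XT.lf (nat_lit 0) (nat_lit 177259825689) (nat_lit 152) (nat_lit 193008400976) (nat_lit 0) (nat_lit 158655733560) (nat_lit 4) (nat_lit 5) (nat_lit 6) (nat_lit 4) (nat_lit 4) (nat_lit 4) (nat_lit 473) (nat_lit 343) (nat_lit 204)) (XT.nd (nat_lit 78) (nat_lit 0) (nat_lit 0) (XT.lf (nat_lit 0) (nat_lit 205126079219) (nat_lit 152) (nat_lit 162725704367) (nat_lit 0) (nat_lit 186520981156) (nat_lit 4) (nat_lit 5) (nat_lit 6) (nat_lit 4) (nat_lit 4) (nat_lit 4) (nat_lit 474) (nat_lit 343) (nat_lit 203)) (XT.lf (nat_lit 0) (nat_lit 234383548042) (nat_lit 152) (nat_lit 130933074435) (nat_lit 0) (nat_lit 215777491947) (nat_lit 4) (nat_lit 5) (nat_lit 6) (nat_lit 4) (nat_lit 4) (nat_lit 4) (nat_lit 475) (nat_lit 343) (nat_lit 202)))) (XT.nd (nat_lit 156) (nat_lit 76) (nat_lit 0) (XT.nd (nat_lit 78) (nat_lit 0) (nat_lit 0) (XT.lf (nat_lit 0) (nat_lit 265101892798)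 (nat_lit 152) (nat_lit 97554814444) (nat_lit 0) (nat_lit 246494924290) (nat_lit 4) (nat_lit 5) (nat_lit 6) (nat_lit 4) (nat_lit 4) (nat_lit 4) (nat_lit 476) (nat_lit 343) (nat_lit 201)) (XT.lf (nat_lit 0) (nat_lit 297354252402) (nat_lit 152) (nat_lit 62511452346) (nat_lit 0) (nat_lit 278746414931) (nat_lit 4) (nat_lit 5) (nat_lit 6) (nat_lit 4) (nat_lit 4) (nat_lit 4) (nat_lit 477) (nat_lit 343) (nat_lit 200))) (XT.nd (nat_lit 78) (nat_lit 76) (nat_lit 0) (XT.lf (nat_lit 0) (nat_lit 331217418188) (nat_lit 152) (nat_lit 25719551564) (nat_lit 0) (nat_lit 312608753133) (nat_lit 4) (nat_lit 5) (nat_lit 6) (nat_lit 4) (nat_lit 4) (nat_lit 4) (nat_lit 478) (nat_lit 343) (nat_lit 199)) (XT.lf (nat_lit 0) (nat_lit 13335300562) (nat_lit 76) (nat_lit 353644917591) (nat_lit 76) (nat_lit 335035464360) (nat_lit 3) (nat_lit 4) (nat_lit 4) (nat_lit 5) (nat_lit 4) (nat_lit 4) (nat_lit 479) (nat_lit 343)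 (nat_lit 198)))))) (XT.nd (nat_lit 42822) (nat_lit 0) (nat_lit 10640) (XT.nd (nat_lit 42510) (nat_lit 0) (nat_lit 12008) (XT.nd (nat_lit 78) (nat_lit 0) (nat_lit 0) (XT.lf (nat_lit 0) (nat_lit 55232419210) (nat_lit 76) (nat_lit 349732615506) (nat_lit 76) (nat_lit 331122411632) (nat_lit 3) (nat_lit 4) (nat_lit 4) (nat_lit 5) (nat_lit 4) (nat_lit 4) (nat_lit 480) (nat_lit 343) (nat_lit 197)) (XT.nd (nat_lit 78) (nat_lit 0) (nat_lit 0) (XT.lf (nat_lit 0) (nat_lit 99221154895) (nat_lit 76) (nat_lit 345626321544) (nat_lit 76) (nat_lit 327015402772) (nat_lit 3) (nat_lit 4) (nat_lit 4) (nat_lit 5) (nat_lit 4) (nat_lit 4) (nat_lit 481) (nat_lit 343) (nat_lit 196)) (XT.lf (nat_lit 0) (nat_lit 145406242702) (nat_lit 76) (nat_lit 341316258815) (nat_lit 76) (nat_lit 322704659186) (nat_lit 3) (nat_lit 4) (nat_lit 4) (nat_lit 5) (nat_lit 4) (nat_lit 4) (nat_lit 482) (nat_lit 343) (nat_lit 195)))) (XT.nd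 (nat_lit 156) (nat_lit 380) (nat_lit 0) (XT.nd (nat_lit 78) (nat_lit 0) (nat_lit 0) (XT.lf (nat_lit 0) (nat_lit 1169240397) (nat_lit 380) (nat_lit 1072046004) (nat_lit 380) (nat_lit 1072046004) (nat_lit 166) (nat_lit 3) (nat_lit 171) (nat_lit 3) (nat_lit 171) (nat_lit 5) (nat_lit 344) (nat_lit 344) (nat_lit 332)) (XT.lf (nat_lit 76) (nat_lit 1132496977) (nat_lit 0) (nat_lit 3529627658) (nat_lit 380) (nat_lit 2015032929) (nat_lit 167) (nat_lit 5) (nat_lit 166) (nat_lit 3) (nat_lit 171) (nat_lit 5) (nat_lit 345) (nat_lit 344) (nat_lit 331))) (XT.nd (nat_lit 78) (nat_lit 0) (nat_lit 0) (XT.lf (nat_lit 0) (nat_lit 249198619) (nat_lit 380) (nat_lit 2170493668) (nat_lit 456) (nat_lit 4315843078) (nat_lit 161) (nat_lit 5) (nat_lit 166) (nat_lit 3) (nat_lit 167) (nat_lit 5) (nat_lit 346) (nat_lit 344) (nat_lit 330)) (XT.lf (nat_lit 76) (nat_lit 1301885311) (nat_lit 0) (nat_lit 1136807574) (nat_lit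 456) (nat_lit 4362610205) (nat_lit 162) (nat_lit 5) (nat_lit 161) (nat_lit 5) (nat_lit 167) (nat_lit 5) (nat_lit 347) (nat_lit 344) (nat_lit 329))))) (XT.nd (nat_lit 234) (nat_lit 988) (nat_lit 0) (XT.nd (nat_lit 78) (nat_lit 456) (nat_lit 0) (XT.lf (nat_lit 0) (nat_lit 4644119410) (nat_lit 380) (nat_lit 1934776506) (nat_lit 456) (nat_lit 296246289) (nat_lit 162) (nat_lit 5) (nat_lit 167) (nat_lit 5) (nat_lit 168) (nat_lit 5) (nat_lit 348) (nat_lit 344) (nat_lit 328)) (XT.nd (nat_lit 78) (nat_lit 456) (nat_lit 0) (XT.lf (nat_lit 76) (nat_lit 1764400711) (nat_lit 0) (nat_lit 5113804210) (nat_lit 456) (nat_lit 78649809) (nat_lit 163) (nat_lit 5) (nat_lit 162) (nat_lit 5) (nat_lit 168) (nat_lit 5) (nat_lit 349) (nat_lit 344) (nat_lit 327)) (XT.lf (nat_lit 0) (nat_lit 2019757386) (nat_lit 456) (nat_lit 1444344347) (nat_lit 532) (nat_lit 3581528162) (nat_lit 156) (nat_lit 5) (nat_lit 162) (nat_lit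 5) (nat_lit 163) (nat_lit 5) (nat_lit 350) (nat_lit 344) (nat_lit 326)))) (XT.nd (nat_lit 156) (nat_lit 988) (nat_lit 0) (XT.nd (nat_lit 78) (nat_lit 0) (nat_lit 76) (XT.lf (nat_lit 76) (nat_lit 2489126556) (nat_lit 0) (nat_lit 1651061852) (nat_lit 532) (nat_lit 3002690722) (nat_lit 157) (nat_lit 5) (nat_lit 156) (nat_lit 5) (nat_lit 163) (nat_lit 5) (nat_lit 351) (nat_lit 344) (nat_lit 325)) (XT.lf (nat_lit 0) (nat_lit 6281323174) (nat_lit 456) (nat_lit 664195030) (nat_lit 76) (nat_lit 303821471) (nat_lit 157) (nat_lit 5) (nat_lit 163) (nat_lit 5) (nat_lit 158) (nat_lit 5) (nat_lit 352) (nat_lit 344) (nat_lit 324))) (XT.nd (nat_lit 78) (nat_lit 532) (nat_lit 0) (XT.lf (nat_lit 0) (nat_lit 1103964068) (nat_lit 532) (nat_lit 3851026514) (nat_lit 76) (nat_lit 2406647397) (nat_lit 150) (nat_lit 5) (nat_lit 157) (nat_lit 5) (nat_lit 151) (nat_lit 5) (nat_lit 353) (nat_lit 344) (nat_lit 323))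 (XT.lf (nat_lit 0) (nat_lit 349659037) (nat_lit 532) (nat_lit 2807690288) (nat_lit 608) (nat_lit 4325963213) (nat_lit 143) (nat_lit 5) (nat_lit 150) (nat_lit 5) (nat_lit 151) (nat_lit 5) (nat_lit 354) (nat_lit 344) (nat_lit 322))))))) (XT.nd (nat_lit 1092) (nat_lit 2280) (nat_lit 0) (XT.nd (nat_lit 546) (nat_lit 1444) (nat_lit 0) (XT.nd (nat_lit 234) (nat_lit 1900) (nat_lit 0) (XT.nd (nat_lit 78) (nat_lit 684) (nat_lit 0) (XT.lf (nat_lit 0) (nat_lit 4811720357) (nat_lit 532) (nat_lit 464136023) (nat_lit 608) (nat_lit 2337160068) (nat_lit 143) (nat_lit 5) (nat_lit 150) (nat_lit 5) (nat_lit 151) (nat_lit 5) (nat_lit 355) (nat_lit 344) (nat_lit 321)) (XT.nd (nat_lit 78) (nat_lit 76) (nat_lit 0) (XT.lf (nat_lit 0) (nat_lit 1686796987) (nat_lit 608) (nat_lit 5773430537) (nat_lit 684) (nat_lit 291046096) (nat_lit 135) (nat_lit 5) (nat_lit 143) (nat_lit 5) (nat_lit 144) (nat_lit 5) (nat_lit 356)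 (nat_lit 344) (nat_lit 320)) (XT.lf (nat_lit 0) (nat_lit 1757940634) (nat_lit 684) (nat_lit 1520482300) (nat_lit 76) (nat_lit 4618629002) (nat_lit 134) (nat_lit 5) (nat_lit 143) (nat_lit 5) (nat_lit 135) (nat_lit 5) (nat_lit 357) (nat_lit 344) (nat_lit 319)))) (XT.nd (nat_lit 156) (nat_lit 456) (nat_lit 0) (XT.nd (nat_lit 78) (nat_lit 760) (nat_lit 0) (XT.lf (nat_lit 0) (nat_lit 3269071400) (nat_lit 684) (nat_lit 590312938) (nat_lit 760) (nat_lit 4192562984) (nat_lit 125) (nat_lit 5) (nat_lit 134) (nat_lit 5) (nat_lit 135) (nat_lit 5) (nat_lit 358) (nat_lit 344) (nat_lit 318)) (XT.lf (nat_lit 0) (nat_lit 18126521) (nat_lit 760) (nat_lit 6021047034) (nat_lit 836) (nat_lit 2176803732) (nat_lit 115) (nat_lit 5) (nat_lit 125) (nat_lit 5) (nat_lit 126) (nat_lit 5) (nat_lit 359) (nat_lit 344) (nat_lit 317))) (XT.nd (nat_lit 78) (nat_lit 456) (nat_lit 0) (XT.lf (nat_lit 0) (nat_lit 5131828683) (nat_lit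 760) (nat_lit 3201502065) (nat_lit 836) (nat_lit 54660007) (nat_lit 115) (nat_lit 5) (nat_lit 125) (nat_lit 5) (nat_lit 126) (nat_lit 5) (nat_lit 360) (nat_lit 344) (nat_lit 316)) (XT.lf (nat_lit 0) (nat_lit 1876530852) (nat_lit 380) (nat_lit 174324649) (nat_lit 456) (nat_lit 6518757143) (nat_lit 109) (nat_lit 5) (nat_lit 114) (nat_lit 5) (nat_lit 115) (nat_lit 5) (nat_lit 361) (nat_lit 344) (nat_lit 315))))) (XT.nd (nat_lit 234) (nat_lit 684) (nat_lit 0) (XT.nd (nat_lit 78) (nat_lit 760) (nat_lit 0) (XT.lf (nat_lit 0) (nat_lit 4282945188) (nat_lit 456) (nat_lit 1512253985) (nat_lit 76) (nat_lit 2963958881) (nat_lit 109) (nat_lit 5) (nat_lit 115) (nat_lit 5) (nat_lit 110) (nat_lit 5) (nat_lit 362) (nat_lit 344) (nat_lit 314)) (XT.nd (nat_lit 78) (nat_lit 380) (nat_lit 0) (XT.lf (nat_lit 0) (nat_lit 3971000565) (nat_lit 380) (nat_lit 2644478339) (nat_lit 456) (nat_lit 2343301753) (nat_lit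 104) (nat_lit 5) (nat_lit 109) (nat_lit 5) (nat_lit 110) (nat_lit 5) (nat_lit 363) (nat_lit 344) (nat_lit 313)) (XT.lf (nat_lit 0) (nat_lit 537042294) (nat_lit 380) (nat_lit 8498644676) (nat_lit 456) (nat_lit 134184942) (nat_lit 99) (nat_lit 5) (nat_lit 104) (nat_lit 5) (nat_lit 105) (nat_lit 5) (nat_lit 364) (nat_lit 344) (nat_lit 312)))) (XT.nd (nat_lit 156) (nat_lit 304) (nat_lit 0) (XT.nd (nat_lit 78) (nat_lit 304) (nat_lit 0) (XT.lf (nat_lit 0) (nat_lit 2171942279) (nat_lit 456) (nat_lit 3039158600) (nat_lit 76) (nat_lit 4175922013) (nat_lit 98) (nat_lit 5) (nat_lit 104) (nat_lit 5) (nat_lit 99) (nat_lit 5) (nat_lit 365) (nat_lit 344) (nat_lit 311)) (XT.lf (nat_lit 0) (nat_lit 2842716355) (nat_lit 304) (nat_lit 1721288298) (nat_lit 380) (nat_lit 5052194339) (nat_lit 94) (nat_lit 5) (nat_lit 98) (nat_lit 5) (nat_lit 99) (nat_lit 5) (nat_lit 366) (nat_lit 344) (nat_lit 310))) (XT.nd (nat_lit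 78) (nat_lit 304) (nat_lit 0) (XT.lf (nat_lit 0) (nat_lit 7090955298) (nat_lit 380) (nat_lit 843420012) (nat_lit 76) (nat_lit 1921727159) (nat_lit 94) (nat_lit 5) (nat_lit 99) (nat_lit 5) (nat_lit 95) (nat_lit 5) (nat_lit 367) (nat_lit 344) (nat_lit 309)) (XT.lf (nat_lit 0) (nat_lit 5451133743) (nat_lit 304) (nat_lit 4342288719) (nat_lit 380) (nat_lit 312151475) (nat_lit 90) (nat_lit 5) (nat_lit 94) (nat_lit 5) (nat_lit 95) (nat_lit 5) (nat_lit 368) (nat_lit 344) (nat_lit 308)))))) (XT.nd (nat_lit 546) (nat_lit 1140) (nat_lit 0) (XT.nd (nat_lit 234) (nat_lit 532) (nat_lit 0) (XT.nd (nat_lit 78) (nat_lit 304) (nat_lit 0) (XT.lf (nat_lit 0) (nat_lit 1661367243) (nat_lit 228) (nat_lit 506783626) (nat_lit 304) (nat_lit 8198774354) (nat_lit 86) (nat_lit 5) (nat_lit 89) (nat_lit 5) (nat_lit 90) (nat_lit 5) (nat_lit 369) (nat_lit 344) (nat_lit 307)) (XT.nd (nat_lit 78) (nat_lit 304) (nat_lit 0)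 (XT.lf (nat_lit 0) (nat_lit 4835253514) (nat_lit 304) (nat_lit 2324919622) (nat_lit 76) (nat_lit 3477278308) (nat_lit 86) (nat_lit 5) (nat_lit 90) (nat_lit 5) (nat_lit 87) (nat_lit 5) (nat_lit 370) (nat_lit 344) (nat_lit 306)) (XT.lf (nat_lit 0) (nat_lit 4431419398) (nat_lit 304) (nat_lit 3222923158) (nat_lit 380) (nat_lit 3266255581) (nat_lit 82) (nat_lit 5) (nat_lit 86) (nat_lit 5) (nat_lit 87) (nat_lit 5) (nat_lit 371) (nat_lit 344) (nat_lit 305)))) (XT.nd (nat_lit 156) (nat_lit 228) (nat_lit 0) (XT.nd (nat_lit 78) (nat_lit 76) (nat_lit 0) (XT.lf (nat_lit 0) (nat_lit 307098777) (nat_lit 228) (nat_lit 10308799275) (nat_lit 304) (nat_lit 601953012) (nat_lit 79) (nat_lit 5) (nat_lit 82) (nat_lit 5) (nat_lit 83) (nat_lit 5) (nat_lit 372) (nat_lit 344) (nat_lit 304)) (XT.lf (nat_lit 0) (nat_lit 2232896182) (nat_lit 304) (nat_lit 4023766787) (nat_lit 76) (nat_lit 5266231779) (nat_lit 78) (nat_lit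 5) (nat_lit 82) (nat_lit 5) (nat_lit 79) (nat_lit 5) (nat_lit 373) (nat_lit 344) (nat_lit 303))) (XT.nd (nat_lit 78) (nat_lit 0) (nat_lit 0) (XT.lf (nat_lit 0) (nat_lit 3225842731) (nat_lit 228) (nat_lit 1959560451) (nat_lit 304) (nat_lit 6657507945) (nat_lit 75) (nat_lit 5) (nat_lit 78) (nat_lit 5) (nat_lit 79) (nat_lit 5) (nat_lit 374) (nat_lit 344) (nat_lit 302)) (XT.lf (nat_lit 0) (nat_lit 8341526388) (nat_lit 304) (nat_lit 1315082673) (nat_lit 76) (nat_lit 2519539878) (nat_lit 75) (nat_lit 5) (nat_lit 79) (nat_lit 5) (nat_lit 76) (nat_lit 5) (nat_lit 375) (nat_lit 344) (nat_lit 301))))) (XT.nd (nat_lit 234) (nat_lit 608) (nat_lit 0) (XT.nd (nat_lit 78) (nat_lit 304) (nat_lit 0) (XT.lf (nat_lit 0) (nat_lit 6453848327) (nat_lit 228) (nat_lit 5283902809) (nat_lit 304) (nat_lit 784201930) (nat_lit 72) (nat_lit 5) (nat_lit 75) (nat_lit 5) (nat_lit 76) (nat_lit 5) (nat_lit 376) (nat_lit 344)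 (nat_lit 300)) (XT.nd (nat_lit 78) (nat_lit 0) (nat_lit 0) (XT.lf (nat_lit 0) (nat_lit 1716667048) (nat_lit 228) (nat_lit 623973482) (nat_lit 304) (nat_lit 10542570335) (nat_lit 68) (nat_lit 5) (nat_lit 71) (nat_lit 5) (nat_lit 72) (nat_lit 5) (nat_lit 377) (nat_lit 344) (nat_lit 299)) (XT.lf (nat_lit 0) (nat_lit 5717252959) (nat_lit 304) (nat_lit 3311253581) (nat_lit 76) (nat_lit 4227304700) (nat_lit 68) (nat_lit 5) (nat_lit 72) (nat_lit 5) (nat_lit 69) (nat_lit 5) (nat_lit 378) (nat_lit 344) (nat_lit 298)))) (XT.nd (nat_lit 156) (nat_lit 456) (nat_lit 0) (XT.nd (nat_lit 78) (nat_lit 0) (nat_lit 0) (XT.lf (nat_lit 0) (nat_lit 5016642765) (nat_lit 152) (nat_lit 4287730816) (nat_lit 228) (nat_lit 4340599965) (nat_lit 66) (nat_lit 5) (nat_lit 68) (nat_lit 5) (nat_lit 69) (nat_lit 5) (nat_lit 379) (nat_lit 344) (nat_lit 297)) (XT.lf (nat_lit 0) (nat_lit 13092526390) (nat_lit 228) (nat_lit 257879001)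 (nat_lit 76) (nat_lit 702119807) (nat_lit 66) (nat_lit 5) (nat_lit 69) (nat_lit 5) (nat_lit 67) (nat_lit 5) (nat_lit 380) (nat_lit 344) (nat_lit 296))) (XT.nd (nat_lit 78) (nat_lit 152) (nat_lit 0) (XT.lf (nat_lit 0) (nat_lit 2671146159) (nat_lit 304) (nat_lit 5845045470) (nat_lit 76) (nat_lit 5954034969) (nat_lit 62) (nat_lit 5) (nat_lit 66) (nat_lit 5) (nat_lit 63) (nat_lit 5) (nat_lit 381) (nat_lit 344) (nat_lit 295)) (XT.lf (nat_lit 0) (nat_lit 3066849148) (nat_lit 152) (nat_lit 3393489863) (nat_lit 228) (nat_lit 8447262518) (nat_lit 60) (nat_lit 5) (nat_lit 62) (nat_lit 5) (nat_lit 63) (nat_lit 5) (nat_lit 382) (nat_lit 344) (nat_lit 294))))))))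
noncomputable def xc108 : XT := (XT.nd (nat_lit 2106) (nat_lit 1216) (nat_lit 0) (XT.nd (nat_lit 1014) (nat_lit 1140) (nat_lit 0) (XT.nd (nat_lit 468) (nat_lit 684) (nat_lit 0) (XT.nd (nat_lit 234) (nat_lit 152) (nat_lit 0) (XT.nd (nat_lit 78) (nat_lit 380) (nat_lit 0) (XT.lf (nat_lit 0) (nat_lit 10527673675) (nat_lit 228) (nat_lit 2836156923) (nat_lit 76) (nat_lit 1998592873) (nat_lit 60) (nat_lit 5) (nat_lit 63) (nat_lit 5) (nat_lit 61) (nat_lit 5) (nat_lit 383) (nat_lit 344) (nat_lit 293)) (XT.nd (nat_lit 78) (nat_lit 228) (nat_lit 0) (XT.lf (nat_lit 0) (nat_lit 6712245549) (nat_lit 152) (nat_lit 8205675469) (nat_lit 228) (nat_lit 916099980) (nat_lit 58) (nat_lit 5) (nat_lit 60) (nat_lit 5) (nat_lit 61) (nat_lit 5) (nat_lit 384) (nat_lit 344) (nat_lit 292)) (XT.lf (nat_lit 0) (nat_lit 406088499) (nat_lit 152) (nat_lit 2704572709) (nat_lit 228) (nat_lit 13215323504) (nat_lit 55) (nat_lit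 5) (nat_lit 57) (nat_lit 5) (nat_lit 58) (nat_lit 5) (nat_lit 385) (nat_lit 344) (nat_lit 291)))) (XT.nd (nat_lit 78) (nat_lit 152) (nat_lit 0) (XT.lf (nat_lit 0) (nat_lit 7472862921) (nat_lit 228) (nat_lit 6239754860) (nat_lit 76) (nat_lit 3120943636) (nat_lit 55) (nat_lit 5) (nat_lit 58) (nat_lit 5) (nat_lit 56) (nat_lit 5) (nat_lit 386) (nat_lit 344) (nat_lit 290)) (XT.nd (nat_lit 78) (nat_lit 0) (nat_lit 0) (XT.lf (nat_lit 0) (nat_lit 3942961550) (nat_lit 152) (nat_lit 8177938925) (nat_lit 228) (nat_lit 5242239889) (nat_lit 53) (nat_lit 5) (nat_lit 55) (nat_lit 5) (nat_lit 56) (nat_lit 5) (nat_lit 387) (nat_lit 344) (nat_lit 289)) (XT.lf (nat_lit 0) (nat_lit 14789170707) (nat_lit 152) (nat_lit 2280515750) (nat_lit 228) (nat_lit 846103709) (nat_lit 53) (nat_lit 5) (nat_lit 55) (nat_lit 5) (nat_lit 56) (nat_lit 5) (nat_lit 388) (nat_lit 344) (nat_lit 288))))) (XT.nd (nat_lit 234) (nat_lit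 304) (nat_lit 0) (XT.nd (nat_lit 78) (nat_lit 152) (nat_lit 0) (XT.lf (nat_lit 0) (nat_lit 3798669844) (nat_lit 228) (nat_lit 10740213148) (nat_lit 76) (nat_lit 3946780503) (nat_lit 50) (nat_lit 5) (nat_lit 53) (nat_lit 5) (nat_lit 51) (nat_lit 5) (nat_lit 389) (nat_lit 344) (nat_lit 287)) (XT.nd (nat_lit 78) (nat_lit 0) (nat_lit 0) (XT.lf (nat_lit 0) (nat_lit 77720238) (nat_lit 152) (nat_lit 8626218308) (nat_lit 228) (nat_lit 10376571838) (nat_lit 48) (nat_lit 5) (nat_lit 50) (nat_lit 5) (nat_lit 51) (nat_lit 5) (nat_lit 390) (nat_lit 344) (nat_lit 286)) (XT.lf (nat_lit 0) (nat_lit 11749475983) (nat_lit 152) (nat_lit 2251923997) (nat_lit 228) (nat_lit 5696360769) (nat_lit 48) (nat_lit 5) (nat_lit 50) (nat_lit 5) (nat_lit 51) (nat_lit 5) (nat_lit 391) (nat_lit 344) (nat_lit 285)))) (XT.nd (nat_lit 156) (nat_lit 152) (nat_lit 0) (XT.nd (nat_lit 78) (nat_lit 76) (nat_lit 0) (XT.lf (nat_lit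 0) (nat_lit 3647969935) (nat_lit 76) (nat_lit 16008389219) (nat_lit 152) (nat_lit 684890479) (nat_lit 47) (nat_lit 5) (nat_lit 48) (nat_lit 5) (nat_lit 49) (nat_lit 4) (nat_lit 392) (nat_lit 344) (nat_lit 284)) (XT.lf (nat_lit 0) (nat_lit 4570878406) (nat_lit 152) (nat_lit 5079352984) (nat_lit 76) (nat_lit 11356103895) (nat_lit 46) (nat_lit 5) (nat_lit 48) (nat_lit 5) (nat_lit 47) (nat_lit 5) (nat_lit 393) (nat_lit 344) (nat_lit 283))) (XT.nd (nat_lit 78) (nat_lit 0) (nat_lit 0) (XT.lf (nat_lit 0) (nat_lit 7281310099) (nat_lit 152) (nat_lit 2866877194) (nat_lit 228) (nat_lit 11551844372) (nat_lit 44) (nat_lit 5) (nat_lit 46) (nat_lit 5) (nat_lit 47) (nat_lit 5) (nat_lit 394) (nat_lit 344) (nat_lit 282)) (XT.lf (nat_lit 0) (nat_lit 16126616289) (nat_lit 228) (nat_lit 2111694049) (nat_lit 76) (nat_lit 4183995744) (nat_lit 44) (nat_lit 5) (nat_lit 47) (nat_lit 5) (nat_lit 45) (nat_lit 4) (nat_lit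 395) (nat_lit 344) (nat_lit 281)))))) (XT.nd (nat_lit 546) (nat_lit 532) (nat_lit 0) (XT.nd (nat_lit 234) (nat_lit 304) (nat_lit 0) (XT.nd (nat_lit 78) (nat_lit 228) (nat_lit 0) (XT.lf (nat_lit 0) (nat_lit 11064407936) (nat_lit 76) (nat_lit 11529189524) (nat_lit 152) (nat_lit 577620892) (nat_lit 43) (nat_lit 5) (nat_lit 44) (nat_lit 5) (nat_lit 45) (nat_lit 4) (nat_lit 396) (nat_lit 344) (nat_lit 280)) (XT.nd (nat_lit 78) (nat_lit 0) (nat_lit 0) (XT.lf (nat_lit 0) (nat_lit 907019269) (nat_lit 152) (nat_lit 4366176051) (nat_lit 228) (nat_lit 18679123979) (nat_lit 40) (nat_lit 5) (nat_lit 42) (nat_lit 5) (nat_lit 43) (nat_lit 5) (nat_lit 397) (nat_lit 344) (nat_lit 279)) (XT.lf (nat_lit 0) (nat_lit 11625047491) (nat_lit 228) (nat_lit 9886241684) (nat_lit 76) (nat_lit 3249322206) (nat_lit 40) (nat_lit 5) (nat_lit 43) (nat_lit 5) (nat_lit 41) (nat_lit 4) (nat_lit 398) (nat_lit 344) (nat_lit 278))))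 (XT.nd (nat_lit 156) (nat_lit 228) (nat_lit 0) (XT.nd (nat_lit 78) (nat_lit 0) (nat_lit 0) (XT.lf (nat_lit 0) (nat_lit 3933871807) (nat_lit 76) (nat_lit 14465285283) (nat_lit 152) (nat_lit 7204932399) (nat_lit 39) (nat_lit 5) (nat_lit 40) (nat_lit 5) (nat_lit 41) (nat_lit 4) (nat_lit 399) (nat_lit 344) (nat_lit 277)) (XT.lf (nat_lit 0) (nat_lit 18737815666) (nat_lit 76) (nat_lit 6913816332) (nat_lit 152) (nat_lit 831130955) (nat_lit 39) (nat_lit 5) (nat_lit 40) (nat_lit 5) (nat_lit 41) (nat_lit 4) (nat_lit 400) (nat_lit 344) (nat_lit 276))) (XT.nd (nat_lit 78) (nat_lit 0) (nat_lit 0) (XT.lf (nat_lit 0) (nat_lit 5774312833) (nat_lit 228) (nat_lit 20456591689) (nat_lit 76) (nat_lit 1164866362) (nat_lit 36) (nat_lit 5) (nat_lit 39) (nat_lit 5) (nat_lit 37) (nat_lit 4) (nat_lit 401) (nat_lit 344) (nat_lit 275)) (XT.lf (nat_lit 0) (nat_lit 12902058957) (nat_lit 228) (nat_lit 5899677864) (nat_lit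 76) (nat_lit 9541016893) (nat_lit 36) (nat_lit 5) (nat_lit 39) (nat_lit 5) (nat_lit 37) (nat_lit 4) (nat_lit 402) (nat_lit 344) (nat_lit 274))))) (XT.nd (nat_lit 234) (nat_lit 228) (nat_lit 0) (XT.nd (nat_lit 78) (nat_lit 228) (nat_lit 0) (XT.lf (nat_lit 0) (nat_lit 9647097229) (nat_lit 76) (nat_lit 10864290219) (nat_lit 152) (nat_lit 8819442137) (nat_lit 35) (nat_lit 5) (nat_lit 36) (nat_lit 5) (nat_lit 37) (nat_lit 4) (nat_lit 403) (nat_lit 344) (nat_lit 273)) (XT.nd (nat_lit 78) (nat_lit 228) (nat_lit 0) (XT.lf (nat_lit 0) (nat_lit 26130036849) (nat_lit 76) (nat_lit 2446128724) (nat_lit 152) (nat_lit 1788397997) (nat_lit 35) (nat_lit 5) (nat_lit 36) (nat_lit 5) (nat_lit 37) (nat_lit 4) (nat_lit 404) (nat_lit 344) (nat_lit 272)) (XT.lf (nat_lit 0) (nat_lit 5686284385) (nat_lit 228) (nat_lit 19294149429) (nat_lit 76) (nat_lit 6451629774) (nat_lit 32) (nat_lit 5) (nat_lit 35) (nat_lit 5)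 (nat_lit 33) (nat_lit 4) (nat_lit 405) (nat_lit 344) (nat_lit 271)))) (XT.nd (nat_lit 156) (nat_lit 152) (nat_lit 0) (XT.nd (nat_lit 78) (nat_lit 76) (nat_lit 0) (XT.lf (nat_lit 0) (nat_lit 13563601345) (nat_lit 228) (nat_lit 3188716747) (nat_lit 76) (nat_lit 15794707503) (nat_lit 32) (nat_lit 5) (nat_lit 35) (nat_lit 5) (nat_lit 33) (nat_lit 4) (nat_lit 406) (nat_lit 344) (nat_lit 270)) (XT.lf (nat_lit 0) (nat_lit 14131660370) (nat_lit 76) (nat_lit 7900913361) (nat_lit 152) (nat_lit 11675275357) (nat_lit 31) (nat_lit 5) (nat_lit 32) (nat_lit 5) (nat_lit 33) (nat_lit 4) (nat_lit 407) (nat_lit 344) (nat_lit 269))) (XT.nd (nat_lit 78) (nat_lit 152) (nat_lit 0) (XT.lf (nat_lit 0) (nat_lit 30978914987) (nat_lit 152) (nat_lit 2560646588) (nat_lit 0) (nat_lit 1384458894) (nat_lit 31) (nat_lit 5) (nat_lit 33) (nat_lit 4) (nat_lit 31) (nat_lit 4) (nat_lit 408) (nat_lit 344) (nat_lit 268)) (XT.lf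 (nat_lit 0) (nat_lit 4395832224) (nat_lit 152) (nat_lit 20618431431) (nat_lit 76) (nat_lit 11165593953) (nat_lit 29) (nat_lit 5) (nat_lit 31) (nat_lit 5) (nat_lit 30) (nat_lit 4) (nat_lit 409) (nat_lit 344) (nat_lit 267))))))) (XT.nd (nat_lit 1014) (nat_lit 608) (nat_lit 0) (XT.nd (nat_lit 468) (nat_lit 304) (nat_lit 0) (XT.nd (nat_lit 234) (nat_lit 228) (nat_lit 0) (XT.nd (nat_lit 78) (nat_lit 76) (nat_lit 0) (XT.lf (nat_lit 0) (nat_lit 13043731048) (nat_lit 152) (nat_lit 2923983032) (nat_lit 76) (nat_lit 21526416405) (nat_lit 29) (nat_lit 5) (nat_lit 31) (nat_lit 5) (nat_lit 30) (nat_lit 4) (nat_lit 410) (nat_lit 344) (nat_lit 266)) (XT.nd (nat_lit 78) (nat_lit 0) (nat_lit 0) (XT.lf (nat_lit 0) (nat_lit 16132694382) (nat_lit 76) (nat_lit 6222653611) (nat_lit 152) (nat_lit 16507205097) (nat_lit 28) (nat_lit 5) (nat_lit 29) (nat_lit 5) (nat_lit 30) (nat_lit 4) (nat_lit 411) (nat_lit 344)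 (nat_lit 265)) (XT.lf (nat_lit 0) (nat_lit 32225025690) (nat_lit 152) (nat_lit 4155557852) (nat_lit 0) (nat_lit 3914191423) (nat_lit 28) (nat_lit 5) (nat_lit 30) (nat_lit 4) (nat_lit 28) (nat_lit 4) (nat_lit 412) (nat_lit 344) (nat_lit 264)))) (XT.nd (nat_lit 78) (nat_lit 76) (nat_lit 0) (XT.lf (nat_lit 0) (nat_lit 1097507919) (nat_lit 152) (nat_lit 26088704460) (nat_lit 76) (nat_lit 14595121114) (nat_lit 26) (nat_lit 5) (nat_lit 28) (nat_lit 5) (nat_lit 27) (nat_lit 4) (nat_lit 413) (nat_lit 344) (nat_lit 263)) (XT.nd (nat_lit 78) (nat_lit 76) (nat_lit 0) (XT.lf (nat_lit 0) (nat_lit 10504025067) (nat_lit 152) (nat_lit 6831783761) (nat_lit 76) (nat_lit 25997193736) (nat_lit 26) (nat_lit 5) (nat_lit 28) (nat_lit 5) (nat_lit 27) (nat_lit 4) (nat_lit 414) (nat_lit 344) (nat_lit 262)) (XT.lf (nat_lit 0) (nat_lit 13794114301) (nat_lit 76) (nat_lit 6783607593) (nat_lit 152) (nat_lit 24374692261)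 (nat_lit 25) (nat_lit 5) (nat_lit 26) (nat_lit 5) (nat_lit 27) (nat_lit 4) (nat_lit 415) (nat_lit 344) (nat_lit 261))))) (XT.nd (nat_lit 234) (nat_lit 152) (nat_lit 0) (XT.nd (nat_lit 78) (nat_lit 152) (nat_lit 0) (XT.lf (nat_lit 0) (nat_lit 31321343335) (nat_lit 152) (nat_lit 11062939293) (nat_lit 0) (nat_lit 4260203383) (nat_lit 25) (nat_lit 5) (nat_lit 27) (nat_lit 4) (nat_lit 25) (nat_lit 4) (nat_lit 416) (nat_lit 344) (nat_lit 260)) (XT.nd (nat_lit 78) (nat_lit 76) (nat_lit 0) (XT.lf (nat_lit 0) (nat_lit 10219305326) (nat_lit 76) (nat_lit 32636044641) (nat_lit 76) (nat_lit 5553152883) (nat_lit 24) (nat_lit 4) (nat_lit 25) (nat_lit 5) (nat_lit 25) (nat_lit 4) (nat_lit 417) (nat_lit 344) (nat_lit 259)) (XT.lf (nat_lit 0) (nat_lit 4727642650) (nat_lit 152) (nat_lit 17411940329) (nat_lit 76) (nat_lit 28108820501) (nat_lit 23) (nat_lit 5) (nat_lit 25) (nat_lit 5) (nat_lit 24) (nat_lit 4)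 (nat_lit 418) (nat_lit 344) (nat_lit 258)))) (XT.nd (nat_lit 156) (nat_lit 76) (nat_lit 0) (XT.nd (nat_lit 78) (nat_lit 0) (nat_lit 0) (XT.lf (nat_lit 0) (nat_lit 4422506389) (nat_lit 76) (nat_lit 10965710040) (nat_lit 152) (nat_lit 36784914285) (nat_lit 22) (nat_lit 5) (nat_lit 23) (nat_lit 5) (nat_lit 24) (nat_lit 4) (nat_lit 419) (nat_lit 344) (nat_lit 257)) (XT.lf (nat_lit 0) (nat_lit 26876880150) (nat_lit 152) (nat_lit 26275227325) (nat_lit 0) (nat_lit 1027235084) (nat_lit 22) (nat_lit 5) (nat_lit 24) (nat_lit 4) (nat_lit 22) (nat_lit 4) (nat_lit 420) (nat_lit 344) (nat_lit 256))) (XT.nd (nat_lit 78) (nat_lit 76) (nat_lit 0) (XT.lf (nat_lit 0) (nat_lit 39103909218) (nat_lit 152) (nat_lit 3936539374) (nat_lit 0) (nat_lit 13237221043) (nat_lit 22) (nat_lit 5) (nat_lit 24) (nat_lit 4) (nat_lit 22) (nat_lit 4) (nat_lit 421) (nat_lit 344) (nat_lit 255)) (XT.lf (nat_lit 0) (nat_lit 20134254218)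 (nat_lit 76) (nat_lit 32107308059) (nat_lit 76) (nat_lit 6224388353) (nat_lit 21) (nat_lit 4) (nat_lit 22) (nat_lit 5) (nat_lit 22) (nat_lit 4) (nat_lit 422) (nat_lit 344) (nat_lit 254)))))) (XT.nd (nat_lit 546) (nat_lit 304) (nat_lit 0) (XT.nd (nat_lit 234) (nat_lit 152) (nat_lit 0) (XT.nd (nat_lit 78) (nat_lit 76) (nat_lit 0) (XT.lf (nat_lit 0) (nat_lit 5156406282) (nat_lit 152) (nat_lit 15327745430) (nat_lit 76) (nat_lit 40272743885) (nat_lit 20) (nat_lit 5) (nat_lit 22) (nat_lit 5) (nat_lit 21) (nat_lit 4) (nat_lit 423) (nat_lit 344) (nat_lit 253)) (XT.nd (nat_lit 78) (nat_lit 0) (nat_lit 0) (XT.lf (nat_lit 0) (nat_lit 8984025339) (nat_lit 76) (nat_lit 8038963014) (nat_lit 152) (nat_lit 46128002130) (nat_lit 19) (nat_lit 5) (nat_lit 20) (nat_lit 5) (nat_lit 21) (nat_lit 4) (nat_lit 424) (nat_lit 344) (nat_lit 252)) (XT.lf (nat_lit 0) (nat_lit 29810954671) (nat_lit 152) (nat_lit 30718976323)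 (nat_lit 0) (nat_lit 5118457342) (nat_lit 19) (nat_lit 5) (nat_lit 21) (nat_lit 4) (nat_lit 19) (nat_lit 4) (nat_lit 425) (nat_lit 344) (nat_lit 251)))) (XT.nd (nat_lit 156) (nat_lit 76) (nat_lit 0) (XT.nd (nat_lit 78) (nat_lit 76) (nat_lit 0) (XT.lf (nat_lit 0) (nat_lit 43356494301) (nat_lit 152) (nat_lit 6256974818) (nat_lit 0) (nat_lit 18651279143) (nat_lit 19) (nat_lit 5) (nat_lit 21) (nat_lit 4) (nat_lit 19) (nat_lit 4) (nat_lit 426) (nat_lit 344) (nat_lit 250)) (XT.lf (nat_lit 0) (nat_lit 20044336930) (nat_lit 76) (nat_lit 37834959132) (nat_lit 76) (nat_lit 13117631754) (nat_lit 18) (nat_lit 4) (nat_lit 19) (nat_lit 5) (nat_lit 19) (nat_lit 4) (nat_lit 427) (nat_lit 344) (nat_lit 249))) (XT.nd (nat_lit 78) (nat_lit 76) (nat_lit 0) (XT.lf (nat_lit 0) (nat_lit 47853017123) (nat_lit 76) (nat_lit 25368450700) (nat_lit 76) (nat_lit 639587875) (nat_lit 18) (nat_lit 4) (nat_lit 19) (nat_lit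 5) (nat_lit 19) (nat_lit 4) (nat_lit 428) (nat_lit 344) (nat_lit 248)) (XT.lf (nat_lit 0) (nat_lit 12051156741) (nat_lit 152) (nat_lit 34977644) (nat_lit 76) (nat_lit 64773144146) (nat_lit 17) (nat_lit 5) (nat_lit 19) (nat_lit 5) (nat_lit 18) (nat_lit 4) (nat_lit 429) (nat_lit 344) (nat_lit 247))))) (XT.nd (nat_lit 234) (nat_lit 152) (nat_lit 0) (XT.nd (nat_lit 78) (nat_lit 76) (nat_lit 0) (XT.lf (nat_lit 0) (nat_lit 25818198738) (nat_lit 152) (nat_lit 51919054457) (nat_lit 0) (nat_lit 2246473066) (nat_lit 16) (nat_lit 5) (nat_lit 18) (nat_lit 4) (nat_lit 16) (nat_lit 4) (nat_lit 430) (nat_lit 344) (nat_lit 246)) (XT.nd (nat_lit 78) (nat_lit 76) (nat_lit 0) (XT.lf (nat_lit 0) (nat_lit 40460619840) (nat_lit 152) (nat_lit 25915021953) (nat_lit 0) (nat_lit 16879403928) (nat_lit 16) (nat_lit 5) (nat_lit 18) (nat_lit 4) (nat_lit 16) (nat_lit 4) (nat_lit 431) (nat_lit 344) (nat_lit 245)) (XT.lf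 (nat_lit 0) (nat_lit 1412487054) (nat_lit 76) (nat_lit 54433576949) (nat_lit 76) (nat_lit 30843322713) (nat_lit 15) (nat_lit 4) (nat_lit 16) (nat_lit 5) (nat_lit 16) (nat_lit 4) (nat_lit 432) (nat_lit 344) (nat_lit 244)))) (XT.nd (nat_lit 156) (nat_lit 152) (nat_lit 0) (XT.nd (nat_lit 78) (nat_lit 0) (nat_lit 0) (XT.lf (nat_lit 0) (nat_lit 30984502794) (nat_lit 76) (nat_lit 41444204215) (nat_lit 76) (nat_lit 17845342050) (nat_lit 15) (nat_lit 4) (nat_lit 16) (nat_lit 5) (nat_lit 16) (nat_lit 4) (nat_lit 433) (nat_lit 344) (nat_lit 243)) (XT.lf (nat_lit 0) (nat_lit 62014567168) (nat_lit 76) (nat_lit 27815479949) (nat_lit 76) (nat_lit 4208419758) (nat_lit 15) (nat_lit 4) (nat_lit 16) (nat_lit 5) (nat_lit 16) (nat_lit 4) (nat_lit 434) (nat_lit 344) (nat_lit 242))) (XT.nd (nat_lit 78) (nat_lit 76) (nat_lit 0) (XT.lf (nat_lit 0) (nat_lit 9776652735) (nat_lit 152) (nat_lit 3572729727) (nat_lit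 76) (nat_lit 84634336199) (nat_lit 14) (nat_lit 5) (nat_lit 16) (nat_lit 5) (nat_lit 15) (nat_lit 4) (nat_lit 435) (nat_lit 344) (nat_lit 241)) (XT.lf (nat_lit 0) (nat_lit 24769362913) (nat_lit 152) (nat_lit 75058999563) (nat_lit 0) (nat_lit 2271930829) (nat_lit 13) (nat_lit 5) (nat_lit 15) (nat_lit 4) (nat_lit 13) (nat_lit 4) (nat_lit 436) (nat_lit 344) (nat_lit 240))))))))
noncomputable def xc109 : XT := (XT.nd (nat_lit 2106) (nat_lit 228) (nat_lit 0) (XT.nd (nat_lit 1014) (nat_lit 228) (nat_lit 0) (XT.nd (nat_lit 468) (nat_lit 152) (nat_lit 0) (XT.nd (nat_lit 234) (nat_lit 76) (nat_lit 0) (XT.nd (nat_lit 78) (nat_lit 76) (nat_lit 0) (XT.lf (nat_lit 0) (nat_lit 40782451387) (nat_lit 152) (nat_lit 47348433882) (nat_lit 0) (nat_lit 18278274767) (nat_lit 13) (nat_lit 5) (nat_lit 15) (nat_lit 4) (nat_lit 13) (nat_lit 4) (nat_lit 437) (nat_lit 344) (nat_lit 239)) (XT.nd (nat_lit 78) (nat_lit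 76) (nat_lit 0) (XT.lf (nat_lit 0) (nat_lit 57587053948) (nat_lit 152) (nat_lit 18270419683) (nat_lit 0) (nat_lit 35076453959) (nat_lit 13) (nat_lit 5) (nat_lit 15) (nat_lit 4) (nat_lit 13) (nat_lit 4) (nat_lit 438) (nat_lit 344) (nat_lit 238)) (XT.lf (nat_lit 0) (nat_lit 12649127472) (nat_lit 76) (nat_lit 62771542410) (nat_lit 76) (nat_lit 40254824927) (nat_lit 12) (nat_lit 4) (nat_lit 13) (nat_lit 5) (nat_lit 13) (nat_lit 4) (nat_lit 439) (nat_lit 344) (nat_lit 237)))) (XT.nd (nat_lit 78) (nat_lit 76) (nat_lit 0) (XT.lf (nat_lit 0) (nat_lit 45732018599) (nat_lit 76) (nat_lit 48714811358) (nat_lit 76) (nat_lit 26192267691) (nat_lit 12) (nat_lit 4) (nat_lit 13) (nat_lit 5) (nat_lit 13) (nat_lit 4) (nat_lit 440) (nat_lit 344) (nat_lit 236)) (XT.nd (nat_lit 78) (nat_lit 76) (nat_lit 0) (XT.lf (nat_lit 0) (nat_lit 80452919899) (nat_lit 76) (nat_lit 33963230467) (nat_lit 76) (nat_lit 11435138053)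 (nat_lit 12) (nat_lit 4) (nat_lit 13) (nat_lit 5) (nat_lit 13) (nat_lit 4) (nat_lit 441) (nat_lit 344) (nat_lit 235)) (XT.lf (nat_lit 0) (nat_lit 3922020305) (nat_lit 152) (nat_lit 14493235309) (nat_lit 76) (nat_lit 112906058567) (nat_lit 11) (nat_lit 5) (nat_lit 13) (nat_lit 5) (nat_lit 12) (nat_lit 4) (nat_lit 442) (nat_lit 344) (nat_lit 234))))) (XT.nd (nat_lit 234) (nat_lit 76) (nat_lit 0) (XT.nd (nat_lit 78) (nat_lit 0) (nat_lit 0) (XT.lf (nat_lit 0) (nat_lit 18341864407) (nat_lit 76) (nat_lit 1599732773) (nat_lit 152) (nat_lit 117099928527) (nat_lit 10) (nat_lit 5) (nat_lit 11) (nat_lit 5) (nat_lit 12) (nat_lit 4) (nat_lit 443) (nat_lit 344) (nat_lit 233)) (XT.nd (nat_lit 78) (nat_lit 0) (nat_lit 0) (XT.lf (nat_lit 0) (nat_lit 37254818659) (nat_lit 152) (nat_lit 89983194708) (nat_lit 0) (nat_lit 15785101489) (nat_lit 10) (nat_lit 5) (nat_lit 12) (nat_lit 4) (nat_lit 10) (nat_lit 4)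 (nat_lit 444) (nat_lit 344) (nat_lit 232)) (XT.lf (nat_lit 0) (nat_lit 55452787331) (nat_lit 152) (nat_lit 59871319573) (nat_lit 0) (nat_lit 33978722571) (nat_lit 10) (nat_lit 5) (nat_lit 12) (nat_lit 4) (nat_lit 10) (nat_lit 4) (nat_lit 445) (nat_lit 344) (nat_lit 231)))) (XT.nd (nat_lit 156) (nat_lit 0) (nat_lit 0) (XT.nd (nat_lit 78) (nat_lit 76) (nat_lit 0) (XT.lf (nat_lit 0) (nat_lit 74553855379) (nat_lit 152) (nat_lit 28267364643) (nat_lit 0) (nat_lit 53075650059) (nat_lit 10) (nat_lit 5) (nat_lit 12) (nat_lit 4) (nat_lit 10) (nat_lit 4) (nat_lit 446) (nat_lit 344) (nat_lit 230)) (XT.lf (nat_lit 0) (nat_lit 5066063255) (nat_lit 76) (nat_lit 89616533728) (nat_lit 76) (nat_lit 68134385017) (nat_lit 9) (nat_lit 4) (nat_lit 10) (nat_lit 5) (nat_lit 10) (nat_lit 4) (nat_lit 447) (nat_lit 344) (nat_lit 229))) (XT.nd (nat_lit 78) (nat_lit 0) (nat_lit 0) (XT.lf (nat_lit 0) (nat_lit 41034878769)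 (nat_lit 76) (nat_lit 75255253750) (nat_lit 76) (nat_lit 53769349428) (nat_lit 9) (nat_lit 4) (nat_lit 10) (nat_lit 5) (nat_lit 10) (nat_lit 4) (nat_lit 448) (nat_lit 344) (nat_lit 228)) (XT.lf (nat_lit 0) (nat_lit 78790075199) (nat_lit 76) (nat_lit 60181908063) (nat_lit 76) (nat_lit 38692426969) (nat_lit 9) (nat_lit 4) (nat_lit 10) (nat_lit 5) (nat_lit 10) (nat_lit 4) (nat_lit 449) (nat_lit 344) (nat_lit 227)))))) (XT.nd (nat_lit 546) (nat_lit 76) (nat_lit 0) (XT.nd (nat_lit 234) (nat_lit 0) (nat_lit 0) (XT.nd (nat_lit 78) (nat_lit 152) (nat_lit 0) (XT.lf (nat_lit 0) (nat_lit 118421545871) (nat_lit 76) (nat_lit 44360607749) (nat_lit 76) (nat_lit 22867720206) (nat_lit 9) (nat_lit 4) (nat_lit 10) (nat_lit 5) (nat_lit 10) (nat_lit 4) (nat_lit 450) (nat_lit 344) (nat_lit 226)) (XT.nd (nat_lit 78) (nat_lit 152) (nat_lit 0) (XT.lf (nat_lit 0) (nat_lit 160023651429) (nat_lit 76) (nat_lit 27753683045)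 (nat_lit 76) (nat_lit 6257551265) (nat_lit 9) (nat_lit 4) (nat_lit 10) (nat_lit 5) (nat_lit 10) (nat_lit 4) (nat_lit 451) (nat_lit 344) (nat_lit 225)) (XT.lf (nat_lit 0) (nat_lit 704054256) (nat_lit 76) (nat_lit 10126811981) (nat_lit 152) (nat_lit 191999268730) (nat_lit 7) (nat_lit 5) (nat_lit 8) (nat_lit 5) (nat_lit 9) (nat_lit 4) (nat_lit 452) (nat_lit 344) (nat_lit 224)))) (XT.nd (nat_lit 156) (nat_lit 0) (nat_lit 0) (XT.nd (nat_lit 78) (nat_lit 0) (nat_lit 0) (XT.lf (nat_lit 0) (nat_lit 29274393706) (nat_lit 152) (nat_lit 173953932687) (nat_lit 0) (nat_lit 8796142135) (nat_lit 7) (nat_lit 5) (nat_lit 9) (nat_lit 4) (nat_lit 7) (nat_lit 4) (nat_lit 453) (nat_lit 344) (nat_lit 223)) (XT.lf (nat_lit 0) (nat_lit 48801051226) (nat_lit 152) (nat_lit 144549289442) (nat_lit 0) (nat_lit 28320130613) (nat_lit 7) (nat_lit 5) (nat_lit 9) (nat_lit 4) (nat_lit 7) (nat_lit 4) (nat_lit 454) (nat_lit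 344) (nat_lit 222))) (XT.nd (nat_lit 78) (nat_lit 0) (nat_lit 0) (XT.lf (nat_lit 0) (nat_lit 69299222922) (nat_lit 152) (nat_lit 113684032006) (nat_lit 0) (nat_lit 48815760364) (nat_lit 7) (nat_lit 5) (nat_lit 9) (nat_lit 4) (nat_lit 7) (nat_lit 4) (nat_lit 455) (nat_lit 344) (nat_lit 221)) (XT.lf (nat_lit 0) (nat_lit 90817713966) (nat_lit 152) (nat_lit 81284671669) (nat_lit 0) (nat_lit 70331830507) (nat_lit 7) (nat_lit 5) (nat_lit 9) (nat_lit 4) (nat_lit 7) (nat_lit 4) (nat_lit 456) (nat_lit 344) (nat_lit 220))))) (XT.nd (nat_lit 234) (nat_lit 0) (nat_lit 0) (XT.nd (nat_lit 78) (nat_lit 76) (nat_lit 0) (XT.lf (nat_lit 0) (nat_lit 113407758859) (nat_lit 152) (nat_lit 47274067098) (nat_lit 0) (nat_lit 92919569782) (nat_lit 7) (nat_lit 5) (nat_lit 9) (nat_lit 4) (nat_lit 7) (nat_lit 4) (nat_lit 457) (nat_lit 344) (nat_lit 219)) (XT.nd (nat_lit 78) (nat_lit 76) (nat_lit 0) (XT.lf (nat_lit 0)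 (nat_lit 137123143424) (nat_lit 152) (nat_lit 11571240664) (nat_lit 0) (nat_lit 116632758519) (nat_lit 7) (nat_lit 5) (nat_lit 9) (nat_lit 4) (nat_lit 7) (nat_lit 4) (nat_lit 458) (nat_lit 344) (nat_lit 218)) (XT.lf (nat_lit 0) (nat_lit 26765476774) (nat_lit 76) (nat_lit 135672740189) (nat_lit 76) (nat_lit 115180264019) (nat_lit 6) (nat_lit 4) (nat_lit 7) (nat_lit 5) (nat_lit 7) (nat_lit 4) (nat_lit 459) (nat_lit 344) (nat_lit 217)))) (XT.nd (nat_lit 156) (nat_lit 0) (nat_lit 0) (XT.nd (nat_lit 78) (nat_lit 0) (nat_lit 0) (XT.lf (nat_lit 0) (nat_lit 67412972328) (nat_lit 76) (nat_lit 121798139286) (nat_lit 76) (nat_lit 101303671437) (nat_lit 6) (nat_lit 4) (nat_lit 7) (nat_lit 5) (nat_lit 7) (nat_lit 4) (nat_lit 460) (nat_lit 344) (nat_lit 216)) (XT.lf (nat_lit 0) (nat_lit 110085428276) (nat_lit 76) (nat_lit 107233511176) (nat_lit 76) (nat_lit 86737146488) (nat_lit 6) (nat_lit 4) (nat_lit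 7) (nat_lit 5) (nat_lit 7) (nat_lit 4) (nat_lit 461) (nat_lit 344) (nat_lit 215))) (XT.nd (nat_lit 78) (nat_lit 0) (nat_lit 0) (XT.lf (nat_lit 0) (nat_lit 154884445702) (nat_lit 76) (nat_lit 91944178172) (nat_lit 76) (nat_lit 71446006971) (nat_lit 6) (nat_lit 4) (nat_lit 7) (nat_lit 5) (nat_lit 7) (nat_lit 4) (nat_lit 462) (nat_lit 344) (nat_lit 214)) (XT.lf (nat_lit 0) (nat_lit 201916688935) (nat_lit 76) (nat_lit 75893737101) (nat_lit 76) (nat_lit 55393845411) (nat_lit 6) (nat_lit 4) (nat_lit 7) (nat_lit 5) (nat_lit 7) (nat_lit 4) (nat_lit 463) (nat_lit 344) (nat_lit 213))))))) (XT.nd (nat_lit 1014) (nat_lit 76) (nat_lit 0) (XT.nd (nat_lit 468) (nat_lit 0) (nat_lit 0) (XT.nd (nat_lit 234) (nat_lit 152) (nat_lit 0) (XT.nd (nat_lit 78) (nat_lit 0) (nat_lit 0) (XT.lf (nat_lit 0) (nat_lit 251294139505) (nat_lit 76) (nat_lit 59043972626) (nat_lit 76) (nat_lit 38542442376) (nat_lit 6) (nat_lit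 4) (nat_lit 7) (nat_lit 5) (nat_lit 7) (nat_lit 4) (nat_lit 464) (nat_lit 344) (nat_lit 212)) (XT.nd (nat_lit 78) (nat_lit 0) (nat_lit 0) (XT.lf (nat_lit 0) (nat_lit 303134362772) (nat_lit 76) (nat_lit 41354766261) (nat_lit 76) (nat_lit 20851675477) (nat_lit 6) (nat_lit 4) (nat_lit 7) (nat_lit 5) (nat_lit 7) (nat_lit 4) (nat_lit 465) (nat_lit 344) (nat_lit 211)) (XT.lf (nat_lit 0) (nat_lit 357560787838) (nat_lit 76) (nat_lit 22784000848) (nat_lit 76) (nat_lit 2279423841) (nat_lit 6) (nat_lit 4) (nat_lit 7) (nat_lit 5) (nat_lit 7) (nat_lit 4) (nat_lit 466) (nat_lit 344) (nat_lit 210)))) (XT.nd (nat_lit 78) (nat_lit 0) (nat_lit 0) (XT.lf (nat_lit 0) (nat_lit 14113977790) (nat_lit 76) (nat_lit 2773812573) (nat_lit 152) (nat_lit 383859679750) (nat_lit 4) (nat_lit 5) (nat_lit 5) (nat_lit 5) (nat_lit 6) (nat_lit 4) (nat_lit 467) (nat_lit 344) (nat_lit 209)) (XT.nd (nat_lit 78) (nat_lit 0) (nat_lit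 0) (XT.lf (nat_lit 0) (nat_lit 37650099488) (nat_lit 152) (nat_lit 363969956909) (nat_lit 0) (nat_lit 18119299008) (nat_lit 4) (nat_lit 5) (nat_lit 6) (nat_lit 4) (nat_lit 4) (nat_lit 4) (nat_lit 468) (nat_lit 344) (nat_lit 208)) (XT.lf (nat_lit 0) (nat_lit 59493319553) (nat_lit 152) (nat_lit 340224079367) (nat_lit 0) (nat_lit 39961296354) (nat_lit 4) (nat_lit 5) (nat_lit 6) (nat_lit 4) (nat_lit 4) (nat_lit 4) (nat_lit 469) (nat_lit 344) (nat_lit 207))))) (XT.nd (nat_lit 234) (nat_lit 0) (nat_lit 0) (XT.nd (nat_lit 78) (nat_lit 0) (nat_lit 0) (XT.lf (nat_lit 0) (nat_lit 82426151239) (nat_lit 152) (nat_lit 315296014910) (nat_lit 0) (nat_lit 62892963545) (nat_lit 4) (nat_lit 5) (nat_lit 6) (nat_lit 4) (nat_lit 4) (nat_lit 4) (nat_lit 470) (nat_lit 344) (nat_lit 206)) (XT.nd (nat_lit 78) (nat_lit 0) (nat_lit 0) (XT.lf (nat_lit 0) (nat_lit 106503196524) (nat_lit 152) (nat_lit 289126411000) (nat_lit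 0) (nat_lit 86968899789) (nat_lit 4) (nat_lit 5) (nat_lit 6) (nat_lit 4) (nat_lit 4) (nat_lit 4) (nat_lit 471) (nat_lit 344) (nat_lit 205)) (XT.lf (nat_lit 0) (nat_lit 131781781709) (nat_lit 152) (nat_lit 261652959059) (nat_lit 0) (nat_lit 112246428742) (nat_lit 4) (nat_lit 5) (nat_lit 6) (nat_lit 4) (nat_lit 4) (nat_lit 4) (nat_lit 472) (nat_lit 344) (nat_lit 204)))) (XT.nd (nat_lit 156) (nat_lit 0) (nat_lit 0) (XT.nd (nat_lit 78) (nat_lit 0) (nat_lit 0) (XT.lf (nat_lit 0) (nat_lit 158322093899) (nat_lit 152) (nat_lit 232810246105) (nat_lit 0) (nat_lit 138785734999) (nat_lit 4) (nat_lit 5) (nat_lit 6) (nat_lit 4) (nat_lit 4) (nat_lit 4) (nat_lit 473) (nat_lit 344) (nat_lit 203)) (XT.lf (nat_lit 0) (nat_lit 186187324315) (nat_lit 152) (nat_lit 202529599012) (nat_lit 0) (nat_lit 166650007383) (nat_lit 4) (nat_lit 5) (nat_lit 6) (nat_lit 4) (nat_lit 4) (nat_lit 4) (nat_lit 474) (nat_lit 344)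 (nat_lit 202))) (XT.nd (nat_lit 78) (nat_lit 0) (nat_lit 0) (XT.lf (nat_lit 0) (nat_lit 215443818744) (nat_lit 152) (nat_lit 170738921001) (nat_lit 0) (nat_lit 195905589400) (nat_lit 4) (nat_lit 5) (nat_lit 6) (nat_lit 4) (nat_lit 4) (nat_lit 4) (nat_lit 475) (nat_lit 344) (nat_lit 201)) (XT.lf (nat_lit 0) (nat_lit 246161235505) (nat_lit 152) (nat_lit 137362519982) (nat_lit 0) (nat_lit 226622137197) (nat_lit 4) (nat_lit 5) (nat_lit 6) (nat_lit 4) (nat_lit 4) (nat_lit 4) (nat_lit 476) (nat_lit 344) (nat_lit 200)))))) (XT.nd (nat_lit 42900) (nat_lit 0) (nat_lit 11096) (XT.nd (nat_lit 234) (nat_lit 76) (nat_lit 0) (XT.nd (nat_lit 78) (nat_lit 0) (nat_lit 0) (XT.lf (nat_lit 0) (nat_lit 278412711305) (nat_lit 152) (nat_lit 102320928333) (nat_lit 0) (nat_lit 258872785413) (nat_lit 4) (nat_lit 5) (nat_lit 6) (nat_lit 4) (nat_lit 4) (nat_lit 4) (nat_lit 477) (nat_lit 344) (nat_lit 199)) (XT.nd (nat_lit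 78) (nat_lit 0) (nat_lit 0) (XT.lf (nat_lit 0) (nat_lit 312275035372) (nat_lit 152) (nat_lit 65530713693) (nat_lit 0) (nat_lit 292734321304) (nat_lit 4) (nat_lit 5) (nat_lit 6) (nat_lit 4) (nat_lit 4) (nat_lit 4) (nat_lit 478) (nat_lit 344) (nat_lit 198)) (XT.lf (nat_lit 0) (nat_lit 347828832288) (nat_lit 152) (nat_lit 26904280314) (nat_lit 0) (nat_lit 328287367576) (nat_lit 4) (nat_lit 5) (nat_lit 6) (nat_lit 4) (nat_lit 4) (nat_lit 4) (nat_lit 479) (nat_lit 344) (nat_lit 197)))) (XT.nd (nat_lit 156) (nat_lit 0) (nat_lit 0) (XT.nd (nat_lit 78) (nat_lit 0) (nat_lit 0) (XT.lf (nat_lit 0) (nat_lit 14101681374) (nat_lit 76) (nat_lit 371277239341) (nat_lit 76) (nat_lit 351735059731) (nat_lit 3) (nat_lit 4) (nat_lit 4) (nat_lit 5) (nat_lit 4) (nat_lit 4) (nat_lit 480) (nat_lit 344) (nat_lit 196)) (XT.lf (nat_lit 0) (nat_lit 58088912346) (nat_lit 76) (nat_lit 367171699491) (nat_lit 76) (nat_lit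 347628839026) (nat_lit 3) (nat_lit 4) (nat_lit 4) (nat_lit 5) (nat_lit 4) (nat_lit 4) (nat_lit 481) (nat_lit 344) (nat_lit 195))) (XT.nd (nat_lit 42432) (nat_lit 0) (nat_lit 12008) (XT.lf (nat_lit 0) (nat_lit 104272567092) (nat_lit 76) (nat_lit 362862354964) (nat_lit 76) (nat_lit 343318846064) (nat_lit 3) (nat_lit 4) (nat_lit 4) (nat_lit 5) (nat_lit 4) (nat_lit 4) (nat_lit 482) (nat_lit 344) (nat_lit 194)) (XT.lf (nat_lit 0) (nat_lit 36215990) (nat_lit 0) (nat_lit 36215990) (nat_lit 380) (nat_lit 3293945722) (nat_lit 161) (nat_lit 5) (nat_lit 161) (nat_lit 3) (nat_lit 166) (nat_lit 3) (nat_lit 345) (nat_lit 345) (nat_lit 330))))) (XT.nd (nat_lit 234) (nat_lit 912) (nat_lit 0) (XT.nd (nat_lit 78) (nat_lit 0) (nat_lit 0) (XT.lf (nat_lit 0) (nat_lit 2274906803) (nat_lit 380) (nat_lit 3355086643) (nat_lit 456) (nat_lit 1163105730) (nat_lit 161) (nat_lit 5) (nat_lit 166) (nat_lit 3) (nat_lit 167)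 (nat_lit 5) (nat_lit 346) (nat_lit 345) (nat_lit 329)) (XT.nd (nat_lit 78) (nat_lit 0) (nat_lit 0) (XT.lf (nat_lit 76) (nat_lit 40146242) (nat_lit 0) (nat_lit 4339256302) (nat_lit 456) (nat_lit 2483765931) (nat_lit 162) (nat_lit 5) (nat_lit 161) (nat_lit 5) (nat_lit 167) (nat_lit 5) (nat_lit 347) (nat_lit 345) (nat_lit 328)) (XT.lf (nat_lit 76) (nat_lit 3647474085) (nat_lit 0) (nat_lit 2869822354) (nat_lit 456) (nat_lit 423136971) (nat_lit 162) (nat_lit 5) (nat_lit 161) (nat_lit 5) (nat_lit 167) (nat_lit 5) (nat_lit 348) (nat_lit 345) (nat_lit 327)))) (XT.nd (nat_lit 156) (nat_lit 456) (nat_lit 0) (XT.nd (nat_lit 78) (nat_lit 0) (nat_lit 76) (XT.lf (nat_lit 76) (nat_lit 321906383) (nat_lit 0) (nat_lit 1243313178) (nat_lit 532) (nat_lit 5461054586) (nat_lit 156) (nat_lit 5) (nat_lit 155) (nat_lit 5) (nat_lit 162) (nat_lit 5) (nat_lit 349) (nat_lit 345) (nat_lit 326)) (XT.lf (nat_lit 0) (nat_lit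 3583592685) (nat_lit 456) (nat_lit 2977304923) (nat_lit 532) (nat_lit 558008637) (nat_lit 156) (nat_lit 5) (nat_lit 162) (nat_lit 5) (nat_lit 163) (nat_lit 5) (nat_lit 350) (nat_lit 345) (nat_lit 325))) (XT.nd (nat_lit 78) (nat_lit 532) (nat_lit 0) (XT.lf (nat_lit 76) (nat_lit 866881638) (nat_lit 0) (nat_lit 4756476008) (nat_lit 532) (nat_lit 1596871604) (nat_lit 157) (nat_lit 5) (nat_lit 156) (nat_lit 5) (nat_lit 163) (nat_lit 5) (nat_lit 351) (nat_lit 345) (nat_lit 324)) (XT.lf (nat_lit 0) (nat_lit 364621779) (nat_lit 532) (nat_lit 2404232865) (nat_lit 608) (nat_lit 4560488513) (nat_lit 149) (nat_lit 5) (nat_lit 156) (nat_lit 5) (nat_lit 157) (nat_lit 5) (nat_lit 352) (nat_lit 345) (nat_lit 323))))))))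
noncomputable def xc110 : XT := (XT.nd (nat_lit 2106) (nat_lit 2736) (nat_lit 0) (XT.nd (nat_lit 1014) (nat_lit 2280) (nat_lit 0) (XT.nd (nat_lit 468) (nat_lit 2052) (nat_lit 0) (XT.nd (nat_lit 234) (nat_lit 1368) (nat_lit 0) (XT.nd (nat_lit 78) (nat_lit 456) (nat_lit 0) (XT.lf (nat_lit 76) (nat_lit 1695073565) (nat_lit 0) (nat_lit 596120648) (nat_lit 608) (nat_lit 5155447811) (nat_lit 150) (nat_lit 5) (nat_lit 149) (nat_lit 5) (nat_lit 157) (nat_lit 5) (nat_lit 353) (nat_lit 345) (nat_lit 322)) (XT.nd (nat_lit 78) (nat_lit 532) (nat_lit 0) (XT.lf (nat_lit 0) (nat_lit 4280310453) (nat_lit 532) (nat_lit 1591655604) (nat_lit 76) (nat_lit 1699597270) (nat_lit 150) (nat_lit 5) (nat_lit 157) (nat_lit 5) (nat_lit 151) (nat_lit 5) (nat_lit 354) (nat_lit 345) (nat_lit 321)) (XT.lf (nat_lit 0) (nat_lit 2779517091) (nat_lit 532) (nat_lit 3545885713) (nat_lit 608) (nat_lit 1379566876) (nat_lit 143)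 (nat_lit 5) (nat_lit 150) (nat_lit 5) (nat_lit 151) (nat_lit 5) (nat_lit 355) (nat_lit 345) (nat_lit 320)))) (XT.nd (nat_lit 78) (nat_lit 1292) (nat_lit 0) (XT.lf (nat_lit 0) (nat_lit 540210138) (nat_lit 608) (nat_lit 507327690) (nat_lit 76) (nat_lit 6800447614) (nat_lit 142) (nat_lit 5) (nat_lit 150) (nat_lit 5) (nat_lit 143) (nat_lit 5) (nat_lit 356) (nat_lit 345) (nat_lit 319)) (XT.nd (nat_lit 78) (nat_lit 684) (nat_lit 0) (XT.lf (nat_lit 0) (nat_lit 2510697205) (nat_lit 684) (nat_lit 3856313384) (nat_lit 76) (nat_lit 1630012578) (nat_lit 134) (nat_lit 5) (nat_lit 143) (nat_lit 5) (nat_lit 135) (nat_lit 5) (nat_lit 357) (nat_lit 345) (nat_lit 318)) (XT.lf (nat_lit 0) (nat_lit 816892417) (nat_lit 684) (nat_lit 3714570227) (nat_lit 760) (nat_lit 3624515907) (nat_lit 125) (nat_lit 5) (nat_lit 134) (nat_lit 5) (nat_lit 135) (nat_lit 5) (nat_lit 358) (nat_lit 345) (nat_lit 317))))) (XT.nd (nat_lit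 234) (nat_lit 1216) (nat_lit 0) (XT.nd (nat_lit 78) (nat_lit 836) (nat_lit 0) (XT.lf (nat_lit 0) (nat_lit 5781274061) (nat_lit 684) (nat_lit 853341477) (nat_lit 760) (nat_lit 1689249638) (nat_lit 125) (nat_lit 5) (nat_lit 134) (nat_lit 5) (nat_lit 135) (nat_lit 5) (nat_lit 359) (nat_lit 345) (nat_lit 316)) (XT.nd (nat_lit 78) (nat_lit 0) (nat_lit 0) (XT.lf (nat_lit 0) (nat_lit 323807154) (nat_lit 836) (nat_lit 6043751003) (nat_lit 76) (nat_lit 2132766667) (nat_lit 114) (nat_lit 5) (nat_lit 125) (nat_lit 5) (nat_lit 115) (nat_lit 5) (nat_lit 360) (nat_lit 345) (nat_lit 315)) (XT.lf (nat_lit 0) (nat_lit 2359964111) (nat_lit 836) (nat_lit 1010162687) (nat_lit 76) (nat_lit 5315179162) (nat_lit 114) (nat_lit 5) (nat_lit 125) (nat_lit 5) (nat_lit 115) (nat_lit 5) (nat_lit 361) (nat_lit 345) (nat_lit 314)))) (XT.nd (nat_lit 156) (nat_lit 456) (nat_lit 0) (XT.nd (nat_lit 78) (nat_lit 380) (nat_lit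 0) (XT.lf (nat_lit 0) (nat_lit 4339431537) (nat_lit 380) (nat_lit 151450040) (nat_lit 456) (nat_lit 4389048844) (nat_lit 109) (nat_lit 5) (nat_lit 114) (nat_lit 5) (nat_lit 115) (nat_lit 5) (nat_lit 362) (nat_lit 345) (nat_lit 313)) (XT.lf (nat_lit 0) (nat_lit 806266277) (nat_lit 380) (nat_lit 5930058553) (nat_lit 456) (nat_lit 2347602183) (nat_lit 104) (nat_lit 5) (nat_lit 109) (nat_lit 5) (nat_lit 110) (nat_lit 5) (nat_lit 363) (nat_lit 345) (nat_lit 312))) (XT.nd (nat_lit 78) (nat_lit 456) (nat_lit 0) (XT.lf (nat_lit 0) (nat_lit 6499679171) (nat_lit 380) (nat_lit 2603567142) (nat_lit 456) (nat_lit 194454824) (nat_lit 104) (nat_lit 5) (nat_lit 109) (nat_lit 5) (nat_lit 110) (nat_lit 5) (nat_lit 364) (nat_lit 345) (nat_lit 311)) (XT.lf (nat_lit 0) (nat_lit 1993305421) (nat_lit 456) (nat_lit 6593647442) (nat_lit 76) (nat_lit 933977918) (nat_lit 98) (nat_lit 5) (nat_lit 104) (nat_lit 5) (nat_lit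 99) (nat_lit 5) (nat_lit 365) (nat_lit 345) (nat_lit 310)))))) (XT.nd (nat_lit 546) (nat_lit 1064) (nat_lit 0) (XT.nd (nat_lit 234) (nat_lit 608) (nat_lit 0) (XT.nd (nat_lit 78) (nat_lit 608) (nat_lit 0) (XT.lf (nat_lit 0) (nat_lit 4308815696) (nat_lit 456) (nat_lit 840046145) (nat_lit 76) (nat_lit 4605088659) (nat_lit 98) (nat_lit 5) (nat_lit 104) (nat_lit 5) (nat_lit 99) (nat_lit 5) (nat_lit 366) (nat_lit 345) (nat_lit 309)) (XT.nd (nat_lit 78) (nat_lit 304) (nat_lit 0) (XT.lf (nat_lit 0) (nat_lit 5298002069) (nat_lit 304) (nat_lit 1462009287) (nat_lit 380) (nat_lit 3237645622) (nat_lit 94) (nat_lit 5) (nat_lit 98) (nat_lit 5) (nat_lit 99) (nat_lit 5) (nat_lit 367) (nat_lit 345) (nat_lit 308)) (XT.lf (nat_lit 0) (nat_lit 1453413074) (nat_lit 304) (nat_lit 7894018266) (nat_lit 380) (nat_lit 905463990) (nat_lit 90) (nat_lit 5) (nat_lit 94) (nat_lit 5) (nat_lit 95) (nat_lit 5) (nat_lit 368)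 (nat_lit 345) (nat_lit 307)))) (XT.nd (nat_lit 156) (nat_lit 304) (nat_lit 0) (XT.nd (nat_lit 78) (nat_lit 228) (nat_lit 0) (XT.lf (nat_lit 0) (nat_lit 1538456860) (nat_lit 380) (nat_lit 2564345382) (nat_lit 76) (nat_lit 6414689273) (nat_lit 89) (nat_lit 5) (nat_lit 94) (nat_lit 5) (nat_lit 90) (nat_lit 5) (nat_lit 369) (nat_lit 345) (nat_lit 306)) (XT.lf (nat_lit 0) (nat_lit 4024752939) (nat_lit 228) (nat_lit 54765307) (nat_lit 304) (nat_lit 6714814103) (nat_lit 86) (nat_lit 5) (nat_lit 89) (nat_lit 5) (nat_lit 90) (nat_lit 5) (nat_lit 370) (nat_lit 345) (nat_lit 305))) (XT.nd (nat_lit 78) (nat_lit 304) (nat_lit 0) (XT.lf (nat_lit 0) (nat_lit 6801218781) (nat_lit 304) (nat_lit 189924098) (nat_lit 76) (nat_lit 4091217538) (nat_lit 86) (nat_lit 5) (nat_lit 90) (nat_lit 5) (nat_lit 87) (nat_lit 5) (nat_lit 371) (nat_lit 345) (nat_lit 304)) (XT.lf (nat_lit 0) (nat_lit 6867921527) (nat_lit 304)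 (nat_lit 2845817146) (nat_lit 380) (nat_lit 1668337831) (nat_lit 82) (nat_lit 5) (nat_lit 86) (nat_lit 5) (nat_lit 87) (nat_lit 5) (nat_lit 372) (nat_lit 345) (nat_lit 303))))) (XT.nd (nat_lit 234) (nat_lit 532) (nat_lit 0) (XT.nd (nat_lit 78) (nat_lit 228) (nat_lit 0) (XT.lf (nat_lit 0) (nat_lit 1055760063) (nat_lit 304) (nat_lit 9136506993) (nat_lit 76) (nat_lit 1502940031) (nat_lit 78) (nat_lit 5) (nat_lit 82) (nat_lit 5) (nat_lit 79) (nat_lit 5) (nat_lit 373) (nat_lit 345) (nat_lit 302)) (XT.nd (nat_lit 78) (nat_lit 228) (nat_lit 0) (XT.lf (nat_lit 0) (nat_lit 3932713522) (nat_lit 304) (nat_lit 2025036243) (nat_lit 76) (nat_lit 6061261210) (nat_lit 78) (nat_lit 5) (nat_lit 82) (nat_lit 5) (nat_lit 79) (nat_lit 5) (nat_lit 374) (nat_lit 345) (nat_lit 301)) (XT.lf (nat_lit 0) (nat_lit 5551571187) (nat_lit 228) (nat_lit 1439440339) (nat_lit 304) (nat_lit 5366137884) (nat_lit 75) (nat_lit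 5) (nat_lit 78) (nat_lit 5) (nat_lit 79) (nat_lit 5) (nat_lit 375) (nat_lit 345) (nat_lit 300)))) (XT.nd (nat_lit 156) (nat_lit 228) (nat_lit 0) (XT.nd (nat_lit 78) (nat_lit 76) (nat_lit 0) (XT.lf (nat_lit 0) (nat_lit 770188658) (nat_lit 228) (nat_lit 9482332594) (nat_lit 304) (nat_lit 2457176954) (nat_lit 72) (nat_lit 5) (nat_lit 75) (nat_lit 5) (nat_lit 76) (nat_lit 5) (nat_lit 376) (nat_lit 345) (nat_lit 299)) (XT.lf (nat_lit 0) (nat_lit 671123193) (nat_lit 304) (nat_lit 4217521283) (nat_lit 76) (nat_lit 8186130007) (nat_lit 71) (nat_lit 5) (nat_lit 75) (nat_lit 5) (nat_lit 72) (nat_lit 5) (nat_lit 377) (nat_lit 345) (nat_lit 298))) (XT.nd (nat_lit 78) (nat_lit 0) (nat_lit 0) (XT.lf (nat_lit 0) (nat_lit 3889146437) (nat_lit 304) (nat_lit 9546545377) (nat_lit 76) (nat_lit 19620207) (nat_lit 68) (nat_lit 5) (nat_lit 72) (nat_lit 5) (nat_lit 69) (nat_lit 5) (nat_lit 378) (nat_lit 345) (nat_lit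 297)) (XT.lf (nat_lit 0) (nat_lit 7376166038) (nat_lit 304) (nat_lit 1411962395) (nat_lit 76) (nat_lit 5061358281) (nat_lit 68) (nat_lit 5) (nat_lit 72) (nat_lit 5) (nat_lit 69) (nat_lit 5) (nat_lit 379) (nat_lit 345) (nat_lit 296))))))) (XT.nd (nat_lit 1014) (nat_lit 1216) (nat_lit 0) (XT.nd (nat_lit 468) (nat_lit 684) (nat_lit 0) (XT.nd (nat_lit 234) (nat_lit 380) (nat_lit 0) (XT.nd (nat_lit 78) (nat_lit 304) (nat_lit 0) (XT.lf (nat_lit 0) (nat_lit 7299024673) (nat_lit 152) (nat_lit 3809952849) (nat_lit 228) (nat_lit 3150834898) (nat_lit 66) (nat_lit 5) (nat_lit 68) (nat_lit 5) (nat_lit 69) (nat_lit 5) (nat_lit 380) (nat_lit 345) (nat_lit 295)) (XT.nd (nat_lit 78) (nat_lit 0) (nat_lit 0) (XT.lf (nat_lit 0) (nat_lit 359809973) (nat_lit 304) (nat_lit 12920107865) (nat_lit 76) (nat_lit 1408843600) (nat_lit 62) (nat_lit 5) (nat_lit 66) (nat_lit 5) (nat_lit 63) (nat_lit 5) (nat_lit 381) (nat_lit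 345) (nat_lit 294)) (XT.lf (nat_lit 0) (nat_lit 4080880009) (nat_lit 304) (nat_lit 4138080021) (nat_lit 76) (nat_lit 6910588516) (nat_lit 62) (nat_lit 5) (nat_lit 66) (nat_lit 5) (nat_lit 63) (nat_lit 5) (nat_lit 382) (nat_lit 345) (nat_lit 293)))) (XT.nd (nat_lit 78) (nat_lit 228) (nat_lit 0) (XT.lf (nat_lit 0) (nat_lit 5187163880) (nat_lit 152) (nat_lit 2842308261) (nat_lit 228) (nat_lit 7560841222) (nat_lit 60) (nat_lit 5) (nat_lit 62) (nat_lit 5) (nat_lit 63) (nat_lit 5) (nat_lit 383) (nat_lit 345) (nat_lit 292)) (XT.nd (nat_lit 78) (nat_lit 228) (nat_lit 0) (XT.lf (nat_lit 0) (nat_lit 12251553325) (nat_lit 228) (nat_lit 1055692453) (nat_lit 76) (nat_lit 2763078896) (nat_lit 60) (nat_lit 5) (nat_lit 63) (nat_lit 5) (nat_lit 61) (nat_lit 5) (nat_lit 384) (nat_lit 345) (nat_lit 291)) (XT.lf (nat_lit 0) (nat_lit 258380876) (nat_lit 228) (nat_lit 7631934978) (nat_lit 76) (nat_lit 8676369068)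 (nat_lit 57) (nat_lit 5) (nat_lit 60) (nat_lit 5) (nat_lit 58) (nat_lit 5) (nat_lit 385) (nat_lit 345) (nat_lit 290))))) (XT.nd (nat_lit 234) (nat_lit 380) (nat_lit 0) (XT.nd (nat_lit 78) (nat_lit 152) (nat_lit 0) (XT.lf (nat_lit 0) (nat_lit 2326160407) (nat_lit 152) (nat_lit 2102550641) (nat_lit 228) (nat_lit 12655148886) (nat_lit 55) (nat_lit 5) (nat_lit 57) (nat_lit 5) (nat_lit 58) (nat_lit 5) (nat_lit 386) (nat_lit 345) (nat_lit 289)) (XT.nd (nat_lit 78) (nat_lit 152) (nat_lit 0) (XT.lf (nat_lit 0) (nat_lit 8964627334) (nat_lit 228) (nat_lit 4697760749) (nat_lit 76) (nat_lit 3956661367) (nat_lit 55) (nat_lit 5) (nat_lit 58) (nat_lit 5) (nat_lit 56) (nat_lit 5) (nat_lit 387) (nat_lit 345) (nat_lit 288)) (XT.lf (nat_lit 0) (nat_lit 5964188548) (nat_lit 152) (nat_lit 7856113331) (nat_lit 228) (nat_lit 4356057232) (nat_lit 53) (nat_lit 5) (nat_lit 55) (nat_lit 5) (nat_lit 56) (nat_lit 5)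 (nat_lit 388) (nat_lit 345) (nat_lit 287)))) (XT.nd (nat_lit 156) (nat_lit 152) (nat_lit 0) (XT.nd (nat_lit 78) (nat_lit 152) (nat_lit 0) (XT.lf (nat_lit 0) (nat_lit 198637216) (nat_lit 228) (nat_lit 1496614075) (nat_lit 76) (nat_lit 17063846028) (nat_lit 52) (nat_lit 5) (nat_lit 55) (nat_lit 5) (nat_lit 53) (nat_lit 5) (nat_lit 389) (nat_lit 345) (nat_lit 286)) (XT.lf (nat_lit 0) (nat_lit 5035092442) (nat_lit 228) (nat_lit 9492402002) (nat_lit 76) (nat_lit 4829894143) (nat_lit 50) (nat_lit 5) (nat_lit 53) (nat_lit 5) (nat_lit 51) (nat_lit 5) (nat_lit 390) (nat_lit 345) (nat_lit 285))) (XT.nd (nat_lit 78) (nat_lit 0) (nat_lit 0) (XT.lf (nat_lit 0) (nat_lit 1837640606) (nat_lit 152) (nat_lit 8325567777) (nat_lit 228) (nat_lit 9819901373) (nat_lit 48) (nat_lit 5) (nat_lit 50) (nat_lit 5) (nat_lit 51) (nat_lit 5) (nat_lit 391) (nat_lit 345) (nat_lit 284)) (XT.lf (nat_lit 0) (nat_lit 14009363454)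 (nat_lit 152) (nat_lit 1667414058) (nat_lit 228) (nat_lit 4956893991) (nat_lit 48) (nat_lit 5) (nat_lit 50) (nat_lit 5) (nat_lit 51) (nat_lit 5) (nat_lit 392) (nat_lit 345) (nat_lit 283)))))) (XT.nd (nat_lit 546) (nat_lit 608) (nat_lit 0) (XT.nd (nat_lit 234) (nat_lit 304) (nat_lit 0) (XT.nd (nat_lit 78) (nat_lit 152) (nat_lit 0) (XT.lf (nat_lit 0) (nat_lit 285410007) (nat_lit 152) (nat_lit 15801151660) (nat_lit 76) (nat_lit 5223043218) (nat_lit 46) (nat_lit 5) (nat_lit 48) (nat_lit 5) (nat_lit 47) (nat_lit 5) (nat_lit 393) (nat_lit 345) (nat_lit 282)) (XT.nd (nat_lit 78) (nat_lit 152) (nat_lit 0) (XT.lf (nat_lit 0) (nat_lit 5734211087) (nat_lit 152) (nat_lit 3699449862) (nat_lit 76) (nat_lit 12576068609) (nat_lit 46) (nat_lit 5) (nat_lit 48) (nat_lit 5) (nat_lit 47) (nat_lit 5) (nat_lit 394) (nat_lit 345) (nat_lit 281)) (XT.lf (nat_lit 0) (nat_lit 9252893620) (nat_lit 152) (nat_lit 2318075908)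 (nat_lit 228) (nat_lit 11168120739) (nat_lit 44) (nat_lit 5) (nat_lit 46) (nat_lit 5) (nat_lit 47) (nat_lit 5) (nat_lit 395) (nat_lit 345) (nat_lit 280)))) (XT.nd (nat_lit 156) (nat_lit 152) (nat_lit 0) (XT.nd (nat_lit 78) (nat_lit 152) (nat_lit 0) (XT.lf (nat_lit 0) (nat_lit 17815022530) (nat_lit 228) (nat_lit 652845731) (nat_lit 76) (nat_lit 5031283320) (nat_lit 44) (nat_lit 5) (nat_lit 47) (nat_lit 5) (nat_lit 45) (nat_lit 4) (nat_lit 396) (nat_lit 345) (nat_lit 279)) (XT.lf (nat_lit 0) (nat_lit 291331667) (nat_lit 152) (nat_lit 11134286324) (nat_lit 76) (nat_lit 12860563053) (nat_lit 42) (nat_lit 5) (nat_lit 44) (nat_lit 5) (nat_lit 43) (nat_lit 5) (nat_lit 397) (nat_lit 345) (nat_lit 278))) (XT.nd (nat_lit 78) (nat_lit 0) (nat_lit 0) (XT.lf (nat_lit 0) (nat_lit 2495468950) (nat_lit 152) (nat_lit 3902070379) (nat_lit 228) (nat_lit 18709218296) (nat_lit 40) (nat_lit 5) (nat_lit 42) (nat_lit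 5) (nat_lit 43) (nat_lit 5) (nat_lit 398) (nat_lit 345) (nat_lit 277)) (XT.lf (nat_lit 0) (nat_lit 13036146194) (nat_lit 228) (nat_lit 8879961431) (nat_lit 76) (nat_lit 4040905412) (nat_lit 40) (nat_lit 5) (nat_lit 43) (nat_lit 5) (nat_lit 41) (nat_lit 4) (nat_lit 399) (nat_lit 345) (nat_lit 276))))) (XT.nd (nat_lit 234) (nat_lit 304) (nat_lit 0) (XT.nd (nat_lit 78) (nat_lit 228) (nat_lit 0) (XT.lf (nat_lit 0) (nat_lit 5606954633) (nat_lit 76) (nat_lit 14525540722) (nat_lit 152) (nat_lit 6710999496) (nat_lit 39) (nat_lit 5) (nat_lit 40) (nat_lit 5) (nat_lit 41) (nat_lit 4) (nat_lit 400) (nat_lit 345) (nat_lit 275)) (XT.nd (nat_lit 78) (nat_lit 228) (nat_lit 0) (XT.lf (nat_lit 0) (nat_lit 21080791435) (nat_lit 76) (nat_lit 6628070173) (nat_lit 152) (nat_lit 59183195) (nat_lit 39) (nat_lit 5) (nat_lit 40) (nat_lit 5) (nat_lit 41) (nat_lit 4) (nat_lit 401) (nat_lit 345) (nat_lit 274)) (XT.lf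 (nat_lit 0) (nat_lit 6844945762) (nat_lit 228) (nat_lit 20041518892) (nat_lit 76) (nat_lit 1839886531) (nat_lit 36) (nat_lit 5) (nat_lit 39) (nat_lit 5) (nat_lit 37) (nat_lit 4) (nat_lit 402) (nat_lit 345) (nat_lit 273)))) (XT.nd (nat_lit 156) (nat_lit 228) (nat_lit 0) (XT.nd (nat_lit 78) (nat_lit 76) (nat_lit 0) (XT.lf (nat_lit 0) (nat_lit 14291845036) (nat_lit 228) (nat_lit 4825230917) (nat_lit 76) (nat_lit 10605474262) (nat_lit 36) (nat_lit 5) (nat_lit 39) (nat_lit 5) (nat_lit 37) (nat_lit 4) (nat_lit 403) (nat_lit 345) (nat_lit 272)) (XT.lf (nat_lit 0) (nat_lit 11476795336) (nat_lit 76) (nat_lit 10790419318) (nat_lit 152) (nat_lit 8493541588) (nat_lit 35) (nat_lit 5) (nat_lit 36) (nat_lit 5) (nat_lit 37) (nat_lit 4) (nat_lit 404) (nat_lit 345) (nat_lit 271))) (XT.nd (nat_lit 78) (nat_lit 228) (nat_lit 0) (XT.lf (nat_lit 0) (nat_lit 28719722735) (nat_lit 76) (nat_lit 1980734768) (nat_lit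 152) (nat_lit 1147462986) (nat_lit 35) (nat_lit 5) (nat_lit 36) (nat_lit 5) (nat_lit 37) (nat_lit 4) (nat_lit 405) (nat_lit 345) (nat_lit 270)) (XT.lf (nat_lit 0) (nat_lit 6673229182) (nat_lit 228) (nat_lit 18947768018) (nat_lit 76) (nat_lit 7347449987) (nat_lit 32) (nat_lit 5) (nat_lit 35) (nat_lit 5) (nat_lit 33) (nat_lit 4) (nat_lit 406) (nat_lit 345) (nat_lit 269))))))))
noncomputable def xc111 : XT := (XT.nd (nat_lit 2106) (nat_lit 684) (nat_lit 0) (XT.nd (nat_lit 1014) (nat_lit 608) (nat_lit 0) (XT.nd (nat_lit 468) (nat_lit 380) (nat_lit 0) (XT.nd (nat_lit 234) (nat_lit 228) (nat_lit 0) (XT.nd (nat_lit 78) (nat_lit 76) (nat_lit 0) (XT.lf (nat_lit 0) (nat_lit 14910953392) (nat_lit 228) (nat_lit 2099496506) (nat_lit 76) (nat_lit 17130384521) (nat_lit 32) (nat_lit 5) (nat_lit 35) (nat_lit 5) (nat_lit 33) (nat_lit 4) (nat_lit 407) (nat_lit 345) (nat_lit 268)) (XT.nd (nat_lit 78) (nat_lit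 0) (nat_lit 0) (XT.lf (nat_lit 0) (nat_lit 16066759853) (nat_lit 76) (nat_lit 7723929796) (nat_lit 152) (nat_lit 11569647667) (nat_lit 31) (nat_lit 5) (nat_lit 32) (nat_lit 5) (nat_lit 33) (nat_lit 4) (nat_lit 408) (nat_lit 345) (nat_lit 267)) (XT.lf (nat_lit 0) (nat_lit 33161592366) (nat_lit 152) (nat_lit 1495831573) (nat_lit 0) (nat_lit 1981034910) (nat_lit 31) (nat_lit 5) (nat_lit 33) (nat_lit 4) (nat_lit 31) (nat_lit 4) (nat_lit 409) (nat_lit 345) (nat_lit 266)))) (XT.nd (nat_lit 78) (nat_lit 76) (nat_lit 0) (XT.lf (nat_lit 0) (nat_lit 5247765907) (nat_lit 152) (nat_lit 20454774668) (nat_lit 76) (nat_lit 12254633819) (nat_lit 29) (nat_lit 5) (nat_lit 31) (nat_lit 5) (nat_lit 30) (nat_lit 4) (nat_lit 410) (nat_lit 345) (nat_lit 265)) (XT.nd (nat_lit 78) (nat_lit 76) (nat_lit 0) (XT.lf (nat_lit 0) (nat_lit 14297957668) (nat_lit 152) (nat_lit 1932488533) (nat_lit 76) (nat_lit 23108223100)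 (nat_lit 29) (nat_lit 5) (nat_lit 31) (nat_lit 5) (nat_lit 30) (nat_lit 4) (nat_lit 411) (nat_lit 345) (nat_lit 264)) (XT.lf (nat_lit 0) (nat_lit 18058672854) (nat_lit 76) (nat_lit 6005290124) (nat_lit 152) (nat_lit 16712112809) (nat_lit 28) (nat_lit 5) (nat_lit 29) (nat_lit 5) (nat_lit 30) (nat_lit 4) (nat_lit 412) (nat_lit 345) (nat_lit 263))))) (XT.nd (nat_lit 234) (nat_lit 228) (nat_lit 0) (XT.nd (nat_lit 78) (nat_lit 152) (nat_lit 0) (XT.lf (nat_lit 0) (nat_lit 34406847348) (nat_lit 152) (nat_lit 3276957265) (nat_lit 0) (nat_lit 4597120985) (nat_lit 28) (nat_lit 5) (nat_lit 30) (nat_lit 4) (nat_lit 28) (nat_lit 4) (nat_lit 413) (nat_lit 345) (nat_lit 262)) (XT.nd (nat_lit 78) (nat_lit 0) (nat_lit 0) (XT.lf (nat_lit 0) (nat_lit 1721708228) (nat_lit 152) (nat_lit 26305404928) (nat_lit 76) (nat_lit 15814766709) (nat_lit 26) (nat_lit 5) (nat_lit 28) (nat_lit 5) (nat_lit 27) (nat_lit 4) (nat_lit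 414) (nat_lit 345) (nat_lit 261)) (XT.lf (nat_lit 0) (nat_lit 11571440524) (nat_lit 152) (nat_lit 6137435087) (nat_lit 76) (nat_lit 27763614889) (nat_lit 26) (nat_lit 5) (nat_lit 28) (nat_lit 5) (nat_lit 27) (nat_lit 4) (nat_lit 415) (nat_lit 345) (nat_lit 260)))) (XT.nd (nat_lit 156) (nat_lit 152) (nat_lit 0) (XT.nd (nat_lit 78) (nat_lit 0) (nat_lit 0) (XT.lf (nat_lit 0) (nat_lit 15503049203) (nat_lit 76) (nat_lit 6635866290) (nat_lit 152) (nat_lit 25034454965) (nat_lit 25) (nat_lit 5) (nat_lit 26) (nat_lit 5) (nat_lit 27) (nat_lit 4) (nat_lit 416) (nat_lit 345) (nat_lit 259)) (XT.lf (nat_lit 0) (nat_lit 33401610231) (nat_lit 152) (nat_lit 10627237325) (nat_lit 0) (nat_lit 4922106075) (nat_lit 25) (nat_lit 5) (nat_lit 27) (nat_lit 4) (nat_lit 25) (nat_lit 4) (nat_lit 417) (nat_lit 345) (nat_lit 258))) (XT.nd (nat_lit 78) (nat_lit 76) (nat_lit 0) (XT.lf (nat_lit 0) (nat_lit 11703170349) (nat_lit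 76) (nat_lit 33799850835) (nat_lit 76) (nat_lit 5300617150) (nat_lit 24) (nat_lit 4) (nat_lit 25) (nat_lit 5) (nat_lit 25) (nat_lit 4) (nat_lit 418) (nat_lit 345) (nat_lit 257)) (XT.lf (nat_lit 0) (nat_lit 5452809428) (nat_lit 152) (nat_lit 17339764384) (nat_lit 76) (nat_lit 29943770273) (nat_lit 23) (nat_lit 5) (nat_lit 25) (nat_lit 5) (nat_lit 24) (nat_lit 4) (nat_lit 419) (nat_lit 345) (nat_lit 256)))))) (XT.nd (nat_lit 546) (nat_lit 304) (nat_lit 0) (XT.nd (nat_lit 234) (nat_lit 228) (nat_lit 0) (XT.nd (nat_lit 78) (nat_lit 0) (nat_lit 0) (XT.lf (nat_lit 0) (nat_lit 5571198656) (nat_lit 76) (nat_lit 11066419701) (nat_lit 152) (nat_lit 38120130921) (nat_lit 22) (nat_lit 5) (nat_lit 23) (nat_lit 5) (nat_lit 24) (nat_lit 4) (nat_lit 420) (nat_lit 345) (nat_lit 255)) (XT.nd (nat_lit 78) (nat_lit 0) (nat_lit 0) (XT.lf (nat_lit 0) (nat_lit 28684513699) (nat_lit 152) (nat_lit 26689353447) (nat_lit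 0) (nat_lit 1491216475) (nat_lit 22) (nat_lit 5) (nat_lit 24) (nat_lit 4) (nat_lit 22) (nat_lit 4) (nat_lit 421) (nat_lit 345) (nat_lit 254)) (XT.lf (nat_lit 0) (nat_lit 41500809005) (nat_lit 152) (nat_lit 3276570873) (nat_lit 0) (nat_lit 14292053178) (nat_lit 22) (nat_lit 5) (nat_lit 24) (nat_lit 4) (nat_lit 22) (nat_lit 4) (nat_lit 422) (nat_lit 345) (nat_lit 253)))) (XT.nd (nat_lit 156) (nat_lit 76) (nat_lit 0) (XT.nd (nat_lit 78) (nat_lit 76) (nat_lit 0) (XT.lf (nat_lit 0) (nat_lit 21983943117) (nat_lit 76) (nat_lit 33303529282) (nat_lit 76) (nat_lit 6080050977) (nat_lit 21) (nat_lit 4) (nat_lit 22) (nat_lit 5) (nat_lit 22) (nat_lit 4) (nat_lit 423) (nat_lit 345) (nat_lit 252)) (XT.lf (nat_lit 0) (nat_lit 5834203864) (nat_lit 152) (nat_lit 15277381791) (nat_lit 76) (nat_lit 42662125759) (nat_lit 20) (nat_lit 5) (nat_lit 22) (nat_lit 5) (nat_lit 21) (nat_lit 4) (nat_lit 424) (nat_lit 345)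 (nat_lit 251))) (XT.nd (nat_lit 78) (nat_lit 0) (nat_lit 0) (XT.lf (nat_lit 0) (nat_lit 10236804115) (nat_lit 76) (nat_lit 8049858104) (nat_lit 152) (nat_lit 48001222900) (nat_lit 19) (nat_lit 5) (nat_lit 20) (nat_lit 5) (nat_lit 21) (nat_lit 4) (nat_lit 425) (nat_lit 345) (nat_lit 250)) (XT.lf (nat_lit 0) (nat_lit 31700197529) (nat_lit 152) (nat_lit 31475756602) (nat_lit 0) (nat_lit 5734891563) (nat_lit 19) (nat_lit 5) (nat_lit 21) (nat_lit 4) (nat_lit 19) (nat_lit 4) (nat_lit 426) (nat_lit 345) (nat_lit 249))))) (XT.nd (nat_lit 234) (nat_lit 228) (nat_lit 0) (XT.nd (nat_lit 78) (nat_lit 76) (nat_lit 0) (XT.lf (nat_lit 0) (nat_lit 45904028659) (nat_lit 152) (nat_lit 5827758286) (nat_lit 0) (nat_lit 19927187246) (nat_lit 19) (nat_lit 5) (nat_lit 21) (nat_lit 4) (nat_lit 19) (nat_lit 4) (nat_lit 427) (nat_lit 345) (nat_lit 248)) (XT.nd (nat_lit 78) (nat_lit 0) (nat_lit 0) (XT.lf (nat_lit 0)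 (nat_lit 21776650255) (nat_lit 76) (nat_lit 39369637694) (nat_lit 76) (nat_lit 13381810141) (nat_lit 18) (nat_lit 4) (nat_lit 19) (nat_lit 5) (nat_lit 19) (nat_lit 4) (nat_lit 428) (nat_lit 345) (nat_lit 247)) (XT.lf (nat_lit 0) (nat_lit 50940997959) (nat_lit 76) (nat_lit 26296807144) (nat_lit 76) (nat_lit 298516601) (nat_lit 18) (nat_lit 4) (nat_lit 19) (nat_lit 5) (nat_lit 19) (nat_lit 4) (nat_lit 429) (nat_lit 345) (nat_lit 246)))) (XT.nd (nat_lit 156) (nat_lit 76) (nat_lit 0) (XT.nd (nat_lit 78) (nat_lit 0) (nat_lit 0) (XT.lf (nat_lit 0) (nat_lit 657943578) (nat_lit 76) (nat_lit 12349958311) (nat_lit 152) (nat_lit 67676609812) (nat_lit 16) (nat_lit 5) (nat_lit 17) (nat_lit 5) (nat_lit 18) (nat_lit 4) (nat_lit 430) (nat_lit 345) (nat_lit 245)) (XT.lf (nat_lit 0) (nat_lit 27452066080) (nat_lit 152) (nat_lit 53840417442) (nat_lit 0) (nat_lit 2673260808) (nat_lit 16) (nat_lit 5) (nat_lit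 18) (nat_lit 4) (nat_lit 16) (nat_lit 4) (nat_lit 431) (nat_lit 345) (nat_lit 244))) (XT.nd (nat_lit 78) (nat_lit 76) (nat_lit 0) (XT.lf (nat_lit 0) (nat_lit 42810276933) (nat_lit 152) (nat_lit 26568306634) (nat_lit 0) (nat_lit 18022863732) (nat_lit 16) (nat_lit 5) (nat_lit 18) (nat_lit 4) (nat_lit 16) (nat_lit 4) (nat_lit 432) (nat_lit 345) (nat_lit 243)) (XT.lf (nat_lit 0) (nat_lit 2115215462) (nat_lit 76) (nat_lit 56844093134) (nat_lit 76) (nat_lit 32048481907) (nat_lit 15) (nat_lit 4) (nat_lit 16) (nat_lit 5) (nat_lit 16) (nat_lit 4) (nat_lit 433) (nat_lit 345) (nat_lit 242))))))) (XT.nd (nat_lit 1092) (nat_lit 304) (nat_lit 0) (XT.nd (nat_lit 546) (nat_lit 152) (nat_lit 0) (XT.nd (nat_lit 234) (nat_lit 152) (nat_lit 0) (XT.nd (nat_lit 78) (nat_lit 76) (nat_lit 0) (XT.lf (nat_lit 0) (nat_lit 33135731796) (nat_lit 76) (nat_lit 43220069033) (nat_lit 76) (nat_lit 18416650161) (nat_lit 15)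 (nat_lit 4) (nat_lit 16) (nat_lit 5) (nat_lit 16) (nat_lit 4) (nat_lit 434) (nat_lit 345) (nat_lit 241)) (XT.nd (nat_lit 78) (nat_lit 76) (nat_lit 0) (XT.lf (nat_lit 0) (nat_lit 65688632538) (nat_lit 76) (nat_lit 28924020239) (nat_lit 76) (nat_lit 4113165515) (nat_lit 15) (nat_lit 4) (nat_lit 16) (nat_lit 5) (nat_lit 16) (nat_lit 4) (nat_lit 435) (nat_lit 345) (nat_lit 240)) (XT.lf (nat_lit 0) (nat_lit 10547287004) (nat_lit 152) (nat_lit 3195998127) (nat_lit 76) (nat_lit 89125514179) (nat_lit 14) (nat_lit 5) (nat_lit 16) (nat_lit 5) (nat_lit 15) (nat_lit 4) (nat_lit 436) (nat_lit 345) (nat_lit 239)))) (XT.nd (nat_lit 156) (nat_lit 76) (nat_lit 0) (XT.nd (nat_lit 78) (nat_lit 0) (nat_lit 0) (XT.lf (nat_lit 0) (nat_lit 26288952169) (nat_lit 152) (nat_lit 78255886455) (nat_lit 0) (nat_lit 2646398812) (nat_lit 13) (nat_lit 5) (nat_lit 15) (nat_lit 4) (nat_lit 13) (nat_lit 4) (nat_lit 437) (nat_lit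 345) (nat_lit 238)) (XT.lf (nat_lit 0) (nat_lit 43089308348) (nat_lit 152) (nat_lit 49186271684) (nat_lit 0) (nat_lit 19440637497) (nat_lit 13) (nat_lit 5) (nat_lit 15) (nat_lit 4) (nat_lit 13) (nat_lit 4) (nat_lit 438) (nat_lit 345) (nat_lit 237))) (XT.nd (nat_lit 78) (nat_lit 76) (nat_lit 0) (XT.lf (nat_lit 0) (nat_lit 60721391780) (nat_lit 152) (nat_lit 18679575056) (nat_lit 0) (nat_lit 37066894745) (nat_lit 13) (nat_lit 5) (nat_lit 15) (nat_lit 4) (nat_lit 13) (nat_lit 4) (nat_lit 439) (nat_lit 345) (nat_lit 236)) (XT.lf (nat_lit 0) (nat_lit 13777814528) (nat_lit 76) (nat_lit 65664479385) (nat_lit 76) (nat_lit 42004433602) (nat_lit 12) (nat_lit 4) (nat_lit 13) (nat_lit 5) (nat_lit 13) (nat_lit 4) (nat_lit 440) (nat_lit 345) (nat_lit 235))))) (XT.nd (nat_lit 234) (nat_lit 76) (nat_lit 0) (XT.nd (nat_lit 78) (nat_lit 76) (nat_lit 0) (XT.lf (nat_lit 0) (nat_lit 48491220179) (nat_lit 76)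 (nat_lit 50916608930) (nat_lit 76) (nat_lit 27251278627) (nat_lit 12) (nat_lit 4) (nat_lit 13) (nat_lit 5) (nat_lit 13) (nat_lit 4) (nat_lit 441) (nat_lit 345) (nat_lit 234)) (XT.nd (nat_lit 78) (nat_lit 76) (nat_lit 0) (XT.lf (nat_lit 0) (nat_lit 84925661751) (nat_lit 76) (nat_lit 35438589138) (nat_lit 76) (nat_lit 11768225957) (nat_lit 12) (nat_lit 4) (nat_lit 13) (nat_lit 5) (nat_lit 13) (nat_lit 4) (nat_lit 442) (nat_lit 345) (nat_lit 233)) (XT.lf (nat_lit 0) (nat_lit 4338149987) (nat_lit 152) (nat_lit 14781948922) (nat_lit 76) (nat_lit 118756269258) (nat_lit 11) (nat_lit 5) (nat_lit 13) (nat_lit 5) (nat_lit 12) (nat_lit 4) (nat_lit 443) (nat_lit 345) (nat_lit 232)))) (XT.nd (nat_lit 156) (nat_lit 0) (nat_lit 0) (XT.nd (nat_lit 78) (nat_lit 0) (nat_lit 0) (XT.lf (nat_lit 0) (nat_lit 19687874358) (nat_lit 76) (nat_lit 1467050384) (nat_lit 152) (nat_lit 122727855065) (nat_lit 10) (nat_lit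 5) (nat_lit 11) (nat_lit 5) (nat_lit 12) (nat_lit 4) (nat_lit 444) (nat_lit 345) (nat_lit 231)) (XT.lf (nat_lit 0) (nat_lit 39326672033) (nat_lit 152) (nat_lit 94066717724) (nat_lit 0) (nat_lit 16770415887) (nat_lit 10) (nat_lit 5) (nat_lit 12) (nat_lit 4) (nat_lit 10) (nat_lit 4) (nat_lit 445) (nat_lit 345) (nat_lit 230))) (XT.nd (nat_lit 78) (nat_lit 0) (nat_lit 0) (XT.lf (nat_lit 0) (nat_lit 58424581403) (nat_lit 152) (nat_lit 62469041057) (nat_lit 0) (nat_lit 35864381865) (nat_lit 10) (nat_lit 5) (nat_lit 12) (nat_lit 4) (nat_lit 10) (nat_lit 4) (nat_lit 446) (nat_lit 345) (nat_lit 229)) (XT.lf (nat_lit 0) (nat_lit 78471219297) (nat_lit 152) (nat_lit 29303738118) (nat_lit 0) (nat_lit 55907264149) (nat_lit 10) (nat_lit 5) (nat_lit 12) (nat_lit 4) (nat_lit 10) (nat_lit 4) (nat_lit 447) (nat_lit 345) (nat_lit 228)))))) (XT.nd (nat_lit 546) (nat_lit 76) (nat_lit 0) (XT.nd (nat_lit 234) (nat_lit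 152) (nat_lit 0) (XT.nd (nat_lit 78) (nat_lit 0) (nat_lit 0) (XT.lf (nat_lit 0) (nat_lit 5690280615) (nat_lit 76) (nat_lit 93912876416) (nat_lit 76) (nat_lit 71345344496) (nat_lit 9) (nat_lit 4) (nat_lit 10) (nat_lit 5) (nat_lit 10) (nat_lit 4) (nat_lit 448) (nat_lit 345) (nat_lit 227)) (XT.nd (nat_lit 78) (nat_lit 0) (nat_lit 0) (XT.lf (nat_lit 0) (nat_lit 43439874323) (nat_lit 76) (nat_lit 78842317392) (nat_lit 76) (nat_lit 56271379022) (nat_lit 9) (nat_lit 4) (nat_lit 10) (nat_lit 5) (nat_lit 10) (nat_lit 4) (nat_lit 449) (nat_lit 345) (nat_lit 226)) (XT.lf (nat_lit 0) (nat_lit 83066009070) (nat_lit 76) (nat_lit 63023671041) (nat_lit 76) (nat_lit 40449488435) (nat_lit 9) (nat_lit 4) (nat_lit 10) (nat_lit 5) (nat_lit 10) (nat_lit 4) (nat_lit 450) (nat_lit 345) (nat_lit 225)))) (XT.nd (nat_lit 156) (nat_lit 152) (nat_lit 0) (XT.nd (nat_lit 78) (nat_lit 0) (nat_lit 0) (XT.lf (nat_lit 0) (nat_lit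 124663032794) (nat_lit 76) (nat_lit 46419273923) (nat_lit 76) (nat_lit 23842001566) (nat_lit 9) (nat_lit 4) (nat_lit 10) (nat_lit 5) (nat_lit 10) (nat_lit 4) (nat_lit 451) (nat_lit 345) (nat_lit 224)) (XT.lf (nat_lit 0) (nat_lit 168329986028) (nat_lit 76) (nat_lit 28989591756) (nat_lit 76) (nat_lit 6409376780) (nat_lit 9) (nat_lit 4) (nat_lit 10) (nat_lit 5) (nat_lit 10) (nat_lit 4) (nat_lit 452) (nat_lit 345) (nat_lit 223))) (XT.nd (nat_lit 78) (nat_lit 0) (nat_lit 0) (XT.lf (nat_lit 0) (nat_lit 1044564936) (nat_lit 76) (nat_lit 10481085018) (nat_lit 152) (nat_lit 201438323725) (nat_lit 7) (nat_lit 5) (nat_lit 8) (nat_lit 5) (nat_lit 9) (nat_lit 4) (nat_lit 453) (nat_lit 345) (nat_lit 222)) (XT.lf (nat_lit 0) (nat_lit 30886317778) (nat_lit 152) (nat_lit 182355818081) (nat_lit 0) (nat_lit 9376140147) (nat_lit 7) (nat_lit 5) (nat_lit 9) (nat_lit 4) (nat_lit 7) (nat_lit 4) (nat_lit 454) (nat_lit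 345) (nat_lit 221))))) (XT.nd (nat_lit 234) (nat_lit 76) (nat_lit 0) (XT.nd (nat_lit 78) (nat_lit 0) (nat_lit 0) (XT.lf (nat_lit 0) (nat_lit 51382250822) (nat_lit 152) (nat_lit 151495028923) (nat_lit 0) (nat_lit 29869652291) (nat_lit 7) (nat_lit 5) (nat_lit 9) (nat_lit 4) (nat_lit 7) (nat_lit 4) (nat_lit 455) (nat_lit 345) (nat_lit 220)) (XT.nd (nat_lit 78) (nat_lit 0) (nat_lit 0) (XT.lf (nat_lit 0) (nat_lit 72898609816) (nat_lit 152) (nat_lit 119099924090) (nat_lit 0) (nat_lit 51383705666) (nat_lit 7) (nat_lit 5) (nat_lit 9) (nat_lit 4) (nat_lit 7) (nat_lit 4) (nat_lit 456) (nat_lit 345) (nat_lit 219)) (XT.lf (nat_lit 0) (nat_lit 95486624186) (nat_lit 152) (nat_lit 85093372380) (nat_lit 0) (nat_lit 73969524208) (nat_lit 7) (nat_lit 5) (nat_lit 9) (nat_lit 4) (nat_lit 7) (nat_lit 4) (nat_lit 457) (nat_lit 345) (nat_lit 218)))) (XT.nd (nat_lit 156) (nat_lit 76) (nat_lit 0) (XT.nd (nat_lit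 78) (nat_lit 0) (nat_lit 0) (XT.lf (nat_lit 0) (nat_lit 119200074918) (nat_lit 152) (nat_lit 49394405813) (nat_lit 0) (nat_lit 97680883676) (nat_lit 7) (nat_lit 5) (nat_lit 9) (nat_lit 4) (nat_lit 7) (nat_lit 4) (nat_lit 458) (nat_lit 345) (nat_lit 217)) (XT.lf (nat_lit 0) (nat_lit 144095422610) (nat_lit 152) (nat_lit 11918026849) (nat_lit 0) (nat_lit 122574239687) (nat_lit 7) (nat_lit 5) (nat_lit 9) (nat_lit 4) (nat_lit 7) (nat_lit 4) (nat_lit 459) (nat_lit 345) (nat_lit 216))) (XT.nd (nat_lit 78) (nat_lit 0) (nat_lit 0) (XT.lf (nat_lit 0) (nat_lit 28331788140) (nat_lit 76) (nat_lit 142342492371) (nat_lit 76) (nat_lit 120819412610) (nat_lit 6) (nat_lit 4) (nat_lit 7) (nat_lit 5) (nat_lit 7) (nat_lit 4) (nat_lit 460) (nat_lit 345) (nat_lit 215)) (XT.lf (nat_lit 0) (nat_lit 71000799542) (nat_lit 76) (nat_lit 127779584510) (nat_lit 76) (nat_lit 106254698236) (nat_lit 6) (nat_lit 4) (nat_lit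 7) (nat_lit 5) (nat_lit 7) (nat_lit 4) (nat_lit 461) (nat_lit 345) (nat_lit 214))))))))
noncomputable def xc112 : XT := (XT.nd (nat_lit 44538) (nat_lit 0) (nat_lit 5168) (XT.nd (nat_lit 1014) (nat_lit 76) (nat_lit 0) (XT.nd (nat_lit 468) (nat_lit 152) (nat_lit 0) (XT.nd (nat_lit 234) (nat_lit 0) (nat_lit 0) (XT.nd (nat_lit 78) (nat_lit 0) (nat_lit 0) (XT.lf (nat_lit 0) (nat_lit 115796536449) (nat_lit 76) (nat_lit 112491889840) (nat_lit 76) (nat_lit 90965283077) (nat_lit 6) (nat_lit 4) (nat_lit 7) (nat_lit 5) (nat_lit 7) (nat_lit 4) (nat_lit 462) (nat_lit 345) (nat_lit 213)) (XT.nd (nat_lit 78) (nat_lit 0) (nat_lit 0) (XT.lf (nat_lit 0) (nat_lit 162825655378) (nat_lit 76) (nat_lit 96443009085) (nat_lit 76) (nat_lit 74914763762) (nat_lit 6) (nat_lit 4) (nat_lit 7) (nat_lit 5) (nat_lit 7) (nat_lit 4) (nat_lit 463) (nat_lit 345) (nat_lit 212)) (XT.lf (nat_lit 0) (nat_lit 212200130420) (nat_lit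 76) (nat_lit 79594730627) (nat_lit 76) (nat_lit 58064924770) (nat_lit 6) (nat_lit 4) (nat_lit 7) (nat_lit 5) (nat_lit 7) (nat_lit 4) (nat_lit 464) (nat_lit 345) (nat_lit 211)))) (XT.nd (nat_lit 78) (nat_lit 0) (nat_lit 0) (XT.lf (nat_lit 0) (nat_lit 264037519850) (nat_lit 76) (nat_lit 61906939515) (nat_lit 76) (nat_lit 40375647436) (nat_lit 6) (nat_lit 4) (nat_lit 7) (nat_lit 5) (nat_lit 7) (nat_lit 4) (nat_lit 465) (nat_lit 345) (nat_lit 210)) (XT.nd (nat_lit 78) (nat_lit 0) (nat_lit 0) (XT.lf (nat_lit 0) (nat_lit 318461246025) (nat_lit 76) (nat_lit 43337521962) (nat_lit 76) (nat_lit 21804814433) (nat_lit 6) (nat_lit 4) (nat_lit 7) (nat_lit 5) (nat_lit 7) (nat_lit 4) (nat_lit 466) (nat_lit 345) (nat_lit 209)) (XT.lf (nat_lit 0) (nat_lit 375600889243) (nat_lit 76) (nat_lit 23842265069) (nat_lit 76) (nat_lit 2308209492) (nat_lit 6) (nat_lit 4) (nat_lit 7) (nat_lit 5) (nat_lit 7) (nat_lit 4)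 (nat_lit 467) (nat_lit 345) (nat_lit 208))))) (XT.nd (nat_lit 234) (nat_lit 0) (nat_lit 0) (XT.nd (nat_lit 78) (nat_lit 0) (nat_lit 0) (XT.lf (nat_lit 0) (nat_lit 14981810131) (nat_lit 76) (nat_lit 2831433558) (nat_lit 152) (nat_lit 402967543985) (nat_lit 4) (nat_lit 5) (nat_lit 5) (nat_lit 5) (nat_lit 6) (nat_lit 4) (nat_lit 468) (nat_lit 345) (nat_lit 207)) (XT.nd (nat_lit 78) (nat_lit 0) (nat_lit 0) (XT.lf (nat_lit 0) (nat_lit 39611013540) (nat_lit 152) (nat_lit 382011384589) (nat_lit 0) (nat_lit 19100001967) (nat_lit 4) (nat_lit 5) (nat_lit 6) (nat_lit 4) (nat_lit 4) (nat_lit 4) (nat_lit 469) (nat_lit 345) (nat_lit 206)) (XT.lf (nat_lit 0) (nat_lit 62542660843) (nat_lit 152) (nat_lit 357085692702) (nat_lit 0) (nat_lit 42030540228) (nat_lit 4) (nat_lit 5) (nat_lit 6) (nat_lit 4) (nat_lit 4) (nat_lit 4) (nat_lit 470) (nat_lit 345) (nat_lit 205)))) (XT.nd (nat_lit 156) (nat_lit 0) (nat_lit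 0) (XT.nd (nat_lit 78) (nat_lit 0) (nat_lit 0) (XT.lf (nat_lit 0) (nat_lit 86618578145) (nat_lit 152) (nat_lit 330918348385) (nat_lit 0) (nat_lit 66105401300) (nat_lit 4) (nat_lit 5) (nat_lit 6) (nat_lit 4) (nat_lit 4) (nat_lit 4) (nat_lit 471) (nat_lit 345) (nat_lit 204)) (XT.lf (nat_lit 0) (nat_lit 111896089060) (nat_lit 152) (nat_lit 303447048436) (nat_lit 0) (nat_lit 91381906280) (nat_lit 4) (nat_lit 5) (nat_lit 6) (nat_lit 4) (nat_lit 4) (nat_lit 4) (nat_lit 472) (nat_lit 345) (nat_lit 203))) (XT.nd (nat_lit 78) (nat_lit 0) (nat_lit 0) (XT.lf (nat_lit 0) (nat_lit 138435378136) (nat_lit 152) (nat_lit 274606384998) (nat_lit 0) (nat_lit 117920237324) (nat_lit 4) (nat_lit 5) (nat_lit 6) (nat_lit 4) (nat_lit 4) (nat_lit 4) (nat_lit 473) (nat_lit 345) (nat_lit 202)) (XT.lf (nat_lit 0) (nat_lit 166299634158) (nat_lit 152) (nat_lit 244327689826) (nat_lit 0) (nat_lit 145783580935) (nat_lit 4)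 (nat_lit 5) (nat_lit 6) (nat_lit 4) (nat_lit 4) (nat_lit 4) (nat_lit 474) (nat_lit 345) (nat_lit 201)))))) (XT.nd (nat_lit 546) (nat_lit 0) (nat_lit 0) (XT.nd (nat_lit 234) (nat_lit 76) (nat_lit 0) (XT.nd (nat_lit 78) (nat_lit 0) (nat_lit 0) (XT.lf (nat_lit 0) (nat_lit 195555200592) (nat_lit 152) (nat_lit 212538870787) (nat_lit 0) (nat_lit 175038278405) (nat_lit 4) (nat_lit 5) (nat_lit 6) (nat_lit 4) (nat_lit 4) (nat_lit 4) (nat_lit 475) (nat_lit 345) (nat_lit 200)) (XT.nd (nat_lit 78) (nat_lit 0) (nat_lit 0) (XT.lf (nat_lit 0) (nat_lit 226271733549) (nat_lit 152) (nat_lit 179164240217) (nat_lit 0) (nat_lit 205753983777) (nat_lit 4) (nat_lit 5) (nat_lit 6) (nat_lit 4) (nat_lit 4) (nat_lit 4) (nat_lit 476) (nat_lit 345) (nat_lit 199)) (XT.lf (nat_lit 0) (nat_lit 258522367630) (nat_lit 152) (nat_lit 144124334710) (nat_lit 0) (nat_lit 238003829683) (nat_lit 4) (nat_lit 5) (nat_lit 6) (nat_lit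 4) (nat_lit 4) (nat_lit 4) (nat_lit 477) (nat_lit 345) (nat_lit 198)))) (XT.nd (nat_lit 156) (nat_lit 76) (nat_lit 0) (XT.nd (nat_lit 78) (nat_lit 0) (nat_lit 0) (XT.lf (nat_lit 0) (nat_lit 292383890061) (nat_lit 152) (nat_lit 107335725921) (nat_lit 0) (nat_lit 271864601470) (nat_lit 4) (nat_lit 5) (nat_lit 6) (nat_lit 4) (nat_lit 4) (nat_lit 4) (nat_lit 478) (nat_lit 345) (nat_lit 197)) (XT.lf (nat_lit 0) (nat_lit 327936923513) (nat_lit 152) (nat_lit 68710821922) (nat_lit 0) (nat_lit 307416920024) (nat_lit 4) (nat_lit 5) (nat_lit 6) (nat_lit 4) (nat_lit 4) (nat_lit 4) (nat_lit 479) (nat_lit 345) (nat_lit 196))) (XT.nd (nat_lit 78) (nat_lit 76) (nat_lit 0) (XT.lf (nat_lit 0) (nat_lit 365266118066) (nat_lit 152) (nat_lit 28157658657) (nat_lit 0) (nat_lit 344745433721) (nat_lit 4) (nat_lit 5) (nat_lit 6) (nat_lit 4) (nat_lit 4) (nat_lit 4) (nat_lit 480) (nat_lit 345) (nat_lit 195)) (XT.lf (nat_lit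 0) (nat_lit 14897119894) (nat_lit 76) (nat_lit 389795818650) (nat_lit 76) (nat_lit 369274485872) (nat_lit 3) (nat_lit 4) (nat_lit 4) (nat_lit 5) (nat_lit 4) (nat_lit 4) (nat_lit 481) (nat_lit 345) (nat_lit 194))))) (XT.nd (nat_lit 42666) (nat_lit 0) (nat_lit 11552) (XT.nd (nat_lit 42510) (nat_lit 0) (nat_lit 12008) (XT.lf (nat_lit 0) (nat_lit 61079409822) (nat_lit 76) (nat_lit 385487158125) (nat_lit 76) (nat_lit 364965207790) (nat_lit 3) (nat_lit 4) (nat_lit 4) (nat_lit 5) (nat_lit 4) (nat_lit 4) (nat_lit 482) (nat_lit 345) (nat_lit 193)) (XT.nd (nat_lit 78) (nat_lit 0) (nat_lit 0) (XT.lf (nat_lit 0) (nat_lit 1075404275) (nat_lit 0) (nat_lit 1075404275) (nat_lit 380) (nat_lit 1278522061) (nat_lit 161) (nat_lit 5) (nat_lit 161) (nat_lit 3) (nat_lit 166) (nat_lit 3) (nat_lit 346) (nat_lit 346) (nat_lit 328)) (XT.lf (nat_lit 0) (nat_lit 5606552920) (nat_lit 0) (nat_lit 714315692) (nat_lit 380)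 (nat_lit 612173310) (nat_lit 161) (nat_lit 5) (nat_lit 161) (nat_lit 3) (nat_lit 166) (nat_lit 3) (nat_lit 347) (nat_lit 346) (nat_lit 327)))) (XT.nd (nat_lit 156) (nat_lit 0) (nat_lit 0) (XT.nd (nat_lit 78) (nat_lit 0) (nat_lit 0) (XT.lf (nat_lit 0) (nat_lit 1308406555) (nat_lit 456) (nat_lit 4822010637) (nat_lit 532) (nat_lit 883488032) (nat_lit 155) (nat_lit 5) (nat_lit 161) (nat_lit 5) (nat_lit 162) (nat_lit 5) (nat_lit 348) (nat_lit 346) (nat_lit 326)) (XT.lf (nat_lit 0) (nat_lit 3220297748) (nat_lit 456) (nat_lit 1258818016) (nat_lit 532) (nat_lit 2623488485) (nat_lit 155) (nat_lit 5) (nat_lit 161) (nat_lit 5) (nat_lit 162) (nat_lit 5) (nat_lit 349) (nat_lit 346) (nat_lit 325))) (XT.nd (nat_lit 78) (nat_lit 0) (nat_lit 0) (XT.lf (nat_lit 76) (nat_lit 2494501845) (nat_lit 0) (nat_lit 2659191887) (nat_lit 532) (nat_lit 2045831942) (nat_lit 156) (nat_lit 5) (nat_lit 155) (nat_lit 5) (nat_lit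 162) (nat_lit 5) (nat_lit 350) (nat_lit 346) (nat_lit 324)) (XT.lf (nat_lit 76) (nat_lit 6412413703) (nat_lit 0) (nat_lit 683968655) (nat_lit 532) (nat_lit 209358680) (nat_lit 156) (nat_lit 5) (nat_lit 155) (nat_lit 5) (nat_lit 162) (nat_lit 5) (nat_lit 351) (nat_lit 346) (nat_lit 323))))))) (XT.nd (nat_lit 1014) (nat_lit 2508) (nat_lit 0) (XT.nd (nat_lit 468) (nat_lit 2280) (nat_lit 0) (XT.nd (nat_lit 234) (nat_lit 1140) (nat_lit 0) (XT.nd (nat_lit 78) (nat_lit 0) (nat_lit 0) (XT.lf (nat_lit 0) (nat_lit 1630794876) (nat_lit 532) (nat_lit 4327710200) (nat_lit 608) (nat_lit 1459148215) (nat_lit 149) (nat_lit 5) (nat_lit 156) (nat_lit 5) (nat_lit 157) (nat_lit 5) (nat_lit 352) (nat_lit 346) (nat_lit 322)) (XT.nd (nat_lit 78) (nat_lit 0) (nat_lit 0) (XT.lf (nat_lit 0) (nat_lit 3481752586) (nat_lit 532) (nat_lit 317657298) (nat_lit 608) (nat_lit 3739356303) (nat_lit 149) (nat_lit 5) (nat_lit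 156) (nat_lit 5) (nat_lit 157) (nat_lit 5) (nat_lit 353) (nat_lit 346) (nat_lit 321)) (XT.lf (nat_lit 76) (nat_lit 3951021112) (nat_lit 0) (nat_lit 1439964299) (nat_lit 608) (nat_lit 2276727958) (nat_lit 150) (nat_lit 5) (nat_lit 149) (nat_lit 5) (nat_lit 157) (nat_lit 5) (nat_lit 354) (nat_lit 346) (nat_lit 320)))) (XT.nd (nat_lit 78) (nat_lit 684) (nat_lit 0) (XT.lf (nat_lit 0) (nat_lit 571003025) (nat_lit 532) (nat_lit 6763211316) (nat_lit 608) (nat_lit 472028751) (nat_lit 143) (nat_lit 5) (nat_lit 150) (nat_lit 5) (nat_lit 151) (nat_lit 5) (nat_lit 355) (nat_lit 346) (nat_lit 319)) (XT.nd (nat_lit 78) (nat_lit 608) (nat_lit 0) (XT.lf (nat_lit 0) (nat_lit 1374659469) (nat_lit 608) (nat_lit 2867472125) (nat_lit 76) (nat_lit 3708648284) (nat_lit 142) (nat_lit 5) (nat_lit 150) (nat_lit 5) (nat_lit 143) (nat_lit 5) (nat_lit 356) (nat_lit 346) (nat_lit 318)) (XT.lf (nat_lit 0) (nat_lit 1694529296)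 (nat_lit 608) (nat_lit 1543759316) (nat_lit 684) (nat_lit 4866897972) (nat_lit 134) (nat_lit 5) (nat_lit 142) (nat_lit 5) (nat_lit 143) (nat_lit 5) (nat_lit 357) (nat_lit 346) (nat_lit 317))))) (XT.nd (nat_lit 234) (nat_lit 1520) (nat_lit 0) (XT.nd (nat_lit 78) (nat_lit 760) (nat_lit 0) (XT.lf (nat_lit 0) (nat_lit 5181823493) (nat_lit 684) (nat_lit 1775554601) (nat_lit 76) (nat_lit 1310650247) (nat_lit 134) (nat_lit 5) (nat_lit 143) (nat_lit 5) (nat_lit 135) (nat_lit 5) (nat_lit 358) (nat_lit 346) (nat_lit 316)) (XT.nd (nat_lit 78) (nat_lit 76) (nat_lit 0) (XT.lf (nat_lit 0) (nat_lit 3094640934) (nat_lit 684) (nat_lit 4122691969) (nat_lit 760) (nat_lit 1221987898) (nat_lit 125) (nat_lit 5) (nat_lit 134) (nat_lit 5) (nat_lit 135) (nat_lit 5) (nat_lit 359) (nat_lit 346) (nat_lit 315)) (XT.lf (nat_lit 0) (nat_lit 665017312) (nat_lit 760) (nat_lit 431531925) (nat_lit 76) (nat_lit 7524442725)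 (nat_lit 124) (nat_lit 5) (nat_lit 134) (nat_lit 5) (nat_lit 125) (nat_lit 5) (nat_lit 360) (nat_lit 346) (nat_lit 314)))) (XT.nd (nat_lit 156) (nat_lit 380) (nat_lit 0) (XT.nd (nat_lit 78) (nat_lit 380) (nat_lit 0) (XT.lf (nat_lit 0) (nat_lit 2640492926) (nat_lit 836) (nat_lit 4052689579) (nat_lit 76) (nat_lit 2115845099) (nat_lit 114) (nat_lit 5) (nat_lit 125) (nat_lit 5) (nat_lit 115) (nat_lit 5) (nat_lit 361) (nat_lit 346) (nat_lit 313)) (XT.lf (nat_lit 0) (nat_lit 1160519698) (nat_lit 380) (nat_lit 3526509597) (nat_lit 456) (nat_lit 4320861290) (nat_lit 109) (nat_lit 5) (nat_lit 114) (nat_lit 5) (nat_lit 115) (nat_lit 5) (nat_lit 362) (nat_lit 346) (nat_lit 312))) (XT.nd (nat_lit 78) (nat_lit 380) (nat_lit 0) (XT.lf (nat_lit 0) (nat_lit 6705223197) (nat_lit 380) (nat_lit 130368718) (nat_lit 456) (nat_lit 2381157833) (nat_lit 109) (nat_lit 5) (nat_lit 114) (nat_lit 5) (nat_lit 115) (nat_lit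 5) (nat_lit 363) (nat_lit 346) (nat_lit 311)) (XT.lf (nat_lit 0) (nat_lit 3065749664) (nat_lit 380) (nat_lit 6061670896) (nat_lit 456) (nat_lit 306875609) (nat_lit 104) (nat_lit 5) (nat_lit 109) (nat_lit 5) (nat_lit 110) (nat_lit 5) (nat_lit 364) (nat_lit 346) (nat_lit 310)))))) (XT.nd (nat_lit 546) (nat_lit 1140) (nat_lit 0) (XT.nd (nat_lit 234) (nat_lit 608) (nat_lit 0) (XT.nd (nat_lit 78) (nat_lit 684) (nat_lit 0) (XT.lf (nat_lit 0) (nat_lit 1791913383) (nat_lit 456) (nat_lit 754446543) (nat_lit 76) (nat_lit 7115898133) (nat_lit 103) (nat_lit 5) (nat_lit 109) (nat_lit 5) (nat_lit 104) (nat_lit 5) (nat_lit 365) (nat_lit 346) (nat_lit 309)) (XT.nd (nat_lit 78) (nat_lit 304) (nat_lit 0) (XT.lf (nat_lit 0) (nat_lit 4024662409) (nat_lit 456) (nat_lit 4684215161) (nat_lit 76) (nat_lit 1190553523) (nat_lit 98) (nat_lit 5) (nat_lit 104) (nat_lit 5) (nat_lit 99) (nat_lit 5) (nat_lit 366) (nat_lit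 346) (nat_lit 308)) (XT.lf (nat_lit 0) (nat_lit 1291786942) (nat_lit 304) (nat_lit 5092344349) (nat_lit 380) (nat_lit 3763607144) (nat_lit 94) (nat_lit 5) (nat_lit 98) (nat_lit 5) (nat_lit 99) (nat_lit 5) (nat_lit 367) (nat_lit 346) (nat_lit 307)))) (XT.nd (nat_lit 156) (nat_lit 228) (nat_lit 0) (XT.nd (nat_lit 78) (nat_lit 380) (nat_lit 0) (XT.lf (nat_lit 0) (nat_lit 7660997316) (nat_lit 304) (nat_lit 1221873083) (nat_lit 380) (nat_lit 1524554267) (nat_lit 94) (nat_lit 5) (nat_lit 98) (nat_lit 5) (nat_lit 99) (nat_lit 5) (nat_lit 368) (nat_lit 346) (nat_lit 306)) (XT.lf (nat_lit 0) (nat_lit 847050025) (nat_lit 380) (nat_lit 7017279760) (nat_lit 76) (nat_lit 2812793466) (nat_lit 89) (nat_lit 5) (nat_lit 94) (nat_lit 5) (nat_lit 90) (nat_lit 5) (nat_lit 369) (nat_lit 346) (nat_lit 305))) (XT.nd (nat_lit 78) (nat_lit 228) (nat_lit 0) (XT.lf (nat_lit 0) (nat_lit 3298577501) (nat_lit 380) (nat_lit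 590340806) (nat_lit 76) (nat_lit 7069534423) (nat_lit 89) (nat_lit 5) (nat_lit 94) (nat_lit 5) (nat_lit 90) (nat_lit 5) (nat_lit 370) (nat_lit 346) (nat_lit 304)) (XT.lf (nat_lit 0) (nat_lit 5924694072) (nat_lit 304) (nat_lit 4963121059) (nat_lit 76) (nat_lit 363456247) (nat_lit 86) (nat_lit 5) (nat_lit 90) (nat_lit 5) (nat_lit 87) (nat_lit 5) (nat_lit 371) (nat_lit 346) (nat_lit 303))))) (XT.nd (nat_lit 234) (nat_lit 532) (nat_lit 0) (XT.nd (nat_lit 78) (nat_lit 304) (nat_lit 0) (XT.lf (nat_lit 0) (nat_lit 1903444207) (nat_lit 304) (nat_lit 6831456189) (nat_lit 380) (nat_lit 2821213588) (nat_lit 82) (nat_lit 5) (nat_lit 86) (nat_lit 5) (nat_lit 87) (nat_lit 5) (nat_lit 372) (nat_lit 346) (nat_lit 302)) (XT.nd (nat_lit 78) (nat_lit 304) (nat_lit 0) (XT.lf (nat_lit 0) (nat_lit 9220325457) (nat_lit 304) (nat_lit 2499897418) (nat_lit 380) (nat_lit 154266714) (nat_lit 82) (nat_lit 5) (nat_lit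 86) (nat_lit 5) (nat_lit 87) (nat_lit 5) (nat_lit 373) (nat_lit 346) (nat_lit 301)) (XT.lf (nat_lit 0) (nat_lit 2621093334) (nat_lit 304) (nat_lit 7498171502) (nat_lit 76) (nat_lit 2084484978) (nat_lit 78) (nat_lit 5) (nat_lit 82) (nat_lit 5) (nat_lit 79) (nat_lit 5) (nat_lit 374) (nat_lit 346) (nat_lit 300)))) (XT.nd (nat_lit 156) (nat_lit 304) (nat_lit 0) (XT.nd (nat_lit 78) (nat_lit 228) (nat_lit 0) (XT.lf (nat_lit 0) (nat_lit 5569868501) (nat_lit 304) (nat_lit 130896778) (nat_lit 76) (nat_lit 6846608028) (nat_lit 78) (nat_lit 5) (nat_lit 82) (nat_lit 5) (nat_lit 79) (nat_lit 5) (nat_lit 375) (nat_lit 346) (nat_lit 299)) (XT.lf (nat_lit 0) (nat_lit 7792357294) (nat_lit 228) (nat_lit 950779126) (nat_lit 304) (nat_lit 4161206267) (nat_lit 75) (nat_lit 5) (nat_lit 78) (nat_lit 5) (nat_lit 79) (nat_lit 5) (nat_lit 376) (nat_lit 346) (nat_lit 298))) (XT.nd (nat_lit 78) (nat_lit 76) (nat_lit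 0) (XT.lf (nat_lit 0) (nat_lit 2801153571) (nat_lit 228) (nat_lit 9339222866) (nat_lit 304) (nat_lit 1135535246) (nat_lit 72) (nat_lit 5) (nat_lit 75) (nat_lit 5) (nat_lit 76) (nat_lit 5) (nat_lit 377) (nat_lit 346) (nat_lit 297)) (XT.lf (nat_lit 0) (nat_lit 2036362703) (nat_lit 304) (nat_lit 2486326669) (nat_lit 76) (nat_lit 9138777103) (nat_lit 71) (nat_lit 5) (nat_lit 75) (nat_lit 5) (nat_lit 72) (nat_lit 5) (nat_lit 378) (nat_lit 346) (nat_lit 296))))))))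
noncomputable def xc113 : XT := (XT.nd (nat_lit 2106) (nat_lit 1444) (nat_lit 0) (XT.nd (nat_lit 1014) (nat_lit 1140) (nat_lit 0) (XT.nd (nat_lit 468) (nat_lit 760) (nat_lit 0) (XT.nd (nat_lit 234) (nat_lit 456) (nat_lit 0) (XT.nd (nat_lit 78) (nat_lit 152) (nat_lit 0) (XT.lf (nat_lit 0) (nat_lit 5391270836) (nat_lit 304) (nat_lit 8057345156) (nat_lit 76) (nat_lit 613637738) (nat_lit 68) (nat_lit 5) (nat_lit 72) (nat_lit 5) (nat_lit 69) (nat_lit 5) (nat_lit 379) (nat_lit 346) (nat_lit 295)) (XT.nd (nat_lit 78) (nat_lit 0) (nat_lit 0) (XT.lf (nat_lit 0) (nat_lit 403228643) (nat_lit 152) (nat_lit 8593438442) (nat_lit 228) (nat_lit 5482289767) (nat_lit 66) (nat_lit 5) (nat_lit 68) (nat_lit 5) (nat_lit 69) (nat_lit 5) (nat_lit 380) (nat_lit 346) (nat_lit 294)) (XT.lf (nat_lit 0) (nat_lit 9506651436) (nat_lit 152) (nat_lit 3372636880) (nat_lit 228) (nat_lit 2032372049) (nat_lit 66) (nat_lit 5)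 (nat_lit 68) (nat_lit 5) (nat_lit 69) (nat_lit 5) (nat_lit 381) (nat_lit 346) (nat_lit 293)))) (XT.nd (nat_lit 78) (nat_lit 152) (nat_lit 0) (XT.lf (nat_lit 0) (nat_lit 1593206703) (nat_lit 304) (nat_lit 11662096381) (nat_lit 76) (nat_lit 2106763683) (nat_lit 62) (nat_lit 5) (nat_lit 66) (nat_lit 5) (nat_lit 63) (nat_lit 5) (nat_lit 382) (nat_lit 346) (nat_lit 292)) (XT.nd (nat_lit 78) (nat_lit 152) (nat_lit 0) (XT.lf (nat_lit 0) (nat_lit 5442453753) (nat_lit 304) (nat_lit 2531634615) (nat_lit 76) (nat_lit 7853715944) (nat_lit 62) (nat_lit 5) (nat_lit 66) (nat_lit 5) (nat_lit 63) (nat_lit 5) (nat_lit 383) (nat_lit 346) (nat_lit 291)) (XT.lf (nat_lit 0) (nat_lit 7230623910) (nat_lit 152) (nat_lit 2330585947) (nat_lit 228) (nat_lit 6751777232) (nat_lit 60) (nat_lit 5) (nat_lit 62) (nat_lit 5) (nat_lit 63) (nat_lit 5) (nat_lit 384) (nat_lit 346) (nat_lit 290))))) (XT.nd (nat_lit 234) (nat_lit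 380) (nat_lit 0) (XT.nd (nat_lit 78) (nat_lit 228) (nat_lit 0) (XT.lf (nat_lit 0) (nat_lit 656079212) (nat_lit 152) (nat_lit 13304459155) (nat_lit 228) (nat_lit 2858169088) (nat_lit 58) (nat_lit 5) (nat_lit 60) (nat_lit 5) (nat_lit 61) (nat_lit 5) (nat_lit 385) (nat_lit 346) (nat_lit 289)) (XT.nd (nat_lit 78) (nat_lit 152) (nat_lit 0) (XT.lf (nat_lit 0) (nat_lit 1350210478) (nat_lit 228) (nat_lit 6262138337) (nat_lit 76) (nat_lit 9728440851) (nat_lit 57) (nat_lit 5) (nat_lit 60) (nat_lit 5) (nat_lit 58) (nat_lit 5) (nat_lit 386) (nat_lit 346) (nat_lit 288)) (XT.lf (nat_lit 0) (nat_lit 4165613537) (nat_lit 152) (nat_lit 1538970053) (nat_lit 228) (nat_lit 12180477039) (nat_lit 55) (nat_lit 5) (nat_lit 57) (nat_lit 5) (nat_lit 58) (nat_lit 5) (nat_lit 387) (nat_lit 346) (nat_lit 287)))) (XT.nd (nat_lit 156) (nat_lit 228) (nat_lit 0) (XT.nd (nat_lit 78) (nat_lit 152) (nat_lit 0) (XT.lf (nat_lit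 0) (nat_lit 10427027650) (nat_lit 228) (nat_lit 3251032592) (nat_lit 76) (nat_lit 4770975659) (nat_lit 55) (nat_lit 5) (nat_lit 58) (nat_lit 5) (nat_lit 56) (nat_lit 5) (nat_lit 388) (nat_lit 346) (nat_lit 286)) (XT.lf (nat_lit 0) (nat_lit 7916891328) (nat_lit 152) (nat_lit 7586132114) (nat_lit 228) (nat_lit 3532322994) (nat_lit 53) (nat_lit 5) (nat_lit 55) (nat_lit 5) (nat_lit 56) (nat_lit 5) (nat_lit 389) (nat_lit 346) (nat_lit 285))) (XT.nd (nat_lit 78) (nat_lit 0) (nat_lit 0) (XT.lf (nat_lit 0) (nat_lit 37432013) (nat_lit 152) (nat_lit 1131913299) (nat_lit 228) (nat_lit 18479445559) (nat_lit 50) (nat_lit 5) (nat_lit 52) (nat_lit 5) (nat_lit 53) (nat_lit 5) (nat_lit 390) (nat_lit 346) (nat_lit 284)) (XT.lf (nat_lit 0) (nat_lit 6236043532) (nat_lit 228) (nat_lit 8348136112) (nat_lit 76) (nat_lit 5693406642) (nat_lit 50) (nat_lit 5) (nat_lit 53) (nat_lit 5) (nat_lit 51) (nat_lit 5) (nat_lit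 391) (nat_lit 346) (nat_lit 283)))))) (XT.nd (nat_lit 546) (nat_lit 532) (nat_lit 0) (XT.nd (nat_lit 234) (nat_lit 304) (nat_lit 0) (XT.nd (nat_lit 78) (nat_lit 152) (nat_lit 0) (XT.lf (nat_lit 0) (nat_lit 3522297562) (nat_lit 152) (nat_lit 8077935557) (nat_lit 228) (nat_lit 9335387094) (nat_lit 48) (nat_lit 5) (nat_lit 50) (nat_lit 5) (nat_lit 51) (nat_lit 5) (nat_lit 392) (nat_lit 346) (nat_lit 282)) (XT.nd (nat_lit 78) (nat_lit 152) (nat_lit 0) (XT.lf (nat_lit 0) (nat_lit 16226760127) (nat_lit 152) (nat_lit 1118488942) (nat_lit 228) (nat_lit 4275682169) (nat_lit 48) (nat_lit 5) (nat_lit 50) (nat_lit 5) (nat_lit 51) (nat_lit 5) (nat_lit 393) (nat_lit 346) (nat_lit 281)) (XT.lf (nat_lit 0) (nat_lit 1189955518) (nat_lit 152) (nat_lit 15035141842) (nat_lit 76) (nat_lit 6105299683) (nat_lit 46) (nat_lit 5) (nat_lit 48) (nat_lit 5) (nat_lit 47) (nat_lit 5) (nat_lit 394) (nat_lit 346) (nat_lit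 280)))) (XT.nd (nat_lit 156) (nat_lit 152) (nat_lit 0) (XT.nd (nat_lit 78) (nat_lit 152) (nat_lit 0) (XT.lf (nat_lit 0) (nat_lit 6868802604) (nat_lit 152) (nat_lit 2402453402) (nat_lit 76) (nat_lit 13796399948) (nat_lit 46) (nat_lit 5) (nat_lit 48) (nat_lit 5) (nat_lit 47) (nat_lit 5) (nat_lit 395) (nat_lit 346) (nat_lit 279)) (XT.lf (nat_lit 0) (nat_lit 11173604530) (nat_lit 152) (nat_lit 1806183654) (nat_lit 228) (nat_lit 10854584961) (nat_lit 44) (nat_lit 5) (nat_lit 46) (nat_lit 5) (nat_lit 47) (nat_lit 5) (nat_lit 396) (nat_lit 346) (nat_lit 278))) (XT.nd (nat_lit 78) (nat_lit 76) (nat_lit 0) (XT.lf (nat_lit 0) (nat_lit 757751632) (nat_lit 76) (nat_lit 18759921064) (nat_lit 152) (nat_lit 5115690913) (nat_lit 43) (nat_lit 5) (nat_lit 44) (nat_lit 5) (nat_lit 45) (nat_lit 4) (nat_lit 397) (nat_lit 346) (nat_lit 277)) (XT.lf (nat_lit 0) (nat_lit 1102652676) (nat_lit 152) (nat_lit 10268419763)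 (nat_lit 76) (nat_lit 14089443339) (nat_lit 42) (nat_lit 5) (nat_lit 44) (nat_lit 5) (nat_lit 43) (nat_lit 5) (nat_lit 398) (nat_lit 346) (nat_lit 276))))) (XT.nd (nat_lit 234) (nat_lit 304) (nat_lit 0) (XT.nd (nat_lit 78) (nat_lit 76) (nat_lit 0) (XT.lf (nat_lit 0) (nat_lit 4019878423) (nat_lit 152) (nat_lit 3478203852) (nat_lit 228) (nat_lit 18824849840) (nat_lit 40) (nat_lit 5) (nat_lit 42) (nat_lit 5) (nat_lit 43) (nat_lit 5) (nat_lit 399) (nat_lit 346) (nat_lit 275)) (XT.nd (nat_lit 78) (nat_lit 76) (nat_lit 0) (XT.lf (nat_lit 0) (nat_lit 14440648586) (nat_lit 228) (nat_lit 7962878018) (nat_lit 76) (nat_lit 4813578433) (nat_lit 40) (nat_lit 5) (nat_lit 43) (nat_lit 5) (nat_lit 41) (nat_lit 4) (nat_lit 400) (nat_lit 346) (nat_lit 274)) (XT.lf (nat_lit 0) (nat_lit 7226430923) (nat_lit 76) (nat_lit 14650449210) (nat_lit 152) (nat_lit 6271783463) (nat_lit 39) (nat_lit 5) (nat_lit 40) (nat_lit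 5) (nat_lit 41) (nat_lit 4) (nat_lit 401) (nat_lit 346) (nat_lit 273)))) (XT.nd (nat_lit 156) (nat_lit 76) (nat_lit 0) (XT.nd (nat_lit 78) (nat_lit 152) (nat_lit 0) (XT.lf (nat_lit 0) (nat_lit 654102451) (nat_lit 152) (nat_lit 5721561737) (nat_lit 76) (nat_lit 22745011545) (nat_lit 38) (nat_lit 5) (nat_lit 40) (nat_lit 5) (nat_lit 39) (nat_lit 5) (nat_lit 402) (nat_lit 346) (nat_lit 272)) (XT.lf (nat_lit 0) (nat_lit 7896415080) (nat_lit 228) (nat_lit 19739374989) (nat_lit 76) (nat_lit 2491315643) (nat_lit 36) (nat_lit 5) (nat_lit 39) (nat_lit 5) (nat_lit 37) (nat_lit 4) (nat_lit 403) (nat_lit 346) (nat_lit 271))) (XT.nd (nat_lit 78) (nat_lit 76) (nat_lit 0) (XT.lf (nat_lit 0) (nat_lit 15681886840) (nat_lit 228) (nat_lit 3824378322) (nat_lit 76) (nat_lit 11668543009) (nat_lit 36) (nat_lit 5) (nat_lit 39) (nat_lit 5) (nat_lit 37) (nat_lit 4) (nat_lit 404) (nat_lit 346) (nat_lit 270)) (XT.lf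 (nat_lit 0) (nat_lit 13272715144) (nat_lit 76) (nat_lit 10770225625) (nat_lit 152) (nat_lit 8222642562) (nat_lit 35) (nat_lit 5) (nat_lit 36) (nat_lit 5) (nat_lit 37) (nat_lit 4) (nat_lit 405) (nat_lit 346) (nat_lit 269))))))) (XT.nd (nat_lit 1014) (nat_lit 684) (nat_lit 0) (XT.nd (nat_lit 468) (nat_lit 304) (nat_lit 0) (XT.nd (nat_lit 234) (nat_lit 228) (nat_lit 0) (XT.nd (nat_lit 78) (nat_lit 228) (nat_lit 0) (XT.lf (nat_lit 0) (nat_lit 31319594625) (nat_lit 76) (nat_lit 1546709926) (nat_lit 152) (nat_lit 542382701) (nat_lit 35) (nat_lit 5) (nat_lit 36) (nat_lit 5) (nat_lit 37) (nat_lit 4) (nat_lit 406) (nat_lit 346) (nat_lit 268)) (XT.nd (nat_lit 78) (nat_lit 0) (nat_lit 0) (XT.lf (nat_lit 0) (nat_lit 7644197288) (nat_lit 228) (nat_lit 18705960153) (nat_lit 76) (nat_lit 8234766908) (nat_lit 32) (nat_lit 5) (nat_lit 35) (nat_lit 5) (nat_lit 33) (nat_lit 4) (nat_lit 407) (nat_lit 346) (nat_lit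 267)) (XT.lf (nat_lit 0) (nat_lit 16263459772) (nat_lit 228) (nat_lit 1071903460) (nat_lit 76) (nat_lit 18482088910) (nat_lit 32) (nat_lit 5) (nat_lit 35) (nat_lit 5) (nat_lit 33) (nat_lit 4) (nat_lit 408) (nat_lit 346) (nat_lit 266)))) (XT.nd (nat_lit 78) (nat_lit 152) (nat_lit 0) (XT.lf (nat_lit 0) (nat_lit 17984398493) (nat_lit 76) (nat_lit 7591278909) (nat_lit 152) (nat_lit 11522831675) (nat_lit 31) (nat_lit 5) (nat_lit 32) (nat_lit 5) (nat_lit 33) (nat_lit 4) (nat_lit 409) (nat_lit 346) (nat_lit 265)) (XT.nd (nat_lit 78) (nat_lit 152) (nat_lit 0) (XT.lf (nat_lit 0) (nat_lit 35394485253) (nat_lit 152) (nat_lit 488675447) (nat_lit 0) (nat_lit 2558411437) (nat_lit 31) (nat_lit 5) (nat_lit 33) (nat_lit 4) (nat_lit 31) (nat_lit 4) (nat_lit 410) (nat_lit 346) (nat_lit 264)) (XT.lf (nat_lit 0) (nat_lit 6083525695) (nat_lit 152) (nat_lit 20393995639) (nat_lit 76) (nat_lit 13348780629) (nat_lit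 29) (nat_lit 5) (nat_lit 31) (nat_lit 5) (nat_lit 30) (nat_lit 4) (nat_lit 411) (nat_lit 346) (nat_lit 263))))) (XT.nd (nat_lit 234) (nat_lit 228) (nat_lit 0) (XT.nd (nat_lit 78) (nat_lit 76) (nat_lit 0) (XT.lf (nat_lit 0) (nat_lit 15558923640) (nat_lit 152) (nat_lit 997191280) (nat_lit 76) (nat_lit 24722124844) (nat_lit 29) (nat_lit 5) (nat_lit 31) (nat_lit 5) (nat_lit 30) (nat_lit 4) (nat_lit 412) (nat_lit 346) (nat_lit 262)) (XT.nd (nat_lit 78) (nat_lit 0) (nat_lit 0) (XT.lf (nat_lit 0) (nat_lit 19976884278) (nat_lit 76) (nat_lit 5826193027) (nat_lit 152) (nat_lit 16984949704) (nat_lit 28) (nat_lit 5) (nat_lit 29) (nat_lit 5) (nat_lit 30) (nat_lit 4) (nat_lit 413) (nat_lit 346) (nat_lit 261)) (XT.lf (nat_lit 0) (nat_lit 36644713864) (nat_lit 152) (nat_lit 2455427823) (nat_lit 0) (nat_lit 5268899927) (nat_lit 28) (nat_lit 5) (nat_lit 30) (nat_lit 4) (nat_lit 28) (nat_lit 4) (nat_lit 414)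 (nat_lit 346) (nat_lit 260)))) (XT.nd (nat_lit 156) (nat_lit 76) (nat_lit 0) (XT.nd (nat_lit 78) (nat_lit 0) (nat_lit 0) (XT.lf (nat_lit 0) (nat_lit 2324188119) (nat_lit 152) (nat_lit 26634067688) (nat_lit 76) (nat_lit 17049849298) (nat_lit 26) (nat_lit 5) (nat_lit 28) (nat_lit 5) (nat_lit 27) (nat_lit 4) (nat_lit 415) (nat_lit 346) (nat_lit 259)) (XT.lf (nat_lit 0) (nat_lit 12641816816) (nat_lit 152) (nat_lit 5504680663) (nat_lit 76) (nat_lit 29574980637) (nat_lit 26) (nat_lit 5) (nat_lit 28) (nat_lit 5) (nat_lit 27) (nat_lit 4) (nat_lit 416) (nat_lit 346) (nat_lit 258))) (XT.nd (nat_lit 78) (nat_lit 0) (nat_lit 0) (XT.lf (nat_lit 0) (nat_lit 17202672580) (nat_lit 76) (nat_lit 6526007284) (nat_lit 152) (nat_lit 25779173715) (nat_lit 25) (nat_lit 5) (nat_lit 26) (nat_lit 5) (nat_lit 27) (nat_lit 4) (nat_lit 417) (nat_lit 346) (nat_lit 257)) (XT.lf (nat_lit 0) (nat_lit 35538085055) (nat_lit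 152) (nat_lit 10261684059) (nat_lit 0) (nat_lit 5575370129) (nat_lit 25) (nat_lit 5) (nat_lit 27) (nat_lit 4) (nat_lit 25) (nat_lit 4) (nat_lit 418) (nat_lit 346) (nat_lit 256)))))) (XT.nd (nat_lit 546) (nat_lit 304) (nat_lit 0) (XT.nd (nat_lit 234) (nat_lit 152) (nat_lit 0) (XT.nd (nat_lit 78) (nat_lit 152) (nat_lit 0) (XT.lf (nat_lit 0) (nat_lit 13170777626) (nat_lit 76) (nat_lit 35065357175) (nat_lit 76) (nat_lit 5084746985) (nat_lit 24) (nat_lit 4) (nat_lit 25) (nat_lit 5) (nat_lit 25) (nat_lit 4) (nat_lit 419) (nat_lit 346) (nat_lit 255)) (XT.nd (nat_lit 78) (nat_lit 76) (nat_lit 0) (XT.lf (nat_lit 0) (nat_lit 6168791982) (nat_lit 152) (nat_lit 17351629734) (nat_lit 76) (nat_lit 31830535881) (nat_lit 23) (nat_lit 5) (nat_lit 25) (nat_lit 5) (nat_lit 24) (nat_lit 4) (nat_lit 420) (nat_lit 346) (nat_lit 254)) (XT.lf (nat_lit 0) (nat_lit 6691089152) (nat_lit 76) (nat_lit 11213776205) (nat_lit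 152) (nat_lit 39568968236) (nat_lit 22) (nat_lit 5) (nat_lit 23) (nat_lit 5) (nat_lit 24) (nat_lit 4) (nat_lit 421) (nat_lit 346) (nat_lit 253)))) (XT.nd (nat_lit 156) (nat_lit 152) (nat_lit 0) (XT.nd (nat_lit 78) (nat_lit 0) (nat_lit 0) (XT.lf (nat_lit 0) (nat_lit 30539410171) (nat_lit 152) (nat_lit 27207825434) (nat_lit 0) (nat_lit 1940035473) (nat_lit 22) (nat_lit 5) (nat_lit 24) (nat_lit 4) (nat_lit 22) (nat_lit 4) (nat_lit 422) (nat_lit 346) (nat_lit 252)) (XT.lf (nat_lit 0) (nat_lit 43976488299) (nat_lit 152) (nat_lit 2663260669) (nat_lit 0) (nat_lit 15363092194) (nat_lit 22) (nat_lit 5) (nat_lit 24) (nat_lit 4) (nat_lit 22) (nat_lit 4) (nat_lit 423) (nat_lit 346) (nat_lit 251))) (XT.nd (nat_lit 78) (nat_lit 76) (nat_lit 0) (XT.lf (nat_lit 0) (nat_lit 23847744525) (nat_lit 76) (nat_lit 34597599913) (nat_lit 76) (nat_lit 5970850085) (nat_lit 21) (nat_lit 4) (nat_lit 22) (nat_lit 5) (nat_lit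 22) (nat_lit 4) (nat_lit 424) (nat_lit 346) (nat_lit 250)) (XT.lf (nat_lit 0) (nat_lit 6506845819) (nat_lit 152) (nat_lit 15300433728) (nat_lit 76) (nat_lit 45136043547) (nat_lit 20) (nat_lit 5) (nat_lit 22) (nat_lit 5) (nat_lit 21) (nat_lit 4) (nat_lit 425) (nat_lit 346) (nat_lit 249))))) (XT.nd (nat_lit 234) (nat_lit 228) (nat_lit 0) (XT.nd (nat_lit 78) (nat_lit 0) (nat_lit 0) (XT.lf (nat_lit 0) (nat_lit 11477512809) (nat_lit 76) (nat_lit 8097654354) (nat_lit 152) (nat_lit 50008377617) (nat_lit 19) (nat_lit 5) (nat_lit 20) (nat_lit 5) (nat_lit 21) (nat_lit 4) (nat_lit 426) (nat_lit 346) (nat_lit 248)) (XT.nd (nat_lit 78) (nat_lit 0) (nat_lit 0) (XT.lf (nat_lit 0) (nat_lit 33646835637) (nat_lit 152) (nat_lit 32342815600) (nat_lit 0) (nat_lit 6348630567) (nat_lit 19) (nat_lit 5) (nat_lit 21) (nat_lit 4) (nat_lit 19) (nat_lit 4) (nat_lit 427) (nat_lit 346) (nat_lit 247)) (XT.lf (nat_lit 0)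 (nat_lit 48543637932) (nat_lit 152) (nat_lit 5446071123) (nat_lit 0) (nat_lit 21234969871) (nat_lit 19) (nat_lit 5) (nat_lit 21) (nat_lit 4) (nat_lit 19) (nat_lit 4) (nat_lit 428) (nat_lit 346) (nat_lit 246)))) (XT.nd (nat_lit 156) (nat_lit 76) (nat_lit 0) (XT.nd (nat_lit 78) (nat_lit 76) (nat_lit 0) (XT.lf (nat_lit 0) (nat_lit 23527701796) (nat_lit 76) (nat_lit 41014247111) (nat_lit 76) (nat_lit 13695614297) (nat_lit 18) (nat_lit 4) (nat_lit 19) (nat_lit 5) (nat_lit 19) (nat_lit 4) (nat_lit 429) (nat_lit 346) (nat_lit 245)) (XT.lf (nat_lit 0) (nat_lit 24127748) (nat_lit 152) (nat_lit 27278661168) (nat_lit 76) (nat_lit 54094196282) (nat_lit 17) (nat_lit 5) (nat_lit 19) (nat_lit 5) (nat_lit 18) (nat_lit 4) (nat_lit 430) (nat_lit 346) (nat_lit 244))) (XT.nd (nat_lit 78) (nat_lit 0) (nat_lit 0) (XT.lf (nat_lit 0) (nat_lit 1322028467) (nat_lit 76) (nat_lit 12658064140) (nat_lit 152) (nat_lit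 70722535495) (nat_lit 16) (nat_lit 5) (nat_lit 17) (nat_lit 5) (nat_lit 18) (nat_lit 4) (nat_lit 431) (nat_lit 346) (nat_lit 243)) (XT.lf (nat_lit 0) (nat_lit 29135741862) (nat_lit 152) (nat_lit 55920565536) (nat_lit 0) (nat_lit 3092152046) (nat_lit 16) (nat_lit 5) (nat_lit 18) (nat_lit 4) (nat_lit 16) (nat_lit 4) (nat_lit 432) (nat_lit 346) (nat_lit 242))))))))
noncomputable def xc114 : XT := (XT.nd (nat_lit 2106) (nat_lit 304) (nat_lit 0) (XT.nd (nat_lit 1014) (nat_lit 228) (nat_lit 0) (XT.nd (nat_lit 468) (nat_lit 228) (nat_lit 0) (XT.nd (nat_lit 234) (nat_lit 152) (nat_lit 0) (XT.nd (nat_lit 78) (nat_lit 76) (nat_lit 0) (XT.lf (nat_lit 0) (nat_lit 45247050281) (nat_lit 152) (nat_lit 27313985987) (nat_lit 0) (nat_lit 19195652821) (nat_lit 16) (nat_lit 5) (nat_lit 18) (nat_lit 4) (nat_lit 16) (nat_lit 4) (nat_lit 433) (nat_lit 346) (nat_lit 241)) (XT.nd (nat_lit 78) (nat_lit 0) (nat_lit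 0) (XT.lf (nat_lit 0) (nat_lit 2794313246) (nat_lit 76) (nat_lit 59404064084) (nat_lit 76) (nat_lit 33345230772) (nat_lit 15) (nat_lit 4) (nat_lit 16) (nat_lit 5) (nat_lit 16) (nat_lit 4) (nat_lit 434) (nat_lit 346) (nat_lit 240)) (XT.lf (nat_lit 0) (nat_lit 35338553635) (nat_lit 76) (nat_lit 45112278478) (nat_lit 76) (nat_lit 19046363402) (nat_lit 15) (nat_lit 4) (nat_lit 16) (nat_lit 5) (nat_lit 16) (nat_lit 4) (nat_lit 435) (nat_lit 346) (nat_lit 239)))) (XT.nd (nat_lit 78) (nat_lit 152) (nat_lit 0) (XT.lf (nat_lit 0) (nat_lit 69493097735) (nat_lit 76) (nat_lit 30114226959) (nat_lit 76) (nat_lit 4041567346) (nat_lit 15) (nat_lit 4) (nat_lit 16) (nat_lit 5) (nat_lit 16) (nat_lit 4) (nat_lit 436) (nat_lit 346) (nat_lit 238)) (XT.nd (nat_lit 78) (nat_lit 76) (nat_lit 0) (XT.lf (nat_lit 0) (nat_lit 11330253742) (nat_lit 152) (nat_lit 2852062808) (nat_lit 76) (nat_lit 93817128817) (nat_lit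 14) (nat_lit 5) (nat_lit 16) (nat_lit 5) (nat_lit 15) (nat_lit 4) (nat_lit 437) (nat_lit 346) (nat_lit 237)) (XT.lf (nat_lit 0) (nat_lit 27858384912) (nat_lit 152) (nat_lit 81664315166) (nat_lit 0) (nat_lit 3015336841) (nat_lit 13) (nat_lit 5) (nat_lit 15) (nat_lit 4) (nat_lit 13) (nat_lit 4) (nat_lit 438) (nat_lit 346) (nat_lit 236))))) (XT.nd (nat_lit 234) (nat_lit 152) (nat_lit 0) (XT.nd (nat_lit 78) (nat_lit 76) (nat_lit 0) (XT.lf (nat_lit 0) (nat_lit 45486616751) (nat_lit 152) (nat_lit 51165237066) (nat_lit 0) (nat_lit 20638019932) (nat_lit 13) (nat_lit 5) (nat_lit 15) (nat_lit 4) (nat_lit 13) (nat_lit 4) (nat_lit 439) (nat_lit 346) (nat_lit 235)) (XT.nd (nat_lit 78) (nat_lit 76) (nat_lit 0) (XT.lf (nat_lit 0) (nat_lit 63988740402) (nat_lit 152) (nat_lit 19156079331) (nat_lit 0) (nat_lit 39134859063) (nat_lit 13) (nat_lit 5) (nat_lit 15) (nat_lit 4) (nat_lit 13) (nat_lit 4) (nat_lit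 440) (nat_lit 346) (nat_lit 234)) (XT.lf (nat_lit 0) (nat_lit 14916801112) (nat_lit 76) (nat_lit 68724900501) (nat_lit 76) (nat_lit 43865986284) (nat_lit 12) (nat_lit 4) (nat_lit 13) (nat_lit 5) (nat_lit 13) (nat_lit 4) (nat_lit 441) (nat_lit 346) (nat_lit 233)))) (XT.nd (nat_lit 156) (nat_lit 152) (nat_lit 0) (XT.nd (nat_lit 78) (nat_lit 0) (nat_lit 0) (XT.lf (nat_lit 0) (nat_lit 51344443909) (nat_lit 76) (nat_lit 53250246183) (nat_lit 76) (nat_lit 28386538750) (nat_lit 12) (nat_lit 4) (nat_lit 13) (nat_lit 5) (nat_lit 13) (nat_lit 4) (nat_lit 442) (nat_lit 346) (nat_lit 232)) (XT.lf (nat_lit 0) (nat_lit 89580195049) (nat_lit 76) (nat_lit 37008429839) (nat_lit 76) (nat_lit 12140157437) (nat_lit 12) (nat_lit 4) (nat_lit 13) (nat_lit 5) (nat_lit 13) (nat_lit 4) (nat_lit 443) (nat_lit 346) (nat_lit 231))) (XT.nd (nat_lit 78) (nat_lit 76) (nat_lit 0) (XT.lf (nat_lit 0) (nat_lit 4754629973) (nat_lit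 152) (nat_lit 15125628543) (nat_lit 76) (nat_lit 124879940101) (nat_lit 11) (nat_lit 5) (nat_lit 13) (nat_lit 5) (nat_lit 12) (nat_lit 4) (nat_lit 444) (nat_lit 346) (nat_lit 230)) (XT.lf (nat_lit 0) (nat_lit 21061308194) (nat_lit 76) (nat_lit 1347505827) (nat_lit 152) (nat_lit 128658288736) (nat_lit 10) (nat_lit 5) (nat_lit 11) (nat_lit 5) (nat_lit 12) (nat_lit 4) (nat_lit 445) (nat_lit 346) (nat_lit 229)))))) (XT.nd (nat_lit 546) (nat_lit 152) (nat_lit 0) (XT.nd (nat_lit 234) (nat_lit 76) (nat_lit 0) (XT.nd (nat_lit 78) (nat_lit 0) (nat_lit 0) (XT.lf (nat_lit 0) (nat_lit 41482676783) (nat_lit 152) (nat_lit 98393058852) (nat_lit 0) (nat_lit 17786768267) (nat_lit 10) (nat_lit 5) (nat_lit 12) (nat_lit 4) (nat_lit 10) (nat_lit 4) (nat_lit 446) (nat_lit 346) (nat_lit 228)) (XT.nd (nat_lit 78) (nat_lit 0) (nat_lit 0) (XT.lf (nat_lit 0) (nat_lit 61526449662) (nat_lit 152) (nat_lit 65233450483)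 (nat_lit 0) (nat_lit 37826964374) (nat_lit 10) (nat_lit 5) (nat_lit 12) (nat_lit 4) (nat_lit 10) (nat_lit 4) (nat_lit 447) (nat_lit 346) (nat_lit 227)) (XT.lf (nat_lit 0) (nat_lit 82566817584) (nat_lit 152) (nat_lit 30426979666) (nat_lit 0) (nat_lit 58863925847) (nat_lit 10) (nat_lit 5) (nat_lit 12) (nat_lit 4) (nat_lit 10) (nat_lit 4) (nat_lit 448) (nat_lit 346) (nat_lit 226)))) (XT.nd (nat_lit 156) (nat_lit 0) (nat_lit 0) (XT.nd (nat_lit 78) (nat_lit 0) (nat_lit 0) (XT.lf (nat_lit 0) (nat_lit 6311224756) (nat_lit 76) (nat_lit 98441187813) (nat_lit 76) (nat_lit 74735051838) (nat_lit 9) (nat_lit 4) (nat_lit 10) (nat_lit 5) (nat_lit 10) (nat_lit 4) (nat_lit 449) (nat_lit 346) (nat_lit 225)) (XT.lf (nat_lit 0) (nat_lit 45932277668) (nat_lit 76) (nat_lit 82625069047) (nat_lit 76) (nat_lit 58915843323) (nat_lit 9) (nat_lit 4) (nat_lit 10) (nat_lit 5) (nat_lit 10) (nat_lit 4) (nat_lit 450) (nat_lit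 346) (nat_lit 224))) (XT.nd (nat_lit 78) (nat_lit 0) (nat_lit 0) (XT.lf (nat_lit 0) (nat_lit 87524461551) (nat_lit 76) (nat_lit 66023079152) (nat_lit 76) (nat_lit 42310910808) (nat_lit 9) (nat_lit 4) (nat_lit 10) (nat_lit 5) (nat_lit 10) (nat_lit 4) (nat_lit 451) (nat_lit 346) (nat_lit 223)) (XT.lf (nat_lit 0) (nat_lit 131186805412) (nat_lit 76) (nat_lit 48595689579) (nat_lit 76) (nat_lit 24880718741) (nat_lit 9) (nat_lit 4) (nat_lit 10) (nat_lit 5) (nat_lit 10) (nat_lit 4) (nat_lit 452) (nat_lit 346) (nat_lit 222))))) (XT.nd (nat_lit 234) (nat_lit 0) (nat_lit 0) (XT.nd (nat_lit 78) (nat_lit 152) (nat_lit 0) (XT.lf (nat_lit 0) (nat_lit 177023267214) (nat_lit 76) (nat_lit 30301406544) (nat_lit 76) (nat_lit 6583766663) (nat_lit 9) (nat_lit 4) (nat_lit 10) (nat_lit 5) (nat_lit 10) (nat_lit 4) (nat_lit 453) (nat_lit 346) (nat_lit 221)) (XT.nd (nat_lit 78) (nat_lit 0) (nat_lit 0) (XT.lf (nat_lit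 0) (nat_lit 1373716509) (nat_lit 76) (nat_lit 10867209507) (nat_lit 152) (nat_lit 211364291211) (nat_lit 7) (nat_lit 5) (nat_lit 8) (nat_lit 5) (nat_lit 9) (nat_lit 4) (nat_lit 454) (nat_lit 346) (nat_lit 220)) (XT.lf (nat_lit 0) (nat_lit 32565059415) (nat_lit 152) (nat_lit 191205299469) (nat_lit 0) (nat_lit 9972104438) (nat_lit 7) (nat_lit 5) (nat_lit 9) (nat_lit 4) (nat_lit 7) (nat_lit 4) (nat_lit 455) (nat_lit 346) (nat_lit 219)))) (XT.nd (nat_lit 156) (nat_lit 0) (nat_lit 0) (XT.nd (nat_lit 78) (nat_lit 0) (nat_lit 0) (XT.lf (nat_lit 0) (nat_lit 54079387885) (nat_lit 152) (nat_lit 158814247497) (nat_lit 0) (nat_lit 31484237080) (nat_lit 7) (nat_lit 5) (nat_lit 9) (nat_lit 4) (nat_lit 7) (nat_lit 4) (nat_lit 456) (nat_lit 346) (nat_lit 218)) (XT.lf (nat_lit 0) (nat_lit 76665468422) (nat_lit 152) (nat_lit 124811555655) (nat_lit 0) (nat_lit 54068226354) (nat_lit 7) (nat_lit 5) (nat_lit 9)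 (nat_lit 4) (nat_lit 7) (nat_lit 4) (nat_lit 457) (nat_lit 346) (nat_lit 217))) (XT.nd (nat_lit 78) (nat_lit 0) (nat_lit 0) (XT.lf (nat_lit 0) (nat_lit 100377077410) (nat_lit 152) (nat_lit 89116265152) (nat_lit 0) (nat_lit 77777843661) (nat_lit 7) (nat_lit 5) (nat_lit 9) (nat_lit 4) (nat_lit 7) (nat_lit 4) (nat_lit 458) (nat_lit 346) (nat_lit 216)) (XT.lf (nat_lit 0) (nat_lit 125270671059) (nat_lit 152) (nat_lit 51643387201) (nat_lit 0) (nat_lit 102669540471) (nat_lit 7) (nat_lit 5) (nat_lit 9) (nat_lit 4) (nat_lit 7) (nat_lit 4) (nat_lit 459) (nat_lit 346) (nat_lit 215))))))) (XT.nd (nat_lit 1014) (nat_lit 76) (nat_lit 0) (XT.nd (nat_lit 468) (nat_lit 152) (nat_lit 0) (XT.nd (nat_lit 234) (nat_lit 0) (nat_lit 0) (XT.nd (nat_lit 78) (nat_lit 76) (nat_lit 0) (XT.lf (nat_lit 0) (nat_lit 151405519831) (nat_lit 152) (nat_lit 12303700665) (nat_lit 0) (nat_lit 128802582730) (nat_lit 7) (nat_lit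 5) (nat_lit 9) (nat_lit 4) (nat_lit 7) (nat_lit 4) (nat_lit 460) (nat_lit 346) (nat_lit 214)) (XT.nd (nat_lit 78) (nat_lit 0) (nat_lit 0) (XT.lf (nat_lit 0) (nat_lit 29955214307) (nat_lit 76) (nat_lit 149356320094) (nat_lit 76) (nat_lit 126751662505) (nat_lit 6) (nat_lit 4) (nat_lit 7) (nat_lit 5) (nat_lit 7) (nat_lit 4) (nat_lit 461) (nat_lit 346) (nat_lit 213)) (XT.lf (nat_lit 0) (nat_lit 74747826909) (nat_lit 76) (nat_lit 134070185740) (nat_lit 76) (nat_lit 111463889591) (nat_lit 6) (nat_lit 4) (nat_lit 7) (nat_lit 5) (nat_lit 7) (nat_lit 4) (nat_lit 462) (nat_lit 346) (nat_lit 212)))) (XT.nd (nat_lit 78) (nat_lit 0) (nat_lit 0) (XT.lf (nat_lit 0) (nat_lit 121773970310) (nat_lit 76) (nat_lit 118022791002) (nat_lit 76) (nat_lit 95414934319) (nat_lit 6) (nat_lit 4) (nat_lit 7) (nat_lit 5) (nat_lit 7) (nat_lit 4) (nat_lit 463) (nat_lit 346) (nat_lit 211)) (XT.nd (nat_lit 78) (nat_lit 0) (nat_lit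 0) (XT.lf (nat_lit 0) (nat_lit 171145611516) (nat_lit 76) (nat_lit 101175927797) (nat_lit 76) (nat_lit 78566584891) (nat_lit 6) (nat_lit 4) (nat_lit 7) (nat_lit 5) (nat_lit 7) (nat_lit 4) (nat_lit 464) (nat_lit 346) (nat_lit 210)) (XT.lf (nat_lit 0) (nat_lit 222980302055) (nat_lit 76) (nat_lit 83489484546) (nat_lit 76) (nat_lit 60878726190) (nat_lit 6) (nat_lit 4) (nat_lit 7) (nat_lit 5) (nat_lit 7) (nat_lit 4) (nat_lit 465) (nat_lit 346) (nat_lit 209))))) (XT.nd (nat_lit 234) (nat_lit 152) (nat_lit 0) (XT.nd (nat_lit 78) (nat_lit 0) (nat_lit 0) (XT.lf (nat_lit 0) (nat_lit 277401457856) (nat_lit 76) (nat_lit 64921350670) (nat_lit 76) (nat_lit 42309244267) (nat_lit 6) (nat_lit 4) (nat_lit 7) (nat_lit 5) (nat_lit 7) (nat_lit 4) (nat_lit 466) (nat_lit 346) (nat_lit 208)) (XT.nd (nat_lit 78) (nat_lit 0) (nat_lit 0) (XT.lf (nat_lit 0) (nat_lit 334538653101) (nat_lit 76) (nat_lit 45427316327) (nat_lit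 76) (nat_lit 22813926068) (nat_lit 6) (nat_lit 4) (nat_lit 7) (nat_lit 5) (nat_lit 7) (nat_lit 4) (nat_lit 467) (nat_lit 346) (nat_lit 207)) (XT.lf (nat_lit 0) (nat_lit 394527928729) (nat_lit 76) (nat_lit 24960967148) (nat_lit 76) (nat_lit 2346354170) (nat_lit 6) (nat_lit 4) (nat_lit 7) (nat_lit 5) (nat_lit 7) (nat_lit 4) (nat_lit 468) (nat_lit 346) (nat_lit 206)))) (XT.nd (nat_lit 156) (nat_lit 0) (nat_lit 0) (XT.nd (nat_lit 78) (nat_lit 0) (nat_lit 0) (XT.lf (nat_lit 0) (nat_lit 15877960457) (nat_lit 76) (nat_lit 2899472678) (nat_lit 152) (nat_lit 423038715058) (nat_lit 4) (nat_lit 5) (nat_lit 5) (nat_lit 5) (nat_lit 6) (nat_lit 4) (nat_lit 469) (nat_lit 346) (nat_lit 205)) (XT.lf (nat_lit 0) (nat_lit 41662683561) (nat_lit 152) (nat_lit 400969486549) (nat_lit 0) (nat_lit 20122791643) (nat_lit 4) (nat_lit 5) (nat_lit 6) (nat_lit 4) (nat_lit 4) (nat_lit 4) (nat_lit 470) (nat_lit 346) (nat_lit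 204))) (XT.nd (nat_lit 78) (nat_lit 0) (nat_lit 0) (XT.lf (nat_lit 0) (nat_lit 65737526594) (nat_lit 152) (nat_lit 374804294223) (nat_lit 0) (nat_lit 44196628742) (nat_lit 4) (nat_lit 5) (nat_lit 6) (nat_lit 4) (nat_lit 4) (nat_lit 4) (nat_lit 471) (nat_lit 346) (nat_lit 203)) (XT.lf (nat_lit 0) (nat_lit 91014014394) (nat_lit 152) (nat_lit 347335043791) (nat_lit 0) (nat_lit 69472158510) (nat_lit 4) (nat_lit 5) (nat_lit 6) (nat_lit 4) (nat_lit 4) (nat_lit 4) (nat_lit 472) (nat_lit 346) (nat_lit 202)))))) (XT.nd (nat_lit 546) (nat_lit 76) (nat_lit 0) (XT.nd (nat_lit 234) (nat_lit 0) (nat_lit 0) (XT.nd (nat_lit 78) (nat_lit 0) (nat_lit 0) (XT.lf (nat_lit 0) (nat_lit 117552329077) (nat_lit 152) (nat_lit 318496332274) (nat_lit 0) (nat_lit 96009560780) (nat_lit 4) (nat_lit 5) (nat_lit 6) (nat_lit 4) (nat_lit 4) (nat_lit 4) (nat_lit 473) (nat_lit 346) (nat_lit 201)) (XT.nd (nat_lit 78) (nat_lit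 0) (nat_lit 0) (XT.lf (nat_lit 0) (nat_lit 145415657104) (nat_lit 152) (nat_lit 288219496073) (nat_lit 0) (nat_lit 123872019844) (nat_lit 4) (nat_lit 5) (nat_lit 6) (nat_lit 4) (nat_lit 4) (nat_lit 4) (nat_lit 474) (nat_lit 346) (nat_lit 200)) (XT.lf (nat_lit 0) (nat_lit 174670339733) (nat_lit 152) (nat_lit 256432447483) (nat_lit 0) (nat_lit 153125874889) (nat_lit 4) (nat_lit 5) (nat_lit 6) (nat_lit 4) (nat_lit 4) (nat_lit 4) (nat_lit 475) (nat_lit 346) (nat_lit 199)))) (XT.nd (nat_lit 156) (nat_lit 0) (nat_lit 0) (XT.nd (nat_lit 78) (nat_lit 0) (nat_lit 0) (XT.lf (nat_lit 0) (nat_lit 205386030971) (nat_lit 152) (nat_lit 223059503056) (nat_lit 0) (nat_lit 183840777952) (nat_lit 4) (nat_lit 5) (nat_lit 6) (nat_lit 4) (nat_lit 4) (nat_lit 4) (nat_lit 476) (nat_lit 346) (nat_lit 198)) (XT.lf (nat_lit 0) (nat_lit 237635863416) (nat_lit 152) (nat_lit 188021203399) (nat_lit 0) (nat_lit 216089859753)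 (nat_lit 4) (nat_lit 5) (nat_lit 6) (nat_lit 4) (nat_lit 4) (nat_lit 4) (nat_lit 477) (nat_lit 346) (nat_lit 197))) (XT.nd (nat_lit 78) (nat_lit 0) (nat_lit 0) (XT.lf (nat_lit 0) (nat_lit 271496622383) (nat_lit 152) (nat_lit 151234123990) (nat_lit 0) (nat_lit 249949903822) (nat_lit 4) (nat_lit 5) (nat_lit 6) (nat_lit 4) (nat_lit 4) (nat_lit 4) (nat_lit 478) (nat_lit 346) (nat_lit 196)) (XT.lf (nat_lit 0) (nat_lit 307048928727) (nat_lit 152) (nat_lit 112610676544) (nat_lit 0) (nat_lit 285501529310) (nat_lit 4) (nat_lit 5) (nat_lit 6) (nat_lit 4) (nat_lit 4) (nat_lit 4) (nat_lit 479) (nat_lit 346) (nat_lit 195))))) (XT.nd (nat_lit 42744) (nat_lit 0) (nat_lit 11476) (XT.nd (nat_lit 78) (nat_lit 76) (nat_lit 0) (XT.lf (nat_lit 0) (nat_lit 344377430796) (nat_lit 152) (nat_lit 72058900473) (nat_lit 0) (nat_lit 322829382945) (nat_lit 4) (nat_lit 5) (nat_lit 6) (nat_lit 4) (nat_lit 4) (nat_lit 4)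 (nat_lit 480) (nat_lit 346) (nat_lit 194)) (XT.nd (nat_lit 78) (nat_lit 76) (nat_lit 0) (XT.lf (nat_lit 0) (nat_lit 383571005977) (nat_lit 152) (nat_lit 29482243928) (nat_lit 0) (nat_lit 362022340569) (nat_lit 4) (nat_lit 5) (nat_lit 6) (nat_lit 4) (nat_lit 4) (nat_lit 4) (nat_lit 481) (nat_lit 346) (nat_lit 193)) (XT.lf (nat_lit 0) (nat_lit 15723930041) (nat_lit 76) (nat_lit 409244536877) (nat_lit 76) (nat_lit 387695283321) (nat_lit 3) (nat_lit 4) (nat_lit 4) (nat_lit 5) (nat_lit 4) (nat_lit 4) (nat_lit 482) (nat_lit 346) (nat_lit 192)))) (XT.nd (nat_lit 156) (nat_lit 0) (nat_lit 0) (XT.nd (nat_lit 78) (nat_lit 0) (nat_lit 0) (XT.lf (nat_lit 0) (nat_lit 614662290) (nat_lit 532) (nat_lit 1445034554) (nat_lit 532) (nat_lit 1445034554) (nat_lit 154) (nat_lit 3) (nat_lit 161) (nat_lit 3) (nat_lit 161) (nat_lit 5) (nat_lit 347) (nat_lit 347) (nat_lit 326)) (XT.lf (nat_lit 76) (nat_lit 550319100)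 (nat_lit 0) (nat_lit 2482052041) (nat_lit 532) (nat_lit 4062416559) (nat_lit 155) (nat_lit 5) (nat_lit 154) (nat_lit 3) (nat_lit 161) (nat_lit 5) (nat_lit 348) (nat_lit 347) (nat_lit 325))) (XT.nd (nat_lit 78) (nat_lit 0) (nat_lit 76) (XT.lf (nat_lit 76) (nat_lit 4201788116) (nat_lit 0) (nat_lit 658869753) (nat_lit 532) (nat_lit 2327049547) (nat_lit 155) (nat_lit 5) (nat_lit 154) (nat_lit 3) (nat_lit 161) (nat_lit 5) (nat_lit 349) (nat_lit 347) (nat_lit 324)) (XT.lf (nat_lit 76) (nat_lit 688347423) (nat_lit 0) (nat_lit 6014706705) (nat_lit 532) (nat_lit 586163241) (nat_lit 156) (nat_lit 5) (nat_lit 155) (nat_lit 5) (nat_lit 162) (nat_lit 5) (nat_lit 350) (nat_lit 347) (nat_lit 323))))))))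
noncomputable def xc115 : XT := (XT.nd (nat_lit 2106) (nat_lit 2964) (nat_lit 0) (XT.nd (nat_lit 1014) (nat_lit 2584) (nat_lit 0) (XT.nd (nat_lit 468) (nat_lit 2432) (nat_lit 0) (XT.nd (nat_lit 234) (nat_lit 532) (nat_lit 0) (XT.nd (nat_lit 78) (nat_lit 0) (nat_lit 0) (XT.lf (nat_lit 0) (nat_lit 1158931441) (nat_lit 532) (nat_lit 2841450618) (nat_lit 608) (nat_lit 3396677631) (nat_lit 148) (nat_lit 5) (nat_lit 155) (nat_lit 5) (nat_lit 156) (nat_lit 5) (nat_lit 351) (nat_lit 347) (nat_lit 322)) (XT.nd (nat_lit 78) (nat_lit 0) (nat_lit 76) (XT.lf (nat_lit 76) (nat_lit 1066512687) (nat_lit 0) (nat_lit 1821444547) (nat_lit 608) (nat_lit 4626105917) (nat_lit 149) (nat_lit 5) (nat_lit 148) (nat_lit 5) (nat_lit 156) (nat_lit 5) (nat_lit 352) (nat_lit 347) (nat_lit 321)) (XT.lf (nat_lit 0) (nat_lit 4663667685) (nat_lit 532) (nat_lit 2442393604) (nat_lit 608) (nat_lit 532908829) (nat_lit 149) (nat_lit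 5) (nat_lit 156) (nat_lit 5) (nat_lit 157) (nat_lit 5) (nat_lit 353) (nat_lit 347) (nat_lit 320)))) (XT.nd (nat_lit 78) (nat_lit 608) (nat_lit 0) (XT.lf (nat_lit 76) (nat_lit 1723235176) (nat_lit 0) (nat_lit 4770302965) (nat_lit 608) (nat_lit 1278377476) (nat_lit 150) (nat_lit 5) (nat_lit 149) (nat_lit 5) (nat_lit 157) (nat_lit 5) (nat_lit 354) (nat_lit 347) (nat_lit 319)) (XT.nd (nat_lit 78) (nat_lit 0) (nat_lit 76) (XT.lf (nat_lit 0) (nat_lit 439785280) (nat_lit 608) (nat_lit 1803085373) (nat_lit 684) (nat_lit 5670675753) (nat_lit 141) (nat_lit 5) (nat_lit 149) (nat_lit 5) (nat_lit 150) (nat_lit 5) (nat_lit 355) (nat_lit 347) (nat_lit 318)) (XT.lf (nat_lit 0) (nat_lit 2164844687) (nat_lit 608) (nat_lit 5416276043) (nat_lit 76) (nat_lit 481946111) (nat_lit 142) (nat_lit 5) (nat_lit 150) (nat_lit 5) (nat_lit 143) (nat_lit 5) (nat_lit 356) (nat_lit 347) (nat_lit 317))))) (XT.nd (nat_lit 234)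 (nat_lit 1216) (nat_lit 0) (XT.nd (nat_lit 78) (nat_lit 1292) (nat_lit 0) (XT.lf (nat_lit 0) (nat_lit 3962070172) (nat_lit 608) (nat_lit 941333492) (nat_lit 76) (nat_lit 3317414910) (nat_lit 142) (nat_lit 5) (nat_lit 150) (nat_lit 5) (nat_lit 143) (nat_lit 5) (nat_lit 357) (nat_lit 347) (nat_lit 316)) (XT.nd (nat_lit 78) (nat_lit 684) (nat_lit 0) (XT.lf (nat_lit 0) (nat_lit 3815388770) (nat_lit 608) (nat_lit 2015344709) (nat_lit 684) (nat_lit 2556694091) (nat_lit 134) (nat_lit 5) (nat_lit 142) (nat_lit 5) (nat_lit 143) (nat_lit 5) (nat_lit 358) (nat_lit 347) (nat_lit 315)) (XT.lf (nat_lit 0) (nat_lit 204409085) (nat_lit 684) (nat_lit 7548623446) (nat_lit 760) (nat_lit 811370553) (nat_lit 125) (nat_lit 5) (nat_lit 134) (nat_lit 5) (nat_lit 135) (nat_lit 5) (nat_lit 359) (nat_lit 347) (nat_lit 314)))) (XT.nd (nat_lit 156) (nat_lit 380) (nat_lit 0) (XT.nd (nat_lit 78) (nat_lit 760) (nat_lit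 0) (XT.lf (nat_lit 0) (nat_lit 1026512434) (nat_lit 760) (nat_lit 3486646864) (nat_lit 76) (nat_lit 4234413836) (nat_lit 124) (nat_lit 5) (nat_lit 134) (nat_lit 5) (nat_lit 125) (nat_lit 5) (nat_lit 360) (nat_lit 347) (nat_lit 313)) (XT.lf (nat_lit 0) (nat_lit 1603188679) (nat_lit 760) (nat_lit 1280617311) (nat_lit 836) (nat_lit 6057731355) (nat_lit 114) (nat_lit 5) (nat_lit 124) (nat_lit 5) (nat_lit 125) (nat_lit 5) (nat_lit 361) (nat_lit 347) (nat_lit 312))) (XT.nd (nat_lit 78) (nat_lit 380) (nat_lit 0) (XT.lf (nat_lit 0) (nat_lit 4859134728) (nat_lit 836) (nat_lit 2175279637) (nat_lit 76) (nat_lit 2109564881) (nat_lit 114) (nat_lit 5) (nat_lit 125) (nat_lit 5) (nat_lit 115) (nat_lit 5) (nat_lit 362) (nat_lit 347) (nat_lit 311)) (XT.lf (nat_lit 0) (nat_lit 3265041000) (nat_lit 380) (nat_lit 3675545720) (nat_lit 456) (nat_lit 2415624876) (nat_lit 109) (nat_lit 5) (nat_lit 114) (nat_lit 5)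 (nat_lit 115) (nat_lit 5) (nat_lit 363) (nat_lit 347) (nat_lit 310)))))) (XT.nd (nat_lit 546) (nat_lit 1064) (nat_lit 0) (XT.nd (nat_lit 234) (nat_lit 684) (nat_lit 0) (XT.nd (nat_lit 78) (nat_lit 836) (nat_lit 0) (XT.lf (nat_lit 0) (nat_lit 8989527516) (nat_lit 380) (nat_lit 110897291) (nat_lit 456) (nat_lit 479949554) (nat_lit 109) (nat_lit 5) (nat_lit 114) (nat_lit 5) (nat_lit 115) (nat_lit 5) (nat_lit 364) (nat_lit 347) (nat_lit 309)) (XT.nd (nat_lit 78) (nat_lit 380) (nat_lit 0) (XT.lf (nat_lit 0) (nat_lit 1582908873) (nat_lit 456) (nat_lit 4605477619) (nat_lit 76) (nat_lit 3622173621) (nat_lit 103) (nat_lit 5) (nat_lit 109) (nat_lit 5) (nat_lit 104) (nat_lit 5) (nat_lit 365) (nat_lit 347) (nat_lit 308)) (XT.lf (nat_lit 0) (nat_lit 1224612534) (nat_lit 380) (nat_lit 2480602085) (nat_lit 456) (nat_lit 6348055217) (nat_lit 98) (nat_lit 5) (nat_lit 103) (nat_lit 5) (nat_lit 104) (nat_lit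 5) (nat_lit 366) (nat_lit 347) (nat_lit 307)))) (XT.nd (nat_lit 156) (nat_lit 380) (nat_lit 0) (XT.nd (nat_lit 78) (nat_lit 304) (nat_lit 0) (XT.lf (nat_lit 0) (nat_lit 5977996860) (nat_lit 456) (nat_lit 2887482923) (nat_lit 76) (nat_lit 1440445561) (nat_lit 98) (nat_lit 5) (nat_lit 104) (nat_lit 5) (nat_lit 99) (nat_lit 5) (nat_lit 367) (nat_lit 347) (nat_lit 306)) (XT.lf (nat_lit 0) (nat_lit 3354562140) (nat_lit 304) (nat_lit 5048640931) (nat_lit 380) (nat_lit 2166098324) (nat_lit 94) (nat_lit 5) (nat_lit 98) (nat_lit 5) (nat_lit 99) (nat_lit 5) (nat_lit 368) (nat_lit 347) (nat_lit 305))) (XT.nd (nat_lit 78) (nat_lit 304) (nat_lit 0) (XT.lf (nat_lit 0) (nat_lit 96677774) (nat_lit 380) (nat_lit 900536786) (nat_lit 76) (nat_lit 9848766266) (nat_lit 93) (nat_lit 5) (nat_lit 98) (nat_lit 5) (nat_lit 94) (nat_lit 5) (nat_lit 369) (nat_lit 347) (nat_lit 304)) (XT.lf (nat_lit 0) (nat_lit 2492448049)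 (nat_lit 380) (nat_lit 5366027705) (nat_lit 76) (nat_lit 3271633792) (nat_lit 89) (nat_lit 5) (nat_lit 94) (nat_lit 5) (nat_lit 90) (nat_lit 5) (nat_lit 370) (nat_lit 347) (nat_lit 303))))) (XT.nd (nat_lit 234) (nat_lit 532) (nat_lit 0) (XT.nd (nat_lit 78) (nat_lit 304) (nat_lit 0) (XT.lf (nat_lit 0) (nat_lit 1329470702) (nat_lit 228) (nat_lit 3681502458) (nat_lit 304) (nat_lit 6417345447) (nat_lit 86) (nat_lit 5) (nat_lit 89) (nat_lit 5) (nat_lit 90) (nat_lit 5) (nat_lit 371) (nat_lit 347) (nat_lit 302)) (XT.nd (nat_lit 78) (nat_lit 304) (nat_lit 0) (XT.lf (nat_lit 0) (nat_lit 7710359801) (nat_lit 304) (nat_lit 3266570057) (nat_lit 76) (nat_lit 761782662) (nat_lit 86) (nat_lit 5) (nat_lit 90) (nat_lit 5) (nat_lit 87) (nat_lit 5) (nat_lit 372) (nat_lit 347) (nat_lit 301)) (XT.lf (nat_lit 0) (nat_lit 3911957230) (nat_lit 304) (nat_lit 6708066536) (nat_lit 380) (nat_lit 1440857117) (nat_lit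 82) (nat_lit 5) (nat_lit 86) (nat_lit 5) (nat_lit 87) (nat_lit 5) (nat_lit 373) (nat_lit 347) (nat_lit 300)))) (XT.nd (nat_lit 156) (nat_lit 228) (nat_lit 0) (XT.nd (nat_lit 78) (nat_lit 228) (nat_lit 0) (XT.lf (nat_lit 0) (nat_lit 1245796990) (nat_lit 380) (nat_lit 915175732) (nat_lit 76) (nat_lit 10236675911) (nat_lit 81) (nat_lit 5) (nat_lit 86) (nat_lit 5) (nat_lit 82) (nat_lit 5) (nat_lit 374) (nat_lit 347) (nat_lit 299)) (XT.lf (nat_lit 0) (nat_lit 4124071147) (nat_lit 304) (nat_lit 5972707432) (nat_lit 76) (nat_lit 2648027091) (nat_lit 78) (nat_lit 5) (nat_lit 82) (nat_lit 5) (nat_lit 79) (nat_lit 5) (nat_lit 375) (nat_lit 347) (nat_lit 298))) (XT.nd (nat_lit 78) (nat_lit 0) (nat_lit 0) (XT.lf (nat_lit 0) (nat_lit 1727735414) (nat_lit 228) (nat_lit 5454194776) (nat_lit 304) (nat_lit 5925623392) (nat_lit 75) (nat_lit 5) (nat_lit 78) (nat_lit 5) (nat_lit 79) (nat_lit 5) (nat_lit 376)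 (nat_lit 347) (nat_lit 297)) (XT.lf (nat_lit 0) (nat_lit 9962662275) (nat_lit 228) (nat_lit 489807217) (nat_lit 304) (nat_lit 3032995823) (nat_lit 75) (nat_lit 5) (nat_lit 78) (nat_lit 5) (nat_lit 79) (nat_lit 5) (nat_lit 377) (nat_lit 347) (nat_lit 296))))))) (XT.nd (nat_lit 1092) (nat_lit 1064) (nat_lit 0) (XT.nd (nat_lit 546) (nat_lit 912) (nat_lit 0) (XT.nd (nat_lit 234) (nat_lit 456) (nat_lit 0) (XT.nd (nat_lit 78) (nat_lit 228) (nat_lit 0) (XT.lf (nat_lit 0) (nat_lit 114119279) (nat_lit 304) (nat_lit 9130289563) (nat_lit 76) (nat_lit 4632375159) (nat_lit 71) (nat_lit 5) (nat_lit 75) (nat_lit 5) (nat_lit 72) (nat_lit 5) (nat_lit 378) (nat_lit 347) (nat_lit 295)) (XT.nd (nat_lit 78) (nat_lit 228) (nat_lit 0) (XT.lf (nat_lit 0) (nat_lit 3346056893) (nat_lit 304) (nat_lit 849127647) (nat_lit 76) (nat_lit 10088541895) (nat_lit 71) (nat_lit 5) (nat_lit 75) (nat_lit 5) (nat_lit 72) (nat_lit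 5) (nat_lit 379) (nat_lit 347) (nat_lit 294)) (XT.lf (nat_lit 0) (nat_lit 6846926965) (nat_lit 304) (nat_lit 6676514009) (nat_lit 76) (nat_lit 1182221231) (nat_lit 68) (nat_lit 5) (nat_lit 72) (nat_lit 5) (nat_lit 69) (nat_lit 5) (nat_lit 380) (nat_lit 347) (nat_lit 293)))) (XT.nd (nat_lit 156) (nat_lit 304) (nat_lit 0) (XT.nd (nat_lit 78) (nat_lit 0) (nat_lit 0) (XT.lf (nat_lit 0) (nat_lit 2178319150) (nat_lit 152) (nat_lit 8425192638) (nat_lit 228) (nat_lit 4541161785) (nat_lit 66) (nat_lit 5) (nat_lit 68) (nat_lit 5) (nat_lit 69) (nat_lit 5) (nat_lit 381) (nat_lit 347) (nat_lit 292)) (XT.lf (nat_lit 0) (nat_lit 11653345031) (nat_lit 152) (nat_lit 2971823270) (nat_lit 228) (nat_lit 976616871) (nat_lit 66) (nat_lit 5) (nat_lit 68) (nat_lit 5) (nat_lit 69) (nat_lit 5) (nat_lit 382) (nat_lit 347) (nat_lit 291))) (XT.nd (nat_lit 78) (nat_lit 0) (nat_lit 0) (XT.lf (nat_lit 0) (nat_lit 2775276318)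 (nat_lit 304) (nat_lit 10518201764) (nat_lit 76) (nat_lit 2781242822) (nat_lit 62) (nat_lit 5) (nat_lit 66) (nat_lit 5) (nat_lit 63) (nat_lit 5) (nat_lit 383) (nat_lit 347) (nat_lit 290)) (XT.lf (nat_lit 0) (nat_lit 6764490041) (nat_lit 304) (nat_lit 1013454978) (nat_lit 76) (nat_lit 8788440747) (nat_lit 62) (nat_lit 5) (nat_lit 66) (nat_lit 5) (nat_lit 63) (nat_lit 5) (nat_lit 384) (nat_lit 347) (nat_lit 289))))) (XT.nd (nat_lit 234) (nat_lit 532) (nat_lit 0) (XT.nd (nat_lit 78) (nat_lit 228) (nat_lit 0) (XT.lf (nat_lit 0) (nat_lit 9210388064) (nat_lit 152) (nat_lit 1854065152) (nat_lit 228) (nat_lit 6012625911) (nat_lit 60) (nat_lit 5) (nat_lit 62) (nat_lit 5) (nat_lit 63) (nat_lit 5) (nat_lit 385) (nat_lit 347) (nat_lit 288)) (XT.nd (nat_lit 78) (nat_lit 76) (nat_lit 0) (XT.lf (nat_lit 0) (nat_lit 2322631515) (nat_lit 152) (nat_lit 13346624056) (nat_lit 228) (nat_lit 1939568768) (nat_lit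 58) (nat_lit 5) (nat_lit 60) (nat_lit 5) (nat_lit 61) (nat_lit 5) (nat_lit 386) (nat_lit 347) (nat_lit 287)) (XT.lf (nat_lit 0) (nat_lit 2396324682) (nat_lit 228) (nat_lit 4986679821) (nat_lit 76) (nat_lit 10775636888) (nat_lit 57) (nat_lit 5) (nat_lit 60) (nat_lit 5) (nat_lit 58) (nat_lit 5) (nat_lit 387) (nat_lit 347) (nat_lit 286)))) (XT.nd (nat_lit 156) (nat_lit 380) (nat_lit 0) (XT.nd (nat_lit 78) (nat_lit 0) (nat_lit 0) (XT.lf (nat_lit 0) (nat_lit 5936837624) (nat_lit 152) (nat_lit 1009380577) (nat_lit 228) (nat_lit 11785029879) (nat_lit 55) (nat_lit 5) (nat_lit 57) (nat_lit 5) (nat_lit 58) (nat_lit 5) (nat_lit 388) (nat_lit 347) (nat_lit 285)) (XT.lf (nat_lit 0) (nat_lit 11868260165) (nat_lit 228) (nat_lit 1888308763) (nat_lit 76) (nat_lit 5568691084) (nat_lit 55) (nat_lit 5) (nat_lit 58) (nat_lit 5) (nat_lit 56) (nat_lit 5) (nat_lit 389) (nat_lit 347) (nat_lit 284))) (XT.nd (nat_lit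 78) (nat_lit 228) (nat_lit 0) (XT.lf (nat_lit 0) (nat_lit 9813410136) (nat_lit 152) (nat_lit 7364271477) (nat_lit 228) (nat_lit 2764234291) (nat_lit 53) (nat_lit 5) (nat_lit 55) (nat_lit 5) (nat_lit 56) (nat_lit 5) (nat_lit 390) (nat_lit 347) (nat_lit 283)) (XT.lf (nat_lit 0) (nat_lit 1545730692) (nat_lit 152) (nat_lit 576523717) (nat_lit 228) (nat_lit 18464052098) (nat_lit 50) (nat_lit 5) (nat_lit 52) (nat_lit 5) (nat_lit 53) (nat_lit 5) (nat_lit 391) (nat_lit 347) (nat_lit 282)))))) (XT.nd (nat_lit 546) (nat_lit 532) (nat_lit 0) (XT.nd (nat_lit 234) (nat_lit 380) (nat_lit 0) (XT.nd (nat_lit 78) (nat_lit 152) (nat_lit 0) (XT.lf (nat_lit 0) (nat_lit 7408794886) (nat_lit 228) (nat_lit 7297165603) (nat_lit 76) (nat_lit 6542265448) (nat_lit 50) (nat_lit 5) (nat_lit 53) (nat_lit 5) (nat_lit 51) (nat_lit 5) (nat_lit 392) (nat_lit 347) (nat_lit 281)) (XT.nd (nat_lit 78) (nat_lit 0) (nat_lit 0)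 (XT.lf (nat_lit 0) (nat_lit 5143106250) (nat_lit 152) (nat_lit 7879645841) (nat_lit 228) (nat_lit 8917340713) (nat_lit 48) (nat_lit 5) (nat_lit 50) (nat_lit 5) (nat_lit 51) (nat_lit 5) (nat_lit 393) (nat_lit 347) (nat_lit 280)) (XT.lf (nat_lit 0) (nat_lit 18413997000) (nat_lit 152) (nat_lit 600902443) (nat_lit 228) (nat_lit 3646784625) (nat_lit 48) (nat_lit 5) (nat_lit 50) (nat_lit 5) (nat_lit 51) (nat_lit 5) (nat_lit 394) (nat_lit 347) (nat_lit 279)))) (XT.nd (nat_lit 156) (nat_lit 228) (nat_lit 0) (XT.nd (nat_lit 78) (nat_lit 0) (nat_lit 0) (XT.lf (nat_lit 0) (nat_lit 2056958972) (nat_lit 152) (nat_lit 14375499931) (nat_lit 76) (nat_lit 6973924580) (nat_lit 46) (nat_lit 5) (nat_lit 48) (nat_lit 5) (nat_lit 47) (nat_lit 5) (nat_lit 395) (nat_lit 347) (nat_lit 278)) (XT.lf (nat_lit 0) (nat_lit 7981295761) (nat_lit 152) (nat_lit 1178386545) (nat_lit 76) (nat_lit 15022753196) (nat_lit 46) (nat_lit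 5) (nat_lit 48) (nat_lit 5) (nat_lit 47) (nat_lit 5) (nat_lit 396) (nat_lit 347) (nat_lit 277))) (XT.nd (nat_lit 78) (nat_lit 76) (nat_lit 0) (XT.lf (nat_lit 0) (nat_lit 13054793807) (nat_lit 152) (nat_lit 1327063313) (nat_lit 228) (nat_lit 10606437278) (nat_lit 44) (nat_lit 5) (nat_lit 46) (nat_lit 5) (nat_lit 47) (nat_lit 5) (nat_lit 397) (nat_lit 347) (nat_lit 276)) (XT.lf (nat_lit 0) (nat_lit 2125258244) (nat_lit 76) (nat_lit 19114742802) (nat_lit 152) (nat_lit 4587571911) (nat_lit 43) (nat_lit 5) (nat_lit 44) (nat_lit 5) (nat_lit 45) (nat_lit 4) (nat_lit 398) (nat_lit 347) (nat_lit 275))))) (XT.nd (nat_lit 234) (nat_lit 304) (nat_lit 0) (XT.nd (nat_lit 78) (nat_lit 152) (nat_lit 0) (XT.lf (nat_lit 0) (nat_lit 1880465061) (nat_lit 152) (nat_lit 9491517959) (nat_lit 76) (nat_lit 15325300662) (nat_lit 42) (nat_lit 5) (nat_lit 44) (nat_lit 5) (nat_lit 43) (nat_lit 5) (nat_lit 399) (nat_lit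 347) (nat_lit 274)) (XT.nd (nat_lit 78) (nat_lit 0) (nat_lit 0) (XT.lf (nat_lit 0) (nat_lit 5490383478) (nat_lit 152) (nat_lit 3090689967) (nat_lit 228) (nat_lit 19022482925) (nat_lit 40) (nat_lit 5) (nat_lit 42) (nat_lit 5) (nat_lit 43) (nat_lit 5) (nat_lit 400) (nat_lit 347) (nat_lit 273)) (XT.lf (nat_lit 0) (nat_lit 15845397644) (nat_lit 228) (nat_lit 7126480889) (nat_lit 76) (nat_lit 5571833546) (nat_lit 40) (nat_lit 5) (nat_lit 43) (nat_lit 5) (nat_lit 41) (nat_lit 4) (nat_lit 401) (nat_lit 347) (nat_lit 272)))) (XT.nd (nat_lit 156) (nat_lit 152) (nat_lit 0) (XT.nd (nat_lit 78) (nat_lit 76) (nat_lit 0) (XT.lf (nat_lit 0) (nat_lit 8802381546) (nat_lit 76) (nat_lit 14837512669) (nat_lit 152) (nat_lit 5882637029) (nat_lit 39) (nat_lit 5) (nat_lit 40) (nat_lit 5) (nat_lit 41) (nat_lit 4) (nat_lit 402) (nat_lit 347) (nat_lit 271)) (XT.lf (nat_lit 0) (nat_lit 1334658697) (nat_lit 152) (nat_lit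 4829332265) (nat_lit 76) (nat_lit 24380228924) (nat_lit 38) (nat_lit 5) (nat_lit 40) (nat_lit 5) (nat_lit 39) (nat_lit 5) (nat_lit 403) (nat_lit 347) (nat_lit 270))) (XT.nd (nat_lit 78) (nat_lit 0) (nat_lit 0) (XT.lf (nat_lit 0) (nat_lit 8934521122) (nat_lit 228) (nat_lit 19543377890) (nat_lit 76) (nat_lit 3123305267) (nat_lit 36) (nat_lit 5) (nat_lit 39) (nat_lit 5) (nat_lit 37) (nat_lit 4) (nat_lit 404) (nat_lit 347) (nat_lit 269)) (XT.lf (nat_lit 0) (nat_lit 17078633838) (nat_lit 228) (nat_lit 2888963097) (nat_lit 76) (nat_lit 12735230961) (nat_lit 36) (nat_lit 5) (nat_lit 39) (nat_lit 5) (nat_lit 37) (nat_lit 4) (nat_lit 405) (nat_lit 347) (nat_lit 268))))))))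
noncomputable def xc116 : XT := (XT.nd (nat_lit 2106) (nat_lit 684) (nat_lit 0) (XT.nd (nat_lit 1014) (nat_lit 684) (nat_lit 0) (XT.nd (nat_lit 468) (nat_lit 380) (nat_lit 0) (XT.nd (nat_lit 234) (nat_lit 152) (nat_lit 0) (XT.nd (nat_lit 78) (nat_lit 228) (nat_lit 0) (XT.lf (nat_lit 0) (nat_lit 15044813524) (nat_lit 76) (nat_lit 10801059210) (nat_lit 152) (nat_lit 8002866658) (nat_lit 35) (nat_lit 5) (nat_lit 36) (nat_lit 5) (nat_lit 37) (nat_lit 4) (nat_lit 406) (nat_lit 347) (nat_lit 267)) (XT.nd (nat_lit 78) (nat_lit 152) (nat_lit 0) (XT.lf (nat_lit 0) (nat_lit 30359145) (nat_lit 152) (nat_lit 1109669563) (nat_lit 76) (nat_lit 33910379753) (nat_lit 34) (nat_lit 5) (nat_lit 36) (nat_lit 5) (nat_lit 35) (nat_lit 5) (nat_lit 407) (nat_lit 347) (nat_lit 266)) (XT.lf (nat_lit 0) (nat_lit 8604463067) (nat_lit 228) (nat_lit 18562622093) (nat_lit 76) (nat_lit 9118110170) (nat_lit 32) (nat_lit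 5) (nat_lit 35) (nat_lit 5) (nat_lit 33) (nat_lit 4) (nat_lit 408) (nat_lit 347) (nat_lit 265)))) (XT.nd (nat_lit 78) (nat_lit 152) (nat_lit 0) (XT.lf (nat_lit 0) (nat_lit 17627162204) (nat_lit 228) (nat_lit 98226187) (nat_lit 76) (nat_lit 19855340895) (nat_lit 32) (nat_lit 5) (nat_lit 35) (nat_lit 5) (nat_lit 33) (nat_lit 4) (nat_lit 409) (nat_lit 347) (nat_lit 264)) (XT.nd (nat_lit 78) (nat_lit 76) (nat_lit 0) (XT.lf (nat_lit 0) (nat_lit 19894321953) (nat_lit 76) (nat_lit 7500232989) (nat_lit 152) (nat_lit 11531809200) (nat_lit 31) (nat_lit 5) (nat_lit 32) (nat_lit 5) (nat_lit 33) (nat_lit 4) (nat_lit 410) (nat_lit 347) (nat_lit 263)) (XT.lf (nat_lit 0) (nat_lit 483731677) (nat_lit 76) (nat_lit 37209402825) (nat_lit 76) (nat_lit 2644007415) (nat_lit 30) (nat_lit 4) (nat_lit 31) (nat_lit 5) (nat_lit 31) (nat_lit 4) (nat_lit 411) (nat_lit 347) (nat_lit 262))))) (XT.nd (nat_lit 234) (nat_lit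 228) (nat_lit 0) (XT.nd (nat_lit 78) (nat_lit 76) (nat_lit 0) (XT.lf (nat_lit 0) (nat_lit 6907766827) (nat_lit 152) (nat_lit 20430912869) (nat_lit 76) (nat_lit 14452877364) (nat_lit 29) (nat_lit 5) (nat_lit 31) (nat_lit 5) (nat_lit 30) (nat_lit 4) (nat_lit 412) (nat_lit 347) (nat_lit 261)) (XT.nd (nat_lit 78) (nat_lit 76) (nat_lit 0) (XT.lf (nat_lit 0) (nat_lit 16832169676) (nat_lit 152) (nat_lit 111067462) (nat_lit 76) (nat_lit 26374095566) (nat_lit 29) (nat_lit 5) (nat_lit 31) (nat_lit 5) (nat_lit 30) (nat_lit 4) (nat_lit 413) (nat_lit 347) (nat_lit 260)) (XT.lf (nat_lit 0) (nat_lit 21896615369) (nat_lit 76) (nat_lit 5682707574) (nat_lit 152) (nat_lit 17323749347) (nat_lit 28) (nat_lit 5) (nat_lit 29) (nat_lit 5) (nat_lit 30) (nat_lit 4) (nat_lit 414) (nat_lit 347) (nat_lit 259)))) (XT.nd (nat_lit 156) (nat_lit 76) (nat_lit 0) (XT.nd (nat_lit 78) (nat_lit 152) (nat_lit 0) (XT.lf (nat_lit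 0) (nat_lit 38946359216) (nat_lit 152) (nat_lit 1684432951) (nat_lit 0) (nat_lit 5933182015) (nat_lit 28) (nat_lit 5) (nat_lit 30) (nat_lit 4) (nat_lit 28) (nat_lit 4) (nat_lit 415) (nat_lit 347) (nat_lit 258)) (XT.lf (nat_lit 0) (nat_lit 2908782540) (nat_lit 152) (nat_lit 27070888997) (nat_lit 76) (nat_lit 18305375100) (nat_lit 26) (nat_lit 5) (nat_lit 28) (nat_lit 5) (nat_lit 27) (nat_lit 4) (nat_lit 416) (nat_lit 347) (nat_lit 257))) (XT.nd (nat_lit 78) (nat_lit 76) (nat_lit 0) (XT.lf (nat_lit 0) (nat_lit 13719988624) (nat_lit 152) (nat_lit 4927646054) (nat_lit 76) (nat_lit 31437570942) (nat_lit 26) (nat_lit 5) (nat_lit 28) (nat_lit 5) (nat_lit 27) (nat_lit 4) (nat_lit 417) (nat_lit 347) (nat_lit 256)) (XT.lf (nat_lit 0) (nat_lit 18901328583) (nat_lit 76) (nat_lit 6451715975) (nat_lit 152) (nat_lit 26608264828) (nat_lit 25) (nat_lit 5) (nat_lit 26) (nat_lit 5) (nat_lit 27) (nat_lit 4)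 (nat_lit 418) (nat_lit 347) (nat_lit 255)))))) (XT.nd (nat_lit 546) (nat_lit 380) (nat_lit 0) (XT.nd (nat_lit 234) (nat_lit 152) (nat_lit 0) (XT.nd (nat_lit 78) (nat_lit 152) (nat_lit 0) (XT.lf (nat_lit 0) (nat_lit 37738022697) (nat_lit 152) (nat_lit 9961239797) (nat_lit 0) (nat_lit 6223443624) (nat_lit 25) (nat_lit 5) (nat_lit 27) (nat_lit 4) (nat_lit 25) (nat_lit 4) (nat_lit 419) (nat_lit 347) (nat_lit 254)) (XT.nd (nat_lit 78) (nat_lit 76) (nat_lit 0) (XT.lf (nat_lit 0) (nat_lit 14629723545) (nat_lit 76) (nat_lit 36433603535) (nat_lit 76) (nat_lit 4902792931) (nat_lit 24) (nat_lit 4) (nat_lit 25) (nat_lit 5) (nat_lit 25) (nat_lit 4) (nat_lit 420) (nat_lit 347) (nat_lit 253)) (XT.lf (nat_lit 0) (nat_lit 6879355919) (nat_lit 152) (nat_lit 17443589572) (nat_lit 76) (nat_lit 33775420584) (nat_lit 23) (nat_lit 5) (nat_lit 25) (nat_lit 5) (nat_lit 24) (nat_lit 4) (nat_lit 421) (nat_lit 347)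 (nat_lit 252)))) (XT.nd (nat_lit 156) (nat_lit 76) (nat_lit 0) (XT.nd (nat_lit 78) (nat_lit 0) (nat_lit 0) (XT.lf (nat_lit 0) (nat_lit 7788755233) (nat_lit 76) (nat_lit 11406243263) (nat_lit 152) (nat_lit 41132750678) (nat_lit 22) (nat_lit 5) (nat_lit 23) (nat_lit 5) (nat_lit 24) (nat_lit 4) (nat_lit 422) (nat_lit 347) (nat_lit 251)) (XT.lf (nat_lit 0) (nat_lit 32447941484) (nat_lit 152) (nat_lit 27828084565) (nat_lit 0) (nat_lit 2376500443) (nat_lit 22) (nat_lit 5) (nat_lit 24) (nat_lit 4) (nat_lit 22) (nat_lit 4) (nat_lit 423) (nat_lit 347) (nat_lit 250))) (XT.nd (nat_lit 78) (nat_lit 76) (nat_lit 0) (XT.lf (nat_lit 0) (nat_lit 46538703956) (nat_lit 152) (nat_lit 2091535949) (nat_lit 0) (nat_lit 16454545086) (nat_lit 22) (nat_lit 5) (nat_lit 24) (nat_lit 4) (nat_lit 22) (nat_lit 4) (nat_lit 424) (nat_lit 347) (nat_lit 249)) (XT.lf (nat_lit 0) (nat_lit 25733650348) (nat_lit 76) (nat_lit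 35990875978) (nat_lit 76) (nat_lit 5894604888) (nat_lit 21) (nat_lit 4) (nat_lit 22) (nat_lit 5) (nat_lit 22) (nat_lit 4) (nat_lit 425) (nat_lit 347) (nat_lit 248))))) (XT.nd (nat_lit 234) (nat_lit 228) (nat_lit 0) (XT.nd (nat_lit 78) (nat_lit 76) (nat_lit 0) (XT.lf (nat_lit 0) (nat_lit 7177704447) (nat_lit 152) (nat_lit 15393512419) (nat_lit 76) (nat_lit 47701971802) (nat_lit 20) (nat_lit 5) (nat_lit 22) (nat_lit 5) (nat_lit 21) (nat_lit 4) (nat_lit 426) (nat_lit 347) (nat_lit 247)) (XT.nd (nat_lit 78) (nat_lit 0) (nat_lit 0) (XT.lf (nat_lit 0) (nat_lit 12712493654) (nat_lit 76) (nat_lit 8180816750) (nat_lit 152) (nat_lit 52152418786) (nat_lit 19) (nat_lit 5) (nat_lit 20) (nat_lit 5) (nat_lit 21) (nat_lit 4) (nat_lit 427) (nat_lit 347) (nat_lit 246)) (XT.lf (nat_lit 0) (nat_lit 35657184885) (nat_lit 152) (nat_lit 33318932496) (nat_lit 0) (nat_lit 6962655678) (nat_lit 19) (nat_lit 5) (nat_lit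 21) (nat_lit 4) (nat_lit 19) (nat_lit 4) (nat_lit 428) (nat_lit 347) (nat_lit 245)))) (XT.nd (nat_lit 156) (nat_lit 152) (nat_lit 0) (XT.nd (nat_lit 78) (nat_lit 76) (nat_lit 0) (XT.lf (nat_lit 0) (nat_lit 51283207891) (nat_lit 152) (nat_lit 5107875742) (nat_lit 0) (nat_lit 22579188444) (nat_lit 19) (nat_lit 5) (nat_lit 21) (nat_lit 4) (nat_lit 19) (nat_lit 4) (nat_lit 429) (nat_lit 347) (nat_lit 244)) (XT.lf (nat_lit 0) (nat_lit 25304739066) (nat_lit 76) (nat_lit 42771197591) (nat_lit 76) (nat_lit 14058139819) (nat_lit 18) (nat_lit 4) (nat_lit 19) (nat_lit 5) (nat_lit 19) (nat_lit 4) (nat_lit 430) (nat_lit 347) (nat_lit 243))) (XT.nd (nat_lit 78) (nat_lit 76) (nat_lit 0) (XT.lf (nat_lit 0) (nat_lit 322420816) (nat_lit 152) (nat_lit 28060703025) (nat_lit 76) (nat_lit 57068837804) (nat_lit 17) (nat_lit 5) (nat_lit 19) (nat_lit 5) (nat_lit 18) (nat_lit 4) (nat_lit 431) (nat_lit 347) (nat_lit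 242)) (XT.lf (nat_lit 0) (nat_lit 1960635750) (nat_lit 76) (nat_lit 13010339604) (nat_lit 152) (nat_lit 73952172648) (nat_lit 16) (nat_lit 5) (nat_lit 17) (nat_lit 5) (nat_lit 18) (nat_lit 4) (nat_lit 432) (nat_lit 347) (nat_lit 241))))))) (XT.nd (nat_lit 1014) (nat_lit 304) (nat_lit 0) (XT.nd (nat_lit 468) (nat_lit 228) (nat_lit 0) (XT.nd (nat_lit 234) (nat_lit 76) (nat_lit 0) (XT.nd (nat_lit 78) (nat_lit 76) (nat_lit 0) (XT.lf (nat_lit 0) (nat_lit 30874680861) (nat_lit 152) (nat_lit 58161607166) (nat_lit 0) (nat_lit 3505470032) (nat_lit 16) (nat_lit 5) (nat_lit 18) (nat_lit 4) (nat_lit 16) (nat_lit 4) (nat_lit 433) (nat_lit 347) (nat_lit 240)) (XT.nd (nat_lit 78) (nat_lit 76) (nat_lit 0) (XT.lf (nat_lit 0) (nat_lit 47778118897) (nat_lit 152) (nat_lit 28151126575) (nat_lit 0) (nat_lit 20401826304) (nat_lit 16) (nat_lit 5) (nat_lit 18) (nat_lit 4) (nat_lit 16) (nat_lit 4) (nat_lit 434) (nat_lit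 347) (nat_lit 239)) (XT.lf (nat_lit 0) (nat_lit 3454062479) (nat_lit 76) (nat_lit 62118272996) (nat_lit 76) (nat_lit 34735235865) (nat_lit 15) (nat_lit 4) (nat_lit 16) (nat_lit 5) (nat_lit 16) (nat_lit 4) (nat_lit 435) (nat_lit 347) (nat_lit 238)))) (XT.nd (nat_lit 78) (nat_lit 76) (nat_lit 0) (XT.lf (nat_lit 0) (nat_lit 37600751384) (nat_lit 76) (nat_lit 47124088314) (nat_lit 76) (nat_lit 19734627815) (nat_lit 15) (nat_lit 4) (nat_lit 16) (nat_lit 5) (nat_lit 16) (nat_lit 4) (nat_lit 436) (nat_lit 347) (nat_lit 237)) (XT.nd (nat_lit 78) (nat_lit 76) (nat_lit 0) (XT.lf (nat_lit 0) (nat_lit 73439438400) (nat_lit 76) (nat_lit 31387743937) (nat_lit 76) (nat_lit 3992165945) (nat_lit 15) (nat_lit 4) (nat_lit 16) (nat_lit 5) (nat_lit 16) (nat_lit 4) (nat_lit 437) (nat_lit 347) (nat_lit 236)) (XT.lf (nat_lit 0) (nat_lit 12128605330) (nat_lit 152) (nat_lit 2537763249) (nat_lit 76) (nat_lit 98721444604)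 (nat_lit 14) (nat_lit 5) (nat_lit 16) (nat_lit 5) (nat_lit 15) (nat_lit 4) (nat_lit 438) (nat_lit 347) (nat_lit 235))))) (XT.nd (nat_lit 234) (nat_lit 152) (nat_lit 0) (XT.nd (nat_lit 78) (nat_lit 0) (nat_lit 0) (XT.lf (nat_lit 0) (nat_lit 29482583191) (nat_lit 152) (nat_lit 85290056446) (nat_lit 0) (nat_lit 3380723264) (nat_lit 13) (nat_lit 5) (nat_lit 15) (nat_lit 4) (nat_lit 13) (nat_lit 4) (nat_lit 439) (nat_lit 347) (nat_lit 234)) (XT.nd (nat_lit 78) (nat_lit 0) (nat_lit 0) (XT.lf (nat_lit 0) (nat_lit 47981213334) (nat_lit 152) (nat_lit 53287808941) (nat_lit 0) (nat_lit 21874320529) (nat_lit 13) (nat_lit 5) (nat_lit 15) (nat_lit 4) (nat_lit 13) (nat_lit 4) (nat_lit 440) (nat_lit 347) (nat_lit 233)) (XT.lf (nat_lit 0) (nat_lit 67397954324) (nat_lit 152) (nat_lit 19698940461) (nat_lit 0) (nat_lit 41286268302) (nat_lit 13) (nat_lit 5) (nat_lit 15) (nat_lit 4) (nat_lit 13) (nat_lit 4) (nat_lit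 441) (nat_lit 347) (nat_lit 232)))) (XT.nd (nat_lit 156) (nat_lit 76) (nat_lit 0) (XT.nd (nat_lit 78) (nat_lit 0) (nat_lit 0) (XT.lf (nat_lit 0) (nat_lit 16070891378) (nat_lit 76) (nat_lit 71959056770) (nat_lit 76) (nat_lit 45842805780) (nat_lit 12) (nat_lit 4) (nat_lit 13) (nat_lit 5) (nat_lit 13) (nat_lit 4) (nat_lit 442) (nat_lit 347) (nat_lit 231)) (XT.lf (nat_lit 0) (nat_lit 54300475829) (nat_lit 76) (nat_lit 55720293011) (nat_lit 76) (nat_lit 29599694432) (nat_lit 12) (nat_lit 4) (nat_lit 13) (nat_lit 5) (nat_lit 13) (nat_lit 4) (nat_lit 443) (nat_lit 347) (nat_lit 230))) (XT.nd (nat_lit 78) (nat_lit 76) (nat_lit 0) (XT.lf (nat_lit 0) (nat_lit 94429499777) (nat_lit 76) (nat_lit 38675550872) (nat_lit 76) (nat_lit 12550811733) (nat_lit 12) (nat_lit 4) (nat_lit 13) (nat_lit 5) (nat_lit 13) (nat_lit 4) (nat_lit 444) (nat_lit 347) (nat_lit 229)) (XT.lf (nat_lit 0) (nat_lit 5173379601) (nat_lit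 152) (nat_lit 15523254347) (nat_lit 76) (nat_lit 131292515229) (nat_lit 11) (nat_lit 5) (nat_lit 13) (nat_lit 5) (nat_lit 12) (nat_lit 4) (nat_lit 445) (nat_lit 347) (nat_lit 228)))))) (XT.nd (nat_lit 546) (nat_lit 152) (nat_lit 0) (XT.nd (nat_lit 234) (nat_lit 76) (nat_lit 0) (XT.nd (nat_lit 78) (nat_lit 0) (nat_lit 0) (XT.lf (nat_lit 0) (nat_lit 22467244460) (nat_lit 76) (nat_lit 1239917783) (nat_lit 152) (nat_lit 134904392214) (nat_lit 10) (nat_lit 5) (nat_lit 11) (nat_lit 5) (nat_lit 12) (nat_lit 4) (nat_lit 446) (nat_lit 347) (nat_lit 227)) (XT.nd (nat_lit 78) (nat_lit 0) (nat_lit 0) (XT.lf (nat_lit 0) (nat_lit 43728847945) (nat_lit 152) (nat_lit 102970766437) (nat_lit 0) (nat_lit 18837405172) (nat_lit 10) (nat_lit 5) (nat_lit 12) (nat_lit 4) (nat_lit 10) (nat_lit 4) (nat_lit 447) (nat_lit 347) (nat_lit 226)) (XT.lf (nat_lit 0) (nat_lit 64766617214) (nat_lit 152) (nat_lit 68169460762)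 (nat_lit 0) (nat_lit 39871930203) (nat_lit 10) (nat_lit 5) (nat_lit 12) (nat_lit 4) (nat_lit 10) (nat_lit 4) (nat_lit 448) (nat_lit 347) (nat_lit 225)))) (XT.nd (nat_lit 156) (nat_lit 0) (nat_lit 0) (XT.nd (nat_lit 78) (nat_lit 76) (nat_lit 0) (XT.lf (nat_lit 0) (nat_lit 86851201386) (nat_lit 152) (nat_lit 31638174129) (nat_lit 0) (nat_lit 61953424625) (nat_lit 10) (nat_lit 5) (nat_lit 12) (nat_lit 4) (nat_lit 10) (nat_lit 4) (nat_lit 449) (nat_lit 347) (nat_lit 224)) (XT.lf (nat_lit 0) (nat_lit 6931938022) (nat_lit 76) (nat_lit 103211471762) (nat_lit 76) (nat_lit 78310752382) (nat_lit 9) (nat_lit 4) (nat_lit 10) (nat_lit 5) (nat_lit 10) (nat_lit 4) (nat_lit 450) (nat_lit 347) (nat_lit 223))) (XT.nd (nat_lit 78) (nat_lit 0) (nat_lit 0) (XT.lf (nat_lit 0) (nat_lit 48519512531) (nat_lit 76) (nat_lit 86611774460) (nat_lit 76) (nat_lit 61708252586) (nat_lit 9) (nat_lit 4) (nat_lit 10) (nat_lit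 5) (nat_lit 10) (nat_lit 4) (nat_lit 451) (nat_lit 347) (nat_lit 222)) (XT.lf (nat_lit 0) (nat_lit 92177466513) (nat_lit 76) (nat_lit 69186568310) (nat_lit 76) (nat_lit 44280377393) (nat_lit 9) (nat_lit 4) (nat_lit 10) (nat_lit 5) (nat_lit 10) (nat_lit 4) (nat_lit 452) (nat_lit 347) (nat_lit 221))))) (XT.nd (nat_lit 234) (nat_lit 0) (nat_lit 0) (XT.nd (nat_lit 78) (nat_lit 152) (nat_lit 0) (XT.lf (nat_lit 0) (nat_lit 138009747477) (nat_lit 76) (nat_lit 50894364725) (nat_lit 76) (nat_lit 25985631863) (nat_lit 9) (nat_lit 4) (nat_lit 10) (nat_lit 5) (nat_lit 10) (nat_lit 4) (nat_lit 453) (nat_lit 347) (nat_lit 220)) (XT.nd (nat_lit 78) (nat_lit 152) (nat_lit 0) (XT.lf (nat_lit 0) (nat_lit 186125479903) (nat_lit 76) (nat_lit 31691610840) (nat_lit 76) (nat_lit 6780457078) (nat_lit 9) (nat_lit 4) (nat_lit 10) (nat_lit 5) (nat_lit 10) (nat_lit 4) (nat_lit 454) (nat_lit 347) (nat_lit 219)) (XT.lf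 (nat_lit 0) (nat_lit 1693579955) (nat_lit 76) (nat_lit 11285463623) (nat_lit 152) (nat_lit 221800125999) (nat_lit 7) (nat_lit 5) (nat_lit 8) (nat_lit 5) (nat_lit 9) (nat_lit 4) (nat_lit 455) (nat_lit 347) (nat_lit 218)))) (XT.nd (nat_lit 156) (nat_lit 0) (nat_lit 0) (XT.nd (nat_lit 78) (nat_lit 0) (nat_lit 0) (XT.lf (nat_lit 0) (nat_lit 34315240501) (nat_lit 152) (nat_lit 200522199803) (nat_lit 0) (nat_lit 10586045065) (nat_lit 7) (nat_lit 5) (nat_lit 9) (nat_lit 4) (nat_lit 7) (nat_lit 4) (nat_lit 456) (nat_lit 347) (nat_lit 217)) (XT.lf (nat_lit 0) (nat_lit 56899479294) (nat_lit 152) (nat_lit 166523184024) (nat_lit 0) (nat_lit 33168292177) (nat_lit 7) (nat_lit 5) (nat_lit 9) (nat_lit 4) (nat_lit 7) (nat_lit 4) (nat_lit 457) (nat_lit 347) (nat_lit 216))) (XT.nd (nat_lit 78) (nat_lit 0) (nat_lit 0) (XT.lf (nat_lit 0) (nat_lit 80609334239) (nat_lit 152) (nat_lit 130831394535) (nat_lit 0) (nat_lit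 56876250283) (nat_lit 7) (nat_lit 5) (nat_lit 9) (nat_lit 4) (nat_lit 7) (nat_lit 4) (nat_lit 458) (nat_lit 347) (nat_lit 215)) (XT.lf (nat_lit 0) (nat_lit 105501257371) (nat_lit 152) (nat_lit 93361850883) (nat_lit 0) (nat_lit 81766366903) (nat_lit 7) (nat_lit 5) (nat_lit 9) (nat_lit 4) (nat_lit 7) (nat_lit 4) (nat_lit 459) (nat_lit 347) (nat_lit 214))))))))
noncomputable def xc117 : XT := (XT.nd (nat_lit 44694) (nat_lit 0) (nat_lit 5396) (XT.nd (nat_lit 1014) (nat_lit 0) (nat_lit 0) (XT.nd (nat_lit 468) (nat_lit 152) (nat_lit 0) (XT.nd (nat_lit 234) (nat_lit 0) (nat_lit 0) (XT.nd (nat_lit 78) (nat_lit 76) (nat_lit 0) (XT.lf (nat_lit 0) (nat_lit 131634515175) (nat_lit 152) (nat_lit 54025339870) (nat_lit 0) (nat_lit 107897904218) (nat_lit 7) (nat_lit 5) (nat_lit 9) (nat_lit 4) (nat_lit 7) (nat_lit 4) (nat_lit 460) (nat_lit 347) (nat_lit 213)) (XT.nd (nat_lit 78) (nat_lit 76) (nat_lit 0) (XT.lf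 (nat_lit 0) (nat_lit 159071329692) (nat_lit 152) (nat_lit 12728203135) (nat_lit 0) (nat_lit 135333080174) (nat_lit 7) (nat_lit 5) (nat_lit 9) (nat_lit 4) (nat_lit 7) (nat_lit 4) (nat_lit 461) (nat_lit 347) (nat_lit 212)) (XT.lf (nat_lit 0) (nat_lit 31640582060) (nat_lit 76) (nat_lit 156730442769) (nat_lit 76) (nat_lit 132990632718) (nat_lit 6) (nat_lit 4) (nat_lit 7) (nat_lit 5) (nat_lit 7) (nat_lit 4) (nat_lit 462) (nat_lit 347) (nat_lit 211)))) (XT.nd (nat_lit 78) (nat_lit 0) (nat_lit 0) (XT.lf (nat_lit 0) (nat_lit 78663891625) (nat_lit 76) (nat_lit 140684463285) (nat_lit 76) (nat_lit 116943167011) (nat_lit 6) (nat_lit 4) (nat_lit 7) (nat_lit 5) (nat_lit 7) (nat_lit 4) (nat_lit 463) (nat_lit 347) (nat_lit 210)) (XT.nd (nat_lit 78) (nat_lit 0) (nat_lit 0) (XT.lf (nat_lit 0) (nat_lit 128032833939) (nat_lit 76) (nat_lit 123838947941) (nat_lit 76) (nat_lit 100096236217) (nat_lit 6) (nat_lit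 4) (nat_lit 7) (nat_lit 5) (nat_lit 7) (nat_lit 4) (nat_lit 464) (nat_lit 347) (nat_lit 209)) (XT.lf (nat_lit 0) (nat_lit 179864954105) (nat_lit 76) (nat_lit 106153788367) (nat_lit 76) (nat_lit 82409728595) (nat_lit 6) (nat_lit 4) (nat_lit 7) (nat_lit 5) (nat_lit 7) (nat_lit 4) (nat_lit 465) (nat_lit 347) (nat_lit 208))))) (XT.nd (nat_lit 234) (nat_lit 152) (nat_lit 0) (XT.nd (nat_lit 78) (nat_lit 0) (nat_lit 0) (XT.lf (nat_lit 0) (nat_lit 234283661933) (nat_lit 76) (nat_lit 87586877040) (nat_lit 76) (nat_lit 63841533413) (nat_lit 6) (nat_lit 4) (nat_lit 7) (nat_lit 5) (nat_lit 7) (nat_lit 4) (nat_lit 466) (nat_lit 347) (nat_lit 207)) (XT.nd (nat_lit 78) (nat_lit 0) (nat_lit 0) (XT.lf (nat_lit 0) (nat_lit 291418525773) (nat_lit 76) (nat_lit 68094007029) (nat_lit 76) (nat_lit 44347440683) (nat_lit 6) (nat_lit 4) (nat_lit 7) (nat_lit 5) (nat_lit 7) (nat_lit 4) (nat_lit 467) (nat_lit 347) (nat_lit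 206)) (XT.lf (nat_lit 0) (nat_lit 351405581016) (nat_lit 76) (nat_lit 47628766738) (nat_lit 76) (nat_lit 23881035898) (nat_lit 6) (nat_lit 4) (nat_lit 7) (nat_lit 5) (nat_lit 7) (nat_lit 4) (nat_lit 468) (nat_lit 347) (nat_lit 205)))) (XT.nd (nat_lit 156) (nat_lit 0) (nat_lit 0) (XT.nd (nat_lit 78) (nat_lit 152) (nat_lit 0) (XT.lf (nat_lit 0) (nat_lit 414387653985) (nat_lit 76) (nat_lit 26142429405) (nat_lit 76) (nat_lit 2393589523) (nat_lit 6) (nat_lit 4) (nat_lit 7) (nat_lit 5) (nat_lit 7) (nat_lit 4) (nat_lit 469) (nat_lit 347) (nat_lit 204)) (XT.lf (nat_lit 0) (nat_lit 16805246071) (nat_lit 76) (nat_lit 2977750115) (nat_lit 152) (nat_lit 444120622580) (nat_lit 4) (nat_lit 5) (nat_lit 5) (nat_lit 5) (nat_lit 6) (nat_lit 4) (nat_lit 470) (nat_lit 347) (nat_lit 203))) (XT.nd (nat_lit 78) (nat_lit 0) (nat_lit 0) (XT.lf (nat_lit 0) (nat_lit 43810325081) (nat_lit 152) (nat_lit 420888738862)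 (nat_lit 0) (nat_lit 21190418370) (nat_lit 4) (nat_lit 5) (nat_lit 6) (nat_lit 4) (nat_lit 4) (nat_lit 4) (nat_lit 471) (nat_lit 347) (nat_lit 202)) (XT.lf (nat_lit 0) (nat_lit 69085838487) (nat_lit 152) (nat_lit 393421440350) (nat_lit 0) (nat_lit 46465019364) (nat_lit 4) (nat_lit 5) (nat_lit 6) (nat_lit 4) (nat_lit 4) (nat_lit 4) (nat_lit 472) (nat_lit 347) (nat_lit 201)))))) (XT.nd (nat_lit 546) (nat_lit 0) (nat_lit 0) (XT.nd (nat_lit 234) (nat_lit 0) (nat_lit 0) (XT.nd (nat_lit 78) (nat_lit 0) (nat_lit 0) (XT.lf (nat_lit 0) (nat_lit 95623225175) (nat_lit 152) (nat_lit 364584587805) (nat_lit 0) (nat_lit 73001537088) (nat_lit 4) (nat_lit 5) (nat_lit 6) (nat_lit 4) (nat_lit 4) (nat_lit 4) (nat_lit 473) (nat_lit 347) (nat_lit 200)) (XT.nd (nat_lit 78) (nat_lit 0) (nat_lit 0) (XT.lf (nat_lit 0) (nat_lit 123485669398) (nat_lit 152) (nat_lit 334309522054) (nat_lit 0) (nat_lit 100863153727) (nat_lit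 4) (nat_lit 5) (nat_lit 6) (nat_lit 4) (nat_lit 4) (nat_lit 4) (nat_lit 474) (nat_lit 347) (nat_lit 199)) (XT.lf (nat_lit 0) (nat_lit 152739510309) (nat_lit 152) (nat_lit 302524159606) (nat_lit 0) (nat_lit 130116206462) (nat_lit 4) (nat_lit 5) (nat_lit 6) (nat_lit 4) (nat_lit 4) (nat_lit 4) (nat_lit 475) (nat_lit 347) (nat_lit 198)))) (XT.nd (nat_lit 156) (nat_lit 0) (nat_lit 0) (XT.nd (nat_lit 78) (nat_lit 0) (nat_lit 0) (XT.lf (nat_lit 0) (nat_lit 183454399910) (nat_lit 152) (nat_lit 269152821029) (nat_lit 0) (nat_lit 160830345420) (nat_lit 4) (nat_lit 5) (nat_lit 6) (nat_lit 4) (nat_lit 4) (nat_lit 4) (nat_lit 476) (nat_lit 347) (nat_lit 197)) (XT.lf (nat_lit 0) (nat_lit 215703468892) (nat_lit 152) (nat_lit 234116050753) (nat_lit 0) (nat_lit 193078699503) (nat_lit 4) (nat_lit 5) (nat_lit 6) (nat_lit 4) (nat_lit 4) (nat_lit 4) (nat_lit 477) (nat_lit 347) (nat_lit 196))) (XT.nd (nat_lit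 78) (nat_lit 0) (nat_lit 0) (XT.lf (nat_lit 0) (nat_lit 249563500751) (nat_lit 152) (nat_lit 197330427897) (nat_lit 0) (nat_lit 226938050507) (nat_lit 4) (nat_lit 5) (nat_lit 6) (nat_lit 4) (nat_lit 4) (nat_lit 4) (nat_lit 478) (nat_lit 347) (nat_lit 195)) (XT.lf (nat_lit 0) (nat_lit 285115114611) (nat_lit 152) (nat_lit 158708367644) (nat_lit 0) (nat_lit 262489015933) (nat_lit 4) (nat_lit 5) (nat_lit 6) (nat_lit 4) (nat_lit 4) (nat_lit 4) (nat_lit 479) (nat_lit 347) (nat_lit 194))))) (XT.nd (nat_lit 42822) (nat_lit 0) (nat_lit 10868) (XT.nd (nat_lit 78) (nat_lit 0) (nat_lit 0) (XT.lf (nat_lit 0) (nat_lit 322442957171) (nat_lit 152) (nat_lit 118157912709) (nat_lit 0) (nat_lit 299816240937) (nat_lit 4) (nat_lit 5) (nat_lit 6) (nat_lit 4) (nat_lit 4) (nat_lit 4) (nat_lit 480) (nat_lit 347) (nat_lit 193)) (XT.nd (nat_lit 78) (nat_lit 0) (nat_lit 0) (XT.lf (nat_lit 0) (nat_lit 361635904248) (nat_lit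 152) (nat_lit 75582514390) (nat_lit 0) (nat_lit 339008599865) (nat_lit 4) (nat_lit 5) (nat_lit 6) (nat_lit 4) (nat_lit 4) (nat_lit 4) (nat_lit 481) (nat_lit 347) (nat_lit 192)) (XT.lf (nat_lit 0) (nat_lit 402787272382) (nat_lit 152) (nat_lit 30880802689) (nat_lit 0) (nat_lit 380159407858) (nat_lit 4) (nat_lit 5) (nat_lit 6) (nat_lit 4) (nat_lit 4) (nat_lit 4) (nat_lit 482) (nat_lit 347) (nat_lit 191)))) (XT.nd (nat_lit 156) (nat_lit 532) (nat_lit 0) (XT.nd (nat_lit 78) (nat_lit 0) (nat_lit 0) (XT.lf (nat_lit 0) (nat_lit 2381580193) (nat_lit 532) (nat_lit 605151387) (nat_lit 532) (nat_lit 605151387) (nat_lit 154) (nat_lit 3) (nat_lit 161) (nat_lit 3) (nat_lit 161) (nat_lit 5) (nat_lit 348) (nat_lit 348) (nat_lit 324)) (XT.lf (nat_lit 76) (nat_lit 2372681137) (nat_lit 0) (nat_lit 4146349783) (nat_lit 532) (nat_lit 761314085) (nat_lit 155) (nat_lit 5) (nat_lit 154) (nat_lit 3) (nat_lit 161)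 (nat_lit 5) (nat_lit 349) (nat_lit 348) (nat_lit 323))) (XT.nd (nat_lit 78) (nat_lit 0) (nat_lit 76) (XT.lf (nat_lit 0) (nat_lit 865341406) (nat_lit 532) (nat_lit 1278669374) (nat_lit 608) (nat_lit 5241258361) (nat_lit 147) (nat_lit 5) (nat_lit 154) (nat_lit 3) (nat_lit 155) (nat_lit 5) (nat_lit 350) (nat_lit 348) (nat_lit 322)) (XT.lf (nat_lit 0) (nat_lit 2488324299) (nat_lit 532) (nat_lit 4954364996) (nat_lit 608) (nat_lit 55165423) (nat_lit 148) (nat_lit 5) (nat_lit 155) (nat_lit 5) (nat_lit 156) (nat_lit 5) (nat_lit 351) (nat_lit 348) (nat_lit 321))))))) (XT.nd (nat_lit 1014) (nat_lit 2584) (nat_lit 0) (XT.nd (nat_lit 468) (nat_lit 2432) (nat_lit 0) (XT.nd (nat_lit 234) (nat_lit 532) (nat_lit 0) (XT.nd (nat_lit 78) (nat_lit 0) (nat_lit 0) (XT.lf (nat_lit 0) (nat_lit 4154113036) (nat_lit 532) (nat_lit 1110247707) (nat_lit 608) (nat_lit 2353690998) (nat_lit 148) (nat_lit 5) (nat_lit 155)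 (nat_lit 5) (nat_lit 156) (nat_lit 5) (nat_lit 352) (nat_lit 348) (nat_lit 320)) (XT.nd (nat_lit 78) (nat_lit 0) (nat_lit 0) (XT.lf (nat_lit 76) (nat_lit 2962899644) (nat_lit 0) (nat_lit 2895597494) (nat_lit 608) (nat_lit 1888058086) (nat_lit 149) (nat_lit 5) (nat_lit 148) (nat_lit 5) (nat_lit 156) (nat_lit 5) (nat_lit 353) (nat_lit 348) (nat_lit 319)) (XT.lf (nat_lit 76) (nat_lit 7221178160) (nat_lit 0) (nat_lit 358211688) (nat_lit 608) (nat_lit 305588520) (nat_lit 149) (nat_lit 5) (nat_lit 148) (nat_lit 5) (nat_lit 156) (nat_lit 5) (nat_lit 354) (nat_lit 348) (nat_lit 318)))) (XT.nd (nat_lit 78) (nat_lit 0) (nat_lit 0) (XT.lf (nat_lit 0) (nat_lit 1323367085) (nat_lit 608) (nat_lit 4366235467) (nat_lit 684) (nat_lit 2339176885) (nat_lit 141) (nat_lit 5) (nat_lit 149) (nat_lit 5) (nat_lit 150) (nat_lit 5) (nat_lit 355) (nat_lit 348) (nat_lit 317)) (XT.nd (nat_lit 78) (nat_lit 0) (nat_lit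 0) (XT.lf (nat_lit 0) (nat_lit 2959585562) (nat_lit 608) (nat_lit 22837748) (nat_lit 684) (nat_lit 5200343453) (nat_lit 141) (nat_lit 5) (nat_lit 149) (nat_lit 5) (nat_lit 150) (nat_lit 5) (nat_lit 356) (nat_lit 348) (nat_lit 316)) (XT.lf (nat_lit 76) (nat_lit 4627934550) (nat_lit 0) (nat_lit 44589229) (nat_lit 684) (nat_lit 3672232741) (nat_lit 142) (nat_lit 5) (nat_lit 141) (nat_lit 5) (nat_lit 150) (nat_lit 5) (nat_lit 357) (nat_lit 348) (nat_lit 315))))) (XT.nd (nat_lit 234) (nat_lit 1140) (nat_lit 0) (XT.nd (nat_lit 78) (nat_lit 760) (nat_lit 0) (XT.lf (nat_lit 0) (nat_lit 918093155) (nat_lit 608) (nat_lit 5540929480) (nat_lit 684) (nat_lit 2056473639) (nat_lit 134) (nat_lit 5) (nat_lit 142) (nat_lit 5) (nat_lit 143) (nat_lit 5) (nat_lit 358) (nat_lit 348) (nat_lit 314)) (XT.nd (nat_lit 78) (nat_lit 760) (nat_lit 0) (XT.lf (nat_lit 0) (nat_lit 5852990871) (nat_lit 608) (nat_lit 2473842038)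 (nat_lit 684) (nat_lit 368384777) (nat_lit 134) (nat_lit 5) (nat_lit 142) (nat_lit 5) (nat_lit 143) (nat_lit 5) (nat_lit 359) (nat_lit 348) (nat_lit 313)) (XT.lf (nat_lit 0) (nat_lit 1335835834) (nat_lit 760) (nat_lit 6759707391) (nat_lit 76) (nat_lit 788492368) (nat_lit 124) (nat_lit 5) (nat_lit 134) (nat_lit 5) (nat_lit 125) (nat_lit 5) (nat_lit 360) (nat_lit 348) (nat_lit 312)))) (XT.nd (nat_lit 156) (nat_lit 380) (nat_lit 0) (XT.nd (nat_lit 78) (nat_lit 760) (nat_lit 0) (XT.lf (nat_lit 0) (nat_lit 3135464289) (nat_lit 760) (nat_lit 1751469539) (nat_lit 76) (nat_lit 4193967770) (nat_lit 124) (nat_lit 5) (nat_lit 134) (nat_lit 5) (nat_lit 125) (nat_lit 5) (nat_lit 361) (nat_lit 348) (nat_lit 311)) (XT.lf (nat_lit 0) (nat_lit 3562059237) (nat_lit 760) (nat_lit 1454913029) (nat_lit 836) (nat_lit 4271079927) (nat_lit 114) (nat_lit 5) (nat_lit 124) (nat_lit 5) (nat_lit 125) (nat_lit 5) (nat_lit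 362) (nat_lit 348) (nat_lit 310))) (XT.nd (nat_lit 78) (nat_lit 380) (nat_lit 0) (XT.lf (nat_lit 0) (nat_lit 6994714735) (nat_lit 836) (nat_lit 397382012) (nat_lit 76) (nat_lit 2113390088) (nat_lit 114) (nat_lit 5) (nat_lit 125) (nat_lit 5) (nat_lit 115) (nat_lit 5) (nat_lit 363) (nat_lit 348) (nat_lit 309)) (XT.lf (nat_lit 0) (nat_lit 5284524631) (nat_lit 380) (nat_lit 3834570756) (nat_lit 456) (nat_lit 612343100) (nat_lit 109) (nat_lit 5) (nat_lit 114) (nat_lit 5) (nat_lit 115) (nat_lit 5) (nat_lit 364) (nat_lit 348) (nat_lit 308)))))) (XT.nd (nat_lit 546) (nat_lit 1064) (nat_lit 0) (XT.nd (nat_lit 234) (nat_lit 684) (nat_lit 0) (XT.nd (nat_lit 78) (nat_lit 380) (nat_lit 0) (XT.lf (nat_lit 0) (nat_lit 1255053387) (nat_lit 380) (nat_lit 50515348) (nat_lit 456) (nat_lit 8663632581) (nat_lit 103) (nat_lit 5) (nat_lit 108) (nat_lit 5) (nat_lit 109) (nat_lit 5) (nat_lit 365) (nat_lit 348) (nat_lit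 307)) (XT.nd (nat_lit 78) (nat_lit 380) (nat_lit 0) (XT.lf (nat_lit 0) (nat_lit 3380707586) (nat_lit 456) (nat_lit 2952336113) (nat_lit 76) (nat_lit 3881239519) (nat_lit 103) (nat_lit 5) (nat_lit 109) (nat_lit 5) (nat_lit 104) (nat_lit 5) (nat_lit 366) (nat_lit 348) (nat_lit 306)) (XT.lf (nat_lit 0) (nat_lit 3138880880) (nat_lit 380) (nat_lit 2417338220) (nat_lit 456) (nat_lit 4915596338) (nat_lit 98) (nat_lit 5) (nat_lit 103) (nat_lit 5) (nat_lit 104) (nat_lit 5) (nat_lit 367) (nat_lit 348) (nat_lit 305)))) (XT.nd (nat_lit 156) (nat_lit 380) (nat_lit 0) (XT.nd (nat_lit 78) (nat_lit 304) (nat_lit 0) (XT.lf (nat_lit 0) (nat_lit 7866104259) (nat_lit 456) (nat_lit 1189731903) (nat_lit 76) (nat_lit 1685133928) (nat_lit 98) (nat_lit 5) (nat_lit 104) (nat_lit 5) (nat_lit 99) (nat_lit 5) (nat_lit 368) (nat_lit 348) (nat_lit 304)) (XT.lf (nat_lit 0) (nat_lit 5334703718) (nat_lit 304) (nat_lit 5030487366)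 (nat_lit 380) (nat_lit 654730517) (nat_lit 94) (nat_lit 5) (nat_lit 98) (nat_lit 5) (nat_lit 99) (nat_lit 5) (nat_lit 369) (nat_lit 348) (nat_lit 303))) (XT.nd (nat_lit 78) (nat_lit 0) (nat_lit 0) (XT.lf (nat_lit 0) (nat_lit 858062301) (nat_lit 304) (nat_lit 750020482) (nat_lit 380) (nat_lit 9704185109) (nat_lit 89) (nat_lit 5) (nat_lit 93) (nat_lit 5) (nat_lit 94) (nat_lit 5) (nat_lit 370) (nat_lit 348) (nat_lit 302)) (XT.lf (nat_lit 0) (nat_lit 4071079995) (nat_lit 380) (nat_lit 3818350820) (nat_lit 76) (nat_lit 3723832855) (nat_lit 89) (nat_lit 5) (nat_lit 94) (nat_lit 5) (nat_lit 90) (nat_lit 5) (nat_lit 371) (nat_lit 348) (nat_lit 301))))) (XT.nd (nat_lit 234) (nat_lit 532) (nat_lit 0) (XT.nd (nat_lit 78) (nat_lit 304) (nat_lit 0) (XT.lf (nat_lit 0) (nat_lit 3182632535) (nat_lit 228) (nat_lit 3491555489) (nat_lit 304) (nat_lit 5254293321) (nat_lit 86) (nat_lit 5) (nat_lit 89) (nat_lit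 5) (nat_lit 90) (nat_lit 5) (nat_lit 372) (nat_lit 348) (nat_lit 300)) (XT.nd (nat_lit 78) (nat_lit 304) (nat_lit 0) (XT.lf (nat_lit 0) (nat_lit 9446835638) (nat_lit 304) (nat_lit 1665991933) (nat_lit 76) (nat_lit 1144682318) (nat_lit 86) (nat_lit 5) (nat_lit 90) (nat_lit 5) (nat_lit 87) (nat_lit 5) (nat_lit 373) (nat_lit 348) (nat_lit 299)) (XT.lf (nat_lit 0) (nat_lit 5843011611) (nat_lit 304) (nat_lit 6621735204) (nat_lit 380) (nat_lit 132929768) (nat_lit 82) (nat_lit 5) (nat_lit 86) (nat_lit 5) (nat_lit 87) (nat_lit 5) (nat_lit 374) (nat_lit 348) (nat_lit 298)))) (XT.nd (nat_lit 156) (nat_lit 228) (nat_lit 0) (XT.nd (nat_lit 78) (nat_lit 0) (nat_lit 0) (XT.lf (nat_lit 0) (nat_lit 758740055) (nat_lit 228) (nat_lit 1833385738) (nat_lit 304) (nat_lit 10360693345) (nat_lit 78) (nat_lit 5) (nat_lit 81) (nat_lit 5) (nat_lit 82) (nat_lit 5) (nat_lit 375) (nat_lit 348) (nat_lit 297)) (XT.lf (nat_lit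 0) (nat_lit 5574649439) (nat_lit 304) (nat_lit 4547648795) (nat_lit 76) (nat_lit 3197043288) (nat_lit 78) (nat_lit 5) (nat_lit 82) (nat_lit 5) (nat_lit 79) (nat_lit 5) (nat_lit 376) (nat_lit 348) (nat_lit 296))) (XT.nd (nat_lit 78) (nat_lit 0) (nat_lit 0) (XT.lf (nat_lit 0) (nat_lit 3510014677) (nat_lit 228) (nat_lit 5242608452) (nat_lit 304) (nat_lit 4949265744) (nat_lit 75) (nat_lit 5) (nat_lit 78) (nat_lit 5) (nat_lit 79) (nat_lit 5) (nat_lit 377) (nat_lit 348) (nat_lit 295)) (XT.lf (nat_lit 0) (nat_lit 12075931096) (nat_lit 228) (nat_lit 53063233) (nat_lit 304) (nat_lit 1972608645) (nat_lit 75) (nat_lit 5) (nat_lit 78) (nat_lit 5) (nat_lit 79) (nat_lit 5) (nat_lit 378) (nat_lit 348) (nat_lit 294))))))))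
noncomputable def xc118 : XT := (XT.nd (nat_lit 2106) (nat_lit 1444) (nat_lit 0) (XT.nd (nat_lit 1014) (nat_lit 1292) (nat_lit 0) (XT.nd (nat_lit 468) (nat_lit 684) (nat_lit 0) (XT.nd (nat_lit 234) (nat_lit 456) (nat_lit 0) (XT.nd (nat_lit 78) (nat_lit 228) (nat_lit 0) (XT.lf (nat_lit 0) (nat_lit 1270183390) (nat_lit 304) (nat_lit 7909170370) (nat_lit 76) (nat_lit 5333351952) (nat_lit 71) (nat_lit 5) (nat_lit 75) (nat_lit 5) (nat_lit 72) (nat_lit 5) (nat_lit 379) (nat_lit 348) (nat_lit 293)) (XT.nd (nat_lit 78) (nat_lit 0) (nat_lit 0) (XT.lf (nat_lit 0) (nat_lit 729511238) (nat_lit 228) (nat_lit 3890817402) (nat_lit 304) (nat_lit 10321855118) (nat_lit 68) (nat_lit 5) (nat_lit 71) (nat_lit 5) (nat_lit 72) (nat_lit 5) (nat_lit 380) (nat_lit 348) (nat_lit 292)) (XT.lf (nat_lit 0) (nat_lit 8265094254) (nat_lit 304) (nat_lit 5392472677) (nat_lit 76) (nat_lit 1729224905) (nat_lit 68) (nat_lit 5)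 (nat_lit 72) (nat_lit 5) (nat_lit 69) (nat_lit 5) (nat_lit 381) (nat_lit 348) (nat_lit 291)))) (XT.nd (nat_lit 78) (nat_lit 304) (nat_lit 0) (XT.lf (nat_lit 0) (nat_lit 3879007511) (nat_lit 152) (nat_lit 8304123267) (nat_lit 228) (nat_lit 3665959130) (nat_lit 66) (nat_lit 5) (nat_lit 68) (nat_lit 5) (nat_lit 69) (nat_lit 5) (nat_lit 382) (nat_lit 348) (nat_lit 290)) (XT.nd (nat_lit 78) (nat_lit 228) (nat_lit 0) (XT.lf (nat_lit 0) (nat_lit 23545889) (nat_lit 228) (nat_lit 2579965971) (nat_lit 76) (nat_lit 13728041351) (nat_lit 65) (nat_lit 5) (nat_lit 68) (nat_lit 5) (nat_lit 66) (nat_lit 5) (nat_lit 383) (nat_lit 348) (nat_lit 289)) (XT.lf (nat_lit 0) (nat_lit 3913957848) (nat_lit 304) (nat_lit 9477672454) (nat_lit 76) (nat_lit 3436532587) (nat_lit 62) (nat_lit 5) (nat_lit 66) (nat_lit 5) (nat_lit 63) (nat_lit 5) (nat_lit 384) (nat_lit 348) (nat_lit 288))))) (XT.nd (nat_lit 234) (nat_lit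 380) (nat_lit 0) (XT.nd (nat_lit 78) (nat_lit 152) (nat_lit 0) (XT.lf (nat_lit 0) (nat_lit 441861649) (nat_lit 152) (nat_lit 7620054176) (nat_lit 228) (nat_lit 9284545189) (nat_lit 60) (nat_lit 5) (nat_lit 62) (nat_lit 5) (nat_lit 63) (nat_lit 5) (nat_lit 385) (nat_lit 348) (nat_lit 287)) (XT.nd (nat_lit 78) (nat_lit 152) (nat_lit 0) (XT.lf (nat_lit 0) (nat_lit 11138692464) (nat_lit 152) (nat_lit 1408854493) (nat_lit 228) (nat_lit 5336622120) (nat_lit 60) (nat_lit 5) (nat_lit 62) (nat_lit 5) (nat_lit 63) (nat_lit 5) (nat_lit 386) (nat_lit 348) (nat_lit 286)) (XT.lf (nat_lit 0) (nat_lit 3920620997) (nat_lit 152) (nat_lit 13448823234) (nat_lit 228) (nat_lit 1073727456) (nat_lit 58) (nat_lit 5) (nat_lit 60) (nat_lit 5) (nat_lit 61) (nat_lit 5) (nat_lit 387) (nat_lit 348) (nat_lit 285)))) (XT.nd (nat_lit 156) (nat_lit 152) (nat_lit 0) (XT.nd (nat_lit 78) (nat_lit 152) (nat_lit 0) (XT.lf (nat_lit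 0) (nat_lit 3403763302) (nat_lit 228) (nat_lit 3795138136) (nat_lit 76) (nat_lit 11823057276) (nat_lit 57) (nat_lit 5) (nat_lit 60) (nat_lit 5) (nat_lit 58) (nat_lit 5) (nat_lit 388) (nat_lit 348) (nat_lit 284)) (XT.lf (nat_lit 0) (nat_lit 7651315251) (nat_lit 152) (nat_lit 509701781) (nat_lit 228) (nat_lit 11463196555) (nat_lit 55) (nat_lit 5) (nat_lit 57) (nat_lit 5) (nat_lit 58) (nat_lit 5) (nat_lit 389) (nat_lit 348) (nat_lit 283))) (XT.nd (nat_lit 78) (nat_lit 152) (nat_lit 0) (XT.lf (nat_lit 0) (nat_lit 13296032478) (nat_lit 228) (nat_lit 599254396) (nat_lit 76) (nat_lit 6354306266) (nat_lit 55) (nat_lit 5) (nat_lit 58) (nat_lit 5) (nat_lit 56) (nat_lit 5) (nat_lit 390) (nat_lit 348) (nat_lit 282)) (XT.lf (nat_lit 0) (nat_lit 11665236419) (nat_lit 152) (nat_lit 7187208641) (nat_lit 228) (nat_lit 2045570857) (nat_lit 53) (nat_lit 5) (nat_lit 55) (nat_lit 5) (nat_lit 56) (nat_lit 5) (nat_lit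 391) (nat_lit 348) (nat_lit 281)))))) (XT.nd (nat_lit 546) (nat_lit 608) (nat_lit 0) (XT.nd (nat_lit 234) (nat_lit 304) (nat_lit 0) (XT.nd (nat_lit 78) (nat_lit 152) (nat_lit 0) (XT.lf (nat_lit 0) (nat_lit 2989390993) (nat_lit 152) (nat_lit 50261244) (nat_lit 228) (nat_lit 18535222287) (nat_lit 50) (nat_lit 5) (nat_lit 52) (nat_lit 5) (nat_lit 53) (nat_lit 5) (nat_lit 392) (nat_lit 348) (nat_lit 280)) (XT.nd (nat_lit 78) (nat_lit 152) (nat_lit 0) (XT.lf (nat_lit 0) (nat_lit 8560140914) (nat_lit 228) (nat_lit 6330162372) (nat_lit 76) (nat_lit 7381114297) (nat_lit 50) (nat_lit 5) (nat_lit 53) (nat_lit 5) (nat_lit 51) (nat_lit 5) (nat_lit 393) (nat_lit 348) (nat_lit 279)) (XT.lf (nat_lit 0) (nat_lit 6710641435) (nat_lit 152) (nat_lit 7727427232) (nat_lit 228) (nat_lit 8560653794) (nat_lit 48) (nat_lit 5) (nat_lit 50) (nat_lit 5) (nat_lit 51) (nat_lit 5) (nat_lit 394) (nat_lit 348) (nat_lit 278))))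 (XT.nd (nat_lit 156) (nat_lit 152) (nat_lit 0) (XT.nd (nat_lit 78) (nat_lit 152) (nat_lit 0) (XT.lf (nat_lit 0) (nat_lit 20582677682) (nat_lit 152) (nat_lit 110756231) (nat_lit 228) (nat_lit 3064786756) (nat_lit 48) (nat_lit 5) (nat_lit 50) (nat_lit 5) (nat_lit 51) (nat_lit 5) (nat_lit 395) (nat_lit 348) (nat_lit 277)) (XT.lf (nat_lit 0) (nat_lit 2892238375) (nat_lit 152) (nat_lit 13814094425) (nat_lit 76) (nat_lit 7833604857) (nat_lit 46) (nat_lit 5) (nat_lit 48) (nat_lit 5) (nat_lit 47) (nat_lit 5) (nat_lit 396) (nat_lit 348) (nat_lit 276))) (XT.nd (nat_lit 78) (nat_lit 152) (nat_lit 0) (XT.lf (nat_lit 0) (nat_lit 9077914316) (nat_lit 152) (nat_lit 18086346) (nat_lit 76) (nat_lit 16260542330) (nat_lit 46) (nat_lit 5) (nat_lit 48) (nat_lit 5) (nat_lit 47) (nat_lit 5) (nat_lit 397) (nat_lit 348) (nat_lit 275)) (XT.lf (nat_lit 0) (nat_lit 14907088193) (nat_lit 152) (nat_lit 876927115) (nat_lit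 228) (nat_lit 10419410453) (nat_lit 44) (nat_lit 5) (nat_lit 46) (nat_lit 5) (nat_lit 47) (nat_lit 5) (nat_lit 398) (nat_lit 348) (nat_lit 274))))) (XT.nd (nat_lit 234) (nat_lit 304) (nat_lit 0) (XT.nd (nat_lit 78) (nat_lit 228) (nat_lit 0) (XT.lf (nat_lit 0) (nat_lit 3437524812) (nat_lit 76) (nat_lit 19541523648) (nat_lit 152) (nat_lit 4105926880) (nat_lit 43) (nat_lit 5) (nat_lit 44) (nat_lit 5) (nat_lit 45) (nat_lit 4) (nat_lit 399) (nat_lit 348) (nat_lit 273)) (XT.nd (nat_lit 78) (nat_lit 152) (nat_lit 0) (XT.lf (nat_lit 0) (nat_lit 2629980152) (nat_lit 152) (nat_lit 8795733048) (nat_lit 76) (nat_lit 16573547695) (nat_lit 42) (nat_lit 5) (nat_lit 44) (nat_lit 5) (nat_lit 43) (nat_lit 5) (nat_lit 400) (nat_lit 348) (nat_lit 272)) (XT.lf (nat_lit 0) (nat_lit 6916386674) (nat_lit 152) (nat_lit 2735996278) (nat_lit 228) (nat_lit 19299131419) (nat_lit 40) (nat_lit 5) (nat_lit 42) (nat_lit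 5) (nat_lit 43) (nat_lit 5) (nat_lit 401) (nat_lit 348) (nat_lit 271)))) (XT.nd (nat_lit 156) (nat_lit 228) (nat_lit 0) (XT.nd (nat_lit 78) (nat_lit 76) (nat_lit 0) (XT.lf (nat_lit 0) (nat_lit 17256911633) (nat_lit 228) (nat_lit 6363039827) (nat_lit 76) (nat_lit 6319882087) (nat_lit 40) (nat_lit 5) (nat_lit 43) (nat_lit 5) (nat_lit 41) (nat_lit 4) (nat_lit 402) (nat_lit 348) (nat_lit 270)) (XT.lf (nat_lit 0) (nat_lit 10344205002) (nat_lit 76) (nat_lit 15084640909) (nat_lit 152) (nat_lit 5539366969) (nat_lit 39) (nat_lit 5) (nat_lit 40) (nat_lit 5) (nat_lit 41) (nat_lit 4) (nat_lit 403) (nat_lit 348) (nat_lit 269))) (XT.nd (nat_lit 78) (nat_lit 152) (nat_lit 0) (XT.lf (nat_lit 0) (nat_lit 1989011699) (nat_lit 152) (nat_lit 4002039188) (nat_lit 76) (nat_lit 26050910939) (nat_lit 38) (nat_lit 5) (nat_lit 40) (nat_lit 5) (nat_lit 39) (nat_lit 5) (nat_lit 404) (nat_lit 348) (nat_lit 268)) (XT.lf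 (nat_lit 0) (nat_lit 9964725898) (nat_lit 228) (nat_lit 19447561888) (nat_lit 76) (nat_lit 3739718913) (nat_lit 36) (nat_lit 5) (nat_lit 39) (nat_lit 5) (nat_lit 37) (nat_lit 4) (nat_lit 405) (nat_lit 348) (nat_lit 267))))))) (XT.nd (nat_lit 1014) (nat_lit 684) (nat_lit 0) (XT.nd (nat_lit 468) (nat_lit 380) (nat_lit 0) (XT.nd (nat_lit 234) (nat_lit 228) (nat_lit 0) (XT.nd (nat_lit 78) (nat_lit 152) (nat_lit 0) (XT.lf (nat_lit 0) (nat_lit 18488259548) (nat_lit 228) (nat_lit 2011520874) (nat_lit 76) (nat_lit 13810324302) (nat_lit 36) (nat_lit 5) (nat_lit 39) (nat_lit 5) (nat_lit 37) (nat_lit 4) (nat_lit 406) (nat_lit 348) (nat_lit 266)) (XT.nd (nat_lit 78) (nat_lit 76) (nat_lit 0) (XT.lf (nat_lit 0) (nat_lit 16802462475) (nat_lit 76) (nat_lit 10880633535) (nat_lit 152) (nat_lit 7830757807) (nat_lit 35) (nat_lit 5) (nat_lit 36) (nat_lit 5) (nat_lit 37) (nat_lit 4) (nat_lit 407) (nat_lit 348)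 (nat_lit 265)) (XT.lf (nat_lit 0) (nat_lit 559435711) (nat_lit 152) (nat_lit 190108891) (nat_lit 76) (nat_lit 36026937361) (nat_lit 34) (nat_lit 5) (nat_lit 36) (nat_lit 5) (nat_lit 35) (nat_lit 5) (nat_lit 408) (nat_lit 348) (nat_lit 264)))) (XT.nd (nat_lit 78) (nat_lit 76) (nat_lit 0) (XT.lf (nat_lit 0) (nat_lit 9558999976) (nat_lit 228) (nat_lit 18512398487) (nat_lit 76) (nat_lit 10001775241) (nat_lit 32) (nat_lit 5) (nat_lit 35) (nat_lit 5) (nat_lit 33) (nat_lit 4) (nat_lit 409) (nat_lit 348) (nat_lit 263)) (XT.nd (nat_lit 78) (nat_lit 0) (nat_lit 0) (XT.lf (nat_lit 0) (nat_lit 856027107) (nat_lit 76) (nat_lit 18165204622) (nat_lit 152) (nat_lit 20412835873) (nat_lit 31) (nat_lit 5) (nat_lit 32) (nat_lit 5) (nat_lit 33) (nat_lit 4) (nat_lit 410) (nat_lit 348) (nat_lit 262)) (XT.lf (nat_lit 0) (nat_lit 21805775952) (nat_lit 76) (nat_lit 7448387618) (nat_lit 152) (nat_lit 11593965139) (nat_lit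 31) (nat_lit 5) (nat_lit 32) (nat_lit 5) (nat_lit 33) (nat_lit 4) (nat_lit 411) (nat_lit 348) (nat_lit 261))))) (XT.nd (nat_lit 234) (nat_lit 152) (nat_lit 0) (XT.nd (nat_lit 78) (nat_lit 152) (nat_lit 0) (XT.lf (nat_lit 0) (nat_lit 1427470738) (nat_lit 76) (nat_lit 38637577580) (nat_lit 76) (nat_lit 2264531082) (nat_lit 30) (nat_lit 4) (nat_lit 31) (nat_lit 5) (nat_lit 31) (nat_lit 4) (nat_lit 412) (nat_lit 348) (nat_lit 260)) (XT.nd (nat_lit 78) (nat_lit 76) (nat_lit 0) (XT.lf (nat_lit 0) (nat_lit 7724869314) (nat_lit 152) (nat_lit 20561045767) (nat_lit 76) (nat_lit 15571582642) (nat_lit 29) (nat_lit 5) (nat_lit 31) (nat_lit 5) (nat_lit 30) (nat_lit 4) (nat_lit 413) (nat_lit 348) (nat_lit 259)) (XT.lf (nat_lit 0) (nat_lit 756558273) (nat_lit 76) (nat_lit 17378283449) (nat_lit 152) (nat_lit 27325255408) (nat_lit 28) (nat_lit 5) (nat_lit 29) (nat_lit 5) (nat_lit 30) (nat_lit 4) (nat_lit 414)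 (nat_lit 348) (nat_lit 258)))) (XT.nd (nat_lit 156) (nat_lit 152) (nat_lit 0) (XT.nd (nat_lit 78) (nat_lit 0) (nat_lit 0) (XT.lf (nat_lit 0) (nat_lit 23826717680) (nat_lit 76) (nat_lit 5572470975) (nat_lit 152) (nat_lit 17726945575) (nat_lit 28) (nat_lit 5) (nat_lit 29) (nat_lit 5) (nat_lit 30) (nat_lit 4) (nat_lit 415) (nat_lit 348) (nat_lit 257)) (XT.lf (nat_lit 0) (nat_lit 41319445574) (nat_lit 152) (nat_lit 957982250) (nat_lit 0) (nat_lit 6593412174) (nat_lit 28) (nat_lit 5) (nat_lit 30) (nat_lit 4) (nat_lit 28) (nat_lit 4) (nat_lit 416) (nat_lit 348) (nat_lit 256))) (XT.nd (nat_lit 78) (nat_lit 0) (nat_lit 0) (XT.lf (nat_lit 0) (nat_lit 3479060683) (nat_lit 152) (nat_lit 27612749026) (nat_lit 76) (nat_lit 19586206972) (nat_lit 26) (nat_lit 5) (nat_lit 28) (nat_lit 5) (nat_lit 27) (nat_lit 4) (nat_lit 417) (nat_lit 348) (nat_lit 255)) (XT.lf (nat_lit 0) (nat_lit 14810596642) (nat_lit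 152) (nat_lit 4400995574) (nat_lit 76) (nat_lit 33357604838) (nat_lit 26) (nat_lit 5) (nat_lit 28) (nat_lit 5) (nat_lit 27) (nat_lit 4) (nat_lit 418) (nat_lit 348) (nat_lit 254)))))) (XT.nd (nat_lit 546) (nat_lit 380) (nat_lit 0) (XT.nd (nat_lit 234) (nat_lit 152) (nat_lit 0) (XT.nd (nat_lit 78) (nat_lit 76) (nat_lit 0) (XT.lf (nat_lit 0) (nat_lit 20606959524) (nat_lit 76) (nat_lit 6410953316) (nat_lit 152) (nat_lit 27521564624) (nat_lit 25) (nat_lit 5) (nat_lit 26) (nat_lit 5) (nat_lit 27) (nat_lit 4) (nat_lit 419) (nat_lit 348) (nat_lit 253)) (XT.nd (nat_lit 78) (nat_lit 76) (nat_lit 0) (XT.lf (nat_lit 0) (nat_lit 40008627586) (nat_lit 152) (nat_lit 9721407488) (nat_lit 0) (nat_lit 6869586317) (nat_lit 25) (nat_lit 5) (nat_lit 27) (nat_lit 4) (nat_lit 25) (nat_lit 4) (nat_lit 420) (nat_lit 348) (nat_lit 252)) (XT.lf (nat_lit 0) (nat_lit 16087202500) (nat_lit 76) (nat_lit 37906057863) (nat_lit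 76) (nat_lit 4752294116) (nat_lit 24) (nat_lit 4) (nat_lit 25) (nat_lit 5) (nat_lit 25) (nat_lit 4) (nat_lit 421) (nat_lit 348) (nat_lit 251)))) (XT.nd (nat_lit 156) (nat_lit 0) (nat_lit 0) (XT.nd (nat_lit 78) (nat_lit 76) (nat_lit 0) (XT.lf (nat_lit 0) (nat_lit 7588062343) (nat_lit 152) (nat_lit 17612257350) (nat_lit 76) (nat_lit 35784697653) (nat_lit 23) (nat_lit 5) (nat_lit 25) (nat_lit 5) (nat_lit 24) (nat_lit 4) (nat_lit 422) (nat_lit 348) (nat_lit 250)) (XT.lf (nat_lit 0) (nat_lit 8870357731) (nat_lit 76) (nat_lit 11642567443) (nat_lit 152) (nat_lit 42813273953) (nat_lit 22) (nat_lit 5) (nat_lit 23) (nat_lit 5) (nat_lit 24) (nat_lit 4) (nat_lit 423) (nat_lit 348) (nat_lit 249))) (XT.nd (nat_lit 78) (nat_lit 0) (nat_lit 0) (XT.lf (nat_lit 0) (nat_lit 34416425455) (nat_lit 152) (nat_lit 28548167123) (nat_lit 0) (nat_lit 2803228591) (nat_lit 22) (nat_lit 5) (nat_lit 24) (nat_lit 4) (nat_lit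 22) (nat_lit 4) (nat_lit 424) (nat_lit 348) (nat_lit 248)) (XT.lf (nat_lit 0) (nat_lit 49195245723) (nat_lit 152) (nat_lit 1556758775) (nat_lit 0) (nat_lit 17570513412) (nat_lit 22) (nat_lit 5) (nat_lit 24) (nat_lit 4) (nat_lit 22) (nat_lit 4) (nat_lit 425) (nat_lit 348) (nat_lit 247))))) (XT.nd (nat_lit 234) (nat_lit 152) (nat_lit 0) (XT.nd (nat_lit 78) (nat_lit 152) (nat_lit 0) (XT.lf (nat_lit 0) (nat_lit 27649374676) (nat_lit 76) (nat_lit 37485110090) (nat_lit 76) (nat_lit 5849391639) (nat_lit 21) (nat_lit 4) (nat_lit 22) (nat_lit 5) (nat_lit 22) (nat_lit 4) (nat_lit 426) (nat_lit 348) (nat_lit 246)) (XT.nd (nat_lit 78) (nat_lit 76) (nat_lit 0) (XT.lf (nat_lit 0) (nat_lit 7849983173) (nat_lit 152) (nat_lit 15553715935) (nat_lit 76) (nat_lit 50367456856) (nat_lit 20) (nat_lit 5) (nat_lit 22) (nat_lit 5) (nat_lit 21) (nat_lit 4) (nat_lit 427) (nat_lit 348) (nat_lit 245)) (XT.lf (nat_lit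 0) (nat_lit 13947760247) (nat_lit 76) (nat_lit 8298047772) (nat_lit 152) (nat_lit 54436794635) (nat_lit 19) (nat_lit 5) (nat_lit 20) (nat_lit 5) (nat_lit 21) (nat_lit 4) (nat_lit 428) (nat_lit 348) (nat_lit 244)))) (XT.nd (nat_lit 156) (nat_lit 152) (nat_lit 0) (XT.nd (nat_lit 78) (nat_lit 0) (nat_lit 0) (XT.lf (nat_lit 0) (nat_lit 37737556570) (nat_lit 152) (nat_lit 34403451562) (nat_lit 0) (nat_lit 7579807585) (nat_lit 19) (nat_lit 5) (nat_lit 21) (nat_lit 4) (nat_lit 19) (nat_lit 4) (nat_lit 429) (nat_lit 348) (nat_lit 243)) (XT.lf (nat_lit 0) (nat_lit 54130713467) (nat_lit 152) (nat_lit 4809528997) (nat_lit 0) (nat_lit 23964356554) (nat_lit 19) (nat_lit 5) (nat_lit 21) (nat_lit 4) (nat_lit 19) (nat_lit 4) (nat_lit 430) (nat_lit 348) (nat_lit 242))) (XT.nd (nat_lit 78) (nat_lit 76) (nat_lit 0) (XT.lf (nat_lit 0) (nat_lit 27114785253) (nat_lit 76) (nat_lit 44643306790) (nat_lit 76) (nat_lit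 14468751851) (nat_lit 18) (nat_lit 4) (nat_lit 19) (nat_lit 5) (nat_lit 19) (nat_lit 4) (nat_lit 431) (nat_lit 348) (nat_lit 241)) (XT.lf (nat_lit 0) (nat_lit 608008234) (nat_lit 152) (nat_lit 28935945704) (nat_lit 76) (nat_lit 60167115711) (nat_lit 17) (nat_lit 5) (nat_lit 19) (nat_lit 5) (nat_lit 18) (nat_lit 4) (nat_lit 432) (nat_lit 348) (nat_lit 240))))))))
noncomputable def xc119 : XT := (XT.nd (nat_lit 2106) (nat_lit 228) (nat_lit 0) (XT.nd (nat_lit 1014) (nat_lit 380) (nat_lit 0) (XT.nd (nat_lit 468) (nat_lit 228) (nat_lit 0) (XT.nd (nat_lit 234) (nat_lit 76) (nat_lit 0) (XT.nd (nat_lit 78) (nat_lit 0) (nat_lit 0) (XT.lf (nat_lit 0) (nat_lit 2577947228) (nat_lit 76) (nat_lit 13406318949) (nat_lit 152) (nat_lit 77371786159) (nat_lit 16) (nat_lit 5) (nat_lit 17) (nat_lit 5) (nat_lit 18) (nat_lit 4) (nat_lit 433) (nat_lit 348) (nat_lit 239)) (XT.nd (nat_lit 78) (nat_lit 0) (nat_lit 0)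 (XT.lf (nat_lit 0) (nat_lit 32674335001) (nat_lit 152) (nat_lit 60566298276) (nat_lit 0) (nat_lit 3915401477) (nat_lit 16) (nat_lit 5) (nat_lit 18) (nat_lit 4) (nat_lit 16) (nat_lit 4) (nat_lit 434) (nat_lit 348) (nat_lit 238)) (XT.lf (nat_lit 0) (nat_lit 50410758267) (nat_lit 152) (nat_lit 29079264572) (nat_lit 0) (nat_lit 21645401375) (nat_lit 16) (nat_lit 5) (nat_lit 18) (nat_lit 4) (nat_lit 16) (nat_lit 4) (nat_lit 435) (nat_lit 348) (nat_lit 237)))) (XT.nd (nat_lit 78) (nat_lit 0) (nat_lit 0) (XT.lf (nat_lit 0) (nat_lit 4098451381) (nat_lit 76) (nat_lit 64991992276) (nat_lit 76) (nat_lit 36220517890) (nat_lit 15) (nat_lit 4) (nat_lit 16) (nat_lit 5) (nat_lit 16) (nat_lit 4) (nat_lit 436) (nat_lit 348) (nat_lit 236)) (XT.nd (nat_lit 78) (nat_lit 0) (nat_lit 0) (XT.lf (nat_lit 0) (nat_lit 39930013504) (nat_lit 76) (nat_lit 49259155235) (nat_lit 76) (nat_lit 20481854664) (nat_lit 15) (nat_lit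 4) (nat_lit 16) (nat_lit 5) (nat_lit 16) (nat_lit 4) (nat_lit 437) (nat_lit 348) (nat_lit 235)) (XT.lf (nat_lit 0) (nat_lit 77539243225) (nat_lit 76) (nat_lit 32746523997) (nat_lit 76) (nat_lit 3963674679) (nat_lit 15) (nat_lit 4) (nat_lit 16) (nat_lit 5) (nat_lit 16) (nat_lit 4) (nat_lit 438) (nat_lit 348) (nat_lit 234))))) (XT.nd (nat_lit 234) (nat_lit 76) (nat_lit 0) (XT.nd (nat_lit 78) (nat_lit 76) (nat_lit 0) (XT.lf (nat_lit 0) (nat_lit 12945320313) (nat_lit 152) (nat_lit 2250227195) (nat_lit 76) (nat_lit 103851130754) (nat_lit 14) (nat_lit 5) (nat_lit 16) (nat_lit 5) (nat_lit 15) (nat_lit 4) (nat_lit 439) (nat_lit 348) (nat_lit 233)) (XT.nd (nat_lit 78) (nat_lit 0) (nat_lit 0) (XT.lf (nat_lit 0) (nat_lit 31166489252) (nat_lit 152) (nat_lit 89139616432) (nat_lit 0) (nat_lit 3744425713) (nat_lit 13) (nat_lit 5) (nat_lit 15) (nat_lit 4) (nat_lit 13) (nat_lit 4) (nat_lit 440) (nat_lit 348)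 (nat_lit 232)) (XT.lf (nat_lit 0) (nat_lit 50580061526) (nat_lit 152) (nat_lit 55557015734) (nat_lit 0) (nat_lit 23153433019) (nat_lit 13) (nat_lit 5) (nat_lit 15) (nat_lit 4) (nat_lit 13) (nat_lit 4) (nat_lit 441) (nat_lit 348) (nat_lit 231)))) (XT.nd (nat_lit 156) (nat_lit 0) (nat_lit 0) (XT.nd (nat_lit 78) (nat_lit 76) (nat_lit 0) (XT.lf (nat_lit 0) (nat_lit 70958125873) (nat_lit 152) (nat_lit 20307522099) (nat_lit 0) (nat_lit 43527149778) (nat_lit 13) (nat_lit 5) (nat_lit 15) (nat_lit 4) (nat_lit 13) (nat_lit 4) (nat_lit 442) (nat_lit 348) (nat_lit 230)) (XT.lf (nat_lit 0) (nat_lit 17244730923) (nat_lit 76) (nat_lit 75373709150) (nat_lit 76) (nat_lit 47938592494) (nat_lit 12) (nat_lit 4) (nat_lit 13) (nat_lit 5) (nat_lit 13) (nat_lit 4) (nat_lit 443) (nat_lit 348) (nat_lit 229))) (XT.nd (nat_lit 78) (nat_lit 0) (nat_lit 0) (XT.lf (nat_lit 0) (nat_lit 57368161502) (nat_lit 76) (nat_lit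 58331735796) (nat_lit 76) (nat_lit 30892675748) (nat_lit 12) (nat_lit 4) (nat_lit 13) (nat_lit 5) (nat_lit 13) (nat_lit 4) (nat_lit 444) (nat_lit 348) (nat_lit 228)) (XT.lf (nat_lit 0) (nat_lit 99486843225) (nat_lit 76) (nat_lit 40443069496) (nat_lit 76) (nat_lit 13000253838) (nat_lit 12) (nat_lit 4) (nat_lit 13) (nat_lit 5) (nat_lit 13) (nat_lit 4) (nat_lit 445) (nat_lit 348) (nat_lit 227)))))) (XT.nd (nat_lit 546) (nat_lit 152) (nat_lit 0) (XT.nd (nat_lit 234) (nat_lit 76) (nat_lit 0) (XT.nd (nat_lit 78) (nat_lit 76) (nat_lit 0) (XT.lf (nat_lit 0) (nat_lit 5596237360) (nat_lit 152) (nat_lit 15974105841) (nat_lit 76) (nat_lit 138010046318) (nat_lit 11) (nat_lit 5) (nat_lit 13) (nat_lit 5) (nat_lit 12) (nat_lit 4) (nat_lit 446) (nat_lit 348) (nat_lit 226)) (XT.nd (nat_lit 78) (nat_lit 0) (nat_lit 0) (XT.lf (nat_lit 0) (nat_lit 23910670951) (nat_lit 76) (nat_lit 1143216770) (nat_lit 152) (nat_lit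 141480168777) (nat_lit 10) (nat_lit 5) (nat_lit 11) (nat_lit 5) (nat_lit 12) (nat_lit 4) (nat_lit 447) (nat_lit 348) (nat_lit 225)) (XT.lf (nat_lit 0) (nat_lit 46071333266) (nat_lit 152) (nat_lit 107809150239) (nat_lit 0) (nat_lit 19925577916) (nat_lit 10) (nat_lit 5) (nat_lit 12) (nat_lit 4) (nat_lit 10) (nat_lit 4) (nat_lit 448) (nat_lit 348) (nat_lit 224)))) (XT.nd (nat_lit 156) (nat_lit 76) (nat_lit 0) (XT.nd (nat_lit 78) (nat_lit 0) (nat_lit 0) (XT.lf (nat_lit 0) (nat_lit 68153560383) (nat_lit 152) (nat_lit 71282548543) (nat_lit 0) (nat_lit 42004862414) (nat_lit 10) (nat_lit 5) (nat_lit 12) (nat_lit 4) (nat_lit 10) (nat_lit 4) (nat_lit 449) (nat_lit 348) (nat_lit 223)) (XT.lf (nat_lit 0) (nat_lit 91335296987) (nat_lit 152) (nat_lit 32938763543) (nat_lit 0) (nat_lit 65183796524) (nat_lit 10) (nat_lit 5) (nat_lit 12) (nat_lit 4) (nat_lit 10) (nat_lit 4) (nat_lit 450) (nat_lit 348) (nat_lit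 222))) (XT.nd (nat_lit 78) (nat_lit 0) (nat_lit 0) (XT.lf (nat_lit 0) (nat_lit 7555316807) (nat_lit 76) (nat_lit 108234380550) (nat_lit 76) (nat_lit 82080211045) (nat_lit 9) (nat_lit 4) (nat_lit 10) (nat_lit 5) (nat_lit 10) (nat_lit 4) (nat_lit 451) (nat_lit 348) (nat_lit 221)) (XT.lf (nat_lit 0) (nat_lit 51209089952) (nat_lit 76) (nat_lit 90811253850) (nat_lit 76) (nat_lit 64654542400) (nat_lit 9) (nat_lit 4) (nat_lit 10) (nat_lit 5) (nat_lit 10) (nat_lit 4) (nat_lit 452) (nat_lit 348) (nat_lit 220))))) (XT.nd (nat_lit 234) (nat_lit 152) (nat_lit 0) (XT.nd (nat_lit 78) (nat_lit 0) (nat_lit 0) (XT.lf (nat_lit 0) (nat_lit 97037389167) (nat_lit 76) (nat_lit 72521030694) (nat_lit 76) (nat_lit 46361898344) (nat_lit 9) (nat_lit 4) (nat_lit 10) (nat_lit 5) (nat_lit 10) (nat_lit 4) (nat_lit 453) (nat_lit 348) (nat_lit 219)) (XT.nd (nat_lit 78) (nat_lit 0) (nat_lit 0) (XT.lf (nat_lit 0) (nat_lit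 145149329449) (nat_lit 76) (nat_lit 53320162932) (nat_lit 76) (nat_lit 27158724962) (nat_lit 9) (nat_lit 4) (nat_lit 10) (nat_lit 5) (nat_lit 10) (nat_lit 4) (nat_lit 454) (nat_lit 348) (nat_lit 218)) (XT.lf (nat_lit 0) (nat_lit 195659463039) (nat_lit 76) (nat_lit 33162934211) (nat_lit 76) (nat_lit 6999300414) (nat_lit 9) (nat_lit 4) (nat_lit 10) (nat_lit 5) (nat_lit 10) (nat_lit 4) (nat_lit 455) (nat_lit 348) (nat_lit 217)))) (XT.nd (nat_lit 156) (nat_lit 0) (nat_lit 0) (XT.nd (nat_lit 78) (nat_lit 0) (nat_lit 0) (XT.lf (nat_lit 0) (nat_lit 2006084459) (nat_lit 76) (nat_lit 11736261648) (nat_lit 152) (nat_lit 232770059942) (nat_lit 7) (nat_lit 5) (nat_lit 8) (nat_lit 5) (nat_lit 9) (nat_lit 4) (nat_lit 456) (nat_lit 348) (nat_lit 216)) (XT.lf (nat_lit 0) (nat_lit 36141594922) (nat_lit 152) (nat_lit 210327570890) (nat_lit 0) (nat_lit 11219959930) (nat_lit 7) (nat_lit 5) (nat_lit 9) (nat_lit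 4) (nat_lit 7) (nat_lit 4) (nat_lit 457) (nat_lit 348) (nat_lit 215))) (XT.nd (nat_lit 78) (nat_lit 0) (nat_lit 0) (XT.lf (nat_lit 0) (nat_lit 59849779350) (nat_lit 152) (nat_lit 174639115699) (nat_lit 0) (nat_lit 34926337845) (nat_lit 7) (nat_lit 5) (nat_lit 9) (nat_lit 4) (nat_lit 7) (nat_lit 4) (nat_lit 458) (nat_lit 348) (nat_lit 214)) (XT.lf (nat_lit 0) (nat_lit 84740111513) (nat_lit 152) (nat_lit 137172747570) (nat_lit 0) (nat_lit 59814949520) (nat_lit 7) (nat_lit 5) (nat_lit 9) (nat_lit 4) (nat_lit 7) (nat_lit 4) (nat_lit 459) (nat_lit 348) (nat_lit 213))))))) (XT.nd (nat_lit 1092) (nat_lit 0) (nat_lit 0) (XT.nd (nat_lit 546) (nat_lit 152) (nat_lit 0) (XT.nd (nat_lit 234) (nat_lit 76) (nat_lit 0) (XT.nd (nat_lit 78) (nat_lit 0) (nat_lit 0) (XT.lf (nat_lit 0) (nat_lit 110871854109) (nat_lit 152) (nat_lit 97839260864) (nat_lit 0) (nat_lit 85945053555) (nat_lit 7) (nat_lit 5) (nat_lit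 9) (nat_lit 4) (nat_lit 7) (nat_lit 4) (nat_lit 460) (nat_lit 348) (nat_lit 212)) (XT.nd (nat_lit 78) (nat_lit 0) (nat_lit 0) (XT.lf (nat_lit 0) (nat_lit 138307225571) (nat_lit 152) (nat_lit 56545004422) (nat_lit 0) (nat_lit 113378864483) (nat_lit 7) (nat_lit 5) (nat_lit 9) (nat_lit 4) (nat_lit 7) (nat_lit 4) (nat_lit 461) (nat_lit 348) (nat_lit 211)) (XT.lf (nat_lit 0) (nat_lit 167111548212) (nat_lit 152) (nat_lit 13191658586) (nat_lit 0) (nat_lit 142181700902) (nat_lit 7) (nat_lit 5) (nat_lit 9) (nat_lit 4) (nat_lit 7) (nat_lit 4) (nat_lit 462) (nat_lit 348) (nat_lit 210)))) (XT.nd (nat_lit 156) (nat_lit 0) (nat_lit 0) (XT.nd (nat_lit 78) (nat_lit 0) (nat_lit 0) (XT.lf (nat_lit 0) (nat_lit 33392776278) (nat_lit 76) (nat_lit 164481982296) (nat_lit 76) (nat_lit 139550719536) (nat_lit 6) (nat_lit 4) (nat_lit 7) (nat_lit 5) (nat_lit 7) (nat_lit 4) (nat_lit 463) (nat_lit 348) (nat_lit 209))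 (XT.lf (nat_lit 0) (nat_lit 82759148219) (nat_lit 76) (nat_lit 147637750629) (nat_lit 76) (nat_lit 122705139821) (nat_lit 6) (nat_lit 4) (nat_lit 7) (nat_lit 5) (nat_lit 7) (nat_lit 4) (nat_lit 464) (nat_lit 348) (nat_lit 208))) (XT.nd (nat_lit 78) (nat_lit 0) (nat_lit 0) (XT.lf (nat_lit 0) (nat_lit 134588820411) (nat_lit 76) (nat_lit 129953813604) (nat_lit 76) (nat_lit 105019918941) (nat_lit 6) (nat_lit 4) (nat_lit 7) (nat_lit 5) (nat_lit 7) (nat_lit 4) (nat_lit 465) (nat_lit 348) (nat_lit 207)) (XT.lf (nat_lit 0) (nat_lit 189005196834) (nat_lit 76) (nat_lit 111388066610) (nat_lit 76) (nat_lit 86452949228) (nat_lit 6) (nat_lit 4) (nat_lit 7) (nat_lit 5) (nat_lit 7) (nat_lit 4) (nat_lit 466) (nat_lit 348) (nat_lit 206))))) (XT.nd (nat_lit 234) (nat_lit 152) (nat_lit 0) (XT.nd (nat_lit 78) (nat_lit 0) (nat_lit 0) (XT.lf (nat_lit 0) (nat_lit 246137840290) (nat_lit 76) (nat_lit 91896305487)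 (nat_lit 76) (nat_lit 66960023611) (nat_lit 6) (nat_lit 4) (nat_lit 7) (nat_lit 5) (nat_lit 7) (nat_lit 4) (nat_lit 467) (nat_lit 348) (nat_lit 205)) (XT.nd (nat_lit 78) (nat_lit 0) (nat_lit 0) (XT.lf (nat_lit 0) (nat_lit 306122780881) (nat_lit 76) (nat_lit 71432121280) (nat_lit 76) (nat_lit 46494730362) (nat_lit 6) (nat_lit 4) (nat_lit 7) (nat_lit 5) (nat_lit 7) (nat_lit 4) (nat_lit 468) (nat_lit 348) (nat_lit 204)) (XT.lf (nat_lit 0) (nat_lit 369102839895) (nat_lit 76) (nat_lit 49946789742) (nat_lit 76) (nat_lit 25008342593) (nat_lit 6) (nat_lit 4) (nat_lit 7) (nat_lit 5) (nat_lit 7) (nat_lit 4) (nat_lit 469) (nat_lit 348) (nat_lit 203)))) (XT.nd (nat_lit 156) (nat_lit 0) (nat_lit 0) (XT.nd (nat_lit 78) (nat_lit 152) (nat_lit 0) (XT.lf (nat_lit 0) (nat_lit 435227969854) (nat_lit 76) (nat_lit 27389155320) (nat_lit 76) (nat_lit 2449702237) (nat_lit 6) (nat_lit 4) (nat_lit 7) (nat_lit 5) (nat_lit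 7) (nat_lit 4) (nat_lit 470) (nat_lit 348) (nat_lit 202)) (XT.lf (nat_lit 0) (nat_lit 17766494853) (nat_lit 76) (nat_lit 3066142204) (nat_lit 152) (nat_lit 466263136038) (nat_lit 4) (nat_lit 5) (nat_lit 5) (nat_lit 5) (nat_lit 6) (nat_lit 4) (nat_lit 471) (nat_lit 348) (nat_lit 201))) (XT.nd (nat_lit 78) (nat_lit 0) (nat_lit 0) (XT.lf (nat_lit 0) (nat_lit 46059351396) (nat_lit 152) (nat_lit 441815967630) (nat_lit 0) (nat_lit 22305709942) (nat_lit 4) (nat_lit 5) (nat_lit 6) (nat_lit 4) (nat_lit 4) (nat_lit 4) (nat_lit 472) (nat_lit 348) (nat_lit 200)) (XT.lf (nat_lit 0) (nat_lit 72595854279) (nat_lit 152) (nat_lit 412980885534) (nat_lit 0) (nat_lit 48841385240) (nat_lit 4) (nat_lit 5) (nat_lit 6) (nat_lit 4) (nat_lit 4) (nat_lit 4) (nat_lit 473) (nat_lit 348) (nat_lit 199)))))) (XT.nd (nat_lit 546) (nat_lit 0) (nat_lit 0) (XT.nd (nat_lit 234) (nat_lit 0) (nat_lit 0) (XT.nd (nat_lit 78) (nat_lit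 0) (nat_lit 0) (XT.lf (nat_lit 0) (nat_lit 100457456784) (nat_lit 152) (nat_lit 382707505925) (nat_lit 0) (nat_lit 76702199569) (nat_lit 4) (nat_lit 5) (nat_lit 6) (nat_lit 4) (nat_lit 4) (nat_lit 4) (nat_lit 474) (nat_lit 348) (nat_lit 198)) (XT.nd (nat_lit 78) (nat_lit 0) (nat_lit 0) (XT.lf (nat_lit 0) (nat_lit 129710496058) (nat_lit 152) (nat_lit 350923749327) (nat_lit 0) (nat_lit 105954488200) (nat_lit 4) (nat_lit 5) (nat_lit 6) (nat_lit 4) (nat_lit 4) (nat_lit 4) (nat_lit 475) (nat_lit 348) (nat_lit 197)) (XT.lf (nat_lit 0) (nat_lit 160424622196) (nat_lit 152) (nat_lit 317553940130) (nat_lit 0) (nat_lit 136667899440) (nat_lit 4) (nat_lit 5) (nat_lit 6) (nat_lit 4) (nat_lit 4) (nat_lit 4) (nat_lit 476) (nat_lit 348) (nat_lit 196)))) (XT.nd (nat_lit 156) (nat_lit 0) (nat_lit 0) (XT.nd (nat_lit 78) (nat_lit 0) (nat_lit 0) (XT.lf (nat_lit 0) (nat_lit 192672964069) (nat_lit 152) (nat_lit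 282518626408) (nat_lit 0) (nat_lit 168915560457) (nat_lit 4) (nat_lit 5) (nat_lit 6) (nat_lit 4) (nat_lit 4) (nat_lit 4) (nat_lit 477) (nat_lit 348) (nat_lit 195)) (XT.lf (nat_lit 0) (nat_lit 226532303445) (nat_lit 152) (nat_lit 245734390745) (nat_lit 0) (nat_lit 202774251399) (nat_lit 4) (nat_lit 5) (nat_lit 6) (nat_lit 4) (nat_lit 4) (nat_lit 4) (nat_lit 478) (nat_lit 348) (nat_lit 194))) (XT.nd (nat_lit 78) (nat_lit 0) (nat_lit 0) (XT.lf (nat_lit 0) (nat_lit 262083257796) (nat_lit 152) (nat_lit 207113651629) (nat_lit 0) (nat_lit 238324588194) (nat_lit 4) (nat_lit 5) (nat_lit 6) (nat_lit 4) (nat_lit 4) (nat_lit 4) (nat_lit 479) (nat_lit 348) (nat_lit 193)) (XT.lf (nat_lit 0) (nat_lit 299410472254) (nat_lit 152) (nat_lit 166564454920) (nat_lit 0) (nat_lit 275651214503) (nat_lit 4) (nat_lit 5) (nat_lit 6) (nat_lit 4) (nat_lit 4) (nat_lit 4) (nat_lit 480) (nat_lit 348) (nat_lit 192))))) (XT.nd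 (nat_lit 42900) (nat_lit 0) (nat_lit 10868) (XT.nd (nat_lit 78) (nat_lit 0) (nat_lit 0) (XT.lf (nat_lit 0) (nat_lit 338602821137) (nat_lit 152) (nat_lit 123990254910) (nat_lit 0) (nat_lit 314843003244) (nat_lit 4) (nat_lit 5) (nat_lit 6) (nat_lit 4) (nat_lit 4) (nat_lit 4) (nat_lit 481) (nat_lit 348) (nat_lit 191)) (XT.nd (nat_lit 42744) (nat_lit 0) (nat_lit 10868) (XT.lf (nat_lit 0) (nat_lit 379753619563) (nat_lit 152) (nat_lit 79289684457) (nat_lit 0) (nat_lit 355993268202) (nat_lit 4) (nat_lit 5) (nat_lit 6) (nat_lit 4) (nat_lit 4) (nat_lit 4) (nat_lit 482) (nat_lit 348) (nat_lit 190)) (XT.lf (nat_lit 0) (nat_lit 188828726) (nat_lit 0) (nat_lit 188828726) (nat_lit 532) (nat_lit 3313319602) (nat_lit 147) (nat_lit 5) (nat_lit 147) (nat_lit 3) (nat_lit 154) (nat_lit 3) (nat_lit 349) (nat_lit 349) (nat_lit 322)))) (XT.nd (nat_lit 156) (nat_lit 0) (nat_lit 0) (XT.nd (nat_lit 78) (nat_lit 0)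 (nat_lit 0) (XT.lf (nat_lit 0) (nat_lit 2302909458) (nat_lit 532) (nat_lit 3408759324) (nat_lit 608) (nat_lit 1777383155) (nat_lit 147) (nat_lit 5) (nat_lit 154) (nat_lit 3) (nat_lit 155) (nat_lit 5) (nat_lit 350) (nat_lit 349) (nat_lit 321)) (XT.lf (nat_lit 76) (nat_lit 316879449) (nat_lit 0) (nat_lit 3526870786) (nat_lit 608) (nat_lit 3762026092) (nat_lit 148) (nat_lit 5) (nat_lit 147) (nat_lit 5) (nat_lit 155) (nat_lit 5) (nat_lit 351) (nat_lit 349) (nat_lit 320))) (XT.nd (nat_lit 78) (nat_lit 0) (nat_lit 76) (XT.lf (nat_lit 76) (nat_lit 4294383085) (nat_lit 0) (nat_lit 1133419979) (nat_lit 608) (nat_lit 2302287279) (nat_lit 148) (nat_lit 5) (nat_lit 147) (nat_lit 5) (nat_lit 155) (nat_lit 5) (nat_lit 352) (nat_lit 349) (nat_lit 319)) (XT.lf (nat_lit 76) (nat_lit 550991111) (nat_lit 0) (nat_lit 6483588843) (nat_lit 608) (nat_lit 828922993) (nat_lit 149) (nat_lit 5) (nat_lit 148) (nat_lit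 5) (nat_lit 156) (nat_lit 5) (nat_lit 353) (nat_lit 349) (nat_lit 318))))))))
noncomputable def xc120 : XT := (XT.nd (nat_lit 2106) (nat_lit 2660) (nat_lit 0) (XT.nd (nat_lit 1014) (nat_lit 2432) (nat_lit 0) (XT.nd (nat_lit 468) (nat_lit 2280) (nat_lit 0) (XT.nd (nat_lit 234) (nat_lit 532) (nat_lit 0) (XT.nd (nat_lit 78) (nat_lit 0) (nat_lit 0) (XT.lf (nat_lit 0) (nat_lit 688078832) (nat_lit 608) (nat_lit 3232328779) (nat_lit 684) (nat_lit 4083023795) (nat_lit 140) (nat_lit 5) (nat_lit 148) (nat_lit 5) (nat_lit 149) (nat_lit 5) (nat_lit 354) (nat_lit 349) (nat_lit 317)) (XT.nd (nat_lit 78) (nat_lit 0) (nat_lit 76) (XT.lf (nat_lit 76) (nat_lit 1016317269) (nat_lit 0) (nat_lit 1171893733) (nat_lit 684) (nat_lit 5964759897) (nat_lit 141) (nat_lit 5) (nat_lit 140) (nat_lit 5) (nat_lit 149) (nat_lit 5) (nat_lit 355) (nat_lit 349) (nat_lit 316)) (XT.lf (nat_lit 0) (nat_lit 3768403075) (nat_lit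 608) (nat_lit 2803212104) (nat_lit 684) (nat_lit 1738168027) (nat_lit 141) (nat_lit 5) (nat_lit 149) (nat_lit 5) (nat_lit 150) (nat_lit 5) (nat_lit 356) (nat_lit 349) (nat_lit 315)))) (XT.nd (nat_lit 78) (nat_lit 608) (nat_lit 0) (XT.lf (nat_lit 76) (nat_lit 1727831413) (nat_lit 0) (nat_lit 3672297942) (nat_lit 684) (nat_lit 3075726739) (nat_lit 142) (nat_lit 5) (nat_lit 141) (nat_lit 5) (nat_lit 150) (nat_lit 5) (nat_lit 357) (nat_lit 349) (nat_lit 314)) (XT.nd (nat_lit 78) (nat_lit 608) (nat_lit 0) (XT.lf (nat_lit 76) (nat_lit 6528477873) (nat_lit 0) (nat_lit 561435223) (nat_lit 684) (nat_lit 1561539969) (nat_lit 142) (nat_lit 5) (nat_lit 141) (nat_lit 5) (nat_lit 150) (nat_lit 5) (nat_lit 358) (nat_lit 349) (nat_lit 313)) (XT.lf (nat_lit 0) (nat_lit 45064102) (nat_lit 684) (nat_lit 6112843996) (nat_lit 76) (nat_lit 2677058778) (nat_lit 133) (nat_lit 5) (nat_lit 142) (nat_lit 5) (nat_lit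 134) (nat_lit 5) (nat_lit 359) (nat_lit 349) (nat_lit 312))))) (XT.nd (nat_lit 234) (nat_lit 1596) (nat_lit 0) (XT.nd (nat_lit 78) (nat_lit 684) (nat_lit 0) (XT.lf (nat_lit 0) (nat_lit 1659147959) (nat_lit 684) (nat_lit 1234759446) (nat_lit 76) (nat_lit 6133525647) (nat_lit 133) (nat_lit 5) (nat_lit 142) (nat_lit 5) (nat_lit 134) (nat_lit 5) (nat_lit 360) (nat_lit 349) (nat_lit 311)) (XT.nd (nat_lit 78) (nat_lit 0) (nat_lit 0) (XT.lf (nat_lit 0) (nat_lit 3362271658) (nat_lit 760) (nat_lit 5279112125) (nat_lit 76) (nat_lit 587758169) (nat_lit 124) (nat_lit 5) (nat_lit 134) (nat_lit 5) (nat_lit 125) (nat_lit 5) (nat_lit 361) (nat_lit 349) (nat_lit 310)) (XT.lf (nat_lit 0) (nat_lit 5158565153) (nat_lit 760) (nat_lit 107061458) (nat_lit 76) (nat_lit 4174943476) (nat_lit 124) (nat_lit 5) (nat_lit 134) (nat_lit 5) (nat_lit 125) (nat_lit 5) (nat_lit 362) (nat_lit 349) (nat_lit 309)))) (XT.nd (nat_lit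 156) (nat_lit 456) (nat_lit 0) (XT.nd (nat_lit 78) (nat_lit 380) (nat_lit 0) (XT.lf (nat_lit 0) (nat_lit 5444208571) (nat_lit 760) (nat_lit 1627672153) (nat_lit 836) (nat_lit 2589361364) (nat_lit 114) (nat_lit 5) (nat_lit 124) (nat_lit 5) (nat_lit 125) (nat_lit 5) (nat_lit 363) (nat_lit 349) (nat_lit 308)) (XT.lf (nat_lit 0) (nat_lit 1336792280) (nat_lit 380) (nat_lit 7745194363) (nat_lit 456) (nat_lit 810936085) (nat_lit 109) (nat_lit 5) (nat_lit 114) (nat_lit 5) (nat_lit 115) (nat_lit 5) (nat_lit 364) (nat_lit 349) (nat_lit 307))) (XT.nd (nat_lit 78) (nat_lit 380) (nat_lit 0) (XT.lf (nat_lit 0) (nat_lit 1066943646) (nat_lit 456) (nat_lit 2918835420) (nat_lit 76) (nat_lit 6147394772) (nat_lit 108) (nat_lit 5) (nat_lit 114) (nat_lit 5) (nat_lit 109) (nat_lit 5) (nat_lit 365) (nat_lit 349) (nat_lit 306)) (XT.lf (nat_lit 0) (nat_lit 3006831690) (nat_lit 456) (nat_lit 7355298266) (nat_lit 76)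 (nat_lit 22901499) (nat_lit 103) (nat_lit 5) (nat_lit 109) (nat_lit 5) (nat_lit 104) (nat_lit 5) (nat_lit 366) (nat_lit 349) (nat_lit 305)))))) (XT.nd (nat_lit 546) (nat_lit 1140) (nat_lit 0) (XT.nd (nat_lit 234) (nat_lit 608) (nat_lit 0) (XT.nd (nat_lit 78) (nat_lit 684) (nat_lit 0) (XT.lf (nat_lit 0) (nat_lit 5108612145) (nat_lit 456) (nat_lit 1391639643) (nat_lit 76) (nat_lit 4146010988) (nat_lit 103) (nat_lit 5) (nat_lit 109) (nat_lit 5) (nat_lit 104) (nat_lit 5) (nat_lit 367) (nat_lit 349) (nat_lit 304)) (XT.nd (nat_lit 78) (nat_lit 304) (nat_lit 0) (XT.lf (nat_lit 0) (nat_lit 4976584760) (nat_lit 380) (nat_lit 2368323980) (nat_lit 456) (nat_lit 3574200065) (nat_lit 98) (nat_lit 5) (nat_lit 103) (nat_lit 5) (nat_lit 104) (nat_lit 5) (nat_lit 368) (nat_lit 349) (nat_lit 303)) (XT.lf (nat_lit 0) (nat_lit 435584763) (nat_lit 304) (nat_lit 9272083508) (nat_lit 380) (nat_lit 1497219791) (nat_lit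 94) (nat_lit 5) (nat_lit 98) (nat_lit 5) (nat_lit 99) (nat_lit 5) (nat_lit 369) (nat_lit 349) (nat_lit 302)))) (XT.nd (nat_lit 156) (nat_lit 228) (nat_lit 0) (XT.nd (nat_lit 78) (nat_lit 304) (nat_lit 0) (XT.lf (nat_lit 0) (nat_lit 756607017) (nat_lit 380) (nat_lit 4267162086) (nat_lit 76) (nat_lit 6475930825) (nat_lit 93) (nat_lit 5) (nat_lit 98) (nat_lit 5) (nat_lit 94) (nat_lit 5) (nat_lit 370) (nat_lit 349) (nat_lit 301)) (XT.lf (nat_lit 0) (nat_lit 2565265217) (nat_lit 304) (nat_lit 503559252) (nat_lit 380) (nat_lit 8739420057) (nat_lit 89) (nat_lit 5) (nat_lit 93) (nat_lit 5) (nat_lit 94) (nat_lit 5) (nat_lit 371) (nat_lit 349) (nat_lit 300))) (XT.nd (nat_lit 78) (nat_lit 228) (nat_lit 0) (XT.lf (nat_lit 0) (nat_lit 5593463513) (nat_lit 380) (nat_lit 2362122537) (nat_lit 76) (nat_lit 4171808963) (nat_lit 89) (nat_lit 5) (nat_lit 94) (nat_lit 5) (nat_lit 90) (nat_lit 5) (nat_lit 372)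 (nat_lit 349) (nat_lit 299)) (XT.lf (nat_lit 0) (nat_lit 4962343117) (nat_lit 228) (nat_lit 3326884200) (nat_lit 304) (nat_lit 4171049349) (nat_lit 86) (nat_lit 5) (nat_lit 89) (nat_lit 5) (nat_lit 90) (nat_lit 5) (nat_lit 373) (nat_lit 349) (nat_lit 298))))) (XT.nd (nat_lit 234) (nat_lit 532) (nat_lit 0) (XT.nd (nat_lit 78) (nat_lit 608) (nat_lit 0) (XT.lf (nat_lit 0) (nat_lit 11144536011) (nat_lit 304) (nat_lit 149376222) (nat_lit 76) (nat_lit 1514669744) (nat_lit 86) (nat_lit 5) (nat_lit 90) (nat_lit 5) (nat_lit 87) (nat_lit 5) (nat_lit 374) (nat_lit 349) (nat_lit 297)) (XT.nd (nat_lit 78) (nat_lit 228) (nat_lit 0) (XT.lf (nat_lit 0) (nat_lit 1076503336) (nat_lit 380) (nat_lit 5475561754) (nat_lit 76) (nat_lit 6614537972) (nat_lit 81) (nat_lit 5) (nat_lit 86) (nat_lit 5) (nat_lit 82) (nat_lit 5) (nat_lit 375) (nat_lit 349) (nat_lit 296)) (XT.lf (nat_lit 0) (nat_lit 2385291488) (nat_lit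 228) (nat_lit 1515159776) (nat_lit 304) (nat_lit 9640610305) (nat_lit 78) (nat_lit 5) (nat_lit 81) (nat_lit 5) (nat_lit 82) (nat_lit 5) (nat_lit 376) (nat_lit 349) (nat_lit 295)))) (XT.nd (nat_lit 156) (nat_lit 304) (nat_lit 0) (XT.nd (nat_lit 78) (nat_lit 228) (nat_lit 0) (XT.lf (nat_lit 0) (nat_lit 6982066478) (nat_lit 304) (nat_lit 3211589957) (nat_lit 76) (nat_lit 3734777396) (nat_lit 78) (nat_lit 5) (nat_lit 82) (nat_lit 5) (nat_lit 79) (nat_lit 5) (nat_lit 377) (nat_lit 349) (nat_lit 294)) (XT.lf (nat_lit 0) (nat_lit 5223739894) (nat_lit 228) (nat_lit 5065468070) (nat_lit 304) (nat_lit 4042408109) (nat_lit 75) (nat_lit 5) (nat_lit 78) (nat_lit 5) (nat_lit 79) (nat_lit 5) (nat_lit 378) (nat_lit 349) (nat_lit 293))) (XT.nd (nat_lit 78) (nat_lit 304) (nat_lit 0) (XT.lf (nat_lit 0) (nat_lit 13787728372) (nat_lit 304) (nat_lit 614910841) (nat_lit 76) (nat_lit 351030111) (nat_lit 75) (nat_lit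 5) (nat_lit 79) (nat_lit 5) (nat_lit 76) (nat_lit 5) (nat_lit 379) (nat_lit 349) (nat_lit 292)) (XT.lf (nat_lit 0) (nat_lit 2377101310) (nat_lit 304) (nat_lit 6782965694) (nat_lit 76) (nat_lit 6025741124) (nat_lit 71) (nat_lit 5) (nat_lit 75) (nat_lit 5) (nat_lit 72) (nat_lit 5) (nat_lit 380) (nat_lit 349) (nat_lit 291))))))) (XT.nd (nat_lit 1014) (nat_lit 1064) (nat_lit 0) (XT.nd (nat_lit 468) (nat_lit 760) (nat_lit 0) (XT.nd (nat_lit 234) (nat_lit 456) (nat_lit 0) (XT.nd (nat_lit 78) (nat_lit 152) (nat_lit 0) (XT.lf (nat_lit 0) (nat_lit 2263107040) (nat_lit 228) (nat_lit 3605334894) (nat_lit 304) (nat_lit 9769650995) (nat_lit 68) (nat_lit 5) (nat_lit 71) (nat_lit 5) (nat_lit 72) (nat_lit 5) (nat_lit 381) (nat_lit 349) (nat_lit 290)) (XT.nd (nat_lit 78) (nat_lit 152) (nat_lit 0) (XT.lf (nat_lit 0) (nat_lit 9654150273) (nat_lit 304) (nat_lit 4194643219) (nat_lit 76) (nat_lit 2258219133) (nat_lit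 68) (nat_lit 5) (nat_lit 72) (nat_lit 5) (nat_lit 69) (nat_lit 5) (nat_lit 382) (nat_lit 349) (nat_lit 289)) (XT.lf (nat_lit 0) (nat_lit 5516742380) (nat_lit 152) (nat_lit 8227421037) (nat_lit 228) (nat_lit 2849474099) (nat_lit 66) (nat_lit 5) (nat_lit 68) (nat_lit 5) (nat_lit 69) (nat_lit 5) (nat_lit 383) (nat_lit 349) (nat_lit 288)))) (XT.nd (nat_lit 78) (nat_lit 380) (nat_lit 0) (XT.lf (nat_lit 0) (nat_lit 946421934) (nat_lit 228) (nat_lit 1303171920) (nat_lit 76) (nat_lit 14852168103) (nat_lit 65) (nat_lit 5) (nat_lit 68) (nat_lit 5) (nat_lit 66) (nat_lit 5) (nat_lit 384) (nat_lit 349) (nat_lit 287)) (XT.nd (nat_lit 78) (nat_lit 152) (nat_lit 0) (XT.lf (nat_lit 0) (nat_lit 5016610583) (nat_lit 304) (nat_lit 8530749367) (nat_lit 76) (nat_lit 4076592889) (nat_lit 62) (nat_lit 5) (nat_lit 66) (nat_lit 5) (nat_lit 63) (nat_lit 5) (nat_lit 385) (nat_lit 349) (nat_lit 286)) (XT.lf (nat_lit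 0) (nat_lit 1861845204) (nat_lit 152) (nat_lit 7488757917) (nat_lit 228) (nat_lit 8818643795) (nat_lit 60) (nat_lit 5) (nat_lit 62) (nat_lit 5) (nat_lit 63) (nat_lit 5) (nat_lit 386) (nat_lit 349) (nat_lit 285))))) (XT.nd (nat_lit 234) (nat_lit 532) (nat_lit 0) (XT.nd (nat_lit 78) (nat_lit 228) (nat_lit 0) (XT.lf (nat_lit 0) (nat_lit 13026951347) (nat_lit 152) (nat_lit 991393439) (nat_lit 228) (nat_lit 4717616412) (nat_lit 60) (nat_lit 5) (nat_lit 62) (nat_lit 5) (nat_lit 63) (nat_lit 5) (nat_lit 387) (nat_lit 349) (nat_lit 284)) (XT.nd (nat_lit 78) (nat_lit 76) (nat_lit 0) (XT.lf (nat_lit 0) (nat_lit 5460740851) (nat_lit 152) (nat_lit 13608672991) (nat_lit 228) (nat_lit 254107933) (nat_lit 58) (nat_lit 5) (nat_lit 60) (nat_lit 5) (nat_lit 61) (nat_lit 5) (nat_lit 388) (nat_lit 349) (nat_lit 283)) (XT.lf (nat_lit 0) (nat_lit 4379051137) (nat_lit 228) (nat_lit 2677978330) (nat_lit 76) (nat_lit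 12875560293) (nat_lit 57) (nat_lit 5) (nat_lit 60) (nat_lit 5) (nat_lit 58) (nat_lit 5) (nat_lit 389) (nat_lit 349) (nat_lit 282)))) (XT.nd (nat_lit 156) (nat_lit 228) (nat_lit 0) (XT.nd (nat_lit 78) (nat_lit 152) (nat_lit 0) (XT.lf (nat_lit 0) (nat_lit 9319718425) (nat_lit 152) (nat_lit 36186574) (nat_lit 228) (nat_lit 11209975595) (nat_lit 55) (nat_lit 5) (nat_lit 57) (nat_lit 5) (nat_lit 58) (nat_lit 5) (nat_lit 390) (nat_lit 349) (nat_lit 281)) (XT.lf (nat_lit 0) (nat_lit 646316957) (nat_lit 152) (nat_lit 14081396448) (nat_lit 228) (nat_lit 6495823222) (nat_lit 53) (nat_lit 5) (nat_lit 55) (nat_lit 5) (nat_lit 56) (nat_lit 5) (nat_lit 391) (nat_lit 349) (nat_lit 280))) (XT.nd (nat_lit 78) (nat_lit 228) (nat_lit 0) (XT.lf (nat_lit 0) (nat_lit 13483106653) (nat_lit 152) (nat_lit 7051987295) (nat_lit 228) (nat_lit 1370638380) (nat_lit 53) (nat_lit 5) (nat_lit 55) (nat_lit 5) (nat_lit 56)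 (nat_lit 5) (nat_lit 392) (nat_lit 349) (nat_lit 279)) (XT.lf (nat_lit 0) (nat_lit 3934531165) (nat_lit 228) (nat_lit 18245494220) (nat_lit 76) (nat_lit 436282016) (nat_lit 50) (nat_lit 5) (nat_lit 53) (nat_lit 5) (nat_lit 51) (nat_lit 5) (nat_lit 393) (nat_lit 349) (nat_lit 278)))))) (XT.nd (nat_lit 546) (nat_lit 532) (nat_lit 0) (XT.nd (nat_lit 234) (nat_lit 380) (nat_lit 0) (XT.nd (nat_lit 78) (nat_lit 152) (nat_lit 0) (XT.lf (nat_lit 0) (nat_lit 9696452978) (nat_lit 228) (nat_lit 5438632840) (nat_lit 76) (nat_lit 8214329265) (nat_lit 50) (nat_lit 5) (nat_lit 53) (nat_lit 5) (nat_lit 51) (nat_lit 5) (nat_lit 394) (nat_lit 349) (nat_lit 277)) (XT.nd (nat_lit 78) (nat_lit 0) (nat_lit 0) (XT.lf (nat_lit 0) (nat_lit 8234726680) (nat_lit 152) (nat_lit 7618378275) (nat_lit 228) (nat_lit 8260746388) (nat_lit 48) (nat_lit 5) (nat_lit 50) (nat_lit 5) (nat_lit 51) (nat_lit 5) (nat_lit 395) (nat_lit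 349) (nat_lit 276)) (XT.lf (nat_lit 0) (nat_lit 22393783032) (nat_lit 228) (nat_lit 2174765876) (nat_lit 76) (nat_lit 344155496) (nat_lit 48) (nat_lit 5) (nat_lit 51) (nat_lit 5) (nat_lit 49) (nat_lit 4) (nat_lit 396) (nat_lit 349) (nat_lit 275)))) (XT.nd (nat_lit 156) (nat_lit 76) (nat_lit 0) (XT.nd (nat_lit 78) (nat_lit 152) (nat_lit 0) (XT.lf (nat_lit 0) (nat_lit 3701187214) (nat_lit 152) (nat_lit 13343637693) (nat_lit 76) (nat_lit 8688762694) (nat_lit 46) (nat_lit 5) (nat_lit 48) (nat_lit 5) (nat_lit 47) (nat_lit 5) (nat_lit 397) (nat_lit 349) (nat_lit 274)) (XT.lf (nat_lit 0) (nat_lit 1122814461) (nat_lit 152) (nat_lit 9059227679) (nat_lit 228) (nat_lit 16409692498) (nat_lit 44) (nat_lit 5) (nat_lit 46) (nat_lit 5) (nat_lit 47) (nat_lit 5) (nat_lit 398) (nat_lit 349) (nat_lit 273))) (XT.nd (nat_lit 78) (nat_lit 76) (nat_lit 0) (XT.lf (nat_lit 0) (nat_lit 16740474071) (nat_lit 152) (nat_lit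 452302392) (nat_lit 228) (nat_lit 10289724568) (nat_lit 44) (nat_lit 5) (nat_lit 46) (nat_lit 5) (nat_lit 47) (nat_lit 5) (nat_lit 399) (nat_lit 349) (nat_lit 272)) (XT.lf (nat_lit 0) (nat_lit 4703281919) (nat_lit 76) (nat_lit 20038820878) (nat_lit 152) (nat_lit 3666303835) (nat_lit 43) (nat_lit 5) (nat_lit 44) (nat_lit 5) (nat_lit 45) (nat_lit 4) (nat_lit 400) (nat_lit 349) (nat_lit 271))))) (XT.nd (nat_lit 234) (nat_lit 304) (nat_lit 0) (XT.nd (nat_lit 78) (nat_lit 152) (nat_lit 0) (XT.lf (nat_lit 0) (nat_lit 3356029580) (nat_lit 152) (nat_lit 8173967946) (nat_lit 76) (nat_lit 17839396963) (nat_lit 42) (nat_lit 5) (nat_lit 44) (nat_lit 5) (nat_lit 43) (nat_lit 5) (nat_lit 401) (nat_lit 349) (nat_lit 270)) (XT.nd (nat_lit 78) (nat_lit 0) (nat_lit 0) (XT.lf (nat_lit 0) (nat_lit 8306635959) (nat_lit 152) (nat_lit 2410911114) (nat_lit 228) (nat_lit 19652318691) (nat_lit 40) (nat_lit 5) (nat_lit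 42) (nat_lit 5) (nat_lit 43) (nat_lit 5) (nat_lit 402) (nat_lit 349) (nat_lit 269)) (XT.lf (nat_lit 0) (nat_lit 18681429875) (nat_lit 228) (nat_lit 5665531858) (nat_lit 76) (nat_lit 7061687405) (nat_lit 40) (nat_lit 5) (nat_lit 43) (nat_lit 5) (nat_lit 41) (nat_lit 4) (nat_lit 403) (nat_lit 349) (nat_lit 268)))) (XT.nd (nat_lit 156) (nat_lit 152) (nat_lit 0) (XT.nd (nat_lit 78) (nat_lit 76) (nat_lit 0) (XT.lf (nat_lit 0) (nat_lit 11860693601) (nat_lit 76) (nat_lit 15390122485) (nat_lit 152) (nat_lit 5238192994) (nat_lit 39) (nat_lit 5) (nat_lit 40) (nat_lit 5) (nat_lit 41) (nat_lit 4) (nat_lit 404) (nat_lit 349) (nat_lit 267)) (XT.lf (nat_lit 0) (nat_lit 2621451006) (nat_lit 152) (nat_lit 3232744603) (nat_lit 76) (nat_lit 27763135007) (nat_lit 38) (nat_lit 5) (nat_lit 40) (nat_lit 5) (nat_lit 39) (nat_lit 5) (nat_lit 405) (nat_lit 349) (nat_lit 266))) (XT.nd (nat_lit 78) (nat_lit 0) (nat_lit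 0) (XT.lf (nat_lit 0) (nat_lit 10992194591) (nat_lit 228) (nat_lit 19446711052) (nat_lit 76) (nat_lit 4344163709) (nat_lit 36) (nat_lit 5) (nat_lit 39) (nat_lit 5) (nat_lit 37) (nat_lit 4) (nat_lit 406) (nat_lit 349) (nat_lit 265)) (XT.lf (nat_lit 0) (nat_lit 19916703381) (nat_lit 228) (nat_lit 1185212222) (nat_lit 76) (nat_lit 14898420375) (nat_lit 36) (nat_lit 5) (nat_lit 39) (nat_lit 5) (nat_lit 37) (nat_lit 4) (nat_lit 407) (nat_lit 349) (nat_lit 264))))))))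
noncomputable def xc121 : XT := (XT.nd (nat_lit 2106) (nat_lit 684) (nat_lit 0) (XT.nd (nat_lit 1014) (nat_lit 684) (nat_lit 0) (XT.nd (nat_lit 468) (nat_lit 380) (nat_lit 0) (XT.nd (nat_lit 234) (nat_lit 152) (nat_lit 0) (XT.nd (nat_lit 78) (nat_lit 228) (nat_lit 0) (XT.lf (nat_lit 0) (nat_lit 18554520542) (nat_lit 76) (nat_lit 11006997516) (nat_lit 152) (nat_lit 7703246098) (nat_lit 35) (nat_lit 5) (nat_lit 36) (nat_lit 5) (nat_lit 37) (nat_lit 4) (nat_lit 408) (nat_lit 349) (nat_lit 263)) (XT.nd (nat_lit 78) (nat_lit 0) (nat_lit 0) (XT.lf (nat_lit 0) (nat_lit 707421353) (nat_lit 152) (nat_lit 369542184) (nat_lit 228) (nat_lit 37513802146) (nat_lit 32) (nat_lit 5) (nat_lit 34) (nat_lit 5) (nat_lit 35) (nat_lit 5) (nat_lit 409) (nat_lit 349) (nat_lit 262)) (XT.lf (nat_lit 0) (nat_lit 10512518007) (nat_lit 228) (nat_lit 18550621849) (nat_lit 76) (nat_lit 10889854535) (nat_lit 32) (nat_lit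 5) (nat_lit 35) (nat_lit 5) (nat_lit 33) (nat_lit 4) (nat_lit 410) (nat_lit 349) (nat_lit 261)))) (XT.nd (nat_lit 78) (nat_lit 76) (nat_lit 0) (XT.lf (nat_lit 0) (nat_lit 1771912178) (nat_lit 76) (nat_lit 18666934357) (nat_lit 152) (nat_lit 20943540028) (nat_lit 31) (nat_lit 5) (nat_lit 32) (nat_lit 5) (nat_lit 33) (nat_lit 4) (nat_lit 411) (nat_lit 349) (nat_lit 260)) (XT.nd (nat_lit 78) (nat_lit 76) (nat_lit 0) (XT.lf (nat_lit 0) (nat_lit 23727573050) (nat_lit 76) (nat_lit 7433635097) (nat_lit 152) (nat_lit 11707056121) (nat_lit 31) (nat_lit 5) (nat_lit 32) (nat_lit 5) (nat_lit 33) (nat_lit 4) (nat_lit 412) (nat_lit 349) (nat_lit 259)) (XT.lf (nat_lit 0) (nat_lit 2332905478) (nat_lit 76) (nat_lit 40177351801) (nat_lit 76) (nat_lit 1913651783) (nat_lit 30) (nat_lit 4) (nat_lit 31) (nat_lit 5) (nat_lit 31) (nat_lit 4) (nat_lit 413) (nat_lit 349) (nat_lit 258))))) (XT.nd (nat_lit 234) (nat_lit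 228) (nat_lit 0) (XT.nd (nat_lit 78) (nat_lit 76) (nat_lit 0) (XT.lf (nat_lit 0) (nat_lit 8538971416) (nat_lit 152) (nat_lit 20780560418) (nat_lit 76) (nat_lit 16709401148) (nat_lit 29) (nat_lit 5) (nat_lit 31) (nat_lit 5) (nat_lit 30) (nat_lit 4) (nat_lit 414) (nat_lit 349) (nat_lit 257)) (XT.nd (nat_lit 78) (nat_lit 0) (nat_lit 0) (XT.lf (nat_lit 0) (nat_lit 1589882894) (nat_lit 76) (nat_lit 17871605262) (nat_lit 152) (nat_lit 28250574141) (nat_lit 28) (nat_lit 5) (nat_lit 29) (nat_lit 5) (nat_lit 30) (nat_lit 4) (nat_lit 415) (nat_lit 349) (nat_lit 256)) (XT.lf (nat_lit 0) (nat_lit 25775669476) (nat_lit 76) (nat_lit 5493387515) (nat_lit 152) (nat_lit 18193346151) (nat_lit 28) (nat_lit 5) (nat_lit 29) (nat_lit 5) (nat_lit 30) (nat_lit 4) (nat_lit 416) (nat_lit 349) (nat_lit 255)))) (XT.nd (nat_lit 156) (nat_lit 76) (nat_lit 0) (XT.nd (nat_lit 78) (nat_lit 152) (nat_lit 0) (XT.lf (nat_lit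 0) (nat_lit 43771602341) (nat_lit 152) (nat_lit 270577646) (nat_lit 0) (nat_lit 7252852451) (nat_lit 28) (nat_lit 5) (nat_lit 30) (nat_lit 4) (nat_lit 28) (nat_lit 4) (nat_lit 417) (nat_lit 349) (nat_lit 254)) (XT.lf (nat_lit 0) (nat_lit 4038355228) (nat_lit 152) (nat_lit 28257164780) (nat_lit 76) (nat_lit 20897093844) (nat_lit 26) (nat_lit 5) (nat_lit 28) (nat_lit 5) (nat_lit 27) (nat_lit 4) (nat_lit 418) (nat_lit 349) (nat_lit 253))) (XT.nd (nat_lit 78) (nat_lit 76) (nat_lit 0) (XT.lf (nat_lit 0) (nat_lit 15918118389) (nat_lit 152) (nat_lit 3919881832) (nat_lit 76) (nat_lit 35341272246) (nat_lit 26) (nat_lit 5) (nat_lit 28) (nat_lit 5) (nat_lit 27) (nat_lit 4) (nat_lit 419) (nat_lit 349) (nat_lit 252)) (XT.lf (nat_lit 0) (nat_lit 22327161933) (nat_lit 76) (nat_lit 6401933221) (nat_lit 152) (nat_lit 28519308665) (nat_lit 25) (nat_lit 5) (nat_lit 26) (nat_lit 5) (nat_lit 27) (nat_lit 4) (nat_lit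 420) (nat_lit 349) (nat_lit 251)))))) (XT.nd (nat_lit 546) (nat_lit 380) (nat_lit 0) (XT.nd (nat_lit 234) (nat_lit 152) (nat_lit 0) (XT.nd (nat_lit 78) (nat_lit 152) (nat_lit 0) (XT.lf (nat_lit 0) (nat_lit 42357089582) (nat_lit 152) (nat_lit 9538185981) (nat_lit 0) (nat_lit 7516893761) (nat_lit 25) (nat_lit 5) (nat_lit 27) (nat_lit 4) (nat_lit 25) (nat_lit 4) (nat_lit 421) (nat_lit 349) (nat_lit 250)) (XT.nd (nat_lit 78) (nat_lit 76) (nat_lit 0) (XT.lf (nat_lit 0) (nat_lit 17550059476) (nat_lit 76) (nat_lit 39484602617) (nat_lit 76) (nat_lit 4631053074) (nat_lit 24) (nat_lit 4) (nat_lit 25) (nat_lit 5) (nat_lit 25) (nat_lit 4) (nat_lit 422) (nat_lit 349) (nat_lit 249)) (XT.lf (nat_lit 0) (nat_lit 8298294148) (nat_lit 152) (nat_lit 17854764368) (nat_lit 76) (nat_lit 37864640962) (nat_lit 23) (nat_lit 5) (nat_lit 25) (nat_lit 5) (nat_lit 24) (nat_lit 4) (nat_lit 423) (nat_lit 349) (nat_lit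 248)))) (XT.nd (nat_lit 156) (nat_lit 76) (nat_lit 0) (XT.nd (nat_lit 78) (nat_lit 0) (nat_lit 0) (XT.lf (nat_lit 0) (nat_lit 9941689439) (nat_lit 76) (nat_lit 11921758868) (nat_lit 152) (nat_lit 44612790931) (nat_lit 22) (nat_lit 5) (nat_lit 23) (nat_lit 5) (nat_lit 24) (nat_lit 4) (nat_lit 424) (nat_lit 349) (nat_lit 247)) (XT.lf (nat_lit 0) (nat_lit 36451157745) (nat_lit 152) (nat_lit 29366666935) (nat_lit 0) (nat_lit 3222667233) (nat_lit 22) (nat_lit 5) (nat_lit 24) (nat_lit 4) (nat_lit 22) (nat_lit 4) (nat_lit 425) (nat_lit 349) (nat_lit 246))) (XT.nd (nat_lit 78) (nat_lit 76) (nat_lit 0) (XT.lf (nat_lit 0) (nat_lit 51953970883) (nat_lit 152) (nat_lit 1054683814) (nat_lit 0) (nat_lit 18715017380) (nat_lit 22) (nat_lit 5) (nat_lit 24) (nat_lit 4) (nat_lit 22) (nat_lit 4) (nat_lit 426) (nat_lit 349) (nat_lit 245)) (XT.lf (nat_lit 0) (nat_lit 29602402875) (nat_lit 76) (nat_lit 39082440708)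 (nat_lit 76) (nat_lit 5833522452) (nat_lit 21) (nat_lit 4) (nat_lit 22) (nat_lit 5) (nat_lit 22) (nat_lit 4) (nat_lit 427) (nat_lit 349) (nat_lit 244))))) (XT.nd (nat_lit 234) (nat_lit 228) (nat_lit 0) (XT.nd (nat_lit 78) (nat_lit 76) (nat_lit 0) (XT.lf (nat_lit 0) (nat_lit 8526739477) (nat_lit 152) (nat_lit 15778592567) (nat_lit 76) (nat_lit 53140148488) (nat_lit 20) (nat_lit 5) (nat_lit 22) (nat_lit 5) (nat_lit 21) (nat_lit 4) (nat_lit 428) (nat_lit 349) (nat_lit 243)) (XT.nd (nat_lit 78) (nat_lit 0) (nat_lit 0) (XT.lf (nat_lit 0) (nat_lit 15189041147) (nat_lit 76) (nat_lit 8448270056) (nat_lit 152) (nat_lit 56865441541) (nat_lit 19) (nat_lit 5) (nat_lit 20) (nat_lit 5) (nat_lit 21) (nat_lit 4) (nat_lit 429) (nat_lit 349) (nat_lit 242)) (XT.lf (nat_lit 0) (nat_lit 39894286952) (nat_lit 152) (nat_lit 35596252205) (nat_lit 0) (nat_lit 8202806239) (nat_lit 19) (nat_lit 5) (nat_lit 21) (nat_lit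 4) (nat_lit 19) (nat_lit 4) (nat_lit 430) (nat_lit 349) (nat_lit 241)))) (XT.nd (nat_lit 156) (nat_lit 152) (nat_lit 0) (XT.nd (nat_lit 78) (nat_lit 76) (nat_lit 0) (XT.lf (nat_lit 0) (nat_lit 57094251573) (nat_lit 152) (nat_lit 4547746460) (nat_lit 0) (nat_lit 25394963215) (nat_lit 19) (nat_lit 5) (nat_lit 21) (nat_lit 4) (nat_lit 19) (nat_lit 4) (nat_lit 431) (nat_lit 349) (nat_lit 240)) (XT.lf (nat_lit 0) (nat_lit 28964682550) (nat_lit 76) (nat_lit 46633793508) (nat_lit 76) (nat_lit 14927069298) (nat_lit 18) (nat_lit 4) (nat_lit 19) (nat_lit 5) (nat_lit 19) (nat_lit 4) (nat_lit 432) (nat_lit 349) (nat_lit 239))) (XT.nd (nat_lit 78) (nat_lit 76) (nat_lit 0) (XT.lf (nat_lit 0) (nat_lit 882822593) (nat_lit 152) (nat_lit 29904019657) (nat_lit 76) (nat_lit 63397544980) (nat_lit 17) (nat_lit 5) (nat_lit 19) (nat_lit 5) (nat_lit 18) (nat_lit 4) (nat_lit 433) (nat_lit 349) (nat_lit 238)) (XT.lf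 (nat_lit 0) (nat_lit 3177846577) (nat_lit 76) (nat_lit 13845761757) (nat_lit 152) (nat_lit 80988225697) (nat_lit 16) (nat_lit 5) (nat_lit 17) (nat_lit 5) (nat_lit 18) (nat_lit 4) (nat_lit 434) (nat_lit 349) (nat_lit 237))))))) (XT.nd (nat_lit 1014) (nat_lit 304) (nat_lit 0) (XT.nd (nat_lit 468) (nat_lit 228) (nat_lit 0) (XT.nd (nat_lit 234) (nat_lit 76) (nat_lit 0) (XT.nd (nat_lit 78) (nat_lit 76) (nat_lit 0) (XT.lf (nat_lit 0) (nat_lit 34540178823) (nat_lit 152) (nat_lit 63138024302) (nat_lit 0) (nat_lit 4324013224) (nat_lit 16) (nat_lit 5) (nat_lit 18) (nat_lit 4) (nat_lit 16) (nat_lit 4) (nat_lit 435) (nat_lit 349) (nat_lit 236)) (XT.nd (nat_lit 78) (nat_lit 76) (nat_lit 0) (XT.lf (nat_lit 0) (nat_lit 53152369583) (nat_lit 152) (nat_lit 30098381241) (nat_lit 0) (nat_lit 22930377799) (nat_lit 16) (nat_lit 5) (nat_lit 18) (nat_lit 4) (nat_lit 16) (nat_lit 4) (nat_lit 436) (nat_lit 349) (nat_lit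 235)) (XT.lf (nat_lit 0) (nat_lit 4731206856) (nat_lit 76) (nat_lit 68030984752) (nat_lit 76) (nat_lit 37803444221) (nat_lit 15) (nat_lit 4) (nat_lit 16) (nat_lit 5) (nat_lit 16) (nat_lit 4) (nat_lit 437) (nat_lit 349) (nat_lit 234)))) (XT.nd (nat_lit 78) (nat_lit 76) (nat_lit 0) (XT.lf (nat_lit 0) (nat_lit 42333974089) (nat_lit 76) (nat_lit 51521534770) (nat_lit 76) (nat_lit 21288709718) (nat_lit 15) (nat_lit 4) (nat_lit 16) (nat_lit 5) (nat_lit 16) (nat_lit 4) (nat_lit 438) (nat_lit 349) (nat_lit 233)) (XT.nd (nat_lit 78) (nat_lit 76) (nat_lit 0) (XT.lf (nat_lit 0) (nat_lit 81804262444) (nat_lit 76) (nat_lit 34192823314) (nat_lit 76) (nat_lit 3954965385) (nat_lit 15) (nat_lit 4) (nat_lit 16) (nat_lit 5) (nat_lit 16) (nat_lit 4) (nat_lit 439) (nat_lit 349) (nat_lit 232)) (XT.lf (nat_lit 0) (nat_lit 13783320766) (nat_lit 152) (nat_lit 1986843573) (nat_lit 76) (nat_lit 109219300824) (nat_lit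 14) (nat_lit 5) (nat_lit 16) (nat_lit 5) (nat_lit 15) (nat_lit 4) (nat_lit 440) (nat_lit 349) (nat_lit 231))))) (XT.nd (nat_lit 234) (nat_lit 152) (nat_lit 0) (XT.nd (nat_lit 78) (nat_lit 0) (nat_lit 0) (XT.lf (nat_lit 0) (nat_lit 32915087548) (nat_lit 152) (nat_lit 93220231868) (nat_lit 0) (nat_lit 4108215059) (nat_lit 13) (nat_lit 5) (nat_lit 15) (nat_lit 4) (nat_lit 13) (nat_lit 4) (nat_lit 441) (nat_lit 349) (nat_lit 230)) (XT.nd (nat_lit 78) (nat_lit 0) (nat_lit 0) (XT.lf (nat_lit 0) (nat_lit 53290277777) (nat_lit 152) (nat_lit 57976423296) (nat_lit 0) (nat_lit 24479264727) (nat_lit 13) (nat_lit 5) (nat_lit 15) (nat_lit 4) (nat_lit 13) (nat_lit 4) (nat_lit 442) (nat_lit 349) (nat_lit 229)) (XT.lf (nat_lit 0) (nat_lit 74678616143) (nat_lit 152) (nat_lit 20981523705) (nat_lit 0) (nat_lit 45863659702) (nat_lit 13) (nat_lit 5) (nat_lit 15) (nat_lit 4) (nat_lit 13) (nat_lit 4) (nat_lit 443)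 (nat_lit 349) (nat_lit 228)))) (XT.nd (nat_lit 156) (nat_lit 76) (nat_lit 0) (XT.nd (nat_lit 78) (nat_lit 0) (nat_lit 0) (XT.lf (nat_lit 0) (nat_lit 18442835927) (nat_lit 76) (nat_lit 78976135688) (nat_lit 76) (nat_lit 50157423637) (nat_lit 12) (nat_lit 4) (nat_lit 13) (nat_lit 5) (nat_lit 13) (nat_lit 4) (nat_lit 444) (nat_lit 349) (nat_lit 227)) (XT.lf (nat_lit 0) (nat_lit 60556444300) (nat_lit 76) (nat_lit 61089980758) (nat_lit 76) (nat_lit 32267691934) (nat_lit 12) (nat_lit 4) (nat_lit 13) (nat_lit 5) (nat_lit 13) (nat_lit 4) (nat_lit 445) (nat_lit 349) (nat_lit 226))) (XT.nd (nat_lit 78) (nat_lit 76) (nat_lit 0) (XT.lf (nat_lit 0) (nat_lit 104765827979) (nat_lit 76) (nat_lit 42314421230) (nat_lit 76) (nat_lit 13488725958) (nat_lit 12) (nat_lit 4) (nat_lit 13) (nat_lit 5) (nat_lit 13) (nat_lit 4) (nat_lit 446) (nat_lit 349) (nat_lit 225)) (XT.lf (nat_lit 0) (nat_lit 6024973290) (nat_lit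 152) (nat_lit 16477744264) (nat_lit 76) (nat_lit 145049238273) (nat_lit 11) (nat_lit 5) (nat_lit 13) (nat_lit 5) (nat_lit 12) (nat_lit 4) (nat_lit 447) (nat_lit 349) (nat_lit 224)))))) (XT.nd (nat_lit 546) (nat_lit 152) (nat_lit 0) (XT.nd (nat_lit 234) (nat_lit 76) (nat_lit 0) (XT.nd (nat_lit 78) (nat_lit 0) (nat_lit 0) (XT.lf (nat_lit 0) (nat_lit 25396512225) (nat_lit 76) (nat_lit 1056434840) (nat_lit 152) (nat_lit 148400487378) (nat_lit 10) (nat_lit 5) (nat_lit 11) (nat_lit 5) (nat_lit 12) (nat_lit 4) (nat_lit 448) (nat_lit 349) (nat_lit 223)) (XT.nd (nat_lit 78) (nat_lit 0) (nat_lit 0) (XT.lf (nat_lit 0) (nat_lit 48516435460) (nat_lit 152) (nat_lit 112918288459) (nat_lit 0) (nat_lit 21054557480) (nat_lit 10) (nat_lit 5) (nat_lit 12) (nat_lit 4) (nat_lit 10) (nat_lit 4) (nat_lit 449) (nat_lit 349) (nat_lit 222)) (XT.lf (nat_lit 0) (nat_lit 71696034146) (nat_lit 152) (nat_lit 74578752834)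 (nat_lit 0) (nat_lit 44231487123) (nat_lit 10) (nat_lit 5) (nat_lit 12) (nat_lit 4) (nat_lit 10) (nat_lit 4) (nat_lit 450) (nat_lit 349) (nat_lit 221)))) (XT.nd (nat_lit 156) (nat_lit 0) (nat_lit 0) (XT.nd (nat_lit 78) (nat_lit 76) (nat_lit 0) (XT.lf (nat_lit 0) (nat_lit 96030438735) (nat_lit 152) (nat_lit 34330536829) (nat_lit 0) (nat_lit 68563349768) (nat_lit 10) (nat_lit 5) (nat_lit 12) (nat_lit 4) (nat_lit 10) (nat_lit 4) (nat_lit 451) (nat_lit 349) (nat_lit 220)) (XT.lf (nat_lit 0) (nat_lit 8184131976) (nat_lit 76) (nat_lit 113521233547) (nat_lit 76) (nat_lit 86051723679) (nat_lit 9) (nat_lit 4) (nat_lit 10) (nat_lit 5) (nat_lit 10) (nat_lit 4) (nat_lit 452) (nat_lit 349) (nat_lit 219))) (XT.nd (nat_lit 78) (nat_lit 0) (nat_lit 0) (XT.lf (nat_lit 0) (nat_lit 54008639048) (nat_lit 76) (nat_lit 95232896513) (nat_lit 76) (nat_lit 67761081026) (nat_lit 9) (nat_lit 4) (nat_lit 10) (nat_lit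 5) (nat_lit 10) (nat_lit 4) (nat_lit 453) (nat_lit 349) (nat_lit 218)) (XT.lf (nat_lit 0) (nat_lit 102116967766) (nat_lit 76) (nat_lit 76033825058) (nat_lit 76) (nat_lit 48559813743) (nat_lit 9) (nat_lit 4) (nat_lit 10) (nat_lit 5) (nat_lit 10) (nat_lit 4) (nat_lit 454) (nat_lit 349) (nat_lit 217))))) (XT.nd (nat_lit 234) (nat_lit 0) (nat_lit 0) (XT.nd (nat_lit 78) (nat_lit 152) (nat_lit 0) (XT.lf (nat_lit 0) (nat_lit 152623661771) (nat_lit 76) (nat_lit 55878307105) (nat_lit 76) (nat_lit 28402204527) (nat_lit 9) (nat_lit 4) (nat_lit 10) (nat_lit 5) (nat_lit 10) (nat_lit 4) (nat_lit 455) (nat_lit 349) (nat_lit 216)) (XT.nd (nat_lit 78) (nat_lit 152) (nat_lit 0) (XT.lf (nat_lit 0) (nat_lit 205648975095) (nat_lit 76) (nat_lit 34718353328) (nat_lit 76) (nat_lit 7240259069) (nat_lit 9) (nat_lit 4) (nat_lit 10) (nat_lit 5) (nat_lit 10) (nat_lit 4) (nat_lit 456) (nat_lit 349) (nat_lit 215)) (XT.lf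 (nat_lit 0) (nat_lit 2313033131) (nat_lit 76) (nat_lit 12220149419) (nat_lit 152) (nat_lit 244299653772) (nat_lit 7) (nat_lit 5) (nat_lit 8) (nat_lit 5) (nat_lit 9) (nat_lit 4) (nat_lit 457) (nat_lit 349) (nat_lit 214)))) (XT.nd (nat_lit 156) (nat_lit 0) (nat_lit 0) (XT.nd (nat_lit 78) (nat_lit 0) (nat_lit 0) (XT.lf (nat_lit 0) (nat_lit 38048985231) (nat_lit 152) (nat_lit 220643732743) (nat_lit 0) (nat_lit 11875844649) (nat_lit 7) (nat_lit 5) (nat_lit 9) (nat_lit 4) (nat_lit 7) (nat_lit 4) (nat_lit 458) (nat_lit 349) (nat_lit 213)) (XT.lf (nat_lit 0) (nat_lit 62937802186) (nat_lit 152) (nat_lit 183180388921) (nat_lit 0) (nat_lit 36763023044) (nat_lit 7) (nat_lit 5) (nat_lit 9) (nat_lit 4) (nat_lit 7) (nat_lit 4) (nat_lit 459) (nat_lit 349) (nat_lit 212))) (XT.nd (nat_lit 78) (nat_lit 0) (nat_lit 0) (XT.lf (nat_lit 0) (nat_lit 89068101726) (nat_lit 152) (nat_lit 143849782507) (nat_lit 0) (nat_lit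 62891762051) (nat_lit 7) (nat_lit 5) (nat_lit 9) (nat_lit 4) (nat_lit 7) (nat_lit 4) (nat_lit 460) (nat_lit 349) (nat_lit 211)) (XT.lf (nat_lit 0) (nat_lit 116502098850) (nat_lit 152) (nat_lit 102558269201) (nat_lit 0) (nat_lit 90324272952) (nat_lit 7) (nat_lit 5) (nat_lit 9) (nat_lit 4) (nat_lit 7) (nat_lit 4) (nat_lit 461) (nat_lit 349) (nat_lit 210))))))))
noncomputable def xc122 : XT := (XT.nd (nat_lit 44850) (nat_lit 0) (nat_lit 4864) (XT.nd (nat_lit 1014) (nat_lit 0) (nat_lit 0) (XT.nd (nat_lit 468) (nat_lit 152) (nat_lit 0) (XT.nd (nat_lit 234) (nat_lit 0) (nat_lit 0) (XT.nd (nat_lit 78) (nat_lit 76) (nat_lit 0) (XT.lf (nat_lit 0) (nat_lit 145305112597) (nat_lit 152) (nat_lit 59207535875) (nat_lit 0) (nat_lit 119125871249) (nat_lit 7) (nat_lit 5) (nat_lit 9) (nat_lit 4) (nat_lit 7) (nat_lit 4) (nat_lit 462) (nat_lit 349) (nat_lit 209)) (XT.nd (nat_lit 78) (nat_lit 76) (nat_lit 0) (XT.lf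 (nat_lit 0) (nat_lit 175545721573) (nat_lit 152) (nat_lit 13694366498) (nat_lit 0) (nat_lit 149365132177) (nat_lit 7) (nat_lit 5) (nat_lit 9) (nat_lit 4) (nat_lit 7) (nat_lit 4) (nat_lit 463) (nat_lit 349) (nat_lit 208)) (XT.lf (nat_lit 0) (nat_lit 35216759866) (nat_lit 76) (nat_lit 172628999677) (nat_lit 76) (nat_lit 146447126426) (nat_lit 6) (nat_lit 4) (nat_lit 7) (nat_lit 5) (nat_lit 7) (nat_lit 4) (nat_lit 464) (nat_lit 349) (nat_lit 207)))) (XT.nd (nat_lit 78) (nat_lit 0) (nat_lit 0) (XT.lf (nat_lit 0) (nat_lit 87044100654) (nat_lit 76) (nat_lit 154946226985) (nat_lit 76) (nat_lit 128763131015) (nat_lit 6) (nat_lit 4) (nat_lit 7) (nat_lit 5) (nat_lit 7) (nat_lit 4) (nat_lit 465) (nat_lit 349) (nat_lit 206)) (XT.nd (nat_lit 78) (nat_lit 0) (nat_lit 0) (XT.lf (nat_lit 0) (nat_lit 141458256692) (nat_lit 76) (nat_lit 136381588879) (nat_lit 76) (nat_lit 110197328415) (nat_lit 6) (nat_lit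 4) (nat_lit 7) (nat_lit 5) (nat_lit 7) (nat_lit 4) (nat_lit 466) (nat_lit 349) (nat_lit 205)) (XT.lf (nat_lit 0) (nat_lit 198588785495) (nat_lit 76) (nat_lit 116890883840) (nat_lit 76) (nat_lit 90705514334) (nat_lit 6) (nat_lit 4) (nat_lit 7) (nat_lit 5) (nat_lit 7) (nat_lit 4) (nat_lit 467) (nat_lit 349) (nat_lit 204))))) (XT.nd (nat_lit 234) (nat_lit 152) (nat_lit 0) (XT.nd (nat_lit 78) (nat_lit 0) (nat_lit 0) (XT.lf (nat_lit 0) (nat_lit 258571712132) (nat_lit 76) (nat_lit 96427705428) (nat_lit 76) (nat_lit 70241279691) (nat_lit 6) (nat_lit 4) (nat_lit 7) (nat_lit 5) (nat_lit 7) (nat_lit 4) (nat_lit 468) (nat_lit 349) (nat_lit 203)) (XT.nd (nat_lit 78) (nat_lit 0) (nat_lit 0) (XT.lf (nat_lit 0) (nat_lit 321549853095) (nat_lit 76) (nat_lit 74943331789) (nat_lit 76) (nat_lit 48755900118) (nat_lit 6) (nat_lit 4) (nat_lit 7) (nat_lit 5) (nat_lit 7) (nat_lit 4) (nat_lit 469) (nat_lit 349) (nat_lit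 202)) (XT.lf (nat_lit 0) (nat_lit 387673156337) (nat_lit 76) (nat_lit 52386609652) (nat_lit 76) (nat_lit 26198219949) (nat_lit 6) (nat_lit 4) (nat_lit 7) (nat_lit 5) (nat_lit 7) (nat_lit 4) (nat_lit 470) (nat_lit 349) (nat_lit 201)))) (XT.nd (nat_lit 156) (nat_lit 0) (nat_lit 0) (XT.nd (nat_lit 78) (nat_lit 152) (nat_lit 0) (XT.lf (nat_lit 0) (nat_lit 457099058296) (nat_lit 76) (nat_lit 28703832537) (nat_lit 76) (nat_lit 2514530422) (nat_lit 6) (nat_lit 4) (nat_lit 7) (nat_lit 5) (nat_lit 7) (nat_lit 4) (nat_lit 471) (nat_lit 349) (nat_lit 200)) (XT.lf (nat_lit 0) (nat_lit 18764557897) (nat_lit 76) (nat_lit 3164578188) (nat_lit 152) (nat_lit 489518680441) (nat_lit 4) (nat_lit 5) (nat_lit 5) (nat_lit 5) (nat_lit 6) (nat_lit 4) (nat_lit 472) (nat_lit 349) (nat_lit 199))) (XT.nd (nat_lit 78) (nat_lit 0) (nat_lit 0) (XT.lf (nat_lit 0) (nat_lit 48415389316) (nat_lit 152) (nat_lit 463800454741)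 (nat_lit 0) (nat_lit 23471581065) (nat_lit 4) (nat_lit 5) (nat_lit 6) (nat_lit 4) (nat_lit 4) (nat_lit 4) (nat_lit 473) (nat_lit 349) (nat_lit 198)) (XT.lf (nat_lit 0) (nat_lit 76276190184) (nat_lit 152) (nat_lit 433528680982) (nat_lit 0) (nat_lit 51331631289) (nat_lit 4) (nat_lit 5) (nat_lit 6) (nat_lit 4) (nat_lit 4) (nat_lit 4) (nat_lit 474) (nat_lit 349) (nat_lit 197)))))) (XT.nd (nat_lit 546) (nat_lit 0) (nat_lit 0) (XT.nd (nat_lit 234) (nat_lit 0) (nat_lit 0) (XT.nd (nat_lit 78) (nat_lit 0) (nat_lit 0) (XT.lf (nat_lit 0) (nat_lit 105528465994) (nat_lit 152) (nat_lit 401746453765) (nat_lit 0) (nat_lit 80583192202) (nat_lit 4) (nat_lit 5) (nat_lit 6) (nat_lit 4) (nat_lit 4) (nat_lit 4) (nat_lit 475) (nat_lit 349) (nat_lit 196)) (XT.nd (nat_lit 78) (nat_lit 0) (nat_lit 0) (XT.lf (nat_lit 0) (nat_lit 136241865024) (nat_lit 152) (nat_lit 368378101121) (nat_lit 0) (nat_lit 111295910376) (nat_lit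 4) (nat_lit 5) (nat_lit 6) (nat_lit 4) (nat_lit 4) (nat_lit 4) (nat_lit 476) (nat_lit 349) (nat_lit 195)) (XT.lf (nat_lit 0) (nat_lit 168489514414) (nat_lit 152) (nat_lit 333344174592) (nat_lit 0) (nat_lit 143542911332) (nat_lit 4) (nat_lit 5) (nat_lit 6) (nat_lit 4) (nat_lit 4) (nat_lit 4) (nat_lit 477) (nat_lit 349) (nat_lit 194)))) (XT.nd (nat_lit 156) (nat_lit 0) (nat_lit 0) (XT.nd (nat_lit 78) (nat_lit 0) (nat_lit 0) (XT.lf (nat_lit 0) (nat_lit 202348194281) (nat_lit 152) (nat_lit 296561260066) (nat_lit 0) (nat_lit 177400973642) (nat_lit 4) (nat_lit 5) (nat_lit 6) (nat_lit 4) (nat_lit 4) (nat_lit 4) (nat_lit 478) (nat_lit 349) (nat_lit 193)) (XT.lf (nat_lit 0) (nat_lit 237898520529) (nat_lit 152) (nat_lit 257941779176) (nat_lit 0) (nat_lit 212950711742) (nat_lit 4) (nat_lit 5) (nat_lit 6) (nat_lit 4) (nat_lit 4) (nat_lit 4) (nat_lit 479) (nat_lit 349) (nat_lit 192))) (XT.nd (nat_lit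 78) (nat_lit 0) (nat_lit 0) (XT.lf (nat_lit 0) (nat_lit 275225136793) (nat_lit 152) (nat_lit 217393780776) (nat_lit 0) (nat_lit 250276767864) (nat_lit 4) (nat_lit 5) (nat_lit 6) (nat_lit 4) (nat_lit 4) (nat_lit 4) (nat_lit 480) (nat_lit 349) (nat_lit 191)) (XT.lf (nat_lit 0) (nat_lit 314416915968) (nat_lit 152) (nat_lit 174820722013) (nat_lit 0) (nat_lit 289468013571) (nat_lit 4) (nat_lit 5) (nat_lit 6) (nat_lit 4) (nat_lit 4) (nat_lit 4) (nat_lit 481) (nat_lit 349) (nat_lit 190))))) (XT.nd (nat_lit 42978) (nat_lit 0) (nat_lit 10260) (XT.nd (nat_lit 42822) (nat_lit 0) (nat_lit 10868) (XT.lf (nat_lit 0) (nat_lit 355567171814) (nat_lit 152) (nat_lit 130121238463) (nat_lit 0) (nat_lit 330617761352) (nat_lit 4) (nat_lit 5) (nat_lit 6) (nat_lit 4) (nat_lit 4) (nat_lit 4) (nat_lit 482) (nat_lit 349) (nat_lit 189)) (XT.nd (nat_lit 78) (nat_lit 0) (nat_lit 0) (XT.lf (nat_lit 0) (nat_lit 936582320)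 (nat_lit 0) (nat_lit 936582320) (nat_lit 532) (nat_lit 1927530462) (nat_lit 147) (nat_lit 5) (nat_lit 147) (nat_lit 3) (nat_lit 154) (nat_lit 3) (nat_lit 350) (nat_lit 350) (nat_lit 320)) (XT.lf (nat_lit 0) (nat_lit 5208716248) (nat_lit 532) (nat_lit 2008397127) (nat_lit 608) (nat_lit 504954109) (nat_lit 147) (nat_lit 5) (nat_lit 154) (nat_lit 3) (nat_lit 155) (nat_lit 5) (nat_lit 351) (nat_lit 350) (nat_lit 319)))) (XT.nd (nat_lit 156) (nat_lit 0) (nat_lit 76) (XT.nd (nat_lit 78) (nat_lit 608) (nat_lit 0) (XT.lf (nat_lit 76) (nat_lit 1878188098) (nat_lit 0) (nat_lit 4839651367) (nat_lit 608) (nat_lit 1132317276) (nat_lit 148) (nat_lit 5) (nat_lit 147) (nat_lit 5) (nat_lit 155) (nat_lit 5) (nat_lit 352) (nat_lit 350) (nat_lit 318)) (XT.lf (nat_lit 0) (nat_lit 257706115) (nat_lit 608) (nat_lit 2010341476) (nat_lit 684) (nat_lit 5718902867) (nat_lit 139) (nat_lit 5) (nat_lit 147) (nat_lit 5)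 (nat_lit 148) (nat_lit 5) (nat_lit 353) (nat_lit 350) (nat_lit 317))) (XT.nd (nat_lit 78) (nat_lit 0) (nat_lit 0) (XT.lf (nat_lit 0) (nat_lit 1640429715) (nat_lit 608) (nat_lit 5988779186) (nat_lit 684) (nat_lit 502435146) (nat_lit 140) (nat_lit 5) (nat_lit 148) (nat_lit 5) (nat_lit 149) (nat_lit 5) (nat_lit 354) (nat_lit 350) (nat_lit 316)) (XT.lf (nat_lit 0) (nat_lit 3087189070) (nat_lit 608) (nat_lit 1797974417) (nat_lit 684) (nat_lit 3398712354) (nat_lit 140) (nat_lit 5) (nat_lit 148) (nat_lit 5) (nat_lit 149) (nat_lit 5) (nat_lit 355) (nat_lit 350) (nat_lit 315))))))) (XT.nd (nat_lit 1014) (nat_lit 2280) (nat_lit 0) (XT.nd (nat_lit 468) (nat_lit 1976) (nat_lit 0) (XT.nd (nat_lit 234) (nat_lit 1216) (nat_lit 0) (XT.nd (nat_lit 78) (nat_lit 0) (nat_lit 76) (XT.lf (nat_lit 76) (nat_lit 2637362469) (nat_lit 0) (nat_lit 1936875998) (nat_lit 684) (nat_lit 3871129349) (nat_lit 141) (nat_lit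 5) (nat_lit 140) (nat_lit 5) (nat_lit 149) (nat_lit 5) (nat_lit 356) (nat_lit 350) (nat_lit 314)) (XT.nd (nat_lit 78) (nat_lit 0) (nat_lit 0) (XT.lf (nat_lit 0) (nat_lit 6114526300) (nat_lit 608) (nat_lit 1327649229) (nat_lit 684) (nat_lit 1173858558) (nat_lit 141) (nat_lit 5) (nat_lit 149) (nat_lit 5) (nat_lit 150) (nat_lit 5) (nat_lit 357) (nat_lit 350) (nat_lit 313)) (XT.lf (nat_lit 76) (nat_lit 3403886407) (nat_lit 0) (nat_lit 4346023823) (nat_lit 684) (nat_lit 1044461257) (nat_lit 142) (nat_lit 5) (nat_lit 141) (nat_lit 5) (nat_lit 150) (nat_lit 5) (nat_lit 358) (nat_lit 350) (nat_lit 312)))) (XT.nd (nat_lit 78) (nat_lit 608) (nat_lit 0) (XT.lf (nat_lit 0) (nat_lit 427257695) (nat_lit 684) (nat_lit 621785838) (nat_lit 760) (nat_lit 7934373421) (nat_lit 132) (nat_lit 5) (nat_lit 141) (nat_lit 5) (nat_lit 142) (nat_lit 5) (nat_lit 359) (nat_lit 350) (nat_lit 311)) (XT.nd (nat_lit 78) (nat_lit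 684) (nat_lit 0) (XT.lf (nat_lit 0) (nat_lit 1984052385) (nat_lit 684) (nat_lit 4757972276) (nat_lit 76) (nat_lit 2436740584) (nat_lit 133) (nat_lit 5) (nat_lit 142) (nat_lit 5) (nat_lit 134) (nat_lit 5) (nat_lit 360) (nat_lit 350) (nat_lit 310)) (XT.lf (nat_lit 0) (nat_lit 294365958) (nat_lit 684) (nat_lit 3296844875) (nat_lit 760) (nat_lit 5794078389) (nat_lit 124) (nat_lit 5) (nat_lit 133) (nat_lit 5) (nat_lit 134) (nat_lit 5) (nat_lit 361) (nat_lit 350) (nat_lit 309))))) (XT.nd (nat_lit 234) (nat_lit 1216) (nat_lit 0) (XT.nd (nat_lit 78) (nat_lit 760) (nat_lit 0) (XT.lf (nat_lit 0) (nat_lit 5307840145) (nat_lit 760) (nat_lit 3893561485) (nat_lit 76) (nat_lit 399314951) (nat_lit 124) (nat_lit 5) (nat_lit 134) (nat_lit 5) (nat_lit 125) (nat_lit 5) (nat_lit 362) (nat_lit 350) (nat_lit 308)) (XT.nd (nat_lit 78) (nat_lit 0) (nat_lit 0) (XT.lf (nat_lit 0) (nat_lit 1506769843) (nat_lit 760)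 (nat_lit 5626062662) (nat_lit 836) (nat_lit 2692987491) (nat_lit 114) (nat_lit 5) (nat_lit 124) (nat_lit 5) (nat_lit 125) (nat_lit 5) (nat_lit 363) (nat_lit 350) (nat_lit 307)) (XT.lf (nat_lit 0) (nat_lit 7262039291) (nat_lit 760) (nat_lit 1799770927) (nat_lit 836) (nat_lit 999761352) (nat_lit 114) (nat_lit 5) (nat_lit 124) (nat_lit 5) (nat_lit 125) (nat_lit 5) (nat_lit 364) (nat_lit 350) (nat_lit 306)))) (XT.nd (nat_lit 156) (nat_lit 760) (nat_lit 0) (XT.nd (nat_lit 78) (nat_lit 0) (nat_lit 0) (XT.lf (nat_lit 0) (nat_lit 784650983) (nat_lit 456) (nat_lit 7313132728) (nat_lit 76) (nat_lit 2209175098) (nat_lit 108) (nat_lit 5) (nat_lit 114) (nat_lit 5) (nat_lit 109) (nat_lit 5) (nat_lit 365) (nat_lit 350) (nat_lit 305)) (XT.lf (nat_lit 0) (nat_lit 2652558545) (nat_lit 456) (nat_lit 1486196040) (nat_lit 76) (nat_lit 6423673413) (nat_lit 108) (nat_lit 5) (nat_lit 114) (nat_lit 5) (nat_lit 109)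 (nat_lit 5) (nat_lit 366) (nat_lit 350) (nat_lit 304))) (XT.nd (nat_lit 78) (nat_lit 380) (nat_lit 0) (XT.lf (nat_lit 0) (nat_lit 4641810588) (nat_lit 456) (nat_lit 6096098154) (nat_lit 76) (nat_lit 91388948) (nat_lit 103) (nat_lit 5) (nat_lit 109) (nat_lit 5) (nat_lit 104) (nat_lit 5) (nat_lit 367) (nat_lit 350) (nat_lit 303)) (XT.lf (nat_lit 0) (nat_lit 91187442) (nat_lit 380) (nat_lit 6688219300) (nat_lit 456) (nat_lit 4327683382) (nat_lit 98) (nat_lit 5) (nat_lit 103) (nat_lit 5) (nat_lit 104) (nat_lit 5) (nat_lit 368) (nat_lit 350) (nat_lit 302)))))) (XT.nd (nat_lit 546) (nat_lit 1064) (nat_lit 0) (XT.nd (nat_lit 234) (nat_lit 836) (nat_lit 0) (XT.nd (nat_lit 78) (nat_lit 380) (nat_lit 0) (XT.lf (nat_lit 0) (nat_lit 6749912716) (nat_lit 380) (nat_lit 2332652967) (nat_lit 456) (nat_lit 2313294568) (nat_lit 98) (nat_lit 5) (nat_lit 103) (nat_lit 5) (nat_lit 104) (nat_lit 5) (nat_lit 369)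 (nat_lit 350) (nat_lit 301)) (XT.nd (nat_lit 78) (nat_lit 76) (nat_lit 0) (XT.lf (nat_lit 0) (nat_lit 2022994901) (nat_lit 304) (nat_lit 9501945659) (nat_lit 380) (nat_lit 172946585) (nat_lit 94) (nat_lit 5) (nat_lit 98) (nat_lit 5) (nat_lit 99) (nat_lit 5) (nat_lit 370) (nat_lit 350) (nat_lit 300)) (XT.lf (nat_lit 0) (nat_lit 2084297524) (nat_lit 380) (nat_lit 2946204177) (nat_lit 76) (nat_lit 6979099852) (nat_lit 93) (nat_lit 5) (nat_lit 98) (nat_lit 5) (nat_lit 94) (nat_lit 5) (nat_lit 371) (nat_lit 350) (nat_lit 299)))) (XT.nd (nat_lit 156) (nat_lit 532) (nat_lit 0) (XT.nd (nat_lit 78) (nat_lit 0) (nat_lit 0) (XT.lf (nat_lit 0) (nat_lit 4203097459) (nat_lit 304) (nat_lit 271175079) (nat_lit 380) (nat_lit 7861221620) (nat_lit 89) (nat_lit 5) (nat_lit 93) (nat_lit 5) (nat_lit 94) (nat_lit 5) (nat_lit 372) (nat_lit 350) (nat_lit 298)) (XT.lf (nat_lit 0) (nat_lit 7069353939) (nat_lit 380)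 (nat_lit 986218847) (nat_lit 76) (nat_lit 4617845638) (nat_lit 89) (nat_lit 5) (nat_lit 94) (nat_lit 5) (nat_lit 90) (nat_lit 5) (nat_lit 373) (nat_lit 350) (nat_lit 297))) (XT.nd (nat_lit 78) (nat_lit 304) (nat_lit 0) (XT.lf (nat_lit 0) (nat_lit 6680373158) (nat_lit 228) (nat_lit 3185519508) (nat_lit 304) (nat_lit 3158777655) (nat_lit 86) (nat_lit 5) (nat_lit 89) (nat_lit 5) (nat_lit 90) (nat_lit 5) (nat_lit 374) (nat_lit 350) (nat_lit 296)) (XT.lf (nat_lit 0) (nat_lit 1337121553) (nat_lit 304) (nat_lit 11496953836) (nat_lit 380) (nat_lit 557834363) (nat_lit 82) (nat_lit 5) (nat_lit 86) (nat_lit 5) (nat_lit 87) (nat_lit 5) (nat_lit 375) (nat_lit 350) (nat_lit 295))))) (XT.nd (nat_lit 234) (nat_lit 760) (nat_lit 0) (XT.nd (nat_lit 78) (nat_lit 228) (nat_lit 0) (XT.lf (nat_lit 0) (nat_lit 2229296559) (nat_lit 380) (nat_lit 4284798082) (nat_lit 76) (nat_lit 7255449633) (nat_lit 81) (nat_lit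 5) (nat_lit 86) (nat_lit 5) (nat_lit 82) (nat_lit 5) (nat_lit 376) (nat_lit 350) (nat_lit 294)) (XT.nd (nat_lit 78) (nat_lit 0) (nat_lit 0) (XT.lf (nat_lit 0) (nat_lit 3945476181) (nat_lit 228) (nat_lit 1219130692) (nat_lit 304) (nat_lit 8999631563) (nat_lit 78) (nat_lit 5) (nat_lit 81) (nat_lit 5) (nat_lit 82) (nat_lit 5) (nat_lit 377) (nat_lit 350) (nat_lit 293)) (XT.lf (nat_lit 0) (nat_lit 8354919977) (nat_lit 304) (nat_lit 1954082128) (nat_lit 76) (nat_lit 4264266328) (nat_lit 78) (nat_lit 5) (nat_lit 82) (nat_lit 5) (nat_lit 79) (nat_lit 5) (nat_lit 378) (nat_lit 350) (nat_lit 292)))) (XT.nd (nat_lit 156) (nat_lit 228) (nat_lit 0) (XT.nd (nat_lit 78) (nat_lit 304) (nat_lit 0) (XT.lf (nat_lit 0) (nat_lit 6880141839) (nat_lit 228) (nat_lit 4920309904) (nat_lit 304) (nat_lit 3197525409) (nat_lit 75) (nat_lit 5) (nat_lit 78) (nat_lit 5) (nat_lit 79) (nat_lit 5) (nat_lit 379) (nat_lit 350)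 (nat_lit 291)) (XT.lf (nat_lit 0) (nat_lit 1362037) (nat_lit 304) (nat_lit 14693669324) (nat_lit 76) (nat_lit 747611106) (nat_lit 71) (nat_lit 5) (nat_lit 75) (nat_lit 5) (nat_lit 72) (nat_lit 5) (nat_lit 380) (nat_lit 350) (nat_lit 290))) (XT.nd (nat_lit 78) (nat_lit 228) (nat_lit 0) (XT.lf (nat_lit 0) (nat_lit 3442358870) (nat_lit 304) (nat_lit 5741920606) (nat_lit 76) (nat_lit 6713170197) (nat_lit 71) (nat_lit 5) (nat_lit 75) (nat_lit 5) (nat_lit 72) (nat_lit 5) (nat_lit 381) (nat_lit 350) (nat_lit 289)) (XT.lf (nat_lit 0) (nat_lit 3734194581) (nat_lit 228) (nat_lit 3350206286) (nat_lit 304) (nat_lit 9289156785) (nat_lit 68) (nat_lit 5) (nat_lit 71) (nat_lit 5) (nat_lit 72) (nat_lit 5) (nat_lit 382) (nat_lit 350) (nat_lit 288))))))))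
noncomputable def xc123 : XT := (XT.nd (nat_lit 2106) (nat_lit 1444) (nat_lit 0) (XT.nd (nat_lit 1014) (nat_lit 1140) (nat_lit 0) (XT.nd (nat_lit 468) (nat_lit 760) (nat_lit 0) (XT.nd (nat_lit 234) (nat_lit 380) (nat_lit 0) (XT.nd (nat_lit 78) (nat_lit 228) (nat_lit 0) (XT.lf (nat_lit 0) (nat_lit 11021938337) (nat_lit 304) (nat_lit 3073352168) (nat_lit 76) (nat_lit 2772520550) (nat_lit 68) (nat_lit 5) (nat_lit 72) (nat_lit 5) (nat_lit 69) (nat_lit 5) (nat_lit 383) (nat_lit 350) (nat_lit 287)) (XT.nd (nat_lit 78) (nat_lit 76) (nat_lit 0) (XT.lf (nat_lit 0) (nat_lit 7102134595) (nat_lit 152) (nat_lit 8192616676) (nat_lit 228) (nat_lit 2085115162) (nat_lit 66) (nat_lit 5) (nat_lit 68) (nat_lit 5) (nat_lit 69) (nat_lit 5) (nat_lit 384) (nat_lit 350) (nat_lit 286)) (XT.lf (nat_lit 0) (nat_lit 1829750968) (nat_lit 228) (nat_lit 93235415) (nat_lit 76) (nat_lit 15991805702) (nat_lit 65) (nat_lit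 5) (nat_lit 68) (nat_lit 5) (nat_lit 66) (nat_lit 5) (nat_lit 385) (nat_lit 350) (nat_lit 285)))) (XT.nd (nat_lit 78) (nat_lit 152) (nat_lit 0) (XT.lf (nat_lit 0) (nat_lit 6090075890) (nat_lit 304) (nat_lit 7668573267) (nat_lit 76) (nat_lit 4705124277) (nat_lit 62) (nat_lit 5) (nat_lit 66) (nat_lit 5) (nat_lit 63) (nat_lit 5) (nat_lit 386) (nat_lit 350) (nat_lit 284)) (XT.nd (nat_lit 78) (nat_lit 0) (nat_lit 0) (XT.lf (nat_lit 0) (nat_lit 3222865331) (nat_lit 152) (nat_lit 7398525547) (nat_lit 228) (nat_lit 8415921876) (nat_lit 60) (nat_lit 5) (nat_lit 62) (nat_lit 5) (nat_lit 63) (nat_lit 5) (nat_lit 387) (nat_lit 350) (nat_lit 283)) (XT.lf (nat_lit 0) (nat_lit 14885849263) (nat_lit 152) (nat_lit 598420001) (nat_lit 228) (nat_lit 4150017130) (nat_lit 60) (nat_lit 5) (nat_lit 62) (nat_lit 5) (nat_lit 63) (nat_lit 5) (nat_lit 388) (nat_lit 350) (nat_lit 282))))) (XT.nd (nat_lit 234) (nat_lit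 380) (nat_lit 0) (XT.nd (nat_lit 78) (nat_lit 152) (nat_lit 0) (XT.lf (nat_lit 0) (nat_lit 508487952) (nat_lit 228) (nat_lit 13307071683) (nat_lit 76) (nat_lit 6435806618) (nat_lit 57) (nat_lit 5) (nat_lit 60) (nat_lit 5) (nat_lit 58) (nat_lit 5) (nat_lit 389) (nat_lit 350) (nat_lit 281)) (XT.nd (nat_lit 78) (nat_lit 152) (nat_lit 0) (XT.lf (nat_lit 0) (nat_lit 5328252828) (nat_lit 228) (nat_lit 1626465261) (nat_lit 76) (nat_lit 13937796496) (nat_lit 57) (nat_lit 5) (nat_lit 60) (nat_lit 5) (nat_lit 58) (nat_lit 5) (nat_lit 390) (nat_lit 350) (nat_lit 280)) (XT.lf (nat_lit 0) (nat_lit 10543857965) (nat_lit 228) (nat_lit 10612783822) (nat_lit 76) (nat_lit 401341898) (nat_lit 55) (nat_lit 5) (nat_lit 58) (nat_lit 5) (nat_lit 56) (nat_lit 5) (nat_lit 391) (nat_lit 350) (nat_lit 279)))) (XT.nd (nat_lit 156) (nat_lit 228) (nat_lit 0) (XT.nd (nat_lit 78) (nat_lit 0) (nat_lit 0) (XT.lf (nat_lit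 0) (nat_lit 1854450341) (nat_lit 152) (nat_lit 14314436006) (nat_lit 228) (nat_lit 6080413412) (nat_lit 53) (nat_lit 5) (nat_lit 55) (nat_lit 5) (nat_lit 56) (nat_lit 5) (nat_lit 392) (nat_lit 350) (nat_lit 278)) (XT.lf (nat_lit 0) (nat_lit 15277088210) (nat_lit 152) (nat_lit 6955986408) (nat_lit 228) (nat_lit 734216993) (nat_lit 53) (nat_lit 5) (nat_lit 55) (nat_lit 5) (nat_lit 56) (nat_lit 5) (nat_lit 393) (nat_lit 350) (nat_lit 277))) (XT.nd (nat_lit 78) (nat_lit 0) (nat_lit 0) (XT.lf (nat_lit 0) (nat_lit 4805833931) (nat_lit 228) (nat_lit 18007256882) (nat_lit 76) (nat_lit 900152549) (nat_lit 50) (nat_lit 5) (nat_lit 53) (nat_lit 5) (nat_lit 51) (nat_lit 5) (nat_lit 394) (nat_lit 350) (nat_lit 276)) (XT.lf (nat_lit 0) (nat_lit 10823729159) (nat_lit 228) (nat_lit 4614838721) (nat_lit 76) (nat_lit 9046051854) (nat_lit 50) (nat_lit 5) (nat_lit 53) (nat_lit 5) (nat_lit 51) (nat_lit 5) (nat_lit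 395) (nat_lit 350) (nat_lit 275)))))) (XT.nd (nat_lit 546) (nat_lit 532) (nat_lit 0) (XT.nd (nat_lit 234) (nat_lit 304) (nat_lit 0) (XT.nd (nat_lit 78) (nat_lit 152) (nat_lit 0) (XT.lf (nat_lit 0) (nat_lit 9724515778) (nat_lit 152) (nat_lit 7549936356) (nat_lit 228) (nat_lit 8013520583) (nat_lit 48) (nat_lit 5) (nat_lit 50) (nat_lit 5) (nat_lit 51) (nat_lit 5) (nat_lit 396) (nat_lit 350) (nat_lit 274)) (XT.nd (nat_lit 78) (nat_lit 152) (nat_lit 0) (XT.lf (nat_lit 0) (nat_lit 24118908101) (nat_lit 228) (nat_lit 1233401145) (nat_lit 76) (nat_lit 775628490) (nat_lit 48) (nat_lit 5) (nat_lit 51) (nat_lit 5) (nat_lit 49) (nat_lit 4) (nat_lit 397) (nat_lit 350) (nat_lit 273)) (XT.lf (nat_lit 0) (nat_lit 4488819745) (nat_lit 152) (nat_lit 12957611911) (nat_lit 76) (nat_lit 9543588670) (nat_lit 46) (nat_lit 5) (nat_lit 48) (nat_lit 5) (nat_lit 47) (nat_lit 5) (nat_lit 398) (nat_lit 350) (nat_lit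 272)))) (XT.nd (nat_lit 156) (nat_lit 152) (nat_lit 0) (XT.nd (nat_lit 78) (nat_lit 0) (nat_lit 0) (XT.lf (nat_lit 0) (nat_lit 2215175631) (nat_lit 152) (nat_lit 9066026132) (nat_lit 228) (nat_lit 16610504354) (nat_lit 44) (nat_lit 5) (nat_lit 46) (nat_lit 5) (nat_lit 47) (nat_lit 5) (nat_lit 399) (nat_lit 350) (nat_lit 271)) (XT.lf (nat_lit 0) (nat_lit 18564374391) (nat_lit 152) (nat_lit 50000434) (nat_lit 228) (nat_lit 10214046254) (nat_lit 44) (nat_lit 5) (nat_lit 46) (nat_lit 5) (nat_lit 47) (nat_lit 5) (nat_lit 400) (nat_lit 350) (nat_lit 270))) (XT.nd (nat_lit 78) (nat_lit 76) (nat_lit 0) (XT.lf (nat_lit 0) (nat_lit 5930628207) (nat_lit 76) (nat_lit 20605588269) (nat_lit 152) (nat_lit 3264658130) (nat_lit 43) (nat_lit 5) (nat_lit 44) (nat_lit 5) (nat_lit 45) (nat_lit 4) (nat_lit 401) (nat_lit 350) (nat_lit 269)) (XT.lf (nat_lit 0) (nat_lit 4063105816) (nat_lit 152) (nat_lit 7619807610)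 (nat_lit 76) (nat_lit 19127894596) (nat_lit 42) (nat_lit 5) (nat_lit 44) (nat_lit 5) (nat_lit 43) (nat_lit 5) (nat_lit 402) (nat_lit 350) (nat_lit 268))))) (XT.nd (nat_lit 234) (nat_lit 304) (nat_lit 0) (XT.nd (nat_lit 78) (nat_lit 76) (nat_lit 0) (XT.lf (nat_lit 0) (nat_lit 9669296512) (nat_lit 152) (nat_lit 2112513379) (nat_lit 228) (nat_lit 20080041837) (nat_lit 40) (nat_lit 5) (nat_lit 42) (nat_lit 5) (nat_lit 43) (nat_lit 5) (nat_lit 403) (nat_lit 350) (nat_lit 267)) (XT.nd (nat_lit 78) (nat_lit 76) (nat_lit 0) (XT.lf (nat_lit 0) (nat_lit 20124955028) (nat_lit 228) (nat_lit 5027574927) (nat_lit 76) (nat_lit 7800995098) (nat_lit 40) (nat_lit 5) (nat_lit 43) (nat_lit 5) (nat_lit 41) (nat_lit 4) (nat_lit 404) (nat_lit 350) (nat_lit 266)) (XT.lf (nat_lit 0) (nat_lit 13360103199) (nat_lit 76) (nat_lit 15752598704) (nat_lit 152) (nat_lit 4975710513) (nat_lit 39) (nat_lit 5) (nat_lit 40) (nat_lit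 5) (nat_lit 41) (nat_lit 4) (nat_lit 405) (nat_lit 350) (nat_lit 265)))) (XT.nd (nat_lit 156) (nat_lit 76) (nat_lit 0) (XT.nd (nat_lit 78) (nat_lit 152) (nat_lit 0) (XT.lf (nat_lit 0) (nat_lit 3235960040) (nat_lit 152) (nat_lit 2515110591) (nat_lit 76) (nat_lit 29522882252) (nat_lit 38) (nat_lit 5) (nat_lit 40) (nat_lit 5) (nat_lit 39) (nat_lit 5) (nat_lit 406) (nat_lit 350) (nat_lit 264)) (XT.lf (nat_lit 0) (nat_lit 12021833707) (nat_lit 228) (nat_lit 19536299275) (nat_lit 76) (nat_lit 4940019378) (nat_lit 36) (nat_lit 5) (nat_lit 39) (nat_lit 5) (nat_lit 37) (nat_lit 4) (nat_lit 407) (nat_lit 350) (nat_lit 263))) (XT.nd (nat_lit 78) (nat_lit 76) (nat_lit 0) (XT.lf (nat_lit 0) (nat_lit 21369709394) (nat_lit 228) (nat_lit 403761091) (nat_lit 76) (nat_lit 16003958044) (nat_lit 36) (nat_lit 5) (nat_lit 39) (nat_lit 5) (nat_lit 37) (nat_lit 4) (nat_lit 408) (nat_lit 350) (nat_lit 262)) (XT.lf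 (nat_lit 0) (nat_lit 20309398444) (nat_lit 76) (nat_lit 11178510479) (nat_lit 152) (nat_lit 7617615116) (nat_lit 35) (nat_lit 5) (nat_lit 36) (nat_lit 5) (nat_lit 37) (nat_lit 4) (nat_lit 409) (nat_lit 350) (nat_lit 261))))))) (XT.nd (nat_lit 1092) (nat_lit 608) (nat_lit 0) (XT.nd (nat_lit 546) (nat_lit 304) (nat_lit 0) (XT.nd (nat_lit 234) (nat_lit 228) (nat_lit 0) (XT.nd (nat_lit 78) (nat_lit 76) (nat_lit 0) (XT.lf (nat_lit 0) (nat_lit 1571487060) (nat_lit 152) (nat_lit 6286672) (nat_lit 228) (nat_lit 38920125374) (nat_lit 32) (nat_lit 5) (nat_lit 34) (nat_lit 5) (nat_lit 35) (nat_lit 5) (nat_lit 410) (nat_lit 350) (nat_lit 260)) (XT.nd (nat_lit 78) (nat_lit 76) (nat_lit 0) (XT.lf (nat_lit 0) (nat_lit 11469498131) (nat_lit 228) (nat_lit 18673258100) (nat_lit 76) (nat_lit 11786266112) (nat_lit 32) (nat_lit 5) (nat_lit 35) (nat_lit 5) (nat_lit 33) (nat_lit 4) (nat_lit 411) (nat_lit 350) (nat_lit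 259)) (XT.lf (nat_lit 0) (nat_lit 2652420453) (nat_lit 76) (nat_lit 19231545931) (nat_lit 152) (nat_lit 21546329149) (nat_lit 31) (nat_lit 5) (nat_lit 32) (nat_lit 5) (nat_lit 33) (nat_lit 4) (nat_lit 412) (nat_lit 350) (nat_lit 258)))) (XT.nd (nat_lit 156) (nat_lit 152) (nat_lit 0) (XT.nd (nat_lit 78) (nat_lit 76) (nat_lit 0) (XT.lf (nat_lit 0) (nat_lit 25668154242) (nat_lit 76) (nat_lit 7454140525) (nat_lit 152) (nat_lit 11869182374) (nat_lit 31) (nat_lit 5) (nat_lit 32) (nat_lit 5) (nat_lit 33) (nat_lit 4) (nat_lit 413) (nat_lit 350) (nat_lit 257)) (XT.lf (nat_lit 0) (nat_lit 3206068850) (nat_lit 76) (nat_lit 41830568907) (nat_lit 76) (nat_lit 1588376682) (nat_lit 30) (nat_lit 4) (nat_lit 31) (nat_lit 5) (nat_lit 31) (nat_lit 4) (nat_lit 414) (nat_lit 350) (nat_lit 256))) (XT.nd (nat_lit 78) (nat_lit 76) (nat_lit 0) (XT.lf (nat_lit 0) (nat_lit 9354000383) (nat_lit 152) (nat_lit 21086220968)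 (nat_lit 76) (nat_lit 17870711907) (nat_lit 29) (nat_lit 5) (nat_lit 31) (nat_lit 5) (nat_lit 30) (nat_lit 4) (nat_lit 415) (nat_lit 350) (nat_lit 255)) (XT.lf (nat_lit 0) (nat_lit 2390916003) (nat_lit 76) (nat_lit 18424512184) (nat_lit 152) (nat_lit 29263153607) (nat_lit 28) (nat_lit 5) (nat_lit 29) (nat_lit 5) (nat_lit 30) (nat_lit 4) (nat_lit 416) (nat_lit 350) (nat_lit 254))))) (XT.nd (nat_lit 234) (nat_lit 152) (nat_lit 0) (XT.nd (nat_lit 78) (nat_lit 152) (nat_lit 0) (XT.lf (nat_lit 0) (nat_lit 27751632916) (nat_lit 76) (nat_lit 5443606089) (nat_lit 152) (nat_lit 18722109420) (nat_lit 28) (nat_lit 5) (nat_lit 29) (nat_lit 5) (nat_lit 30) (nat_lit 4) (nat_lit 417) (nat_lit 350) (nat_lit 253)) (XT.nd (nat_lit 78) (nat_lit 76) (nat_lit 0) (XT.lf (nat_lit 0) (nat_lit 395493892) (nat_lit 76) (nat_lit 45921144048) (nat_lit 76) (nat_lit 7525286758) (nat_lit 27) (nat_lit 4) (nat_lit 28) (nat_lit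 5) (nat_lit 28) (nat_lit 4) (nat_lit 418) (nat_lit 350) (nat_lit 252)) (XT.lf (nat_lit 0) (nat_lit 4589789099) (nat_lit 152) (nat_lit 29002248237) (nat_lit 76) (nat_lit 22242698217) (nat_lit 26) (nat_lit 5) (nat_lit 28) (nat_lit 5) (nat_lit 27) (nat_lit 4) (nat_lit 419) (nat_lit 350) (nat_lit 251)))) (XT.nd (nat_lit 156) (nat_lit 76) (nat_lit 0) (XT.nd (nat_lit 78) (nat_lit 76) (nat_lit 0) (XT.lf (nat_lit 0) (nat_lit 17046896794) (nat_lit 152) (nat_lit 3479899940) (nat_lit 76) (nat_lit 37394764126) (nat_lit 26) (nat_lit 5) (nat_lit 28) (nat_lit 5) (nat_lit 27) (nat_lit 4) (nat_lit 420) (nat_lit 350) (nat_lit 250)) (XT.lf (nat_lit 0) (nat_lit 24069238335) (nat_lit 76) (nat_lit 6423102207) (nat_lit 152) (nat_lit 29602113836) (nat_lit 25) (nat_lit 5) (nat_lit 26) (nat_lit 5) (nat_lit 27) (nat_lit 4) (nat_lit 421) (nat_lit 350) (nat_lit 249))) (XT.nd (nat_lit 78) (nat_lit 76) (nat_lit 0) (XT.lf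 (nat_lit 0) (nat_lit 44790618090) (nat_lit 152) (nat_lit 9408027814) (nat_lit 0) (nat_lit 8168319518) (nat_lit 25) (nat_lit 5) (nat_lit 27) (nat_lit 4) (nat_lit 25) (nat_lit 4) (nat_lit 422) (nat_lit 350) (nat_lit 248)) (XT.lf (nat_lit 0) (nat_lit 19024838505) (nat_lit 76) (nat_lit 41171523777) (nat_lit 76) (nat_lit 4537112987) (nat_lit 24) (nat_lit 4) (nat_lit 25) (nat_lit 5) (nat_lit 25) (nat_lit 4) (nat_lit 423) (nat_lit 350) (nat_lit 247)))))) (XT.nd (nat_lit 546) (nat_lit 228) (nat_lit 0) (XT.nd (nat_lit 234) (nat_lit 228) (nat_lit 0) (XT.nd (nat_lit 78) (nat_lit 76) (nat_lit 0) (XT.lf (nat_lit 0) (nat_lit 9013280228) (nat_lit 152) (nat_lit 18168721769) (nat_lit 76) (nat_lit 40021554122) (nat_lit 23) (nat_lit 5) (nat_lit 25) (nat_lit 5) (nat_lit 24) (nat_lit 4) (nat_lit 424) (nat_lit 350) (nat_lit 246)) (XT.nd (nat_lit 78) (nat_lit 0) (nat_lit 0) (XT.lf (nat_lit 0) (nat_lit 11008219553)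 (nat_lit 76) (nat_lit 12243074071) (nat_lit 152) (nat_lit 46534000347) (nat_lit 22) (nat_lit 5) (nat_lit 23) (nat_lit 5) (nat_lit 24) (nat_lit 4) (nat_lit 425) (nat_lit 350) (nat_lit 245)) (XT.lf (nat_lit 0) (nat_lit 38558442179) (nat_lit 152) (nat_lit 30282702283) (nat_lit 0) (nat_lit 3637113258) (nat_lit 22) (nat_lit 5) (nat_lit 24) (nat_lit 4) (nat_lit 22) (nat_lit 4) (nat_lit 426) (nat_lit 350) (nat_lit 244)))) (XT.nd (nat_lit 156) (nat_lit 152) (nat_lit 0) (XT.nd (nat_lit 78) (nat_lit 76) (nat_lit 0) (XT.lf (nat_lit 0) (nat_lit 54822837567) (nat_lit 152) (nat_lit 581419910) (nat_lit 0) (nat_lit 19892018405) (nat_lit 22) (nat_lit 5) (nat_lit 24) (nat_lit 4) (nat_lit 22) (nat_lit 4) (nat_lit 427) (nat_lit 350) (nat_lit 243)) (XT.lf (nat_lit 0) (nat_lit 31600037273) (nat_lit 76) (nat_lit 40785383708) (nat_lit 76) (nat_lit 5845526221) (nat_lit 21) (nat_lit 4) (nat_lit 22) (nat_lit 5) (nat_lit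 22) (nat_lit 4) (nat_lit 428) (nat_lit 350) (nat_lit 242))) (XT.nd (nat_lit 78) (nat_lit 76) (nat_lit 0) (XT.lf (nat_lit 0) (nat_lit 9210906062) (nat_lit 152) (nat_lit 16066107987) (nat_lit 76) (nat_lit 56027830551) (nat_lit 20) (nat_lit 5) (nat_lit 22) (nat_lit 5) (nat_lit 21) (nat_lit 4) (nat_lit 429) (nat_lit 350) (nat_lit 241)) (XT.lf (nat_lit 0) (nat_lit 16441820087) (nat_lit 76) (nat_lit 8630610902) (nat_lit 152) (nat_lit 59442779082) (nat_lit 19) (nat_lit 5) (nat_lit 20) (nat_lit 5) (nat_lit 21) (nat_lit 4) (nat_lit 430) (nat_lit 350) (nat_lit 240))))) (XT.nd (nat_lit 234) (nat_lit 152) (nat_lit 0) (XT.nd (nat_lit 78) (nat_lit 76) (nat_lit 0) (XT.lf (nat_lit 0) (nat_lit 42133765521) (nat_lit 152) (nat_lit 36897722924) (nat_lit 0) (nat_lit 8834269249) (nat_lit 19) (nat_lit 5) (nat_lit 21) (nat_lit 4) (nat_lit 19) (nat_lit 4) (nat_lit 431) (nat_lit 350) (nat_lit 239)) (XT.nd (nat_lit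 78) (nat_lit 76) (nat_lit 0) (XT.lf (nat_lit 0) (nat_lit 60182072934) (nat_lit 152) (nat_lit 4319570077) (nat_lit 0) (nat_lit 26875494898) (nat_lit 19) (nat_lit 5) (nat_lit 21) (nat_lit 4) (nat_lit 19) (nat_lit 4) (nat_lit 432) (nat_lit 350) (nat_lit 238)) (XT.lf (nat_lit 0) (nat_lit 30861132582) (nat_lit 76) (nat_lit 48746273550) (nat_lit 76) (nat_lit 15432950977) (nat_lit 18) (nat_lit 4) (nat_lit 19) (nat_lit 5) (nat_lit 19) (nat_lit 4) (nat_lit 433) (nat_lit 350) (nat_lit 237)))) (XT.nd (nat_lit 156) (nat_lit 0) (nat_lit 0) (XT.nd (nat_lit 78) (nat_lit 76) (nat_lit 0) (XT.lf (nat_lit 0) (nat_lit 1148654377) (nat_lit 152) (nat_lit 30965004467) (nat_lit 76) (nat_lit 66768849426) (nat_lit 17) (nat_lit 5) (nat_lit 19) (nat_lit 5) (nat_lit 18) (nat_lit 4) (nat_lit 434) (nat_lit 350) (nat_lit 236)) (XT.lf (nat_lit 0) (nat_lit 3763951593) (nat_lit 76) (nat_lit 14328641103) (nat_lit 152) (nat_lit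 84808929708) (nat_lit 16) (nat_lit 5) (nat_lit 17) (nat_lit 5) (nat_lit 18) (nat_lit 4) (nat_lit 435) (nat_lit 350) (nat_lit 235))) (XT.nd (nat_lit 78) (nat_lit 0) (nat_lit 0) (XT.lf (nat_lit 0) (nat_lit 36477733861) (nat_lit 152) (nat_lit 65880785937) (nat_lit 0) (nat_lit 4733267557) (nat_lit 16) (nat_lit 5) (nat_lit 18) (nat_lit 4) (nat_lit 16) (nat_lit 4) (nat_lit 436) (nat_lit 350) (nat_lit 234)) (XT.lf (nat_lit 0) (nat_lit 56010508154) (nat_lit 152) (nat_lit 31208881655) (nat_lit 0) (nat_lit 24260757329) (nat_lit 16) (nat_lit 5) (nat_lit 18) (nat_lit 4) (nat_lit 16) (nat_lit 4) (nat_lit 437) (nat_lit 350) (nat_lit 233))))))))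
noncomputable def xc124 : XT := (XT.nd (nat_lit 2106) (nat_lit 228) (nat_lit 0) (XT.nd (nat_lit 1014) (nat_lit 228) (nat_lit 0) (XT.nd (nat_lit 468) (nat_lit 228) (nat_lit 0) (XT.nd (nat_lit 234) (nat_lit 152) (nat_lit 0) (XT.nd (nat_lit 78) (nat_lit 0) (nat_lit 0) (XT.lf (nat_lit 0) (nat_lit 5355824256) (nat_lit 76) (nat_lit 71241507107) (nat_lit 76) (nat_lit 39486723405) (nat_lit 15) (nat_lit 4) (nat_lit 16) (nat_lit 5) (nat_lit 16) (nat_lit 4) (nat_lit 438) (nat_lit 350) (nat_lit 232)) (XT.nd (nat_lit 78) (nat_lit 0) (nat_lit 0) (XT.lf (nat_lit 0) (nat_lit 44820250943) (nat_lit 76) (nat_lit 53915681145) (nat_lit 76) (nat_lit 22156104225) (nat_lit 15) (nat_lit 4) (nat_lit 16) (nat_lit 5) (nat_lit 16) (nat_lit 4) (nat_lit 439) (nat_lit 350) (nat_lit 231)) (XT.lf (nat_lit 0) (nat_lit 86246454756) (nat_lit 76) (nat_lit 35729197466) (nat_lit 76) (nat_lit 3965055579) (nat_lit 15) (nat_lit 4)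 (nat_lit 16) (nat_lit 5) (nat_lit 16) (nat_lit 4) (nat_lit 440) (nat_lit 350) (nat_lit 230)))) (XT.nd (nat_lit 78) (nat_lit 76) (nat_lit 0) (XT.lf (nat_lit 0) (nat_lit 14645488562) (nat_lit 152) (nat_lit 1745237923) (nat_lit 76) (nat_lit 114839552516) (nat_lit 14) (nat_lit 5) (nat_lit 16) (nat_lit 5) (nat_lit 15) (nat_lit 4) (nat_lit 441) (nat_lit 350) (nat_lit 229)) (XT.nd (nat_lit 78) (nat_lit 0) (nat_lit 0) (XT.lf (nat_lit 0) (nat_lit 34733425901) (nat_lit 152) (nat_lit 97539868963) (nat_lit 0) (nat_lit 4473778248) (nat_lit 13) (nat_lit 5) (nat_lit 15) (nat_lit 4) (nat_lit 13) (nat_lit 4) (nat_lit 442) (nat_lit 350) (nat_lit 228)) (XT.lf (nat_lit 0) (nat_lit 56119157357) (nat_lit 152) (nat_lit 60550125891) (nat_lit 0) (nat_lit 25855754093) (nat_lit 13) (nat_lit 5) (nat_lit 15) (nat_lit 4) (nat_lit 13) (nat_lit 4) (nat_lit 443) (nat_lit 350) (nat_lit 227))))) (XT.nd (nat_lit 234) (nat_lit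 152) (nat_lit 0) (XT.nd (nat_lit 78) (nat_lit 76) (nat_lit 0) (XT.lf (nat_lit 0) (nat_lit 78569085703) (nat_lit 152) (nat_lit 21720963156) (nat_lit 0) (nat_lit 48302105667) (nat_lit 13) (nat_lit 5) (nat_lit 15) (nat_lit 4) (nat_lit 13) (nat_lit 4) (nat_lit 444) (nat_lit 350) (nat_lit 226)) (XT.nd (nat_lit 78) (nat_lit 0) (nat_lit 0) (XT.lf (nat_lit 0) (nat_lit 19669620316) (nat_lit 76) (nat_lit 82774140731) (nat_lit 76) (nat_lit 52503754246) (nat_lit 12) (nat_lit 4) (nat_lit 13) (nat_lit 5) (nat_lit 13) (nat_lit 4) (nat_lit 445) (nat_lit 350) (nat_lit 225)) (XT.lf (nat_lit 0) (nat_lit 63874402317) (nat_lit 76) (nat_lit 64000859090) (nat_lit 76) (nat_lit 33727228367) (nat_lit 12) (nat_lit 4) (nat_lit 13) (nat_lit 5) (nat_lit 13) (nat_lit 4) (nat_lit 446) (nat_lit 350) (nat_lit 224)))) (XT.nd (nat_lit 156) (nat_lit 76) (nat_lit 0) (XT.nd (nat_lit 78) (nat_lit 76) (nat_lit 0) (XT.lf (nat_lit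 0) (nat_lit 110280439190) (nat_lit 76) (nat_lit 44293360667) (nat_lit 76) (nat_lit 14016640194) (nat_lit 12) (nat_lit 4) (nat_lit 13) (nat_lit 5) (nat_lit 13) (nat_lit 4) (nat_lit 447) (nat_lit 350) (nat_lit 223)) (XT.lf (nat_lit 0) (nat_lit 6461300470) (nat_lit 152) (nat_lit 17033997128) (nat_lit 76) (nat_lit 152427495778) (nat_lit 11) (nat_lit 5) (nat_lit 13) (nat_lit 5) (nat_lit 12) (nat_lit 4) (nat_lit 448) (nat_lit 350) (nat_lit 222))) (XT.nd (nat_lit 78) (nat_lit 0) (nat_lit 0) (XT.lf (nat_lit 0) (nat_lit 26929655501) (nat_lit 76) (nat_lit 978696248) (nat_lit 152) (nat_lit 155681110533) (nat_lit 10) (nat_lit 5) (nat_lit 11) (nat_lit 5) (nat_lit 12) (nat_lit 4) (nat_lit 449) (nat_lit 350) (nat_lit 221)) (XT.lf (nat_lit 0) (nat_lit 51070634132) (nat_lit 152) (nat_lit 118309037990) (nat_lit 0) (nat_lit 22227648771) (nat_lit 10) (nat_lit 5) (nat_lit 12) (nat_lit 4) (nat_lit 10) (nat_lit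 4) (nat_lit 450) (nat_lit 350) (nat_lit 220)))))) (XT.nd (nat_lit 546) (nat_lit 152) (nat_lit 0) (XT.nd (nat_lit 234) (nat_lit 0) (nat_lit 0) (XT.nd (nat_lit 78) (nat_lit 76) (nat_lit 0) (XT.lf (nat_lit 0) (nat_lit 75403099567) (nat_lit 152) (nat_lit 78064676294) (nat_lit 0) (nat_lit 46557693306) (nat_lit 10) (nat_lit 5) (nat_lit 12) (nat_lit 4) (nat_lit 10) (nat_lit 4) (nat_lit 451) (nat_lit 350) (nat_lit 219)) (XT.nd (nat_lit 78) (nat_lit 76) (nat_lit 0) (XT.lf (nat_lit 0) (nat_lit 100948402304) (nat_lit 152) (nat_lit 35815621593) (nat_lit 0) (nat_lit 72100690424) (nat_lit 10) (nat_lit 5) (nat_lit 12) (nat_lit 4) (nat_lit 10) (nat_lit 4) (nat_lit 452) (nat_lit 350) (nat_lit 218)) (XT.lf (nat_lit 0) (nat_lit 8821047716) (nat_lit 76) (nat_lit 119084038053) (nat_lit 76) (nat_lit 90234130345) (nat_lit 9) (nat_lit 4) (nat_lit 10) (nat_lit 5) (nat_lit 10) (nat_lit 4) (nat_lit 453) (nat_lit 350)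 (nat_lit 217)))) (XT.nd (nat_lit 156) (nat_lit 0) (nat_lit 0) (XT.nd (nat_lit 78) (nat_lit 0) (nat_lit 0) (XT.lf (nat_lit 0) (nat_lit 56925936849) (nat_lit 76) (nat_lit 99886677366) (nat_lit 76) (nat_lit 71034678394) (nat_lit 9) (nat_lit 4) (nat_lit 10) (nat_lit 5) (nat_lit 10) (nat_lit 4) (nat_lit 454) (nat_lit 350) (nat_lit 216)) (XT.lf (nat_lit 0) (nat_lit 107429355058) (nat_lit 76) (nat_lit 79732788717) (nat_lit 76) (nat_lit 50878798065) (nat_lit 9) (nat_lit 4) (nat_lit 10) (nat_lit 5) (nat_lit 10) (nat_lit 4) (nat_lit 455) (nat_lit 350) (nat_lit 215))) (XT.nd (nat_lit 78) (nat_lit 0) (nat_lit 0) (XT.lf (nat_lit 0) (nat_lit 160451548577) (nat_lit 76) (nat_lit 58574386658) (nat_lit 76) (nat_lit 29718499167) (nat_lit 9) (nat_lit 4) (nat_lit 10) (nat_lit 5) (nat_lit 10) (nat_lit 4) (nat_lit 456) (nat_lit 350) (nat_lit 214)) (XT.lf (nat_lit 0) (nat_lit 216118760724) (nat_lit 76) (nat_lit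 36361094039) (nat_lit 76) (nat_lit 7503400035) (nat_lit 9) (nat_lit 4) (nat_lit 10) (nat_lit 5) (nat_lit 10) (nat_lit 4) (nat_lit 457) (nat_lit 350) (nat_lit 213))))) (XT.nd (nat_lit 234) (nat_lit 0) (nat_lit 0) (XT.nd (nat_lit 78) (nat_lit 0) (nat_lit 0) (XT.lf (nat_lit 0) (nat_lit 2616117396) (nat_lit 76) (nat_lit 12737800598) (nat_lit 152) (nat_lit 256415852635) (nat_lit 7) (nat_lit 5) (nat_lit 8) (nat_lit 5) (nat_lit 9) (nat_lit 4) (nat_lit 458) (nat_lit 350) (nat_lit 212)) (XT.nd (nat_lit 78) (nat_lit 0) (nat_lit 0) (XT.lf (nat_lit 0) (nat_lit 40042419129) (nat_lit 152) (nat_lit 231494316939) (nat_lit 0) (nat_lit 12555701936) (nat_lit 7) (nat_lit 5) (nat_lit 9) (nat_lit 4) (nat_lit 7) (nat_lit 4) (nat_lit 459) (nat_lit 350) (nat_lit 211)) (XT.lf (nat_lit 0) (nat_lit 66171344331) (nat_lit 152) (nat_lit 192166453661) (nat_lit 0) (nat_lit 38683140915) (nat_lit 7) (nat_lit 5) (nat_lit 9)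 (nat_lit 4) (nat_lit 7) (nat_lit 4) (nat_lit 460) (nat_lit 350) (nat_lit 210)))) (XT.nd (nat_lit 156) (nat_lit 0) (nat_lit 0) (XT.nd (nat_lit 78) (nat_lit 0) (nat_lit 0) (XT.lf (nat_lit 0) (nat_lit 93604032561) (nat_lit 152) (nat_lit 150877552865) (nat_lit 0) (nat_lit 66114413695) (nat_lit 7) (nat_lit 5) (nat_lit 9) (nat_lit 4) (nat_lit 7) (nat_lit 4) (nat_lit 461) (nat_lit 350) (nat_lit 209)) (XT.lf (nat_lit 0) (nat_lit 122405799743) (nat_lit 152) (nat_lit 107529307644) (nat_lit 0) (nat_lit 94914832829) (nat_lit 7) (nat_lit 5) (nat_lit 9) (nat_lit 4) (nat_lit 7) (nat_lit 4) (nat_lit 462) (nat_lit 350) (nat_lit 208))) (XT.nd (nat_lit 78) (nat_lit 0) (nat_lit 0) (XT.lf (nat_lit 0) (nat_lit 152645221514) (nat_lit 152) (nat_lit 62018507891) (nat_lit 0) (nat_lit 125152970745) (nat_lit 7) (nat_lit 5) (nat_lit 9) (nat_lit 4) (nat_lit 7) (nat_lit 4) (nat_lit 463) (nat_lit 350) (nat_lit 207)) (XT.lf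 (nat_lit 0) (nat_lit 184394296496) (nat_lit 152) (nat_lit 14236794559) (nat_lit 0) (nat_lit 156900823008) (nat_lit 7) (nat_lit 5) (nat_lit 9) (nat_lit 4) (nat_lit 7) (nat_lit 4) (nat_lit 464) (nat_lit 350) (nat_lit 206))))))) (XT.nd (nat_lit 1014) (nat_lit 0) (nat_lit 0) (XT.nd (nat_lit 468) (nat_lit 152) (nat_lit 0) (XT.nd (nat_lit 234) (nat_lit 0) (nat_lit 0) (XT.nd (nat_lit 78) (nat_lit 0) (nat_lit 0) (XT.lf (nat_lit 0) (nat_lit 37117593120) (nat_lit 76) (nat_lit 181190534256) (nat_lit 76) (nat_lit 153695896274) (nat_lit 6) (nat_lit 4) (nat_lit 7) (nat_lit 5) (nat_lit 7) (nat_lit 4) (nat_lit 465) (nat_lit 350) (nat_lit 205)) (XT.nd (nat_lit 78) (nat_lit 0) (nat_lit 0) (XT.lf (nat_lit 0) (nat_lit 91529634506) (nat_lit 76) (nat_lit 162626952234) (nat_lit 76) (nat_lit 135131205210) (nat_lit 6) (nat_lit 4) (nat_lit 7) (nat_lit 5) (nat_lit 7) (nat_lit 4) (nat_lit 466) (nat_lit 350) (nat_lit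 204)) (XT.lf (nat_lit 0) (nat_lit 148658149355) (nat_lit 76) (nat_lit 143137252990) (nat_lit 76) (nat_lit 115640449735) (nat_lit 6) (nat_lit 4) (nat_lit 7) (nat_lit 5) (nat_lit 7) (nat_lit 4) (nat_lit 467) (nat_lit 350) (nat_lit 203)))) (XT.nd (nat_lit 78) (nat_lit 0) (nat_lit 0) (XT.lf (nat_lit 0) (nat_lit 208639157940) (nat_lit 76) (nat_lit 122675032477) (nat_lit 76) (nat_lit 95177223288) (nat_lit 6) (nat_lit 4) (nat_lit 7) (nat_lit 5) (nat_lit 7) (nat_lit 4) (nat_lit 468) (nat_lit 350) (nat_lit 202)) (XT.nd (nat_lit 78) (nat_lit 0) (nat_lit 0) (XT.lf (nat_lit 0) (nat_lit 271615472186) (nat_lit 76) (nat_lit 101191571123) (nat_lit 76) (nat_lit 73692803902) (nat_lit 6) (nat_lit 4) (nat_lit 7) (nat_lit 5) (nat_lit 7) (nat_lit 4) (nat_lit 469) (nat_lit 350) (nat_lit 201)) (XT.lf (nat_lit 0) (nat_lit 337737035699) (nat_lit 76) (nat_lit 78635717829) (nat_lit 76) (nat_lit 51136038196) (nat_lit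 6) (nat_lit 4) (nat_lit 7) (nat_lit 5) (nat_lit 7) (nat_lit 4) (nat_lit 470) (nat_lit 350) (nat_lit 200))))) (XT.nd (nat_lit 234) (nat_lit 0) (nat_lit 0) (XT.nd (nat_lit 78) (nat_lit 152) (nat_lit 0) (XT.lf (nat_lit 0) (nat_lit 407161280773) (nat_lit 76) (nat_lit 54953768183) (nat_lit 76) (nat_lit 27453219587) (nat_lit 6) (nat_lit 4) (nat_lit 7) (nat_lit 5) (nat_lit 7) (nat_lit 4) (nat_lit 471) (nat_lit 350) (nat_lit 199)) (XT.nd (nat_lit 78) (nat_lit 152) (nat_lit 0) (XT.lf (nat_lit 0) (nat_lit 480053503229) (nat_lit 76) (nat_lit 30089336591) (nat_lit 76) (nat_lit 2587960410) (nat_lit 6) (nat_lit 4) (nat_lit 7) (nat_lit 5) (nat_lit 7) (nat_lit 4) (nat_lit 472) (nat_lit 350) (nat_lit 198)) (XT.lf (nat_lit 0) (nat_lit 19802321666) (nat_lit 76) (nat_lit 3273037368) (nat_lit 152) (nat_lit 513942358318) (nat_lit 4) (nat_lit 5) (nat_lit 5) (nat_lit 5) (nat_lit 6) (nat_lit 4) (nat_lit 473) (nat_lit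 350) (nat_lit 197)))) (XT.nd (nat_lit 156) (nat_lit 0) (nat_lit 0) (XT.nd (nat_lit 78) (nat_lit 0) (nat_lit 0) (XT.lf (nat_lit 0) (nat_lit 50884295153) (nat_lit 152) (nat_lit 486894050022) (nat_lit 0) (nat_lit 24691042773) (nat_lit 4) (nat_lit 5) (nat_lit 6) (nat_lit 4) (nat_lit 4) (nat_lit 4) (nat_lit 474) (nat_lit 350) (nat_lit 196)) (XT.lf (nat_lit 0) (nat_lit 80135843856) (nat_lit 152) (nat_lit 455113279359) (nat_lit 0) (nat_lit 53941910620) (nat_lit 4) (nat_lit 5) (nat_lit 6) (nat_lit 4) (nat_lit 4) (nat_lit 4) (nat_lit 475) (nat_lit 350) (nat_lit 195))) (XT.nd (nat_lit 78) (nat_lit 0) (nat_lit 0) (XT.lf (nat_lit 0) (nat_lit 110848550402) (nat_lit 152) (nat_lit 421746313908) (nat_lit 0) (nat_lit 84653968732) (nat_lit 4) (nat_lit 5) (nat_lit 6) (nat_lit 4) (nat_lit 4) (nat_lit 4) (nat_lit 476) (nat_lit 350) (nat_lit 194)) (XT.lf (nat_lit 0) (nat_lit 143095540283) (nat_lit 152) (nat_lit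 386713708515) (nat_lit 0) (nat_lit 116900341057) (nat_lit 4) (nat_lit 5) (nat_lit 6) (nat_lit 4) (nat_lit 4) (nat_lit 4) (nat_lit 477) (nat_lit 350) (nat_lit 193)))))) (XT.nd (nat_lit 43368) (nat_lit 0) (nat_lit 9728) (XT.nd (nat_lit 234) (nat_lit 0) (nat_lit 0) (XT.nd (nat_lit 78) (nat_lit 0) (nat_lit 0) (XT.lf (nat_lit 0) (nat_lit 176953592047) (nat_lit 152) (nat_lit 349932052215) (nat_lit 0) (nat_lit 150757804672) (nat_lit 4) (nat_lit 5) (nat_lit 6) (nat_lit 4) (nat_lit 4) (nat_lit 4) (nat_lit 478) (nat_lit 350) (nat_lit 192)) (XT.nd (nat_lit 78) (nat_lit 0) (nat_lit 0) (XT.lf (nat_lit 0) (nat_lit 212503320102) (nat_lit 152) (nat_lit 311313769634) (nat_lit 0) (nat_lit 186306972585) (nat_lit 4) (nat_lit 5) (nat_lit 6) (nat_lit 4) (nat_lit 4) (nat_lit 4) (nat_lit 479) (nat_lit 350) (nat_lit 191)) (XT.lf (nat_lit 0) (nat_lit 249829366657) (nat_lit 152) (nat_lit 270766912482) (nat_lit 0) (nat_lit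 223632485672) (nat_lit 4) (nat_lit 5) (nat_lit 6) (nat_lit 4) (nat_lit 4) (nat_lit 4) (nat_lit 480) (nat_lit 350) (nat_lit 190)))) (XT.nd (nat_lit 42978) (nat_lit 0) (nat_lit 10184) (XT.nd (nat_lit 78) (nat_lit 0) (nat_lit 0) (XT.lf (nat_lit 0) (nat_lit 289020603253) (nat_lit 152) (nat_lit 228194940622) (nat_lit 0) (nat_lit 262823214203) (nat_lit 4) (nat_lit 5) (nat_lit 6) (nat_lit 4) (nat_lit 4) (nat_lit 4) (nat_lit 481) (nat_lit 350) (nat_lit 189)) (XT.lf (nat_lit 0) (nat_lit 330170342358) (nat_lit 152) (nat_lit 183496492216) (nat_lit 0) (nat_lit 303972469436) (nat_lit 4) (nat_lit 5) (nat_lit 6) (nat_lit 4) (nat_lit 4) (nat_lit 4) (nat_lit 482) (nat_lit 350) (nat_lit 188))) (XT.nd (nat_lit 78) (nat_lit 684) (nat_lit 0) (XT.lf (nat_lit 0) (nat_lit 1653082326) (nat_lit 0) (nat_lit 1653082326) (nat_lit 532) (nat_lit 616691457) (nat_lit 147) (nat_lit 5) (nat_lit 147) (nat_lit 3) (nat_lit 154)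 (nat_lit 3) (nat_lit 351) (nat_lit 351) (nat_lit 318)) (XT.lf (nat_lit 0) (nat_lit 31375105) (nat_lit 684) (nat_lit 695924461) (nat_lit 684) (nat_lit 7251990242) (nat_lit 138) (nat_lit 3) (nat_lit 147) (nat_lit 3) (nat_lit 147) (nat_lit 5) (nat_lit 352) (nat_lit 351) (nat_lit 317))))) (XT.nd (nat_lit 234) (nat_lit 532) (nat_lit 0) (XT.nd (nat_lit 78) (nat_lit 0) (nat_lit 0) (XT.lf (nat_lit 0) (nat_lit 1323154249) (nat_lit 608) (nat_lit 4766853324) (nat_lit 684) (nat_lit 2028317015) (nat_lit 139) (nat_lit 5) (nat_lit 147) (nat_lit 5) (nat_lit 148) (nat_lit 5) (nat_lit 353) (nat_lit 351) (nat_lit 316)) (XT.nd (nat_lit 78) (nat_lit 0) (nat_lit 0) (XT.lf (nat_lit 0) (nat_lit 2626814377) (nat_lit 608) (nat_lit 696428862) (nat_lit 684) (nat_lit 4943751773) (nat_lit 139) (nat_lit 5) (nat_lit 147) (nat_lit 5) (nat_lit 148) (nat_lit 5) (nat_lit 354) (nat_lit 351) (nat_lit 315)) (XT.lf (nat_lit 76)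 (nat_lit 3650558842) (nat_lit 0) (nat_lit 329132270) (nat_lit 684) (nat_lit 4444252360) (nat_lit 140) (nat_lit 5) (nat_lit 139) (nat_lit 5) (nat_lit 148) (nat_lit 5) (nat_lit 355) (nat_lit 351) (nat_lit 314)))) (XT.nd (nat_lit 156) (nat_lit 608) (nat_lit 0) (XT.nd (nat_lit 78) (nat_lit 0) (nat_lit 0) (XT.lf (nat_lit 0) (nat_lit 5386406842) (nat_lit 608) (nat_lit 440280574) (nat_lit 684) (nat_lit 2762786175) (nat_lit 140) (nat_lit 5) (nat_lit 148) (nat_lit 5) (nat_lit 149) (nat_lit 5) (nat_lit 356) (nat_lit 351) (nat_lit 313)) (XT.lf (nat_lit 76) (nat_lit 4193474889) (nat_lit 0) (nat_lit 2674434155) (nat_lit 684) (nat_lit 1895190540) (nat_lit 141) (nat_lit 5) (nat_lit 140) (nat_lit 5) (nat_lit 149) (nat_lit 5) (nat_lit 357) (nat_lit 351) (nat_lit 312))) (XT.nd (nat_lit 78) (nat_lit 684) (nat_lit 0) (XT.lf (nat_lit 76) (nat_lit 73840490) (nat_lit 0) (nat_lit 8304665273) (nat_lit 684) (nat_lit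 569190046) (nat_lit 142) (nat_lit 5) (nat_lit 141) (nat_lit 5) (nat_lit 150) (nat_lit 5) (nat_lit 358) (nat_lit 351) (nat_lit 311)) (XT.lf (nat_lit 0) (nat_lit 856889455) (nat_lit 684) (nat_lit 4136468831) (nat_lit 760) (nat_lit 4144551021) (nat_lit 132) (nat_lit 5) (nat_lit 141) (nat_lit 5) (nat_lit 142) (nat_lit 5) (nat_lit 359) (nat_lit 351) (nat_lit 310))))))))
noncomputable def xc125 : XT := (XT.nd (nat_lit 2106) (nat_lit 2356) (nat_lit 0) (XT.nd (nat_lit 1014) (nat_lit 2356) (nat_lit 0) (XT.nd (nat_lit 468) (nat_lit 1520) (nat_lit 0) (XT.nd (nat_lit 234) (nat_lit 836) (nat_lit 0) (XT.nd (nat_lit 78) (nat_lit 608) (nat_lit 0) (XT.lf (nat_lit 76) (nat_lit 807658990) (nat_lit 0) (nat_lit 1480688580) (nat_lit 760) (nat_lit 7051193673) (nat_lit 133) (nat_lit 5) (nat_lit 132) (nat_lit 5) (nat_lit 142) (nat_lit 5) (nat_lit 360) (nat_lit 351) (nat_lit 309)) (XT.nd (nat_lit 78) (nat_lit 684)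 (nat_lit 0) (XT.lf (nat_lit 0) (nat_lit 3839930812) (nat_lit 684) (nat_lit 3489735816) (nat_lit 76) (nat_lit 2219193366) (nat_lit 133) (nat_lit 5) (nat_lit 142) (nat_lit 5) (nat_lit 134) (nat_lit 5) (nat_lit 361) (nat_lit 351) (nat_lit 308)) (XT.lf (nat_lit 0) (nat_lit 1790926829) (nat_lit 684) (nat_lit 3676004840) (nat_lit 760) (nat_lit 4301852359) (nat_lit 124) (nat_lit 5) (nat_lit 133) (nat_lit 5) (nat_lit 134) (nat_lit 5) (nat_lit 362) (nat_lit 351) (nat_lit 307)))) (XT.nd (nat_lit 78) (nat_lit 836) (nat_lit 0) (XT.lf (nat_lit 0) (nat_lit 7185436146) (nat_lit 760) (nat_lit 2592088770) (nat_lit 76) (nat_lit 221701446) (nat_lit 124) (nat_lit 5) (nat_lit 134) (nat_lit 5) (nat_lit 125) (nat_lit 5) (nat_lit 363) (nat_lit 351) (nat_lit 306)) (XT.nd (nat_lit 78) (nat_lit 76) (nat_lit 0) (XT.lf (nat_lit 0) (nat_lit 3054127660) (nat_lit 760) (nat_lit 5993761192) (nat_lit 836) (nat_lit 1190429170)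 (nat_lit 114) (nat_lit 5) (nat_lit 124) (nat_lit 5) (nat_lit 125) (nat_lit 5) (nat_lit 364) (nat_lit 351) (nat_lit 305)) (XT.lf (nat_lit 0) (nat_lit 493188950) (nat_lit 836) (nat_lit 1470499461) (nat_lit 76) (nat_lit 8525523080) (nat_lit 113) (nat_lit 5) (nat_lit 124) (nat_lit 5) (nat_lit 114) (nat_lit 5) (nat_lit 365) (nat_lit 351) (nat_lit 304))))) (XT.nd (nat_lit 234) (nat_lit 760) (nat_lit 0) (XT.nd (nat_lit 78) (nat_lit 380) (nat_lit 0) (XT.lf (nat_lit 0) (nat_lit 2283186120) (nat_lit 456) (nat_lit 6175378746) (nat_lit 76) (nat_lit 2290023284) (nat_lit 108) (nat_lit 5) (nat_lit 114) (nat_lit 5) (nat_lit 109) (nat_lit 5) (nat_lit 366) (nat_lit 351) (nat_lit 303)) (XT.nd (nat_lit 78) (nat_lit 380) (nat_lit 0) (XT.lf (nat_lit 0) (nat_lit 4174998461) (nat_lit 456) (nat_lit 128686205) (nat_lit 76) (nat_lit 6716656542) (nat_lit 108) (nat_lit 5) (nat_lit 114) (nat_lit 5) (nat_lit 109) (nat_lit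 5) (nat_lit 367) (nat_lit 351) (nat_lit 302)) (XT.lf (nat_lit 0) (nat_lit 6220510926) (nat_lit 456) (nat_lit 4925197824) (nat_lit 76) (nat_lit 157039915) (nat_lit 103) (nat_lit 5) (nat_lit 109) (nat_lit 5) (nat_lit 104) (nat_lit 5) (nat_lit 368) (nat_lit 351) (nat_lit 301)))) (XT.nd (nat_lit 156) (nat_lit 380) (nat_lit 0) (XT.nd (nat_lit 78) (nat_lit 0) (nat_lit 0) (XT.lf (nat_lit 0) (nat_lit 1547650354) (nat_lit 380) (nat_lit 6875880539) (nat_lit 456) (nat_lit 3173005169) (nat_lit 98) (nat_lit 5) (nat_lit 103) (nat_lit 5) (nat_lit 104) (nat_lit 5) (nat_lit 369) (nat_lit 351) (nat_lit 300)) (XT.lf (nat_lit 0) (nat_lit 8470173628) (nat_lit 380) (nat_lit 2309523971) (nat_lit 456) (nat_lit 1123185599) (nat_lit 98) (nat_lit 5) (nat_lit 103) (nat_lit 5) (nat_lit 104) (nat_lit 5) (nat_lit 370) (nat_lit 351) (nat_lit 299))) (XT.nd (nat_lit 78) (nat_lit 0) (nat_lit 0) (XT.lf (nat_lit 0) (nat_lit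 1052656467) (nat_lit 380) (nat_lit 8694548321) (nat_lit 76) (nat_lit 2473734310) (nat_lit 93) (nat_lit 5) (nat_lit 98) (nat_lit 5) (nat_lit 94) (nat_lit 5) (nat_lit 371) (nat_lit 351) (nat_lit 298)) (XT.lf (nat_lit 0) (nat_lit 3358453584) (nat_lit 380) (nat_lit 1701844532) (nat_lit 76) (nat_lit 7490750977) (nat_lit 93) (nat_lit 5) (nat_lit 98) (nat_lit 5) (nat_lit 94) (nat_lit 5) (nat_lit 372) (nat_lit 351) (nat_lit 297)))))) (XT.nd (nat_lit 546) (nat_lit 1216) (nat_lit 0) (XT.nd (nat_lit 234) (nat_lit 608) (nat_lit 0) (XT.nd (nat_lit 78) (nat_lit 228) (nat_lit 0) (XT.lf (nat_lit 0) (nat_lit 5782475898) (nat_lit 304) (nat_lit 51117384) (nat_lit 380) (nat_lit 7061385250) (nat_lit 89) (nat_lit 5) (nat_lit 93) (nat_lit 5) (nat_lit 94) (nat_lit 5) (nat_lit 373) (nat_lit 351) (nat_lit 296)) (XT.nd (nat_lit 78) (nat_lit 0) (nat_lit 0) (XT.lf (nat_lit 0) (nat_lit 330147951) (nat_lit 228) (nat_lit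 8182832528) (nat_lit 304) (nat_lit 4739115230) (nat_lit 86) (nat_lit 5) (nat_lit 89) (nat_lit 5) (nat_lit 90) (nat_lit 5) (nat_lit 374) (nat_lit 351) (nat_lit 295)) (XT.lf (nat_lit 0) (nat_lit 8347646133) (nat_lit 228) (nat_lit 3065694440) (nat_lit 304) (nat_lit 2209393035) (nat_lit 86) (nat_lit 5) (nat_lit 89) (nat_lit 5) (nat_lit 90) (nat_lit 5) (nat_lit 375) (nat_lit 351) (nat_lit 294)))) (XT.nd (nat_lit 156) (nat_lit 228) (nat_lit 0) (XT.nd (nat_lit 78) (nat_lit 0) (nat_lit 0) (XT.lf (nat_lit 0) (nat_lit 479657054) (nat_lit 380) (nat_lit 11253581108) (nat_lit 76) (nat_lit 2275972946) (nat_lit 81) (nat_lit 5) (nat_lit 86) (nat_lit 5) (nat_lit 82) (nat_lit 5) (nat_lit 376) (nat_lit 351) (nat_lit 293)) (XT.lf (nat_lit 0) (nat_lit 3337557809) (nat_lit 380) (nat_lit 3170655438) (nat_lit 76) (nat_lit 7899568837) (nat_lit 81) (nat_lit 5) (nat_lit 86) (nat_lit 5) (nat_lit 82) (nat_lit 5) (nat_lit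 377) (nat_lit 351) (nat_lit 292))) (XT.nd (nat_lit 78) (nat_lit 0) (nat_lit 0) (XT.lf (nat_lit 0) (nat_lit 5449707013) (nat_lit 228) (nat_lit 942865391) (nat_lit 304) (nat_lit 8431010639) (nat_lit 78) (nat_lit 5) (nat_lit 81) (nat_lit 5) (nat_lit 82) (nat_lit 5) (nat_lit 378) (nat_lit 351) (nat_lit 291)) (XT.lf (nat_lit 0) (nat_lit 9701237562) (nat_lit 304) (nat_lit 765539226) (nat_lit 76) (nat_lit 4788364055) (nat_lit 78) (nat_lit 5) (nat_lit 82) (nat_lit 5) (nat_lit 79) (nat_lit 5) (nat_lit 379) (nat_lit 351) (nat_lit 290))))) (XT.nd (nat_lit 234) (nat_lit 684) (nat_lit 0) (XT.nd (nat_lit 78) (nat_lit 304) (nat_lit 0) (XT.lf (nat_lit 0) (nat_lit 8489650020) (nat_lit 228) (nat_lit 4804936221) (nat_lit 304) (nat_lit 2407739000) (nat_lit 75) (nat_lit 5) (nat_lit 78) (nat_lit 5) (nat_lit 79) (nat_lit 5) (nat_lit 380) (nat_lit 351) (nat_lit 289)) (XT.nd (nat_lit 78) (nat_lit 0) (nat_lit 0) (XT.lf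 (nat_lit 0) (nat_lit 902765848) (nat_lit 304) (nat_lit 14113882911) (nat_lit 76) (nat_lit 1152745964) (nat_lit 71) (nat_lit 5) (nat_lit 75) (nat_lit 5) (nat_lit 72) (nat_lit 5) (nat_lit 381) (nat_lit 351) (nat_lit 288)) (XT.lf (nat_lit 0) (nat_lit 4472891774) (nat_lit 304) (nat_lit 4777140561) (nat_lit 76) (nat_lit 7399070899) (nat_lit 71) (nat_lit 5) (nat_lit 75) (nat_lit 5) (nat_lit 72) (nat_lit 5) (nat_lit 382) (nat_lit 351) (nat_lit 287)))) (XT.nd (nat_lit 156) (nat_lit 456) (nat_lit 0) (XT.nd (nat_lit 78) (nat_lit 0) (nat_lit 0) (XT.lf (nat_lit 0) (nat_lit 5152588836) (nat_lit 228) (nat_lit 3122800179) (nat_lit 304) (nat_lit 8874724138) (nat_lit 68) (nat_lit 5) (nat_lit 71) (nat_lit 5) (nat_lit 72) (nat_lit 5) (nat_lit 383) (nat_lit 351) (nat_lit 286)) (XT.lf (nat_lit 0) (nat_lit 12375829404) (nat_lit 304) (nat_lit 2019742487) (nat_lit 76) (nat_lit 3275219557) (nat_lit 68) (nat_lit 5)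 (nat_lit 72) (nat_lit 5) (nat_lit 69) (nat_lit 5) (nat_lit 384) (nat_lit 351) (nat_lit 285))) (XT.nd (nat_lit 78) (nat_lit 304) (nat_lit 0) (XT.lf (nat_lit 0) (nat_lit 8645046400) (nat_lit 152) (nat_lit 8197553258) (nat_lit 228) (nat_lit 1366846981) (nat_lit 66) (nat_lit 5) (nat_lit 68) (nat_lit 5) (nat_lit 69) (nat_lit 5) (nat_lit 385) (nat_lit 351) (nat_lit 284)) (XT.lf (nat_lit 0) (nat_lit 1093655462) (nat_lit 228) (nat_lit 1602941924) (nat_lit 304) (nat_lit 16074932733) (nat_lit 62) (nat_lit 5) (nat_lit 65) (nat_lit 5) (nat_lit 66) (nat_lit 5) (nat_lit 386) (nat_lit 351) (nat_lit 283))))))) (XT.nd (nat_lit 1014) (nat_lit 1140) (nat_lit 0) (XT.nd (nat_lit 468) (nat_lit 684) (nat_lit 0) (XT.nd (nat_lit 234) (nat_lit 380) (nat_lit 0) (XT.nd (nat_lit 78) (nat_lit 152) (nat_lit 0) (XT.lf (nat_lit 0) (nat_lit 7140733678) (nat_lit 304) (nat_lit 6883100734) (nat_lit 76) (nat_lit 5325597492) (nat_lit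 62) (nat_lit 5) (nat_lit 66) (nat_lit 5) (nat_lit 63) (nat_lit 5) (nat_lit 387) (nat_lit 351) (nat_lit 282)) (XT.nd (nat_lit 78) (nat_lit 0) (nat_lit 0) (XT.lf (nat_lit 0) (nat_lit 4534056549) (nat_lit 152) (nat_lit 7346982196) (nat_lit 228) (nat_lit 8071498825) (nat_lit 60) (nat_lit 5) (nat_lit 62) (nat_lit 5) (nat_lit 63) (nat_lit 5) (nat_lit 388) (nat_lit 351) (nat_lit 281)) (XT.lf (nat_lit 0) (nat_lit 16725425489) (nat_lit 152) (nat_lit 226941355) (nat_lit 228) (nat_lit 3628737848) (nat_lit 60) (nat_lit 5) (nat_lit 62) (nat_lit 5) (nat_lit 63) (nat_lit 5) (nat_lit 389) (nat_lit 351) (nat_lit 280)))) (XT.nd (nat_lit 78) (nat_lit 152) (nat_lit 0) (XT.lf (nat_lit 0) (nat_lit 1229387715) (nat_lit 228) (nat_lit 12843461472) (nat_lit 76) (nat_lit 7156128558) (nat_lit 57) (nat_lit 5) (nat_lit 60) (nat_lit 5) (nat_lit 58) (nat_lit 5) (nat_lit 390) (nat_lit 351) (nat_lit 279)) (XT.nd (nat_lit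 78) (nat_lit 152) (nat_lit 0) (XT.lf (nat_lit 0) (nat_lit 6257022960) (nat_lit 228) (nat_lit 632584910) (nat_lit 76) (nat_lit 15014240234) (nat_lit 57) (nat_lit 5) (nat_lit 60) (nat_lit 5) (nat_lit 58) (nat_lit 5) (nat_lit 391) (nat_lit 351) (nat_lit 278)) (XT.lf (nat_lit 0) (nat_lit 11724793210) (nat_lit 228) (nat_lit 10059438221) (nat_lit 76) (nat_lit 818798286) (nat_lit 55) (nat_lit 5) (nat_lit 58) (nat_lit 5) (nat_lit 56) (nat_lit 5) (nat_lit 392) (nat_lit 351) (nat_lit 277))))) (XT.nd (nat_lit 234) (nat_lit 304) (nat_lit 0) (XT.nd (nat_lit 78) (nat_lit 228) (nat_lit 0) (XT.lf (nat_lit 0) (nat_lit 3013674025) (nat_lit 152) (nat_lit 14602919471) (nat_lit 228) (nat_lit 5713049982) (nat_lit 53) (nat_lit 5) (nat_lit 55) (nat_lit 5) (nat_lit 56) (nat_lit 5) (nat_lit 393) (nat_lit 351) (nat_lit 276)) (XT.nd (nat_lit 78) (nat_lit 228) (nat_lit 0) (XT.lf (nat_lit 0) (nat_lit 17056658017) (nat_lit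 152) (nat_lit 6896892075) (nat_lit 228) (nat_lit 131514413) (nat_lit 53) (nat_lit 5) (nat_lit 55) (nat_lit 5) (nat_lit 56) (nat_lit 5) (nat_lit 394) (nat_lit 351) (nat_lit 275)) (XT.lf (nat_lit 0) (nat_lit 5657986134) (nat_lit 228) (nat_lit 17864071383) (nat_lit 76) (nat_lit 1346118391) (nat_lit 50) (nat_lit 5) (nat_lit 53) (nat_lit 5) (nat_lit 51) (nat_lit 5) (nat_lit 395) (nat_lit 351) (nat_lit 274)))) (XT.nd (nat_lit 156) (nat_lit 152) (nat_lit 0) (XT.nd (nat_lit 78) (nat_lit 152) (nat_lit 0) (XT.lf (nat_lit 0) (nat_lit 11947639909) (nat_lit 228) (nat_lit 3851725092) (nat_lit 76) (nat_lit 9880219413) (nat_lit 50) (nat_lit 5) (nat_lit 53) (nat_lit 5) (nat_lit 51) (nat_lit 5) (nat_lit 396) (nat_lit 351) (nat_lit 273)) (XT.lf (nat_lit 0) (nat_lit 11188567204) (nat_lit 152) (nat_lit 7519849652) (nat_lit 228) (nat_lit 7815318494) (nat_lit 48) (nat_lit 5) (nat_lit 50) (nat_lit 5) (nat_lit 51)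 (nat_lit 5) (nat_lit 397) (nat_lit 351) (nat_lit 272))) (XT.nd (nat_lit 78) (nat_lit 152) (nat_lit 0) (XT.lf (nat_lit 0) (nat_lit 25874001731) (nat_lit 228) (nat_lit 342596803) (nat_lit 76) (nat_lit 1190160680) (nat_lit 48) (nat_lit 5) (nat_lit 51) (nat_lit 5) (nat_lit 49) (nat_lit 4) (nat_lit 398) (nat_lit 351) (nat_lit 271)) (XT.lf (nat_lit 0) (nat_lit 5259812361) (nat_lit 152) (nat_lit 12650202105) (nat_lit 76) (nat_lit 10402072267) (nat_lit 46) (nat_lit 5) (nat_lit 48) (nat_lit 5) (nat_lit 47) (nat_lit 5) (nat_lit 399) (nat_lit 351) (nat_lit 270)))))) (XT.nd (nat_lit 546) (nat_lit 608) (nat_lit 0) (XT.nd (nat_lit 234) (nat_lit 304) (nat_lit 0) (XT.nd (nat_lit 78) (nat_lit 76) (nat_lit 0) (XT.lf (nat_lit 0) (nat_lit 3265816903) (nat_lit 152) (nat_lit 9114644507) (nat_lit 228) (nat_lit 16878968103) (nat_lit 44) (nat_lit 5) (nat_lit 46) (nat_lit 5) (nat_lit 47) (nat_lit 5) (nat_lit 400)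 (nat_lit 351) (nat_lit 269)) (XT.nd (nat_lit 78) (nat_lit 76) (nat_lit 0) (XT.lf (nat_lit 0) (nat_lit 20060005120) (nat_lit 228) (nat_lit 9861737757) (nat_lit 76) (nat_lit 322256601) (nat_lit 44) (nat_lit 5) (nat_lit 47) (nat_lit 5) (nat_lit 45) (nat_lit 4) (nat_lit 401) (nat_lit 351) (nat_lit 268)) (XT.lf (nat_lit 0) (nat_lit 7127098113) (nat_lit 76) (nat_lit 21241152352) (nat_lit 152) (nat_lit 2897314259) (nat_lit 43) (nat_lit 5) (nat_lit 44) (nat_lit 5) (nat_lit 45) (nat_lit 4) (nat_lit 402) (nat_lit 351) (nat_lit 267)))) (XT.nd (nat_lit 156) (nat_lit 76) (nat_lit 0) (XT.nd (nat_lit 78) (nat_lit 152) (nat_lit 0) (XT.lf (nat_lit 0) (nat_lit 4755399208) (nat_lit 152) (nat_lit 7127456735) (nat_lit 76) (nat_lit 20443951715) (nat_lit 42) (nat_lit 5) (nat_lit 44) (nat_lit 5) (nat_lit 43) (nat_lit 5) (nat_lit 403) (nat_lit 351) (nat_lit 266)) (XT.lf (nat_lit 0) (nat_lit 11012016443) (nat_lit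 152) (nat_lit 1838145133) (nat_lit 228) (nat_lit 20580739812) (nat_lit 40) (nat_lit 5) (nat_lit 42) (nat_lit 5) (nat_lit 43) (nat_lit 5) (nat_lit 404) (nat_lit 351) (nat_lit 265))) (XT.nd (nat_lit 78) (nat_lit 76) (nat_lit 0) (XT.lf (nat_lit 0) (nat_lit 21593292266) (nat_lit 228) (nat_lit 4443367711) (nat_lit 76) (nat_lit 8541360792) (nat_lit 40) (nat_lit 5) (nat_lit 43) (nat_lit 5) (nat_lit 41) (nat_lit 4) (nat_lit 405) (nat_lit 351) (nat_lit 264)) (XT.lf (nat_lit 0) (nat_lit 14850217129) (nat_lit 76) (nat_lit 16171040517) (nat_lit 152) (nat_lit 4748856919) (nat_lit 39) (nat_lit 5) (nat_lit 40) (nat_lit 5) (nat_lit 41) (nat_lit 4) (nat_lit 406) (nat_lit 351) (nat_lit 263))))) (XT.nd (nat_lit 234) (nat_lit 304) (nat_lit 0) (XT.nd (nat_lit 78) (nat_lit 228) (nat_lit 0) (XT.lf (nat_lit 0) (nat_lit 3836249183) (nat_lit 152) (nat_lit 1843341185) (nat_lit 76) (nat_lit 31336069897) (nat_lit 38)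 (nat_lit 5) (nat_lit 40) (nat_lit 5) (nat_lit 39) (nat_lit 5) (nat_lit 407) (nat_lit 351) (nat_lit 262)) (XT.nd (nat_lit 78) (nat_lit 76) (nat_lit 0) (XT.lf (nat_lit 0) (nat_lit 13058326196) (nat_lit 228) (nat_lit 19712436389) (nat_lit 76) (nat_lit 5530464776) (nat_lit 36) (nat_lit 5) (nat_lit 39) (nat_lit 5) (nat_lit 37) (nat_lit 4) (nat_lit 408) (nat_lit 351) (nat_lit 261)) (XT.lf (nat_lit 0) (nat_lit 349796871) (nat_lit 76) (nat_lit 22508526733) (nat_lit 152) (nat_lit 16786910317) (nat_lit 35) (nat_lit 5) (nat_lit 36) (nat_lit 5) (nat_lit 37) (nat_lit 4) (nat_lit 409) (nat_lit 351) (nat_lit 260)))) (XT.nd (nat_lit 156) (nat_lit 76) (nat_lit 0) (XT.nd (nat_lit 78) (nat_lit 228) (nat_lit 0) (XT.lf (nat_lit 0) (nat_lit 22075119501) (nat_lit 76) (nat_lit 11393819755) (nat_lit 152) (nat_lit 7571472481) (nat_lit 35) (nat_lit 5) (nat_lit 36) (nat_lit 5) (nat_lit 37) (nat_lit 4) (nat_lit 410)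 (nat_lit 351) (nat_lit 259)) (XT.lf (nat_lit 0) (nat_lit 2067372906) (nat_lit 228) (nat_lit 40106063074) (nat_lit 76) (nat_lit 328771076) (nat_lit 32) (nat_lit 5) (nat_lit 35) (nat_lit 5) (nat_lit 33) (nat_lit 4) (nat_lit 411) (nat_lit 351) (nat_lit 258))) (XT.nd (nat_lit 78) (nat_lit 76) (nat_lit 0) (XT.lf (nat_lit 0) (nat_lit 12434224035) (nat_lit 228) (nat_lit 18876857656) (nat_lit 76) (nat_lit 12694780189) (nat_lit 32) (nat_lit 5) (nat_lit 35) (nat_lit 5) (nat_lit 33) (nat_lit 4) (nat_lit 412) (nat_lit 351) (nat_lit 257)) (XT.lf (nat_lit 0) (nat_lit 3503329609) (nat_lit 76) (nat_lit 19858669582) (nat_lit 152) (nat_lit 22220572699) (nat_lit 31) (nat_lit 5) (nat_lit 32) (nat_lit 5) (nat_lit 33) (nat_lit 4) (nat_lit 413) (nat_lit 351) (nat_lit 256))))))))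
noncomputable def xc126 : XT := (XT.nd (nat_lit 2106) (nat_lit 684) (nat_lit 0) (XT.nd (nat_lit 1014) (nat_lit 532) (nat_lit 0) (XT.nd (nat_lit 468) (nat_lit 380) (nat_lit 0) (XT.nd (nat_lit 234) (nat_lit 152) (nat_lit 0) (XT.nd (nat_lit 78) (nat_lit 152) (nat_lit 0) (XT.lf (nat_lit 0) (nat_lit 27635645890) (nat_lit 76) (nat_lit 7508320270) (nat_lit 152) (nat_lit 12078762533) (nat_lit 31) (nat_lit 5) (nat_lit 32) (nat_lit 5) (nat_lit 33) (nat_lit 4) (nat_lit 414) (nat_lit 351) (nat_lit 255)) (XT.nd (nat_lit 78) (nat_lit 76) (nat_lit 0) (XT.lf (nat_lit 0) (nat_lit 4052556508) (nat_lit 76) (nat_lit 43599511879) (nat_lit 76) (nat_lit 1285974481) (nat_lit 30) (nat_lit 4) (nat_lit 31) (nat_lit 5) (nat_lit 31) (nat_lit 4) (nat_lit 415) (nat_lit 351) (nat_lit 254)) (XT.lf (nat_lit 0) (nat_lit 10173700761) (nat_lit 152) (nat_lit 21475346101) (nat_lit 76) (nat_lit 19059794624) (nat_lit 29) (nat_lit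 5) (nat_lit 31) (nat_lit 5) (nat_lit 30) (nat_lit 4) (nat_lit 416) (nat_lit 351) (nat_lit 253)))) (XT.nd (nat_lit 78) (nat_lit 76) (nat_lit 0) (XT.lf (nat_lit 0) (nat_lit 3164918913) (nat_lit 76) (nat_lit 19036737030) (nat_lit 152) (nat_lit 30363545536) (nat_lit 28) (nat_lit 5) (nat_lit 29) (nat_lit 5) (nat_lit 30) (nat_lit 4) (nat_lit 417) (nat_lit 351) (nat_lit 252)) (XT.nd (nat_lit 78) (nat_lit 76) (nat_lit 0) (XT.lf (nat_lit 0) (nat_lit 29762507048) (nat_lit 76) (nat_lit 5421499952) (nat_lit 152) (nat_lit 19312723699) (nat_lit 28) (nat_lit 5) (nat_lit 29) (nat_lit 5) (nat_lit 30) (nat_lit 4) (nat_lit 418) (nat_lit 351) (nat_lit 251)) (XT.lf (nat_lit 0) (nat_lit 1040206697) (nat_lit 76) (nat_lit 47919735110) (nat_lit 76) (nat_lit 7557672343) (nat_lit 27) (nat_lit 4) (nat_lit 28) (nat_lit 5) (nat_lit 28) (nat_lit 4) (nat_lit 419) (nat_lit 351) (nat_lit 250))))) (XT.nd (nat_lit 234) (nat_lit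 228) (nat_lit 0) (XT.nd (nat_lit 78) (nat_lit 76) (nat_lit 0) (XT.lf (nat_lit 0) (nat_lit 5136299969) (nat_lit 152) (nat_lit 29846669236) (nat_lit 76) (nat_lit 23627621955) (nat_lit 26) (nat_lit 5) (nat_lit 28) (nat_lit 5) (nat_lit 27) (nat_lit 4) (nat_lit 420) (nat_lit 351) (nat_lit 249)) (XT.nd (nat_lit 78) (nat_lit 76) (nat_lit 0) (XT.lf (nat_lit 0) (nat_lit 18201166791) (nat_lit 152) (nat_lit 3077045973) (nat_lit 76) (nat_lit 39524301214) (nat_lit 26) (nat_lit 5) (nat_lit 28) (nat_lit 5) (nat_lit 27) (nat_lit 4) (nat_lit 421) (nat_lit 351) (nat_lit 248)) (XT.lf (nat_lit 0) (nat_lit 25840245201) (nat_lit 76) (nat_lit 6473121105) (nat_lit 152) (nat_lit 30770963053) (nat_lit 25) (nat_lit 5) (nat_lit 26) (nat_lit 5) (nat_lit 27) (nat_lit 4) (nat_lit 422) (nat_lit 351) (nat_lit 247)))) (XT.nd (nat_lit 156) (nat_lit 152) (nat_lit 0) (XT.nd (nat_lit 78) (nat_lit 76) (nat_lit 0) (XT.lf (nat_lit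 0) (nat_lit 47316474644) (nat_lit 152) (nat_lit 9327801118) (nat_lit 0) (nat_lit 8826695648) (nat_lit 25) (nat_lit 5) (nat_lit 27) (nat_lit 4) (nat_lit 25) (nat_lit 4) (nat_lit 423) (nat_lit 351) (nat_lit 246)) (XT.lf (nat_lit 0) (nat_lit 20517827419) (nat_lit 76) (nat_lit 42969502261) (nat_lit 76) (nat_lit 4468737125) (nat_lit 24) (nat_lit 4) (nat_lit 25) (nat_lit 5) (nat_lit 25) (nat_lit 4) (nat_lit 424) (nat_lit 351) (nat_lit 245))) (XT.nd (nat_lit 78) (nat_lit 76) (nat_lit 0) (XT.lf (nat_lit 0) (nat_lit 9736117819) (nat_lit 152) (nat_lit 18552186596) (nat_lit 76) (nat_lit 42261798370) (nat_lit 23) (nat_lit 5) (nat_lit 25) (nat_lit 5) (nat_lit 24) (nat_lit 4) (nat_lit 425) (nat_lit 351) (nat_lit 244)) (XT.lf (nat_lit 0) (nat_lit 12075134514) (nat_lit 76) (nat_lit 12606000799) (nat_lit 152) (nat_lit 48580038114) (nat_lit 22) (nat_lit 5) (nat_lit 23) (nat_lit 5) (nat_lit 24) (nat_lit 4)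 (nat_lit 426) (nat_lit 351) (nat_lit 243)))))) (XT.nd (nat_lit 546) (nat_lit 304) (nat_lit 0) (XT.nd (nat_lit 234) (nat_lit 152) (nat_lit 0) (XT.nd (nat_lit 78) (nat_lit 76) (nat_lit 0) (XT.lf (nat_lit 0) (nat_lit 40744619660) (nat_lit 152) (nat_lit 31295886831) (nat_lit 0) (nat_lit 4048730974) (nat_lit 22) (nat_lit 5) (nat_lit 24) (nat_lit 4) (nat_lit 22) (nat_lit 4) (nat_lit 427) (nat_lit 351) (nat_lit 242)) (XT.nd (nat_lit 78) (nat_lit 76) (nat_lit 0) (XT.lf (nat_lit 0) (nat_lit 57809936942) (nat_lit 152) (nat_lit 133395128) (nat_lit 0) (nat_lit 21105440328) (nat_lit 22) (nat_lit 5) (nat_lit 24) (nat_lit 4) (nat_lit 22) (nat_lit 4) (nat_lit 428) (nat_lit 351) (nat_lit 241)) (XT.lf (nat_lit 0) (nat_lit 33649439821) (nat_lit 76) (nat_lit 42596826104) (nat_lit 76) (nat_lit 5884131464) (nat_lit 21) (nat_lit 4) (nat_lit 22) (nat_lit 5) (nat_lit 22) (nat_lit 4) (nat_lit 429) (nat_lit 351) (nat_lit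 240)))) (XT.nd (nat_lit 156) (nat_lit 0) (nat_lit 0) (XT.nd (nat_lit 78) (nat_lit 76) (nat_lit 0) (XT.lf (nat_lit 0) (nat_lit 9905310422) (nat_lit 152) (nat_lit 16414615918) (nat_lit 76) (nat_lit 59038450776) (nat_lit 20) (nat_lit 5) (nat_lit 22) (nat_lit 5) (nat_lit 21) (nat_lit 4) (nat_lit 430) (nat_lit 351) (nat_lit 239)) (XT.lf (nat_lit 0) (nat_lit 17711373117) (nat_lit 76) (nat_lit 8844388469) (nat_lit 152) (nat_lit 62173707573) (nat_lit 19) (nat_lit 5) (nat_lit 20) (nat_lit 5) (nat_lit 21) (nat_lit 4) (nat_lit 431) (nat_lit 351) (nat_lit 238))) (XT.nd (nat_lit 78) (nat_lit 0) (nat_lit 0) (XT.lf (nat_lit 0) (nat_lit 44462462161) (nat_lit 152) (nat_lit 38308738873) (nat_lit 0) (nat_lit 9476728923) (nat_lit 19) (nat_lit 5) (nat_lit 21) (nat_lit 4) (nat_lit 19) (nat_lit 4) (nat_lit 432) (nat_lit 351) (nat_lit 237)) (XT.lf (nat_lit 0) (nat_lit 63402613118) (nat_lit 152) (nat_lit 4122338870)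 (nat_lit 0) (nat_lit 28410456511) (nat_lit 19) (nat_lit 5) (nat_lit 21) (nat_lit 4) (nat_lit 19) (nat_lit 4) (nat_lit 433) (nat_lit 351) (nat_lit 236))))) (XT.nd (nat_lit 234) (nat_lit 76) (nat_lit 0) (XT.nd (nat_lit 78) (nat_lit 152) (nat_lit 0) (XT.lf (nat_lit 0) (nat_lit 32810734250) (nat_lit 76) (nat_lit 50984757627) (nat_lit 76) (nat_lit 15986483526) (nat_lit 18) (nat_lit 4) (nat_lit 19) (nat_lit 5) (nat_lit 19) (nat_lit 4) (nat_lit 434) (nat_lit 351) (nat_lit 235)) (XT.nd (nat_lit 78) (nat_lit 76) (nat_lit 0) (XT.lf (nat_lit 0) (nat_lit 1407167055) (nat_lit 152) (nat_lit 32119407820) (nat_lit 76) (nat_lit 70289992303) (nat_lit 17) (nat_lit 5) (nat_lit 19) (nat_lit 5) (nat_lit 18) (nat_lit 4) (nat_lit 435) (nat_lit 351) (nat_lit 234)) (XT.lf (nat_lit 0) (nat_lit 4339643674) (nat_lit 76) (nat_lit 14855133255) (nat_lit 152) (nat_lit 88841931954) (nat_lit 16) (nat_lit 5) (nat_lit 17) (nat_lit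 5) (nat_lit 18) (nat_lit 4) (nat_lit 436) (nat_lit 351) (nat_lit 233)))) (XT.nd (nat_lit 156) (nat_lit 76) (nat_lit 0) (XT.nd (nat_lit 78) (nat_lit 0) (nat_lit 0) (XT.lf (nat_lit 0) (nat_lit 38492592071) (nat_lit 152) (nat_lit 68799188426) (nat_lit 0) (nat_lit 5145036306) (nat_lit 16) (nat_lit 5) (nat_lit 18) (nat_lit 4) (nat_lit 16) (nat_lit 4) (nat_lit 437) (nat_lit 351) (nat_lit 232)) (XT.lf (nat_lit 0) (nat_lit 58992911197) (nat_lit 152) (nat_lit 32411576397) (nat_lit 0) (nat_lit 25640562215) (nat_lit 16) (nat_lit 5) (nat_lit 18) (nat_lit 4) (nat_lit 16) (nat_lit 4) (nat_lit 438) (nat_lit 351) (nat_lit 231))) (XT.nd (nat_lit 78) (nat_lit 0) (nat_lit 0) (XT.lf (nat_lit 0) (nat_lit 5975594658) (nat_lit 76) (nat_lit 74630315449) (nat_lit 76) (nat_lit 41273401500) (nat_lit 15) (nat_lit 4) (nat_lit 16) (nat_lit 5) (nat_lit 16) (nat_lit 4) (nat_lit 439) (nat_lit 351) (nat_lit 230)) (XT.lf (nat_lit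 0) (nat_lit 47396481766) (nat_lit 76) (nat_lit 56446448999) (nat_lit 76) (nat_lit 23085187460) (nat_lit 15) (nat_lit 4) (nat_lit 16) (nat_lit 5) (nat_lit 16) (nat_lit 4) (nat_lit 440) (nat_lit 351) (nat_lit 229))))))) (XT.nd (nat_lit 1014) (nat_lit 304) (nat_lit 0) (XT.nd (nat_lit 468) (nat_lit 152) (nat_lit 0) (XT.nd (nat_lit 234) (nat_lit 76) (nat_lit 0) (XT.nd (nat_lit 78) (nat_lit 152) (nat_lit 0) (XT.lf (nat_lit 0) (nat_lit 90878032995) (nat_lit 76) (nat_lit 37358499051) (nat_lit 76) (nat_lit 3993096952) (nat_lit 15) (nat_lit 4) (nat_lit 16) (nat_lit 5) (nat_lit 16) (nat_lit 4) (nat_lit 441) (nat_lit 351) (nat_lit 228)) (XT.nd (nat_lit 78) (nat_lit 76) (nat_lit 0) (XT.lf (nat_lit 0) (nat_lit 15534680683) (nat_lit 152) (nat_lit 1523250088) (nat_lit 76) (nat_lit 120726007830) (nat_lit 14) (nat_lit 5) (nat_lit 16) (nat_lit 5) (nat_lit 15) (nat_lit 4) (nat_lit 442) (nat_lit 351) (nat_lit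 227)) (XT.lf (nat_lit 0) (nat_lit 36626635950) (nat_lit 152) (nat_lit 102107225677) (nat_lit 0) (nat_lit 4842730140) (nat_lit 13) (nat_lit 5) (nat_lit 15) (nat_lit 4) (nat_lit 13) (nat_lit 4) (nat_lit 443) (nat_lit 351) (nat_lit 226)))) (XT.nd (nat_lit 78) (nat_lit 76) (nat_lit 0) (XT.lf (nat_lit 0) (nat_lit 59074199752) (nat_lit 152) (nat_lit 63282740058) (nat_lit 0) (nat_lit 27286887493) (nat_lit 13) (nat_lit 5) (nat_lit 15) (nat_lit 4) (nat_lit 13) (nat_lit 4) (nat_lit 444) (nat_lit 351) (nat_lit 225)) (XT.nd (nat_lit 78) (nat_lit 76) (nat_lit 0) (XT.lf (nat_lit 0) (nat_lit 82639525253) (nat_lit 152) (nat_lit 22526161669) (nat_lit 0) (nat_lit 50848968756) (nat_lit 13) (nat_lit 5) (nat_lit 15) (nat_lit 4) (nat_lit 13) (nat_lit 4) (nat_lit 445) (nat_lit 351) (nat_lit 224)) (XT.lf (nat_lit 0) (nat_lit 20929421144) (nat_lit 76) (nat_lit 86776066144) (nat_lit 76) (nat_lit 54982419897) (nat_lit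 12) (nat_lit 4) (nat_lit 13) (nat_lit 5) (nat_lit 13) (nat_lit 4) (nat_lit 446) (nat_lit 351) (nat_lit 223))))) (XT.nd (nat_lit 234) (nat_lit 76) (nat_lit 0) (XT.nd (nat_lit 78) (nat_lit 76) (nat_lit 0) (XT.lf (nat_lit 0) (nat_lit 67331284159) (nat_lit 76) (nat_lit 67070633831) (nat_lit 76) (nat_lit 35274044964) (nat_lit 12) (nat_lit 4) (nat_lit 13) (nat_lit 5) (nat_lit 13) (nat_lit 4) (nat_lit 447) (nat_lit 351) (nat_lit 222)) (XT.nd (nat_lit 78) (nat_lit 76) (nat_lit 0) (XT.lf (nat_lit 0) (nat_lit 116045091364) (nat_lit 76) (nat_lit 46383963735) (nat_lit 76) (nat_lit 14584572375) (nat_lit 12) (nat_lit 4) (nat_lit 13) (nat_lit 5) (nat_lit 13) (nat_lit 4) (nat_lit 448) (nat_lit 351) (nat_lit 221)) (XT.lf (nat_lit 0) (nat_lit 6906885688) (nat_lit 152) (nat_lit 17642944741) (nat_lit 76) (nat_lit 160162970876) (nat_lit 11) (nat_lit 5) (nat_lit 13) (nat_lit 5) (nat_lit 12) (nat_lit 4) (nat_lit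 449) (nat_lit 351) (nat_lit 220)))) (XT.nd (nat_lit 156) (nat_lit 0) (nat_lit 0) (XT.nd (nat_lit 78) (nat_lit 0) (nat_lit 0) (XT.lf (nat_lit 0) (nat_lit 28514975161) (nat_lit 76) (nat_lit 909208989) (nat_lit 152) (nat_lit 163338725049) (nat_lit 10) (nat_lit 5) (nat_lit 11) (nat_lit 5) (nat_lit 12) (nat_lit 4) (nat_lit 450) (nat_lit 351) (nat_lit 219)) (XT.lf (nat_lit 0) (nat_lit 53740607471) (nat_lit 152) (nat_lit 123993047812) (nat_lit 0) (nat_lit 23448204377) (nat_lit 10) (nat_lit 5) (nat_lit 12) (nat_lit 4) (nat_lit 10) (nat_lit 4) (nat_lit 451) (nat_lit 351) (nat_lit 218))) (XT.nd (nat_lit 78) (nat_lit 0) (nat_lit 0) (XT.lf (nat_lit 0) (nat_lit 79284151337) (nat_lit 152) (nat_lit 81747489082) (nat_lit 0) (nat_lit 48989552416) (nat_lit 10) (nat_lit 5) (nat_lit 12) (nat_lit 4) (nat_lit 10) (nat_lit 4) (nat_lit 452) (nat_lit 351) (nat_lit 217)) (XT.lf (nat_lit 0) (nat_lit 106101438412) (nat_lit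 152) (nat_lit 37396477885) (nat_lit 0) (nat_lit 75804748226) (nat_lit 10) (nat_lit 5) (nat_lit 12) (nat_lit 4) (nat_lit 10) (nat_lit 4) (nat_lit 453) (nat_lit 351) (nat_lit 216)))))) (XT.nd (nat_lit 546) (nat_lit 76) (nat_lit 0) (XT.nd (nat_lit 234) (nat_lit 152) (nat_lit 0) (XT.nd (nat_lit 78) (nat_lit 0) (nat_lit 0) (XT.lf (nat_lit 0) (nat_lit 9468639005) (nat_lit 76) (nat_lit 124935512362) (nat_lit 76) (nat_lit 94636830497) (nat_lit 9) (nat_lit 4) (nat_lit 10) (nat_lit 5) (nat_lit 10) (nat_lit 4) (nat_lit 454) (nat_lit 351) (nat_lit 215)) (XT.nd (nat_lit 78) (nat_lit 0) (nat_lit 0) (XT.lf (nat_lit 0) (nat_lit 59968937409) (nat_lit 76) (nat_lit 104783175431) (nat_lit 76) (nat_lit 74482596727) (nat_lit 9) (nat_lit 4) (nat_lit 10) (nat_lit 5) (nat_lit 10) (nat_lit 4) (nat_lit 455) (nat_lit 351) (nat_lit 214)) (XT.lf (nat_lit 0) (nat_lit 112988159685) (nat_lit 76) (nat_lit 83626251198) (nat_lit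 76) (nat_lit 53323865981) (nat_lit 9) (nat_lit 4) (nat_lit 10) (nat_lit 5) (nat_lit 10) (nat_lit 4) (nat_lit 456) (nat_lit 351) (nat_lit 213)))) (XT.nd (nat_lit 156) (nat_lit 152) (nat_lit 0) (XT.nd (nat_lit 78) (nat_lit 0) (nat_lit 0) (XT.lf (nat_lit 0) (nat_lit 168652542077) (nat_lit 76) (nat_lit 61414366034) (nat_lit 76) (nat_lit 31110260328) (nat_lit 9) (nat_lit 4) (nat_lit 10) (nat_lit 5) (nat_lit 10) (nat_lit 4) (nat_lit 457) (nat_lit 351) (nat_lit 212)) (XT.lf (nat_lit 0) (nat_lit 227094618827) (nat_lit 76) (nat_lit 38094634496) (nat_lit 76) (nat_lit 7788890231) (nat_lit 9) (nat_lit 4) (nat_lit 10) (nat_lit 5) (nat_lit 10) (nat_lit 4) (nat_lit 458) (nat_lit 351) (nat_lit 211))) (XT.nd (nat_lit 78) (nat_lit 0) (nat_lit 0) (XT.lf (nat_lit 0) (nat_lit 2916930166) (nat_lit 76) (nat_lit 13290013719) (nat_lit 152) (nat_lit 269147045426) (nat_lit 7) (nat_lit 5) (nat_lit 8) (nat_lit 5) (nat_lit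 9) (nat_lit 4) (nat_lit 459) (nat_lit 351) (nat_lit 210)) (XT.lf (nat_lit 0) (nat_lit 42127065834) (nat_lit 152) (nat_lit 242904314018) (nat_lit 0) (nat_lit 13261550575) (nat_lit 7) (nat_lit 5) (nat_lit 9) (nat_lit 4) (nat_lit 7) (nat_lit 4) (nat_lit 460) (nat_lit 351) (nat_lit 209))))) (XT.nd (nat_lit 234) (nat_lit 76) (nat_lit 0) (XT.nd (nat_lit 78) (nat_lit 0) (nat_lit 0) (XT.lf (nat_lit 0) (nat_lit 69558507498) (nat_lit 152) (nat_lit 201617901327) (nat_lit 0) (nat_lit 40691644191) (nat_lit 7) (nat_lit 5) (nat_lit 9) (nat_lit 4) (nat_lit 7) (nat_lit 4) (nat_lit 461) (nat_lit 351) (nat_lit 208)) (XT.nd (nat_lit 78) (nat_lit 0) (nat_lit 0) (XT.lf (nat_lit 0) (nat_lit 98359087475) (nat_lit 152) (nat_lit 158272025730) (nat_lit 0) (nat_lit 69490940313) (nat_lit 7) (nat_lit 5) (nat_lit 9) (nat_lit 4) (nat_lit 7) (nat_lit 4) (nat_lit 462) (nat_lit 351) (nat_lit 207)) (XT.lf (nat_lit 0) (nat_lit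 128597378574) (nat_lit 152) (nat_lit 112763482762) (nat_lit 0) (nat_lit 99728008693) (nat_lit 7) (nat_lit 5) (nat_lit 9) (nat_lit 4) (nat_lit 7) (nat_lit 4) (nat_lit 463) (nat_lit 351) (nat_lit 206)))) (XT.nd (nat_lit 156) (nat_lit 76) (nat_lit 0) (XT.nd (nat_lit 78) (nat_lit 0) (nat_lit 0) (XT.lf (nat_lit 0) (nat_lit 160345376727) (nat_lit 152) (nat_lit 64983918748) (nat_lit 0) (nat_lit 131474842351) (nat_lit 7) (nat_lit 5) (nat_lit 9) (nat_lit 4) (nat_lit 7) (nat_lit 4) (nat_lit 464) (nat_lit 351) (nat_lit 205)) (XT.lf (nat_lit 0) (nat_lit 193678672404) (nat_lit 152) (nat_lit 14819572822) (nat_lit 0) (nat_lit 164807028986) (nat_lit 7) (nat_lit 5) (nat_lit 9) (nat_lit 4) (nat_lit 7) (nat_lit 4) (nat_lit 465) (nat_lit 351) (nat_lit 204))) (XT.nd (nat_lit 78) (nat_lit 0) (nat_lit 0) (XT.lf (nat_lit 0) (nat_lit 39100452604) (nat_lit 76) (nat_lit 190186645636) (nat_lit 76) (nat_lit 161313945987)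 (nat_lit 6) (nat_lit 4) (nat_lit 7) (nat_lit 5) (nat_lit 7) (nat_lit 4) (nat_lit 466) (nat_lit 351) (nat_lit 203)) (XT.lf (nat_lit 0) (nat_lit 96227049401) (nat_lit 76) (nat_lit 170697904290) (nat_lit 76) (nat_lit 141824198708) (nat_lit 6) (nat_lit 4) (nat_lit 7) (nat_lit 5) (nat_lit 7) (nat_lit 4) (nat_lit 467) (nat_lit 351) (nat_lit 202))))))))
noncomputable def xc127 : XT := (XT.nd (nat_lit 45084) (nat_lit 0) (nat_lit 3876) (XT.nd (nat_lit 1014) (nat_lit 0) (nat_lit 0) (XT.nd (nat_lit 468) (nat_lit 152) (nat_lit 0) (XT.nd (nat_lit 234) (nat_lit 0) (nat_lit 0) (XT.nd (nat_lit 78) (nat_lit 0) (nat_lit 0) (XT.lf (nat_lit 0) (nat_lit 156206231270) (nat_lit 76) (nat_lit 150236596063) (nat_lit 76) (nat_lit 121361932448) (nat_lit 6) (nat_lit 4) (nat_lit 7) (nat_lit 5) (nat_lit 7) (nat_lit 4) (nat_lit 468) (nat_lit 351) (nat_lit 201)) (XT.nd (nat_lit 78) (nat_lit 0) (nat_lit 0) (XT.lf (nat_lit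 0) (nat_lit 219180805787) (nat_lit 76) (nat_lit 128754003552) (nat_lit 76) (nat_lit 99878427525) (nat_lit 6) (nat_lit 4) (nat_lit 7) (nat_lit 5) (nat_lit 7) (nat_lit 4) (nat_lit 469) (nat_lit 351) (nat_lit 200)) (XT.lf (nat_lit 0) (nat_lit 285300712414) (nat_lit 76) (nat_lit 106198977727) (nat_lit 76) (nat_lit 77322532738) (nat_lit 6) (nat_lit 4) (nat_lit 7) (nat_lit 5) (nat_lit 7) (nat_lit 4) (nat_lit 470) (nat_lit 351) (nat_lit 199)))) (XT.nd (nat_lit 78) (nat_lit 0) (nat_lit 0) (XT.lf (nat_lit 0) (nat_lit 354723379502) (nat_lit 76) (nat_lit 82517816148) (nat_lit 76) (nat_lit 53640543574) (nat_lit 6) (nat_lit 4) (nat_lit 7) (nat_lit 5) (nat_lit 7) (nat_lit 4) (nat_lit 471) (nat_lit 351) (nat_lit 198)) (XT.nd (nat_lit 78) (nat_lit 0) (nat_lit 0) (XT.lf (nat_lit 0) (nat_lit 427614099114) (nat_lit 76) (nat_lit 57654135094) (nat_lit 76) (nat_lit 28776074345) (nat_lit 6) (nat_lit 4) (nat_lit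 7) (nat_lit 5) (nat_lit 7) (nat_lit 4) (nat_lit 472) (nat_lit 351) (nat_lit 197)) (XT.lf (nat_lit 0) (nat_lit 504146420583) (nat_lit 76) (nat_lit 31548735327) (nat_lit 76) (nat_lit 2669923934) (nat_lit 6) (nat_lit 4) (nat_lit 7) (nat_lit 5) (nat_lit 7) (nat_lit 4) (nat_lit 473) (nat_lit 351) (nat_lit 196))))) (XT.nd (nat_lit 234) (nat_lit 0) (nat_lit 0) (XT.nd (nat_lit 78) (nat_lit 0) (nat_lit 0) (XT.lf (nat_lit 0) (nat_lit 20882719722) (nat_lit 76) (nat_lit 3391546625) (nat_lit 152) (nat_lit 539592078370) (nat_lit 4) (nat_lit 5) (nat_lit 5) (nat_lit 5) (nat_lit 6) (nat_lit 4) (nat_lit 474) (nat_lit 351) (nat_lit 195)) (XT.nd (nat_lit 78) (nat_lit 0) (nat_lit 0) (XT.lf (nat_lit 0) (nat_lit 53472171019) (nat_lit 152) (nat_lit 511151289978) (nat_lit 0) (nat_lit 25967211831) (nat_lit 4) (nat_lit 5) (nat_lit 6) (nat_lit 4) (nat_lit 4) (nat_lit 4) (nat_lit 475) (nat_lit 351) (nat_lit 194)) (XT.lf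 (nat_lit 0) (nat_lit 84184218057) (nat_lit 152) (nat_lit 477785645665) (nat_lit 0) (nat_lit 56678641313) (nat_lit 4) (nat_lit 5) (nat_lit 6) (nat_lit 4) (nat_lit 4) (nat_lit 4) (nat_lit 476) (nat_lit 351) (nat_lit 193)))) (XT.nd (nat_lit 156) (nat_lit 0) (nat_lit 0) (XT.nd (nat_lit 78) (nat_lit 0) (nat_lit 0) (XT.lf (nat_lit 0) (nat_lit 116430579835) (nat_lit 152) (nat_lit 442754298497) (nat_lit 0) (nat_lit 88924414942) (nat_lit 4) (nat_lit 5) (nat_lit 6) (nat_lit 4) (nat_lit 4) (nat_lit 4) (nat_lit 477) (nat_lit 351) (nat_lit 192)) (XT.lf (nat_lit 0) (nat_lit 150288033404) (nat_lit 152) (nat_lit 405973840506) (nat_lit 0) (nat_lit 122781308370) (nat_lit 4) (nat_lit 5) (nat_lit 6) (nat_lit 4) (nat_lit 4) (nat_lit 4) (nat_lit 478) (nat_lit 351) (nat_lit 191))) (XT.nd (nat_lit 78) (nat_lit 0) (nat_lit 0) (XT.lf (nat_lit 0) (nat_lit 185837191751) (nat_lit 152) (nat_lit 367356699173) (nat_lit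 0) (nat_lit 158329933248) (nat_lit 4) (nat_lit 5) (nat_lit 6) (nat_lit 4) (nat_lit 4) (nat_lit 4) (nat_lit 479) (nat_lit 351) (nat_lit 190)) (XT.lf (nat_lit 0) (nat_lit 223162695727) (nat_lit 152) (nat_lit 326810928923) (nat_lit 0) (nat_lit 195654929160) (nat_lit 4) (nat_lit 5) (nat_lit 6) (nat_lit 4) (nat_lit 4) (nat_lit 4) (nat_lit 480) (nat_lit 351) (nat_lit 189)))))) (XT.nd (nat_lit 43524) (nat_lit 0) (nat_lit 9120) (XT.nd (nat_lit 43212) (nat_lit 0) (nat_lit 10260) (XT.nd (nat_lit 43056) (nat_lit 0) (nat_lit 10184) (XT.lf (nat_lit 0) (nat_lit 262353415581) (nat_lit 152) (nat_lit 284239992208) (nat_lit 0) (nat_lit 234845165142) (nat_lit 4) (nat_lit 5) (nat_lit 6) (nat_lit 4) (nat_lit 4) (nat_lit 4) (nat_lit 481) (nat_lit 351) (nat_lit 188)) (XT.nd (nat_lit 78) (nat_lit 0) (nat_lit 0) (XT.lf (nat_lit 0) (nat_lit 608732491) (nat_lit 684) (nat_lit 1724106010) (nat_lit 684) (nat_lit 1724106010)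 (nat_lit 138) (nat_lit 3) (nat_lit 147) (nat_lit 3) (nat_lit 147) (nat_lit 5) (nat_lit 352) (nat_lit 352) (nat_lit 316)) (XT.lf (nat_lit 76) (nat_lit 522274930) (nat_lit 0) (nat_lit 1872220524) (nat_lit 684) (nat_lit 5864189444) (nat_lit 139) (nat_lit 5) (nat_lit 138) (nat_lit 3) (nat_lit 147) (nat_lit 5) (nat_lit 353) (nat_lit 352) (nat_lit 315)))) (XT.nd (nat_lit 156) (nat_lit 0) (nat_lit 0) (XT.nd (nat_lit 78) (nat_lit 0) (nat_lit 0) (XT.lf (nat_lit 0) (nat_lit 3633333825) (nat_lit 608) (nat_lit 3658120098) (nat_lit 684) (nat_lit 1119165020) (nat_lit 139) (nat_lit 5) (nat_lit 147) (nat_lit 5) (nat_lit 148) (nat_lit 5) (nat_lit 354) (nat_lit 352) (nat_lit 314)) (XT.lf (nat_lit 76) (nat_lit 569920118) (nat_lit 0) (nat_lit 4334296706) (nat_lit 684) (nat_lit 3667471726) (nat_lit 140) (nat_lit 5) (nat_lit 139) (nat_lit 5) (nat_lit 148) (nat_lit 5) (nat_lit 355) (nat_lit 352) (nat_lit 313)))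 (XT.nd (nat_lit 78) (nat_lit 0) (nat_lit 76) (XT.lf (nat_lit 76) (nat_lit 5095323796) (nat_lit 0) (nat_lit 1138452909) (nat_lit 684) (nat_lit 2507320198) (nat_lit 140) (nat_lit 5) (nat_lit 139) (nat_lit 5) (nat_lit 148) (nat_lit 5) (nat_lit 356) (nat_lit 352) (nat_lit 312)) (XT.lf (nat_lit 76) (nat_lit 878842988) (nat_lit 0) (nat_lit 6736055120) (nat_lit 684) (nat_lit 1304863293) (nat_lit 141) (nat_lit 5) (nat_lit 140) (nat_lit 5) (nat_lit 149) (nat_lit 5) (nat_lit 357) (nat_lit 352) (nat_lit 311))))) (XT.nd (nat_lit 234) (nat_lit 608) (nat_lit 0) (XT.nd (nat_lit 78) (nat_lit 608) (nat_lit 0) (XT.lf (nat_lit 76) (nat_lit 5694980194) (nat_lit 0) (nat_lit 3389302671) (nat_lit 684) (nat_lit 22153898) (nat_lit 141) (nat_lit 5) (nat_lit 140) (nat_lit 5) (nat_lit 149) (nat_lit 5) (nat_lit 358) (nat_lit 352) (nat_lit 310)) (XT.nd (nat_lit 78) (nat_lit 0) (nat_lit 0) (XT.lf (nat_lit 0) (nat_lit 1248596139)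 (nat_lit 684) (nat_lit 7873533113) (nat_lit 760) (nat_lit 181001830) (nat_lit 132) (nat_lit 5) (nat_lit 141) (nat_lit 5) (nat_lit 142) (nat_lit 5) (nat_lit 359) (nat_lit 352) (nat_lit 309)) (XT.lf (nat_lit 0) (nat_lit 2639845519) (nat_lit 684) (nat_lit 2976926568) (nat_lit 760) (nat_lit 3890017382) (nat_lit 132) (nat_lit 5) (nat_lit 141) (nat_lit 5) (nat_lit 142) (nat_lit 5) (nat_lit 360) (nat_lit 352) (nat_lit 308)))) (XT.nd (nat_lit 156) (nat_lit 608) (nat_lit 0) (XT.nd (nat_lit 78) (nat_lit 0) (nat_lit 76) (XT.lf (nat_lit 76) (nat_lit 2192369486) (nat_lit 0) (nat_lit 1888633317) (nat_lit 760) (nat_lit 5640641968) (nat_lit 133) (nat_lit 5) (nat_lit 132) (nat_lit 5) (nat_lit 142) (nat_lit 5) (nat_lit 361) (nat_lit 352) (nat_lit 307)) (XT.lf (nat_lit 0) (nat_lit 5625284095) (nat_lit 684) (nat_lit 2298113695) (nat_lit 76) (nat_lit 2022321518) (nat_lit 133) (nat_lit 5) (nat_lit 142) (nat_lit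 5) (nat_lit 134) (nat_lit 5) (nat_lit 362) (nat_lit 352) (nat_lit 306))) (XT.nd (nat_lit 78) (nat_lit 0) (nat_lit 0) (XT.lf (nat_lit 0) (nat_lit 3224548067) (nat_lit 684) (nat_lit 4054197573) (nat_lit 760) (nat_lit 2900681983) (nat_lit 124) (nat_lit 5) (nat_lit 133) (nat_lit 5) (nat_lit 134) (nat_lit 5) (nat_lit 363) (nat_lit 352) (nat_lit 305)) (XT.lf (nat_lit 0) (nat_lit 9007024502) (nat_lit 760) (nat_lit 1364640338) (nat_lit 76) (nat_lit 53576311) (nat_lit 124) (nat_lit 5) (nat_lit 134) (nat_lit 5) (nat_lit 125) (nat_lit 5) (nat_lit 364) (nat_lit 352) (nat_lit 304))))))) (XT.nd (nat_lit 1092) (nat_lit 1976) (nat_lit 0) (XT.nd (nat_lit 546) (nat_lit 1216) (nat_lit 0) (XT.nd (nat_lit 234) (nat_lit 836) (nat_lit 0) (XT.nd (nat_lit 78) (nat_lit 380) (nat_lit 0) (XT.lf (nat_lit 0) (nat_lit 227522105) (nat_lit 836) (nat_lit 6140437122) (nat_lit 76) (nat_lit 4310623662) (nat_lit 113) (nat_lit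 5) (nat_lit 124) (nat_lit 5) (nat_lit 114) (nat_lit 5) (nat_lit 365) (nat_lit 352) (nat_lit 303)) (XT.nd (nat_lit 78) (nat_lit 380) (nat_lit 0) (XT.lf (nat_lit 0) (nat_lit 1886864119) (nat_lit 836) (nat_lit 226455361) (nat_lit 76) (nat_lit 8831184207) (nat_lit 113) (nat_lit 5) (nat_lit 124) (nat_lit 5) (nat_lit 114) (nat_lit 5) (nat_lit 366) (nat_lit 352) (nat_lit 302)) (XT.lf (nat_lit 0) (nat_lit 3720975891) (nat_lit 456) (nat_lit 5120509933) (nat_lit 76) (nat_lit 2377666789) (nat_lit 108) (nat_lit 5) (nat_lit 114) (nat_lit 5) (nat_lit 109) (nat_lit 5) (nat_lit 367) (nat_lit 352) (nat_lit 301)))) (XT.nd (nat_lit 156) (nat_lit 456) (nat_lit 0) (XT.nd (nat_lit 78) (nat_lit 0) (nat_lit 0) (XT.lf (nat_lit 0) (nat_lit 1202055382) (nat_lit 380) (nat_lit 4461060898) (nat_lit 456) (nat_lit 5843622718) (nat_lit 103) (nat_lit 5) (nat_lit 108) (nat_lit 5) (nat_lit 109) (nat_lit 5) (nat_lit 368) (nat_lit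 352) (nat_lit 300)) (XT.lf (nat_lit 0) (nat_lit 7752951264) (nat_lit 456) (nat_lit 3832949563) (nat_lit 76) (nat_lit 220294649) (nat_lit 103) (nat_lit 5) (nat_lit 109) (nat_lit 5) (nat_lit 104) (nat_lit 5) (nat_lit 369) (nat_lit 352) (nat_lit 299))) (XT.nd (nat_lit 78) (nat_lit 76) (nat_lit 0) (XT.lf (nat_lit 0) (nat_lit 2941952183) (nat_lit 380) (nat_lit 7086568239) (nat_lit 456) (nat_lit 2088061431) (nat_lit 98) (nat_lit 5) (nat_lit 103) (nat_lit 5) (nat_lit 104) (nat_lit 5) (nat_lit 370) (nat_lit 352) (nat_lit 298)) (XT.lf (nat_lit 0) (nat_lit 4869353) (nat_lit 456) (nat_lit 2293280421) (nat_lit 76) (nat_lit 10142939359) (nat_lit 97) (nat_lit 5) (nat_lit 103) (nat_lit 5) (nat_lit 98) (nat_lit 5) (nat_lit 371) (nat_lit 352) (nat_lit 297))))) (XT.nd (nat_lit 234) (nat_lit 608) (nat_lit 0) (XT.nd (nat_lit 78) (nat_lit 304) (nat_lit 0) (XT.lf (nat_lit 0) (nat_lit 2219518990) (nat_lit 380)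 (nat_lit 7803875877) (nat_lit 76) (nat_lit 2752369723) (nat_lit 93) (nat_lit 5) (nat_lit 98) (nat_lit 5) (nat_lit 94) (nat_lit 5) (nat_lit 372) (nat_lit 352) (nat_lit 296)) (XT.nd (nat_lit 78) (nat_lit 304) (nat_lit 0) (XT.lf (nat_lit 0) (nat_lit 4587547406) (nat_lit 380) (nat_lit 524651177) (nat_lit 76) (nat_lit 8012858713) (nat_lit 93) (nat_lit 5) (nat_lit 98) (nat_lit 5) (nat_lit 94) (nat_lit 5) (nat_lit 373) (nat_lit 352) (nat_lit 295)) (XT.lf (nat_lit 0) (nat_lit 7157772393) (nat_lit 380) (nat_lit 6176707924) (nat_lit 76) (nat_lit 153159603) (nat_lit 89) (nat_lit 5) (nat_lit 94) (nat_lit 5) (nat_lit 90) (nat_lit 5) (nat_lit 374) (nat_lit 352) (nat_lit 294)))) (XT.nd (nat_lit 156) (nat_lit 380) (nat_lit 0) (XT.nd (nat_lit 78) (nat_lit 0) (nat_lit 0) (XT.lf (nat_lit 0) (nat_lit 1616421365) (nat_lit 228) (nat_lit 8326163636) (nat_lit 304) (nat_lit 3921477180) (nat_lit 86) (nat_lit 5) (nat_lit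 89) (nat_lit 5) (nat_lit 90) (nat_lit 5) (nat_lit 375) (nat_lit 352) (nat_lit 293)) (XT.lf (nat_lit 0) (nat_lit 9974329408) (nat_lit 228) (nat_lit 2965826287) (nat_lit 304) (nat_lit 1315487628) (nat_lit 86) (nat_lit 5) (nat_lit 89) (nat_lit 5) (nat_lit 90) (nat_lit 5) (nat_lit 376) (nat_lit 352) (nat_lit 292))) (XT.nd (nat_lit 78) (nat_lit 0) (nat_lit 0) (XT.lf (nat_lit 0) (nat_lit 1452969833) (nat_lit 380) (nat_lit 10551133927) (nat_lit 76) (nat_lit 2657720854) (nat_lit 81) (nat_lit 5) (nat_lit 86) (nat_lit 5) (nat_lit 82) (nat_lit 5) (nat_lit 377) (nat_lit 352) (nat_lit 291)) (XT.lf (nat_lit 0) (nat_lit 4408559439) (nat_lit 380) (nat_lit 2124306080) (nat_lit 76) (nat_lit 8549737051) (nat_lit 81) (nat_lit 5) (nat_lit 86) (nat_lit 5) (nat_lit 82) (nat_lit 5) (nat_lit 378) (nat_lit 352) (nat_lit 290)))))) (XT.nd (nat_lit 546) (nat_lit 988) (nat_lit 0) (XT.nd (nat_lit 234) (nat_lit 532) (nat_lit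 0) (XT.nd (nat_lit 78) (nat_lit 228) (nat_lit 0) (XT.lf (nat_lit 0) (nat_lit 6907640911) (nat_lit 228) (nat_lit 684138515) (nat_lit 304) (nat_lit 7928658676) (nat_lit 78) (nat_lit 5) (nat_lit 81) (nat_lit 5) (nat_lit 82) (nat_lit 5) (nat_lit 379) (nat_lit 352) (nat_lit 289)) (XT.nd (nat_lit 78) (nat_lit 0) (nat_lit 0) (XT.lf (nat_lit 0) (nat_lit 374845151) (nat_lit 228) (nat_lit 10659548474) (nat_lit 304) (nat_lit 4940770814) (nat_lit 75) (nat_lit 5) (nat_lit 78) (nat_lit 5) (nat_lit 79) (nat_lit 5) (nat_lit 380) (nat_lit 352) (nat_lit 288)) (XT.lf (nat_lit 0) (nat_lit 10061979314) (nat_lit 228) (nat_lit 4717392394) (nat_lit 304) (nat_lit 1666753905) (nat_lit 75) (nat_lit 5) (nat_lit 78) (nat_lit 5) (nat_lit 79) (nat_lit 5) (nat_lit 381) (nat_lit 352) (nat_lit 287)))) (XT.nd (nat_lit 156) (nat_lit 228) (nat_lit 0) (XT.nd (nat_lit 78) (nat_lit 0) (nat_lit 0) (XT.lf (nat_lit 0) (nat_lit 1765442199)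 (nat_lit 304) (nat_lit 13627314128) (nat_lit 76) (nat_lit 1543947255) (nat_lit 71) (nat_lit 5) (nat_lit 75) (nat_lit 5) (nat_lit 72) (nat_lit 5) (nat_lit 382) (nat_lit 352) (nat_lit 286)) (XT.lf (nat_lit 0) (nat_lit 5475144038) (nat_lit 304) (nat_lit 3880509085) (nat_lit 76) (nat_lit 8086704437) (nat_lit 71) (nat_lit 5) (nat_lit 75) (nat_lit 5) (nat_lit 72) (nat_lit 5) (nat_lit 383) (nat_lit 352) (nat_lit 285))) (XT.nd (nat_lit 78) (nat_lit 0) (nat_lit 0) (XT.lf (nat_lit 0) (nat_lit 6527392451) (nat_lit 228) (nat_lit 2920739353) (nat_lit 304) (nat_lit 8521280766) (nat_lit 68) (nat_lit 5) (nat_lit 71) (nat_lit 5) (nat_lit 72) (nat_lit 5) (nat_lit 384) (nat_lit 352) (nat_lit 284)) (XT.lf (nat_lit 0) (nat_lit 13722778834) (nat_lit 304) (nat_lit 1025693521) (nat_lit 76) (nat_lit 3769205460) (nat_lit 68) (nat_lit 5) (nat_lit 72) (nat_lit 5) (nat_lit 69) (nat_lit 5) (nat_lit 385) (nat_lit 352)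 (nat_lit 283))))) (XT.nd (nat_lit 234) (nat_lit 532) (nat_lit 0) (XT.nd (nat_lit 78) (nat_lit 304) (nat_lit 0) (XT.lf (nat_lit 0) (nat_lit 10154672938) (nat_lit 152) (nat_lit 8240361304) (nat_lit 228) (nat_lit 689135872) (nat_lit 66) (nat_lit 5) (nat_lit 68) (nat_lit 5) (nat_lit 69) (nat_lit 5) (nat_lit 386) (nat_lit 352) (nat_lit 282)) (XT.nd (nat_lit 78) (nat_lit 0) (nat_lit 0) (XT.lf (nat_lit 0) (nat_lit 2232047598) (nat_lit 228) (nat_lit 1304085196) (nat_lit 304) (nat_lit 16138526647) (nat_lit 62) (nat_lit 5) (nat_lit 65) (nat_lit 5) (nat_lit 66) (nat_lit 5) (nat_lit 387) (nat_lit 352) (nat_lit 281)) (XT.lf (nat_lit 0) (nat_lit 8174554029) (nat_lit 304) (nat_lit 6167027928) (nat_lit 76) (nat_lit 5941280542) (nat_lit 62) (nat_lit 5) (nat_lit 66) (nat_lit 5) (nat_lit 63) (nat_lit 5) (nat_lit 388) (nat_lit 352) (nat_lit 280)))) (XT.nd (nat_lit 156) (nat_lit 380) (nat_lit 0) (XT.nd (nat_lit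 78) (nat_lit 0) (nat_lit 0) (XT.lf (nat_lit 0) (nat_lit 5803886770) (nat_lit 152) (nat_lit 7332045928) (nat_lit 228) (nat_lit 7780997444) (nat_lit 60) (nat_lit 5) (nat_lit 62) (nat_lit 5) (nat_lit 63) (nat_lit 5) (nat_lit 389) (nat_lit 352) (nat_lit 279)) (XT.lf (nat_lit 0) (nat_lit 18431322514) (nat_lit 228) (nat_lit 3025320763) (nat_lit 76) (nat_lit 121766730) (nat_lit 60) (nat_lit 5) (nat_lit 63) (nat_lit 5) (nat_lit 61) (nat_lit 5) (nat_lit 390) (nat_lit 352) (nat_lit 278))) (XT.nd (nat_lit 78) (nat_lit 152) (nat_lit 0) (XT.lf (nat_lit 0) (nat_lit 1921673759) (nat_lit 228) (nat_lit 12461631103) (nat_lit 76) (nat_lit 7875414903) (nat_lit 57) (nat_lit 5) (nat_lit 60) (nat_lit 5) (nat_lit 58) (nat_lit 5) (nat_lit 391) (nat_lit 352) (nat_lit 277)) (XT.lf (nat_lit 0) (nat_lit 321311181) (nat_lit 152) (nat_lit 6854357264) (nat_lit 228) (nat_lit 15792924220) (nat_lit 55) (nat_lit 5) (nat_lit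 57) (nat_lit 5) (nat_lit 58) (nat_lit 5) (nat_lit 392) (nat_lit 352) (nat_lit 276))))))))
noncomputable def xc128 : XT := (XT.nd (nat_lit 2106) (nat_lit 1140) (nat_lit 0) (XT.nd (nat_lit 1014) (nat_lit 912) (nat_lit 0) (XT.nd (nat_lit 468) (nat_lit 608) (nat_lit 0) (XT.nd (nat_lit 234) (nat_lit 304) (nat_lit 0) (XT.nd (nat_lit 78) (nat_lit 228) (nat_lit 0) (XT.lf (nat_lit 0) (nat_lit 12903996451) (nat_lit 228) (nat_lit 9579203971) (nat_lit 76) (nat_lit 1220182004) (nat_lit 55) (nat_lit 5) (nat_lit 58) (nat_lit 5) (nat_lit 56) (nat_lit 5) (nat_lit 393) (nat_lit 352) (nat_lit 275)) (XT.nd (nat_lit 78) (nat_lit 76) (nat_lit 0) (XT.lf (nat_lit 0) (nat_lit 4131705723) (nat_lit 152) (nat_lit 14945547680) (nat_lit 228) (nat_lit 5389737310) (nat_lit 53) (nat_lit 5) (nat_lit 55) (nat_lit 5) (nat_lit 56) (nat_lit 5) (nat_lit 394) (nat_lit 352) (nat_lit 274)) (XT.lf (nat_lit 0) (nat_lit 427733881) (nat_lit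 228) (nat_lit 6437694380) (nat_lit 76) (nat_lit 18395796963) (nat_lit 52) (nat_lit 5) (nat_lit 55) (nat_lit 5) (nat_lit 53) (nat_lit 5) (nat_lit 395) (nat_lit 352) (nat_lit 273)))) (XT.nd (nat_lit 78) (nat_lit 152) (nat_lit 0) (XT.lf (nat_lit 0) (nat_lit 6495860957) (nat_lit 228) (nat_lit 17810745842) (nat_lit 76) (nat_lit 1777105231) (nat_lit 50) (nat_lit 5) (nat_lit 53) (nat_lit 5) (nat_lit 51) (nat_lit 5) (nat_lit 396) (nat_lit 352) (nat_lit 272)) (XT.nd (nat_lit 78) (nat_lit 152) (nat_lit 0) (XT.lf (nat_lit 0) (nat_lit 13073570015) (nat_lit 228) (nat_lit 3142855052) (nat_lit 76) (nat_lit 10720593164) (nat_lit 50) (nat_lit 5) (nat_lit 53) (nat_lit 5) (nat_lit 51) (nat_lit 5) (nat_lit 397) (nat_lit 352) (nat_lit 271)) (XT.lf (nat_lit 0) (nat_lit 12634912242) (nat_lit 152) (nat_lit 7526151865) (nat_lit 228) (nat_lit 7662884312) (nat_lit 48) (nat_lit 5) (nat_lit 50) (nat_lit 5) (nat_lit 51)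 (nat_lit 5) (nat_lit 398) (nat_lit 352) (nat_lit 270))))) (XT.nd (nat_lit 234) (nat_lit 304) (nat_lit 0) (XT.nd (nat_lit 78) (nat_lit 228) (nat_lit 0) (XT.lf (nat_lit 0) (nat_lit 520866700) (nat_lit 76) (nat_lit 27153060934) (nat_lit 152) (nat_lit 1077751224) (nat_lit 47) (nat_lit 5) (nat_lit 48) (nat_lit 5) (nat_lit 49) (nat_lit 4) (nat_lit 399) (nat_lit 352) (nat_lit 269)) (XT.nd (nat_lit 78) (nat_lit 152) (nat_lit 0) (XT.lf (nat_lit 0) (nat_lit 6018541417) (nat_lit 152) (nat_lit 12416235656) (nat_lit 76) (nat_lit 11268029998) (nat_lit 46) (nat_lit 5) (nat_lit 48) (nat_lit 5) (nat_lit 47) (nat_lit 5) (nat_lit 400) (nat_lit 352) (nat_lit 268)) (XT.lf (nat_lit 0) (nat_lit 4281608875) (nat_lit 152) (nat_lit 9203317384) (nat_lit 228) (nat_lit 17213110187) (nat_lit 44) (nat_lit 5) (nat_lit 46) (nat_lit 5) (nat_lit 47) (nat_lit 5) (nat_lit 401) (nat_lit 352) (nat_lit 267)))) (XT.nd (nat_lit 156)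 (nat_lit 228) (nat_lit 0) (XT.nd (nat_lit 78) (nat_lit 76) (nat_lit 0) (XT.lf (nat_lit 0) (nat_lit 21530788807) (nat_lit 228) (nat_lit 9525172413) (nat_lit 76) (nat_lit 676761009) (nat_lit 44) (nat_lit 5) (nat_lit 47) (nat_lit 5) (nat_lit 45) (nat_lit 4) (nat_lit 402) (nat_lit 352) (nat_lit 266)) (XT.lf (nat_lit 0) (nat_lit 8299723763) (nat_lit 76) (nat_lit 21945191528) (nat_lit 152) (nat_lit 2560931195) (nat_lit 43) (nat_lit 5) (nat_lit 44) (nat_lit 5) (nat_lit 45) (nat_lit 4) (nat_lit 403) (nat_lit 352) (nat_lit 265))) (XT.nd (nat_lit 78) (nat_lit 152) (nat_lit 0) (XT.lf (nat_lit 0) (nat_lit 5436831846) (nat_lit 152) (nat_lit 6691683308) (nat_lit 76) (nat_lit 21792373690) (nat_lit 42) (nat_lit 5) (nat_lit 44) (nat_lit 5) (nat_lit 43) (nat_lit 5) (nat_lit 404) (nat_lit 352) (nat_lit 264)) (XT.lf (nat_lit 0) (nat_lit 12341986976) (nat_lit 152) (nat_lit 1585386708) (nat_lit 228) (nat_lit 21153265133)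 (nat_lit 40) (nat_lit 5) (nat_lit 42) (nat_lit 5) (nat_lit 43) (nat_lit 5) (nat_lit 405) (nat_lit 352) (nat_lit 263)))))) (XT.nd (nat_lit 546) (nat_lit 304) (nat_lit 0) (XT.nd (nat_lit 234) (nat_lit 456) (nat_lit 0) (XT.nd (nat_lit 78) (nat_lit 152) (nat_lit 0) (XT.lf (nat_lit 0) (nat_lit 23092085666) (nat_lit 228) (nat_lit 3907634996) (nat_lit 76) (nat_lit 9286175715) (nat_lit 40) (nat_lit 5) (nat_lit 43) (nat_lit 5) (nat_lit 41) (nat_lit 4) (nat_lit 406) (nat_lit 352) (nat_lit 262)) (XT.nd (nat_lit 78) (nat_lit 76) (nat_lit 0) (XT.lf (nat_lit 0) (nat_lit 16338404875) (nat_lit 76) (nat_lit 16644728033) (nat_lit 152) (nat_lit 4554881061) (nat_lit 39) (nat_lit 5) (nat_lit 40) (nat_lit 5) (nat_lit 41) (nat_lit 4) (nat_lit 407) (nat_lit 352) (nat_lit 261)) (XT.lf (nat_lit 0) (nat_lit 4425786033) (nat_lit 152) (nat_lit 1212129617) (nat_lit 76) (nat_lit 33208581812) (nat_lit 38) (nat_lit 5) (nat_lit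 40) (nat_lit 5) (nat_lit 39) (nat_lit 5) (nat_lit 408) (nat_lit 352) (nat_lit 260)))) (XT.nd (nat_lit 156) (nat_lit 228) (nat_lit 0) (XT.nd (nat_lit 78) (nat_lit 76) (nat_lit 0) (XT.lf (nat_lit 0) (nat_lit 14106163870) (nat_lit 228) (nat_lit 19971819795) (nat_lit 76) (nat_lit 6118502236) (nat_lit 36) (nat_lit 5) (nat_lit 39) (nat_lit 5) (nat_lit 37) (nat_lit 4) (nat_lit 409) (nat_lit 352) (nat_lit 259)) (XT.lf (nat_lit 0) (nat_lit 1081811605) (nat_lit 76) (nat_lit 23306699501) (nat_lit 152) (nat_lit 17219566890) (nat_lit 35) (nat_lit 5) (nat_lit 36) (nat_lit 5) (nat_lit 37) (nat_lit 4) (nat_lit 410) (nat_lit 352) (nat_lit 258))) (XT.nd (nat_lit 78) (nat_lit 228) (nat_lit 0) (XT.lf (nat_lit 0) (nat_lit 23859375371) (nat_lit 76) (nat_lit 11651840677) (nat_lit 152) (nat_lit 7562723303) (nat_lit 35) (nat_lit 5) (nat_lit 36) (nat_lit 5) (nat_lit 37) (nat_lit 4) (nat_lit 411) (nat_lit 352) (nat_lit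 257)) (XT.lf (nat_lit 0) (nat_lit 2543361548) (nat_lit 228) (nat_lit 41416067800) (nat_lit 76) (nat_lit 649210365) (nat_lit 32) (nat_lit 5) (nat_lit 35) (nat_lit 5) (nat_lit 33) (nat_lit 4) (nat_lit 412) (nat_lit 352) (nat_lit 256))))) (XT.nd (nat_lit 234) (nat_lit 228) (nat_lit 0) (XT.nd (nat_lit 78) (nat_lit 76) (nat_lit 0) (XT.lf (nat_lit 0) (nat_lit 13410811424) (nat_lit 228) (nat_lit 19158511561) (nat_lit 76) (nat_lit 13619043708) (nat_lit 32) (nat_lit 5) (nat_lit 35) (nat_lit 5) (nat_lit 33) (nat_lit 4) (nat_lit 413) (nat_lit 352) (nat_lit 255)) (XT.nd (nat_lit 78) (nat_lit 0) (nat_lit 0) (XT.lf (nat_lit 0) (nat_lit 4330004600) (nat_lit 76) (nat_lit 20548243746) (nat_lit 152) (nat_lit 22966002324) (nat_lit 31) (nat_lit 5) (nat_lit 32) (nat_lit 5) (nat_lit 33) (nat_lit 4) (nat_lit 414) (nat_lit 352) (nat_lit 254)) (XT.lf (nat_lit 0) (nat_lit 29637912480) (nat_lit 76) (nat_lit 7594822650)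 (nat_lit 152) (nat_lit 12334511127) (nat_lit 31) (nat_lit 5) (nat_lit 32) (nat_lit 5) (nat_lit 33) (nat_lit 4) (nat_lit 415) (nat_lit 352) (nat_lit 253)))) (XT.nd (nat_lit 156) (nat_lit 76) (nat_lit 0) (XT.nd (nat_lit 78) (nat_lit 76) (nat_lit 0) (XT.lf (nat_lit 0) (nat_lit 4877573645) (nat_lit 76) (nat_lit 45486892940) (nat_lit 76) (nat_lit 1003950272) (nat_lit 30) (nat_lit 4) (nat_lit 31) (nat_lit 5) (nat_lit 31) (nat_lit 4) (nat_lit 416) (nat_lit 352) (nat_lit 252)) (XT.lf (nat_lit 0) (nat_lit 11001660501) (nat_lit 152) (nat_lit 21945770172) (nat_lit 76) (nat_lit 20280854307) (nat_lit 29) (nat_lit 5) (nat_lit 31) (nat_lit 5) (nat_lit 30) (nat_lit 4) (nat_lit 417) (nat_lit 352) (nat_lit 251))) (XT.nd (nat_lit 78) (nat_lit 0) (nat_lit 0) (XT.lf (nat_lit 0) (nat_lit 3916776750) (nat_lit 76) (nat_lit 19708301080) (nat_lit 152) (nat_lit 31552683583) (nat_lit 28) (nat_lit 5) (nat_lit 29) (nat_lit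 5) (nat_lit 30) (nat_lit 4) (nat_lit 418) (nat_lit 352) (nat_lit 250)) (XT.lf (nat_lit 0) (nat_lit 31815977058) (nat_lit 76) (nat_lit 5425648472) (nat_lit 152) (nat_lit 19964989189) (nat_lit 28) (nat_lit 5) (nat_lit 29) (nat_lit 5) (nat_lit 30) (nat_lit 4) (nat_lit 419) (nat_lit 352) (nat_lit 249))))))) (XT.nd (nat_lit 1014) (nat_lit 456) (nat_lit 0) (XT.nd (nat_lit 468) (nat_lit 380) (nat_lit 0) (XT.nd (nat_lit 234) (nat_lit 152) (nat_lit 0) (XT.nd (nat_lit 78) (nat_lit 76) (nat_lit 0) (XT.lf (nat_lit 0) (nat_lit 1659054319) (nat_lit 76) (nat_lit 50045911307) (nat_lit 76) (nat_lit 7623647794) (nat_lit 27) (nat_lit 4) (nat_lit 28) (nat_lit 5) (nat_lit 28) (nat_lit 4) (nat_lit 420) (nat_lit 352) (nat_lit 248)) (XT.nd (nat_lit 78) (nat_lit 0) (nat_lit 0) (XT.lf (nat_lit 0) (nat_lit 5680662736) (nat_lit 152) (nat_lit 30789622732) (nat_lit 76) (nat_lit 25056430559) (nat_lit 26) (nat_lit 5) (nat_lit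 28) (nat_lit 5) (nat_lit 27) (nat_lit 4) (nat_lit 421) (nat_lit 352) (nat_lit 247)) (XT.lf (nat_lit 0) (nat_lit 19385080148) (nat_lit 152) (nat_lit 2707679257) (nat_lit 76) (nat_lit 41736161520) (nat_lit 26) (nat_lit 5) (nat_lit 28) (nat_lit 5) (nat_lit 27) (nat_lit 4) (nat_lit 422) (nat_lit 352) (nat_lit 246)))) (XT.nd (nat_lit 78) (nat_lit 76) (nat_lit 0) (XT.lf (nat_lit 0) (nat_lit 27647037460) (nat_lit 76) (nat_lit 6550848622) (nat_lit 152) (nat_lit 32027192408) (nat_lit 25) (nat_lit 5) (nat_lit 26) (nat_lit 5) (nat_lit 27) (nat_lit 4) (nat_lit 423) (nat_lit 352) (nat_lit 245)) (XT.nd (nat_lit 78) (nat_lit 76) (nat_lit 0) (XT.lf (nat_lit 0) (nat_lit 49942004180) (nat_lit 152) (nat_lit 9294755268) (nat_lit 0) (nat_lit 9494751657) (nat_lit 25) (nat_lit 5) (nat_lit 27) (nat_lit 4) (nat_lit 25) (nat_lit 4) (nat_lit 424) (nat_lit 352) (nat_lit 244)) (XT.lf (nat_lit 0) (nat_lit 22035099278)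 (nat_lit 76) (nat_lit 44881607573) (nat_lit 76) (nat_lit 4424390298) (nat_lit 24) (nat_lit 4) (nat_lit 25) (nat_lit 5) (nat_lit 25) (nat_lit 4) (nat_lit 425) (nat_lit 352) (nat_lit 243))))) (XT.nd (nat_lit 234) (nat_lit 228) (nat_lit 0) (XT.nd (nat_lit 78) (nat_lit 76) (nat_lit 0) (XT.lf (nat_lit 0) (nat_lit 10469793171) (nat_lit 152) (nat_lit 19003631515) (nat_lit 76) (nat_lit 44591819392) (nat_lit 23) (nat_lit 5) (nat_lit 25) (nat_lit 5) (nat_lit 24) (nat_lit 4) (nat_lit 426) (nat_lit 352) (nat_lit 242)) (XT.nd (nat_lit 78) (nat_lit 0) (nat_lit 0) (XT.lf (nat_lit 0) (nat_lit 13147375579) (nat_lit 76) (nat_lit 13010244625) (nat_lit 152) (nat_lit 50754471085) (nat_lit 22) (nat_lit 5) (nat_lit 23) (nat_lit 5) (nat_lit 24) (nat_lit 4) (nat_lit 427) (nat_lit 352) (nat_lit 241)) (XT.lf (nat_lit 0) (nat_lit 43016095877) (nat_lit 152) (nat_lit 32406304241) (nat_lit 0) (nat_lit 4459568478) (nat_lit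 22) (nat_lit 5) (nat_lit 24) (nat_lit 4) (nat_lit 22) (nat_lit 4) (nat_lit 428) (nat_lit 352) (nat_lit 240)))) (XT.nd (nat_lit 156) (nat_lit 152) (nat_lit 0) (XT.nd (nat_lit 78) (nat_lit 0) (nat_lit 0) (XT.lf (nat_lit 0) (nat_lit 302352207) (nat_lit 76) (nat_lit 60625892846) (nat_lit 76) (nat_lit 22061557803) (nat_lit 21) (nat_lit 4) (nat_lit 22) (nat_lit 5) (nat_lit 22) (nat_lit 4) (nat_lit 429) (nat_lit 352) (nat_lit 239)) (XT.lf (nat_lit 0) (nat_lit 35757672070) (nat_lit 76) (nat_lit 44520021796) (nat_lit 76) (nat_lit 5948250900) (nat_lit 21) (nat_lit 4) (nat_lit 22) (nat_lit 5) (nat_lit 22) (nat_lit 4) (nat_lit 430) (nat_lit 352) (nat_lit 238))) (XT.nd (nat_lit 78) (nat_lit 76) (nat_lit 0) (XT.lf (nat_lit 0) (nat_lit 10612693002) (nat_lit 152) (nat_lit 16822832003) (nat_lit 76) (nat_lit 62180149910) (nat_lit 20) (nat_lit 5) (nat_lit 22) (nat_lit 5) (nat_lit 21) (nat_lit 4) (nat_lit 431)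 (nat_lit 352) (nat_lit 237)) (XT.lf (nat_lit 0) (nat_lit 19002803020) (nat_lit 76) (nat_lit 9089099523) (nat_lit 152) (nat_lit 65063607951) (nat_lit 19) (nat_lit 5) (nat_lit 20) (nat_lit 5) (nat_lit 21) (nat_lit 4) (nat_lit 432) (nat_lit 352) (nat_lit 236)))))) (XT.nd (nat_lit 546) (nat_lit 228) (nat_lit 0) (XT.nd (nat_lit 234) (nat_lit 152) (nat_lit 0) (XT.nd (nat_lit 78) (nat_lit 76) (nat_lit 0) (XT.lf (nat_lit 0) (nat_lit 46886953400) (nat_lit 152) (nat_lit 39830642759) (nat_lit 0) (nat_lit 10132648101) (nat_lit 19) (nat_lit 5) (nat_lit 21) (nat_lit 4) (nat_lit 19) (nat_lit 4) (nat_lit 433) (nat_lit 352) (nat_lit 235)) (XT.nd (nat_lit 78) (nat_lit 76) (nat_lit 0) (XT.lf (nat_lit 0) (nat_lit 66764522946) (nat_lit 152) (nat_lit 3953662425) (nat_lit 0) (nat_lit 30004391462) (nat_lit 19) (nat_lit 5) (nat_lit 21) (nat_lit 4) (nat_lit 19) (nat_lit 4) (nat_lit 434) (nat_lit 352) (nat_lit 234))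 (XT.lf (nat_lit 0) (nat_lit 34820019296) (nat_lit 76) (nat_lit 53353651200) (nat_lit 76) (nat_lit 16587970969) (nat_lit 18) (nat_lit 4) (nat_lit 19) (nat_lit 5) (nat_lit 19) (nat_lit 4) (nat_lit 435) (nat_lit 352) (nat_lit 233)))) (XT.nd (nat_lit 156) (nat_lit 0) (nat_lit 0) (XT.nd (nat_lit 78) (nat_lit 76) (nat_lit 0) (XT.lf (nat_lit 0) (nat_lit 1659910859) (nat_lit 152) (nat_lit 33368147491) (nat_lit 76) (nat_lit 73970206571) (nat_lit 17) (nat_lit 5) (nat_lit 19) (nat_lit 5) (nat_lit 18) (nat_lit 4) (nat_lit 436) (nat_lit 352) (nat_lit 232)) (XT.lf (nat_lit 0) (nat_lit 4908094792) (nat_lit 76) (nat_lit 15425608827) (nat_lit 152) (nat_lit 93095870511) (nat_lit 16) (nat_lit 5) (nat_lit 17) (nat_lit 5) (nat_lit 18) (nat_lit 4) (nat_lit 437) (nat_lit 352) (nat_lit 231))) (XT.nd (nat_lit 78) (nat_lit 0) (nat_lit 0) (XT.lf (nat_lit 0) (nat_lit 40590438469) (nat_lit 152) (nat_lit 71898434190)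 (nat_lit 0) (nat_lit 5561113854) (nat_lit 16) (nat_lit 5) (nat_lit 18) (nat_lit 4) (nat_lit 16) (nat_lit 4) (nat_lit 438) (nat_lit 352) (nat_lit 230)) (XT.lf (nat_lit 0) (nat_lit 62107525133) (nat_lit 152) (nat_lit 33707666019) (nat_lit 0) (nat_lit 27073852929) (nat_lit 16) (nat_lit 5) (nat_lit 18) (nat_lit 4) (nat_lit 16) (nat_lit 4) (nat_lit 439) (nat_lit 352) (nat_lit 229))))) (XT.nd (nat_lit 234) (nat_lit 152) (nat_lit 0) (XT.nd (nat_lit 78) (nat_lit 0) (nat_lit 0) (XT.lf (nat_lit 0) (nat_lit 6593629893) (nat_lit 76) (nat_lit 78204672933) (nat_lit 76) (nat_lit 43166860168) (nat_lit 15) (nat_lit 4) (nat_lit 16) (nat_lit 5) (nat_lit 16) (nat_lit 4) (nat_lit 440) (nat_lit 352) (nat_lit 228)) (XT.nd (nat_lit 78) (nat_lit 0) (nat_lit 0) (XT.lf (nat_lit 0) (nat_lit 50070358713) (nat_lit 76) (nat_lit 59119096888) (nat_lit 76) (nat_lit 24077340732) (nat_lit 15) (nat_lit 4) (nat_lit 16) (nat_lit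 5) (nat_lit 16) (nat_lit 4) (nat_lit 441) (nat_lit 352) (nat_lit 227)) (XT.lf (nat_lit 0) (nat_lit 95711508796) (nat_lit 76) (nat_lit 39083876802) (nat_lit 76) (nat_lit 4038365036) (nat_lit 15) (nat_lit 4) (nat_lit 16) (nat_lit 5) (nat_lit 16) (nat_lit 4) (nat_lit 442) (nat_lit 352) (nat_lit 226)))) (XT.nd (nat_lit 156) (nat_lit 0) (nat_lit 0) (XT.nd (nat_lit 78) (nat_lit 76) (nat_lit 0) (XT.lf (nat_lit 0) (nat_lit 16453743691) (nat_lit 152) (nat_lit 1318913970) (nat_lit 76) (nat_lit 126893353743) (nat_lit 14) (nat_lit 5) (nat_lit 16) (nat_lit 5) (nat_lit 15) (nat_lit 4) (nat_lit 443) (nat_lit 352) (nat_lit 225)) (XT.lf (nat_lit 0) (nat_lit 38599953012) (nat_lit 152) (nat_lit 106931737316) (nat_lit 0) (nat_lit 5216624452) (nat_lit 13) (nat_lit 5) (nat_lit 15) (nat_lit 4) (nat_lit 13) (nat_lit 4) (nat_lit 444) (nat_lit 352) (nat_lit 224))) (XT.nd (nat_lit 78) (nat_lit 0) (nat_lit 0) (XT.lf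 (nat_lit 0) (nat_lit 62163133801) (nat_lit 152) (nat_lit 66179401209) (nat_lit 0) (nat_lit 28776715491) (nat_lit 13) (nat_lit 5) (nat_lit 15) (nat_lit 4) (nat_lit 13) (nat_lit 4) (nat_lit 445) (nat_lit 352) (nat_lit 223)) (XT.lf (nat_lit 0) (nat_lit 86900286335) (nat_lit 152) (nat_lit 23397730846) (nat_lit 0) (nat_lit 53510925407) (nat_lit 13) (nat_lit 5) (nat_lit 15) (nat_lit 4) (nat_lit 13) (nat_lit 4) (nat_lit 446) (nat_lit 352) (nat_lit 222))))))))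
noncomputable def xc129 : XT := (XT.nd (nat_lit 2106) (nat_lit 152) (nat_lit 0) (XT.nd (nat_lit 1014) (nat_lit 228) (nat_lit 0) (XT.nd (nat_lit 468) (nat_lit 76) (nat_lit 0) (XT.nd (nat_lit 234) (nat_lit 152) (nat_lit 0) (XT.nd (nat_lit 78) (nat_lit 0) (nat_lit 0) (XT.lf (nat_lit 0) (nat_lit 22226522417) (nat_lit 76) (nat_lit 90990804485) (nat_lit 76) (nat_lit 57598641062) (nat_lit 12) (nat_lit 4) (nat_lit 13) (nat_lit 5) (nat_lit 13) (nat_lit 4) (nat_lit 447) (nat_lit 352) (nat_lit 221)) (XT.nd (nat_lit 78) (nat_lit 0) (nat_lit 0) (XT.lf (nat_lit 0) (nat_lit 70936543810) (nat_lit 76) (nat_lit 70306008412) (nat_lit 76) (nat_lit 36911175947) (nat_lit 12) (nat_lit 4) (nat_lit 13) (nat_lit 5) (nat_lit 13) (nat_lit 4) (nat_lit 448) (nat_lit 352) (nat_lit 220)) (XT.lf (nat_lit 0) (nat_lit 122074674926) (nat_lit 76) (nat_lit 48590631341) (nat_lit 76) (nat_lit 15193256931) (nat_lit 12) (nat_lit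 4) (nat_lit 13) (nat_lit 5) (nat_lit 13) (nat_lit 4) (nat_lit 449) (nat_lit 352) (nat_lit 219)))) (XT.nd (nat_lit 78) (nat_lit 76) (nat_lit 0) (XT.lf (nat_lit 0) (nat_lit 7363359401) (nat_lit 152) (nat_lit 18304908537) (nat_lit 76) (nat_lit 168274611764) (nat_lit 11) (nat_lit 5) (nat_lit 13) (nat_lit 5) (nat_lit 12) (nat_lit 4) (nat_lit 450) (nat_lit 352) (nat_lit 218)) (XT.nd (nat_lit 78) (nat_lit 0) (nat_lit 0) (XT.lf (nat_lit 0) (nat_lit 30157356014) (nat_lit 76) (nat_lit 847257128) (nat_lit 152) (nat_lit 171390975577) (nat_lit 10) (nat_lit 5) (nat_lit 11) (nat_lit 5) (nat_lit 12) (nat_lit 4) (nat_lit 451) (nat_lit 352) (nat_lit 217)) (XT.lf (nat_lit 0) (nat_lit 56533253837) (nat_lit 152) (nat_lit 129982775415) (nat_lit 0) (nat_lit 24719637878) (nat_lit 10) (nat_lit 5) (nat_lit 12) (nat_lit 4) (nat_lit 10) (nat_lit 4) (nat_lit 452) (nat_lit 352) (nat_lit 216))))) (XT.nd (nat_lit 234) (nat_lit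 0) (nat_lit 0) (XT.nd (nat_lit 78) (nat_lit 76) (nat_lit 0) (XT.lf (nat_lit 0) (nat_lit 83348945564) (nat_lit 152) (nat_lit 85634935168) (nat_lit 0) (nat_lit 51533337924) (nat_lit 10) (nat_lit 5) (nat_lit 12) (nat_lit 4) (nat_lit 10) (nat_lit 4) (nat_lit 453) (nat_lit 352) (nat_lit 215)) (XT.nd (nat_lit 78) (nat_lit 76) (nat_lit 0) (XT.lf (nat_lit 0) (nat_lit 111502307151) (nat_lit 152) (nat_lit 39075893809) (nat_lit 0) (nat_lit 79684802673) (nat_lit 10) (nat_lit 5) (nat_lit 12) (nat_lit 4) (nat_lit 10) (nat_lit 4) (nat_lit 454) (nat_lit 352) (nat_lit 214)) (XT.lf (nat_lit 0) (nat_lit 10129407830) (nat_lit 76) (nat_lit 131089111025) (nat_lit 76) (nat_lit 99269800034) (nat_lit 9) (nat_lit 4) (nat_lit 10) (nat_lit 5) (nat_lit 10) (nat_lit 4) (nat_lit 455) (nat_lit 352) (nat_lit 213)))) (XT.nd (nat_lit 156) (nat_lit 0) (nat_lit 0) (XT.nd (nat_lit 78) (nat_lit 0) (nat_lit 0) (XT.lf (nat_lit 0)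 (nat_lit 63145800350) (nat_lit 76) (nat_lit 109933594246) (nat_lit 76) (nat_lit 78112562767) (nat_lit 9) (nat_lit 4) (nat_lit 10) (nat_lit 5) (nat_lit 10) (nat_lit 4) (nat_lit 456) (nat_lit 352) (nat_lit 212)) (XT.lf (nat_lit 0) (nat_lit 118807487737) (nat_lit 76) (nat_lit 87723049513) (nat_lit 76) (nat_lit 55900379474) (nat_lit 9) (nat_lit 4) (nat_lit 10) (nat_lit 5) (nat_lit 10) (nat_lit 4) (nat_lit 457) (nat_lit 352) (nat_lit 211))) (XT.nd (nat_lit 78) (nat_lit 0) (nat_lit 0) (XT.lf (nat_lit 0) (nat_lit 177246997816) (nat_lit 76) (nat_lit 64404594578) (nat_lit 76) (nat_lit 32580364005) (nat_lit 9) (nat_lit 4) (nat_lit 10) (nat_lit 5) (nat_lit 10) (nat_lit 4) (nat_lit 458) (nat_lit 352) (nat_lit 210)) (XT.lf (nat_lit 0) (nat_lit 238603472279) (nat_lit 76) (nat_lit 39922709310) (nat_lit 76) (nat_lit 8096992514) (nat_lit 9) (nat_lit 4) (nat_lit 10) (nat_lit 5) (nat_lit 10) (nat_lit 4) (nat_lit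 459) (nat_lit 352) (nat_lit 209)))))) (XT.nd (nat_lit 546) (nat_lit 76) (nat_lit 0) (XT.nd (nat_lit 234) (nat_lit 0) (nat_lit 0) (XT.nd (nat_lit 78) (nat_lit 0) (nat_lit 0) (XT.lf (nat_lit 0) (nat_lit 3216977944) (nat_lit 76) (nat_lit 13877709953) (nat_lit 152) (nat_lit 282523128000) (nat_lit 7) (nat_lit 5) (nat_lit 8) (nat_lit 5) (nat_lit 9) (nat_lit 4) (nat_lit 460) (nat_lit 352) (nat_lit 208)) (XT.nd (nat_lit 78) (nat_lit 0) (nat_lit 0) (XT.lf (nat_lit 0) (nat_lit 44308272412) (nat_lit 152) (nat_lit 254900124941) (nat_lit 0) (nat_lit 13995434037) (nat_lit 7) (nat_lit 5) (nat_lit 9) (nat_lit 4) (nat_lit 7) (nat_lit 4) (nat_lit 461) (nat_lit 352) (nat_lit 207)) (XT.lf (nat_lit 0) (nat_lit 73107721717) (nat_lit 152) (nat_lit 211556506129) (nat_lit 0) (nat_lit 42793660623) (nat_lit 7) (nat_lit 5) (nat_lit 9) (nat_lit 4) (nat_lit 7) (nat_lit 4) (nat_lit 462) (nat_lit 352) (nat_lit 206)))) (XT.nd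 (nat_lit 156) (nat_lit 0) (nat_lit 0) (XT.nd (nat_lit 78) (nat_lit 0) (nat_lit 0) (XT.lf (nat_lit 0) (nat_lit 103344935986) (nat_lit 152) (nat_lit 166050112479) (nat_lit 0) (nat_lit 73029710398) (nat_lit 7) (nat_lit 5) (nat_lit 9) (nat_lit 4) (nat_lit 7) (nat_lit 4) (nat_lit 463) (nat_lit 352) (nat_lit 205)) (XT.lf (nat_lit 0) (nat_lit 135091908586) (nat_lit 152) (nat_lit 118272595435) (nat_lit 0) (nat_lit 104775573955) (nat_lit 7) (nat_lit 5) (nat_lit 9) (nat_lit 4) (nat_lit 7) (nat_lit 4) (nat_lit 464) (nat_lit 352) (nat_lit 204))) (XT.nd (nat_lit 78) (nat_lit 0) (nat_lit 0) (XT.lf (nat_lit 0) (nat_lit 168424227547) (nat_lit 152) (nat_lit 68110199005) (nat_lit 0) (nat_lit 138106836686) (nat_lit 7) (nat_lit 5) (nat_lit 9) (nat_lit 4) (nat_lit 7) (nat_lit 4) (nat_lit 465) (nat_lit 352) (nat_lit 203)) (XT.lf (nat_lit 0) (nat_lit 203421255533) (nat_lit 152) (nat_lit 15443488910) (nat_lit 0)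 (nat_lit 173102858737) (nat_lit 7) (nat_lit 5) (nat_lit 9) (nat_lit 4) (nat_lit 7) (nat_lit 4) (nat_lit 466) (nat_lit 352) (nat_lit 202))))) (XT.nd (nat_lit 234) (nat_lit 0) (nat_lit 0) (XT.nd (nat_lit 78) (nat_lit 0) (nat_lit 0) (XT.lf (nat_lit 0) (nat_lit 41170649682) (nat_lit 76) (nat_lit 199638458341) (nat_lit 76) (nat_lit 169319103513) (nat_lit 6) (nat_lit 4) (nat_lit 7) (nat_lit 5) (nat_lit 7) (nat_lit 4) (nat_lit 467) (nat_lit 352) (nat_lit 201)) (XT.nd (nat_lit 78) (nat_lit 0) (nat_lit 0) (XT.lf (nat_lit 0) (nat_lit 101148091821) (nat_lit 76) (nat_lit 179178018956) (nat_lit 76) (nat_lit 148857751717) (nat_lit 6) (nat_lit 4) (nat_lit 7) (nat_lit 5) (nat_lit 7) (nat_lit 4) (nat_lit 468) (nat_lit 352) (nat_lit 200)) (XT.lf (nat_lit 0) (nat_lit 164121009452) (nat_lit 76) (nat_lit 157696253914) (nat_lit 76) (nat_lit 127375117711) (nat_lit 6) (nat_lit 4) (nat_lit 7) (nat_lit 5) (nat_lit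 7) (nat_lit 4) (nat_lit 469) (nat_lit 352) (nat_lit 199)))) (XT.nd (nat_lit 156) (nat_lit 0) (nat_lit 0) (XT.nd (nat_lit 78) (nat_lit 0) (nat_lit 0) (XT.lf (nat_lit 0) (nat_lit 230239338094) (nat_lit 76) (nat_lit 135142016156) (nat_lit 76) (nat_lit 104820052369) (nat_lit 6) (nat_lit 4) (nat_lit 7) (nat_lit 5) (nat_lit 7) (nat_lit 4) (nat_lit 470) (nat_lit 352) (nat_lit 198)) (XT.lf (nat_lit 0) (nat_lit 299660502338) (nat_lit 76) (nat_lit 111461605116) (nat_lit 76) (nat_lit 81138853153) (nat_lit 6) (nat_lit 4) (nat_lit 7) (nat_lit 5) (nat_lit 7) (nat_lit 4) (nat_lit 471) (nat_lit 352) (nat_lit 197))) (XT.nd (nat_lit 78) (nat_lit 0) (nat_lit 0) (XT.lf (nat_lit 0) (nat_lit 372549790670) (nat_lit 76) (nat_lit 86598638862) (nat_lit 76) (nat_lit 56275136256) (nat_lit 6) (nat_lit 4) (nat_lit 7) (nat_lit 5) (nat_lit 7) (nat_lit 4) (nat_lit 472) (nat_lit 352) (nat_lit 196)) (XT.lf (nat_lit 0) (nat_lit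 449080749016) (nat_lit 76) (nat_lit 60493919855) (nat_lit 76) (nat_lit 30169702351) (nat_lit 6) (nat_lit 4) (nat_lit 7) (nat_lit 5) (nat_lit 7) (nat_lit 4) (nat_lit 473) (nat_lit 352) (nat_lit 195))))))) (XT.nd (nat_lit 44070) (nat_lit 0) (nat_lit 7144) (XT.nd (nat_lit 468) (nat_lit 0) (nat_lit 0) (XT.nd (nat_lit 234) (nat_lit 0) (nat_lit 0) (XT.nd (nat_lit 78) (nat_lit 152) (nat_lit 0) (XT.lf (nat_lit 0) (nat_lit 529435593942) (nat_lit 76) (nat_lit 33085294004) (nat_lit 76) (nat_lit 2760395644) (nat_lit 6) (nat_lit 4) (nat_lit 7) (nat_lit 5) (nat_lit 7) (nat_lit 4) (nat_lit 474) (nat_lit 352) (nat_lit 194)) (XT.nd (nat_lit 78) (nat_lit 0) (nat_lit 0) (XT.lf (nat_lit 0) (nat_lit 22008744118) (nat_lit 76) (nat_lit 3520178277) (nat_lit 152) (nat_lit 566528691029) (nat_lit 4) (nat_lit 5) (nat_lit 5) (nat_lit 5) (nat_lit 6) (nat_lit 4) (nat_lit 475) (nat_lit 352) (nat_lit 193)) (XT.lf (nat_lit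 0) (nat_lit 56185381482) (nat_lit 152) (nat_lit 536629523371) (nat_lit 0) (nat_lit 27303320196) (nat_lit 4) (nat_lit 5) (nat_lit 6) (nat_lit 4) (nat_lit 4) (nat_lit 4) (nat_lit 476) (nat_lit 352) (nat_lit 192)))) (XT.nd (nat_lit 78) (nat_lit 0) (nat_lit 0) (XT.lf (nat_lit 0) (nat_lit 88431145067) (nat_lit 152) (nat_lit 501599374513) (nat_lit 0) (nat_lit 59548523639) (nat_lit 4) (nat_lit 5) (nat_lit 6) (nat_lit 4) (nat_lit 4) (nat_lit 4) (nat_lit 477) (nat_lit 352) (nat_lit 191)) (XT.nd (nat_lit 78) (nat_lit 0) (nat_lit 0) (XT.lf (nat_lit 0) (nat_lit 122288028928) (nat_lit 152) (nat_lit 464820057769) (nat_lit 0) (nat_lit 93404874032) (nat_lit 4) (nat_lit 5) (nat_lit 6) (nat_lit 4) (nat_lit 4) (nat_lit 4) (nat_lit 478) (nat_lit 352) (nat_lit 190)) (XT.lf (nat_lit 0) (nat_lit 157836644695) (nat_lit 152) (nat_lit 426204003339) (nat_lit 0) (nat_lit 128952981734) (nat_lit 4) (nat_lit 5) (nat_lit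 6) (nat_lit 4) (nat_lit 4) (nat_lit 4) (nat_lit 479) (nat_lit 352) (nat_lit 189))))) (XT.nd (nat_lit 43290) (nat_lit 0) (nat_lit 10184) (XT.nd (nat_lit 78) (nat_lit 0) (nat_lit 0) (XT.lf (nat_lit 0) (nat_lit 195161631930) (nat_lit 152) (nat_lit 385659268234) (nat_lit 0) (nat_lit 166277485097) (nat_lit 4) (nat_lit 5) (nat_lit 6) (nat_lit 4) (nat_lit 4) (nat_lit 4) (nat_lit 480) (nat_lit 352) (nat_lit 188)) (XT.nd (nat_lit 43134) (nat_lit 0) (nat_lit 10184) (XT.lf (nat_lit 0) (nat_lit 234351859648) (nat_lit 152) (nat_lit 343089317371) (nat_lit 0) (nat_lit 205467251986) (nat_lit 4) (nat_lit 5) (nat_lit 6) (nat_lit 4) (nat_lit 4) (nat_lit 4) (nat_lit 481) (nat_lit 352) (nat_lit 187)) (XT.lf (nat_lit 0) (nat_lit 1759834554) (nat_lit 684) (nat_lit 1221606760) (nat_lit 684) (nat_lit 1221606760) (nat_lit 138) (nat_lit 3) (nat_lit 147) (nat_lit 3) (nat_lit 147) (nat_lit 5) (nat_lit 353) (nat_lit 353)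 (nat_lit 314)))) (XT.nd (nat_lit 156) (nat_lit 0) (nat_lit 76) (XT.nd (nat_lit 78) (nat_lit 0) (nat_lit 76) (XT.lf (nat_lit 76) (nat_lit 1706807308) (nat_lit 0) (nat_lit 2960099914) (nat_lit 684) (nat_lit 3895724446) (nat_lit 139) (nat_lit 5) (nat_lit 138) (nat_lit 3) (nat_lit 147) (nat_lit 5) (nat_lit 354) (nat_lit 353) (nat_lit 313)) (XT.lf (nat_lit 0) (nat_lit 5850394497) (nat_lit 608) (nat_lit 2619188558) (nat_lit 684) (nat_lit 258508446) (nat_lit 139) (nat_lit 5) (nat_lit 147) (nat_lit 5) (nat_lit 148) (nat_lit 5) (nat_lit 355) (nat_lit 353) (nat_lit 312))) (XT.nd (nat_lit 78) (nat_lit 0) (nat_lit 0) (XT.lf (nat_lit 76) (nat_lit 1800546612) (nat_lit 0) (nat_lit 5306120138) (nat_lit 684) (nat_lit 1794516950) (nat_lit 140) (nat_lit 5) (nat_lit 139) (nat_lit 5) (nat_lit 148) (nat_lit 5) (nat_lit 356) (nat_lit 353) (nat_lit 311)) (XT.lf (nat_lit 76) (nat_lit 6494976164) (nat_lit 0) (nat_lit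 1914526598) (nat_lit 684) (nat_lit 674278244) (nat_lit 140) (nat_lit 5) (nat_lit 139) (nat_lit 5) (nat_lit 148) (nat_lit 5) (nat_lit 357) (nat_lit 353) (nat_lit 310)))))) (XT.nd (nat_lit 546) (nat_lit 1976) (nat_lit 0) (XT.nd (nat_lit 234) (nat_lit 532) (nat_lit 0) (XT.nd (nat_lit 78) (nat_lit 0) (nat_lit 0) (XT.lf (nat_lit 0) (nat_lit 487854460) (nat_lit 684) (nat_lit 7130214515) (nat_lit 760) (nat_lit 1656984398) (nat_lit 131) (nat_lit 5) (nat_lit 140) (nat_lit 5) (nat_lit 141) (nat_lit 5) (nat_lit 358) (nat_lit 353) (nat_lit 309)) (XT.nd (nat_lit 78) (nat_lit 0) (nat_lit 0) (XT.lf (nat_lit 0) (nat_lit 1705205737) (nat_lit 684) (nat_lit 2351800870) (nat_lit 760) (nat_lit 5417374290) (nat_lit 131) (nat_lit 5) (nat_lit 140) (nat_lit 5) (nat_lit 141) (nat_lit 5) (nat_lit 359) (nat_lit 353) (nat_lit 308)) (XT.lf (nat_lit 76) (nat_lit 2714325301) (nat_lit 0) (nat_lit 257977531) (nat_lit 760)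 (nat_lit 6711959319) (nat_lit 132) (nat_lit 5) (nat_lit 131) (nat_lit 5) (nat_lit 141) (nat_lit 5) (nat_lit 360) (nat_lit 353) (nat_lit 307)))) (XT.nd (nat_lit 156) (nat_lit 608) (nat_lit 0) (XT.nd (nat_lit 78) (nat_lit 0) (nat_lit 0) (XT.lf (nat_lit 0) (nat_lit 4350170304) (nat_lit 684) (nat_lit 1886438925) (nat_lit 760) (nat_lit 3665687240) (nat_lit 132) (nat_lit 5) (nat_lit 141) (nat_lit 5) (nat_lit 142) (nat_lit 5) (nat_lit 361) (nat_lit 353) (nat_lit 306)) (XT.lf (nat_lit 76) (nat_lit 3521332675) (nat_lit 0) (nat_lit 2285931475) (nat_lit 760) (nat_lit 4323480063) (nat_lit 133) (nat_lit 5) (nat_lit 132) (nat_lit 5) (nat_lit 142) (nat_lit 5) (nat_lit 362) (nat_lit 353) (nat_lit 305))) (XT.nd (nat_lit 78) (nat_lit 684) (nat_lit 0) (XT.lf (nat_lit 0) (nat_lit 7351769834) (nat_lit 684) (nat_lit 1173918327) (nat_lit 76) (nat_lit 1844225334) (nat_lit 133) (nat_lit 5) (nat_lit 142) (nat_lit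 5) (nat_lit 134) (nat_lit 5) (nat_lit 363) (nat_lit 353) (nat_lit 304)) (XT.lf (nat_lit 0) (nat_lit 4604891023) (nat_lit 684) (nat_lit 4433227171) (nat_lit 760) (nat_lit 1579717902) (nat_lit 124) (nat_lit 5) (nat_lit 133) (nat_lit 5) (nat_lit 134) (nat_lit 5) (nat_lit 364) (nat_lit 353) (nat_lit 303))))) (XT.nd (nat_lit 234) (nat_lit 760) (nat_lit 0) (XT.nd (nat_lit 78) (nat_lit 1216) (nat_lit 0) (XT.lf (nat_lit 0) (nat_lit 10675645993) (nat_lit 684) (nat_lit 109808366) (nat_lit 760) (nat_lit 93891447) (nat_lit 124) (nat_lit 5) (nat_lit 133) (nat_lit 5) (nat_lit 134) (nat_lit 5) (nat_lit 365) (nat_lit 353) (nat_lit 302)) (XT.nd (nat_lit 78) (nat_lit 380) (nat_lit 0) (XT.lf (nat_lit 0) (nat_lit 1542722707) (nat_lit 836) (nat_lit 5192631289) (nat_lit 76) (nat_lit 4411283392) (nat_lit 113) (nat_lit 5) (nat_lit 124) (nat_lit 5) (nat_lit 114) (nat_lit 5) (nat_lit 366) (nat_lit 353) (nat_lit 301))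 (XT.lf (nat_lit 0) (nat_lit 988948383) (nat_lit 380) (nat_lit 2249436813) (nat_lit 456) (nat_lit 8189833905) (nat_lit 108) (nat_lit 5) (nat_lit 113) (nat_lit 5) (nat_lit 114) (nat_lit 5) (nat_lit 367) (nat_lit 353) (nat_lit 300)))) (XT.nd (nat_lit 156) (nat_lit 380) (nat_lit 0) (XT.nd (nat_lit 78) (nat_lit 380) (nat_lit 0) (XT.lf (nat_lit 0) (nat_lit 5107596536) (nat_lit 456) (nat_lit 4139675793) (nat_lit 76) (nat_lit 2472189441) (nat_lit 108) (nat_lit 5) (nat_lit 114) (nat_lit 5) (nat_lit 109) (nat_lit 5) (nat_lit 368) (nat_lit 353) (nat_lit 299)) (XT.lf (nat_lit 0) (nat_lit 2479068439) (nat_lit 380) (nat_lit 4629604797) (nat_lit 456) (nat_lit 4914692290) (nat_lit 103) (nat_lit 5) (nat_lit 108) (nat_lit 5) (nat_lit 109) (nat_lit 5) (nat_lit 369) (nat_lit 353) (nat_lit 298))) (XT.nd (nat_lit 78) (nat_lit 380) (nat_lit 0) (XT.lf (nat_lit 0) (nat_lit 9248458049) (nat_lit 456) (nat_lit 2810530690)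 (nat_lit 76) (nat_lit 281561298) (nat_lit 103) (nat_lit 5) (nat_lit 109) (nat_lit 5) (nat_lit 104) (nat_lit 5) (nat_lit 370) (nat_lit 353) (nat_lit 297)) (XT.lf (nat_lit 0) (nat_lit 4283534428) (nat_lit 380) (nat_lit 7320165288) (nat_lit 456) (nat_lit 1064488087) (nat_lit 98) (nat_lit 5) (nat_lit 103) (nat_lit 5) (nat_lit 104) (nat_lit 5) (nat_lit 371) (nat_lit 353) (nat_lit 296))))))))
noncomputable def xc130 : XT := (XT.nd (nat_lit 2106) (nat_lit 1900) (nat_lit 0) (XT.nd (nat_lit 1014) (nat_lit 1596) (nat_lit 0) (XT.nd (nat_lit 468) (nat_lit 1140) (nat_lit 0) (XT.nd (nat_lit 234) (nat_lit 228) (nat_lit 0) (XT.nd (nat_lit 78) (nat_lit 608) (nat_lit 0) (XT.lf (nat_lit 0) (nat_lit 1044992940) (nat_lit 456) (nat_lit 1235471200) (nat_lit 76) (nat_lit 10730199750) (nat_lit 97) (nat_lit 5) (nat_lit 103) (nat_lit 5) (nat_lit 98) (nat_lit 5) (nat_lit 372) (nat_lit 353) (nat_lit 295)) (XT.nd (nat_lit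 78) (nat_lit 304) (nat_lit 0) (XT.lf (nat_lit 0) (nat_lit 3341134123) (nat_lit 380) (nat_lit 6991892927) (nat_lit 76) (nat_lit 3030531245) (nat_lit 93) (nat_lit 5) (nat_lit 98) (nat_lit 5) (nat_lit 94) (nat_lit 5) (nat_lit 373) (nat_lit 353) (nat_lit 294)) (XT.lf (nat_lit 0) (nat_lit 613688355) (nat_lit 304) (nat_lit 5175331323) (nat_lit 380) (nat_lit 7943245199) (nat_lit 89) (nat_lit 5) (nat_lit 93) (nat_lit 5) (nat_lit 94) (nat_lit 5) (nat_lit 374) (nat_lit 353) (nat_lit 293)))) (XT.nd (nat_lit 78) (nat_lit 228) (nat_lit 0) (XT.lf (nat_lit 0) (nat_lit 8452928529) (nat_lit 380) (nat_lit 5314947535) (nat_lit 76) (nat_lit 346862915) (nat_lit 89) (nat_lit 5) (nat_lit 94) (nat_lit 5) (nat_lit 90) (nat_lit 5) (nat_lit 375) (nat_lit 353) (nat_lit 292)) (XT.nd (nat_lit 78) (nat_lit 0) (nat_lit 0) (XT.lf (nat_lit 0) (nat_lit 2848957641) (nat_lit 228) (nat_lit 8501373842) (nat_lit 304) (nat_lit 3161003363)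 (nat_lit 86) (nat_lit 5) (nat_lit 89) (nat_lit 5) (nat_lit 90) (nat_lit 5) (nat_lit 376) (nat_lit 353) (nat_lit 291)) (XT.lf (nat_lit 0) (nat_lit 11569917504) (nat_lit 228) (nat_lit 2884500482) (nat_lit 304) (nat_lit 470264224) (nat_lit 86) (nat_lit 5) (nat_lit 89) (nat_lit 5) (nat_lit 90) (nat_lit 5) (nat_lit 377) (nat_lit 353) (nat_lit 290))))) (XT.nd (nat_lit 234) (nat_lit 532) (nat_lit 0) (XT.nd (nat_lit 78) (nat_lit 228) (nat_lit 0) (XT.lf (nat_lit 0) (nat_lit 2386688552) (nat_lit 380) (nat_lit 9931183833) (nat_lit 76) (nat_lit 3033644774) (nat_lit 81) (nat_lit 5) (nat_lit 86) (nat_lit 5) (nat_lit 82) (nat_lit 5) (nat_lit 378) (nat_lit 353) (nat_lit 289)) (XT.nd (nat_lit 78) (nat_lit 228) (nat_lit 0) (XT.lf (nat_lit 0) (nat_lit 5449054295) (nat_lit 380) (nat_lit 1137657774) (nat_lit 76) (nat_lit 9208688549) (nat_lit 81) (nat_lit 5) (nat_lit 86) (nat_lit 5) (nat_lit 82) (nat_lit 5) (nat_lit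 379) (nat_lit 353) (nat_lit 288)) (XT.lf (nat_lit 0) (nat_lit 8328259734) (nat_lit 228) (nat_lit 440912203) (nat_lit 304) (nat_lit 7487084811) (nat_lit 78) (nat_lit 5) (nat_lit 81) (nat_lit 5) (nat_lit 82) (nat_lit 5) (nat_lit 380) (nat_lit 353) (nat_lit 287)))) (XT.nd (nat_lit 156) (nat_lit 304) (nat_lit 0) (XT.nd (nat_lit 78) (nat_lit 0) (nat_lit 0) (XT.lf (nat_lit 0) (nat_lit 1486774830) (nat_lit 228) (nat_lit 10880344338) (nat_lit 304) (nat_lit 4367455026) (nat_lit 75) (nat_lit 5) (nat_lit 78) (nat_lit 5) (nat_lit 79) (nat_lit 5) (nat_lit 381) (nat_lit 353) (nat_lit 286)) (XT.lf (nat_lit 0) (nat_lit 11606209158) (nat_lit 228) (nat_lit 4655946242) (nat_lit 304) (nat_lit 968801763) (nat_lit 75) (nat_lit 5) (nat_lit 78) (nat_lit 5) (nat_lit 79) (nat_lit 5) (nat_lit 382) (nat_lit 353) (nat_lit 285))) (XT.nd (nat_lit 78) (nat_lit 0) (nat_lit 0) (XT.lf (nat_lit 0) (nat_lit 2595245427) (nat_lit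 304) (nat_lit 13227262211) (nat_lit 76) (nat_lit 1923696992) (nat_lit 71) (nat_lit 5) (nat_lit 75) (nat_lit 5) (nat_lit 72) (nat_lit 5) (nat_lit 383) (nat_lit 353) (nat_lit 284)) (XT.lf (nat_lit 0) (nat_lit 6455121352) (nat_lit 304) (nat_lit 3044612994) (nat_lit 76) (nat_lit 8779184778) (nat_lit 71) (nat_lit 5) (nat_lit 75) (nat_lit 5) (nat_lit 72) (nat_lit 5) (nat_lit 384) (nat_lit 353) (nat_lit 283)))))) (XT.nd (nat_lit 546) (nat_lit 760) (nat_lit 0) (XT.nd (nat_lit 234) (nat_lit 456) (nat_lit 0) (XT.nd (nat_lit 78) (nat_lit 152) (nat_lit 0) (XT.lf (nat_lit 0) (nat_lit 7867071981) (nat_lit 228) (nat_lit 2741877605) (nat_lit 304) (nat_lit 8224279426) (nat_lit 68) (nat_lit 5) (nat_lit 71) (nat_lit 5) (nat_lit 72) (nat_lit 5) (nat_lit 385) (nat_lit 353) (nat_lit 282)) (XT.nd (nat_lit 78) (nat_lit 152) (nat_lit 0) (XT.lf (nat_lit 0) (nat_lit 15069378509) (nat_lit 304) (nat_lit 83748182) (nat_lit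 76) (nat_lit 4257189474) (nat_lit 68) (nat_lit 5) (nat_lit 72) (nat_lit 5) (nat_lit 69) (nat_lit 5) (nat_lit 386) (nat_lit 353) (nat_lit 281)) (XT.lf (nat_lit 0) (nat_lit 11639616760) (nat_lit 152) (nat_lit 8319436406) (nat_lit 228) (nat_lit 46900186) (nat_lit 66) (nat_lit 5) (nat_lit 68) (nat_lit 5) (nat_lit 69) (nat_lit 5) (nat_lit 387) (nat_lit 353) (nat_lit 280)))) (XT.nd (nat_lit 156) (nat_lit 152) (nat_lit 0) (XT.nd (nat_lit 78) (nat_lit 0) (nat_lit 0) (XT.lf (nat_lit 0) (nat_lit 3326606316) (nat_lit 228) (nat_lit 1025521816) (nat_lit 304) (nat_lit 16274112641) (nat_lit 62) (nat_lit 5) (nat_lit 65) (nat_lit 5) (nat_lit 66) (nat_lit 5) (nat_lit 388) (nat_lit 353) (nat_lit 279)) (XT.lf (nat_lit 0) (nat_lit 9197144468) (nat_lit 304) (nat_lit 5513721417) (nat_lit 76) (nat_lit 6555263549) (nat_lit 62) (nat_lit 5) (nat_lit 66) (nat_lit 5) (nat_lit 63) (nat_lit 5) (nat_lit 389) (nat_lit 353)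 (nat_lit 278))) (XT.nd (nat_lit 78) (nat_lit 0) (nat_lit 0) (XT.lf (nat_lit 0) (nat_lit 7040228404) (nat_lit 152) (nat_lit 7351904118) (nat_lit 228) (nat_lit 7540499631) (nat_lit 60) (nat_lit 5) (nat_lit 62) (nat_lit 5) (nat_lit 63) (nat_lit 5) (nat_lit 390) (nat_lit 353) (nat_lit 277)) (XT.lf (nat_lit 0) (nat_lit 19928904675) (nat_lit 228) (nat_lit 2251940949) (nat_lit 76) (nat_lit 447518048) (nat_lit 60) (nat_lit 5) (nat_lit 63) (nat_lit 5) (nat_lit 61) (nat_lit 5) (nat_lit 391) (nat_lit 353) (nat_lit 276))))) (XT.nd (nat_lit 234) (nat_lit 380) (nat_lit 0) (XT.nd (nat_lit 78) (nat_lit 152) (nat_lit 0) (XT.lf (nat_lit 0) (nat_lit 2589926751) (nat_lit 228) (nat_lit 12155911351) (nat_lit 76) (nat_lit 8597058588) (nat_lit 57) (nat_lit 5) (nat_lit 60) (nat_lit 5) (nat_lit 58) (nat_lit 5) (nat_lit 392) (nat_lit 353) (nat_lit 275)) (XT.nd (nat_lit 78) (nat_lit 0) (nat_lit 0) (XT.lf (nat_lit 0)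 (nat_lit 1251197382) (nat_lit 152) (nat_lit 6842444933) (nat_lit 228) (nat_lit 15995277033) (nat_lit 55) (nat_lit 5) (nat_lit 57) (nat_lit 5) (nat_lit 58) (nat_lit 5) (nat_lit 393) (nat_lit 353) (nat_lit 274)) (XT.lf (nat_lit 0) (nat_lit 14087031720) (nat_lit 228) (nat_lit 9166367199) (nat_lit 76) (nat_lit 1608124259) (nat_lit 55) (nat_lit 5) (nat_lit 58) (nat_lit 5) (nat_lit 56) (nat_lit 5) (nat_lit 394) (nat_lit 353) (nat_lit 273)))) (XT.nd (nat_lit 156) (nat_lit 152) (nat_lit 0) (XT.nd (nat_lit 78) (nat_lit 76) (nat_lit 0) (XT.lf (nat_lit 0) (nat_lit 5215704158) (nat_lit 152) (nat_lit 15341335028) (nat_lit 228) (nat_lit 5106874814) (nat_lit 53) (nat_lit 5) (nat_lit 55) (nat_lit 5) (nat_lit 56) (nat_lit 5) (nat_lit 395) (nat_lit 353) (nat_lit 272)) (XT.lf (nat_lit 0) (nat_lit 958330796) (nat_lit 228) (nat_lit 5906992741) (nat_lit 76) (nat_lit 19633384439) (nat_lit 52) (nat_lit 5) (nat_lit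 55) (nat_lit 5) (nat_lit 53) (nat_lit 5) (nat_lit 396) (nat_lit 353) (nat_lit 271))) (XT.nd (nat_lit 78) (nat_lit 0) (nat_lit 0) (XT.lf (nat_lit 0) (nat_lit 7324033158) (nat_lit 228) (nat_lit 17842753329) (nat_lit 76) (nat_lit 2195829808) (nat_lit 50) (nat_lit 5) (nat_lit 53) (nat_lit 5) (nat_lit 51) (nat_lit 5) (nat_lit 397) (nat_lit 353) (nat_lit 270)) (XT.lf (nat_lit 0) (nat_lit 14206657233) (nat_lit 228) (nat_lit 2482350372) (nat_lit 76) (nat_lit 11570784076) (nat_lit 50) (nat_lit 5) (nat_lit 53) (nat_lit 5) (nat_lit 51) (nat_lit 5) (nat_lit 398) (nat_lit 353) (nat_lit 269))))))) (XT.nd (nat_lit 1014) (nat_lit 760) (nat_lit 0) (XT.nd (nat_lit 468) (nat_lit 608) (nat_lit 0) (XT.nd (nat_lit 234) (nat_lit 228) (nat_lit 0) (XT.nd (nat_lit 78) (nat_lit 152) (nat_lit 0) (XT.lf (nat_lit 0) (nat_lit 14071117425) (nat_lit 152) (nat_lit 7567139486) (nat_lit 228) (nat_lit 7553330018) (nat_lit 48)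 (nat_lit 5) (nat_lit 50) (nat_lit 5) (nat_lit 51) (nat_lit 5) (nat_lit 399) (nat_lit 353) (nat_lit 268)) (XT.nd (nat_lit 78) (nat_lit 76) (nat_lit 0) (XT.lf (nat_lit 0) (nat_lit 1356422536) (nat_lit 76) (nat_lit 28165625842) (nat_lit 152) (nat_lit 643896128) (nat_lit 47) (nat_lit 5) (nat_lit 48) (nat_lit 5) (nat_lit 49) (nat_lit 4) (nat_lit 400) (nat_lit 353) (nat_lit 267)) (XT.lf (nat_lit 0) (nat_lit 6769117865) (nat_lit 152) (nat_lit 12251127662) (nat_lit 76) (nat_lit 12145131377) (nat_lit 46) (nat_lit 5) (nat_lit 48) (nat_lit 5) (nat_lit 47) (nat_lit 5) (nat_lit 401) (nat_lit 353) (nat_lit 266)))) (XT.nd (nat_lit 78) (nat_lit 76) (nat_lit 0) (XT.lf (nat_lit 0) (nat_lit 5268932970) (nat_lit 152) (nat_lit 9330549604) (nat_lit 228) (nat_lit 17611356335) (nat_lit 44) (nat_lit 5) (nat_lit 46) (nat_lit 5) (nat_lit 47) (nat_lit 5) (nat_lit 402) (nat_lit 353) (nat_lit 265)) (XT.nd (nat_lit 78)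 (nat_lit 76) (nat_lit 0) (XT.lf (nat_lit 0) (nat_lit 23031621609) (nat_lit 228) (nat_lit 9248912002) (nat_lit 76) (nat_lit 1017530195) (nat_lit 44) (nat_lit 5) (nat_lit 47) (nat_lit 5) (nat_lit 45) (nat_lit 4) (nat_lit 403) (nat_lit 353) (nat_lit 264)) (XT.lf (nat_lit 0) (nat_lit 9455091579) (nat_lit 76) (nat_lit 22717717825) (nat_lit 152) (nat_lit 2252470927) (nat_lit 43) (nat_lit 5) (nat_lit 44) (nat_lit 5) (nat_lit 45) (nat_lit 4) (nat_lit 404) (nat_lit 353) (nat_lit 263))))) (XT.nd (nat_lit 234) (nat_lit 380) (nat_lit 0) (XT.nd (nat_lit 78) (nat_lit 152) (nat_lit 0) (XT.lf (nat_lit 0) (nat_lit 6111088566) (nat_lit 152) (nat_lit 6307767462) (nat_lit 76) (nat_lit 23177887513) (nat_lit 42) (nat_lit 5) (nat_lit 44) (nat_lit 5) (nat_lit 43) (nat_lit 5) (nat_lit 405) (nat_lit 353) (nat_lit 262)) (XT.nd (nat_lit 78) (nat_lit 0) (nat_lit 0) (XT.lf (nat_lit 0) (nat_lit 13665997627) (nat_lit 152)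 (nat_lit 1352034109) (nat_lit 228) (nat_lit 21796858847) (nat_lit 40) (nat_lit 5) (nat_lit 42) (nat_lit 5) (nat_lit 43) (nat_lit 5) (nat_lit 406) (nat_lit 353) (nat_lit 261)) (XT.lf (nat_lit 0) (nat_lit 24626852114) (nat_lit 228) (nat_lit 3415578106) (nat_lit 76) (nat_lit 10038690291) (nat_lit 40) (nat_lit 5) (nat_lit 43) (nat_lit 5) (nat_lit 41) (nat_lit 4) (nat_lit 407) (nat_lit 353) (nat_lit 260)))) (XT.nd (nat_lit 156) (nat_lit 228) (nat_lit 0) (XT.nd (nat_lit 78) (nat_lit 76) (nat_lit 0) (XT.lf (nat_lit 0) (nat_lit 17831676038) (nat_lit 76) (nat_lit 17173232453) (nat_lit 152) (nat_lit 4391315633) (nat_lit 39) (nat_lit 5) (nat_lit 40) (nat_lit 5) (nat_lit 41) (nat_lit 4) (nat_lit 408) (nat_lit 353) (nat_lit 259)) (XT.lf (nat_lit 0) (nat_lit 5007823081) (nat_lit 152) (nat_lit 616610359) (nat_lit 76) (nat_lit 35146297451) (nat_lit 38) (nat_lit 5) (nat_lit 40) (nat_lit 5) (nat_lit 39) (nat_lit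 5) (nat_lit 409) (nat_lit 353) (nat_lit 258))) (XT.nd (nat_lit 78) (nat_lit 76) (nat_lit 0) (XT.lf (nat_lit 0) (nat_lit 15169677382) (nat_lit 228) (nat_lit 20311691136) (nat_lit 76) (nat_lit 6706979930) (nat_lit 36) (nat_lit 5) (nat_lit 39) (nat_lit 5) (nat_lit 37) (nat_lit 4) (nat_lit 410) (nat_lit 353) (nat_lit 257)) (XT.lf (nat_lit 0) (nat_lit 1783997323) (nat_lit 76) (nat_lit 24175205842) (nat_lit 152) (nat_lit 17711666374) (nat_lit 35) (nat_lit 5) (nat_lit 36) (nat_lit 5) (nat_lit 37) (nat_lit 4) (nat_lit 411) (nat_lit 353) (nat_lit 256)))))) (XT.nd (nat_lit 546) (nat_lit 304) (nat_lit 0) (XT.nd (nat_lit 234) (nat_lit 228) (nat_lit 0) (XT.nd (nat_lit 78) (nat_lit 228) (nat_lit 0) (XT.lf (nat_lit 0) (nat_lit 25669577605) (nat_lit 76) (nat_lit 11951738774) (nat_lit 152) (nat_lit 7589546268) (nat_lit 35) (nat_lit 5) (nat_lit 36) (nat_lit 5) (nat_lit 37) (nat_lit 4) (nat_lit 412) (nat_lit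 353) (nat_lit 255)) (XT.nd (nat_lit 78) (nat_lit 0) (nat_lit 0) (XT.lf (nat_lit 0) (nat_lit 3008506947) (nat_lit 228) (nat_lit 42856215021) (nat_lit 76) (nat_lit 957408510) (nat_lit 32) (nat_lit 5) (nat_lit 35) (nat_lit 5) (nat_lit 33) (nat_lit 4) (nat_lit 413) (nat_lit 353) (nat_lit 254)) (XT.lf (nat_lit 0) (nat_lit 14403235158) (nat_lit 228) (nat_lit 19515812216) (nat_lit 76) (nat_lit 14562603158) (nat_lit 32) (nat_lit 5) (nat_lit 35) (nat_lit 5) (nat_lit 33) (nat_lit 4) (nat_lit 414) (nat_lit 353) (nat_lit 253)))) (XT.nd (nat_lit 156) (nat_lit 152) (nat_lit 0) (XT.nd (nat_lit 78) (nat_lit 0) (nat_lit 0) (XT.lf (nat_lit 0) (nat_lit 5137442255) (nat_lit 76) (nat_lit 21300500091) (nat_lit 152) (nat_lit 23782693362) (nat_lit 31) (nat_lit 5) (nat_lit 32) (nat_lit 5) (nat_lit 33) (nat_lit 4) (nat_lit 415) (nat_lit 353) (nat_lit 252)) (XT.lf (nat_lit 0) (nat_lit 31682605652) (nat_lit 76) (nat_lit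 7712510600) (nat_lit 152) (nat_lit 12635418514) (nat_lit 31) (nat_lit 5) (nat_lit 32) (nat_lit 5) (nat_lit 33) (nat_lit 4) (nat_lit 416) (nat_lit 353) (nat_lit 251))) (XT.nd (nat_lit 78) (nat_lit 76) (nat_lit 0) (XT.lf (nat_lit 0) (nat_lit 5685977780) (nat_lit 76) (nat_lit 47495845720) (nat_lit 76) (nat_lit 740022675) (nat_lit 30) (nat_lit 4) (nat_lit 31) (nat_lit 5) (nat_lit 31) (nat_lit 4) (nat_lit 417) (nat_lit 353) (nat_lit 250)) (XT.lf (nat_lit 0) (nat_lit 11841335092) (nat_lit 152) (nat_lit 22495808582) (nat_lit 76) (nat_lit 21538044371) (nat_lit 29) (nat_lit 5) (nat_lit 31) (nat_lit 5) (nat_lit 30) (nat_lit 4) (nat_lit 418) (nat_lit 353) (nat_lit 249))))) (XT.nd (nat_lit 234) (nat_lit 152) (nat_lit 0) (XT.nd (nat_lit 78) (nat_lit 76) (nat_lit 0) (XT.lf (nat_lit 0) (nat_lit 4651039072) (nat_lit 76) (nat_lit 20439500441) (nat_lit 152) (nat_lit 32831869481) (nat_lit 28) (nat_lit 5) (nat_lit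 29) (nat_lit 5) (nat_lit 30) (nat_lit 4) (nat_lit 419) (nat_lit 353) (nat_lit 248)) (XT.nd (nat_lit 78) (nat_lit 76) (nat_lit 0) (XT.lf (nat_lit 0) (nat_lit 33919560182) (nat_lit 76) (nat_lit 5454820712) (nat_lit 152) (nat_lit 20679002190) (nat_lit 28) (nat_lit 5) (nat_lit 29) (nat_lit 5) (nat_lit 30) (nat_lit 4) (nat_lit 420) (nat_lit 353) (nat_lit 247)) (XT.lf (nat_lit 0) (nat_lit 2256145165) (nat_lit 76) (nat_lit 52303480742) (nat_lit 76) (nat_lit 7721920282) (nat_lit 27) (nat_lit 4) (nat_lit 28) (nat_lit 5) (nat_lit 28) (nat_lit 4) (nat_lit 421) (nat_lit 353) (nat_lit 246)))) (XT.nd (nat_lit 156) (nat_lit 76) (nat_lit 0) (XT.nd (nat_lit 78) (nat_lit 0) (nat_lit 0) (XT.lf (nat_lit 0) (nat_lit 6225510176) (nat_lit 152) (nat_lit 31830800045) (nat_lit 76) (nat_lit 26533676130) (nat_lit 26) (nat_lit 5) (nat_lit 28) (nat_lit 5) (nat_lit 27) (nat_lit 4) (nat_lit 422) (nat_lit 353) (nat_lit 245))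 (XT.lf (nat_lit 0) (nat_lit 20602728730) (nat_lit 152) (nat_lit 2368488149) (nat_lit 76) (nat_lit 44036706779) (nat_lit 26) (nat_lit 5) (nat_lit 28) (nat_lit 5) (nat_lit 27) (nat_lit 4) (nat_lit 423) (nat_lit 353) (nat_lit 244))) (XT.nd (nat_lit 78) (nat_lit 0) (nat_lit 0) (XT.lf (nat_lit 0) (nat_lit 29496309966) (nat_lit 76) (nat_lit 6655326620) (nat_lit 152) (nat_lit 33372480556) (nat_lit 25) (nat_lit 5) (nat_lit 26) (nat_lit 5) (nat_lit 27) (nat_lit 4) (nat_lit 424) (nat_lit 353) (nat_lit 243)) (XT.lf (nat_lit 0) (nat_lit 52674665210) (nat_lit 152) (nat_lit 9306489941) (nat_lit 0) (nat_lit 10175132077) (nat_lit 25) (nat_lit 5) (nat_lit 27) (nat_lit 4) (nat_lit 25) (nat_lit 4) (nat_lit 425) (nat_lit 353) (nat_lit 242))))))))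
noncomputable def xc131 : XT := (XT.nd (nat_lit 2106) (nat_lit 456) (nat_lit 0) (XT.nd (nat_lit 1014) (nat_lit 456) (nat_lit 0) (XT.nd (nat_lit 468) (nat_lit 380) (nat_lit 0) (XT.nd (nat_lit 234) (nat_lit 76) (nat_lit 0) (XT.nd (nat_lit 78) (nat_lit 152) (nat_lit 0) (XT.lf (nat_lit 0) (nat_lit 23582550831) (nat_lit 76) (nat_lit 46911293575) (nat_lit 76) (nat_lit 4402722117) (nat_lit 24) (nat_lit 4) (nat_lit 25) (nat_lit 5) (nat_lit 25) (nat_lit 4) (nat_lit 426) (nat_lit 353) (nat_lit 241)) (XT.nd (nat_lit 78) (nat_lit 76) (nat_lit 0) (XT.lf (nat_lit 0) (nat_lit 11217200707) (nat_lit 152) (nat_lit 19521917934) (nat_lit 76) (nat_lit 47018173268) (nat_lit 23) (nat_lit 5) (nat_lit 25) (nat_lit 5) (nat_lit 24) (nat_lit 4) (nat_lit 427) (nat_lit 353) (nat_lit 240)) (XT.lf (nat_lit 0) (nat_lit 14229673464) (nat_lit 76) (nat_lit 13455717207) (nat_lit 152) (nat_lit 53061293111) (nat_lit 22) (nat_lit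 5) (nat_lit 23) (nat_lit 5) (nat_lit 24) (nat_lit 4) (nat_lit 428) (nat_lit 353) (nat_lit 239)))) (XT.nd (nat_lit 78) (nat_lit 76) (nat_lit 0) (XT.lf (nat_lit 0) (nat_lit 45379368004) (nat_lit 152) (nat_lit 33614486183) (nat_lit 0) (nat_lit 4871572712) (nat_lit 22) (nat_lit 5) (nat_lit 24) (nat_lit 4) (nat_lit 22) (nat_lit 4) (nat_lit 429) (nat_lit 353) (nat_lit 238)) (XT.nd (nat_lit 78) (nat_lit 0) (nat_lit 0) (XT.lf (nat_lit 0) (nat_lit 722955777) (nat_lit 76) (nat_lit 63460382142) (nat_lit 76) (nat_lit 22945505086) (nat_lit 21) (nat_lit 4) (nat_lit 22) (nat_lit 5) (nat_lit 22) (nat_lit 4) (nat_lit 430) (nat_lit 353) (nat_lit 237)) (XT.lf (nat_lit 0) (nat_lit 37931732778) (nat_lit 76) (nat_lit 46558589222) (nat_lit 76) (nat_lit 6036967629) (nat_lit 21) (nat_lit 4) (nat_lit 22) (nat_lit 5) (nat_lit 22) (nat_lit 4) (nat_lit 431) (nat_lit 353) (nat_lit 236))))) (XT.nd (nat_lit 234) (nat_lit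 228) (nat_lit 0) (XT.nd (nat_lit 78) (nat_lit 76) (nat_lit 0) (XT.lf (nat_lit 0) (nat_lit 11335724077) (nat_lit 152) (nat_lit 17289810601) (nat_lit 76) (nat_lit 65461290373) (nat_lit 20) (nat_lit 5) (nat_lit 22) (nat_lit 5) (nat_lit 21) (nat_lit 4) (nat_lit 432) (nat_lit 353) (nat_lit 235)) (XT.nd (nat_lit 78) (nat_lit 0) (nat_lit 0) (XT.lf (nat_lit 0) (nat_lit 20321071287) (nat_lit 76) (nat_lit 9364408586) (nat_lit 152) (nat_lit 68118343904) (nat_lit 19) (nat_lit 5) (nat_lit 20) (nat_lit 5) (nat_lit 21) (nat_lit 4) (nat_lit 433) (nat_lit 353) (nat_lit 234)) (XT.lf (nat_lit 0) (nat_lit 49413947901) (nat_lit 152) (nat_lit 41465228813) (nat_lit 0) (nat_lit 10804434911) (nat_lit 19) (nat_lit 5) (nat_lit 21) (nat_lit 4) (nat_lit 19) (nat_lit 4) (nat_lit 434) (nat_lit 353) (nat_lit 233)))) (XT.nd (nat_lit 156) (nat_lit 152) (nat_lit 0) (XT.nd (nat_lit 78) (nat_lit 76) (nat_lit 0) (XT.lf (nat_lit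 0) (nat_lit 70276698456) (nat_lit 152) (nat_lit 3811396894) (nat_lit 0) (nat_lit 31661900945) (nat_lit 19) (nat_lit 5) (nat_lit 21) (nat_lit 4) (nat_lit 19) (nat_lit 4) (nat_lit 435) (nat_lit 353) (nat_lit 232)) (XT.lf (nat_lit 0) (nat_lit 36895485870) (nat_lit 76) (nat_lit 55857756156) (nat_lit 76) (nat_lit 17237925767) (nat_lit 18) (nat_lit 4) (nat_lit 19) (nat_lit 5) (nat_lit 19) (nat_lit 4) (nat_lit 436) (nat_lit 353) (nat_lit 231))) (XT.nd (nat_lit 78) (nat_lit 76) (nat_lit 0) (XT.lf (nat_lit 0) (nat_lit 1908335382) (nat_lit 152) (nat_lit 34712536071) (nat_lit 76) (nat_lit 77819024975) (nat_lit 17) (nat_lit 5) (nat_lit 19) (nat_lit 5) (nat_lit 18) (nat_lit 4) (nat_lit 437) (nat_lit 353) (nat_lit 230)) (XT.lf (nat_lit 0) (nat_lit 5472292216) (nat_lit 76) (nat_lit 16040625241) (nat_lit 152) (nat_lit 97579999147) (nat_lit 16) (nat_lit 5) (nat_lit 17) (nat_lit 5) (nat_lit 18) (nat_lit 4)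 (nat_lit 438) (nat_lit 353) (nat_lit 229)))))) (XT.nd (nat_lit 546) (nat_lit 228) (nat_lit 0) (XT.nd (nat_lit 234) (nat_lit 152) (nat_lit 0) (XT.nd (nat_lit 78) (nat_lit 76) (nat_lit 0) (XT.lf (nat_lit 0) (nat_lit 42777073132) (nat_lit 152) (nat_lit 75184318568) (nat_lit 0) (nat_lit 5983229169) (nat_lit 16) (nat_lit 5) (nat_lit 18) (nat_lit 4) (nat_lit 16) (nat_lit 4) (nat_lit 439) (nat_lit 353) (nat_lit 228)) (XT.nd (nat_lit 78) (nat_lit 76) (nat_lit 0) (XT.lf (nat_lit 0) (nat_lit 65362532570) (nat_lit 152) (nat_lit 35098728052) (nat_lit 0) (nat_lit 28564745215) (nat_lit 16) (nat_lit 5) (nat_lit 18) (nat_lit 4) (nat_lit 16) (nat_lit 4) (nat_lit 440) (nat_lit 353) (nat_lit 227)) (XT.lf (nat_lit 0) (nat_lit 7212885538) (nat_lit 76) (nat_lit 81972359379) (nat_lit 76) (nat_lit 45170816414) (nat_lit 15) (nat_lit 4) (nat_lit 16) (nat_lit 5) (nat_lit 16) (nat_lit 4) (nat_lit 441) (nat_lit 353)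 (nat_lit 226)))) (XT.nd (nat_lit 156) (nat_lit 152) (nat_lit 0) (XT.nd (nat_lit 78) (nat_lit 0) (nat_lit 0) (XT.lf (nat_lit 0) (nat_lit 52849661554) (nat_lit 76) (nat_lit 61939292493) (nat_lit 76) (nat_lit 25134172756) (nat_lit 15) (nat_lit 4) (nat_lit 16) (nat_lit 5) (nat_lit 16) (nat_lit 4) (nat_lit 442) (nat_lit 353) (nat_lit 225)) (XT.lf (nat_lit 0) (nat_lit 100759736526) (nat_lit 76) (nat_lit 40908776129) (nat_lit 76) (nat_lit 4100249943) (nat_lit 15) (nat_lit 4) (nat_lit 16) (nat_lit 5) (nat_lit 16) (nat_lit 4) (nat_lit 443) (nat_lit 353) (nat_lit 224))) (XT.nd (nat_lit 78) (nat_lit 76) (nat_lit 0) (XT.lf (nat_lit 0) (nat_lit 17405527450) (nat_lit 152) (nat_lit 1130439149) (nat_lit 76) (nat_lit 133356883582) (nat_lit 14) (nat_lit 5) (nat_lit 16) (nat_lit 5) (nat_lit 15) (nat_lit 4) (nat_lit 444) (nat_lit 353) (nat_lit 223)) (XT.lf (nat_lit 0) (nat_lit 40658735482) (nat_lit 152) (nat_lit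 112023585275) (nat_lit 0) (nat_lit 5596963888) (nat_lit 13) (nat_lit 5) (nat_lit 15) (nat_lit 4) (nat_lit 13) (nat_lit 4) (nat_lit 445) (nat_lit 353) (nat_lit 222))))) (XT.nd (nat_lit 234) (nat_lit 152) (nat_lit 0) (XT.nd (nat_lit 78) (nat_lit 76) (nat_lit 0) (XT.lf (nat_lit 0) (nat_lit 65393942700) (nat_lit 152) (nat_lit 69245762786) (nat_lit 0) (nat_lit 30329368612) (nat_lit 13) (nat_lit 5) (nat_lit 15) (nat_lit 4) (nat_lit 13) (nat_lit 4) (nat_lit 446) (nat_lit 353) (nat_lit 221)) (XT.nd (nat_lit 78) (nat_lit 76) (nat_lit 0) (XT.lf (nat_lit 0) (nat_lit 91362112280) (nat_lit 152) (nat_lit 24336561690) (nat_lit 0) (nat_lit 56294869149) (nat_lit 13) (nat_lit 5) (nat_lit 15) (nat_lit 4) (nat_lit 13) (nat_lit 4) (nat_lit 447) (nat_lit 353) (nat_lit 220)) (XT.lf (nat_lit 0) (nat_lit 23565177531) (nat_lit 76) (nat_lit 95427814129) (nat_lit 76) (nat_lit 60358029053) (nat_lit 12) (nat_lit 4) (nat_lit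 13) (nat_lit 5) (nat_lit 13) (nat_lit 4) (nat_lit 448) (nat_lit 353) (nat_lit 219)))) (XT.nd (nat_lit 156) (nat_lit 152) (nat_lit 0) (XT.nd (nat_lit 78) (nat_lit 0) (nat_lit 0) (XT.lf (nat_lit 0) (nat_lit 74699874803) (nat_lit 76) (nat_lit 73714136851) (nat_lit 76) (nat_lit 38641930875) (nat_lit 12) (nat_lit 4) (nat_lit 13) (nat_lit 5) (nat_lit 13) (nat_lit 4) (nat_lit 449) (nat_lit 353) (nat_lit 218)) (XT.lf (nat_lit 0) (nat_lit 128384602770) (nat_lit 76) (nat_lit 50918094354) (nat_lit 76) (nat_lit 15843582759) (nat_lit 12) (nat_lit 4) (nat_lit 13) (nat_lit 5) (nat_lit 13) (nat_lit 4) (nat_lit 450) (nat_lit 353) (nat_lit 217))) (XT.nd (nat_lit 78) (nat_lit 76) (nat_lit 0) (XT.lf (nat_lit 0) (nat_lit 7832325038) (nat_lit 152) (nat_lit 19020441093) (nat_lit 76) (nat_lit 176782212959) (nat_lit 11) (nat_lit 5) (nat_lit 13) (nat_lit 5) (nat_lit 12) (nat_lit 4) (nat_lit 451) (nat_lit 353) (nat_lit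 216)) (XT.lf (nat_lit 0) (nat_lit 31861715511) (nat_lit 76) (nat_lit 792193853) (nat_lit 152) (nat_lit 179856501024) (nat_lit 10) (nat_lit 5) (nat_lit 11) (nat_lit 5) (nat_lit 12) (nat_lit 4) (nat_lit 452) (nat_lit 353) (nat_lit 215))))))) (XT.nd (nat_lit 1014) (nat_lit 228) (nat_lit 0) (XT.nd (nat_lit 468) (nat_lit 152) (nat_lit 0) (XT.nd (nat_lit 234) (nat_lit 76) (nat_lit 0) (XT.nd (nat_lit 78) (nat_lit 0) (nat_lit 0) (XT.lf (nat_lit 0) (nat_lit 59455713347) (nat_lit 152) (nat_lit 136291506216) (nat_lit 0) (nat_lit 26045436807) (nat_lit 10) (nat_lit 5) (nat_lit 12) (nat_lit 4) (nat_lit 10) (nat_lit 4) (nat_lit 453) (nat_lit 353) (nat_lit 214)) (XT.nd (nat_lit 78) (nat_lit 0) (nat_lit 0) (XT.lf (nat_lit 0) (nat_lit 87607627907) (nat_lit 152) (nat_lit 89735341002) (nat_lit 0) (nat_lit 54195544854) (nat_lit 10) (nat_lit 5) (nat_lit 12) (nat_lit 4) (nat_lit 10) (nat_lit 4) (nat_lit 454) (nat_lit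 353) (nat_lit 213)) (XT.lf (nat_lit 0) (nat_lit 117164313047) (nat_lit 152) (nat_lit 40856982857) (nat_lit 0) (nat_lit 83750509505) (nat_lit 10) (nat_lit 5) (nat_lit 12) (nat_lit 4) (nat_lit 10) (nat_lit 4) (nat_lit 455) (nat_lit 353) (nat_lit 212)))) (XT.nd (nat_lit 78) (nat_lit 0) (nat_lit 0) (XT.lf (nat_lit 0) (nat_lit 10805798289) (nat_lit 76) (nat_lit 137559052332) (nat_lit 76) (nat_lit 104143610229) (nat_lit 9) (nat_lit 4) (nat_lit 10) (nat_lit 5) (nat_lit 10) (nat_lit 4) (nat_lit 456) (nat_lit 353) (nat_lit 211)) (XT.nd (nat_lit 78) (nat_lit 0) (nat_lit 0) (XT.lf (nat_lit 0) (nat_lit 66464919003) (nat_lit 76) (nat_lit 115349784201) (nat_lit 76) (nat_lit 81932781565) (nat_lit 9) (nat_lit 4) (nat_lit 10) (nat_lit 5) (nat_lit 10) (nat_lit 4) (nat_lit 457) (nat_lit 353) (nat_lit 210)) (XT.lf (nat_lit 0) (nat_lit 124901984634) (nat_lit 76) (nat_lit 92032545077) (nat_lit 76) (nat_lit 58614056219)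 (nat_lit 9) (nat_lit 4) (nat_lit 10) (nat_lit 5) (nat_lit 10) (nat_lit 4) (nat_lit 458) (nat_lit 353) (nat_lit 209))))) (XT.nd (nat_lit 234) (nat_lit 0) (nat_lit 0) (XT.nd (nat_lit 78) (nat_lit 152) (nat_lit 0) (XT.lf (nat_lit 0) (nat_lit 186256131050) (nat_lit 76) (nat_lit 67551817725) (nat_lit 76) (nat_lit 34131913416) (nat_lit 9) (nat_lit 4) (nat_lit 10) (nat_lit 5) (nat_lit 10) (nat_lit 4) (nat_lit 459) (nat_lit 353) (nat_lit 208)) (XT.nd (nat_lit 78) (nat_lit 152) (nat_lit 0) (XT.lf (nat_lit 0) (nat_lit 250673439552) (nat_lit 76) (nat_lit 41849314697) (nat_lit 76) (nat_lit 8428062340) (nat_lit 9) (nat_lit 4) (nat_lit 10) (nat_lit 5) (nat_lit 10) (nat_lit 4) (nat_lit 460) (nat_lit 353) (nat_lit 207)) (XT.lf (nat_lit 0) (nat_lit 3517691939) (nat_lit 76) (nat_lit 14501931548) (nat_lit 152) (nat_lit 296575570389) (nat_lit 7) (nat_lit 5) (nat_lit 8) (nat_lit 5) (nat_lit 9) (nat_lit 4) (nat_lit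 461) (nat_lit 353) (nat_lit 206)))) (XT.nd (nat_lit 156) (nat_lit 0) (nat_lit 0) (XT.nd (nat_lit 78) (nat_lit 0) (nat_lit 0) (XT.lf (nat_lit 0) (nat_lit 46591580170) (nat_lit 152) (nat_lit 267509616650) (nat_lit 0) (nat_lit 14759428808) (nat_lit 7) (nat_lit 5) (nat_lit 9) (nat_lit 4) (nat_lit 7) (nat_lit 4) (nat_lit 462) (nat_lit 353) (nat_lit 205)) (XT.lf (nat_lit 0) (nat_lit 76827768886) (nat_lit 152) (nat_lit 222005269971) (nat_lit 0) (nat_lit 44994508482) (nat_lit 7) (nat_lit 5) (nat_lit 9) (nat_lit 4) (nat_lit 7) (nat_lit 4) (nat_lit 463) (nat_lit 353) (nat_lit 204))) (XT.nd (nat_lit 78) (nat_lit 0) (nat_lit 0) (XT.lf (nat_lit 0) (nat_lit 108573764769) (nat_lit 152) (nat_lit 174229702422) (nat_lit 0) (nat_lit 76739448134) (nat_lit 7) (nat_lit 5) (nat_lit 9) (nat_lit 4) (nat_lit 7) (nat_lit 4) (nat_lit 464) (nat_lit 353) (nat_lit 203)) (XT.lf (nat_lit 0) (nat_lit 141905153524) (nat_lit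 152) (nat_lit 124069162654) (nat_lit 0) (nat_lit 110069830955) (nat_lit 7) (nat_lit 5) (nat_lit 9) (nat_lit 4) (nat_lit 7) (nat_lit 4) (nat_lit 465) (nat_lit 353) (nat_lit 202)))))) (XT.nd (nat_lit 546) (nat_lit 152) (nat_lit 0) (XT.nd (nat_lit 234) (nat_lit 0) (nat_lit 0) (XT.nd (nat_lit 78) (nat_lit 76) (nat_lit 0) (XT.lf (nat_lit 0) (nat_lit 176901295599) (nat_lit 152) (nat_lit 71404220809) (nat_lit 0) (nat_lit 145065014998) (nat_lit 7) (nat_lit 5) (nat_lit 9) (nat_lit 4) (nat_lit 7) (nat_lit 4) (nat_lit 466) (nat_lit 353) (nat_lit 201)) (XT.nd (nat_lit 78) (nat_lit 76) (nat_lit 0) (XT.lf (nat_lit 0) (nat_lit 213645515142) (nat_lit 152) (nat_lit 16109484169) (nat_lit 0) (nat_lit 181808322129) (nat_lit 7) (nat_lit 5) (nat_lit 9) (nat_lit 4) (nat_lit 7) (nat_lit 4) (nat_lit 467) (nat_lit 353) (nat_lit 200)) (XT.lf (nat_lit 0) (nat_lit 43333648784) (nat_lit 76) (nat_lit 209568209306) (nat_lit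 76) (nat_lit 177730147330) (nat_lit 6) (nat_lit 4) (nat_lit 7) (nat_lit 5) (nat_lit 7) (nat_lit 4) (nat_lit 468) (nat_lit 353) (nat_lit 199)))) (XT.nd (nat_lit 156) (nat_lit 0) (nat_lit 0) (XT.nd (nat_lit 78) (nat_lit 0) (nat_lit 0) (XT.lf (nat_lit 0) (nat_lit 106304988430) (nat_lit 76) (nat_lit 188087232331) (nat_lit 76) (nat_lit 156248342770) (nat_lit 6) (nat_lit 4) (nat_lit 7) (nat_lit 5) (nat_lit 7) (nat_lit 4) (nat_lit 469) (nat_lit 353) (nat_lit 198)) (XT.lf (nat_lit 0) (nat_lit 172421814228) (nat_lit 76) (nat_lit 165533745112) (nat_lit 76) (nat_lit 133694067375) (nat_lit 6) (nat_lit 4) (nat_lit 7) (nat_lit 5) (nat_lit 7) (nat_lit 4) (nat_lit 470) (nat_lit 353) (nat_lit 197))) (XT.nd (nat_lit 78) (nat_lit 0) (nat_lit 0) (XT.lf (nat_lit 0) (nat_lit 241841547192) (nat_lit 76) (nat_lit 141854048871) (nat_lit 76) (nat_lit 110013620491) (nat_lit 6) (nat_lit 4) (nat_lit 7) (nat_lit 5) (nat_lit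 7) (nat_lit 4) (nat_lit 471) (nat_lit 353) (nat_lit 196)) (XT.lf (nat_lit 0) (nat_lit 314729472401) (nat_lit 76) (nat_lit 116991763378) (nat_lit 76) (nat_lit 85150620099) (nat_lit 6) (nat_lit 4) (nat_lit 7) (nat_lit 5) (nat_lit 7) (nat_lit 4) (nat_lit 472) (nat_lit 353) (nat_lit 195))))) (XT.nd (nat_lit 234) (nat_lit 152) (nat_lit 0) (XT.nd (nat_lit 78) (nat_lit 0) (nat_lit 0) (XT.lf (nat_lit 0) (nat_lit 391259132533) (nat_lit 76) (nat_lit 90887692716) (nat_lit 76) (nat_lit 59045868582) (nat_lit 6) (nat_lit 4) (nat_lit 7) (nat_lit 5) (nat_lit 7) (nat_lit 4) (nat_lit 473) (nat_lit 353) (nat_lit 194)) (XT.nd (nat_lit 78) (nat_lit 0) (nat_lit 0) (XT.lf (nat_lit 0) (nat_lit 471612741066) (nat_lit 76) (nat_lit 63479684335) (nat_lit 76) (nat_lit 31637211767) (nat_lit 6) (nat_lit 4) (nat_lit 7) (nat_lit 5) (nat_lit 7) (nat_lit 4) (nat_lit 474) (nat_lit 353) (nat_lit 193)) (XT.lf (nat_lit 0) (nat_lit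 555981616115) (nat_lit 76) (nat_lit 34702481072) (nat_lit 76) (nat_lit 2859390948) (nat_lit 6) (nat_lit 4) (nat_lit 7) (nat_lit 5) (nat_lit 7) (nat_lit 4) (nat_lit 475) (nat_lit 353) (nat_lit 192)))) (XT.nd (nat_lit 156) (nat_lit 0) (nat_lit 0) (XT.nd (nat_lit 78) (nat_lit 0) (nat_lit 0) (XT.lf (nat_lit 0) (nat_lit 23183456527) (nat_lit 76) (nat_lit 3659048253) (nat_lit 152) (nat_lit 594816131241) (nat_lit 4) (nat_lit 5) (nat_lit 5) (nat_lit 5) (nat_lit 6) (nat_lit 4) (nat_lit 476) (nat_lit 353) (nat_lit 191)) (XT.lf (nat_lit 0) (nat_lit 59030570658) (nat_lit 152) (nat_lit 563389043887) (nat_lit 0) (nat_lit 28702724549) (nat_lit 4) (nat_lit 5) (nat_lit 6) (nat_lit 4) (nat_lit 4) (nat_lit 4) (nat_lit 477) (nat_lit 353) (nat_lit 190))) (XT.nd (nat_lit 78) (nat_lit 0) (nat_lit 0) (XT.lf (nat_lit 0) (nat_lit 92886911941) (nat_lit 152) (nat_lit 526610814046) (nat_lit 0) (nat_lit 62558557766) (nat_lit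 4) (nat_lit 5) (nat_lit 6) (nat_lit 4) (nat_lit 4) (nat_lit 4) (nat_lit 478) (nat_lit 353) (nat_lit 189)) (XT.lf (nat_lit 0) (nat_lit 128435010966) (nat_lit 152) (nat_lit 487995794760) (nat_lit 0) (nat_lit 98106172920) (nat_lit 4) (nat_lit 5) (nat_lit 6) (nat_lit 4) (nat_lit 4) (nat_lit 4) (nat_lit 479) (nat_lit 353) (nat_lit 188))))))))
noncomputable def xc132 : XT := (XT.nd (nat_lit 45240) (nat_lit 0) (nat_lit 2964) (XT.nd (nat_lit 44148) (nat_lit 0) (nat_lit 6156) (XT.nd (nat_lit 43602) (nat_lit 0) (nat_lit 9576) (XT.nd (nat_lit 43368) (nat_lit 0) (nat_lit 10184) (XT.nd (nat_lit 78) (nat_lit 0) (nat_lit 0) (XT.lf (nat_lit 0) (nat_lit 165759506065) (nat_lit 152) (nat_lit 447452045508) (nat_lit 0) (nat_lit 135430207189) (nat_lit 4) (nat_lit 5) (nat_lit 6) (nat_lit 4) (nat_lit 4) (nat_lit 4) (nat_lit 480) (nat_lit 353) (nat_lit 187)) (XT.nd (nat_lit 43212) (nat_lit 0) (nat_lit 10184) (XT.lf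 (nat_lit 0) (nat_lit 204949265083) (nat_lit 152) (nat_lit 404883033552) (nat_lit 0) (nat_lit 174619527322) (nat_lit 4) (nat_lit 5) (nat_lit 6) (nat_lit 4) (nat_lit 4) (nat_lit 4) (nat_lit 481) (nat_lit 353) (nat_lit 186)) (XT.lf (nat_lit 0) (nat_lit 2864302869) (nat_lit 684) (nat_lit 748714717) (nat_lit 684) (nat_lit 748714717) (nat_lit 138) (nat_lit 3) (nat_lit 147) (nat_lit 3) (nat_lit 147) (nat_lit 5) (nat_lit 354) (nat_lit 354) (nat_lit 312)))) (XT.nd (nat_lit 78) (nat_lit 0) (nat_lit 0) (XT.lf (nat_lit 76) (nat_lit 2842867520) (nat_lit 0) (nat_lit 4009935625) (nat_lit 684) (nat_lit 2039105253) (nat_lit 139) (nat_lit 5) (nat_lit 138) (nat_lit 3) (nat_lit 147) (nat_lit 5) (nat_lit 355) (nat_lit 354) (nat_lit 311)) (XT.nd (nat_lit 78) (nat_lit 0) (nat_lit 76) (XT.lf (nat_lit 76) (nat_lit 7419630523) (nat_lit 0) (nat_lit 578477697) (nat_lit 684) (nat_lit 1072459275) (nat_lit 139) (nat_lit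 5) (nat_lit 138) (nat_lit 3) (nat_lit 147) (nat_lit 5) (nat_lit 356) (nat_lit 354) (nat_lit 310)) (XT.lf (nat_lit 76) (nat_lit 2980941732) (nat_lit 0) (nat_lit 6256331900) (nat_lit 684) (nat_lit 19092356) (nat_lit 140) (nat_lit 5) (nat_lit 139) (nat_lit 5) (nat_lit 148) (nat_lit 5) (nat_lit 357) (nat_lit 354) (nat_lit 309))))) (XT.nd (nat_lit 234) (nat_lit 0) (nat_lit 76) (XT.nd (nat_lit 78) (nat_lit 0) (nat_lit 76) (XT.lf (nat_lit 0) (nat_lit 1034147994) (nat_lit 684) (nat_lit 1610882332) (nat_lit 760) (nat_lit 6806508694) (nat_lit 130) (nat_lit 5) (nat_lit 139) (nat_lit 5) (nat_lit 140) (nat_lit 5) (nat_lit 358) (nat_lit 354) (nat_lit 308)) (XT.nd (nat_lit 78) (nat_lit 0) (nat_lit 0) (XT.lf (nat_lit 0) (nat_lit 2157697482) (nat_lit 684) (nat_lit 6315424908) (nat_lit 760) (nat_lit 1182449496) (nat_lit 131) (nat_lit 5) (nat_lit 140) (nat_lit 5) (nat_lit 141) (nat_lit 5) (nat_lit 359) (nat_lit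 354) (nat_lit 307)) (XT.lf (nat_lit 0) (nat_lit 3357561547) (nat_lit 684) (nat_lit 1353866788) (nat_lit 760) (nat_lit 5157400983) (nat_lit 131) (nat_lit 5) (nat_lit 140) (nat_lit 5) (nat_lit 141) (nat_lit 5) (nat_lit 360) (nat_lit 354) (nat_lit 306)))) (XT.nd (nat_lit 156) (nat_lit 0) (nat_lit 76) (XT.nd (nat_lit 78) (nat_lit 0) (nat_lit 76) (XT.lf (nat_lit 76) (nat_lit 3947573367) (nat_lit 0) (nat_lit 682952080) (nat_lit 760) (nat_lit 5461597200) (nat_lit 132) (nat_lit 5) (nat_lit 131) (nat_lit 5) (nat_lit 141) (nat_lit 5) (nat_lit 361) (nat_lit 354) (nat_lit 305)) (XT.lf (nat_lit 0) (nat_lit 5999272931) (nat_lit 684) (nat_lit 856648426) (nat_lit 760) (nat_lit 3469079528) (nat_lit 132) (nat_lit 5) (nat_lit 141) (nat_lit 5) (nat_lit 142) (nat_lit 5) (nat_lit 362) (nat_lit 354) (nat_lit 304))) (XT.nd (nat_lit 78) (nat_lit 0) (nat_lit 76) (XT.lf (nat_lit 76) (nat_lit 4803380909) (nat_lit 0)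 (nat_lit 2674936885) (nat_lit 760) (nat_lit 3089137964) (nat_lit 133) (nat_lit 5) (nat_lit 132) (nat_lit 5) (nat_lit 142) (nat_lit 5) (nat_lit 363) (nat_lit 354) (nat_lit 303)) (XT.lf (nat_lit 0) (nat_lit 9030216861) (nat_lit 684) (nat_lit 108713061) (nat_lit 76) (nat_lit 1683182850) (nat_lit 133) (nat_lit 5) (nat_lit 142) (nat_lit 5) (nat_lit 134) (nat_lit 5) (nat_lit 364) (nat_lit 354) (nat_lit 302)))))) (XT.nd (nat_lit 546) (nat_lit 1368) (nat_lit 0) (XT.nd (nat_lit 234) (nat_lit 760) (nat_lit 0) (XT.nd (nat_lit 78) (nat_lit 836) (nat_lit 0) (XT.lf (nat_lit 0) (nat_lit 5940909318) (nat_lit 684) (nat_lit 4814815713) (nat_lit 760) (nat_lit 329000233) (nat_lit 124) (nat_lit 5) (nat_lit 133) (nat_lit 5) (nat_lit 134) (nat_lit 5) (nat_lit 365) (nat_lit 354) (nat_lit 301)) (XT.nd (nat_lit 78) (nat_lit 0) (nat_lit 0) (XT.lf (nat_lit 0) (nat_lit 911116761) (nat_lit 760) (nat_lit 233529812) (nat_lit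 836) (nat_lit 10216088746) (nat_lit 113) (nat_lit 5) (nat_lit 123) (nat_lit 5) (nat_lit 124) (nat_lit 5) (nat_lit 366) (nat_lit 354) (nat_lit 300)) (XT.lf (nat_lit 0) (nat_lit 2802466095) (nat_lit 836) (nat_lit 4314097150) (nat_lit 76) (nat_lit 4527655767) (nat_lit 113) (nat_lit 5) (nat_lit 124) (nat_lit 5) (nat_lit 114) (nat_lit 5) (nat_lit 367) (nat_lit 354) (nat_lit 299)))) (XT.nd (nat_lit 156) (nat_lit 380) (nat_lit 0) (XT.nd (nat_lit 78) (nat_lit 0) (nat_lit 0) (XT.lf (nat_lit 0) (nat_lit 2158203995) (nat_lit 380) (nat_lit 2385876427) (nat_lit 456) (nat_lit 7397770472) (nat_lit 108) (nat_lit 5) (nat_lit 113) (nat_lit 5) (nat_lit 114) (nat_lit 5) (nat_lit 368) (nat_lit 354) (nat_lit 298)) (XT.lf (nat_lit 0) (nat_lit 6451930422) (nat_lit 456) (nat_lit 3224791431) (nat_lit 76) (nat_lit 2573703050) (nat_lit 108) (nat_lit 5) (nat_lit 114) (nat_lit 5) (nat_lit 109) (nat_lit 5) (nat_lit 369)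 (nat_lit 354) (nat_lit 297))) (XT.nd (nat_lit 78) (nat_lit 0) (nat_lit 0) (XT.lf (nat_lit 0) (nat_lit 3706795365) (nat_lit 380) (nat_lit 4811643634) (nat_lit 456) (nat_lit 4052842720) (nat_lit 103) (nat_lit 5) (nat_lit 108) (nat_lit 5) (nat_lit 109) (nat_lit 5) (nat_lit 370) (nat_lit 354) (nat_lit 296)) (XT.lf (nat_lit 0) (nat_lit 10715741924) (nat_lit 456) (nat_lit 1849863255) (nat_lit 76) (nat_lit 341219333) (nat_lit 103) (nat_lit 5) (nat_lit 109) (nat_lit 5) (nat_lit 104) (nat_lit 5) (nat_lit 371) (nat_lit 354) (nat_lit 295))))) (XT.nd (nat_lit 234) (nat_lit 608) (nat_lit 0) (XT.nd (nat_lit 78) (nat_lit 380) (nat_lit 0) (XT.lf (nat_lit 0) (nat_lit 5581143926) (nat_lit 380) (nat_lit 7576666648) (nat_lit 456) (nat_lit 94604632) (nat_lit 98) (nat_lit 5) (nat_lit 103) (nat_lit 5) (nat_lit 104) (nat_lit 5) (nat_lit 372) (nat_lit 354) (nat_lit 294)) (XT.nd (nat_lit 78) (nat_lit 304) (nat_lit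 0) (XT.lf (nat_lit 0) (nat_lit 2040444509) (nat_lit 456) (nat_lit 233776966) (nat_lit 76) (nat_lit 11339374974) (nat_lit 97) (nat_lit 5) (nat_lit 103) (nat_lit 5) (nat_lit 98) (nat_lit 5) (nat_lit 373) (nat_lit 354) (nat_lit 293)) (XT.lf (nat_lit 0) (nat_lit 4424870360) (nat_lit 380) (nat_lit 6251077828) (nat_lit 76) (nat_lit 3309534484) (nat_lit 93) (nat_lit 5) (nat_lit 98) (nat_lit 5) (nat_lit 94) (nat_lit 5) (nat_lit 374) (nat_lit 354) (nat_lit 292)))) (XT.nd (nat_lit 156) (nat_lit 304) (nat_lit 0) (XT.nd (nat_lit 78) (nat_lit 0) (nat_lit 0) (XT.lf (nat_lit 0) (nat_lit 1717195264) (nat_lit 304) (nat_lit 5251053288) (nat_lit 380) (nat_lit 7405741092) (nat_lit 89) (nat_lit 5) (nat_lit 93) (nat_lit 5) (nat_lit 94) (nat_lit 5) (nat_lit 375) (nat_lit 354) (nat_lit 291)) (XT.lf (nat_lit 0) (nat_lit 9725704222) (nat_lit 380) (nat_lit 4518930028) (nat_lit 76) (nat_lit 532954661) (nat_lit 89) (nat_lit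 5) (nat_lit 94) (nat_lit 5) (nat_lit 90) (nat_lit 5) (nat_lit 376) (nat_lit 354) (nat_lit 290))) (XT.nd (nat_lit 78) (nat_lit 76) (nat_lit 0) (XT.lf (nat_lit 0) (nat_lit 4036045167) (nat_lit 228) (nat_lit 8707759563) (nat_lit 304) (nat_lit 2451436593) (nat_lit 86) (nat_lit 5) (nat_lit 89) (nat_lit 5) (nat_lit 90) (nat_lit 5) (nat_lit 377) (nat_lit 354) (nat_lit 289)) (XT.lf (nat_lit 0) (nat_lit 321881553) (nat_lit 304) (nat_lit 2493123236) (nat_lit 76) (nat_lit 12815975505) (nat_lit 85) (nat_lit 5) (nat_lit 89) (nat_lit 5) (nat_lit 86) (nat_lit 5) (nat_lit 378) (nat_lit 354) (nat_lit 288))))))) (XT.nd (nat_lit 1014) (nat_lit 1292) (nat_lit 0) (XT.nd (nat_lit 468) (nat_lit 836) (nat_lit 0) (XT.nd (nat_lit 234) (nat_lit 532) (nat_lit 0) (XT.nd (nat_lit 78) (nat_lit 228) (nat_lit 0) (XT.lf (nat_lit 0) (nat_lit 3287039060) (nat_lit 380) (nat_lit 9386920539) (nat_lit 76) (nat_lit 3405769532) (nat_lit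 81) (nat_lit 5) (nat_lit 86) (nat_lit 5) (nat_lit 82) (nat_lit 5) (nat_lit 379) (nat_lit 354) (nat_lit 287)) (XT.nd (nat_lit 78) (nat_lit 228) (nat_lit 0) (XT.lf (nat_lit 0) (nat_lit 6465331847) (nat_lit 380) (nat_lit 203281153) (nat_lit 76) (nat_lit 9879068233) (nat_lit 81) (nat_lit 5) (nat_lit 86) (nat_lit 5) (nat_lit 82) (nat_lit 5) (nat_lit 380) (nat_lit 354) (nat_lit 286)) (XT.lf (nat_lit 0) (nat_lit 9719944174) (nat_lit 228) (nat_lit 211317687) (nat_lit 304) (nat_lit 7101342182) (nat_lit 78) (nat_lit 5) (nat_lit 81) (nat_lit 5) (nat_lit 82) (nat_lit 5) (nat_lit 381) (nat_lit 354) (nat_lit 285)))) (XT.nd (nat_lit 78) (nat_lit 304) (nat_lit 0) (XT.lf (nat_lit 0) (nat_lit 2552666788) (nat_lit 228) (nat_lit 11141203677) (nat_lit 304) (nat_lit 3841742218) (nat_lit 75) (nat_lit 5) (nat_lit 78) (nat_lit 5) (nat_lit 79) (nat_lit 5) (nat_lit 382) (nat_lit 354) (nat_lit 284)) (XT.nd (nat_lit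 78) (nat_lit 304) (nat_lit 0) (XT.lf (nat_lit 0) (nat_lit 13130856013) (nat_lit 228) (nat_lit 4619069385) (nat_lit 304) (nat_lit 308588938) (nat_lit 75) (nat_lit 5) (nat_lit 78) (nat_lit 5) (nat_lit 79) (nat_lit 5) (nat_lit 383) (nat_lit 354) (nat_lit 283)) (XT.lf (nat_lit 0) (nat_lit 3397598282) (nat_lit 304) (nat_lit 12907747660) (nat_lit 76) (nat_lit 2294305764) (nat_lit 71) (nat_lit 5) (nat_lit 75) (nat_lit 5) (nat_lit 72) (nat_lit 5) (nat_lit 384) (nat_lit 354) (nat_lit 282))))) (XT.nd (nat_lit 234) (nat_lit 456) (nat_lit 0) (XT.nd (nat_lit 78) (nat_lit 380) (nat_lit 0) (XT.lf (nat_lit 0) (nat_lit 7418439881) (nat_lit 304) (nat_lit 2262674441) (nat_lit 76) (nat_lit 9479500133) (nat_lit 71) (nat_lit 5) (nat_lit 75) (nat_lit 5) (nat_lit 72) (nat_lit 5) (nat_lit 385) (nat_lit 354) (nat_lit 281)) (XT.nd (nat_lit 78) (nat_lit 152) (nat_lit 0) (XT.lf (nat_lit 0) (nat_lit 9179527538) (nat_lit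 228) (nat_lit 2584278772) (nat_lit 304) (nat_lit 7979651785) (nat_lit 68) (nat_lit 5) (nat_lit 71) (nat_lit 5) (nat_lit 72) (nat_lit 5) (nat_lit 386) (nat_lit 354) (nat_lit 280)) (XT.lf (nat_lit 0) (nat_lit 839833217) (nat_lit 152) (nat_lit 15595183722) (nat_lit 228) (nat_lit 3915004744) (nat_lit 66) (nat_lit 5) (nat_lit 68) (nat_lit 5) (nat_lit 69) (nat_lit 5) (nat_lit 387) (nat_lit 354) (nat_lit 279)))) (XT.nd (nat_lit 156) (nat_lit 152) (nat_lit 0) (XT.nd (nat_lit 78) (nat_lit 228) (nat_lit 0) (XT.lf (nat_lit 0) (nat_lit 546466191) (nat_lit 228) (nat_lit 7877698284) (nat_lit 76) (nat_lit 12552235174) (nat_lit 65) (nat_lit 5) (nat_lit 68) (nat_lit 5) (nat_lit 66) (nat_lit 5) (nat_lit 388) (nat_lit 354) (nat_lit 278)) (XT.lf (nat_lit 0) (nat_lit 4384507007) (nat_lit 228) (nat_lit 764990523) (nat_lit 304) (nat_lit 16478892796) (nat_lit 62) (nat_lit 5) (nat_lit 65) (nat_lit 5) (nat_lit 66)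 (nat_lit 5) (nat_lit 389) (nat_lit 354) (nat_lit 277))) (XT.nd (nat_lit 78) (nat_lit 152) (nat_lit 0) (XT.lf (nat_lit 0) (nat_lit 10213793290) (nat_lit 304) (nat_lit 4917155418) (nat_lit 76) (nat_lit 7170481584) (nat_lit 62) (nat_lit 5) (nat_lit 66) (nat_lit 5) (nat_lit 63) (nat_lit 5) (nat_lit 390) (nat_lit 354) (nat_lit 276)) (XT.lf (nat_lit 0) (nat_lit 8250423312) (nat_lit 152) (nat_lit 7404992198) (nat_lit 228) (nat_lit 7346506305) (nat_lit 60) (nat_lit 5) (nat_lit 62) (nat_lit 5) (nat_lit 63) (nat_lit 5) (nat_lit 391) (nat_lit 354) (nat_lit 275)))))) (XT.nd (nat_lit 546) (nat_lit 532) (nat_lit 0) (XT.nd (nat_lit 234) (nat_lit 380) (nat_lit 0) (XT.nd (nat_lit 78) (nat_lit 380) (nat_lit 0) (XT.lf (nat_lit 0) (nat_lit 21447813432) (nat_lit 228) (nat_lit 1525856952) (nat_lit 76) (nat_lit 759837697) (nat_lit 60) (nat_lit 5) (nat_lit 63) (nat_lit 5) (nat_lit 61) (nat_lit 5) (nat_lit 392) (nat_lit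 354) (nat_lit 274)) (XT.nd (nat_lit 78) (nat_lit 152) (nat_lit 0) (XT.lf (nat_lit 0) (nat_lit 3238397514) (nat_lit 228) (nat_lit 11921256752) (nat_lit 76) (nat_lit 9324301940) (nat_lit 57) (nat_lit 5) (nat_lit 60) (nat_lit 5) (nat_lit 58) (nat_lit 5) (nat_lit 393) (nat_lit 354) (nat_lit 273)) (XT.lf (nat_lit 0) (nat_lit 2142619511) (nat_lit 152) (nat_lit 6862907140) (nat_lit 228) (nat_lit 16262348461) (nat_lit 55) (nat_lit 5) (nat_lit 57) (nat_lit 5) (nat_lit 58) (nat_lit 5) (nat_lit 394) (nat_lit 354) (nat_lit 272)))) (XT.nd (nat_lit 156) (nat_lit 228) (nat_lit 0) (XT.nd (nat_lit 78) (nat_lit 152) (nat_lit 0) (XT.lf (nat_lit 0) (nat_lit 15279215911) (nat_lit 228) (nat_lit 8815799417) (nat_lit 76) (nat_lit 1985068481) (nat_lit 55) (nat_lit 5) (nat_lit 58) (nat_lit 5) (nat_lit 56) (nat_lit 5) (nat_lit 395) (nat_lit 354) (nat_lit 271)) (XT.lf (nat_lit 0) (nat_lit 6272328957) (nat_lit 152) (nat_lit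 15789589956) (nat_lit 228) (nat_lit 4861221402) (nat_lit 53) (nat_lit 5) (nat_lit 55) (nat_lit 5) (nat_lit 56) (nat_lit 5) (nat_lit 396) (nat_lit 354) (nat_lit 270))) (XT.nd (nat_lit 78) (nat_lit 152) (nat_lit 0) (XT.lf (nat_lit 0) (nat_lit 1468116018) (nat_lit 228) (nat_lit 5429021419) (nat_lit 76) (nat_lit 20903305478) (nat_lit 52) (nat_lit 5) (nat_lit 55) (nat_lit 5) (nat_lit 53) (nat_lit 5) (nat_lit 397) (nat_lit 354) (nat_lit 269)) (XT.lf (nat_lit 0) (nat_lit 8146814547) (nat_lit 228) (nat_lit 17956179155) (nat_lit 76) (nat_lit 2604822491) (nat_lit 50) (nat_lit 5) (nat_lit 53) (nat_lit 5) (nat_lit 51) (nat_lit 5) (nat_lit 398) (nat_lit 354) (nat_lit 268))))) (XT.nd (nat_lit 234) (nat_lit 304) (nat_lit 0) (XT.nd (nat_lit 78) (nat_lit 228) (nat_lit 0) (XT.lf (nat_lit 0) (nat_lit 15351827933) (nat_lit 228) (nat_lit 1864837565) (nat_lit 76) (nat_lit 12434276797) (nat_lit 50) (nat_lit 5)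 (nat_lit 53) (nat_lit 5) (nat_lit 51) (nat_lit 5) (nat_lit 399) (nat_lit 354) (nat_lit 267)) (XT.nd (nat_lit 78) (nat_lit 76) (nat_lit 0) (XT.lf (nat_lit 0) (nat_lit 15504341842) (nat_lit 152) (nat_lit 7641351361) (nat_lit 228) (nat_lit 7484104446) (nat_lit 48) (nat_lit 5) (nat_lit 50) (nat_lit 5) (nat_lit 51) (nat_lit 5) (nat_lit 400) (nat_lit 354) (nat_lit 266)) (XT.lf (nat_lit 0) (nat_lit 2158495364) (nat_lit 76) (nat_lit 29260902019) (nat_lit 152) (nat_lit 233693966) (nat_lit 47) (nat_lit 5) (nat_lit 48) (nat_lit 5) (nat_lit 49) (nat_lit 4) (nat_lit 401) (nat_lit 354) (nat_lit 265)))) (XT.nd (nat_lit 156) (nat_lit 76) (nat_lit 0) (XT.nd (nat_lit 78) (nat_lit 152) (nat_lit 0) (XT.lf (nat_lit 0) (nat_lit 7515418999) (nat_lit 152) (nat_lit 12150831640) (nat_lit 76) (nat_lit 13036922984) (nat_lit 46) (nat_lit 5) (nat_lit 48) (nat_lit 5) (nat_lit 47) (nat_lit 5) (nat_lit 402) (nat_lit 354)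 (nat_lit 264)) (XT.lf (nat_lit 0) (nat_lit 6233734405) (nat_lit 152) (nat_lit 9495096450) (nat_lit 228) (nat_lit 18072505230) (nat_lit 44) (nat_lit 5) (nat_lit 46) (nat_lit 5) (nat_lit 47) (nat_lit 5) (nat_lit 403) (nat_lit 354) (nat_lit 263))) (XT.nd (nat_lit 78) (nat_lit 76) (nat_lit 0) (XT.lf (nat_lit 0) (nat_lit 24568049276) (nat_lit 228) (nat_lit 9028800657) (nat_lit 76) (nat_lit 1346802294) (nat_lit 44) (nat_lit 5) (nat_lit 47) (nat_lit 5) (nat_lit 45) (nat_lit 4) (nat_lit 404) (nat_lit 354) (nat_lit 262)) (XT.lf (nat_lit 0) (nat_lit 10599394120) (nat_lit 76) (nat_lit 23559061059) (nat_lit 152) (nat_lit 1969169913) (nat_lit 43) (nat_lit 5) (nat_lit 44) (nat_lit 5) (nat_lit 45) (nat_lit 4) (nat_lit 405) (nat_lit 354) (nat_lit 261))))))))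
noncomputable def xc133 : XT := (XT.nd (nat_lit 2106) (nat_lit 912) (nat_lit 0) (XT.nd (nat_lit 1014) (nat_lit 684) (nat_lit 0) (XT.nd (nat_lit 468) (nat_lit 456) (nat_lit 0) (XT.nd (nat_lit 234) (nat_lit 304) (nat_lit 0) (XT.nd (nat_lit 78) (nat_lit 152) (nat_lit 0) (XT.lf (nat_lit 0) (nat_lit 6781645377) (nat_lit 152) (nat_lit 5971455144) (nat_lit 76) (nat_lit 24605167502) (nat_lit 42) (nat_lit 5) (nat_lit 44) (nat_lit 5) (nat_lit 43) (nat_lit 5) (nat_lit 406) (nat_lit 354) (nat_lit 260)) (XT.nd (nat_lit 78) (nat_lit 0) (nat_lit 0) (XT.lf (nat_lit 0) (nat_lit 14990486898) (nat_lit 152) (nat_lit 1136078505) (nat_lit 228) (nat_lit 22511128509) (nat_lit 40) (nat_lit 5) (nat_lit 42) (nat_lit 5) (nat_lit 43) (nat_lit 5) (nat_lit 407) (nat_lit 354) (nat_lit 259)) (XT.lf (nat_lit 0) (nat_lit 26203013010) (nat_lit 228) (nat_lit 2962829901) (nat_lit 76) (nat_lit 10802035953) (nat_lit 40) (nat_lit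 5) (nat_lit 43) (nat_lit 5) (nat_lit 41) (nat_lit 4) (nat_lit 408) (nat_lit 354) (nat_lit 258)))) (XT.nd (nat_lit 78) (nat_lit 228) (nat_lit 0) (XT.lf (nat_lit 0) (nat_lit 19336730062) (nat_lit 76) (nat_lit 17756400215) (nat_lit 152) (nat_lit 4255952180) (nat_lit 39) (nat_lit 5) (nat_lit 40) (nat_lit 5) (nat_lit 41) (nat_lit 4) (nat_lit 409) (nat_lit 354) (nat_lit 257)) (XT.nd (nat_lit 78) (nat_lit 152) (nat_lit 0) (XT.lf (nat_lit 0) (nat_lit 5585423076) (nat_lit 152) (nat_lit 52315491) (nat_lit 76) (nat_lit 37155119396) (nat_lit 38) (nat_lit 5) (nat_lit 40) (nat_lit 5) (nat_lit 39) (nat_lit 5) (nat_lit 410) (nat_lit 354) (nat_lit 256)) (XT.lf (nat_lit 0) (nat_lit 16253064035) (nat_lit 228) (nat_lit 20729797554) (nat_lit 76) (nat_lit 7298612447) (nat_lit 36) (nat_lit 5) (nat_lit 39) (nat_lit 5) (nat_lit 37) (nat_lit 4) (nat_lit 411) (nat_lit 354) (nat_lit 255))))) (XT.nd (nat_lit 234) (nat_lit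 152) (nat_lit 0) (XT.nd (nat_lit 78) (nat_lit 228) (nat_lit 0) (XT.lf (nat_lit 0) (nat_lit 2461038585) (nat_lit 76) (nat_lit 25114733813) (nat_lit 152) (nat_lit 18262665693) (nat_lit 35) (nat_lit 5) (nat_lit 36) (nat_lit 5) (nat_lit 37) (nat_lit 4) (nat_lit 412) (nat_lit 354) (nat_lit 254)) (XT.nd (nat_lit 78) (nat_lit 228) (nat_lit 0) (XT.lf (nat_lit 0) (nat_lit 27512905433) (nat_lit 76) (nat_lit 12292913978) (nat_lit 152) (nat_lit 7650372153) (nat_lit 35) (nat_lit 5) (nat_lit 36) (nat_lit 5) (nat_lit 37) (nat_lit 4) (nat_lit 413) (nat_lit 354) (nat_lit 253)) (XT.lf (nat_lit 0) (nat_lit 3465487689) (nat_lit 228) (nat_lit 44427002035) (nat_lit 76) (nat_lit 1255381093) (nat_lit 32) (nat_lit 5) (nat_lit 35) (nat_lit 5) (nat_lit 33) (nat_lit 4) (nat_lit 414) (nat_lit 354) (nat_lit 252)))) (XT.nd (nat_lit 156) (nat_lit 76) (nat_lit 0) (XT.nd (nat_lit 78) (nat_lit 76) (nat_lit 0) (XT.lf (nat_lit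 0) (nat_lit 15415354434) (nat_lit 228) (nat_lit 19946818315) (nat_lit 76) (nat_lit 15528925846) (nat_lit 32) (nat_lit 5) (nat_lit 35) (nat_lit 5) (nat_lit 33) (nat_lit 4) (nat_lit 415) (nat_lit 354) (nat_lit 251)) (XT.lf (nat_lit 0) (nat_lit 5930312032) (nat_lit 76) (nat_lit 22115950636) (nat_lit 152) (nat_lit 24671048820) (nat_lit 31) (nat_lit 5) (nat_lit 32) (nat_lit 5) (nat_lit 33) (nat_lit 4) (nat_lit 416) (nat_lit 354) (nat_lit 250))) (XT.nd (nat_lit 78) (nat_lit 76) (nat_lit 0) (XT.lf (nat_lit 0) (nat_lit 33777209900) (nat_lit 76) (nat_lit 7860446168) (nat_lit 152) (nat_lit 12980733049) (nat_lit 31) (nat_lit 5) (nat_lit 32) (nat_lit 5) (nat_lit 33) (nat_lit 4) (nat_lit 417) (nat_lit 354) (nat_lit 249)) (XT.lf (nat_lit 0) (nat_lit 6482317896) (nat_lit 76) (nat_lit 49629919759) (nat_lit 76) (nat_lit 492103074) (nat_lit 30) (nat_lit 4) (nat_lit 31) (nat_lit 5) (nat_lit 31) (nat_lit 4)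 (nat_lit 418) (nat_lit 354) (nat_lit 248)))))) (XT.nd (nat_lit 546) (nat_lit 304) (nat_lit 0) (XT.nd (nat_lit 234) (nat_lit 228) (nat_lit 0) (XT.nd (nat_lit 78) (nat_lit 76) (nat_lit 0) (XT.lf (nat_lit 0) (nat_lit 12696069934) (nat_lit 152) (nat_lit 23124227040) (nat_lit 76) (nat_lit 22835488402) (nat_lit 29) (nat_lit 5) (nat_lit 31) (nat_lit 5) (nat_lit 30) (nat_lit 4) (nat_lit 419) (nat_lit 354) (nat_lit 247)) (XT.nd (nat_lit 78) (nat_lit 0) (nat_lit 0) (XT.lf (nat_lit 0) (nat_lit 5371956998) (nat_lit 76) (nat_lit 21230894336) (nat_lit 152) (nat_lit 34202761566) (nat_lit 28) (nat_lit 5) (nat_lit 29) (nat_lit 5) (nat_lit 30) (nat_lit 4) (nat_lit 420) (nat_lit 354) (nat_lit 246)) (XT.lf (nat_lit 0) (nat_lit 36080648641) (nat_lit 76) (nat_lit 5507960674) (nat_lit 152) (nat_lit 21455141453) (nat_lit 28) (nat_lit 5) (nat_lit 29) (nat_lit 5) (nat_lit 30) (nat_lit 4) (nat_lit 421) (nat_lit 354)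 (nat_lit 245)))) (XT.nd (nat_lit 156) (nat_lit 76) (nat_lit 0) (XT.nd (nat_lit 78) (nat_lit 76) (nat_lit 0) (XT.lf (nat_lit 0) (nat_lit 2835290863) (nat_lit 76) (nat_lit 54696680964) (nat_lit 76) (nat_lit 7851408676) (nat_lit 27) (nat_lit 4) (nat_lit 28) (nat_lit 5) (nat_lit 28) (nat_lit 4) (nat_lit 422) (nat_lit 354) (nat_lit 244)) (XT.lf (nat_lit 0) (nat_lit 6773351945) (nat_lit 152) (nat_lit 32970363789) (nat_lit 76) (nat_lit 28063919159) (nat_lit 26) (nat_lit 5) (nat_lit 28) (nat_lit 5) (nat_lit 27) (nat_lit 4) (nat_lit 423) (nat_lit 354) (nat_lit 243))) (XT.nd (nat_lit 78) (nat_lit 76) (nat_lit 0) (XT.lf (nat_lit 0) (nat_lit 21858166367) (nat_lit 152) (nat_lit 2056458978) (nat_lit 76) (nat_lit 46432408044) (nat_lit 26) (nat_lit 5) (nat_lit 28) (nat_lit 5) (nat_lit 27) (nat_lit 4) (nat_lit 424) (nat_lit 354) (nat_lit 242)) (XT.lf (nat_lit 0) (nat_lit 31394636244) (nat_lit 76) (nat_lit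 6785766934) (nat_lit 152) (nat_lit 34808840210) (nat_lit 25) (nat_lit 5) (nat_lit 26) (nat_lit 5) (nat_lit 27) (nat_lit 4) (nat_lit 425) (nat_lit 354) (nat_lit 241))))) (XT.nd (nat_lit 234) (nat_lit 152) (nat_lit 0) (XT.nd (nat_lit 78) (nat_lit 152) (nat_lit 0) (XT.lf (nat_lit 0) (nat_lit 55522059078) (nat_lit 152) (nat_lit 9360927282) (nat_lit 0) (nat_lit 10870412796) (nat_lit 25) (nat_lit 5) (nat_lit 27) (nat_lit 4) (nat_lit 25) (nat_lit 4) (nat_lit 426) (nat_lit 354) (nat_lit 240)) (XT.nd (nat_lit 78) (nat_lit 76) (nat_lit 0) (XT.lf (nat_lit 0) (nat_lit 25165938316) (nat_lit 76) (nat_lit 49062396234) (nat_lit 76) (nat_lit 4402551924) (nat_lit 24) (nat_lit 4) (nat_lit 25) (nat_lit 5) (nat_lit 25) (nat_lit 4) (nat_lit 427) (nat_lit 354) (nat_lit 239)) (XT.lf (nat_lit 0) (nat_lit 11981160859) (nat_lit 152) (nat_lit 20106272192) (nat_lit 76) (nat_lit 49547551687) (nat_lit 23) (nat_lit 5) (nat_lit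 25) (nat_lit 5) (nat_lit 24) (nat_lit 4) (nat_lit 428) (nat_lit 354) (nat_lit 238)))) (XT.nd (nat_lit 156) (nat_lit 76) (nat_lit 0) (XT.nd (nat_lit 78) (nat_lit 0) (nat_lit 0) (XT.lf (nat_lit 0) (nat_lit 15326580362) (nat_lit 76) (nat_lit 13942526060) (nat_lit 152) (nat_lit 55504923274) (nat_lit 22) (nat_lit 5) (nat_lit 23) (nat_lit 5) (nat_lit 24) (nat_lit 4) (nat_lit 429) (nat_lit 354) (nat_lit 237)) (XT.lf (nat_lit 0) (nat_lit 47841050539) (nat_lit 152) (nat_lit 34921393466) (nat_lit 0) (nat_lit 5286603330) (nat_lit 22) (nat_lit 5) (nat_lit 24) (nat_lit 4) (nat_lit 22) (nat_lit 4) (nat_lit 430) (nat_lit 354) (nat_lit 236))) (XT.nd (nat_lit 78) (nat_lit 0) (nat_lit 0) (XT.lf (nat_lit 0) (nat_lit 1126891285) (nat_lit 76) (nat_lit 66454892998) (nat_lit 76) (nat_lit 23894022421) (nat_lit 21) (nat_lit 4) (nat_lit 22) (nat_lit 5) (nat_lit 22) (nat_lit 4) (nat_lit 431) (nat_lit 354) (nat_lit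 235)) (XT.lf (nat_lit 0) (nat_lit 40178593434) (nat_lit 76) (nat_lit 48716510825) (nat_lit 76) (nat_lit 6149522754) (nat_lit 21) (nat_lit 4) (nat_lit 22) (nat_lit 5) (nat_lit 22) (nat_lit 4) (nat_lit 432) (nat_lit 354) (nat_lit 234))))))) (XT.nd (nat_lit 1014) (nat_lit 380) (nat_lit 0) (XT.nd (nat_lit 468) (nat_lit 228) (nat_lit 0) (XT.nd (nat_lit 234) (nat_lit 152) (nat_lit 0) (XT.nd (nat_lit 78) (nat_lit 76) (nat_lit 0) (XT.lf (nat_lit 0) (nat_lit 12077019511) (nat_lit 152) (nat_lit 17814924258) (nat_lit 76) (nat_lit 68890484566) (nat_lit 20) (nat_lit 5) (nat_lit 22) (nat_lit 5) (nat_lit 21) (nat_lit 4) (nat_lit 433) (nat_lit 354) (nat_lit 233)) (XT.nd (nat_lit 78) (nat_lit 0) (nat_lit 0) (XT.lf (nat_lit 0) (nat_lit 21671027904) (nat_lit 76) (nat_lit 9670138391) (nat_lit 152) (nat_lit 71344266137) (nat_lit 19) (nat_lit 5) (nat_lit 20) (nat_lit 5) (nat_lit 21) (nat_lit 4) (nat_lit 434) (nat_lit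 354) (nat_lit 232)) (XT.lf (nat_lit 0) (nat_lit 52050311355) (nat_lit 152) (nat_lit 43214729633) (nat_lit 0) (nat_lit 11494456570) (nat_lit 19) (nat_lit 5) (nat_lit 21) (nat_lit 4) (nat_lit 19) (nat_lit 4) (nat_lit 435) (nat_lit 354) (nat_lit 231)))) (XT.nd (nat_lit 78) (nat_lit 152) (nat_lit 0) (XT.lf (nat_lit 0) (nat_lit 73948310578) (nat_lit 152) (nat_lit 3693623291) (nat_lit 0) (nat_lit 33387662576) (nat_lit 19) (nat_lit 5) (nat_lit 21) (nat_lit 4) (nat_lit 19) (nat_lit 4) (nat_lit 436) (nat_lit 354) (nat_lit 230)) (XT.nd (nat_lit 78) (nat_lit 76) (nat_lit 0) (XT.lf (nat_lit 0) (nat_lit 39043630330) (nat_lit 76) (nat_lit 58502274254) (nat_lit 76) (nat_lit 17937061285) (nat_lit 18) (nat_lit 4) (nat_lit 19) (nat_lit 5) (nat_lit 19) (nat_lit 4) (nat_lit 437) (nat_lit 354) (nat_lit 229)) (XT.lf (nat_lit 0) (nat_lit 2153801112) (nat_lit 152) (nat_lit 36154268277) (nat_lit 76) (nat_lit 81846310079)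 (nat_lit 17) (nat_lit 5) (nat_lit 19) (nat_lit 5) (nat_lit 18) (nat_lit 4) (nat_lit 438) (nat_lit 354) (nat_lit 228))))) (XT.nd (nat_lit 234) (nat_lit 152) (nat_lit 0) (XT.nd (nat_lit 78) (nat_lit 0) (nat_lit 0) (XT.lf (nat_lit 0) (nat_lit 6035061190) (nat_lit 76) (nat_lit 16700920423) (nat_lit 152) (nat_lit 102304201018) (nat_lit 16) (nat_lit 5) (nat_lit 17) (nat_lit 5) (nat_lit 18) (nat_lit 4) (nat_lit 439) (nat_lit 354) (nat_lit 227)) (XT.nd (nat_lit 78) (nat_lit 0) (nat_lit 0) (XT.lf (nat_lit 0) (nat_lit 45058432675) (nat_lit 152) (nat_lit 78663228527) (nat_lit 0) (nat_lit 6413056951) (nat_lit 16) (nat_lit 5) (nat_lit 18) (nat_lit 4) (nat_lit 16) (nat_lit 4) (nat_lit 440) (nat_lit 354) (nat_lit 226)) (XT.lf (nat_lit 0) (nat_lit 68766379089) (nat_lit 152) (nat_lit 36586706388) (nat_lit 0) (nat_lit 30117426594) (nat_lit 16) (nat_lit 5) (nat_lit 18) (nat_lit 4) (nat_lit 16) (nat_lit 4) (nat_lit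 441) (nat_lit 354) (nat_lit 225)))) (XT.nd (nat_lit 156) (nat_lit 76) (nat_lit 0) (XT.nd (nat_lit 78) (nat_lit 0) (nat_lit 0) (XT.lf (nat_lit 0) (nat_lit 7836182106) (nat_lit 76) (nat_lit 85941682834) (nat_lit 76) (nat_lit 47289323890) (nat_lit 15) (nat_lit 4) (nat_lit 16) (nat_lit 5) (nat_lit 16) (nat_lit 4) (nat_lit 442) (nat_lit 354) (nat_lit 224)) (XT.lf (nat_lit 0) (nat_lit 55742289671) (nat_lit 76) (nat_lit 64913119486) (nat_lit 76) (nat_lit 26257516304) (nat_lit 15) (nat_lit 4) (nat_lit 16) (nat_lit 5) (nat_lit 16) (nat_lit 4) (nat_lit 443) (nat_lit 354) (nat_lit 223))) (XT.nd (nat_lit 78) (nat_lit 76) (nat_lit 0) (XT.lf (nat_lit 0) (nat_lit 106035956723) (nat_lit 76) (nat_lit 42836941001) (nat_lit 76) (nat_lit 4178248068) (nat_lit 15) (nat_lit 4) (nat_lit 16) (nat_lit 5) (nat_lit 16) (nat_lit 4) (nat_lit 444) (nat_lit 354) (nat_lit 222)) (XT.lf (nat_lit 0) (nat_lit 18392898222) (nat_lit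 152) (nat_lit 956194195) (nat_lit 76) (nat_lit 140132539236) (nat_lit 14) (nat_lit 5) (nat_lit 16) (nat_lit 5) (nat_lit 15) (nat_lit 4) (nat_lit 445) (nat_lit 354) (nat_lit 221)))))) (XT.nd (nat_lit 546) (nat_lit 152) (nat_lit 0) (XT.nd (nat_lit 234) (nat_lit 152) (nat_lit 0) (XT.nd (nat_lit 78) (nat_lit 0) (nat_lit 0) (XT.lf (nat_lit 0) (nat_lit 42808483884) (nat_lit 152) (nat_lit 117393708841) (nat_lit 0) (nat_lit 5985209555) (nat_lit 13) (nat_lit 5) (nat_lit 15) (nat_lit 4) (nat_lit 13) (nat_lit 4) (nat_lit 446) (nat_lit 354) (nat_lit 220)) (XT.nd (nat_lit 78) (nat_lit 0) (nat_lit 0) (XT.lf (nat_lit 0) (nat_lit 68774889005) (nat_lit 152) (nat_lit 72487997880) (nat_lit 0) (nat_lit 31949072730) (nat_lit 13) (nat_lit 5) (nat_lit 15) (nat_lit 4) (nat_lit 13) (nat_lit 4) (nat_lit 447) (nat_lit 354) (nat_lit 219)) (XT.lf (nat_lit 0) (nat_lit 96036169484) (nat_lit 152) (nat_lit 25343815445) (nat_lit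 0) (nat_lit 59207932310) (nat_lit 13) (nat_lit 5) (nat_lit 15) (nat_lit 4) (nat_lit 13) (nat_lit 4) (nat_lit 448) (nat_lit 354) (nat_lit 218)))) (XT.nd (nat_lit 156) (nat_lit 76) (nat_lit 0) (XT.nd (nat_lit 78) (nat_lit 0) (nat_lit 0) (XT.lf (nat_lit 0) (nat_lit 24949630505) (nat_lit 76) (nat_lit 100097136281) (nat_lit 76) (nat_lit 63266593487) (nat_lit 12) (nat_lit 4) (nat_lit 13) (nat_lit 5) (nat_lit 13) (nat_lit 4) (nat_lit 449) (nat_lit 354) (nat_lit 217)) (XT.lf (nat_lit 0) (nat_lit 78631243875) (nat_lit 76) (nat_lit 77302635547) (nat_lit 76) (nat_lit 40469896925) (nat_lit 12) (nat_lit 4) (nat_lit 13) (nat_lit 5) (nat_lit 13) (nat_lit 4) (nat_lit 450) (nat_lit 354) (nat_lit 216))) (XT.nd (nat_lit 78) (nat_lit 76) (nat_lit 0) (XT.lf (nat_lit 0) (nat_lit 134990857034) (nat_lit 76) (nat_lit 53371419884) (nat_lit 76) (nat_lit 16536589998) (nat_lit 12) (nat_lit 4) (nat_lit 13) (nat_lit 5)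 (nat_lit 13) (nat_lit 4) (nat_lit 451) (nat_lit 354) (nat_lit 215)) (XT.lf (nat_lit 0) (nat_lit 8315367746) (nat_lit 152) (nat_lit 19790317686) (nat_lit 76) (nat_lit 185706467014) (nat_lit 11) (nat_lit 5) (nat_lit 13) (nat_lit 5) (nat_lit 12) (nat_lit 4) (nat_lit 452) (nat_lit 354) (nat_lit 214))))) (XT.nd (nat_lit 234) (nat_lit 76) (nat_lit 0) (XT.nd (nat_lit 78) (nat_lit 0) (nat_lit 0) (XT.lf (nat_lit 0) (nat_lit 33633025048) (nat_lit 76) (nat_lit 743435172) (nat_lit 152) (nat_lit 188754973847) (nat_lit 10) (nat_lit 5) (nat_lit 11) (nat_lit 5) (nat_lit 12) (nat_lit 4) (nat_lit 453) (nat_lit 354) (nat_lit 213)) (XT.nd (nat_lit 78) (nat_lit 0) (nat_lit 0) (XT.lf (nat_lit 0) (nat_lit 62515389553) (nat_lit 152) (nat_lit 142933375884) (nat_lit 0) (nat_lit 27429175346) (nat_lit 10) (nat_lit 5) (nat_lit 12) (nat_lit 4) (nat_lit 10) (nat_lit 4) (nat_lit 454) (nat_lit 354) (nat_lit 212)) (XT.lf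 (nat_lit 0) (nat_lit 92070762196) (nat_lit 152) (nat_lit 94057626488) (nat_lit 0) (nat_lit 56982909429) (nat_lit 10) (nat_lit 5) (nat_lit 12) (nat_lit 4) (nat_lit 10) (nat_lit 4) (nat_lit 455) (nat_lit 354) (nat_lit 211)))) (XT.nd (nat_lit 156) (nat_lit 0) (nat_lit 0) (XT.nd (nat_lit 78) (nat_lit 76) (nat_lit 0) (XT.lf (nat_lit 0) (nat_lit 123101340979) (nat_lit 152) (nat_lit 42743182892) (nat_lit 0) (nat_lit 88011927678) (nat_lit 10) (nat_lit 5) (nat_lit 12) (nat_lit 4) (nat_lit 10) (nat_lit 4) (nat_lit 456) (nat_lit 354) (nat_lit 210)) (XT.lf (nat_lit 0) (nat_lit 11500210713) (nat_lit 76) (nat_lit 144360348037) (nat_lit 76) (nat_lit 109269448513) (nat_lit 9) (nat_lit 4) (nat_lit 10) (nat_lit 5) (nat_lit 10) (nat_lit 4) (nat_lit 457) (nat_lit 354) (nat_lit 209))) (XT.nd (nat_lit 78) (nat_lit 0) (nat_lit 0) (XT.lf (nat_lit 0) (nat_lit 69934948296) (nat_lit 76) (nat_lit 121044266829) (nat_lit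 76) (nat_lit 85951951855) (nat_lit 9) (nat_lit 4) (nat_lit 10) (nat_lit 5) (nat_lit 10) (nat_lit 4) (nat_lit 458) (nat_lit 354) (nat_lit 208)) (XT.lf (nat_lit 0) (nat_lit 131286877525) (nat_lit 76) (nat_lit 96564642253) (nat_lit 76) (nat_lit 61470979231) (nat_lit 9) (nat_lit 4) (nat_lit 10) (nat_lit 5) (nat_lit 10) (nat_lit 4) (nat_lit 459) (nat_lit 354) (nat_lit 207))))))))
noncomputable def xc134 : XT := (XT.nd (nat_lit 45318) (nat_lit 0) (nat_lit 5092) (XT.nd (nat_lit 1014) (nat_lit 152) (nat_lit 0) (XT.nd (nat_lit 468) (nat_lit 76) (nat_lit 0) (XT.nd (nat_lit 234) (nat_lit 0) (nat_lit 0) (XT.nd (nat_lit 78) (nat_lit 152) (nat_lit 0) (XT.lf (nat_lit 0) (nat_lit 195702074421) (nat_lit 76) (nat_lit 70863189488) (nat_lit 76) (nat_lit 35768242612) (nat_lit 9) (nat_lit 4) (nat_lit 10) (nat_lit 5) (nat_lit 10) (nat_lit 4) (nat_lit 460) (nat_lit 354) (nat_lit 206)) (XT.nd (nat_lit 78) (nat_lit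 152) (nat_lit 0) (XT.lf (nat_lit 0) (nat_lit 263333908500) (nat_lit 76) (nat_lit 43878714601) (nat_lit 76) (nat_lit 8782545005) (nat_lit 9) (nat_lit 4) (nat_lit 10) (nat_lit 5) (nat_lit 10) (nat_lit 4) (nat_lit 461) (nat_lit 354) (nat_lit 205)) (XT.lf (nat_lit 0) (nat_lit 3820438303) (nat_lit 76) (nat_lit 15163840913) (nat_lit 152) (nat_lit 311337488127) (nat_lit 7) (nat_lit 5) (nat_lit 8) (nat_lit 5) (nat_lit 9) (nat_lit 4) (nat_lit 462) (nat_lit 354) (nat_lit 204)))) (XT.nd (nat_lit 78) (nat_lit 0) (nat_lit 0) (XT.lf (nat_lit 0) (nat_lit 48982741162) (nat_lit 152) (nat_lit 280762181802) (nat_lit 0) (nat_lit 15555652465) (nat_lit 7) (nat_lit 5) (nat_lit 9) (nat_lit 4) (nat_lit 7) (nat_lit 4) (nat_lit 463) (nat_lit 354) (nat_lit 203)) (XT.nd (nat_lit 78) (nat_lit 0) (nat_lit 0) (XT.lf (nat_lit 0) (nat_lit 80727806839) (nat_lit 152) (nat_lit 232988470916) (nat_lit 0) (nat_lit 47299712208)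 (nat_lit 7) (nat_lit 5) (nat_lit 9) (nat_lit 4) (nat_lit 7) (nat_lit 4) (nat_lit 464) (nat_lit 354) (nat_lit 202)) (XT.lf (nat_lit 0) (nat_lit 114058309683) (nat_lit 152) (nat_lit 182829699398) (nat_lit 0) (nat_lit 80629257019) (nat_lit 7) (nat_lit 5) (nat_lit 9) (nat_lit 4) (nat_lit 7) (nat_lit 4) (nat_lit 465) (nat_lit 354) (nat_lit 201))))) (XT.nd (nat_lit 234) (nat_lit 76) (nat_lit 0) (XT.nd (nat_lit 78) (nat_lit 0) (nat_lit 0) (XT.lf (nat_lit 0) (nat_lit 149053608033) (nat_lit 152) (nat_lit 130166441600) (nat_lit 0) (nat_lit 115623642958) (nat_lit 7) (nat_lit 5) (nat_lit 9) (nat_lit 4) (nat_lit 7) (nat_lit 4) (nat_lit 466) (nat_lit 354) (nat_lit 200)) (XT.nd (nat_lit 78) (nat_lit 0) (nat_lit 0) (XT.lf (nat_lit 0) (nat_lit 185797024029) (nat_lit 152) (nat_lit 74873308815) (nat_lit 0) (nat_lit 152366189990) (nat_lit 7) (nat_lit 5) (nat_lit 9) (nat_lit 4) (nat_lit 7) (nat_lit 4) (nat_lit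 467) (nat_lit 354) (nat_lit 199)) (XT.lf (nat_lit 0) (nat_lit 224376041995) (nat_lit 152) (nat_lit 16818650726) (nat_lit 0) (nat_lit 190944380372) (nat_lit 7) (nat_lit 5) (nat_lit 9) (nat_lit 4) (nat_lit 7) (nat_lit 4) (nat_lit 468) (nat_lit 354) (nat_lit 198)))) (XT.nd (nat_lit 156) (nat_lit 0) (nat_lit 0) (XT.nd (nat_lit 78) (nat_lit 0) (nat_lit 0) (XT.lf (nat_lit 0) (nat_lit 45595085526) (nat_lit 76) (nat_lit 219999298273) (nat_lit 76) (nat_lit 186566848474) (nat_lit 6) (nat_lit 4) (nat_lit 7) (nat_lit 5) (nat_lit 7) (nat_lit 4) (nat_lit 469) (nat_lit 354) (nat_lit 197)) (XT.lf (nat_lit 0) (nat_lit 111710480044) (nat_lit 76) (nat_lit 197446525854) (nat_lit 76) (nat_lit 164013325412) (nat_lit 6) (nat_lit 4) (nat_lit 7) (nat_lit 5) (nat_lit 7) (nat_lit 4) (nat_lit 470) (nat_lit 354) (nat_lit 196))) (XT.nd (nat_lit 78) (nat_lit 0) (nat_lit 0) (XT.lf (nat_lit 0) (nat_lit 181128849885) (nat_lit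 76) (nat_lit 173767510374) (nat_lit 76) (nat_lit 140333595033) (nat_lit 6) (nat_lit 4) (nat_lit 7) (nat_lit 5) (nat_lit 7) (nat_lit 4) (nat_lit 471) (nat_lit 354) (nat_lit 195)) (XT.lf (nat_lit 0) (nat_lit 254015476881) (nat_lit 76) (nat_lit 148905873225) (nat_lit 76) (nat_lit 115471277029) (nat_lit 6) (nat_lit 4) (nat_lit 7) (nat_lit 5) (nat_lit 7) (nat_lit 4) (nat_lit 472) (nat_lit 354) (nat_lit 194)))))) (XT.nd (nat_lit 546) (nat_lit 0) (nat_lit 0) (XT.nd (nat_lit 234) (nat_lit 152) (nat_lit 0) (XT.nd (nat_lit 78) (nat_lit 0) (nat_lit 0) (XT.lf (nat_lit 0) (nat_lit 330543900620) (nat_lit 76) (nat_lit 122802420033) (nat_lit 76) (nat_lit 89367175403) (nat_lit 6) (nat_lit 4) (nat_lit 7) (nat_lit 5) (nat_lit 7) (nat_lit 4) (nat_lit 473) (nat_lit 354) (nat_lit 193)) (XT.nd (nat_lit 78) (nat_lit 0) (nat_lit 0) (XT.lf (nat_lit 0) (nat_lit 410896331635) (nat_lit 76) (nat_lit 95394999719) (nat_lit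 76) (nat_lit 61959137533) (nat_lit 6) (nat_lit 4) (nat_lit 7) (nat_lit 5) (nat_lit 7) (nat_lit 4) (nat_lit 474) (nat_lit 354) (nat_lit 192)) (XT.lf (nat_lit 0) (nat_lit 495264085239) (nat_lit 76) (nat_lit 66618356521) (nat_lit 76) (nat_lit 33181906186) (nat_lit 6) (nat_lit 4) (nat_lit 7) (nat_lit 5) (nat_lit 7) (nat_lit 4) (nat_lit 475) (nat_lit 354) (nat_lit 191)))) (XT.nd (nat_lit 156) (nat_lit 0) (nat_lit 0) (XT.nd (nat_lit 78) (nat_lit 152) (nat_lit 0) (XT.lf (nat_lit 0) (nat_lit 583848037034) (nat_lit 76) (nat_lit 36403974621) (nat_lit 76) (nat_lit 2966964144) (nat_lit 6) (nat_lit 4) (nat_lit 7) (nat_lit 5) (nat_lit 7) (nat_lit 4) (nat_lit 476) (nat_lit 354) (nat_lit 190)) (XT.lf (nat_lit 0) (nat_lit 24409999151) (nat_lit 76) (nat_lit 3808314554) (nat_lit 152) (nat_lit 624521568788) (nat_lit 4) (nat_lit 5) (nat_lit 5) (nat_lit 5) (nat_lit 6) (nat_lit 4) (nat_lit 477) (nat_lit 354) (nat_lit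 189))) (XT.nd (nat_lit 78) (nat_lit 0) (nat_lit 0) (XT.lf (nat_lit 0) (nat_lit 62014679782) (nat_lit 152) (nat_lit 591493230183) (nat_lit 0) (nat_lit 30168915963) (nat_lit 4) (nat_lit 5) (nat_lit 6) (nat_lit 4) (nat_lit 4) (nat_lit 4) (nat_lit 478) (nat_lit 354) (nat_lit 188)) (XT.lf (nat_lit 0) (nat_lit 97562286672) (nat_lit 152) (nat_lit 552879196750) (nat_lit 0) (nat_lit 65716062023) (nat_lit 4) (nat_lit 5) (nat_lit 6) (nat_lit 4) (nat_lit 4) (nat_lit 4) (nat_lit 479) (nat_lit 354) (nat_lit 187))))) (XT.nd (nat_lit 43446) (nat_lit 0) (nat_lit 9500) (XT.nd (nat_lit 78) (nat_lit 0) (nat_lit 0) (XT.lf (nat_lit 0) (nat_lit 134886313071) (nat_lit 152) (nat_lit 512336386405) (nat_lit 0) (nat_lit 103039649536) (nat_lit 4) (nat_lit 5) (nat_lit 6) (nat_lit 4) (nat_lit 4) (nat_lit 4) (nat_lit 480) (nat_lit 354) (nat_lit 186)) (XT.nd (nat_lit 43290) (nat_lit 0) (nat_lit 10184) (XT.lf (nat_lit 0)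 (nat_lit 174075625708) (nat_lit 152) (nat_lit 469768268647) (nat_lit 0) (nat_lit 142228544186) (nat_lit 4) (nat_lit 5) (nat_lit 6) (nat_lit 4) (nat_lit 4) (nat_lit 4) (nat_lit 481) (nat_lit 354) (nat_lit 185)) (XT.lf (nat_lit 0) (nat_lit 3929492241) (nat_lit 684) (nat_lit 301821762) (nat_lit 684) (nat_lit 301821762) (nat_lit 138) (nat_lit 3) (nat_lit 147) (nat_lit 3) (nat_lit 147) (nat_lit 5) (nat_lit 355) (nat_lit 355) (nat_lit 310)))) (XT.nd (nat_lit 156) (nat_lit 0) (nat_lit 76) (XT.nd (nat_lit 78) (nat_lit 684) (nat_lit 0) (XT.lf (nat_lit 76) (nat_lit 3938044770) (nat_lit 0) (nat_lit 5028419450) (nat_lit 684) (nat_lit 280375332) (nat_lit 139) (nat_lit 5) (nat_lit 138) (nat_lit 3) (nat_lit 147) (nat_lit 5) (nat_lit 356) (nat_lit 355) (nat_lit 309)) (XT.lf (nat_lit 0) (nat_lit 625322888) (nat_lit 684) (nat_lit 750523827) (nat_lit 760) (nat_lit 8062350323) (nat_lit 129) (nat_lit 5) (nat_lit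 138) (nat_lit 3) (nat_lit 139) (nat_lit 5) (nat_lit 357) (nat_lit 355) (nat_lit 308))) (XT.nd (nat_lit 78) (nat_lit 0) (nat_lit 0) (XT.lf (nat_lit 0) (nat_lit 1618194635) (nat_lit 684) (nat_lit 5544778661) (nat_lit 760) (nat_lit 2473385000) (nat_lit 130) (nat_lit 5) (nat_lit 139) (nat_lit 5) (nat_lit 140) (nat_lit 5) (nat_lit 358) (nat_lit 355) (nat_lit 307)) (XT.lf (nat_lit 0) (nat_lit 2645474424) (nat_lit 684) (nat_lit 697041859) (nat_lit 760) (nat_lit 6502702888) (nat_lit 130) (nat_lit 5) (nat_lit 139) (nat_lit 5) (nat_lit 140) (nat_lit 5) (nat_lit 359) (nat_lit 355) (nat_lit 306))))))) (XT.nd (nat_lit 1014) (nat_lit 2432) (nat_lit 0) (XT.nd (nat_lit 468) (nat_lit 1596) (nat_lit 0) (XT.nd (nat_lit 234) (nat_lit 532) (nat_lit 0) (XT.nd (nat_lit 78) (nat_lit 0) (nat_lit 0) (XT.lf (nat_lit 0) (nat_lit 3758054283) (nat_lit 684) (nat_lit 5568792224) (nat_lit 760) (nat_lit 736008140) (nat_lit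 131) (nat_lit 5) (nat_lit 140) (nat_lit 5) (nat_lit 141) (nat_lit 5) (nat_lit 360) (nat_lit 355) (nat_lit 305)) (XT.nd (nat_lit 78) (nat_lit 0) (nat_lit 0) (XT.lf (nat_lit 0) (nat_lit 4946841459) (nat_lit 684) (nat_lit 409746861) (nat_lit 760) (nat_lit 4933781670) (nat_lit 131) (nat_lit 5) (nat_lit 140) (nat_lit 5) (nat_lit 141) (nat_lit 5) (nat_lit 361) (nat_lit 355) (nat_lit 304)) (XT.lf (nat_lit 76) (nat_lit 5140445733) (nat_lit 0) (nat_lit 1090864466) (nat_lit 760) (nat_lit 4296164512) (nat_lit 132) (nat_lit 5) (nat_lit 131) (nat_lit 5) (nat_lit 141) (nat_lit 5) (nat_lit 362) (nat_lit 355) (nat_lit 303)))) (XT.nd (nat_lit 78) (nat_lit 608) (nat_lit 0) (XT.lf (nat_lit 76) (nat_lit 124094063) (nat_lit 0) (nat_lit 7475578032) (nat_lit 760) (nat_lit 3175803588) (nat_lit 133) (nat_lit 5) (nat_lit 132) (nat_lit 5) (nat_lit 142) (nat_lit 5) (nat_lit 363) (nat_lit 355) (nat_lit 302)) (XT.nd (nat_lit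 78) (nat_lit 608) (nat_lit 0) (XT.lf (nat_lit 76) (nat_lit 6046707868) (nat_lit 0) (nat_lit 3057852742) (nat_lit 760) (nat_lit 1927933998) (nat_lit 133) (nat_lit 5) (nat_lit 132) (nat_lit 5) (nat_lit 142) (nat_lit 5) (nat_lit 364) (nat_lit 355) (nat_lit 301)) (XT.lf (nat_lit 0) (nat_lit 935194864) (nat_lit 684) (nat_lit 9750121186) (nat_lit 760) (nat_lit 617039524) (nat_lit 124) (nat_lit 5) (nat_lit 133) (nat_lit 5) (nat_lit 134) (nat_lit 5) (nat_lit 365) (nat_lit 355) (nat_lit 300))))) (XT.nd (nat_lit 234) (nat_lit 760) (nat_lit 0) (XT.nd (nat_lit 78) (nat_lit 760) (nat_lit 0) (XT.lf (nat_lit 0) (nat_lit 833084548) (nat_lit 760) (nat_lit 4353421930) (nat_lit 76) (nat_lit 6393730928) (nat_lit 123) (nat_lit 5) (nat_lit 133) (nat_lit 5) (nat_lit 124) (nat_lit 5) (nat_lit 366) (nat_lit 355) (nat_lit 299)) (XT.nd (nat_lit 78) (nat_lit 0) (nat_lit 0) (XT.lf (nat_lit 0) (nat_lit 1982054428) (nat_lit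 760) (nat_lit 347717585) (nat_lit 836) (nat_lit 9542015053) (nat_lit 113) (nat_lit 5) (nat_lit 123) (nat_lit 5) (nat_lit 124) (nat_lit 5) (nat_lit 367) (nat_lit 355) (nat_lit 298)) (XT.lf (nat_lit 0) (nat_lit 4015249040) (nat_lit 836) (nat_lit 3497452163) (nat_lit 76) (nat_lit 4659533526) (nat_lit 113) (nat_lit 5) (nat_lit 124) (nat_lit 5) (nat_lit 114) (nat_lit 5) (nat_lit 368) (nat_lit 355) (nat_lit 297)))) (XT.nd (nat_lit 156) (nat_lit 380) (nat_lit 0) (XT.nd (nat_lit 78) (nat_lit 0) (nat_lit 0) (XT.lf (nat_lit 0) (nat_lit 3281813236) (nat_lit 380) (nat_lit 2526909726) (nat_lit 456) (nat_lit 6677813073) (nat_lit 108) (nat_lit 5) (nat_lit 113) (nat_lit 5) (nat_lit 114) (nat_lit 5) (nat_lit 369) (nat_lit 355) (nat_lit 296)) (XT.lf (nat_lit 0) (nat_lit 7762240376) (nat_lit 456) (nat_lit 2368463518) (nat_lit 76) (nat_lit 2682346604) (nat_lit 108) (nat_lit 5) (nat_lit 114) (nat_lit 5) (nat_lit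 109) (nat_lit 5) (nat_lit 370) (nat_lit 355) (nat_lit 295))) (XT.nd (nat_lit 78) (nat_lit 0) (nat_lit 0) (XT.lf (nat_lit 0) (nat_lit 4893290239) (nat_lit 380) (nat_lit 5007381007) (nat_lit 456) (nat_lit 3250873350) (nat_lit 103) (nat_lit 5) (nat_lit 108) (nat_lit 5) (nat_lit 109) (nat_lit 5) (nat_lit 371) (nat_lit 355) (nat_lit 294)) (XT.lf (nat_lit 0) (nat_lit 12162967543) (nat_lit 456) (nat_lit 943541026) (nat_lit 76) (nat_lit 399622676) (nat_lit 103) (nat_lit 5) (nat_lit 109) (nat_lit 5) (nat_lit 104) (nat_lit 5) (nat_lit 372) (nat_lit 355) (nat_lit 293)))))) (XT.nd (nat_lit 546) (nat_lit 1064) (nat_lit 0) (XT.nd (nat_lit 234) (nat_lit 608) (nat_lit 0) (XT.nd (nat_lit 78) (nat_lit 304) (nat_lit 0) (XT.lf (nat_lit 0) (nat_lit 802132016) (nat_lit 456) (nat_lit 7040457479) (nat_lit 76) (nat_lit 6027190078) (nat_lit 97) (nat_lit 5) (nat_lit 103) (nat_lit 5) (nat_lit 98) (nat_lit 5) (nat_lit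 373) (nat_lit 355) (nat_lit 292)) (XT.nd (nat_lit 78) (nat_lit 0) (nat_lit 0) (XT.lf (nat_lit 0) (nat_lit 742908535) (nat_lit 304) (nat_lit 2266669031) (nat_lit 380) (nat_lit 11240943583) (nat_lit 93) (nat_lit 5) (nat_lit 97) (nat_lit 5) (nat_lit 98) (nat_lit 5) (nat_lit 374) (nat_lit 355) (nat_lit 291)) (XT.lf (nat_lit 0) (nat_lit 5477569235) (nat_lit 380) (nat_lit 5574597937) (nat_lit 76) (nat_lit 3590636312) (nat_lit 93) (nat_lit 5) (nat_lit 98) (nat_lit 5) (nat_lit 94) (nat_lit 5) (nat_lit 375) (nat_lit 355) (nat_lit 290)))) (XT.nd (nat_lit 156) (nat_lit 304) (nat_lit 0) (XT.nd (nat_lit 78) (nat_lit 0) (nat_lit 0) (XT.lf (nat_lit 0) (nat_lit 2776136652) (nat_lit 304) (nat_lit 5347579104) (nat_lit 380) (nat_lit 6928258200) (nat_lit 89) (nat_lit 5) (nat_lit 93) (nat_lit 5) (nat_lit 94) (nat_lit 5) (nat_lit 376) (nat_lit 355) (nat_lit 289)) (XT.lf (nat_lit 0) (nat_lit 10983081739) (nat_lit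 380) (nat_lit 3781824480) (nat_lit 76) (nat_lit 712662349) (nat_lit 89) (nat_lit 5) (nat_lit 94) (nat_lit 5) (nat_lit 90) (nat_lit 5) (nat_lit 377) (nat_lit 355) (nat_lit 288))) (XT.nd (nat_lit 78) (nat_lit 76) (nat_lit 0) (XT.lf (nat_lit 0) (nat_lit 5185366377) (nat_lit 228) (nat_lit 8944795640) (nat_lit 304) (nat_lit 1787054283) (nat_lit 86) (nat_lit 5) (nat_lit 89) (nat_lit 5) (nat_lit 90) (nat_lit 5) (nat_lit 378) (nat_lit 355) (nat_lit 287)) (XT.lf (nat_lit 0) (nat_lit 1063467719) (nat_lit 304) (nat_lit 1691094178) (nat_lit 76) (nat_lit 13621394634) (nat_lit 85) (nat_lit 5) (nat_lit 89) (nat_lit 5) (nat_lit 86) (nat_lit 5) (nat_lit 379) (nat_lit 355) (nat_lit 286))))) (XT.nd (nat_lit 234) (nat_lit 532) (nat_lit 0) (XT.nd (nat_lit 78) (nat_lit 228) (nat_lit 0) (XT.lf (nat_lit 0) (nat_lit 4159795620) (nat_lit 380) (nat_lit 8912209890) (nat_lit 76) (nat_lit 3776005872) (nat_lit 81) (nat_lit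 5) (nat_lit 86) (nat_lit 5) (nat_lit 82) (nat_lit 5) (nat_lit 380) (nat_lit 355) (nat_lit 285)) (XT.nd (nat_lit 78) (nat_lit 0) (nat_lit 0) (XT.lf (nat_lit 0) (nat_lit 708327282) (nat_lit 228) (nat_lit 6766001186) (nat_lit 304) (nat_lit 9866179872) (nat_lit 78) (nat_lit 5) (nat_lit 81) (nat_lit 5) (nat_lit 82) (nat_lit 5) (nat_lit 381) (nat_lit 355) (nat_lit 284)) (XT.lf (nat_lit 0) (nat_lit 11084279221) (nat_lit 304) (nat_lit 6760716904) (nat_lit 76) (nat_lit 6157834) (nat_lit 78) (nat_lit 5) (nat_lit 82) (nat_lit 5) (nat_lit 79) (nat_lit 5) (nat_lit 382) (nat_lit 355) (nat_lit 283)))) (XT.nd (nat_lit 156) (nat_lit 228) (nat_lit 0) (XT.nd (nat_lit 78) (nat_lit 76) (nat_lit 0) (XT.lf (nat_lit 0) (nat_lit 3579668125) (nat_lit 228) (nat_lit 11441431319) (nat_lit 304) (nat_lit 3358921793) (nat_lit 75) (nat_lit 5) (nat_lit 78) (nat_lit 5) (nat_lit 79) (nat_lit 5) (nat_lit 383) (nat_lit 355) (nat_lit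 282)) (XT.lf (nat_lit 0) (nat_lit 308548683) (nat_lit 304) (nat_lit 4291646329) (nat_lit 76) (nat_lit 14330165658) (nat_lit 74) (nat_lit 5) (nat_lit 78) (nat_lit 5) (nat_lit 75) (nat_lit 5) (nat_lit 384) (nat_lit 355) (nat_lit 281))) (XT.nd (nat_lit 78) (nat_lit 0) (nat_lit 0) (XT.lf (nat_lit 0) (nat_lit 4177537683) (nat_lit 304) (nat_lit 12663450088) (nat_lit 76) (nat_lit 2657931639) (nat_lit 71) (nat_lit 5) (nat_lit 75) (nat_lit 5) (nat_lit 72) (nat_lit 5) (nat_lit 385) (nat_lit 355) (nat_lit 280)) (XT.lf (nat_lit 0) (nat_lit 8370370909) (nat_lit 304) (nat_lit 1528489159) (nat_lit 76) (nat_lit 10190532842) (nat_lit 71) (nat_lit 5) (nat_lit 75) (nat_lit 5) (nat_lit 72) (nat_lit 5) (nat_lit 386) (nat_lit 355) (nat_lit 279))))))))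
noncomputable def xc135 : XT := (XT.nd (nat_lit 2106) (nat_lit 1444) (nat_lit 0) (XT.nd (nat_lit 1014) (nat_lit 1140) (nat_lit 0) (XT.nd (nat_lit 468) (nat_lit 760) (nat_lit 0) (XT.nd (nat_lit 234) (nat_lit 380) (nat_lit 0) (XT.nd (nat_lit 78) (nat_lit 228) (nat_lit 0) (XT.lf (nat_lit 0) (nat_lit 10472156483) (nat_lit 228) (nat_lit 2446197732) (nat_lit 304) (nat_lit 7783766698) (nat_lit 68) (nat_lit 5) (nat_lit 71) (nat_lit 5) (nat_lit 72) (nat_lit 5) (nat_lit 387) (nat_lit 355) (nat_lit 278)) (XT.nd (nat_lit 78) (nat_lit 76) (nat_lit 0) (XT.lf (nat_lit 0) (nat_lit 1725975769) (nat_lit 152) (nat_lit 16087334259) (nat_lit 228) (nat_lit 3526202574) (nat_lit 66) (nat_lit 5) (nat_lit 68) (nat_lit 5) (nat_lit 69) (nat_lit 5) (nat_lit 388) (nat_lit 355) (nat_lit 277)) (XT.lf (nat_lit 0) (nat_lit 1112687670) (nat_lit 228) (nat_lit 7449645527) (nat_lit 76) (nat_lit 13435775490) (nat_lit 65) (nat_lit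 5) (nat_lit 68) (nat_lit 5) (nat_lit 66) (nat_lit 5) (nat_lit 389) (nat_lit 355) (nat_lit 276)))) (XT.nd (nat_lit 78) (nat_lit 152) (nat_lit 0) (XT.lf (nat_lit 0) (nat_lit 5412412969) (nat_lit 228) (nat_lit 520421560) (nat_lit 304) (nat_lit 16750524078) (nat_lit 62) (nat_lit 5) (nat_lit 65) (nat_lit 5) (nat_lit 66) (nat_lit 5) (nat_lit 390) (nat_lit 355) (nat_lit 275)) (XT.nd (nat_lit 78) (nat_lit 152) (nat_lit 0) (XT.lf (nat_lit 0) (nat_lit 11229509347) (nat_lit 304) (nat_lit 4371854849) (nat_lit 76) (nat_lit 7789735693) (nat_lit 62) (nat_lit 5) (nat_lit 66) (nat_lit 5) (nat_lit 63) (nat_lit 5) (nat_lit 391) (nat_lit 355) (nat_lit 274)) (XT.lf (nat_lit 0) (nat_lit 9441342199) (nat_lit 152) (nat_lit 7489974573) (nat_lit 228) (nat_lit 7195901182) (nat_lit 60) (nat_lit 5) (nat_lit 62) (nat_lit 5) (nat_lit 63) (nat_lit 5) (nat_lit 392) (nat_lit 355) (nat_lit 273))))) (XT.nd (nat_lit 234) (nat_lit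 380) (nat_lit 0) (XT.nd (nat_lit 78) (nat_lit 380) (nat_lit 0) (XT.lf (nat_lit 0) (nat_lit 22994093921) (nat_lit 228) (nat_lit 841441370) (nat_lit 76) (nat_lit 1060817107) (nat_lit 60) (nat_lit 5) (nat_lit 63) (nat_lit 5) (nat_lit 61) (nat_lit 5) (nat_lit 393) (nat_lit 355) (nat_lit 272)) (XT.nd (nat_lit 78) (nat_lit 152) (nat_lit 0) (XT.lf (nat_lit 0) (nat_lit 3871042493) (nat_lit 228) (nat_lit 11753192455) (nat_lit 76) (nat_lit 10060258916) (nat_lit 57) (nat_lit 5) (nat_lit 60) (nat_lit 5) (nat_lit 58) (nat_lit 5) (nat_lit 394) (nat_lit 355) (nat_lit 271)) (XT.lf (nat_lit 0) (nat_lit 3001552990) (nat_lit 152) (nat_lit 6914297359) (nat_lit 228) (nat_lit 16592298153) (nat_lit 55) (nat_lit 5) (nat_lit 57) (nat_lit 5) (nat_lit 58) (nat_lit 5) (nat_lit 395) (nat_lit 355) (nat_lit 270)))) (XT.nd (nat_lit 156) (nat_lit 228) (nat_lit 0) (XT.nd (nat_lit 78) (nat_lit 152) (nat_lit 0) (XT.lf (nat_lit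 0) (nat_lit 16485655260) (nat_lit 228) (nat_lit 8522905813) (nat_lit 76) (nat_lit 2353290621) (nat_lit 55) (nat_lit 5) (nat_lit 58) (nat_lit 5) (nat_lit 56) (nat_lit 5) (nat_lit 396) (nat_lit 355) (nat_lit 269)) (XT.lf (nat_lit 0) (nat_lit 7307795374) (nat_lit 152) (nat_lit 16289897731) (nat_lit 228) (nat_lit 4649863285) (nat_lit 53) (nat_lit 5) (nat_lit 55) (nat_lit 5) (nat_lit 56) (nat_lit 5) (nat_lit 397) (nat_lit 355) (nat_lit 268))) (XT.nd (nat_lit 78) (nat_lit 152) (nat_lit 0) (XT.lf (nat_lit 0) (nat_lit 1960450328) (nat_lit 228) (nat_lit 4999047583) (nat_lit 76) (nat_lit 22209923647) (nat_lit 52) (nat_lit 5) (nat_lit 55) (nat_lit 5) (nat_lit 53) (nat_lit 5) (nat_lit 398) (nat_lit 355) (nat_lit 267)) (XT.lf (nat_lit 0) (nat_lit 8968286549) (nat_lit 228) (nat_lit 18147673518) (nat_lit 76) (nat_lit 3006447918) (nat_lit 50) (nat_lit 5) (nat_lit 53) (nat_lit 5) (nat_lit 51) (nat_lit 5)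 (nat_lit 399) (nat_lit 355) (nat_lit 266)))))) (XT.nd (nat_lit 546) (nat_lit 608) (nat_lit 0) (XT.nd (nat_lit 234) (nat_lit 228) (nat_lit 0) (XT.nd (nat_lit 78) (nat_lit 304) (nat_lit 0) (XT.lf (nat_lit 0) (nat_lit 16513830068) (nat_lit 228) (nat_lit 1285398877) (nat_lit 76) (nat_lit 13314451877) (nat_lit 50) (nat_lit 5) (nat_lit 53) (nat_lit 5) (nat_lit 51) (nat_lit 5) (nat_lit 400) (nat_lit 355) (nat_lit 265)) (XT.nd (nat_lit 78) (nat_lit 152) (nat_lit 0) (XT.lf (nat_lit 0) (nat_lit 16941389814) (nat_lit 152) (nat_lit 7747550358) (nat_lit 228) (nat_lit 7452965385) (nat_lit 48) (nat_lit 5) (nat_lit 50) (nat_lit 5) (nat_lit 51) (nat_lit 5) (nat_lit 401) (nat_lit 355) (nat_lit 264)) (XT.lf (nat_lit 0) (nat_lit 150899022) (nat_lit 152) (nat_lit 30286587684) (nat_lit 76) (nat_lit 2778953499) (nat_lit 46) (nat_lit 5) (nat_lit 48) (nat_lit 5) (nat_lit 47) (nat_lit 5) (nat_lit 402) (nat_lit 355)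 (nat_lit 263)))) (XT.nd (nat_lit 156) (nat_lit 76) (nat_lit 0) (XT.nd (nat_lit 78) (nat_lit 152) (nat_lit 0) (XT.lf (nat_lit 0) (nat_lit 8261117604) (nat_lit 152) (nat_lit 12111795076) (nat_lit 76) (nat_lit 13946850800) (nat_lit 46) (nat_lit 5) (nat_lit 48) (nat_lit 5) (nat_lit 47) (nat_lit 5) (nat_lit 403) (nat_lit 355) (nat_lit 262)) (XT.lf (nat_lit 0) (nat_lit 7181570591) (nat_lit 152) (nat_lit 9695945936) (nat_lit 228) (nat_lit 18595705166) (nat_lit 44) (nat_lit 5) (nat_lit 46) (nat_lit 5) (nat_lit 47) (nat_lit 5) (nat_lit 404) (nat_lit 355) (nat_lit 261))) (XT.nd (nat_lit 78) (nat_lit 76) (nat_lit 0) (XT.lf (nat_lit 0) (nat_lit 26145518939) (nat_lit 228) (nat_lit 8861141420) (nat_lit 76) (nat_lit 1666655414) (nat_lit 44) (nat_lit 5) (nat_lit 47) (nat_lit 5) (nat_lit 45) (nat_lit 4) (nat_lit 405) (nat_lit 355) (nat_lit 260)) (XT.lf (nat_lit 0) (nat_lit 11738477624) (nat_lit 76) (nat_lit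 24469855239) (nat_lit 152) (nat_lit 1708513161) (nat_lit 43) (nat_lit 5) (nat_lit 44) (nat_lit 5) (nat_lit 45) (nat_lit 4) (nat_lit 406) (nat_lit 355) (nat_lit 259))))) (XT.nd (nat_lit 234) (nat_lit 380) (nat_lit 0) (XT.nd (nat_lit 78) (nat_lit 152) (nat_lit 0) (XT.lf (nat_lit 0) (nat_lit 7451795566) (nat_lit 152) (nat_lit 5678916163) (nat_lit 76) (nat_lit 26078859539) (nat_lit 42) (nat_lit 5) (nat_lit 44) (nat_lit 5) (nat_lit 43) (nat_lit 5) (nat_lit 407) (nat_lit 355) (nat_lit 258)) (XT.nd (nat_lit 78) (nat_lit 0) (nat_lit 0) (XT.lf (nat_lit 0) (nat_lit 16321588921) (nat_lit 152) (nat_lit 935687592) (nat_lit 228) (nat_lit 23296028897) (nat_lit 40) (nat_lit 5) (nat_lit 42) (nat_lit 5) (nat_lit 43) (nat_lit 5) (nat_lit 408) (nat_lit 355) (nat_lit 257)) (XT.lf (nat_lit 0) (nat_lit 27825924014) (nat_lit 228) (nat_lit 2545413926) (nat_lit 76) (nat_lit 11579245367) (nat_lit 40) (nat_lit 5) (nat_lit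 43) (nat_lit 5) (nat_lit 41) (nat_lit 4) (nat_lit 409) (nat_lit 355) (nat_lit 256)))) (XT.nd (nat_lit 156) (nat_lit 76) (nat_lit 0) (XT.nd (nat_lit 78) (nat_lit 228) (nat_lit 0) (XT.lf (nat_lit 0) (nat_lit 20860002140) (nat_lit 76) (nat_lit 18394339172) (nat_lit 152) (nat_lit 4146818510) (nat_lit 39) (nat_lit 5) (nat_lit 40) (nat_lit 5) (nat_lit 41) (nat_lit 4) (nat_lit 410) (nat_lit 355) (nat_lit 255)) (XT.lf (nat_lit 0) (nat_lit 500896830) (nat_lit 152) (nat_lit 5668405867) (nat_lit 228) (nat_lit 38747923269) (nat_lit 36) (nat_lit 5) (nat_lit 38) (nat_lit 5) (nat_lit 39) (nat_lit 5) (nat_lit 411) (nat_lit 355) (nat_lit 254))) (XT.nd (nat_lit 78) (nat_lit 76) (nat_lit 0) (XT.lf (nat_lit 0) (nat_lit 17360413639) (nat_lit 228) (nat_lit 21224357146) (nat_lit 76) (nat_lit 7895999778) (nat_lit 36) (nat_lit 5) (nat_lit 39) (nat_lit 5) (nat_lit 37) (nat_lit 4) (nat_lit 412) (nat_lit 355) (nat_lit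 253)) (XT.lf (nat_lit 0) (nat_lit 3117279988) (nat_lit 76) (nat_lit 26126268852) (nat_lit 152) (nat_lit 18872321427) (nat_lit 35) (nat_lit 5) (nat_lit 36) (nat_lit 5) (nat_lit 37) (nat_lit 4) (nat_lit 413) (nat_lit 355) (nat_lit 252))))))) (XT.nd (nat_lit 1092) (nat_lit 684) (nat_lit 0) (XT.nd (nat_lit 546) (nat_lit 304) (nat_lit 0) (XT.nd (nat_lit 234) (nat_lit 228) (nat_lit 0) (XT.nd (nat_lit 78) (nat_lit 228) (nat_lit 0) (XT.lf (nat_lit 0) (nat_lit 29396350204) (nat_lit 76) (nat_lit 12674986675) (nat_lit 152) (nat_lit 7743864522) (nat_lit 35) (nat_lit 5) (nat_lit 36) (nat_lit 5) (nat_lit 37) (nat_lit 4) (nat_lit 414) (nat_lit 355) (nat_lit 251)) (XT.nd (nat_lit 78) (nat_lit 0) (nat_lit 0) (XT.lf (nat_lit 0) (nat_lit 3916816852) (nat_lit 228) (nat_lit 46129509746) (nat_lit 76) (nat_lit 1545000176) (nat_lit 32) (nat_lit 5) (nat_lit 35) (nat_lit 5) (nat_lit 33) (nat_lit 4) (nat_lit 415) (nat_lit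 355) (nat_lit 250)) (XT.lf (nat_lit 0) (nat_lit 16450936231) (nat_lit 228) (nat_lit 20450023620) (nat_lit 76) (nat_lit 16521419784) (nat_lit 32) (nat_lit 5) (nat_lit 35) (nat_lit 5) (nat_lit 33) (nat_lit 4) (nat_lit 416) (nat_lit 355) (nat_lit 249)))) (XT.nd (nat_lit 156) (nat_lit 152) (nat_lit 0) (XT.nd (nat_lit 78) (nat_lit 0) (nat_lit 0) (XT.lf (nat_lit 0) (nat_lit 6712993315) (nat_lit 76) (nat_lit 22995376776) (nat_lit 152) (nat_lit 25631785651) (nat_lit 31) (nat_lit 5) (nat_lit 32) (nat_lit 5) (nat_lit 33) (nat_lit 4) (nat_lit 417) (nat_lit 355) (nat_lit 248)) (XT.lf (nat_lit 0) (nat_lit 35929085330) (nat_lit 76) (nat_lit 8037876675) (nat_lit 152) (nat_lit 13369945311) (nat_lit 31) (nat_lit 5) (nat_lit 32) (nat_lit 5) (nat_lit 33) (nat_lit 4) (nat_lit 418) (nat_lit 355) (nat_lit 247))) (XT.nd (nat_lit 78) (nat_lit 76) (nat_lit 0) (XT.lf (nat_lit 0) (nat_lit 7270870277) (nat_lit 76) (nat_lit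 51893077202) (nat_lit 76) (nat_lit 258276723) (nat_lit 30) (nat_lit 4) (nat_lit 31) (nat_lit 5) (nat_lit 31) (nat_lit 4) (nat_lit 419) (nat_lit 355) (nat_lit 246)) (XT.lf (nat_lit 0) (nat_lit 13569121130) (nat_lit 152) (nat_lit 23830214381) (nat_lit 76) (nat_lit 24177300748) (nat_lit 29) (nat_lit 5) (nat_lit 31) (nat_lit 5) (nat_lit 30) (nat_lit 4) (nat_lit 420) (nat_lit 355) (nat_lit 245))))) (XT.nd (nat_lit 234) (nat_lit 152) (nat_lit 0) (XT.nd (nat_lit 78) (nat_lit 76) (nat_lit 0) (XT.lf (nat_lit 0) (nat_lit 6083517181) (nat_lit 76) (nat_lit 22083295173) (nat_lit 152) (nat_lit 35667365505) (nat_lit 28) (nat_lit 5) (nat_lit 29) (nat_lit 5) (nat_lit 30) (nat_lit 4) (nat_lit 421) (nat_lit 355) (nat_lit 244)) (XT.nd (nat_lit 78) (nat_lit 76) (nat_lit 0) (XT.lf (nat_lit 0) (nat_lit 38306549961) (nat_lit 76) (nat_lit 5584174061) (nat_lit 152) (nat_lit 22294056488) (nat_lit 28) (nat_lit 5) (nat_lit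 29) (nat_lit 5) (nat_lit 30) (nat_lit 4) (nat_lit 422) (nat_lit 355) (nat_lit 243)) (XT.lf (nat_lit 0) (nat_lit 3400038118) (nat_lit 76) (nat_lit 57230178220) (nat_lit 76) (nat_lit 8011228434) (nat_lit 27) (nat_lit 4) (nat_lit 28) (nat_lit 5) (nat_lit 28) (nat_lit 4) (nat_lit 423) (nat_lit 355) (nat_lit 242)))) (XT.nd (nat_lit 156) (nat_lit 76) (nat_lit 0) (XT.nd (nat_lit 78) (nat_lit 0) (nat_lit 0) (XT.lf (nat_lit 0) (nat_lit 7326592115) (nat_lit 152) (nat_lit 34208926190) (nat_lit 76) (nat_lit 29651749332) (nat_lit 26) (nat_lit 5) (nat_lit 28) (nat_lit 5) (nat_lit 27) (nat_lit 4) (nat_lit 424) (nat_lit 355) (nat_lit 241)) (XT.lf (nat_lit 0) (nat_lit 23155429516) (nat_lit 152) (nat_lit 1768847842) (nat_lit 76) (nat_lit 48929870556) (nat_lit 26) (nat_lit 5) (nat_lit 28) (nat_lit 5) (nat_lit 27) (nat_lit 4) (nat_lit 425) (nat_lit 355) (nat_lit 240))) (XT.nd (nat_lit 78) (nat_lit 0) (nat_lit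 0) (XT.lf (nat_lit 0) (nat_lit 33348504817) (nat_lit 76) (nat_lit 6941539619) (nat_lit 152) (nat_lit 36338611587) (nat_lit 25) (nat_lit 5) (nat_lit 26) (nat_lit 5) (nat_lit 27) (nat_lit 4) (nat_lit 426) (nat_lit 355) (nat_lit 239)) (XT.lf (nat_lit 0) (nat_lit 58491958502) (nat_lit 152) (nat_lit 9456286883) (nat_lit 0) (nat_lit 11583116306) (nat_lit 25) (nat_lit 5) (nat_lit 27) (nat_lit 4) (nat_lit 25) (nat_lit 4) (nat_lit 427) (nat_lit 355) (nat_lit 238)))))) (XT.nd (nat_lit 546) (nat_lit 304) (nat_lit 0) (XT.nd (nat_lit 234) (nat_lit 152) (nat_lit 0) (XT.nd (nat_lit 78) (nat_lit 152) (nat_lit 0) (XT.lf (nat_lit 0) (nat_lit 26790910919) (nat_lit 76) (nat_lit 51339133261) (nat_lit 76) (nat_lit 4422855212) (nat_lit 24) (nat_lit 4) (nat_lit 25) (nat_lit 5) (nat_lit 25) (nat_lit 4) (nat_lit 428) (nat_lit 355) (nat_lit 237)) (XT.nd (nat_lit 78) (nat_lit 76) (nat_lit 0) (XT.lf (nat_lit 0) (nat_lit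 12764436694) (nat_lit 152) (nat_lit 20756264588) (nat_lit 76) (nat_lit 52186806601) (nat_lit 23) (nat_lit 5) (nat_lit 25) (nat_lit 5) (nat_lit 24) (nat_lit 4) (nat_lit 429) (nat_lit 355) (nat_lit 236)) (XT.lf (nat_lit 0) (nat_lit 16442499607) (nat_lit 76) (nat_lit 14470965736) (nat_lit 152) (nat_lit 58090206179) (nat_lit 22) (nat_lit 5) (nat_lit 23) (nat_lit 5) (nat_lit 24) (nat_lit 4) (nat_lit 430) (nat_lit 355) (nat_lit 235)))) (XT.nd (nat_lit 156) (nat_lit 76) (nat_lit 0) (XT.nd (nat_lit 78) (nat_lit 76) (nat_lit 0) (XT.lf (nat_lit 0) (nat_lit 50407900466) (nat_lit 152) (nat_lit 36328400078) (nat_lit 0) (nat_lit 5706445498) (nat_lit 22) (nat_lit 5) (nat_lit 24) (nat_lit 4) (nat_lit 22) (nat_lit 4) (nat_lit 431) (nat_lit 355) (nat_lit 234)) (XT.lf (nat_lit 0) (nat_lit 1516830152) (nat_lit 76) (nat_lit 69615725403) (nat_lit 76) (nat_lit 24908444249) (nat_lit 21) (nat_lit 4) (nat_lit 22)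 (nat_lit 5) (nat_lit 22) (nat_lit 4) (nat_lit 432) (nat_lit 355) (nat_lit 233))) (XT.nd (nat_lit 78) (nat_lit 76) (nat_lit 0) (XT.lf (nat_lit 0) (nat_lit 42505231966) (nat_lit 76) (nat_lit 50998134228) (nat_lit 76) (nat_lit 6285304327) (nat_lit 21) (nat_lit 4) (nat_lit 22) (nat_lit 5) (nat_lit 22) (nat_lit 4) (nat_lit 433) (nat_lit 355) (nat_lit 232)) (XT.lf (nat_lit 0) (nat_lit 12839155501) (nat_lit 152) (nat_lit 18397845642) (nat_lit 76) (nat_lit 72476623013) (nat_lit 20) (nat_lit 5) (nat_lit 22) (nat_lit 5) (nat_lit 21) (nat_lit 4) (nat_lit 434) (nat_lit 355) (nat_lit 231))))) (XT.nd (nat_lit 234) (nat_lit 228) (nat_lit 0) (XT.nd (nat_lit 78) (nat_lit 0) (nat_lit 0) (XT.lf (nat_lit 0) (nat_lit 23057439211) (nat_lit 76) (nat_lit 10006261525) (nat_lit 152) (nat_lit 74748218708) (nat_lit 19) (nat_lit 5) (nat_lit 20) (nat_lit 5) (nat_lit 21) (nat_lit 4) (nat_lit 435) (nat_lit 355) (nat_lit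 230)) (XT.nd (nat_lit 78) (nat_lit 0) (nat_lit 0) (XT.lf (nat_lit 0) (nat_lit 54803090922) (nat_lit 152) (nat_lit 45081805687) (nat_lit 0) (nat_lit 12205052336) (nat_lit 19) (nat_lit 5) (nat_lit 21) (nat_lit 4) (nat_lit 19) (nat_lit 4) (nat_lit 436) (nat_lit 355) (nat_lit 229)) (XT.lf (nat_lit 0) (nat_lit 77788834678) (nat_lit 152) (nat_lit 3598627858) (nat_lit 0) (nat_lit 35186448503) (nat_lit 19) (nat_lit 5) (nat_lit 21) (nat_lit 4) (nat_lit 19) (nat_lit 4) (nat_lit 437) (nat_lit 355) (nat_lit 228)))) (XT.nd (nat_lit 156) (nat_lit 76) (nat_lit 0) (XT.nd (nat_lit 78) (nat_lit 76) (nat_lit 0) (XT.lf (nat_lit 0) (nat_lit 41270977531) (nat_lit 76) (nat_lit 61292812267) (nat_lit 76) (nat_lit 18686285532) (nat_lit 18) (nat_lit 4) (nat_lit 19) (nat_lit 5) (nat_lit 19) (nat_lit 4) (nat_lit 438) (nat_lit 355) (nat_lit 227)) (XT.lf (nat_lit 0) (nat_lit 2397589999) (nat_lit 152) (nat_lit 37695410626)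 (nat_lit 76) (nat_lit 86062284408) (nat_lit 17) (nat_lit 5) (nat_lit 19) (nat_lit 5) (nat_lit 18) (nat_lit 4) (nat_lit 439) (nat_lit 355) (nat_lit 226))) (XT.nd (nat_lit 78) (nat_lit 0) (nat_lit 0) (XT.lf (nat_lit 0) (nat_lit 6599085780) (nat_lit 76) (nat_lit 17407407642) (nat_lit 152) (nat_lit 107279004642) (nat_lit 16) (nat_lit 5) (nat_lit 17) (nat_lit 5) (nat_lit 18) (nat_lit 4) (nat_lit 440) (nat_lit 355) (nat_lit 225)) (XT.lf (nat_lit 0) (nat_lit 47440611348) (nat_lit 152) (nat_lit 82342144176) (nat_lit 0) (nat_lit 6852228006) (nat_lit 16) (nat_lit 5) (nat_lit 18) (nat_lit 4) (nat_lit 16) (nat_lit 4) (nat_lit 441) (nat_lit 355) (nat_lit 224))))))))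
noncomputable def xc136 : XT := (XT.nd (nat_lit 2106) (nat_lit 228) (nat_lit 0) (XT.nd (nat_lit 1014) (nat_lit 228) (nat_lit 0) (XT.nd (nat_lit 468) (nat_lit 228) (nat_lit 0) (XT.nd (nat_lit 234) (nat_lit 152) (nat_lit 0) (XT.nd (nat_lit 78) (nat_lit 76) (nat_lit 0) (XT.lf (nat_lit 0) (nat_lit 72327799986) (nat_lit 152) (nat_lit 38173902872) (nat_lit 0) (nat_lit 31736172407) (nat_lit 16) (nat_lit 5) (nat_lit 18) (nat_lit 4) (nat_lit 16) (nat_lit 4) (nat_lit 442) (nat_lit 355) (nat_lit 223)) (XT.nd (nat_lit 78) (nat_lit 0) (nat_lit 0) (XT.lf (nat_lit 0) (nat_lit 8466224582) (nat_lit 76) (nat_lit 90121493041) (nat_lit 76) (nat_lit 49526775712) (nat_lit 15) (nat_lit 4) (nat_lit 16) (nat_lit 5) (nat_lit 16) (nat_lit 4) (nat_lit 443) (nat_lit 355) (nat_lit 222)) (XT.lf (nat_lit 0) (nat_lit 58756293079) (nat_lit 76) (nat_lit 68047085999) (nat_lit 76) (nat_lit 27449426051) (nat_lit 15) (nat_lit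 4) (nat_lit 16) (nat_lit 5) (nat_lit 16) (nat_lit 4) (nat_lit 444) (nat_lit 355) (nat_lit 221)))) (XT.nd (nat_lit 78) (nat_lit 152) (nat_lit 0) (XT.lf (nat_lit 0) (nat_lit 111553839249) (nat_lit 76) (nat_lit 44872417135) (nat_lit 76) (nat_lit 4271954692) (nat_lit 15) (nat_lit 4) (nat_lit 16) (nat_lit 5) (nat_lit 16) (nat_lit 4) (nat_lit 445) (nat_lit 355) (nat_lit 220)) (XT.nd (nat_lit 78) (nat_lit 76) (nat_lit 0) (XT.lf (nat_lit 0) (nat_lit 19418751204) (nat_lit 152) (nat_lit 794691514) (nat_lit 76) (nat_lit 147236954384) (nat_lit 14) (nat_lit 5) (nat_lit 16) (nat_lit 5) (nat_lit 15) (nat_lit 4) (nat_lit 446) (nat_lit 355) (nat_lit 219)) (XT.lf (nat_lit 0) (nat_lit 45054859669) (nat_lit 152) (nat_lit 123053819953) (nat_lit 0) (nat_lit 6382789735) (nat_lit 13) (nat_lit 5) (nat_lit 15) (nat_lit 4) (nat_lit 13) (nat_lit 4) (nat_lit 447) (nat_lit 355) (nat_lit 218))))) (XT.nd (nat_lit 234) (nat_lit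 152) (nat_lit 0) (XT.nd (nat_lit 78) (nat_lit 76) (nat_lit 0) (XT.lf (nat_lit 0) (nat_lit 72314539731) (nat_lit 152) (nat_lit 75912803175) (nat_lit 0) (nat_lit 33640164179) (nat_lit 13) (nat_lit 5) (nat_lit 15) (nat_lit 4) (nat_lit 13) (nat_lit 4) (nat_lit 448) (nat_lit 355) (nat_lit 217)) (XT.nd (nat_lit 78) (nat_lit 76) (nat_lit 0) (XT.lf (nat_lit 0) (nat_lit 100934079174) (nat_lit 152) (nat_lit 26420916123) (nat_lit 0) (nat_lit 62257507794) (nat_lit 13) (nat_lit 5) (nat_lit 15) (nat_lit 4) (nat_lit 13) (nat_lit 4) (nat_lit 449) (nat_lit 355) (nat_lit 216)) (XT.lf (nat_lit 0) (nat_lit 26384136156) (nat_lit 76) (nat_lit 105009413908) (nat_lit 76) (nat_lit 66330751263) (nat_lit 12) (nat_lit 4) (nat_lit 13) (nat_lit 5) (nat_lit 13) (nat_lit 4) (nat_lit 450) (nat_lit 355) (nat_lit 215)))) (XT.nd (nat_lit 156) (nat_lit 152) (nat_lit 0) (XT.nd (nat_lit 78) (nat_lit 0) (nat_lit 0) (XT.lf (nat_lit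 0) (nat_lit 82740924284) (nat_lit 76) (nat_lit 81079596669) (nat_lit 76) (nat_lit 42398942344) (nat_lit 12) (nat_lit 4) (nat_lit 13) (nat_lit 5) (nat_lit 13) (nat_lit 4) (nat_lit 451) (nat_lit 355) (nat_lit 214)) (XT.lf (nat_lit 0) (nat_lit 141910036281) (nat_lit 76) (nat_lit 55956018826) (nat_lit 76) (nat_lit 17273467663) (nat_lit 12) (nat_lit 4) (nat_lit 13) (nat_lit 5) (nat_lit 13) (nat_lit 4) (nat_lit 452) (nat_lit 355) (nat_lit 213))) (XT.nd (nat_lit 78) (nat_lit 76) (nat_lit 0) (XT.lf (nat_lit 0) (nat_lit 8814062624) (nat_lit 152) (nat_lit 20615529296) (nat_lit 76) (nat_lit 195069017946) (nat_lit 11) (nat_lit 5) (nat_lit 13) (nat_lit 5) (nat_lit 12) (nat_lit 4) (nat_lit 453) (nat_lit 355) (nat_lit 212)) (XT.lf (nat_lit 0) (nat_lit 35476330505) (nat_lit 76) (nat_lit 700454211) (nat_lit 152) (nat_lit 198107142286) (nat_lit 10) (nat_lit 5) (nat_lit 11) (nat_lit 5) (nat_lit 12) (nat_lit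 4) (nat_lit 454) (nat_lit 355) (nat_lit 211)))))) (XT.nd (nat_lit 546) (nat_lit 152) (nat_lit 0) (XT.nd (nat_lit 234) (nat_lit 76) (nat_lit 0) (XT.nd (nat_lit 78) (nat_lit 0) (nat_lit 0) (XT.lf (nat_lit 0) (nat_lit 65719971310) (nat_lit 152) (nat_lit 149923395570) (nat_lit 0) (nat_lit 28874526810) (nat_lit 10) (nat_lit 5) (nat_lit 12) (nat_lit 4) (nat_lit 10) (nat_lit 4) (nat_lit 455) (nat_lit 355) (nat_lit 210)) (XT.nd (nat_lit 78) (nat_lit 0) (nat_lit 0) (XT.lf (nat_lit 0) (nat_lit 96749359620) (nat_lit 152) (nat_lit 98611318185) (nat_lit 0) (nat_lit 59902428897) (nat_lit 10) (nat_lit 5) (nat_lit 12) (nat_lit 4) (nat_lit 10) (nat_lit 4) (nat_lit 456) (nat_lit 355) (nat_lit 209)) (XT.lf (nat_lit 0) (nat_lit 129327893089) (nat_lit 152) (nat_lit 44738256677) (nat_lit 0) (nat_lit 92479546916) (nat_lit 10) (nat_lit 5) (nat_lit 12) (nat_lit 4) (nat_lit 10) (nat_lit 4) (nat_lit 457) (nat_lit 355)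 (nat_lit 208)))) (XT.nd (nat_lit 156) (nat_lit 0) (nat_lit 0) (XT.nd (nat_lit 78) (nat_lit 0) (nat_lit 0) (XT.lf (nat_lit 0) (nat_lit 12215014908) (nat_lit 76) (nat_lit 151508835360) (nat_lit 76) (nat_lit 114659141139) (nat_lit 9) (nat_lit 4) (nat_lit 10) (nat_lit 5) (nat_lit 10) (nat_lit 4) (nat_lit 458) (nat_lit 355) (nat_lit 207)) (XT.lf (nat_lit 0) (nat_lit 73564832530) (nat_lit 76) (nat_lit 127030261048) (nat_lit 76) (nat_lit 90179282972) (nat_lit 9) (nat_lit 4) (nat_lit 10) (nat_lit 5) (nat_lit 10) (nat_lit 4) (nat_lit 459) (nat_lit 355) (nat_lit 206))) (XT.nd (nat_lit 78) (nat_lit 0) (nat_lit 0) (XT.lf (nat_lit 0) (nat_lit 137978018372) (nat_lit 76) (nat_lit 101329808534) (nat_lit 76) (nat_lit 64477607740) (nat_lit 9) (nat_lit 4) (nat_lit 10) (nat_lit 5) (nat_lit 10) (nat_lit 4) (nat_lit 460) (nat_lit 355) (nat_lit 205)) (XT.lf (nat_lit 0) (nat_lit 205607937161) (nat_lit 76) (nat_lit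 74346286267) (nat_lit 76) (nat_lit 37492920978) (nat_lit 9) (nat_lit 4) (nat_lit 10) (nat_lit 5) (nat_lit 10) (nat_lit 4) (nat_lit 461) (nat_lit 355) (nat_lit 204))))) (XT.nd (nat_lit 234) (nat_lit 0) (nat_lit 0) (XT.nd (nat_lit 78) (nat_lit 152) (nat_lit 0) (XT.lf (nat_lit 0) (nat_lit 276615612515) (nat_lit 76) (nat_lit 46015447763) (nat_lit 76) (nat_lit 9160973432) (nat_lit 9) (nat_lit 4) (nat_lit 10) (nat_lit 5) (nat_lit 10) (nat_lit 4) (nat_lit 462) (nat_lit 355) (nat_lit 203)) (XT.nd (nat_lit 78) (nat_lit 0) (nat_lit 0) (XT.lf (nat_lit 0) (nat_lit 4126527580) (nat_lit 76) (nat_lit 15864720293) (nat_lit 152) (nat_lit 326843717834) (nat_lit 7) (nat_lit 5) (nat_lit 8) (nat_lit 5) (nat_lit 9) (nat_lit 4) (nat_lit 463) (nat_lit 355) (nat_lit 202)) (XT.lf (nat_lit 0) (nat_lit 51487734895) (nat_lit 152) (nat_lit 294688802747) (nat_lit 0) (nat_lit 16386271566) (nat_lit 7) (nat_lit 5) (nat_lit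 9) (nat_lit 4) (nat_lit 7) (nat_lit 4) (nat_lit 464) (nat_lit 355) (nat_lit 201)))) (XT.nd (nat_lit 156) (nat_lit 0) (nat_lit 0) (XT.nd (nat_lit 78) (nat_lit 0) (nat_lit 0) (XT.lf (nat_lit 0) (nat_lit 84817394014) (nat_lit 152) (nat_lit 244531715276) (nat_lit 0) (nat_lit 49715018273) (nat_lit 7) (nat_lit 5) (nat_lit 9) (nat_lit 4) (nat_lit 7) (nat_lit 4) (nat_lit 465) (nat_lit 355) (nat_lit 200)) (XT.lf (nat_lit 0) (nat_lit 119811888817) (nat_lit 152) (nat_lit 191870061333) (nat_lit 0) (nat_lit 84708644113) (nat_lit 7) (nat_lit 5) (nat_lit 9) (nat_lit 4) (nat_lit 7) (nat_lit 4) (nat_lit 466) (nat_lit 355) (nat_lit 199))) (XT.nd (nat_lit 78) (nat_lit 0) (nat_lit 0) (XT.lf (nat_lit 0) (nat_lit 156554539530) (nat_lit 152) (nat_lit 136578456028) (nat_lit 0) (nat_lit 121450467242) (nat_lit 7) (nat_lit 5) (nat_lit 9) (nat_lit 4) (nat_lit 7) (nat_lit 4) (nat_lit 467) (nat_lit 355) (nat_lit 198))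 (XT.lf (nat_lit 0) (nat_lit 195132828655) (nat_lit 152) (nat_lit 78525252683) (nat_lit 0) (nat_lit 160027968191) (nat_lit 7) (nat_lit 5) (nat_lit 9) (nat_lit 4) (nat_lit 7) (nat_lit 4) (nat_lit 468) (nat_lit 355) (nat_lit 197))))))) (XT.nd (nat_lit 44304) (nat_lit 0) (nat_lit 8284) (XT.nd (nat_lit 468) (nat_lit 152) (nat_lit 0) (XT.nd (nat_lit 234) (nat_lit 0) (nat_lit 0) (XT.nd (nat_lit 78) (nat_lit 76) (nat_lit 0) (XT.lf (nat_lit 0) (nat_lit 235638609261) (nat_lit 152) (nat_lit 17572229383) (nat_lit 0) (nat_lit 200532998153) (nat_lit 7) (nat_lit 5) (nat_lit 9) (nat_lit 4) (nat_lit 7) (nat_lit 4) (nat_lit 469) (nat_lit 355) (nat_lit 196)) (XT.nd (nat_lit 78) (nat_lit 0) (nat_lit 0) (XT.lf (nat_lit 0) (nat_lit 47960784749) (nat_lit 76) (nat_lit 230956341193) (nat_lit 76) (nat_lit 195850015187) (nat_lit 6) (nat_lit 4) (nat_lit 7) (nat_lit 5) (nat_lit 7) (nat_lit 4) (nat_lit 470) (nat_lit 355)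 (nat_lit 195)) (XT.lf (nat_lit 0) (nat_lit 117377856376) (nat_lit 76) (nat_lit 207277974057) (nat_lit 76) (nat_lit 172170967195) (nat_lit 6) (nat_lit 4) (nat_lit 7) (nat_lit 5) (nat_lit 7) (nat_lit 4) (nat_lit 471) (nat_lit 355) (nat_lit 194)))) (XT.nd (nat_lit 78) (nat_lit 0) (nat_lit 0) (XT.lf (nat_lit 0) (nat_lit 190263246979) (nat_lit 76) (nat_lit 182416954379) (nat_lit 76) (nat_lit 147309299083) (nat_lit 6) (nat_lit 4) (nat_lit 7) (nat_lit 5) (nat_lit 7) (nat_lit 4) (nat_lit 472) (nat_lit 355) (nat_lit 193)) (XT.nd (nat_lit 78) (nat_lit 0) (nat_lit 0) (XT.lf (nat_lit 0) (nat_lit 266790493200) (nat_lit 76) (nat_lit 156314089254) (nat_lit 76) (nat_lit 121205816402) (nat_lit 6) (nat_lit 4) (nat_lit 7) (nat_lit 5) (nat_lit 7) (nat_lit 4) (nat_lit 473) (nat_lit 355) (nat_lit 192)) (XT.lf (nat_lit 0) (nat_lit 347141802771) (nat_lit 76) (nat_lit 128907229004) (nat_lit 76) (nat_lit 93798368004)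 (nat_lit 6) (nat_lit 4) (nat_lit 7) (nat_lit 5) (nat_lit 7) (nat_lit 4) (nat_lit 474) (nat_lit 355) (nat_lit 191))))) (XT.nd (nat_lit 234) (nat_lit 152) (nat_lit 0) (XT.nd (nat_lit 78) (nat_lit 0) (nat_lit 0) (XT.lf (nat_lit 0) (nat_lit 431508488331) (nat_lit 76) (nat_lit 100131119200) (nat_lit 76) (nat_lit 65021698058) (nat_lit 6) (nat_lit 4) (nat_lit 7) (nat_lit 5) (nat_lit 7) (nat_lit 4) (nat_lit 475) (nat_lit 355) (nat_lit 190)) (XT.nd (nat_lit 78) (nat_lit 0) (nat_lit 0) (XT.lf (nat_lit 0) (nat_lit 520091422943) (nat_lit 76) (nat_lit 69917245295) (nat_lit 76) (nat_lit 34807290684) (nat_lit 6) (nat_lit 4) (nat_lit 7) (nat_lit 5) (nat_lit 7) (nat_lit 4) (nat_lit 476) (nat_lit 355) (nat_lit 189)) (XT.lf (nat_lit 0) (nat_lit 613101518355) (nat_lit 76) (nat_lit 38193669492) (nat_lit 76) (nat_lit 3083206816) (nat_lit 6) (nat_lit 4) (nat_lit 7) (nat_lit 5) (nat_lit 7) (nat_lit 4) (nat_lit 477)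 (nat_lit 355) (nat_lit 188)))) (XT.nd (nat_lit 156) (nat_lit 0) (nat_lit 0) (XT.nd (nat_lit 78) (nat_lit 0) (nat_lit 0) (XT.lf (nat_lit 0) (nat_lit 25691605501) (nat_lit 76) (nat_lit 3968175985) (nat_lit 152) (nat_lit 655715566487) (nat_lit 4) (nat_lit 5) (nat_lit 5) (nat_lit 5) (nat_lit 6) (nat_lit 4) (nat_lit 478) (nat_lit 355) (nat_lit 187)) (XT.lf (nat_lit 0) (nat_lit 65144965328) (nat_lit 152) (nat_lit 621008693599) (nat_lit 0) (nat_lit 31705529731) (nat_lit 4) (nat_lit 5) (nat_lit 6) (nat_lit 4) (nat_lit 4) (nat_lit 4) (nat_lit 479) (nat_lit 355) (nat_lit 186))) (XT.nd (nat_lit 78) (nat_lit 0) (nat_lit 0) (XT.lf (nat_lit 0) (nat_lit 102468545345) (nat_lit 152) (nat_lit 580466777451) (nat_lit 0) (nat_lit 69028691762) (nat_lit 4) (nat_lit 5) (nat_lit 6) (nat_lit 4) (nat_lit 4) (nat_lit 4) (nat_lit 480) (nat_lit 355) (nat_lit 185)) (XT.lf (nat_lit 0) (nat_lit 141657432857) (nat_lit 152)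 (nat_lit 537899511309) (nat_lit 0) (nat_lit 108217181191) (nat_lit 4) (nat_lit 5) (nat_lit 6) (nat_lit 4) (nat_lit 4) (nat_lit 4) (nat_lit 481) (nat_lit 355) (nat_lit 184)))))) (XT.nd (nat_lit 546) (nat_lit 1216) (nat_lit 0) (XT.nd (nat_lit 234) (nat_lit 0) (nat_lit 76) (XT.nd (nat_lit 78) (nat_lit 0) (nat_lit 0) (XT.lf (nat_lit 0) (nat_lit 120413555) (nat_lit 0) (nat_lit 120413555) (nat_lit 684) (nat_lit 4476237050) (nat_lit 129) (nat_lit 5) (nat_lit 129) (nat_lit 3) (nat_lit 138) (nat_lit 3) (nat_lit 356) (nat_lit 356) (nat_lit 308)) (XT.nd (nat_lit 78) (nat_lit 0) (nat_lit 0) (XT.lf (nat_lit 0) (nat_lit 1348707840) (nat_lit 684) (nat_lit 4650229924) (nat_lit 760) (nat_lit 3627827967) (nat_lit 129) (nat_lit 5) (nat_lit 138) (nat_lit 3) (nat_lit 139) (nat_lit 5) (nat_lit 357) (nat_lit 356) (nat_lit 307)) (XT.lf (nat_lit 76) (nat_lit 90472604) (nat_lit 0) (nat_lit 2123414188) (nat_lit 760)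 (nat_lit 7617439362) (nat_lit 130) (nat_lit 5) (nat_lit 129) (nat_lit 5) (nat_lit 139) (nat_lit 5) (nat_lit 358) (nat_lit 356) (nat_lit 306)))) (XT.nd (nat_lit 156) (nat_lit 0) (nat_lit 76) (XT.nd (nat_lit 78) (nat_lit 0) (nat_lit 0) (XT.lf (nat_lit 0) (nat_lit 3184455824) (nat_lit 684) (nat_lit 4874984651) (nat_lit 760) (nat_lit 1983595926) (nat_lit 130) (nat_lit 5) (nat_lit 139) (nat_lit 5) (nat_lit 140) (nat_lit 5) (nat_lit 359) (nat_lit 356) (nat_lit 305)) (XT.lf (nat_lit 76) (nat_lit 175664545) (nat_lit 0) (nat_lit 4019446651) (nat_lit 760) (nat_lit 6070670080) (nat_lit 131) (nat_lit 5) (nat_lit 130) (nat_lit 5) (nat_lit 140) (nat_lit 5) (nat_lit 360) (nat_lit 356) (nat_lit 304))) (XT.nd (nat_lit 78) (nat_lit 0) (nat_lit 0) (XT.lf (nat_lit 0) (nat_lit 5299673030) (nat_lit 684) (nat_lit 4883600153) (nat_lit 760) (nat_lit 314247250) (nat_lit 131) (nat_lit 5) (nat_lit 140) (nat_lit 5) (nat_lit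 141) (nat_lit 5) (nat_lit 361) (nat_lit 356) (nat_lit 303)) (XT.lf (nat_lit 76) (nat_lit 503629545) (nat_lit 0) (nat_lit 5987670420) (nat_lit 760) (nat_lit 4247979231) (nat_lit 132) (nat_lit 5) (nat_lit 131) (nat_lit 5) (nat_lit 141) (nat_lit 5) (nat_lit 362) (nat_lit 356) (nat_lit 302))))) (XT.nd (nat_lit 234) (nat_lit 1368) (nat_lit 0) (XT.nd (nat_lit 78) (nat_lit 0) (nat_lit 76) (XT.lf (nat_lit 76) (nat_lit 6300410149) (nat_lit 0) (nat_lit 1484423365) (nat_lit 760) (nat_lit 3206199451) (nat_lit 132) (nat_lit 5) (nat_lit 131) (nat_lit 5) (nat_lit 141) (nat_lit 5) (nat_lit 363) (nat_lit 356) (nat_lit 301)) (XT.nd (nat_lit 78) (nat_lit 0) (nat_lit 0) (XT.lf (nat_lit 76) (nat_lit 1085687255) (nat_lit 0) (nat_lit 8086660755) (nat_lit 760) (nat_lit 2081583421) (nat_lit 133) (nat_lit 5) (nat_lit 132) (nat_lit 5) (nat_lit 142) (nat_lit 5) (nat_lit 364) (nat_lit 356) (nat_lit 300)) (XT.lf (nat_lit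 76) (nat_lit 7258937061) (nat_lit 0) (nat_lit 3436749018) (nat_lit 760) (nat_lit 830987510) (nat_lit 133) (nat_lit 5) (nat_lit 132) (nat_lit 5) (nat_lit 142) (nat_lit 5) (nat_lit 365) (nat_lit 356) (nat_lit 299)))) (XT.nd (nat_lit 156) (nat_lit 760) (nat_lit 0) (XT.nd (nat_lit 78) (nat_lit 0) (nat_lit 0) (XT.lf (nat_lit 0) (nat_lit 484729099) (nat_lit 760) (nat_lit 9882840138) (nat_lit 76) (nat_lit 1444225320) (nat_lit 123) (nat_lit 5) (nat_lit 133) (nat_lit 5) (nat_lit 124) (nat_lit 5) (nat_lit 366) (nat_lit 356) (nat_lit 298)) (XT.lf (nat_lit 0) (nat_lit 1933675943) (nat_lit 760) (nat_lit 3625794734) (nat_lit 76) (nat_lit 6546269488) (nat_lit 123) (nat_lit 5) (nat_lit 133) (nat_lit 5) (nat_lit 124) (nat_lit 5) (nat_lit 367) (nat_lit 356) (nat_lit 297))) (XT.nd (nat_lit 78) (nat_lit 0) (nat_lit 0) (XT.lf (nat_lit 0) (nat_lit 3011208695) (nat_lit 760) (nat_lit 458084218) (nat_lit 836) (nat_lit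 8944396413) (nat_lit 113) (nat_lit 5) (nat_lit 123) (nat_lit 5) (nat_lit 124) (nat_lit 5) (nat_lit 368) (nat_lit 356) (nat_lit 296)) (XT.lf (nat_lit 0) (nat_lit 5188945407) (nat_lit 836) (nat_lit 2735953029) (nat_lit 76) (nat_lit 4806791355) (nat_lit 113) (nat_lit 5) (nat_lit 124) (nat_lit 5) (nat_lit 114) (nat_lit 5) (nat_lit 369) (nat_lit 356) (nat_lit 295))))))))
noncomputable def xc137 : XT := (XT.nd (nat_lit 2106) (nat_lit 2052) (nat_lit 0) (XT.nd (nat_lit 1014) (nat_lit 1748) (nat_lit 0) (XT.nd (nat_lit 468) (nat_lit 1140) (nat_lit 0) (XT.nd (nat_lit 234) (nat_lit 760) (nat_lit 0) (XT.nd (nat_lit 78) (nat_lit 380) (nat_lit 0) (XT.lf (nat_lit 0) (nat_lit 4367172869) (nat_lit 380) (nat_lit 2672973559) (nat_lit 456) (nat_lit 6023181349) (nat_lit 108) (nat_lit 5) (nat_lit 113) (nat_lit 5) (nat_lit 114) (nat_lit 5) (nat_lit 370) (nat_lit 356) (nat_lit 294)) (XT.nd (nat_lit 78) (nat_lit 380)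 (nat_lit 0) (XT.lf (nat_lit 0) (nat_lit 9046237594) (nat_lit 456) (nat_lit 1563922989) (nat_lit 76) (nat_lit 2798285614) (nat_lit 108) (nat_lit 5) (nat_lit 114) (nat_lit 5) (nat_lit 109) (nat_lit 5) (nat_lit 371) (nat_lit 356) (nat_lit 293)) (XT.lf (nat_lit 0) (nat_lit 6046031944) (nat_lit 380) (nat_lit 5217074493) (nat_lit 456) (nat_lit 2502204768) (nat_lit 103) (nat_lit 5) (nat_lit 108) (nat_lit 5) (nat_lit 109) (nat_lit 5) (nat_lit 372) (nat_lit 356) (nat_lit 292)))) (XT.nd (nat_lit 78) (nat_lit 760) (nat_lit 0) (XT.lf (nat_lit 0) (nat_lit 13597817529) (nat_lit 456) (nat_lit 84763073) (nat_lit 76) (nat_lit 457102564) (nat_lit 103) (nat_lit 5) (nat_lit 109) (nat_lit 5) (nat_lit 104) (nat_lit 5) (nat_lit 373) (nat_lit 356) (nat_lit 291)) (XT.nd (nat_lit 78) (nat_lit 304) (nat_lit 0) (XT.lf (nat_lit 0) (nat_lit 1657011900) (nat_lit 456) (nat_lit 6473816888) (nat_lit 76) (nat_lit 6391320546)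 (nat_lit 97) (nat_lit 5) (nat_lit 103) (nat_lit 5) (nat_lit 98) (nat_lit 5) (nat_lit 374) (nat_lit 356) (nat_lit 290)) (XT.lf (nat_lit 0) (nat_lit 1683900274) (nat_lit 304) (nat_lit 2266242300) (nat_lit 380) (nat_lit 10973037893) (nat_lit 93) (nat_lit 5) (nat_lit 97) (nat_lit 5) (nat_lit 98) (nat_lit 5) (nat_lit 375) (nat_lit 356) (nat_lit 289))))) (XT.nd (nat_lit 234) (nat_lit 836) (nat_lit 0) (XT.nd (nat_lit 78) (nat_lit 304) (nat_lit 0) (XT.lf (nat_lit 0) (nat_lit 6505602216) (nat_lit 380) (nat_lit 4956245038) (nat_lit 76) (nat_lit 3875043505) (nat_lit 93) (nat_lit 5) (nat_lit 98) (nat_lit 5) (nat_lit 94) (nat_lit 5) (nat_lit 376) (nat_lit 356) (nat_lit 288)) (XT.nd (nat_lit 78) (nat_lit 0) (nat_lit 0) (XT.lf (nat_lit 0) (nat_lit 3797557204) (nat_lit 304) (nat_lit 5464366813) (nat_lit 380) (nat_lit 6505718776) (nat_lit 89) (nat_lit 5) (nat_lit 93) (nat_lit 5) (nat_lit 94) (nat_lit 5) (nat_lit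 377) (nat_lit 356) (nat_lit 287)) (XT.lf (nat_lit 0) (nat_lit 12231639277) (nat_lit 380) (nat_lit 3097399106) (nat_lit 76) (nat_lit 887125358) (nat_lit 89) (nat_lit 5) (nat_lit 94) (nat_lit 5) (nat_lit 90) (nat_lit 5) (nat_lit 378) (nat_lit 356) (nat_lit 286)))) (XT.nd (nat_lit 156) (nat_lit 532) (nat_lit 0) (XT.nd (nat_lit 78) (nat_lit 76) (nat_lit 0) (XT.lf (nat_lit 0) (nat_lit 6304062317) (nat_lit 228) (nat_lit 9212124400) (nat_lit 304) (nat_lit 1162616394) (nat_lit 86) (nat_lit 5) (nat_lit 89) (nat_lit 5) (nat_lit 90) (nat_lit 5) (nat_lit 379) (nat_lit 356) (nat_lit 285)) (XT.lf (nat_lit 0) (nat_lit 1774683815) (nat_lit 304) (nat_lit 935118074) (nat_lit 76) (nat_lit 14451779880) (nat_lit 85) (nat_lit 5) (nat_lit 89) (nat_lit 5) (nat_lit 86) (nat_lit 5) (nat_lit 380) (nat_lit 356) (nat_lit 284))) (XT.nd (nat_lit 78) (nat_lit 228) (nat_lit 0) (XT.lf (nat_lit 0) (nat_lit 5010329262) (nat_lit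 380) (nat_lit 8501533149) (nat_lit 76) (nat_lit 4146164772) (nat_lit 81) (nat_lit 5) (nat_lit 86) (nat_lit 5) (nat_lit 82) (nat_lit 5) (nat_lit 381) (nat_lit 356) (nat_lit 283)) (XT.lf (nat_lit 0) (nat_lit 1586219796) (nat_lit 228) (nat_lit 6886925043) (nat_lit 304) (nat_lit 9702888611) (nat_lit 78) (nat_lit 5) (nat_lit 81) (nat_lit 5) (nat_lit 82) (nat_lit 5) (nat_lit 382) (nat_lit 356) (nat_lit 282)))))) (XT.nd (nat_lit 546) (nat_lit 836) (nat_lit 0) (XT.nd (nat_lit 234) (nat_lit 608) (nat_lit 0) (XT.nd (nat_lit 78) (nat_lit 304) (nat_lit 0) (XT.lf (nat_lit 0) (nat_lit 12237058706) (nat_lit 304) (nat_lit 6269626459) (nat_lit 76) (nat_lit 206864588) (nat_lit 78) (nat_lit 5) (nat_lit 82) (nat_lit 5) (nat_lit 79) (nat_lit 5) (nat_lit 383) (nat_lit 356) (nat_lit 281)) (XT.nd (nat_lit 78) (nat_lit 76) (nat_lit 0) (XT.lf (nat_lit 0) (nat_lit 4574404817) (nat_lit 228) (nat_lit 11780548199) (nat_lit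 304) (nat_lit 2914706851) (nat_lit 75) (nat_lit 5) (nat_lit 78) (nat_lit 5) (nat_lit 79) (nat_lit 5) (nat_lit 384) (nat_lit 356) (nat_lit 280)) (XT.lf (nat_lit 0) (nat_lit 888326646) (nat_lit 304) (nat_lit 3710458961) (nat_lit 76) (nat_lit 15249673754) (nat_lit 74) (nat_lit 5) (nat_lit 78) (nat_lit 5) (nat_lit 75) (nat_lit 5) (nat_lit 385) (nat_lit 356) (nat_lit 279)))) (XT.nd (nat_lit 156) (nat_lit 380) (nat_lit 0) (XT.nd (nat_lit 78) (nat_lit 0) (nat_lit 0) (XT.lf (nat_lit 0) (nat_lit 4939756505) (nat_lit 304) (nat_lit 12489652112) (nat_lit 76) (nat_lit 3016597461) (nat_lit 71) (nat_lit 5) (nat_lit 75) (nat_lit 5) (nat_lit 72) (nat_lit 5) (nat_lit 386) (nat_lit 356) (nat_lit 278)) (XT.lf (nat_lit 0) (nat_lit 9315881776) (nat_lit 304) (nat_lit 836370303) (nat_lit 76) (nat_lit 10915077808) (nat_lit 71) (nat_lit 5) (nat_lit 75) (nat_lit 5) (nat_lit 72) (nat_lit 5) (nat_lit 387) (nat_lit 356)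 (nat_lit 277))) (XT.nd (nat_lit 78) (nat_lit 152) (nat_lit 0) (XT.lf (nat_lit 0) (nat_lit 11751911762) (nat_lit 228) (nat_lit 2326063194) (nat_lit 304) (nat_lit 7633392515) (nat_lit 68) (nat_lit 5) (nat_lit 71) (nat_lit 5) (nat_lit 72) (nat_lit 5) (nat_lit 388) (nat_lit 356) (nat_lit 276)) (XT.lf (nat_lit 0) (nat_lit 2577944300) (nat_lit 152) (nat_lit 16630831449) (nat_lit 228) (nat_lit 3172306439) (nat_lit 66) (nat_lit 5) (nat_lit 68) (nat_lit 5) (nat_lit 69) (nat_lit 5) (nat_lit 389) (nat_lit 356) (nat_lit 275))))) (XT.nd (nat_lit 234) (nat_lit 532) (nat_lit 0) (XT.nd (nat_lit 78) (nat_lit 228) (nat_lit 0) (XT.lf (nat_lit 0) (nat_lit 1657118580) (nat_lit 228) (nat_lit 7076606106) (nat_lit 76) (nat_lit 14339699011) (nat_lit 65) (nat_lit 5) (nat_lit 68) (nat_lit 5) (nat_lit 66) (nat_lit 5) (nat_lit 390) (nat_lit 356) (nat_lit 274)) (XT.nd (nat_lit 78) (nat_lit 0) (nat_lit 0) (XT.lf (nat_lit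 0) (nat_lit 6416530771) (nat_lit 228) (nat_lit 289917932) (nat_lit 304) (nat_lit 17087085785) (nat_lit 62) (nat_lit 5) (nat_lit 65) (nat_lit 5) (nat_lit 66) (nat_lit 5) (nat_lit 391) (nat_lit 356) (nat_lit 273)) (XT.lf (nat_lit 0) (nat_lit 12249058640) (nat_lit 304) (nat_lit 3872843655) (nat_lit 76) (nat_lit 8415712300) (nat_lit 62) (nat_lit 5) (nat_lit 66) (nat_lit 5) (nat_lit 63) (nat_lit 5) (nat_lit 392) (nat_lit 356) (nat_lit 272)))) (XT.nd (nat_lit 156) (nat_lit 380) (nat_lit 0) (XT.nd (nat_lit 78) (nat_lit 0) (nat_lit 0) (XT.lf (nat_lit 0) (nat_lit 10619438989) (nat_lit 152) (nat_lit 7605727511) (nat_lit 228) (nat_lit 7085918066) (nat_lit 60) (nat_lit 5) (nat_lit 62) (nat_lit 5) (nat_lit 63) (nat_lit 5) (nat_lit 393) (nat_lit 356) (nat_lit 271)) (XT.lf (nat_lit 0) (nat_lit 24573630651) (nat_lit 228) (nat_lit 193528467) (nat_lit 76) (nat_lit 1352395400) (nat_lit 60) (nat_lit 5) (nat_lit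 63) (nat_lit 5) (nat_lit 61) (nat_lit 5) (nat_lit 394) (nat_lit 356) (nat_lit 270))) (XT.nd (nat_lit 78) (nat_lit 152) (nat_lit 0) (XT.lf (nat_lit 0) (nat_lit 4491556162) (nat_lit 228) (nat_lit 11647766241) (nat_lit 76) (nat_lit 10807935698) (nat_lit 57) (nat_lit 5) (nat_lit 60) (nat_lit 5) (nat_lit 58) (nat_lit 5) (nat_lit 395) (nat_lit 356) (nat_lit 269)) (XT.lf (nat_lit 0) (nat_lit 3833537672) (nat_lit 152) (nat_lit 6995381717) (nat_lit 228) (nat_lit 16983665685) (nat_lit 55) (nat_lit 5) (nat_lit 57) (nat_lit 5) (nat_lit 58) (nat_lit 5) (nat_lit 396) (nat_lit 356) (nat_lit 268))))))) (XT.nd (nat_lit 1014) (nat_lit 912) (nat_lit 0) (XT.nd (nat_lit 468) (nat_lit 608) (nat_lit 0) (XT.nd (nat_lit 234) (nat_lit 304) (nat_lit 0) (XT.nd (nat_lit 78) (nat_lit 228) (nat_lit 0) (XT.lf (nat_lit 0) (nat_lit 17711279114) (nat_lit 228) (nat_lit 8283578473) (nat_lit 76) (nat_lit 2714917706) (nat_lit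 55) (nat_lit 5) (nat_lit 58) (nat_lit 5) (nat_lit 56) (nat_lit 5) (nat_lit 397) (nat_lit 356) (nat_lit 267)) (XT.nd (nat_lit 78) (nat_lit 76) (nat_lit 0) (XT.lf (nat_lit 0) (nat_lit 8327924344) (nat_lit 152) (nat_lit 16842105341) (nat_lit 228) (nat_lit 4470184852) (nat_lit 53) (nat_lit 5) (nat_lit 55) (nat_lit 5) (nat_lit 56) (nat_lit 5) (nat_lit 398) (nat_lit 356) (nat_lit 266)) (XT.lf (nat_lit 0) (nat_lit 2438453351) (nat_lit 228) (nat_lit 4612786895) (nat_lit 76) (nat_lit 23557565312) (nat_lit 52) (nat_lit 5) (nat_lit 55) (nat_lit 5) (nat_lit 53) (nat_lit 5) (nat_lit 399) (nat_lit 356) (nat_lit 265)))) (XT.nd (nat_lit 78) (nat_lit 152) (nat_lit 0) (XT.lf (nat_lit 0) (nat_lit 9792330151) (nat_lit 228) (nat_lit 18414409035) (nat_lit 76) (nat_lit 3402923876) (nat_lit 50) (nat_lit 5) (nat_lit 53) (nat_lit 5) (nat_lit 51) (nat_lit 5) (nat_lit 400) (nat_lit 356) (nat_lit 264)) (XT.nd (nat_lit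 78) (nat_lit 152) (nat_lit 0) (XT.lf (nat_lit 0) (nat_lit 17697263737) (nat_lit 228) (nat_lit 739527717) (nat_lit 76) (nat_lit 14214606435) (nat_lit 50) (nat_lit 5) (nat_lit 53) (nat_lit 5) (nat_lit 51) (nat_lit 5) (nat_lit 401) (nat_lit 356) (nat_lit 263)) (XT.lf (nat_lit 0) (nat_lit 18388759423) (nat_lit 152) (nat_lit 7884706949) (nat_lit 228) (nat_lit 7457954441) (nat_lit 48) (nat_lit 5) (nat_lit 50) (nat_lit 5) (nat_lit 51) (nat_lit 5) (nat_lit 402) (nat_lit 356) (nat_lit 262))))) (XT.nd (nat_lit 234) (nat_lit 304) (nat_lit 0) (XT.nd (nat_lit 78) (nat_lit 152) (nat_lit 0) (XT.lf (nat_lit 0) (nat_lit 510756026) (nat_lit 152) (nat_lit 31185128358) (nat_lit 76) (nat_lit 3163693238) (nat_lit 46) (nat_lit 5) (nat_lit 48) (nat_lit 5) (nat_lit 47) (nat_lit 5) (nat_lit 403) (nat_lit 356) (nat_lit 261)) (XT.nd (nat_lit 78) (nat_lit 152) (nat_lit 0) (XT.lf (nat_lit 0) (nat_lit 9009708772) (nat_lit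 152) (nat_lit 12130919392) (nat_lit 76) (nat_lit 14878281020) (nat_lit 46) (nat_lit 5) (nat_lit 48) (nat_lit 5) (nat_lit 47) (nat_lit 5) (nat_lit 404) (nat_lit 356) (nat_lit 260)) (XT.lf (nat_lit 0) (nat_lit 8117655438) (nat_lit 152) (nat_lit 9932303017) (nat_lit 228) (nat_lit 19180433439) (nat_lit 44) (nat_lit 5) (nat_lit 46) (nat_lit 5) (nat_lit 47) (nat_lit 5) (nat_lit 405) (nat_lit 356) (nat_lit 259)))) (XT.nd (nat_lit 156) (nat_lit 228) (nat_lit 0) (XT.nd (nat_lit 78) (nat_lit 76) (nat_lit 0) (XT.lf (nat_lit 0) (nat_lit 27769409125) (nat_lit 228) (nat_lit 8742657204) (nat_lit 76) (nat_lit 1979024924) (nat_lit 44) (nat_lit 5) (nat_lit 47) (nat_lit 5) (nat_lit 45) (nat_lit 4) (nat_lit 406) (nat_lit 356) (nat_lit 258)) (XT.lf (nat_lit 0) (nat_lit 12877885675) (nat_lit 76) (nat_lit 25451027028) (nat_lit 152) (nat_lit 1468210703) (nat_lit 43) (nat_lit 5) (nat_lit 44) (nat_lit 5) (nat_lit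 45) (nat_lit 4) (nat_lit 407) (nat_lit 356) (nat_lit 257))) (XT.nd (nat_lit 78) (nat_lit 152) (nat_lit 0) (XT.lf (nat_lit 0) (nat_lit 8124673708) (nat_lit 152) (nat_lit 5426706199) (nat_lit 76) (nat_lit 27603604024) (nat_lit 42) (nat_lit 5) (nat_lit 44) (nat_lit 5) (nat_lit 43) (nat_lit 5) (nat_lit 408) (nat_lit 356) (nat_lit 256)) (XT.lf (nat_lit 0) (nat_lit 17665176465) (nat_lit 152) (nat_lit 749188671) (nat_lit 228) (nat_lit 24151845274) (nat_lit 40) (nat_lit 5) (nat_lit 42) (nat_lit 5) (nat_lit 43) (nat_lit 5) (nat_lit 409) (nat_lit 356) (nat_lit 255)))))) (XT.nd (nat_lit 546) (nat_lit 304) (nat_lit 0) (XT.nd (nat_lit 234) (nat_lit 304) (nat_lit 0) (XT.nd (nat_lit 78) (nat_lit 304) (nat_lit 0) (XT.lf (nat_lit 0) (nat_lit 29500903075) (nat_lit 228) (nat_lit 2159707325) (nat_lit 76) (nat_lit 12373271233) (nat_lit 40) (nat_lit 5) (nat_lit 43) (nat_lit 5) (nat_lit 41) (nat_lit 4) (nat_lit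 410) (nat_lit 356) (nat_lit 254)) (XT.nd (nat_lit 78) (nat_lit 228) (nat_lit 0) (XT.lf (nat_lit 0) (nat_lit 22407705717) (nat_lit 76) (nat_lit 19087406650) (nat_lit 152) (nat_lit 4062158276) (nat_lit 39) (nat_lit 5) (nat_lit 40) (nat_lit 5) (nat_lit 41) (nat_lit 4) (nat_lit 411) (nat_lit 356) (nat_lit 253)) (XT.lf (nat_lit 0) (nat_lit 1031741554) (nat_lit 152) (nat_lit 5723118754) (nat_lit 228) (nat_lit 40394331995) (nat_lit 36) (nat_lit 5) (nat_lit 38) (nat_lit 5) (nat_lit 39) (nat_lit 5) (nat_lit 412) (nat_lit 356) (nat_lit 252)))) (XT.nd (nat_lit 156) (nat_lit 228) (nat_lit 0) (XT.nd (nat_lit 78) (nat_lit 76) (nat_lit 0) (XT.lf (nat_lit 0) (nat_lit 18495732645) (nat_lit 228) (nat_lit 21794028260) (nat_lit 76) (nat_lit 8501644854) (nat_lit 36) (nat_lit 5) (nat_lit 39) (nat_lit 5) (nat_lit 37) (nat_lit 4) (nat_lit 413) (nat_lit 356) (nat_lit 251)) (XT.lf (nat_lit 0) (nat_lit 3756762558)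 (nat_lit 76) (nat_lit 27211084197) (nat_lit 152) (nat_lit 19540674414) (nat_lit 35) (nat_lit 5) (nat_lit 36) (nat_lit 5) (nat_lit 37) (nat_lit 4) (nat_lit 414) (nat_lit 356) (nat_lit 250))) (XT.nd (nat_lit 78) (nat_lit 228) (nat_lit 0) (XT.lf (nat_lit 0) (nat_lit 31326756829) (nat_lit 76) (nat_lit 13097785440) (nat_lit 152) (nat_lit 7868902429) (nat_lit 35) (nat_lit 5) (nat_lit 36) (nat_lit 5) (nat_lit 37) (nat_lit 4) (nat_lit 415) (nat_lit 356) (nat_lit 249)) (XT.lf (nat_lit 0) (nat_lit 4364861575) (nat_lit 228) (nat_lit 47965379889) (nat_lit 76) (nat_lit 1828009848) (nat_lit 32) (nat_lit 5) (nat_lit 35) (nat_lit 5) (nat_lit 33) (nat_lit 4) (nat_lit 416) (nat_lit 356) (nat_lit 248))))) (XT.nd (nat_lit 234) (nat_lit 228) (nat_lit 0) (XT.nd (nat_lit 78) (nat_lit 76) (nat_lit 0) (XT.lf (nat_lit 0) (nat_lit 17513677215) (nat_lit 228) (nat_lit 21024329236) (nat_lit 76) (nat_lit 17543452357) (nat_lit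 32) (nat_lit 5) (nat_lit 35) (nat_lit 5) (nat_lit 33) (nat_lit 4) (nat_lit 417) (nat_lit 356) (nat_lit 247)) (XT.nd (nat_lit 78) (nat_lit 0) (nat_lit 0) (XT.lf (nat_lit 0) (nat_lit 7489609586) (nat_lit 76) (nat_lit 23939820089) (nat_lit 152) (nat_lit 26665923134) (nat_lit 31) (nat_lit 5) (nat_lit 32) (nat_lit 5) (nat_lit 33) (nat_lit 4) (nat_lit 418) (nat_lit 356) (nat_lit 246)) (XT.lf (nat_lit 0) (nat_lit 38145507792) (nat_lit 76) (nat_lit 8244222389) (nat_lit 152) (nat_lit 13802774196) (nat_lit 31) (nat_lit 5) (nat_lit 32) (nat_lit 5) (nat_lit 33) (nat_lit 4) (nat_lit 419) (nat_lit 356) (nat_lit 245)))) (XT.nd (nat_lit 156) (nat_lit 76) (nat_lit 0) (XT.nd (nat_lit 78) (nat_lit 76) (nat_lit 0) (XT.lf (nat_lit 0) (nat_lit 8055671376) (nat_lit 76) (nat_lit 54289691565) (nat_lit 76) (nat_lit 36785565) (nat_lit 30) (nat_lit 4) (nat_lit 31) (nat_lit 5) (nat_lit 31) (nat_lit 4) (nat_lit 420) (nat_lit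 356) (nat_lit 244)) (XT.lf (nat_lit 0) (nat_lit 14463674872) (nat_lit 152) (nat_lit 24613358651) (nat_lit 76) (nat_lit 25567606080) (nat_lit 29) (nat_lit 5) (nat_lit 31) (nat_lit 5) (nat_lit 30) (nat_lit 4) (nat_lit 421) (nat_lit 356) (nat_lit 243))) (XT.nd (nat_lit 78) (nat_lit 0) (nat_lit 0) (XT.lf (nat_lit 0) (nat_lit 6789472933) (nat_lit 76) (nat_lit 22997760267) (nat_lit 152) (nat_lit 37228027077) (nat_lit 28) (nat_lit 5) (nat_lit 29) (nat_lit 5) (nat_lit 30) (nat_lit 4) (nat_lit 422) (nat_lit 356) (nat_lit 242)) (XT.lf (nat_lit 0) (nat_lit 40604524977) (nat_lit 76) (nat_lit 5682716417) (nat_lit 152) (nat_lit 23196657691) (nat_lit 28) (nat_lit 5) (nat_lit 29) (nat_lit 5) (nat_lit 30) (nat_lit 4) (nat_lit 423) (nat_lit 356) (nat_lit 241))))))))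
noncomputable def xc138 : XT := (XT.nd (nat_lit 2106) (nat_lit 532) (nat_lit 0) (XT.nd (nat_lit 1014) (nat_lit 456) (nat_lit 0) (XT.nd (nat_lit 468) (nat_lit 380) (nat_lit 0) (XT.nd (nat_lit 234) (nat_lit 152) (nat_lit 0) (XT.nd (nat_lit 78) (nat_lit 76) (nat_lit 0) (XT.lf (nat_lit 0) (nat_lit 3953697812) (nat_lit 76) (nat_lit 59909068724) (nat_lit 76) (nat_lit 8200678131) (nat_lit 27) (nat_lit 4) (nat_lit 28) (nat_lit 5) (nat_lit 28) (nat_lit 4) (nat_lit 424) (nat_lit 356) (nat_lit 240)) (XT.nd (nat_lit 78) (nat_lit 0) (nat_lit 0) (XT.lf (nat_lit 0) (nat_lit 7887545369) (nat_lit 152) (nat_lit 35547530513) (nat_lit 76) (nat_lit 31301805475) (nat_lit 26) (nat_lit 5) (nat_lit 28) (nat_lit 5) (nat_lit 27) (nat_lit 4) (nat_lit 425) (nat_lit 356) (nat_lit 239)) (XT.lf (nat_lit 0) (nat_lit 24498556847) (nat_lit 152) (nat_lit 1503155010) (nat_lit 76) (nat_lit 51535858061) (nat_lit 26) (nat_lit 5)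 (nat_lit 28) (nat_lit 5) (nat_lit 27) (nat_lit 4) (nat_lit 426) (nat_lit 356) (nat_lit 238)))) (XT.nd (nat_lit 78) (nat_lit 76) (nat_lit 0) (XT.lf (nat_lit 0) (nat_lit 35364353424) (nat_lit 76) (nat_lit 7122162486) (nat_lit 152) (nat_lit 37964457692) (nat_lit 25) (nat_lit 5) (nat_lit 26) (nat_lit 5) (nat_lit 27) (nat_lit 4) (nat_lit 427) (nat_lit 356) (nat_lit 237)) (XT.nd (nat_lit 78) (nat_lit 76) (nat_lit 0) (XT.lf (nat_lit 0) (nat_lit 61592335538) (nat_lit 152) (nat_lit 9591063347) (nat_lit 0) (nat_lit 12315725972) (nat_lit 25) (nat_lit 5) (nat_lit 27) (nat_lit 4) (nat_lit 25) (nat_lit 4) (nat_lit 428) (nat_lit 356) (nat_lit 236)) (XT.lf (nat_lit 0) (nat_lit 28463042121) (nat_lit 76) (nat_lit 53746105538) (nat_lit 76) (nat_lit 4462751435) (nat_lit 24) (nat_lit 4) (nat_lit 25) (nat_lit 5) (nat_lit 25) (nat_lit 4) (nat_lit 429) (nat_lit 356) (nat_lit 235))))) (XT.nd (nat_lit 234) (nat_lit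 228) (nat_lit 0) (XT.nd (nat_lit 78) (nat_lit 76) (nat_lit 0) (XT.lf (nat_lit 0) (nat_lit 13569749497) (nat_lit 152) (nat_lit 21471791001) (nat_lit 76) (nat_lit 54942974440) (nat_lit 23) (nat_lit 5) (nat_lit 25) (nat_lit 5) (nat_lit 24) (nat_lit 4) (nat_lit 430) (nat_lit 356) (nat_lit 234)) (XT.nd (nat_lit 78) (nat_lit 0) (nat_lit 0) (XT.lf (nat_lit 0) (nat_lit 17581713229) (nat_lit 76) (nat_lit 15041510280) (nat_lit 152) (nat_lit 60822414213) (nat_lit 22) (nat_lit 5) (nat_lit 23) (nat_lit 5) (nat_lit 24) (nat_lit 4) (nat_lit 431) (nat_lit 356) (nat_lit 233)) (XT.lf (nat_lit 0) (nat_lit 53086841885) (nat_lit 152) (nat_lit 37837279890) (nat_lit 0) (nat_lit 6132821742) (nat_lit 22) (nat_lit 5) (nat_lit 24) (nat_lit 4) (nat_lit 22) (nat_lit 4) (nat_lit 432) (nat_lit 356) (nat_lit 232)))) (XT.nd (nat_lit 156) (nat_lit 152) (nat_lit 0) (XT.nd (nat_lit 78) (nat_lit 0) (nat_lit 0) (XT.lf (nat_lit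 0) (nat_lit 1895251525) (nat_lit 76) (nat_lit 72949652493) (nat_lit 76) (nat_lit 25990347829) (nat_lit 21) (nat_lit 4) (nat_lit 22) (nat_lit 5) (nat_lit 22) (nat_lit 4) (nat_lit 433) (nat_lit 356) (nat_lit 231)) (XT.lf (nat_lit 0) (nat_lit 44918664865) (nat_lit 76) (nat_lit 53408175053) (nat_lit 76) (nat_lit 6443837512) (nat_lit 21) (nat_lit 4) (nat_lit 22) (nat_lit 5) (nat_lit 22) (nat_lit 4) (nat_lit 434) (nat_lit 356) (nat_lit 230))) (XT.nd (nat_lit 78) (nat_lit 76) (nat_lit 0) (XT.lf (nat_lit 0) (nat_lit 13624682451) (nat_lit 152) (nat_lit 19038531731) (nat_lit 76) (nat_lit 76228902433) (nat_lit 20) (nat_lit 5) (nat_lit 22) (nat_lit 5) (nat_lit 21) (nat_lit 4) (nat_lit 435) (nat_lit 356) (nat_lit 229)) (XT.lf (nat_lit 0) (nat_lit 24485014039) (nat_lit 76) (nat_lit 10372893162) (nat_lit 152) (nat_lit 78337547343) (nat_lit 19) (nat_lit 5) (nat_lit 20) (nat_lit 5) (nat_lit 21) (nat_lit 4)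 (nat_lit 436) (nat_lit 356) (nat_lit 228)))))) (XT.nd (nat_lit 546) (nat_lit 228) (nat_lit 0) (XT.nd (nat_lit 234) (nat_lit 152) (nat_lit 0) (XT.nd (nat_lit 78) (nat_lit 76) (nat_lit 0) (XT.lf (nat_lit 0) (nat_lit 57679539346) (nat_lit 152) (nat_lit 47069537308) (nat_lit 0) (nat_lit 12938545713) (nat_lit 19) (nat_lit 5) (nat_lit 21) (nat_lit 4) (nat_lit 19) (nat_lit 4) (nat_lit 437) (nat_lit 356) (nat_lit 227)) (XT.nd (nat_lit 78) (nat_lit 76) (nat_lit 0) (XT.lf (nat_lit 0) (nat_lit 81808080104) (nat_lit 152) (nat_lit 3524884333) (nat_lit 0) (nat_lit 37063143080) (nat_lit 19) (nat_lit 5) (nat_lit 21) (nat_lit 4) (nat_lit 19) (nat_lit 4) (nat_lit 438) (nat_lit 356) (nat_lit 226)) (XT.lf (nat_lit 0) (nat_lit 43584109795) (nat_lit 76) (nat_lit 64235388754) (nat_lit 76) (nat_lit 19486696120) (nat_lit 18) (nat_lit 4) (nat_lit 19) (nat_lit 5) (nat_lit 19) (nat_lit 4) (nat_lit 439) (nat_lit 356)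 (nat_lit 225)))) (XT.nd (nat_lit 156) (nat_lit 0) (nat_lit 0) (XT.nd (nat_lit 78) (nat_lit 76) (nat_lit 0) (XT.lf (nat_lit 0) (nat_lit 2640915151) (nat_lit 152) (nat_lit 39338393345) (nat_lit 76) (nat_lit 90477560829) (nat_lit 17) (nat_lit 5) (nat_lit 19) (nat_lit 5) (nat_lit 18) (nat_lit 4) (nat_lit 440) (nat_lit 356) (nat_lit 224)) (XT.lf (nat_lit 0) (nat_lit 7166928079) (nat_lit 76) (nat_lit 18161171401) (nat_lit 152) (nat_lit 112515602106) (nat_lit 16) (nat_lit 5) (nat_lit 17) (nat_lit 5) (nat_lit 18) (nat_lit 4) (nat_lit 441) (nat_lit 356) (nat_lit 223))) (XT.nd (nat_lit 78) (nat_lit 0) (nat_lit 0) (XT.lf (nat_lit 0) (nat_lit 49929881860) (nat_lit 152) (nat_lit 86228642970) (nat_lit 0) (nat_lit 7302338915) (nat_lit 16) (nat_lit 5) (nat_lit 18) (nat_lit 4) (nat_lit 16) (nat_lit 4) (nat_lit 442) (nat_lit 356) (nat_lit 222)) (XT.lf (nat_lit 0) (nat_lit 76055847076) (nat_lit 152) (nat_lit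 39862970954) (nat_lit 0) (nat_lit 33425361511) (nat_lit 16) (nat_lit 5) (nat_lit 18) (nat_lit 4) (nat_lit 16) (nat_lit 4) (nat_lit 443) (nat_lit 356) (nat_lit 221))))) (XT.nd (nat_lit 234) (nat_lit 152) (nat_lit 0) (XT.nd (nat_lit 78) (nat_lit 0) (nat_lit 0) (XT.lf (nat_lit 0) (nat_lit 9105620501) (nat_lit 76) (nat_lit 94521196777) (nat_lit 76) (nat_lit 51887908718) (nat_lit 15) (nat_lit 4) (nat_lit 16) (nat_lit 5) (nat_lit 16) (nat_lit 4) (nat_lit 444) (nat_lit 356) (nat_lit 220)) (XT.nd (nat_lit 78) (nat_lit 0) (nat_lit 0) (XT.lf (nat_lit 0) (nat_lit 61899902675) (nat_lit 76) (nat_lit 71348134664) (nat_lit 76) (nat_lit 28712177563) (nat_lit 15) (nat_lit 4) (nat_lit 16) (nat_lit 5) (nat_lit 16) (nat_lit 4) (nat_lit 445) (nat_lit 356) (nat_lit 219)) (XT.lf (nat_lit 0) (nat_lit 117327526395) (nat_lit 76) (nat_lit 47019556435) (nat_lit 76) (nat_lit 4381057389) (nat_lit 15) (nat_lit 4) (nat_lit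 16) (nat_lit 5) (nat_lit 16) (nat_lit 4) (nat_lit 446) (nat_lit 356) (nat_lit 218)))) (XT.nd (nat_lit 156) (nat_lit 0) (nat_lit 0) (XT.nd (nat_lit 78) (nat_lit 76) (nat_lit 0) (XT.lf (nat_lit 0) (nat_lit 20486022616) (nat_lit 152) (nat_lit 644573581) (nat_lit 76) (nat_lit 154687498871) (nat_lit 14) (nat_lit 5) (nat_lit 16) (nat_lit 5) (nat_lit 15) (nat_lit 4) (nat_lit 447) (nat_lit 356) (nat_lit 217)) (XT.lf (nat_lit 0) (nat_lit 47403703867) (nat_lit 152) (nat_lit 129016420857) (nat_lit 0) (nat_lit 6791108091) (nat_lit 13) (nat_lit 5) (nat_lit 15) (nat_lit 4) (nat_lit 13) (nat_lit 4) (nat_lit 448) (nat_lit 356) (nat_lit 216))) (XT.nd (nat_lit 78) (nat_lit 0) (nat_lit 0) (XT.lf (nat_lit 0) (nat_lit 76021791685) (nat_lit 152) (nat_lit 79527405148) (nat_lit 0) (nat_lit 35407104644) (nat_lit 13) (nat_lit 5) (nat_lit 15) (nat_lit 4) (nat_lit 13) (nat_lit 4) (nat_lit 449) (nat_lit 356) (nat_lit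 215)) (XT.lf (nat_lit 0) (nat_lit 106067949768) (nat_lit 152) (nat_lit 27569544610) (nat_lit 0) (nat_lit 65451271046) (nat_lit 13) (nat_lit 5) (nat_lit 15) (nat_lit 4) (nat_lit 13) (nat_lit 4) (nat_lit 450) (nat_lit 356) (nat_lit 214))))))) (XT.nd (nat_lit 1014) (nat_lit 228) (nat_lit 0) (XT.nd (nat_lit 468) (nat_lit 76) (nat_lit 0) (XT.nd (nat_lit 234) (nat_lit 152) (nat_lit 0) (XT.nd (nat_lit 78) (nat_lit 0) (nat_lit 0) (XT.lf (nat_lit 0) (nat_lit 27872979359) (nat_lit 76) (nat_lit 110175912551) (nat_lit 76) (nat_lit 69557336991) (nat_lit 12) (nat_lit 4) (nat_lit 13) (nat_lit 5) (nat_lit 13) (nat_lit 4) (nat_lit 451) (nat_lit 356) (nat_lit 213)) (XT.nd (nat_lit 78) (nat_lit 0) (nat_lit 0) (XT.lf (nat_lit 0) (nat_lit 87039528969) (nat_lit 76) (nat_lit 85053603120) (nat_lit 76) (nat_lit 44433221047) (nat_lit 12) (nat_lit 4) (nat_lit 13) (nat_lit 5) (nat_lit 13) (nat_lit 4) (nat_lit 452) (nat_lit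 356) (nat_lit 212)) (XT.lf (nat_lit 0) (nat_lit 149159403305) (nat_lit 76) (nat_lit 58677654641) (nat_lit 76) (nat_lit 18055552080) (nat_lit 12) (nat_lit 4) (nat_lit 13) (nat_lit 5) (nat_lit 13) (nat_lit 4) (nat_lit 453) (nat_lit 356) (nat_lit 211)))) (XT.nd (nat_lit 78) (nat_lit 76) (nat_lit 0) (XT.lf (nat_lit 0) (nat_lit 9329982526) (nat_lit 152) (nat_lit 21497276941) (nat_lit 76) (nat_lit 204892516535) (nat_lit 11) (nat_lit 5) (nat_lit 13) (nat_lit 5) (nat_lit 12) (nat_lit 4) (nat_lit 454) (nat_lit 356) (nat_lit 210)) (XT.nd (nat_lit 78) (nat_lit 0) (nat_lit 0) (XT.lf (nat_lit 0) (nat_lit 37396772159) (nat_lit 76) (nat_lit 662776042) (nat_lit 152) (nat_lit 207934875588) (nat_lit 10) (nat_lit 5) (nat_lit 11) (nat_lit 5) (nat_lit 12) (nat_lit 4) (nat_lit 455) (nat_lit 356) (nat_lit 209)) (XT.lf (nat_lit 0) (nat_lit 69077454937) (nat_lit 152) (nat_lit 157277479989) (nat_lit 0) (nat_lit 30385276005)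 (nat_lit 10) (nat_lit 5) (nat_lit 12) (nat_lit 4) (nat_lit 10) (nat_lit 4) (nat_lit 456) (nat_lit 356) (nat_lit 208))))) (XT.nd (nat_lit 234) (nat_lit 0) (nat_lit 0) (XT.nd (nat_lit 78) (nat_lit 76) (nat_lit 0) (XT.lf (nat_lit 0) (nat_lit 101654908612) (nat_lit 152) (nat_lit 103406564705) (nat_lit 0) (nat_lit 62961381632) (nat_lit 10) (nat_lit 5) (nat_lit 12) (nat_lit 4) (nat_lit 10) (nat_lit 4) (nat_lit 457) (nat_lit 356) (nat_lit 207)) (XT.nd (nat_lit 78) (nat_lit 76) (nat_lit 0) (XT.lf (nat_lit 0) (nat_lit 135859126801) (nat_lit 152) (nat_lit 46846293902) (nat_lit 0) (nat_lit 97164315967) (nat_lit 10) (nat_lit 5) (nat_lit 12) (nat_lit 4) (nat_lit 10) (nat_lit 4) (nat_lit 458) (nat_lit 356) (nat_lit 206)) (XT.lf (nat_lit 0) (nat_lit 12952562624) (nat_lit 76) (nat_lit 159021211297) (nat_lit 76) (nat_lit 120325177744) (nat_lit 9) (nat_lit 4) (nat_lit 10) (nat_lit 5) (nat_lit 10) (nat_lit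 4) (nat_lit 459) (nat_lit 356) (nat_lit 205)))) (XT.nd (nat_lit 156) (nat_lit 0) (nat_lit 0) (XT.nd (nat_lit 78) (nat_lit 0) (nat_lit 0) (XT.lf (nat_lit 0) (nat_lit 77363833176) (nat_lit 76) (nat_lit 133321711404) (nat_lit 76) (nat_lit 94624513356) (nat_lit 9) (nat_lit 4) (nat_lit 10) (nat_lit 5) (nat_lit 10) (nat_lit 4) (nat_lit 460) (nat_lit 356) (nat_lit 204)) (XT.lf (nat_lit 0) (nat_lit 144991927880) (nat_lit 76) (nat_lit 106339096393) (nat_lit 76) (nat_lit 67640789304) (nat_lit 9) (nat_lit 4) (nat_lit 10) (nat_lit 5) (nat_lit 10) (nat_lit 4) (nat_lit 461) (nat_lit 356) (nat_lit 203))) (XT.nd (nat_lit 78) (nat_lit 0) (nat_lit 0) (XT.lf (nat_lit 0) (nat_lit 215997866010) (nat_lit 76) (nat_lit 78009121944) (nat_lit 76) (nat_lit 39309758624) (nat_lit 9) (nat_lit 4) (nat_lit 10) (nat_lit 5) (nat_lit 10) (nat_lit 4) (nat_lit 462) (nat_lit 356) (nat_lit 202)) (XT.lf (nat_lit 0) (nat_lit 290550709322)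 (nat_lit 76) (nat_lit 48264335736) (nat_lit 76) (nat_lit 9563966482) (nat_lit 9) (nat_lit 4) (nat_lit 10) (nat_lit 5) (nat_lit 10) (nat_lit 4) (nat_lit 463) (nat_lit 356) (nat_lit 201)))))) (XT.nd (nat_lit 546) (nat_lit 76) (nat_lit 0) (XT.nd (nat_lit 234) (nat_lit 0) (nat_lit 0) (XT.nd (nat_lit 78) (nat_lit 0) (nat_lit 0) (XT.lf (nat_lit 0) (nat_lit 4437223448) (nat_lit 76) (nat_lit 16605972032) (nat_lit 152) (nat_lit 343130897196) (nat_lit 7) (nat_lit 5) (nat_lit 8) (nat_lit 5) (nat_lit 9) (nat_lit 4) (nat_lit 464) (nat_lit 356) (nat_lit 200)) (XT.nd (nat_lit 78) (nat_lit 0) (nat_lit 0) (XT.lf (nat_lit 0) (nat_lit 54112785290) (nat_lit 152) (nat_lit 309322119850) (nat_lit 0) (nat_lit 17253509387) (nat_lit 7) (nat_lit 5) (nat_lit 9) (nat_lit 4) (nat_lit 7) (nat_lit 4) (nat_lit 465) (nat_lit 356) (nat_lit 199)) (XT.lf (nat_lit 0) (nat_lit 89106514810) (nat_lit 152) (nat_lit 256661993387)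 (nat_lit 0) (nat_lit 52246411323) (nat_lit 7) (nat_lit 5) (nat_lit 9) (nat_lit 4) (nat_lit 7) (nat_lit 4) (nat_lit 466) (nat_lit 356) (nat_lit 198)))) (XT.nd (nat_lit 156) (nat_lit 0) (nat_lit 0) (XT.nd (nat_lit 78) (nat_lit 0) (nat_lit 0) (XT.lf (nat_lit 0) (nat_lit 125848436683) (nat_lit 152) (nat_lit 201371842826) (nat_lit 0) (nat_lit 88987545019) (nat_lit 7) (nat_lit 5) (nat_lit 9) (nat_lit 4) (nat_lit 7) (nat_lit 4) (nat_lit 467) (nat_lit 356) (nat_lit 197)) (XT.lf (nat_lit 0) (nat_lit 164426031673) (nat_lit 152) (nat_lit 143320024950) (nat_lit 0) (nat_lit 127564389367) (nat_lit 7) (nat_lit 5) (nat_lit 9) (nat_lit 4) (nat_lit 7) (nat_lit 4) (nat_lit 468) (nat_lit 356) (nat_lit 196))) (XT.nd (nat_lit 78) (nat_lit 0) (nat_lit 0) (XT.lf (nat_lit 0) (nat_lit 204931151199) (nat_lit 152) (nat_lit 82368321146) (nat_lit 0) (nat_lit 168068793994) (nat_lit 7) (nat_lit 5) (nat_lit 9) (nat_lit 4)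 (nat_lit 7) (nat_lit 4) (nat_lit 469) (nat_lit 356) (nat_lit 195)) (XT.lf (nat_lit 0) (nat_lit 247460236020) (nat_lit 152) (nat_lit 18371608308) (nat_lit 0) (nat_lit 210597197959) (nat_lit 7) (nat_lit 5) (nat_lit 9) (nat_lit 4) (nat_lit 7) (nat_lit 4) (nat_lit 470) (nat_lit 356) (nat_lit 194))))) (XT.nd (nat_lit 234) (nat_lit 0) (nat_lit 0) (XT.nd (nat_lit 78) (nat_lit 0) (nat_lit 0) (XT.lf (nat_lit 0) (nat_lit 50436778585) (nat_lit 76) (nat_lit 242465226739) (nat_lit 76) (nat_lit 205601540245) (nat_lit 6) (nat_lit 4) (nat_lit 7) (nat_lit 5) (nat_lit 7) (nat_lit 4) (nat_lit 471) (nat_lit 356) (nat_lit 193)) (XT.nd (nat_lit 78) (nat_lit 0) (nat_lit 0) (XT.lf (nat_lit 0) (nat_lit 123320991671) (nat_lit 76) (nat_lit 217604795128) (nat_lit 76) (nat_lit 180740491077) (nat_lit 6) (nat_lit 4) (nat_lit 7) (nat_lit 5) (nat_lit 7) (nat_lit 4) (nat_lit 472) (nat_lit 356) (nat_lit 192)) (XT.lf (nat_lit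 0) (nat_lit 199847116447) (nat_lit 76) (nat_lit 191502490068) (nat_lit 76) (nat_lit 154637597868) (nat_lit 6) (nat_lit 4) (nat_lit 7) (nat_lit 5) (nat_lit 7) (nat_lit 4) (nat_lit 473) (nat_lit 356) (nat_lit 191)))) (XT.nd (nat_lit 156) (nat_lit 0) (nat_lit 0) (XT.nd (nat_lit 78) (nat_lit 0) (nat_lit 0) (XT.lf (nat_lit 0) (nat_lit 280197357974) (nat_lit 76) (nat_lit 164096163212) (nat_lit 76) (nat_lit 127230710870) (nat_lit 6) (nat_lit 4) (nat_lit 7) (nat_lit 5) (nat_lit 7) (nat_lit 4) (nat_lit 474) (nat_lit 356) (nat_lit 190)) (XT.lf (nat_lit 0) (nat_lit 364563026351) (nat_lit 76) (nat_lit 135320561402) (nat_lit 76) (nat_lit 98454575592) (nat_lit 6) (nat_lit 4) (nat_lit 7) (nat_lit 5) (nat_lit 7) (nat_lit 4) (nat_lit 475) (nat_lit 356) (nat_lit 189))) (XT.nd (nat_lit 78) (nat_lit 0) (nat_lit 0) (XT.lf (nat_lit 0) (nat_lit 453144992216) (nat_lit 76) (nat_lit 105107171301) (nat_lit 76) (nat_lit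 68240677426) (nat_lit 6) (nat_lit 4) (nat_lit 7) (nat_lit 5) (nat_lit 7) (nat_lit 4) (nat_lit 476) (nat_lit 356) (nat_lit 188)) (XT.lf (nat_lit 0) (nat_lit 546154165012) (nat_lit 76) (nat_lit 73384056264) (nat_lit 76) (nat_lit 36517078518) (nat_lit 6) (nat_lit 4) (nat_lit 7) (nat_lit 5) (nat_lit 7) (nat_lit 4) (nat_lit 477) (nat_lit 356) (nat_lit 187))))))))
noncomputable def xc139 : XT := (XT.nd (nat_lit 45474) (nat_lit 0) (nat_lit 3040) (XT.nd (nat_lit 44382) (nat_lit 0) (nat_lit 6460) (XT.nd (nat_lit 43836) (nat_lit 0) (nat_lit 9500) (XT.nd (nat_lit 234) (nat_lit 0) (nat_lit 0) (XT.nd (nat_lit 78) (nat_lit 152) (nat_lit 0) (XT.lf (nat_lit 0) (nat_lit 643811995151) (nat_lit 76) (nat_lit 40075685067) (nat_lit 76) (nat_lit 3208246491) (nat_lit 6) (nat_lit 4) (nat_lit 7) (nat_lit 5) (nat_lit 7) (nat_lit 4) (nat_lit 478) (nat_lit 356) (nat_lit 186)) (XT.nd (nat_lit 78) (nat_lit 0) (nat_lit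 0) (XT.lf (nat_lit 0) (nat_lit 27031611075) (nat_lit 76) (nat_lit 4138871137) (nat_lit 152) (nat_lit 688472246635) (nat_lit 4) (nat_lit 5) (nat_lit 5) (nat_lit 5) (nat_lit 6) (nat_lit 4) (nat_lit 479) (nat_lit 356) (nat_lit 185)) (XT.lf (nat_lit 0) (nat_lit 68429017728) (nat_lit 152) (nat_lit 652005433863) (nat_lit 0) (nat_lit 33316355396) (nat_lit 4) (nat_lit 5) (nat_lit 6) (nat_lit 4) (nat_lit 4) (nat_lit 4) (nat_lit 480) (nat_lit 356) (nat_lit 184)))) (XT.nd (nat_lit 43446) (nat_lit 0) (nat_lit 9500) (XT.lf (nat_lit 0) (nat_lit 107617500358) (nat_lit 152) (nat_lit 609438978785) (nat_lit 0) (nat_lit 72504458901) (nat_lit 4) (nat_lit 5) (nat_lit 6) (nat_lit 4) (nat_lit 4) (nat_lit 4) (nat_lit 481) (nat_lit 356) (nat_lit 183)) (XT.nd (nat_lit 78) (nat_lit 0) (nat_lit 0) (XT.lf (nat_lit 0) (nat_lit 518465897) (nat_lit 0) (nat_lit 518465897) (nat_lit 684) (nat_lit 3876324485) (nat_lit 129)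 (nat_lit 5) (nat_lit 129) (nat_lit 3) (nat_lit 138) (nat_lit 3) (nat_lit 357) (nat_lit 357) (nat_lit 306)) (XT.lf (nat_lit 0) (nat_lit 2897938688) (nat_lit 684) (nat_lit 4048811006) (nat_lit 760) (nat_lit 3086392313) (nat_lit 129) (nat_lit 5) (nat_lit 138) (nat_lit 3) (nat_lit 139) (nat_lit 5) (nat_lit 358) (nat_lit 357) (nat_lit 305))))) (XT.nd (nat_lit 234) (nat_lit 0) (nat_lit 76) (XT.nd (nat_lit 78) (nat_lit 0) (nat_lit 76) (XT.lf (nat_lit 76) (nat_lit 915476157) (nat_lit 0) (nat_lit 2833148733) (nat_lit 760) (nat_lit 6502234682) (nat_lit 130) (nat_lit 5) (nat_lit 129) (nat_lit 5) (nat_lit 139) (nat_lit 5) (nat_lit 359) (nat_lit 357) (nat_lit 304)) (XT.nd (nat_lit 78) (nat_lit 0) (nat_lit 0) (XT.lf (nat_lit 0) (nat_lit 4690936173) (nat_lit 684) (nat_lit 4259747088) (nat_lit 760) (nat_lit 1526350938) (nat_lit 130) (nat_lit 5) (nat_lit 139) (nat_lit 5) (nat_lit 140) (nat_lit 5) (nat_lit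 360) (nat_lit 357) (nat_lit 303)) (XT.lf (nat_lit 76) (nat_lit 1029579942) (nat_lit 0) (nat_lit 4671584131) (nat_lit 760) (nat_lit 5012337930) (nat_lit 131) (nat_lit 5) (nat_lit 130) (nat_lit 5) (nat_lit 140) (nat_lit 5) (nat_lit 361) (nat_lit 357) (nat_lit 302)))) (XT.nd (nat_lit 156) (nat_lit 0) (nat_lit 76) (XT.nd (nat_lit 78) (nat_lit 0) (nat_lit 76) (XT.lf (nat_lit 76) (nat_lit 6705092102) (nat_lit 0) (nat_lit 88811524) (nat_lit 760) (nat_lit 4166312891) (nat_lit 131) (nat_lit 5) (nat_lit 130) (nat_lit 5) (nat_lit 140) (nat_lit 5) (nat_lit 362) (nat_lit 357) (nat_lit 301)) (XT.lf (nat_lit 76) (nat_lit 1388755908) (nat_lit 0) (nat_lit 6609926013) (nat_lit 760) (nat_lit 3217736968) (nat_lit 132) (nat_lit 5) (nat_lit 131) (nat_lit 5) (nat_lit 141) (nat_lit 5) (nat_lit 363) (nat_lit 357) (nat_lit 300))) (XT.nd (nat_lit 78) (nat_lit 0) (nat_lit 76) (XT.lf (nat_lit 76) (nat_lit 7434425786)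 (nat_lit 0) (nat_lit 1866141745) (nat_lit 760) (nat_lit 2183041590) (nat_lit 132) (nat_lit 5) (nat_lit 131) (nat_lit 5) (nat_lit 141) (nat_lit 5) (nat_lit 364) (nat_lit 357) (nat_lit 299)) (XT.lf (nat_lit 76) (nat_lit 2006537141) (nat_lit 0) (nat_lit 8706235354) (nat_lit 760) (nat_lit 1049145271) (nat_lit 133) (nat_lit 5) (nat_lit 132) (nat_lit 5) (nat_lit 142) (nat_lit 5) (nat_lit 365) (nat_lit 357) (nat_lit 298)))))) (XT.nd (nat_lit 546) (nat_lit 1444) (nat_lit 0) (XT.nd (nat_lit 234) (nat_lit 1064) (nat_lit 0) (XT.nd (nat_lit 78) (nat_lit 0) (nat_lit 76) (XT.lf (nat_lit 0) (nat_lit 203143714) (nat_lit 760) (nat_lit 3606994381) (nat_lit 836) (nat_lit 8240600361) (nat_lit 122) (nat_lit 5) (nat_lit 132) (nat_lit 5) (nat_lit 133) (nat_lit 5) (nat_lit 366) (nat_lit 357) (nat_lit 297)) (XT.nd (nat_lit 78) (nat_lit 0) (nat_lit 0) (XT.lf (nat_lit 0) (nat_lit 1517477143) (nat_lit 760) (nat_lit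 9476698057) (nat_lit 76) (nat_lit 1357248028) (nat_lit 123) (nat_lit 5) (nat_lit 133) (nat_lit 5) (nat_lit 124) (nat_lit 5) (nat_lit 367) (nat_lit 357) (nat_lit 296)) (XT.lf (nat_lit 0) (nat_lit 2990846968) (nat_lit 760) (nat_lit 2949671054) (nat_lit 76) (nat_lit 6721974812) (nat_lit 123) (nat_lit 5) (nat_lit 133) (nat_lit 5) (nat_lit 124) (nat_lit 5) (nat_lit 368) (nat_lit 357) (nat_lit 295)))) (XT.nd (nat_lit 156) (nat_lit 380) (nat_lit 0) (XT.nd (nat_lit 78) (nat_lit 0) (nat_lit 0) (XT.lf (nat_lit 0) (nat_lit 4005353298) (nat_lit 760) (nat_lit 565324715) (nat_lit 836) (nat_lit 8416814063) (nat_lit 113) (nat_lit 5) (nat_lit 123) (nat_lit 5) (nat_lit 124) (nat_lit 5) (nat_lit 369) (nat_lit 357) (nat_lit 294)) (XT.lf (nat_lit 0) (nat_lit 6330872418) (nat_lit 836) (nat_lit 2023433909) (nat_lit 76) (nat_lit 4969381402) (nat_lit 113) (nat_lit 5) (nat_lit 124) (nat_lit 5) (nat_lit 114) (nat_lit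 5) (nat_lit 370) (nat_lit 357) (nat_lit 293))) (XT.nd (nat_lit 78) (nat_lit 0) (nat_lit 0) (XT.lf (nat_lit 0) (nat_lit 5421149627) (nat_lit 380) (nat_lit 2824507359) (nat_lit 456) (nat_lit 5427721479) (nat_lit 108) (nat_lit 5) (nat_lit 113) (nat_lit 5) (nat_lit 114) (nat_lit 5) (nat_lit 371) (nat_lit 357) (nat_lit 292)) (XT.lf (nat_lit 0) (nat_lit 10311143759) (nat_lit 456) (nat_lit 804963851) (nat_lit 76) (nat_lit 2921711622) (nat_lit 108) (nat_lit 5) (nat_lit 114) (nat_lit 5) (nat_lit 109) (nat_lit 5) (nat_lit 372) (nat_lit 357) (nat_lit 291))))) (XT.nd (nat_lit 234) (nat_lit 608) (nat_lit 0) (XT.nd (nat_lit 78) (nat_lit 456) (nat_lit 0) (XT.lf (nat_lit 0) (nat_lit 7171986325) (nat_lit 380) (nat_lit 5441034283) (nat_lit 456) (nat_lit 1800818635) (nat_lit 103) (nat_lit 5) (nat_lit 108) (nat_lit 5) (nat_lit 109) (nat_lit 5) (nat_lit 373) (nat_lit 357) (nat_lit 290)) (XT.nd (nat_lit 78) (nat_lit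 0) (nat_lit 0) (XT.lf (nat_lit 0) (nat_lit 223766837) (nat_lit 456) (nat_lit 14054858949) (nat_lit 76) (nat_lit 529397482) (nat_lit 97) (nat_lit 5) (nat_lit 103) (nat_lit 5) (nat_lit 98) (nat_lit 5) (nat_lit 374) (nat_lit 357) (nat_lit 289)) (XT.lf (nat_lit 0) (nat_lit 2478885881) (nat_lit 456) (nat_lit 5964252890) (nat_lit 76) (nat_lit 6767821687) (nat_lit 97) (nat_lit 5) (nat_lit 103) (nat_lit 5) (nat_lit 98) (nat_lit 5) (nat_lit 375) (nat_lit 357) (nat_lit 288)))) (XT.nd (nat_lit 156) (nat_lit 304) (nat_lit 0) (XT.nd (nat_lit 78) (nat_lit 0) (nat_lit 0) (XT.lf (nat_lit 0) (nat_lit 2587910537) (nat_lit 304) (nat_lit 2276370576) (nat_lit 380) (nat_lit 10768898071) (nat_lit 93) (nat_lit 5) (nat_lit 97) (nat_lit 5) (nat_lit 98) (nat_lit 5) (nat_lit 376) (nat_lit 357) (nat_lit 287)) (XT.lf (nat_lit 0) (nat_lit 7514922707) (nat_lit 380) (nat_lit 4390376749) (nat_lit 76) (nat_lit 4163920739)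 (nat_lit 93) (nat_lit 5) (nat_lit 98) (nat_lit 5) (nat_lit 94) (nat_lit 5) (nat_lit 377) (nat_lit 357) (nat_lit 286))) (XT.nd (nat_lit 78) (nat_lit 0) (nat_lit 0) (XT.lf (nat_lit 0) (nat_lit 4787991725) (nat_lit 304) (nat_lit 5600994455) (nat_lit 380) (nat_lit 6133542282) (nat_lit 89) (nat_lit 5) (nat_lit 93) (nat_lit 5) (nat_lit 94) (nat_lit 5) (nat_lit 378) (nat_lit 357) (nat_lit 285)) (XT.lf (nat_lit 0) (nat_lit 13477600789) (nat_lit 380) (nat_lit 2459963758) (nat_lit 76) (nat_lit 1057404429) (nat_lit 89) (nat_lit 5) (nat_lit 94) (nat_lit 5) (nat_lit 90) (nat_lit 5) (nat_lit 379) (nat_lit 357) (nat_lit 284))))))) (XT.nd (nat_lit 1092) (nat_lit 1368) (nat_lit 0) (XT.nd (nat_lit 546) (nat_lit 912) (nat_lit 0) (XT.nd (nat_lit 234) (nat_lit 532) (nat_lit 0) (XT.nd (nat_lit 78) (nat_lit 380) (nat_lit 0) (XT.lf (nat_lit 0) (nat_lit 7398791619) (nat_lit 228) (nat_lit 9509546020) (nat_lit 304)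 (nat_lit 573318095) (nat_lit 86) (nat_lit 5) (nat_lit 89) (nat_lit 5) (nat_lit 90) (nat_lit 5) (nat_lit 380) (nat_lit 357) (nat_lit 283)) (XT.nd (nat_lit 78) (nat_lit 304) (nat_lit 0) (XT.lf (nat_lit 0) (nat_lit 2460282142) (nat_lit 304) (nat_lit 219487754) (nat_lit 76) (nat_lit 15309802446) (nat_lit 85) (nat_lit 5) (nat_lit 89) (nat_lit 5) (nat_lit 86) (nat_lit 5) (nat_lit 381) (nat_lit 357) (nat_lit 282)) (XT.lf (nat_lit 0) (nat_lit 5843651949) (nat_lit 380) (nat_lit 8149932043) (nat_lit 76) (nat_lit 4517970612) (nat_lit 81) (nat_lit 5) (nat_lit 86) (nat_lit 5) (nat_lit 82) (nat_lit 5) (nat_lit 382) (nat_lit 357) (nat_lit 281)))) (XT.nd (nat_lit 156) (nat_lit 304) (nat_lit 0) (XT.nd (nat_lit 78) (nat_lit 0) (nat_lit 0) (XT.lf (nat_lit 0) (nat_lit 2429681490) (nat_lit 228) (nat_lit 7034104673) (nat_lit 304) (nat_lit 9592477256) (nat_lit 78) (nat_lit 5) (nat_lit 81) (nat_lit 5) (nat_lit 82)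 (nat_lit 5) (nat_lit 383) (nat_lit 357) (nat_lit 280)) (XT.lf (nat_lit 0) (nat_lit 13391828217) (nat_lit 304) (nat_lit 5831065795) (nat_lit 76) (nat_lit 398975493) (nat_lit 78) (nat_lit 5) (nat_lit 82) (nat_lit 5) (nat_lit 79) (nat_lit 5) (nat_lit 384) (nat_lit 357) (nat_lit 279))) (XT.nd (nat_lit 78) (nat_lit 76) (nat_lit 0) (XT.lf (nat_lit 0) (nat_lit 5543037335) (nat_lit 228) (nat_lit 12158278841) (nat_lit 304) (nat_lit 2505194093) (nat_lit 75) (nat_lit 5) (nat_lit 78) (nat_lit 5) (nat_lit 79) (nat_lit 5) (nat_lit 385) (nat_lit 357) (nat_lit 278)) (XT.lf (nat_lit 0) (nat_lit 1444625544) (nat_lit 304) (nat_lit 3174195348) (nat_lit 76) (nat_lit 16196284257) (nat_lit 74) (nat_lit 5) (nat_lit 78) (nat_lit 5) (nat_lit 75) (nat_lit 5) (nat_lit 386) (nat_lit 357) (nat_lit 277))))) (XT.nd (nat_lit 234) (nat_lit 456) (nat_lit 0) (XT.nd (nat_lit 78) (nat_lit 228) (nat_lit 0) (XT.lf (nat_lit 0) (nat_lit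 5688641779) (nat_lit 304) (nat_lit 12382188704) (nat_lit 76) (nat_lit 3372206690) (nat_lit 71) (nat_lit 5) (nat_lit 75) (nat_lit 5) (nat_lit 72) (nat_lit 5) (nat_lit 387) (nat_lit 357) (nat_lit 276)) (XT.nd (nat_lit 78) (nat_lit 228) (nat_lit 0) (XT.lf (nat_lit 0) (nat_lit 10259673436) (nat_lit 304) (nat_lit 181097376) (nat_lit 76) (nat_lit 11655859656) (nat_lit 71) (nat_lit 5) (nat_lit 75) (nat_lit 5) (nat_lit 72) (nat_lit 5) (nat_lit 388) (nat_lit 357) (nat_lit 275)) (XT.lf (nat_lit 0) (nat_lit 13025355381) (nat_lit 228) (nat_lit 2222462114) (nat_lit 304) (nat_lit 7525663032) (nat_lit 68) (nat_lit 5) (nat_lit 71) (nat_lit 5) (nat_lit 72) (nat_lit 5) (nat_lit 389) (nat_lit 357) (nat_lit 274)))) (XT.nd (nat_lit 156) (nat_lit 228) (nat_lit 0) (XT.nd (nat_lit 78) (nat_lit 76) (nat_lit 0) (XT.lf (nat_lit 0) (nat_lit 3401326542) (nat_lit 152) (nat_lit 17225756673) (nat_lit 228) (nat_lit 2850009049)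 (nat_lit 66) (nat_lit 5) (nat_lit 68) (nat_lit 5) (nat_lit 69) (nat_lit 5) (nat_lit 390) (nat_lit 357) (nat_lit 273)) (XT.lf (nat_lit 0) (nat_lit 2183327368) (nat_lit 228) (nat_lit 6754226255) (nat_lit 76) (nat_lit 15267237020) (nat_lit 65) (nat_lit 5) (nat_lit 68) (nat_lit 5) (nat_lit 66) (nat_lit 5) (nat_lit 391) (nat_lit 357) (nat_lit 272))) (XT.nd (nat_lit 78) (nat_lit 0) (nat_lit 0) (XT.lf (nat_lit 0) (nat_lit 7402660851) (nat_lit 228) (nat_lit 71738358) (nat_lit 304) (nat_lit 17487050508) (nat_lit 62) (nat_lit 5) (nat_lit 65) (nat_lit 5) (nat_lit 66) (nat_lit 5) (nat_lit 392) (nat_lit 357) (nat_lit 271)) (XT.lf (nat_lit 0) (nat_lit 13276998036) (nat_lit 304) (nat_lit 3415597914) (nat_lit 76) (nat_lit 9051001155) (nat_lit 62) (nat_lit 5) (nat_lit 66) (nat_lit 5) (nat_lit 63) (nat_lit 5) (nat_lit 393) (nat_lit 357) (nat_lit 270)))))) (XT.nd (nat_lit 546) (nat_lit 608) (nat_lit 0) (XT.nd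 (nat_lit 234) (nat_lit 380) (nat_lit 0) (XT.nd (nat_lit 78) (nat_lit 228) (nat_lit 0) (XT.lf (nat_lit 0) (nat_lit 11790800670) (nat_lit 152) (nat_lit 7751323827) (nat_lit 228) (nat_lit 7014111316) (nat_lit 60) (nat_lit 5) (nat_lit 62) (nat_lit 5) (nat_lit 63) (nat_lit 5) (nat_lit 394) (nat_lit 357) (nat_lit 269)) (XT.nd (nat_lit 78) (nat_lit 76) (nat_lit 0) (XT.lf (nat_lit 0) (nat_lit 436605933) (nat_lit 152) (nat_lit 25762393217) (nat_lit 228) (nat_lit 1206586367) (nat_lit 58) (nat_lit 5) (nat_lit 60) (nat_lit 5) (nat_lit 61) (nat_lit 5) (nat_lit 395) (nat_lit 357) (nat_lit 268)) (XT.lf (nat_lit 0) (nat_lit 5103400677) (nat_lit 228) (nat_lit 11601505269) (nat_lit 76) (nat_lit 11570249795) (nat_lit 57) (nat_lit 5) (nat_lit 60) (nat_lit 5) (nat_lit 58) (nat_lit 5) (nat_lit 396) (nat_lit 357) (nat_lit 267)))) (XT.nd (nat_lit 156) (nat_lit 228) (nat_lit 0) (XT.nd (nat_lit 78) (nat_lit 0) (nat_lit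 0) (XT.lf (nat_lit 0) (nat_lit 4643724336) (nat_lit 152) (nat_lit 7105123129) (nat_lit 228) (nat_lit 17435345681) (nat_lit 55) (nat_lit 5) (nat_lit 57) (nat_lit 5) (nat_lit 58) (nat_lit 5) (nat_lit 397) (nat_lit 357) (nat_lit 266)) (XT.lf (nat_lit 0) (nat_lit 18960871271) (nat_lit 228) (nat_lit 8094154103) (nat_lit 76) (nat_lit 3071944820) (nat_lit 55) (nat_lit 5) (nat_lit 58) (nat_lit 5) (nat_lit 56) (nat_lit 5) (nat_lit 398) (nat_lit 357) (nat_lit 265))) (XT.nd (nat_lit 78) (nat_lit 76) (nat_lit 0) (XT.lf (nat_lit 0) (nat_lit 9338188317) (nat_lit 152) (nat_lit 17446308317) (nat_lit 228) (nat_lit 4319842305) (nat_lit 53) (nat_lit 5) (nat_lit 55) (nat_lit 5) (nat_lit 56) (nat_lit 5) (nat_lit 399) (nat_lit 357) (nat_lit 264)) (XT.lf (nat_lit 0) (nat_lit 2905029540) (nat_lit 228) (nat_lit 4266362234) (nat_lit 76) (nat_lit 24950541521) (nat_lit 52) (nat_lit 5) (nat_lit 55) (nat_lit 5) (nat_lit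 53) (nat_lit 5) (nat_lit 400) (nat_lit 357) (nat_lit 263))))) (XT.nd (nat_lit 234) (nat_lit 304) (nat_lit 0) (XT.nd (nat_lit 78) (nat_lit 152) (nat_lit 0) (XT.lf (nat_lit 0) (nat_lit 10622653483) (nat_lit 228) (nat_lit 18754042721) (nat_lit 76) (nat_lit 3796338607) (nat_lit 50) (nat_lit 5) (nat_lit 53) (nat_lit 5) (nat_lit 51) (nat_lit 5) (nat_lit 401) (nat_lit 357) (nat_lit 262)) (XT.nd (nat_lit 78) (nat_lit 152) (nat_lit 0) (XT.lf (nat_lit 0) (nat_lit 18906609614) (nat_lit 228) (nat_lit 223088136) (nat_lit 76) (nat_lit 15137973458) (nat_lit 50) (nat_lit 5) (nat_lit 53) (nat_lit 5) (nat_lit 51) (nat_lit 5) (nat_lit 402) (nat_lit 357) (nat_lit 261)) (XT.lf (nat_lit 0) (nat_lit 19852687297) (nat_lit 152) (nat_lit 8051984541) (nat_lit 228) (nat_lit 7497374418) (nat_lit 48) (nat_lit 5) (nat_lit 50) (nat_lit 5) (nat_lit 51) (nat_lit 5) (nat_lit 403) (nat_lit 357) (nat_lit 260)))) (XT.nd (nat_lit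 156) (nat_lit 152) (nat_lit 0) (XT.nd (nat_lit 78) (nat_lit 0) (nat_lit 0) (XT.lf (nat_lit 0) (nat_lit 855851245) (nat_lit 152) (nat_lit 32185846263) (nat_lit 76) (nat_lit 3544818548) (nat_lit 46) (nat_lit 5) (nat_lit 48) (nat_lit 5) (nat_lit 47) (nat_lit 5) (nat_lit 404) (nat_lit 357) (nat_lit 259)) (XT.lf (nat_lit 0) (nat_lit 9764534609) (nat_lit 152) (nat_lit 12205523921) (nat_lit 76) (nat_lit 15834519498) (nat_lit 46) (nat_lit 5) (nat_lit 48) (nat_lit 5) (nat_lit 47) (nat_lit 5) (nat_lit 405) (nat_lit 357) (nat_lit 258))) (XT.nd (nat_lit 78) (nat_lit 0) (nat_lit 0) (XT.lf (nat_lit 0) (nat_lit 9046899950) (nat_lit 152) (nat_lit 10203575570) (nat_lit 228) (nat_lit 19826478254) (nat_lit 44) (nat_lit 5) (nat_lit 46) (nat_lit 5) (nat_lit 47) (nat_lit 5) (nat_lit 406) (nat_lit 357) (nat_lit 257)) (XT.lf (nat_lit 0) (nat_lit 29445058030) (nat_lit 228) (nat_lit 8670455563) (nat_lit 76) (nat_lit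 2285719245) (nat_lit 44) (nat_lit 5) (nat_lit 47) (nat_lit 5) (nat_lit 45) (nat_lit 4) (nat_lit 407) (nat_lit 357) (nat_lit 256))))))))
noncomputable def xc140 : XT := (XT.nd (nat_lit 2106) (nat_lit 912) (nat_lit 0) (XT.nd (nat_lit 1014) (nat_lit 760) (nat_lit 0) (XT.nd (nat_lit 468) (nat_lit 380) (nat_lit 0) (XT.nd (nat_lit 234) (nat_lit 304) (nat_lit 0) (XT.nd (nat_lit 78) (nat_lit 228) (nat_lit 0) (XT.lf (nat_lit 0) (nat_lit 14022899387) (nat_lit 76) (nat_lit 26503786113) (nat_lit 152) (nat_lit 1246176236) (nat_lit 43) (nat_lit 5) (nat_lit 44) (nat_lit 5) (nat_lit 45) (nat_lit 4) (nat_lit 408) (nat_lit 357) (nat_lit 255)) (XT.nd (nat_lit 78) (nat_lit 152) (nat_lit 0) (XT.lf (nat_lit 0) (nat_lit 8803277791) (nat_lit 152) (nat_lit 5211732420) (nat_lit 76) (nat_lit 29184057701) (nat_lit 42) (nat_lit 5) (nat_lit 44) (nat_lit 5) (nat_lit 43) (nat_lit 5) (nat_lit 409) (nat_lit 357) (nat_lit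 254)) (XT.lf (nat_lit 0) (nat_lit 19026900683) (nat_lit 152) (nat_lit 575053274) (nat_lit 228) (nat_lit 25079178973) (nat_lit 40) (nat_lit 5) (nat_lit 42) (nat_lit 5) (nat_lit 43) (nat_lit 5) (nat_lit 410) (nat_lit 357) (nat_lit 253)))) (XT.nd (nat_lit 78) (nat_lit 304) (nat_lit 0) (XT.lf (nat_lit 0) (nat_lit 31233256946) (nat_lit 228) (nat_lit 1802407161) (nat_lit 76) (nat_lit 13187003818) (nat_lit 40) (nat_lit 5) (nat_lit 43) (nat_lit 5) (nat_lit 41) (nat_lit 4) (nat_lit 411) (nat_lit 357) (nat_lit 252)) (XT.nd (nat_lit 78) (nat_lit 228) (nat_lit 0) (XT.lf (nat_lit 0) (nat_lit 23985871928) (nat_lit 76) (nat_lit 19836199221) (nat_lit 152) (nat_lit 4000412530) (nat_lit 39) (nat_lit 5) (nat_lit 40) (nat_lit 5) (nat_lit 41) (nat_lit 4) (nat_lit 412) (nat_lit 357) (nat_lit 251)) (XT.lf (nat_lit 0) (nat_lit 1542104037) (nat_lit 152) (nat_lit 5801830332) (nat_lit 228) (nat_lit 42150114410) (nat_lit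 36) (nat_lit 5) (nat_lit 38) (nat_lit 5) (nat_lit 39) (nat_lit 5) (nat_lit 413) (nat_lit 357) (nat_lit 250))))) (XT.nd (nat_lit 234) (nat_lit 304) (nat_lit 0) (XT.nd (nat_lit 78) (nat_lit 76) (nat_lit 0) (XT.lf (nat_lit 0) (nat_lit 19662966737) (nat_lit 228) (nat_lit 22437882286) (nat_lit 76) (nat_lit 9117969806) (nat_lit 36) (nat_lit 5) (nat_lit 39) (nat_lit 5) (nat_lit 37) (nat_lit 4) (nat_lit 414) (nat_lit 357) (nat_lit 249)) (XT.nd (nat_lit 78) (nat_lit 0) (nat_lit 0) (XT.lf (nat_lit 0) (nat_lit 4383256986) (nat_lit 76) (nat_lit 28370733104) (nat_lit 152) (nat_lit 20268036402) (nat_lit 35) (nat_lit 5) (nat_lit 36) (nat_lit 5) (nat_lit 37) (nat_lit 4) (nat_lit 415) (nat_lit 357) (nat_lit 248)) (XT.lf (nat_lit 0) (nat_lit 33310862575) (nat_lit 76) (nat_lit 13561336328) (nat_lit 152) (nat_lit 8024564949) (nat_lit 35) (nat_lit 5) (nat_lit 36) (nat_lit 5) (nat_lit 37) (nat_lit 4) (nat_lit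 416) (nat_lit 357) (nat_lit 247)))) (XT.nd (nat_lit 156) (nat_lit 76) (nat_lit 0) (XT.nd (nat_lit 78) (nat_lit 0) (nat_lit 0) (XT.lf (nat_lit 0) (nat_lit 4811861009) (nat_lit 228) (nat_lit 49936795964) (nat_lit 76) (nat_lit 2106040420) (nat_lit 32) (nat_lit 5) (nat_lit 35) (nat_lit 5) (nat_lit 33) (nat_lit 4) (nat_lit 417) (nat_lit 357) (nat_lit 246)) (XT.lf (nat_lit 0) (nat_lit 18607224271) (nat_lit 228) (nat_lit 21669019108) (nat_lit 76) (nat_lit 18598367909) (nat_lit 32) (nat_lit 5) (nat_lit 35) (nat_lit 5) (nat_lit 33) (nat_lit 4) (nat_lit 418) (nat_lit 357) (nat_lit 245))) (XT.nd (nat_lit 78) (nat_lit 0) (nat_lit 0) (XT.lf (nat_lit 0) (nat_lit 8264059775) (nat_lit 76) (nat_lit 24950574790) (nat_lit 152) (nat_lit 27774773213) (nat_lit 31) (nat_lit 5) (nat_lit 32) (nat_lit 5) (nat_lit 33) (nat_lit 4) (nat_lit 419) (nat_lit 357) (nat_lit 244)) (XT.lf (nat_lit 0) (nat_lit 40433706714) (nat_lit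 76) (nat_lit 8479065599) (nat_lit 152) (nat_lit 14279154737) (nat_lit 31) (nat_lit 5) (nat_lit 32) (nat_lit 5) (nat_lit 33) (nat_lit 4) (nat_lit 420) (nat_lit 357) (nat_lit 243)))))) (XT.nd (nat_lit 546) (nat_lit 380) (nat_lit 0) (XT.nd (nat_lit 234) (nat_lit 152) (nat_lit 0) (XT.nd (nat_lit 78) (nat_lit 76) (nat_lit 0) (XT.lf (nat_lit 0) (nat_lit 168418711) (nat_lit 152) (nat_lit 56653277517) (nat_lit 76) (nat_lit 8669277028) (nat_lit 29) (nat_lit 5) (nat_lit 31) (nat_lit 5) (nat_lit 30) (nat_lit 4) (nat_lit 421) (nat_lit 357) (nat_lit 242)) (XT.nd (nat_lit 78) (nat_lit 76) (nat_lit 0) (XT.lf (nat_lit 0) (nat_lit 15382865586) (nat_lit 152) (nat_lit 25473626176) (nat_lit 76) (nat_lit 27010558081) (nat_lit 29) (nat_lit 5) (nat_lit 31) (nat_lit 5) (nat_lit 30) (nat_lit 4) (nat_lit 422) (nat_lit 357) (nat_lit 241)) (XT.lf (nat_lit 0) (nat_lit 7493372788) (nat_lit 76) (nat_lit 23975585093) (nat_lit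 152) (nat_lit 38887426887) (nat_lit 28) (nat_lit 5) (nat_lit 29) (nat_lit 5) (nat_lit 30) (nat_lit 4) (nat_lit 423) (nat_lit 357) (nat_lit 240)))) (XT.nd (nat_lit 156) (nat_lit 76) (nat_lit 0) (XT.nd (nat_lit 78) (nat_lit 76) (nat_lit 0) (XT.lf (nat_lit 0) (nat_lit 42981823805) (nat_lit 76) (nat_lit 5802982536) (nat_lit 152) (nat_lit 24164108152) (nat_lit 28) (nat_lit 5) (nat_lit 29) (nat_lit 5) (nat_lit 30) (nat_lit 4) (nat_lit 424) (nat_lit 357) (nat_lit 239)) (XT.lf (nat_lit 0) (nat_lit 4499371626) (nat_lit 76) (nat_lit 62738881883) (nat_lit 76) (nat_lit 8419227481) (nat_lit 27) (nat_lit 4) (nat_lit 28) (nat_lit 5) (nat_lit 28) (nat_lit 4) (nat_lit 425) (nat_lit 357) (nat_lit 238))) (XT.nd (nat_lit 78) (nat_lit 0) (nat_lit 0) (XT.lf (nat_lit 0) (nat_lit 8458452024) (nat_lit 152) (nat_lit 36987635397) (nat_lit 76) (nat_lit 33018794774) (nat_lit 26) (nat_lit 5) (nat_lit 28) (nat_lit 5) (nat_lit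 27) (nat_lit 4) (nat_lit 426) (nat_lit 357) (nat_lit 237)) (XT.lf (nat_lit 0) (nat_lit 25891607915) (nat_lit 152) (nat_lit 1257101672) (nat_lit 76) (nat_lit 54257316703) (nat_lit 26) (nat_lit 5) (nat_lit 28) (nat_lit 5) (nat_lit 27) (nat_lit 4) (nat_lit 427) (nat_lit 357) (nat_lit 236))))) (XT.nd (nat_lit 234) (nat_lit 228) (nat_lit 0) (XT.nd (nat_lit 78) (nat_lit 76) (nat_lit 0) (XT.lf (nat_lit 0) (nat_lit 37448601359) (nat_lit 76) (nat_lit 7327291821) (nat_lit 152) (nat_lit 39689361325) (nat_lit 25) (nat_lit 5) (nat_lit 26) (nat_lit 5) (nat_lit 27) (nat_lit 4) (nat_lit 428) (nat_lit 357) (nat_lit 235)) (XT.nd (nat_lit 78) (nat_lit 76) (nat_lit 0) (XT.lf (nat_lit 0) (nat_lit 64831389151) (nat_lit 152) (nat_lit 9764006192) (nat_lit 0) (nat_lit 13070699437) (nat_lit 25) (nat_lit 5) (nat_lit 27) (nat_lit 4) (nat_lit 25) (nat_lit 4) (nat_lit 429) (nat_lit 357) (nat_lit 234)) (XT.lf (nat_lit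 0) (nat_lit 30187859222) (nat_lit 76) (nat_lit 56288300262) (nat_lit 76) (nat_lit 4521493055) (nat_lit 24) (nat_lit 4) (nat_lit 25) (nat_lit 5) (nat_lit 25) (nat_lit 4) (nat_lit 430) (nat_lit 357) (nat_lit 233)))) (XT.nd (nat_lit 156) (nat_lit 76) (nat_lit 0) (XT.nd (nat_lit 78) (nat_lit 76) (nat_lit 0) (XT.lf (nat_lit 0) (nat_lit 14399793405) (nat_lit 152) (nat_lit 22253056909) (nat_lit 76) (nat_lit 57823300042) (nat_lit 23) (nat_lit 5) (nat_lit 25) (nat_lit 5) (nat_lit 24) (nat_lit 4) (nat_lit 431) (nat_lit 357) (nat_lit 232)) (XT.lf (nat_lit 0) (nat_lit 18748407635) (nat_lit 76) (nat_lit 15654806888) (nat_lit 152) (nat_lit 63707251681) (nat_lit 22) (nat_lit 5) (nat_lit 23) (nat_lit 5) (nat_lit 24) (nat_lit 4) (nat_lit 432) (nat_lit 357) (nat_lit 231))) (XT.nd (nat_lit 78) (nat_lit 76) (nat_lit 0) (XT.lf (nat_lit 0) (nat_lit 55884990233) (nat_lit 152) (nat_lit 39450195865) (nat_lit 0) (nat_lit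 6567402938) (nat_lit 22) (nat_lit 5) (nat_lit 24) (nat_lit 4) (nat_lit 22) (nat_lit 4) (nat_lit 433) (nat_lit 357) (nat_lit 230)) (XT.lf (nat_lit 0) (nat_lit 2264462960) (nat_lit 76) (nat_lit 76463929513) (nat_lit 76) (nat_lit 27141549001) (nat_lit 21) (nat_lit 4) (nat_lit 22) (nat_lit 5) (nat_lit 22) (nat_lit 4) (nat_lit 434) (nat_lit 357) (nat_lit 229))))))) (XT.nd (nat_lit 1014) (nat_lit 456) (nat_lit 0) (XT.nd (nat_lit 468) (nat_lit 228) (nat_lit 0) (XT.nd (nat_lit 234) (nat_lit 76) (nat_lit 0) (XT.nd (nat_lit 78) (nat_lit 152) (nat_lit 0) (XT.lf (nat_lit 0) (nat_lit 47425977973) (nat_lit 76) (nat_lit 55951721325) (nat_lit 76) (nat_lit 6624775845) (nat_lit 21) (nat_lit 4) (nat_lit 22) (nat_lit 5) (nat_lit 22) (nat_lit 4) (nat_lit 435) (nat_lit 357) (nat_lit 228)) (XT.nd (nat_lit 78) (nat_lit 76) (nat_lit 0) (XT.lf (nat_lit 0) (nat_lit 14436138048) (nat_lit 152) (nat_lit 19737210070) (nat_lit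 76) (nat_lit 80156853923) (nat_lit 20) (nat_lit 5) (nat_lit 22) (nat_lit 5) (nat_lit 21) (nat_lit 4) (nat_lit 436) (nat_lit 357) (nat_lit 227)) (XT.lf (nat_lit 0) (nat_lit 25958428340) (nat_lit 76) (nat_lit 10770284815) (nat_lit 152) (nat_lit 82120109699) (nat_lit 19) (nat_lit 5) (nat_lit 20) (nat_lit 5) (nat_lit 21) (nat_lit 4) (nat_lit 437) (nat_lit 357) (nat_lit 226)))) (XT.nd (nat_lit 78) (nat_lit 76) (nat_lit 0) (XT.lf (nat_lit 0) (nat_lit 60687138877) (nat_lit 152) (nat_lit 49181419013) (nat_lit 0) (nat_lit 13697256001) (nat_lit 19) (nat_lit 5) (nat_lit 21) (nat_lit 4) (nat_lit 19) (nat_lit 4) (nat_lit 438) (nat_lit 357) (nat_lit 225)) (XT.nd (nat_lit 78) (nat_lit 76) (nat_lit 0) (XT.lf (nat_lit 0) (nat_lit 86016219885) (nat_lit 152) (nat_lit 3471037921) (nat_lit 0) (nat_lit 39022760237) (nat_lit 19) (nat_lit 5) (nat_lit 21) (nat_lit 4) (nat_lit 19) (nat_lit 4) (nat_lit 439) (nat_lit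 357) (nat_lit 224)) (XT.lf (nat_lit 0) (nat_lit 45989694774) (nat_lit 76) (nat_lit 67336442431) (nat_lit 76) (nat_lit 20339576333) (nat_lit 18) (nat_lit 4) (nat_lit 19) (nat_lit 5) (nat_lit 19) (nat_lit 4) (nat_lit 440) (nat_lit 357) (nat_lit 223))))) (XT.nd (nat_lit 234) (nat_lit 76) (nat_lit 0) (XT.nd (nat_lit 78) (nat_lit 76) (nat_lit 0) (XT.lf (nat_lit 0) (nat_lit 2884929754) (nat_lit 152) (nat_lit 41086004338) (nat_lit 76) (nat_lit 95103173292) (nat_lit 17) (nat_lit 5) (nat_lit 19) (nat_lit 5) (nat_lit 18) (nat_lit 4) (nat_lit 441) (nat_lit 357) (nat_lit 222)) (XT.nd (nat_lit 78) (nat_lit 0) (nat_lit 0) (XT.lf (nat_lit 0) (nat_lit 7741045920) (nat_lit 76) (nat_lit 18963464326) (nat_lit 152) (nat_lit 118025869497) (nat_lit 16) (nat_lit 5) (nat_lit 17) (nat_lit 5) (nat_lit 18) (nat_lit 4) (nat_lit 442) (nat_lit 357) (nat_lit 221)) (XT.lf (nat_lit 0) (nat_lit 52532716039) (nat_lit 152)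 (nat_lit 90330906488) (nat_lit 0) (nat_lit 7764961083) (nat_lit 16) (nat_lit 5) (nat_lit 18) (nat_lit 4) (nat_lit 16) (nat_lit 4) (nat_lit 443) (nat_lit 357) (nat_lit 220)))) (XT.nd (nat_lit 156) (nat_lit 0) (nat_lit 0) (XT.nd (nat_lit 78) (nat_lit 76) (nat_lit 0) (XT.lf (nat_lit 0) (nat_lit 79959915702) (nat_lit 152) (nat_lit 41656911282) (nat_lit 0) (nat_lit 35189491704) (nat_lit 16) (nat_lit 5) (nat_lit 18) (nat_lit 4) (nat_lit 16) (nat_lit 4) (nat_lit 444) (nat_lit 357) (nat_lit 219)) (XT.lf (nat_lit 0) (nat_lit 9756896709) (nat_lit 76) (nat_lit 99150775060) (nat_lit 76) (nat_lit 54377809116) (nat_lit 15) (nat_lit 4) (nat_lit 16) (nat_lit 5) (nat_lit 16) (nat_lit 4) (nat_lit 445) (nat_lit 357) (nat_lit 218))) (XT.nd (nat_lit 78) (nat_lit 0) (nat_lit 0) (XT.lf (nat_lit 0) (nat_lit 65181559888) (nat_lit 76) (nat_lit 74823654201) (nat_lit 76) (nat_lit 30048267357) (nat_lit 15) (nat_lit 4)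 (nat_lit 16) (nat_lit 5) (nat_lit 16) (nat_lit 4) (nat_lit 446) (nat_lit 357) (nat_lit 217)) (XT.lf (nat_lit 0) (nat_lit 123371676124) (nat_lit 76) (nat_lit 49283022641) (nat_lit 76) (nat_lit 4505330178) (nat_lit 15) (nat_lit 4) (nat_lit 16) (nat_lit 5) (nat_lit 16) (nat_lit 4) (nat_lit 447) (nat_lit 357) (nat_lit 216)))))) (XT.nd (nat_lit 546) (nat_lit 228) (nat_lit 0) (XT.nd (nat_lit 234) (nat_lit 76) (nat_lit 0) (XT.nd (nat_lit 78) (nat_lit 76) (nat_lit 0) (XT.lf (nat_lit 0) (nat_lit 21597701390) (nat_lit 152) (nat_lit 504600438) (nat_lit 76) (nat_lit 162502324397) (nat_lit 14) (nat_lit 5) (nat_lit 16) (nat_lit 5) (nat_lit 15) (nat_lit 4) (nat_lit 448) (nat_lit 357) (nat_lit 215)) (XT.nd (nat_lit 78) (nat_lit 0) (nat_lit 0) (XT.lf (nat_lit 0) (nat_lit 49861055696) (nat_lit 152) (nat_lit 135294824580) (nat_lit 0) (nat_lit 7211551358) (nat_lit 13) (nat_lit 5) (nat_lit 15) (nat_lit 4) (nat_lit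 13) (nat_lit 4) (nat_lit 449) (nat_lit 357) (nat_lit 214)) (XT.lf (nat_lit 0) (nat_lit 79905897112) (nat_lit 152) (nat_lit 83339568435) (nat_lit 0) (nat_lit 37254495936) (nat_lit 13) (nat_lit 5) (nat_lit 15) (nat_lit 4) (nat_lit 13) (nat_lit 4) (nat_lit 450) (nat_lit 357) (nat_lit 213)))) (XT.nd (nat_lit 156) (nat_lit 0) (nat_lit 0) (XT.nd (nat_lit 78) (nat_lit 76) (nat_lit 0) (XT.lf (nat_lit 0) (nat_lit 111450409964) (nat_lit 152) (nat_lit 28791634249) (nat_lit 0) (nat_lit 68797202275) (nat_lit 13) (nat_lit 5) (nat_lit 15) (nat_lit 4) (nat_lit 13) (nat_lit 4) (nat_lit 451) (nat_lit 357) (nat_lit 212)) (XT.lf (nat_lit 0) (nat_lit 29420493537) (nat_lit 76) (nat_lit 115608543052) (nat_lit 76) (nat_lit 72953614874) (nat_lit 12) (nat_lit 4) (nat_lit 13) (nat_lit 5) (nat_lit 13) (nat_lit 4) (nat_lit 452) (nat_lit 357) (nat_lit 211))) (XT.nd (nat_lit 78) (nat_lit 0) (nat_lit 0) (XT.lf (nat_lit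 0) (nat_lit 91538043713) (nat_lit 76) (nat_lit 89233745060) (nat_lit 76) (nat_lit 46577178322) (nat_lit 12) (nat_lit 4) (nat_lit 13) (nat_lit 5) (nat_lit 13) (nat_lit 4) (nat_lit 453) (nat_lit 357) (nat_lit 210)) (XT.lf (nat_lit 0) (nat_lit 156756933753) (nat_lit 76) (nat_lit 61542453358) (nat_lit 76) (nat_lit 18884326086) (nat_lit 12) (nat_lit 4) (nat_lit 13) (nat_lit 5) (nat_lit 13) (nat_lit 4) (nat_lit 454) (nat_lit 357) (nat_lit 209))))) (XT.nd (nat_lit 234) (nat_lit 76) (nat_lit 0) (XT.nd (nat_lit 78) (nat_lit 76) (nat_lit 0) (XT.lf (nat_lit 0) (nat_lit 9864705482) (nat_lit 152) (nat_lit 22436967256) (nat_lit 76) (nat_lit 215200677683) (nat_lit 11) (nat_lit 5) (nat_lit 13) (nat_lit 5) (nat_lit 12) (nat_lit 4) (nat_lit 455) (nat_lit 357) (nat_lit 208)) (XT.nd (nat_lit 78) (nat_lit 0) (nat_lit 0) (XT.lf (nat_lit 0) (nat_lit 39399604082) (nat_lit 76) (nat_lit 629973004) (nat_lit 152) (nat_lit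 218261212282) (nat_lit 10) (nat_lit 5) (nat_lit 11) (nat_lit 5) (nat_lit 12) (nat_lit 4) (nat_lit 456) (nat_lit 357) (nat_lit 207)) (XT.lf (nat_lit 0) (nat_lit 72596166741) (nat_lit 152) (nat_lit 165012478380) (nat_lit 0) (nat_lit 31965331510) (nat_lit 10) (nat_lit 5) (nat_lit 12) (nat_lit 4) (nat_lit 10) (nat_lit 4) (nat_lit 457) (nat_lit 357) (nat_lit 206)))) (XT.nd (nat_lit 156) (nat_lit 76) (nat_lit 0) (XT.nd (nat_lit 78) (nat_lit 0) (nat_lit 0) (XT.lf (nat_lit 0) (nat_lit 106799405526) (nat_lit 152) (nat_lit 108454154265) (nat_lit 0) (nat_lit 66167347576) (nat_lit 10) (nat_lit 5) (nat_lit 12) (nat_lit 4) (nat_lit 10) (nat_lit 4) (nat_lit 458) (nat_lit 357) (nat_lit 205)) (XT.lf (nat_lit 0) (nat_lit 142710894078) (nat_lit 152) (nat_lit 49071714620) (nat_lit 0) (nat_lit 102077671633) (nat_lit 10) (nat_lit 5) (nat_lit 12) (nat_lit 4) (nat_lit 10) (nat_lit 4) (nat_lit 459) (nat_lit 357)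 (nat_lit 204))) (XT.nd (nat_lit 78) (nat_lit 0) (nat_lit 0) (XT.lf (nat_lit 0) (nat_lit 13715199345) (nat_lit 76) (nat_lit 166915069294) (nat_lit 76) (nat_lit 126280737808) (nat_lit 9) (nat_lit 4) (nat_lit 10) (nat_lit 5) (nat_lit 10) (nat_lit 4) (nat_lit 460) (nat_lit 357) (nat_lit 203)) (XT.lf (nat_lit 0) (nat_lit 81341556825) (nat_lit 76) (nat_lit 139933318338) (nat_lit 76) (nat_lit 99297930621) (nat_lit 9) (nat_lit 4) (nat_lit 10) (nat_lit 5) (nat_lit 10) (nat_lit 4) (nat_lit 461) (nat_lit 357) (nat_lit 202))))))))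
noncomputable def xc141 : XT := (XT.nd (nat_lit 45552) (nat_lit 0) (nat_lit 4712) (XT.nd (nat_lit 1014) (nat_lit 152) (nat_lit 0) (XT.nd (nat_lit 468) (nat_lit 76) (nat_lit 0) (XT.nd (nat_lit 234) (nat_lit 152) (nat_lit 0) (XT.nd (nat_lit 78) (nat_lit 0) (nat_lit 0) (XT.lf (nat_lit 0) (nat_lit 152345840456) (nat_lit 76) (nat_lit 111604166798) (nat_lit 76) (nat_lit 70967773147) (nat_lit 9) (nat_lit 4) (nat_lit 10) (nat_lit 5) (nat_lit 10) (nat_lit 4) (nat_lit 462) (nat_lit 357) (nat_lit 201)) (XT.nd (nat_lit 78) (nat_lit 0) (nat_lit 0) (XT.lf (nat_lit 0) (nat_lit 226897108054) (nat_lit 76) (nat_lit 81860164313) (nat_lit 76) (nat_lit 41222812629) (nat_lit 9) (nat_lit 4) (nat_lit 10) (nat_lit 5) (nat_lit 10) (nat_lit 4) (nat_lit 463) (nat_lit 357) (nat_lit 200)) (XT.lf (nat_lit 0) (nat_lit 305172862640) (nat_lit 76) (nat_lit 50630491829) (nat_lit 76) (nat_lit 9992227734) (nat_lit 9) (nat_lit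 4) (nat_lit 10) (nat_lit 5) (nat_lit 10) (nat_lit 4) (nat_lit 464) (nat_lit 357) (nat_lit 199)))) (XT.nd (nat_lit 78) (nat_lit 0) (nat_lit 0) (XT.lf (nat_lit 0) (nat_lit 4753750824) (nat_lit 76) (nat_lit 17389119362) (nat_lit 152) (nat_lit 360237549511) (nat_lit 7) (nat_lit 5) (nat_lit 8) (nat_lit 5) (nat_lit 9) (nat_lit 4) (nat_lit 465) (nat_lit 357) (nat_lit 198)) (XT.nd (nat_lit 78) (nat_lit 0) (nat_lit 0) (XT.lf (nat_lit 0) (nat_lit 56864377979) (nat_lit 152) (nat_lit 324696504269) (nat_lit 0) (nat_lit 18159653557) (nat_lit 7) (nat_lit 5) (nat_lit 9) (nat_lit 4) (nat_lit 7) (nat_lit 4) (nat_lit 466) (nat_lit 357) (nat_lit 197)) (XT.lf (nat_lit 0) (nat_lit 93605605717) (nat_lit 152) (nat_lit 269407739178) (nat_lit 0) (nat_lit 54900130652) (nat_lit 7) (nat_lit 5) (nat_lit 9) (nat_lit 4) (nat_lit 7) (nat_lit 4) (nat_lit 467) (nat_lit 357) (nat_lit 196))))) (XT.nd (nat_lit 234) (nat_lit 76)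 (nat_lit 0) (XT.nd (nat_lit 78) (nat_lit 0) (nat_lit 0) (XT.lf (nat_lit 0) (nat_lit 132182539627) (nat_lit 152) (nat_lit 211357240797) (nat_lit 0) (nat_lit 93476349664) (nat_lit 7) (nat_lit 5) (nat_lit 9) (nat_lit 4) (nat_lit 7) (nat_lit 4) (nat_lit 468) (nat_lit 357) (nat_lit 195)) (XT.nd (nat_lit 78) (nat_lit 0) (nat_lit 0) (XT.lf (nat_lit 0) (nat_lit 172687029553) (nat_lit 152) (nat_lit 150406793654) (nat_lit 0) (nat_lit 133980158733) (nat_lit 7) (nat_lit 5) (nat_lit 9) (nat_lit 4) (nat_lit 7) (nat_lit 4) (nat_lit 469) (nat_lit 357) (nat_lit 194)) (XT.lf (nat_lit 0) (nat_lit 215215514755) (nat_lit 152) (nat_lit 86411277638) (nat_lit 0) (nat_lit 176507995501) (nat_lit 7) (nat_lit 5) (nat_lit 9) (nat_lit 4) (nat_lit 7) (nat_lit 4) (nat_lit 470) (nat_lit 357) (nat_lit 193)))) (XT.nd (nat_lit 156) (nat_lit 0) (nat_lit 0) (XT.nd (nat_lit 78) (nat_lit 76) (nat_lit 0) (XT.lf (nat_lit 0) (nat_lit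 259869253532) (nat_lit 152) (nat_lit 19218322471) (nat_lit 0) (nat_lit 221161116722) (nat_lit 7) (nat_lit 5) (nat_lit 9) (nat_lit 4) (nat_lit 7) (nat_lit 4) (nat_lit 471) (nat_lit 357) (nat_lit 192)) (XT.lf (nat_lit 0) (nat_lit 53029324634) (nat_lit 76) (nat_lit 254553176046) (nat_lit 76) (nat_lit 215844451088) (nat_lit 6) (nat_lit 4) (nat_lit 7) (nat_lit 5) (nat_lit 7) (nat_lit 4) (nat_lit 472) (nat_lit 357) (nat_lit 191))) (XT.nd (nat_lit 78) (nat_lit 0) (nat_lit 0) (XT.lf (nat_lit 0) (nat_lit 129554381368) (nat_lit 76) (nat_lit 228451404380) (nat_lit 76) (nat_lit 189742119279) (nat_lit 6) (nat_lit 4) (nat_lit 7) (nat_lit 5) (nat_lit 7) (nat_lit 4) (nat_lit 473) (nat_lit 357) (nat_lit 190)) (XT.lf (nat_lit 0) (nat_lit 209903605711) (nat_lit 76) (nat_lit 201045585518) (nat_lit 76) (nat_lit 162335766950) (nat_lit 6) (nat_lit 4) (nat_lit 7) (nat_lit 5) (nat_lit 7) (nat_lit 4) (nat_lit 474)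 (nat_lit 357) (nat_lit 189)))))) (XT.nd (nat_lit 43992) (nat_lit 0) (nat_lit 9500) (XT.nd (nat_lit 234) (nat_lit 152) (nat_lit 0) (XT.nd (nat_lit 78) (nat_lit 0) (nat_lit 0) (XT.lf (nat_lit 0) (nat_lit 294268305342) (nat_lit 76) (nat_lit 172270467513) (nat_lit 76) (nat_lit 133560140880) (nat_lit 6) (nat_lit 4) (nat_lit 7) (nat_lit 5) (nat_lit 7) (nat_lit 4) (nat_lit 475) (nat_lit 357) (nat_lit 188)) (XT.nd (nat_lit 78) (nat_lit 0) (nat_lit 0) (XT.lf (nat_lit 0) (nat_lit 382849348591) (nat_lit 76) (nat_lit 142057538177) (nat_lit 76) (nat_lit 103346727673) (nat_lit 6) (nat_lit 4) (nat_lit 7) (nat_lit 5) (nat_lit 7) (nat_lit 4) (nat_lit 476) (nat_lit 357) (nat_lit 187)) (XT.lf (nat_lit 0) (nat_lit 475857642705) (nat_lit 76) (nat_lit 110334861966) (nat_lit 76) (nat_lit 71623590631) (nat_lit 6) (nat_lit 4) (nat_lit 7) (nat_lit 5) (nat_lit 7) (nat_lit 4) (nat_lit 477) (nat_lit 357) (nat_lit 186))))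 (XT.nd (nat_lit 156) (nat_lit 152) (nat_lit 0) (XT.nd (nat_lit 78) (nat_lit 0) (nat_lit 0) (XT.lf (nat_lit 0) (nat_lit 573514636004) (nat_lit 76) (nat_lit 77026908697) (nat_lit 76) (nat_lit 38315198476) (nat_lit 6) (nat_lit 4) (nat_lit 7) (nat_lit 5) (nat_lit 7) (nat_lit 4) (nat_lit 478) (nat_lit 357) (nat_lit 185)) (XT.lf (nat_lit 0) (nat_lit 676052845138) (nat_lit 76) (nat_lit 42054373720) (nat_lit 76) (nat_lit 3342245513) (nat_lit 6) (nat_lit 4) (nat_lit 7) (nat_lit 5) (nat_lit 7) (nat_lit 4) (nat_lit 479) (nat_lit 357) (nat_lit 184))) (XT.nd (nat_lit 78) (nat_lit 0) (nat_lit 0) (XT.lf (nat_lit 0) (nat_lit 28433464009) (nat_lit 76) (nat_lit 4320677599) (nat_lit 152) (nat_lit 722869466063) (nat_lit 4) (nat_lit 5) (nat_lit 5) (nat_lit 5) (nat_lit 6) (nat_lit 4) (nat_lit 480) (nat_lit 357) (nat_lit 183)) (XT.lf (nat_lit 0) (nat_lit 71874780753) (nat_lit 152) (nat_lit 684557003139) (nat_lit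 0) (nat_lit 35005347024) (nat_lit 4) (nat_lit 5) (nat_lit 6) (nat_lit 4) (nat_lit 4) (nat_lit 4) (nat_lit 481) (nat_lit 357) (nat_lit 182))))) (XT.nd (nat_lit 234) (nat_lit 0) (nat_lit 76) (XT.nd (nat_lit 78) (nat_lit 0) (nat_lit 0) (XT.lf (nat_lit 0) (nat_lit 899973467) (nat_lit 0) (nat_lit 899973467) (nat_lit 684) (nat_lit 3322998380) (nat_lit 129) (nat_lit 5) (nat_lit 129) (nat_lit 3) (nat_lit 138) (nat_lit 3) (nat_lit 358) (nat_lit 358) (nat_lit 304)) (XT.nd (nat_lit 78) (nat_lit 0) (nat_lit 0) (XT.lf (nat_lit 0) (nat_lit 4386867782) (nat_lit 684) (nat_lit 3494852088) (nat_lit 760) (nat_lit 2585086486) (nat_lit 129) (nat_lit 5) (nat_lit 138) (nat_lit 3) (nat_lit 139) (nat_lit 5) (nat_lit 359) (nat_lit 358) (nat_lit 303)) (XT.lf (nat_lit 76) (nat_lit 1705449442) (nat_lit 0) (nat_lit 3522256360) (nat_lit 760) (nat_lit 5470360795) (nat_lit 130) (nat_lit 5) (nat_lit 129) (nat_lit 5) (nat_lit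 139) (nat_lit 5) (nat_lit 360) (nat_lit 358) (nat_lit 302)))) (XT.nd (nat_lit 156) (nat_lit 0) (nat_lit 0) (XT.nd (nat_lit 78) (nat_lit 0) (nat_lit 0) (XT.lf (nat_lit 0) (nat_lit 6147485302) (nat_lit 684) (nat_lit 3693608097) (nat_lit 760) (nat_lit 1097974804) (nat_lit 130) (nat_lit 5) (nat_lit 139) (nat_lit 5) (nat_lit 140) (nat_lit 5) (nat_lit 361) (nat_lit 358) (nat_lit 301)) (XT.lf (nat_lit 76) (nat_lit 1847618731) (nat_lit 0) (nat_lit 5314383426) (nat_lit 760) (nat_lit 4027702532) (nat_lit 131) (nat_lit 5) (nat_lit 130) (nat_lit 5) (nat_lit 140) (nat_lit 5) (nat_lit 362) (nat_lit 358) (nat_lit 300))) (XT.nd (nat_lit 78) (nat_lit 0) (nat_lit 76) (XT.lf (nat_lit 76) (nat_lit 7770403652) (nat_lit 0) (nat_lit 482985517) (nat_lit 760) (nat_lit 3198197779) (nat_lit 131) (nat_lit 5) (nat_lit 130) (nat_lit 5) (nat_lit 140) (nat_lit 5) (nat_lit 363) (nat_lit 358) (nat_lit 299)) (XT.lf (nat_lit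 76) (nat_lit 2238189064) (nat_lit 0) (nat_lit 7233276800) (nat_lit 760) (nat_lit 2251511594) (nat_lit 132) (nat_lit 5) (nat_lit 131) (nat_lit 5) (nat_lit 141) (nat_lit 5) (nat_lit 364) (nat_lit 358) (nat_lit 298))))))) (XT.nd (nat_lit 1014) (nat_lit 2052) (nat_lit 0) (XT.nd (nat_lit 468) (nat_lit 1520) (nat_lit 0) (XT.nd (nat_lit 234) (nat_lit 684) (nat_lit 0) (XT.nd (nat_lit 78) (nat_lit 684) (nat_lit 0) (XT.lf (nat_lit 76) (nat_lit 8548999799) (nat_lit 0) (nat_lit 2238357867) (nat_lit 760) (nat_lit 1218753458) (nat_lit 132) (nat_lit 5) (nat_lit 131) (nat_lit 5) (nat_lit 141) (nat_lit 5) (nat_lit 365) (nat_lit 358) (nat_lit 297)) (XT.nd (nat_lit 78) (nat_lit 760) (nat_lit 0) (XT.lf (nat_lit 76) (nat_lit 2892864473) (nat_lit 0) (nat_lit 9336777563) (nat_lit 760) (nat_lit 70747821) (nat_lit 133) (nat_lit 5) (nat_lit 132) (nat_lit 5) (nat_lit 142) (nat_lit 5) (nat_lit 366) (nat_lit 358) (nat_lit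 296)) (XT.lf (nat_lit 0) (nat_lit 1163644637) (nat_lit 760) (nat_lit 3006839585) (nat_lit 836) (nat_lit 8434763991) (nat_lit 122) (nat_lit 5) (nat_lit 132) (nat_lit 5) (nat_lit 133) (nat_lit 5) (nat_lit 367) (nat_lit 358) (nat_lit 295)))) (XT.nd (nat_lit 78) (nat_lit 760) (nat_lit 0) (XT.lf (nat_lit 0) (nat_lit 2508100741) (nat_lit 760) (nat_lit 9133948753) (nat_lit 76) (nat_lit 1280721715) (nat_lit 123) (nat_lit 5) (nat_lit 133) (nat_lit 5) (nat_lit 124) (nat_lit 5) (nat_lit 368) (nat_lit 358) (nat_lit 294)) (XT.nd (nat_lit 78) (nat_lit 760) (nat_lit 0) (XT.lf (nat_lit 0) (nat_lit 4011579545) (nat_lit 760) (nat_lit 2319455363) (nat_lit 76) (nat_lit 6920560490) (nat_lit 123) (nat_lit 5) (nat_lit 133) (nat_lit 5) (nat_lit 124) (nat_lit 5) (nat_lit 369) (nat_lit 358) (nat_lit 293)) (XT.lf (nat_lit 0) (nat_lit 4970776671) (nat_lit 760) (nat_lit 670086447) (nat_lit 836) (nat_lit 7953480462) (nat_lit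 113) (nat_lit 5) (nat_lit 123) (nat_lit 5) (nat_lit 124) (nat_lit 5) (nat_lit 370) (nat_lit 358) (nat_lit 292))))) (XT.nd (nat_lit 234) (nat_lit 1140) (nat_lit 0) (XT.nd (nat_lit 78) (nat_lit 380) (nat_lit 0) (XT.lf (nat_lit 0) (nat_lit 7447851177) (nat_lit 836) (nat_lit 1354250255) (nat_lit 76) (nat_lit 5147329364) (nat_lit 113) (nat_lit 5) (nat_lit 124) (nat_lit 5) (nat_lit 114) (nat_lit 5) (nat_lit 371) (nat_lit 358) (nat_lit 291)) (XT.nd (nat_lit 78) (nat_lit 0) (nat_lit 0) (XT.lf (nat_lit 0) (nat_lit 6450137371) (nat_lit 380) (nat_lit 2981955060) (nat_lit 456) (nat_lit 4885847746) (nat_lit 108) (nat_lit 5) (nat_lit 113) (nat_lit 5) (nat_lit 114) (nat_lit 5) (nat_lit 372) (nat_lit 358) (nat_lit 290)) (XT.lf (nat_lit 0) (nat_lit 11563747918) (nat_lit 456) (nat_lit 85887520) (nat_lit 76) (nat_lit 3052841854) (nat_lit 108) (nat_lit 5) (nat_lit 114) (nat_lit 5) (nat_lit 109) (nat_lit 5) (nat_lit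 373) (nat_lit 358) (nat_lit 289)))) (XT.nd (nat_lit 156) (nat_lit 304) (nat_lit 0) (XT.nd (nat_lit 78) (nat_lit 456) (nat_lit 0) (XT.lf (nat_lit 0) (nat_lit 8277662995) (nat_lit 380) (nat_lit 5679622110) (nat_lit 456) (nat_lit 1141202994) (nat_lit 103) (nat_lit 5) (nat_lit 108) (nat_lit 5) (nat_lit 109) (nat_lit 5) (nat_lit 374) (nat_lit 358) (nat_lit 288)) (XT.lf (nat_lit 0) (nat_lit 938786975) (nat_lit 456) (nat_lit 13964025855) (nat_lit 76) (nat_lit 610091275) (nat_lit 97) (nat_lit 5) (nat_lit 103) (nat_lit 5) (nat_lit 98) (nat_lit 5) (nat_lit 375) (nat_lit 358) (nat_lit 287))) (XT.nd (nat_lit 78) (nat_lit 304) (nat_lit 0) (XT.lf (nat_lit 0) (nat_lit 3273146172) (nat_lit 456) (nat_lit 5506678828) (nat_lit 76) (nat_lit 7157854598) (nat_lit 97) (nat_lit 5) (nat_lit 103) (nat_lit 5) (nat_lit 98) (nat_lit 5) (nat_lit 376) (nat_lit 358) (nat_lit 286)) (XT.lf (nat_lit 0) (nat_lit 3460902661)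 (nat_lit 304) (nat_lit 2296598321) (nat_lit 380) (nat_lit 10624538696) (nat_lit 93) (nat_lit 5) (nat_lit 97) (nat_lit 5) (nat_lit 98) (nat_lit 5) (nat_lit 377) (nat_lit 358) (nat_lit 285)))))) (XT.nd (nat_lit 546) (nat_lit 912) (nat_lit 0) (XT.nd (nat_lit 234) (nat_lit 836) (nat_lit 0) (XT.nd (nat_lit 78) (nat_lit 304) (nat_lit 0) (XT.lf (nat_lit 0) (nat_lit 8511113631) (nat_lit 380) (nat_lit 3871863350) (nat_lit 76) (nat_lit 4458398008) (nat_lit 93) (nat_lit 5) (nat_lit 98) (nat_lit 5) (nat_lit 94) (nat_lit 5) (nat_lit 378) (nat_lit 358) (nat_lit 284)) (XT.nd (nat_lit 78) (nat_lit 0) (nat_lit 0) (XT.lf (nat_lit 0) (nat_lit 5753519801) (nat_lit 304) (nat_lit 5757152387) (nat_lit 380) (nat_lit 5807600408) (nat_lit 89) (nat_lit 5) (nat_lit 93) (nat_lit 5) (nat_lit 94) (nat_lit 5) (nat_lit 379) (nat_lit 358) (nat_lit 283)) (XT.lf (nat_lit 0) (nat_lit 14726881779) (nat_lit 380) (nat_lit 1864317679)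 (nat_lit 76) (nat_lit 1224490346) (nat_lit 89) (nat_lit 5) (nat_lit 94) (nat_lit 5) (nat_lit 90) (nat_lit 5) (nat_lit 380) (nat_lit 358) (nat_lit 282)))) (XT.nd (nat_lit 156) (nat_lit 228) (nat_lit 0) (XT.nd (nat_lit 78) (nat_lit 380) (nat_lit 0) (XT.lf (nat_lit 0) (nat_lit 8475784430) (nat_lit 228) (nat_lit 9837010079) (nat_lit 304) (nat_lit 14746705) (nat_lit 86) (nat_lit 5) (nat_lit 89) (nat_lit 5) (nat_lit 90) (nat_lit 5) (nat_lit 381) (nat_lit 358) (nat_lit 281)) (XT.lf (nat_lit 0) (nat_lit 476288854) (nat_lit 304) (nat_lit 2655816965) (nat_lit 380) (nat_lit 15729282160) (nat_lit 81) (nat_lit 5) (nat_lit 85) (nat_lit 5) (nat_lit 86) (nat_lit 5) (nat_lit 382) (nat_lit 358) (nat_lit 280))) (XT.nd (nat_lit 78) (nat_lit 228) (nat_lit 0) (XT.lf (nat_lit 0) (nat_lit 6664456972) (nat_lit 380) (nat_lit 7852959018) (nat_lit 76) (nat_lit 4893073317) (nat_lit 81) (nat_lit 5) (nat_lit 86) (nat_lit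 5) (nat_lit 82) (nat_lit 5) (nat_lit 383) (nat_lit 358) (nat_lit 279)) (XT.lf (nat_lit 0) (nat_lit 3244272778) (nat_lit 228) (nat_lit 7206973967) (nat_lit 304) (nat_lit 9531914464) (nat_lit 78) (nat_lit 5) (nat_lit 81) (nat_lit 5) (nat_lit 82) (nat_lit 5) (nat_lit 384) (nat_lit 358) (nat_lit 278))))) (XT.nd (nat_lit 234) (nat_lit 608) (nat_lit 0) (XT.nd (nat_lit 78) (nat_lit 304) (nat_lit 0) (XT.lf (nat_lit 0) (nat_lit 14553860966) (nat_lit 304) (nat_lit 5440494834) (nat_lit 76) (nat_lit 583792908) (nat_lit 78) (nat_lit 5) (nat_lit 82) (nat_lit 5) (nat_lit 79) (nat_lit 5) (nat_lit 385) (nat_lit 358) (nat_lit 277)) (XT.nd (nat_lit 78) (nat_lit 76) (nat_lit 0) (XT.lf (nat_lit 0) (nat_lit 6491311448) (nat_lit 228) (nat_lit 12574540386) (nat_lit 304) (nat_lit 2126827403) (nat_lit 75) (nat_lit 5) (nat_lit 78) (nat_lit 5) (nat_lit 79) (nat_lit 5) (nat_lit 386) (nat_lit 358) (nat_lit 276)) (XT.lf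 (nat_lit 0) (nat_lit 1981149397) (nat_lit 304) (nat_lit 2678223427) (nat_lit 76) (nat_lit 17173106918) (nat_lit 74) (nat_lit 5) (nat_lit 78) (nat_lit 5) (nat_lit 75) (nat_lit 5) (nat_lit 387) (nat_lit 358) (nat_lit 275)))) (XT.nd (nat_lit 156) (nat_lit 152) (nat_lit 0) (XT.nd (nat_lit 78) (nat_lit 228) (nat_lit 0) (XT.lf (nat_lit 0) (nat_lit 6428309650) (nat_lit 304) (nat_lit 12337401528) (nat_lit 76) (nat_lit 3726557937) (nat_lit 71) (nat_lit 5) (nat_lit 75) (nat_lit 5) (nat_lit 72) (nat_lit 5) (nat_lit 388) (nat_lit 358) (nat_lit 274)) (XT.lf (nat_lit 0) (nat_lit 456749064) (nat_lit 228) (nat_lit 10756597064) (nat_lit 304) (nat_lit 11965930815) (nat_lit 68) (nat_lit 5) (nat_lit 71) (nat_lit 5) (nat_lit 72) (nat_lit 5) (nat_lit 389) (nat_lit 358) (nat_lit 273))) (XT.nd (nat_lit 78) (nat_lit 152) (nat_lit 0) (XT.lf (nat_lit 0) (nat_lit 14298707533) (nat_lit 228) (nat_lit 2134125592) (nat_lit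 304) (nat_lit 7458046765) (nat_lit 68) (nat_lit 5) (nat_lit 71) (nat_lit 5) (nat_lit 72) (nat_lit 5) (nat_lit 390) (nat_lit 358) (nat_lit 272)) (XT.lf (nat_lit 0) (nat_lit 4201311261) (nat_lit 152) (nat_lit 17872426505) (nat_lit 228) (nat_lit 2556307496) (nat_lit 66) (nat_lit 5) (nat_lit 68) (nat_lit 5) (nat_lit 69) (nat_lit 5) (nat_lit 391) (nat_lit 358) (nat_lit 271))))))))
noncomputable def xc142 : XT := (XT.nd (nat_lit 2106) (nat_lit 1216) (nat_lit 0) (XT.nd (nat_lit 1014) (nat_lit 1216) (nat_lit 0) (XT.nd (nat_lit 468) (nat_lit 684) (nat_lit 0) (XT.nd (nat_lit 234) (nat_lit 380) (nat_lit 0) (XT.nd (nat_lit 78) (nat_lit 228) (nat_lit 0) (XT.lf (nat_lit 0) (nat_lit 2694627848) (nat_lit 228) (nat_lit 6478595023) (nat_lit 76) (nat_lit 16221576701) (nat_lit 65) (nat_lit 5) (nat_lit 68) (nat_lit 5) (nat_lit 66) (nat_lit 5) (nat_lit 392) (nat_lit 358) (nat_lit 270)) (XT.nd (nat_lit 78) (nat_lit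 0) (nat_lit 0) (XT.lf (nat_lit 0) (nat_lit 8242644525) (nat_lit 304) (nat_lit 17815659011) (nat_lit 76) (nat_lit 131374402) (nat_lit 62) (nat_lit 5) (nat_lit 66) (nat_lit 5) (nat_lit 63) (nat_lit 5) (nat_lit 393) (nat_lit 358) (nat_lit 269)) (XT.lf (nat_lit 0) (nat_lit 14317706408) (nat_lit 304) (nat_lit 2996003275) (nat_lit 76) (nat_lit 9698111975) (nat_lit 62) (nat_lit 5) (nat_lit 66) (nat_lit 5) (nat_lit 63) (nat_lit 5) (nat_lit 394) (nat_lit 358) (nat_lit 268)))) (XT.nd (nat_lit 78) (nat_lit 228) (nat_lit 0) (XT.lf (nat_lit 0) (nat_lit 12961193068) (nat_lit 152) (nat_lit 7926019215) (nat_lit 228) (nat_lit 6978329214) (nat_lit 60) (nat_lit 5) (nat_lit 62) (nat_lit 5) (nat_lit 63) (nat_lit 5) (nat_lit 395) (nat_lit 358) (nat_lit 267)) (XT.nd (nat_lit 78) (nat_lit 76) (nat_lit 0) (XT.lf (nat_lit 0) (nat_lit 1044857723) (nat_lit 152) (nat_lit 26826870946) (nat_lit 228) (nat_lit 885895216)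 (nat_lit 58) (nat_lit 5) (nat_lit 60) (nat_lit 5) (nat_lit 61) (nat_lit 5) (nat_lit 396) (nat_lit 358) (nat_lit 266)) (XT.lf (nat_lit 0) (nat_lit 5709833030) (nat_lit 228) (nat_lit 11611377099) (nat_lit 76) (nat_lit 12350047829) (nat_lit 57) (nat_lit 5) (nat_lit 60) (nat_lit 5) (nat_lit 58) (nat_lit 5) (nat_lit 397) (nat_lit 358) (nat_lit 265))))) (XT.nd (nat_lit 234) (nat_lit 380) (nat_lit 0) (XT.nd (nat_lit 78) (nat_lit 152) (nat_lit 0) (XT.lf (nat_lit 0) (nat_lit 5436917156) (nat_lit 152) (nat_lit 7242667109) (nat_lit 228) (nat_lit 17946565765) (nat_lit 55) (nat_lit 5) (nat_lit 57) (nat_lit 5) (nat_lit 58) (nat_lit 5) (nat_lit 398) (nat_lit 358) (nat_lit 264)) (XT.nd (nat_lit 78) (nat_lit 152) (nat_lit 0) (XT.lf (nat_lit 0) (nat_lit 20239099144) (nat_lit 228) (nat_lit 7951375828) (nat_lit 76) (nat_lit 3426250658) (nat_lit 55) (nat_lit 5) (nat_lit 58) (nat_lit 5) (nat_lit 56) (nat_lit 5)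 (nat_lit 399) (nat_lit 358) (nat_lit 263)) (XT.lf (nat_lit 0) (nat_lit 10343753294) (nat_lit 152) (nat_lit 18102839341) (nat_lit 228) (nat_lit 4196739827) (nat_lit 53) (nat_lit 5) (nat_lit 55) (nat_lit 5) (nat_lit 56) (nat_lit 5) (nat_lit 400) (nat_lit 358) (nat_lit 262)))) (XT.nd (nat_lit 156) (nat_lit 152) (nat_lit 0) (XT.nd (nat_lit 78) (nat_lit 152) (nat_lit 0) (XT.lf (nat_lit 0) (nat_lit 3362891921) (nat_lit 228) (nat_lit 3956266281) (nat_lit 76) (nat_lit 26393168773) (nat_lit 52) (nat_lit 5) (nat_lit 55) (nat_lit 5) (nat_lit 53) (nat_lit 5) (nat_lit 401) (nat_lit 358) (nat_lit 261)) (XT.lf (nat_lit 0) (nat_lit 11462817291) (nat_lit 228) (nat_lit 19164682032) (nat_lit 76) (nat_lit 4188666682) (nat_lit 50) (nat_lit 5) (nat_lit 53) (nat_lit 5) (nat_lit 51) (nat_lit 5) (nat_lit 402) (nat_lit 358) (nat_lit 260))) (XT.nd (nat_lit 78) (nat_lit 0) (nat_lit 0) (XT.lf (nat_lit 0) (nat_lit 276574152)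 (nat_lit 152) (nat_lit 19873999406) (nat_lit 228) (nat_lit 15815483833) (nat_lit 48) (nat_lit 5) (nat_lit 50) (nat_lit 5) (nat_lit 51) (nat_lit 5) (nat_lit 403) (nat_lit 358) (nat_lit 259)) (XT.lf (nat_lit 0) (nat_lit 21339190054) (nat_lit 152) (nat_lit 8248726393) (nat_lit 228) (nat_lit 7569768994) (nat_lit 48) (nat_lit 5) (nat_lit 50) (nat_lit 5) (nat_lit 51) (nat_lit 5) (nat_lit 404) (nat_lit 358) (nat_lit 258)))))) (XT.nd (nat_lit 546) (nat_lit 608) (nat_lit 0) (XT.nd (nat_lit 234) (nat_lit 304) (nat_lit 0) (XT.nd (nat_lit 78) (nat_lit 152) (nat_lit 0) (XT.lf (nat_lit 0) (nat_lit 1188491805) (nat_lit 152) (nat_lit 33288527681) (nat_lit 76) (nat_lit 3924273214) (nat_lit 46) (nat_lit 5) (nat_lit 48) (nat_lit 5) (nat_lit 47) (nat_lit 5) (nat_lit 405) (nat_lit 358) (nat_lit 257)) (XT.nd (nat_lit 78) (nat_lit 152) (nat_lit 0) (XT.lf (nat_lit 0) (nat_lit 10528807051) (nat_lit 152) (nat_lit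 12333313550) (nat_lit 76) (nat_lit 16818829986) (nat_lit 46) (nat_lit 5) (nat_lit 48) (nat_lit 5) (nat_lit 47) (nat_lit 5) (nat_lit 406) (nat_lit 358) (nat_lit 256)) (XT.lf (nat_lit 0) (nat_lit 9973949474) (nat_lit 152) (nat_lit 10509361968) (nat_lit 228) (nat_lit 20533922931) (nat_lit 44) (nat_lit 5) (nat_lit 46) (nat_lit 5) (nat_lit 47) (nat_lit 5) (nat_lit 407) (nat_lit 358) (nat_lit 255)))) (XT.nd (nat_lit 156) (nat_lit 228) (nat_lit 0) (XT.nd (nat_lit 78) (nat_lit 76) (nat_lit 0) (XT.lf (nat_lit 0) (nat_lit 31177790249) (nat_lit 228) (nat_lit 8641996934) (nat_lit 76) (nat_lit 2588434300) (nat_lit 44) (nat_lit 5) (nat_lit 47) (nat_lit 5) (nat_lit 45) (nat_lit 4) (nat_lit 408) (nat_lit 358) (nat_lit 254)) (XT.lf (nat_lit 0) (nat_lit 15178574451) (nat_lit 76) (nat_lit 27629617355) (nat_lit 152) (nat_lit 1040507721) (nat_lit 43) (nat_lit 5) (nat_lit 44) (nat_lit 5) (nat_lit 45) (nat_lit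 4) (nat_lit 409) (nat_lit 358) (nat_lit 253))) (XT.nd (nat_lit 78) (nat_lit 152) (nat_lit 0) (XT.lf (nat_lit 0) (nat_lit 9490489661) (nat_lit 152) (nat_lit 5031222361) (nat_lit 76) (nat_lit 30824914533) (nat_lit 42) (nat_lit 5) (nat_lit 44) (nat_lit 5) (nat_lit 43) (nat_lit 5) (nat_lit 410) (nat_lit 358) (nat_lit 252)) (XT.lf (nat_lit 0) (nat_lit 20412227934) (nat_lit 152) (nat_lit 411883190) (nat_lit 228) (nat_lit 26078935142) (nat_lit 40) (nat_lit 5) (nat_lit 42) (nat_lit 5) (nat_lit 43) (nat_lit 5) (nat_lit 411) (nat_lit 358) (nat_lit 251))))) (XT.nd (nat_lit 234) (nat_lit 304) (nat_lit 0) (XT.nd (nat_lit 78) (nat_lit 304) (nat_lit 0) (XT.lf (nat_lit 0) (nat_lit 33028306385) (nat_lit 228) (nat_lit 1470499827) (nat_lit 76) (nat_lit 14023287364) (nat_lit 40) (nat_lit 5) (nat_lit 43) (nat_lit 5) (nat_lit 41) (nat_lit 4) (nat_lit 412) (nat_lit 358) (nat_lit 250)) (XT.nd (nat_lit 78) (nat_lit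 228) (nat_lit 0) (XT.lf (nat_lit 0) (nat_lit 25600386318) (nat_lit 76) (nat_lit 20641544093) (nat_lit 152) (nat_lit 3960203079) (nat_lit 39) (nat_lit 5) (nat_lit 40) (nat_lit 5) (nat_lit 41) (nat_lit 4) (nat_lit 413) (nat_lit 358) (nat_lit 249)) (XT.lf (nat_lit 0) (nat_lit 2035332054) (nat_lit 152) (nat_lit 5903763699) (nat_lit 228) (nat_lit 44018224045) (nat_lit 36) (nat_lit 5) (nat_lit 38) (nat_lit 5) (nat_lit 39) (nat_lit 5) (nat_lit 414) (nat_lit 358) (nat_lit 248)))) (XT.nd (nat_lit 156) (nat_lit 228) (nat_lit 0) (XT.nd (nat_lit 78) (nat_lit 76) (nat_lit 0) (XT.lf (nat_lit 0) (nat_lit 20866022066) (nat_lit 228) (nat_lit 23155379678) (nat_lit 76) (nat_lit 9747331071) (nat_lit 36) (nat_lit 5) (nat_lit 39) (nat_lit 5) (nat_lit 37) (nat_lit 4) (nat_lit 415) (nat_lit 358) (nat_lit 247)) (XT.lf (nat_lit 0) (nat_lit 5000294030) (nat_lit 76) (nat_lit 29607042727) (nat_lit 152) (nat_lit 21054978602)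 (nat_lit 35) (nat_lit 5) (nat_lit 36) (nat_lit 5) (nat_lit 37) (nat_lit 4) (nat_lit 416) (nat_lit 358) (nat_lit 246))) (XT.nd (nat_lit 78) (nat_lit 228) (nat_lit 0) (XT.lf (nat_lit 0) (nat_lit 35355333509) (nat_lit 76) (nat_lit 14065853590) (nat_lit 152) (nat_lit 8210117367) (nat_lit 35) (nat_lit 5) (nat_lit 36) (nat_lit 5) (nat_lit 37) (nat_lit 4) (nat_lit 417) (nat_lit 358) (nat_lit 245)) (XT.lf (nat_lit 0) (nat_lit 5259942817) (nat_lit 228) (nat_lit 52046467581) (nat_lit 76) (nat_lit 2380621426) (nat_lit 32) (nat_lit 5) (nat_lit 35) (nat_lit 5) (nat_lit 33) (nat_lit 4) (nat_lit 418) (nat_lit 358) (nat_lit 244))))))) (XT.nd (nat_lit 1014) (nat_lit 608) (nat_lit 0) (XT.nd (nat_lit 468) (nat_lit 304) (nat_lit 0) (XT.nd (nat_lit 234) (nat_lit 228) (nat_lit 0) (XT.nd (nat_lit 78) (nat_lit 76) (nat_lit 0) (XT.lf (nat_lit 0) (nat_lit 19735193824) (nat_lit 228) (nat_lit 22383738462) (nat_lit 76)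 (nat_lit 19689504384) (nat_lit 32) (nat_lit 5) (nat_lit 35) (nat_lit 5) (nat_lit 33) (nat_lit 4) (nat_lit 419) (nat_lit 358) (nat_lit 243)) (XT.nd (nat_lit 78) (nat_lit 0) (nat_lit 0) (XT.lf (nat_lit 0) (nat_lit 9040047080) (nat_lit 76) (nat_lit 26029181711) (nat_lit 152) (nat_lit 28959932665) (nat_lit 31) (nat_lit 5) (nat_lit 32) (nat_lit 5) (nat_lit 33) (nat_lit 4) (nat_lit 420) (nat_lit 358) (nat_lit 242)) (XT.lf (nat_lit 0) (nat_lit 42800900923) (nat_lit 76) (nat_lit 8742140958) (nat_lit 152) (nat_lit 14799227513) (nat_lit 31) (nat_lit 5) (nat_lit 32) (nat_lit 5) (nat_lit 33) (nat_lit 4) (nat_lit 421) (nat_lit 358) (nat_lit 241)))) (XT.nd (nat_lit 78) (nat_lit 76) (nat_lit 0) (XT.lf (nat_lit 0) (nat_lit 363512952) (nat_lit 152) (nat_lit 59133179100) (nat_lit 76) (nat_lit 9259475828) (nat_lit 29) (nat_lit 5) (nat_lit 31) (nat_lit 5) (nat_lit 30) (nat_lit 4) (nat_lit 422) (nat_lit 358)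 (nat_lit 240)) (XT.nd (nat_lit 78) (nat_lit 76) (nat_lit 0) (XT.lf (nat_lit 0) (nat_lit 16329792966) (nat_lit 152) (nat_lit 26411343396) (nat_lit 76) (nat_lit 28510357365) (nat_lit 29) (nat_lit 5) (nat_lit 31) (nat_lit 5) (nat_lit 30) (nat_lit 4) (nat_lit 423) (nat_lit 358) (nat_lit 239)) (XT.lf (nat_lit 0) (nat_lit 8198586740) (nat_lit 76) (nat_lit 25018297965) (nat_lit 152) (nat_lit 40648576876) (nat_lit 28) (nat_lit 5) (nat_lit 29) (nat_lit 5) (nat_lit 30) (nat_lit 4) (nat_lit 424) (nat_lit 358) (nat_lit 238))))) (XT.nd (nat_lit 234) (nat_lit 152) (nat_lit 0) (XT.nd (nat_lit 78) (nat_lit 152) (nat_lit 0) (XT.lf (nat_lit 0) (nat_lit 45445720055) (nat_lit 76) (nat_lit 5944497012) (nat_lit 152) (nat_lit 25197817031) (nat_lit 28) (nat_lit 5) (nat_lit 29) (nat_lit 5) (nat_lit 30) (nat_lit 4) (nat_lit 425) (nat_lit 358) (nat_lit 237)) (XT.nd (nat_lit 78) (nat_lit 76) (nat_lit 0) (XT.lf (nat_lit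 0) (nat_lit 5039976420) (nat_lit 76) (nat_lit 65725585362) (nat_lit 76) (nat_lit 8666506717) (nat_lit 27) (nat_lit 4) (nat_lit 28) (nat_lit 5) (nat_lit 28) (nat_lit 4) (nat_lit 426) (nat_lit 358) (nat_lit 236)) (XT.lf (nat_lit 0) (nat_lit 9041491982) (nat_lit 152) (nat_lit 38531101845) (nat_lit 76) (nat_lit 34807511407) (nat_lit 26) (nat_lit 5) (nat_lit 28) (nat_lit 5) (nat_lit 27) (nat_lit 4) (nat_lit 427) (nat_lit 358) (nat_lit 235)))) (XT.nd (nat_lit 156) (nat_lit 76) (nat_lit 0) (XT.nd (nat_lit 78) (nat_lit 76) (nat_lit 0) (XT.lf (nat_lit 0) (nat_lit 27338681031) (nat_lit 152) (nat_lit 1028608830) (nat_lit 76) (nat_lit 57101398628) (nat_lit 26) (nat_lit 5) (nat_lit 28) (nat_lit 5) (nat_lit 27) (nat_lit 4) (nat_lit 428) (nat_lit 358) (nat_lit 234)) (XT.lf (nat_lit 0) (nat_lit 39607680192) (nat_lit 76) (nat_lit 7556714200) (nat_lit 152) (nat_lit 41516623720) (nat_lit 25) (nat_lit 5) (nat_lit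 26) (nat_lit 5) (nat_lit 27) (nat_lit 4) (nat_lit 429) (nat_lit 358) (nat_lit 233))) (XT.nd (nat_lit 78) (nat_lit 76) (nat_lit 0) (XT.lf (nat_lit 0) (nat_lit 68217572518) (nat_lit 152) (nat_lit 9974101901) (nat_lit 0) (nat_lit 13850481272) (nat_lit 25) (nat_lit 5) (nat_lit 27) (nat_lit 4) (nat_lit 25) (nat_lit 4) (nat_lit 430) (nat_lit 358) (nat_lit 232)) (XT.lf (nat_lit 0) (nat_lit 31970871225) (nat_lit 76) (nat_lit 58971095726) (nat_lit 76) (nat_lit 4598455732) (nat_lit 24) (nat_lit 4) (nat_lit 25) (nat_lit 5) (nat_lit 25) (nat_lit 4) (nat_lit 431) (nat_lit 358) (nat_lit 231)))))) (XT.nd (nat_lit 546) (nat_lit 228) (nat_lit 0) (XT.nd (nat_lit 234) (nat_lit 228) (nat_lit 0) (XT.nd (nat_lit 78) (nat_lit 76) (nat_lit 0) (XT.lf (nat_lit 0) (nat_lit 15257249229) (nat_lit 152) (nat_lit 23100563594) (nat_lit 76) (nat_lit 60835260400) (nat_lit 23) (nat_lit 5) (nat_lit 25) (nat_lit 5) (nat_lit 24)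 (nat_lit 4) (nat_lit 432) (nat_lit 358) (nat_lit 230)) (XT.nd (nat_lit 78) (nat_lit 0) (nat_lit 0) (XT.lf (nat_lit 0) (nat_lit 19946697627) (nat_lit 76) (nat_lit 16311670674) (nat_lit 152) (nat_lit 66750860757) (nat_lit 22) (nat_lit 5) (nat_lit 23) (nat_lit 5) (nat_lit 24) (nat_lit 4) (nat_lit 433) (nat_lit 358) (nat_lit 229)) (XT.lf (nat_lit 0) (nat_lit 58809676257) (nat_lit 152) (nat_lit 41169691581) (nat_lit 0) (nat_lit 7011818535) (nat_lit 22) (nat_lit 5) (nat_lit 24) (nat_lit 4) (nat_lit 22) (nat_lit 4) (nat_lit 434) (nat_lit 358) (nat_lit 228)))) (XT.nd (nat_lit 156) (nat_lit 152) (nat_lit 0) (XT.nd (nat_lit 78) (nat_lit 0) (nat_lit 0) (XT.lf (nat_lit 0) (nat_lit 2626619313) (nat_lit 76) (nat_lit 80166304578) (nat_lit 76) (nat_lit 28364099267) (nat_lit 21) (nat_lit 4) (nat_lit 22) (nat_lit 5) (nat_lit 22) (nat_lit 4) (nat_lit 435) (nat_lit 358) (nat_lit 227)) (XT.lf (nat_lit 0) (nat_lit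 50034356115) (nat_lit 76) (nat_lit 58634239381) (nat_lit 76) (nat_lit 6827893510) (nat_lit 21) (nat_lit 4) (nat_lit 22) (nat_lit 5) (nat_lit 22) (nat_lit 4) (nat_lit 436) (nat_lit 358) (nat_lit 226))) (XT.nd (nat_lit 78) (nat_lit 76) (nat_lit 0) (XT.lf (nat_lit 0) (nat_lit 15276059665) (nat_lit 152) (nat_lit 20494366947) (nat_lit 76) (nat_lit 84270371328) (nat_lit 20) (nat_lit 5) (nat_lit 22) (nat_lit 5) (nat_lit 21) (nat_lit 4) (nat_lit 437) (nat_lit 358) (nat_lit 225)) (XT.lf (nat_lit 0) (nat_lit 27482348486) (nat_lit 76) (nat_lit 11198819005) (nat_lit 152) (nat_lit 86104287509) (nat_lit 19) (nat_lit 5) (nat_lit 20) (nat_lit 5) (nat_lit 21) (nat_lit 4) (nat_lit 438) (nat_lit 358) (nat_lit 224))))) (XT.nd (nat_lit 234) (nat_lit 152) (nat_lit 0) (XT.nd (nat_lit 78) (nat_lit 76) (nat_lit 0) (XT.lf (nat_lit 0) (nat_lit 63833625131) (nat_lit 152) (nat_lit 51421356032) (nat_lit 0) (nat_lit 14483509279)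 (nat_lit 19) (nat_lit 5) (nat_lit 21) (nat_lit 4) (nat_lit 19) (nat_lit 4) (nat_lit 439) (nat_lit 358) (nat_lit 223)) (XT.nd (nat_lit 78) (nat_lit 76) (nat_lit 0) (XT.lf (nat_lit 0) (nat_lit 90423820698) (nat_lit 152) (nat_lit 3435890835) (nat_lit 0) (nat_lit 41070460608) (nat_lit 19) (nat_lit 5) (nat_lit 21) (nat_lit 4) (nat_lit 19) (nat_lit 4) (nat_lit 440) (nat_lit 358) (nat_lit 222)) (XT.lf (nat_lit 0) (nat_lit 48494512383) (nat_lit 76) (nat_lit 70602842093) (nat_lit 76) (nat_lit 21246392254) (nat_lit 18) (nat_lit 4) (nat_lit 19) (nat_lit 5) (nat_lit 19) (nat_lit 4) (nat_lit 441) (nat_lit 358) (nat_lit 221)))) (XT.nd (nat_lit 156) (nat_lit 0) (nat_lit 0) (XT.nd (nat_lit 78) (nat_lit 76) (nat_lit 0) (XT.lf (nat_lit 0) (nat_lit 3130735285) (nat_lit 152) (nat_lit 42941385123) (nat_lit 76) (nat_lit 99950608076) (nat_lit 17) (nat_lit 5) (nat_lit 19) (nat_lit 5) (nat_lit 18) (nat_lit 4) (nat_lit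 442) (nat_lit 358) (nat_lit 220)) (XT.lf (nat_lit 0) (nat_lit 8323809270) (nat_lit 76) (nat_lit 19815704984) (nat_lit 152) (nat_lit 123822389534) (nat_lit 16) (nat_lit 5) (nat_lit 17) (nat_lit 5) (nat_lit 18) (nat_lit 4) (nat_lit 443) (nat_lit 358) (nat_lit 219))) (XT.nd (nat_lit 78) (nat_lit 0) (nat_lit 0) (XT.lf (nat_lit 0) (nat_lit 55255805434) (nat_lit 152) (nat_lit 94657729699) (nat_lit 0) (nat_lit 8241649248) (nat_lit 16) (nat_lit 5) (nat_lit 18) (nat_lit 4) (nat_lit 16) (nat_lit 4) (nat_lit 444) (nat_lit 358) (nat_lit 218)) (XT.lf (nat_lit 0) (nat_lit 84049772052) (nat_lit 152) (nat_lit 43559069119) (nat_lit 0) (nat_lit 37033194966) (nat_lit 16) (nat_lit 5) (nat_lit 18) (nat_lit 4) (nat_lit 16) (nat_lit 4) (nat_lit 445) (nat_lit 358) (nat_lit 217))))))))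
noncomputable def xc143 : XT := (XT.nd (nat_lit 2106) (nat_lit 228) (nat_lit 0) (XT.nd (nat_lit 1014) (nat_lit 228) (nat_lit 0) (XT.nd (nat_lit 468) (nat_lit 228) (nat_lit 0) (XT.nd (nat_lit 234) (nat_lit 152) (nat_lit 0) (XT.nd (nat_lit 78) (nat_lit 0) (nat_lit 0) (XT.lf (nat_lit 0) (nat_lit 10422514954) (nat_lit 76) (nat_lit 104020802197) (nat_lit 76) (nat_lit 57001919492) (nat_lit 15) (nat_lit 4) (nat_lit 16) (nat_lit 5) (nat_lit 16) (nat_lit 4) (nat_lit 446) (nat_lit 358) (nat_lit 216)) (XT.nd (nat_lit 78) (nat_lit 0) (nat_lit 0) (XT.lf (nat_lit 0) (nat_lit 68609945891) (nat_lit 76) (nat_lit 78481492515) (nat_lit 76) (nat_lit 31460413982) (nat_lit 15) (nat_lit 4) (nat_lit 16) (nat_lit 5) (nat_lit 16) (nat_lit 4) (nat_lit 447) (nat_lit 358) (nat_lit 215)) (XT.lf (nat_lit 0) (nat_lit 129701505653) (nat_lit 76) (nat_lit 51667798158) (nat_lit 76) (nat_lit 4644628361) (nat_lit 15) (nat_lit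 4) (nat_lit 16) (nat_lit 5) (nat_lit 16) (nat_lit 4) (nat_lit 448) (nat_lit 358) (nat_lit 214)))) (XT.nd (nat_lit 78) (nat_lit 76) (nat_lit 0) (XT.lf (nat_lit 0) (nat_lit 22756840558) (nat_lit 152) (nat_lit 373638332) (nat_lit 76) (nat_lit 170700411667) (nat_lit 14) (nat_lit 5) (nat_lit 16) (nat_lit 5) (nat_lit 15) (nat_lit 4) (nat_lit 449) (nat_lit 358) (nat_lit 213)) (XT.nd (nat_lit 78) (nat_lit 0) (nat_lit 0) (XT.lf (nat_lit 0) (nat_lit 52433171189) (nat_lit 152) (nat_lit 141903178218) (nat_lit 0) (nat_lit 7645496602) (nat_lit 13) (nat_lit 5) (nat_lit 15) (nat_lit 4) (nat_lit 13) (nat_lit 4) (nat_lit 450) (nat_lit 358) (nat_lit 212)) (XT.lf (nat_lit 0) (nat_lit 83976489785) (nat_lit 152) (nat_lit 87357606293) (nat_lit 0) (nat_lit 39187094710) (nat_lit 13) (nat_lit 5) (nat_lit 15) (nat_lit 4) (nat_lit 13) (nat_lit 4) (nat_lit 451) (nat_lit 358) (nat_lit 211))))) (XT.nd (nat_lit 234) (nat_lit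 152) (nat_lit 0) (XT.nd (nat_lit 78) (nat_lit 76) (nat_lit 0) (XT.lf (nat_lit 0) (nat_lit 117094642669) (nat_lit 152) (nat_lit 30089367806) (nat_lit 0) (nat_lit 72303609033) (nat_lit 13) (nat_lit 5) (nat_lit 15) (nat_lit 4) (nat_lit 13) (nat_lit 4) (nat_lit 452) (nat_lit 358) (nat_lit 210)) (XT.nd (nat_lit 78) (nat_lit 0) (nat_lit 0) (XT.lf (nat_lit 0) (nat_lit 31031078496) (nat_lit 76) (nat_lit 121319886189) (nat_lit 76) (nat_lit 76527292020) (nat_lit 12) (nat_lit 4) (nat_lit 13) (nat_lit 5) (nat_lit 13) (nat_lit 4) (nat_lit 453) (nat_lit 358) (nat_lit 209)) (XT.lf (nat_lit 0) (nat_lit 96247860453) (nat_lit 76) (nat_lit 93629638013) (nat_lit 76) (nat_lit 48835557621) (nat_lit 12) (nat_lit 4) (nat_lit 13) (nat_lit 5) (nat_lit 13) (nat_lit 4) (nat_lit 454) (nat_lit 358) (nat_lit 208)))) (XT.nd (nat_lit 156) (nat_lit 76) (nat_lit 0) (XT.nd (nat_lit 78) (nat_lit 76) (nat_lit 0) (XT.lf (nat_lit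 0) (nat_lit 164721365730) (nat_lit 76) (nat_lit 64556914788) (nat_lit 76) (nat_lit 19761418946) (nat_lit 12) (nat_lit 4) (nat_lit 13) (nat_lit 5) (nat_lit 13) (nat_lit 4) (nat_lit 455) (nat_lit 358) (nat_lit 207)) (XT.lf (nat_lit 0) (nat_lit 10419821780) (nat_lit 152) (nat_lit 23436209240) (nat_lit 76) (nat_lit 226018339977) (nat_lit 11) (nat_lit 5) (nat_lit 13) (nat_lit 5) (nat_lit 12) (nat_lit 4) (nat_lit 456) (nat_lit 358) (nat_lit 206))) (XT.nd (nat_lit 78) (nat_lit 0) (nat_lit 0) (XT.lf (nat_lit 0) (nat_lit 41490213142) (nat_lit 76) (nat_lit 601660460) (nat_lit 152) (nat_lit 229110411594) (nat_lit 10) (nat_lit 5) (nat_lit 11) (nat_lit 5) (nat_lit 12) (nat_lit 4) (nat_lit 457) (nat_lit 358) (nat_lit 205)) (XT.lf (nat_lit 0) (nat_lit 76284786015) (nat_lit 152) (nat_lit 173146208322) (nat_lit 0) (nat_lit 33618737954) (nat_lit 10) (nat_lit 5) (nat_lit 12) (nat_lit 4) (nat_lit 10) (nat_lit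 4) (nat_lit 458) (nat_lit 358) (nat_lit 204)))))) (XT.nd (nat_lit 546) (nat_lit 152) (nat_lit 0) (XT.nd (nat_lit 234) (nat_lit 0) (nat_lit 0) (XT.nd (nat_lit 78) (nat_lit 76) (nat_lit 0) (XT.lf (nat_lit 0) (nat_lit 112195386218) (nat_lit 152) (nat_lit 113765534381) (nat_lit 0) (nat_lit 69528229115) (nat_lit 10) (nat_lit 5) (nat_lit 12) (nat_lit 4) (nat_lit 10) (nat_lit 4) (nat_lit 459) (nat_lit 358) (nat_lit 203)) (XT.nd (nat_lit 78) (nat_lit 76) (nat_lit 0) (XT.lf (nat_lit 0) (nat_lit 149899782035) (nat_lit 152) (nat_lit 51419274069) (nat_lit 0) (nat_lit 107231568701) (nat_lit 10) (nat_lit 5) (nat_lit 12) (nat_lit 4) (nat_lit 10) (nat_lit 4) (nat_lit 460) (nat_lit 358) (nat_lit 202)) (XT.lf (nat_lit 0) (nat_lit 14505275494) (nat_lit 76) (nat_lit 175208938344) (nat_lit 76) (nat_lit 132539719076) (nat_lit 9) (nat_lit 4) (nat_lit 10) (nat_lit 5) (nat_lit 10) (nat_lit 4) (nat_lit 461) (nat_lit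 358) (nat_lit 201)))) (XT.nd (nat_lit 156) (nat_lit 0) (nat_lit 0) (XT.nd (nat_lit 78) (nat_lit 0) (nat_lit 0) (XT.lf (nat_lit 0) (nat_lit 85507983411) (nat_lit 76) (nat_lit 146880570527) (nat_lit 76) (nat_lit 104210393227) (nat_lit 9) (nat_lit 4) (nat_lit 10) (nat_lit 5) (nat_lit 10) (nat_lit 4) (nat_lit 462) (nat_lit 358) (nat_lit 200)) (XT.lf (nat_lit 0) (nat_lit 160057750330) (nat_lit 76) (nat_lit 117137314444) (nat_lit 76) (nat_lit 74466224732) (nat_lit 9) (nat_lit 4) (nat_lit 10) (nat_lit 5) (nat_lit 10) (nat_lit 4) (nat_lit 463) (nat_lit 358) (nat_lit 199))) (XT.nd (nat_lit 78) (nat_lit 0) (nat_lit 0) (XT.lf (nat_lit 0) (nat_lit 238332075697) (nat_lit 76) (nat_lit 85908352820) (nat_lit 76) (nat_lit 43236394145) (nat_lit 9) (nat_lit 4) (nat_lit 10) (nat_lit 5) (nat_lit 10) (nat_lit 4) (nat_lit 464) (nat_lit 358) (nat_lit 198)) (XT.lf (nat_lit 0) (nat_lit 320517326953) (nat_lit 76) (nat_lit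 53119330984) (nat_lit 76) (nat_lit 10446544724) (nat_lit 9) (nat_lit 4) (nat_lit 10) (nat_lit 5) (nat_lit 10) (nat_lit 4) (nat_lit 465) (nat_lit 358) (nat_lit 197))))) (XT.nd (nat_lit 234) (nat_lit 0) (nat_lit 0) (XT.nd (nat_lit 78) (nat_lit 0) (nat_lit 0) (XT.lf (nat_lit 0) (nat_lit 5077303402) (nat_lit 76) (nat_lit 18215807737) (nat_lit 152) (nat_lit 378204172978) (nat_lit 7) (nat_lit 5) (nat_lit 8) (nat_lit 5) (nat_lit 9) (nat_lit 4) (nat_lit 466) (nat_lit 358) (nat_lit 196)) (XT.nd (nat_lit 78) (nat_lit 0) (nat_lit 0) (XT.lf (nat_lit 0) (nat_lit 59749277989) (nat_lit 152) (nat_lit 340848135311) (nat_lit 0) (nat_lit 19107063628) (nat_lit 7) (nat_lit 5) (nat_lit 9) (nat_lit 4) (nat_lit 7) (nat_lit 4) (nat_lit 467) (nat_lit 358) (nat_lit 195)) (XT.lf (nat_lit 0) (nat_lit 98325582299) (nat_lit 152) (nat_lit 282798893593) (nat_lit 0) (nat_lit 57682687083) (nat_lit 7) (nat_lit 5) (nat_lit 9)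 (nat_lit 4) (nat_lit 7) (nat_lit 4) (nat_lit 468) (nat_lit 358) (nat_lit 194)))) (XT.nd (nat_lit 156) (nat_lit 0) (nat_lit 0) (XT.nd (nat_lit 78) (nat_lit 0) (nat_lit 0) (XT.lf (nat_lit 0) (nat_lit 138829472605) (nat_lit 152) (nat_lit 221849643271) (nat_lit 0) (nat_lit 98185928955) (nat_lit 7) (nat_lit 5) (nat_lit 9) (nat_lit 4) (nat_lit 7) (nat_lit 4) (nat_lit 469) (nat_lit 358) (nat_lit 193)) (XT.lf (nat_lit 0) (nat_lit 181357386741) (nat_lit 152) (nat_lit 157855267084) (nat_lit 0) (nat_lit 140713225535) (nat_lit 7) (nat_lit 5) (nat_lit 9) (nat_lit 4) (nat_lit 7) (nat_lit 4) (nat_lit 470) (nat_lit 358) (nat_lit 192))) (XT.nd (nat_lit 78) (nat_lit 0) (nat_lit 0) (XT.lf (nat_lit 0) (nat_lit 226010581645) (nat_lit 152) (nat_lit 90663397470) (nat_lit 0) (nat_lit 185365832290) (nat_lit 7) (nat_lit 5) (nat_lit 9) (nat_lit 4) (nat_lit 7) (nat_lit 4) (nat_lit 471) (nat_lit 358) (nat_lit 191)) (XT.lf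 (nat_lit 0) (nat_lit 272895374449) (nat_lit 152) (nat_lit 20114053785) (nat_lit 0) (nat_lit 232250064952) (nat_lit 7) (nat_lit 5) (nat_lit 9) (nat_lit 4) (nat_lit 7) (nat_lit 4) (nat_lit 472) (nat_lit 358) (nat_lit 190))))))) (XT.nd (nat_lit 44616) (nat_lit 0) (nat_lit 7068) (XT.nd (nat_lit 546) (nat_lit 152) (nat_lit 0) (XT.nd (nat_lit 234) (nat_lit 0) (nat_lit 0) (XT.nd (nat_lit 78) (nat_lit 0) (nat_lit 0) (XT.lf (nat_lit 0) (nat_lit 55744924308) (nat_lit 76) (nat_lit 267248805796) (nat_lit 76) (nat_lit 226602962831) (nat_lit 6) (nat_lit 4) (nat_lit 7) (nat_lit 5) (nat_lit 7) (nat_lit 4) (nat_lit 473) (nat_lit 358) (nat_lit 189)) (XT.nd (nat_lit 78) (nat_lit 0) (nat_lit 0) (XT.lf (nat_lit 0) (nat_lit 136093179905) (nat_lit 76) (nat_lit 239843470739) (nat_lit 76) (nat_lit 199197119709) (nat_lit 6) (nat_lit 4) (nat_lit 7) (nat_lit 5) (nat_lit 7) (nat_lit 4) (nat_lit 474) (nat_lit 358) (nat_lit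 188)) (XT.lf (nat_lit 0) (nat_lit 220456956919) (nat_lit 76) (nat_lit 211068813499) (nat_lit 76) (nat_lit 170421978598) (nat_lit 6) (nat_lit 4) (nat_lit 7) (nat_lit 5) (nat_lit 7) (nat_lit 4) (nat_lit 475) (nat_lit 358) (nat_lit 187)))) (XT.nd (nat_lit 156) (nat_lit 0) (nat_lit 0) (XT.nd (nat_lit 78) (nat_lit 0) (nat_lit 0) (XT.lf (nat_lit 0) (nat_lit 309037121487) (nat_lit 76) (nat_lit 180856322989) (nat_lit 76) (nat_lit 140209027257) (nat_lit 6) (nat_lit 4) (nat_lit 7) (nat_lit 5) (nat_lit 7) (nat_lit 4) (nat_lit 476) (nat_lit 358) (nat_lit 186)) (XT.lf (nat_lit 0) (nat_lit 402044578762) (nat_lit 76) (nat_lit 149134064706) (nat_lit 76) (nat_lit 108486330088) (nat_lit 6) (nat_lit 4) (nat_lit 7) (nat_lit 5) (nat_lit 7) (nat_lit 4) (nat_lit 477) (nat_lit 358) (nat_lit 185))) (XT.nd (nat_lit 78) (nat_lit 0) (nat_lit 0) (XT.lf (nat_lit 0) (nat_lit 499700775070) (nat_lit 76) (nat_lit 115826509463)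 (nat_lit 76) (nat_lit 75178356860) (nat_lit 6) (nat_lit 4) (nat_lit 7) (nat_lit 5) (nat_lit 7) (nat_lit 4) (nat_lit 478) (nat_lit 358) (nat_lit 184)) (XT.lf (nat_lit 0) (nat_lit 602238225166) (nat_lit 76) (nat_lit 80854353560) (nat_lit 76) (nat_lit 40205802874) (nat_lit 6) (nat_lit 4) (nat_lit 7) (nat_lit 5) (nat_lit 7) (nat_lit 4) (nat_lit 479) (nat_lit 358) (nat_lit 183))))) (XT.nd (nat_lit 43758) (nat_lit 0) (nat_lit 9500) (XT.nd (nat_lit 78) (nat_lit 152) (nat_lit 0) (XT.lf (nat_lit 0) (nat_lit 709901065835) (nat_lit 76) (nat_lit 44134329956) (nat_lit 76) (nat_lit 3485400144) (nat_lit 6) (nat_lit 4) (nat_lit 7) (nat_lit 5) (nat_lit 7) (nat_lit 4) (nat_lit 480) (nat_lit 358) (nat_lit 182)) (XT.nd (nat_lit 43602) (nat_lit 0) (nat_lit 9500) (XT.lf (nat_lit 0) (nat_lit 29900735741) (nat_lit 76) (nat_lit 4513911392) (nat_lit 152) (nat_lit 758989000224) (nat_lit 4) (nat_lit 5) (nat_lit 5) (nat_lit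 5) (nat_lit 6) (nat_lit 4) (nat_lit 481) (nat_lit 358) (nat_lit 181)) (XT.lf (nat_lit 0) (nat_lit 1267497560) (nat_lit 0) (nat_lit 1267497560) (nat_lit 684) (nat_lit 2811468181) (nat_lit 129) (nat_lit 5) (nat_lit 129) (nat_lit 3) (nat_lit 138) (nat_lit 3) (nat_lit 359) (nat_lit 359) (nat_lit 302)))) (XT.nd (nat_lit 156) (nat_lit 0) (nat_lit 76) (XT.nd (nat_lit 78) (nat_lit 0) (nat_lit 0) (XT.lf (nat_lit 0) (nat_lit 5825287959) (nat_lit 684) (nat_lit 2983518078) (nat_lit 760) (nat_lit 2119669206) (nat_lit 129) (nat_lit 5) (nat_lit 138) (nat_lit 3) (nat_lit 139) (nat_lit 5) (nat_lit 360) (nat_lit 359) (nat_lit 301)) (XT.lf (nat_lit 76) (nat_lit 2465732777) (nat_lit 0) (nat_lit 4194922639) (nat_lit 760) (nat_lit 4513052874) (nat_lit 130) (nat_lit 5) (nat_lit 129) (nat_lit 5) (nat_lit 139) (nat_lit 5) (nat_lit 361) (nat_lit 359) (nat_lit 300))) (XT.nd (nat_lit 78) (nat_lit 0) (nat_lit 0) (XT.lf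 (nat_lit 0) (nat_lit 7563251694) (nat_lit 684) (nat_lit 3171597939) (nat_lit 760) (nat_lit 695101497) (nat_lit 130) (nat_lit 5) (nat_lit 139) (nat_lit 5) (nat_lit 140) (nat_lit 5) (nat_lit 362) (nat_lit 359) (nat_lit 299)) (XT.lf (nat_lit 76) (nat_lit 2635291996) (nat_lit 0) (nat_lit 5951277280) (nat_lit 760) (nat_lit 3108677415) (nat_lit 131) (nat_lit 5) (nat_lit 130) (nat_lit 5) (nat_lit 140) (nat_lit 5) (nat_lit 363) (nat_lit 359) (nat_lit 298)))))) (XT.nd (nat_lit 546) (nat_lit 1900) (nat_lit 0) (XT.nd (nat_lit 234) (nat_lit 608) (nat_lit 0) (XT.nd (nat_lit 78) (nat_lit 0) (nat_lit 76) (XT.lf (nat_lit 76) (nat_lit 8821107004) (nat_lit 0) (nat_lit 860634491) (nat_lit 760) (nat_lit 2291050293) (nat_lit 131) (nat_lit 5) (nat_lit 130) (nat_lit 5) (nat_lit 140) (nat_lit 5) (nat_lit 364) (nat_lit 359) (nat_lit 297)) (XT.nd (nat_lit 78) (nat_lit 0) (nat_lit 0) (XT.lf (nat_lit 76) (nat_lit 3057577302)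 (nat_lit 0) (nat_lit 7860568293) (nat_lit 760) (nat_lit 1341763162) (nat_lit 132) (nat_lit 5) (nat_lit 131) (nat_lit 5) (nat_lit 141) (nat_lit 5) (nat_lit 365) (nat_lit 359) (nat_lit 296)) (XT.lf (nat_lit 76) (nat_lit 9650239108) (nat_lit 0) (nat_lit 2603254477) (nat_lit 760) (nat_lit 306049215) (nat_lit 132) (nat_lit 5) (nat_lit 131) (nat_lit 5) (nat_lit 141) (nat_lit 5) (nat_lit 366) (nat_lit 359) (nat_lit 295)))) (XT.nd (nat_lit 156) (nat_lit 0) (nat_lit 76) (XT.nd (nat_lit 78) (nat_lit 0) (nat_lit 0) (XT.lf (nat_lit 0) (nat_lit 833181652) (nat_lit 760) (nat_lit 9133404220) (nat_lit 836) (nat_lit 2903141310) (nat_lit 122) (nat_lit 5) (nat_lit 132) (nat_lit 5) (nat_lit 133) (nat_lit 5) (nat_lit 367) (nat_lit 359) (nat_lit 294)) (XT.lf (nat_lit 0) (nat_lit 2083816654) (nat_lit 760) (nat_lit 2449240961) (nat_lit 836) (nat_lit 8658890954) (nat_lit 122) (nat_lit 5) (nat_lit 132) (nat_lit 5)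 (nat_lit 133) (nat_lit 5) (nat_lit 368) (nat_lit 359) (nat_lit 293))) (XT.nd (nat_lit 78) (nat_lit 0) (nat_lit 0) (XT.lf (nat_lit 0) (nat_lit 3463210758) (nat_lit 760) (nat_lit 8849980244) (nat_lit 76) (nat_lit 1213792980) (nat_lit 123) (nat_lit 5) (nat_lit 133) (nat_lit 5) (nat_lit 124) (nat_lit 5) (nat_lit 369) (nat_lit 359) (nat_lit 292)) (XT.lf (nat_lit 0) (nat_lit 5002353742) (nat_lit 760) (nat_lit 1730031991) (nat_lit 76) (nat_lit 7141860114) (nat_lit 123) (nat_lit 5) (nat_lit 133) (nat_lit 5) (nat_lit 124) (nat_lit 5) (nat_lit 370) (nat_lit 359) (nat_lit 291))))) (XT.nd (nat_lit 234) (nat_lit 836) (nat_lit 0) (XT.nd (nat_lit 78) (nat_lit 380) (nat_lit 0) (XT.lf (nat_lit 0) (nat_lit 5913334287) (nat_lit 760) (nat_lit 772974440) (nat_lit 836) (nat_lit 7549182327) (nat_lit 113) (nat_lit 5) (nat_lit 123) (nat_lit 5) (nat_lit 124) (nat_lit 5) (nat_lit 371) (nat_lit 359) (nat_lit 290)) (XT.nd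 (nat_lit 78) (nat_lit 380) (nat_lit 0) (XT.lf (nat_lit 0) (nat_lit 8546262003) (nat_lit 836) (nat_lit 723227758) (nat_lit 76) (nat_lit 5340731109) (nat_lit 113) (nat_lit 5) (nat_lit 124) (nat_lit 5) (nat_lit 114) (nat_lit 5) (nat_lit 372) (nat_lit 359) (nat_lit 289)) (XT.lf (nat_lit 0) (nat_lit 7460109330) (nat_lit 380) (nat_lit 3145766947) (nat_lit 456) (nat_lit 4392489515) (nat_lit 108) (nat_lit 5) (nat_lit 113) (nat_lit 5) (nat_lit 114) (nat_lit 5) (nat_lit 373) (nat_lit 359) (nat_lit 288)))) (XT.nd (nat_lit 156) (nat_lit 456) (nat_lit 0) (XT.nd (nat_lit 78) (nat_lit 0) (nat_lit 0) (XT.lf (nat_lit 0) (nat_lit 618338525) (nat_lit 380) (nat_lit 12201774115) (nat_lit 456) (nat_lit 2583234476) (nat_lit 103) (nat_lit 5) (nat_lit 108) (nat_lit 5) (nat_lit 109) (nat_lit 5) (nat_lit 374) (nat_lit 359) (nat_lit 287)) (XT.lf (nat_lit 0) (nat_lit 9369167328) (nat_lit 380) (nat_lit 5933250483) (nat_lit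 456) (nat_lit 518302533) (nat_lit 103) (nat_lit 5) (nat_lit 108) (nat_lit 5) (nat_lit 109) (nat_lit 5) (nat_lit 375) (nat_lit 359) (nat_lit 286))) (XT.nd (nat_lit 78) (nat_lit 0) (nat_lit 0) (XT.lf (nat_lit 0) (nat_lit 1624122511) (nat_lit 456) (nat_lit 13942430285) (nat_lit 76) (nat_lit 689778531) (nat_lit 97) (nat_lit 5) (nat_lit 103) (nat_lit 5) (nat_lit 98) (nat_lit 5) (nat_lit 376) (nat_lit 359) (nat_lit 285)) (XT.lf (nat_lit 0) (nat_lit 4044799850) (nat_lit 456) (nat_lit 5096491948) (nat_lit 76) (nat_lit 7562587987) (nat_lit 97) (nat_lit 5) (nat_lit 103) (nat_lit 5) (nat_lit 98) (nat_lit 5) (nat_lit 377) (nat_lit 359) (nat_lit 284))))))))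
noncomputable def xc144 : XT := (XT.nd (nat_lit 2106) (nat_lit 1748) (nat_lit 0) (XT.nd (nat_lit 1014) (nat_lit 1520) (nat_lit 0) (XT.nd (nat_lit 468) (nat_lit 988) (nat_lit 0) (XT.nd (nat_lit 234) (nat_lit 608) (nat_lit 0) (XT.nd (nat_lit 78) (nat_lit 304) (nat_lit 0) (XT.lf (nat_lit 0) (nat_lit 4308411829) (nat_lit 304) (nat_lit 2326538637) (nat_lit 380) (nat_lit 10536442021) (nat_lit 93) (nat_lit 5) (nat_lit 97) (nat_lit 5) (nat_lit 98) (nat_lit 5) (nat_lit 378) (nat_lit 359) (nat_lit 283)) (XT.nd (nat_lit 78) (nat_lit 304) (nat_lit 0) (XT.lf (nat_lit 0) (nat_lit 9499431026) (nat_lit 380) (nat_lit 3396039523) (nat_lit 76) (nat_lit 4759577530) (nat_lit 93) (nat_lit 5) (nat_lit 98) (nat_lit 5) (nat_lit 94) (nat_lit 5) (nat_lit 379) (nat_lit 359) (nat_lit 282)) (XT.lf (nat_lit 0) (nat_lit 6699815738) (nat_lit 304) (nat_lit 5932636500) (nat_lit 380) (nat_lit 5524176358) (nat_lit 89) (nat_lit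 5) (nat_lit 93) (nat_lit 5) (nat_lit 94) (nat_lit 5) (nat_lit 380) (nat_lit 359) (nat_lit 281)))) (XT.nd (nat_lit 78) (nat_lit 608) (nat_lit 0) (XT.lf (nat_lit 0) (nat_lit 15985131491) (nat_lit 380) (nat_lit 1305702028) (nat_lit 76) (nat_lit 1389311866) (nat_lit 89) (nat_lit 5) (nat_lit 94) (nat_lit 5) (nat_lit 90) (nat_lit 5) (nat_lit 381) (nat_lit 359) (nat_lit 280)) (XT.nd (nat_lit 78) (nat_lit 304) (nat_lit 0) (XT.lf (nat_lit 0) (nat_lit 500605227) (nat_lit 304) (nat_lit 9685524989) (nat_lit 76) (nat_lit 9031808555) (nat_lit 85) (nat_lit 5) (nat_lit 89) (nat_lit 5) (nat_lit 86) (nat_lit 5) (nat_lit 382) (nat_lit 359) (nat_lit 279)) (XT.lf (nat_lit 0) (nat_lit 1148058958) (nat_lit 304) (nat_lit 2641810158) (nat_lit 380) (nat_lit 15989328546) (nat_lit 81) (nat_lit 5) (nat_lit 85) (nat_lit 5) (nat_lit 86) (nat_lit 5) (nat_lit 383) (nat_lit 359) (nat_lit 278))))) (XT.nd (nat_lit 234) (nat_lit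 760) (nat_lit 0) (XT.nd (nat_lit 78) (nat_lit 228) (nat_lit 0) (XT.lf (nat_lit 0) (nat_lit 7477155943) (nat_lit 380) (nat_lit 7606632250) (nat_lit 76) (nat_lit 5273059567) (nat_lit 81) (nat_lit 5) (nat_lit 86) (nat_lit 5) (nat_lit 82) (nat_lit 5) (nat_lit 384) (nat_lit 359) (nat_lit 277)) (XT.nd (nat_lit 78) (nat_lit 0) (nat_lit 0) (XT.lf (nat_lit 0) (nat_lit 4035155092) (nat_lit 228) (nat_lit 7405113197) (nat_lit 304) (nat_lit 9518544968) (nat_lit 78) (nat_lit 5) (nat_lit 81) (nat_lit 5) (nat_lit 82) (nat_lit 5) (nat_lit 385) (nat_lit 359) (nat_lit 276)) (XT.lf (nat_lit 0) (nat_lit 15728212824) (nat_lit 304) (nat_lit 5093812772) (nat_lit 76) (nat_lit 762523270) (nat_lit 78) (nat_lit 5) (nat_lit 82) (nat_lit 5) (nat_lit 79) (nat_lit 5) (nat_lit 386) (nat_lit 359) (nat_lit 275)))) (XT.nd (nat_lit 156) (nat_lit 456) (nat_lit 0) (XT.nd (nat_lit 78) (nat_lit 76) (nat_lit 0) (XT.lf (nat_lit 0)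 (nat_lit 7424604682) (nat_lit 228) (nat_lit 13029433031) (nat_lit 304) (nat_lit 1776364787) (nat_lit 75) (nat_lit 5) (nat_lit 78) (nat_lit 5) (nat_lit 79) (nat_lit 5) (nat_lit 387) (nat_lit 359) (nat_lit 274)) (XT.lf (nat_lit 0) (nat_lit 2501333920) (nat_lit 304) (nat_lit 2218319008) (nat_lit 76) (nat_lit 18183243850) (nat_lit 74) (nat_lit 5) (nat_lit 78) (nat_lit 5) (nat_lit 75) (nat_lit 5) (nat_lit 388) (nat_lit 359) (nat_lit 273))) (XT.nd (nat_lit 78) (nat_lit 228) (nat_lit 0) (XT.lf (nat_lit 0) (nat_lit 7162637406) (nat_lit 304) (nat_lit 12352097808) (nat_lit 76) (nat_lit 4081358317) (nat_lit 71) (nat_lit 5) (nat_lit 75) (nat_lit 5) (nat_lit 72) (nat_lit 5) (nat_lit 389) (nat_lit 359) (nat_lit 272)) (XT.lf (nat_lit 0) (nat_lit 1072047833) (nat_lit 228) (nat_lit 11104465367) (nat_lit 304) (nat_lit 12141466005) (nat_lit 68) (nat_lit 5) (nat_lit 71) (nat_lit 5) (nat_lit 72) (nat_lit 5) (nat_lit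 390) (nat_lit 359) (nat_lit 271)))))) (XT.nd (nat_lit 546) (nat_lit 760) (nat_lit 0) (XT.nd (nat_lit 234) (nat_lit 532) (nat_lit 0) (XT.nd (nat_lit 78) (nat_lit 228) (nat_lit 0) (XT.lf (nat_lit 0) (nat_lit 15577891782) (nat_lit 228) (nat_lit 2059916109) (nat_lit 304) (nat_lit 7428319245) (nat_lit 68) (nat_lit 5) (nat_lit 71) (nat_lit 5) (nat_lit 72) (nat_lit 5) (nat_lit 391) (nat_lit 359) (nat_lit 270)) (XT.nd (nat_lit 78) (nat_lit 76) (nat_lit 0) (XT.lf (nat_lit 0) (nat_lit 4982731374) (nat_lit 152) (nat_lit 18571382975) (nat_lit 228) (nat_lit 2288474793) (nat_lit 66) (nat_lit 5) (nat_lit 68) (nat_lit 5) (nat_lit 69) (nat_lit 5) (nat_lit 392) (nat_lit 359) (nat_lit 269)) (XT.lf (nat_lit 0) (nat_lit 3194106735) (nat_lit 228) (nat_lit 6246205005) (nat_lit 76) (nat_lit 17205878058) (nat_lit 65) (nat_lit 5) (nat_lit 68) (nat_lit 5) (nat_lit 66) (nat_lit 5) (nat_lit 393) (nat_lit 359) (nat_lit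 268)))) (XT.nd (nat_lit 156) (nat_lit 304) (nat_lit 0) (XT.nd (nat_lit 78) (nat_lit 0) (nat_lit 0) (XT.lf (nat_lit 0) (nat_lit 9013689580) (nat_lit 304) (nat_lit 18144180500) (nat_lit 76) (nat_lit 323239086) (nat_lit 62) (nat_lit 5) (nat_lit 66) (nat_lit 5) (nat_lit 63) (nat_lit 5) (nat_lit 394) (nat_lit 359) (nat_lit 267)) (XT.lf (nat_lit 0) (nat_lit 15375413470) (nat_lit 304) (nat_lit 2610316333) (nat_lit 76) (nat_lit 10359489920) (nat_lit 62) (nat_lit 5) (nat_lit 66) (nat_lit 5) (nat_lit 63) (nat_lit 5) (nat_lit 395) (nat_lit 359) (nat_lit 266))) (XT.nd (nat_lit 78) (nat_lit 152) (nat_lit 0) (XT.lf (nat_lit 0) (nat_lit 14136102939) (nat_lit 152) (nat_lit 8129240083) (nat_lit 228) (nat_lit 6976689968) (nat_lit 60) (nat_lit 5) (nat_lit 62) (nat_lit 5) (nat_lit 63) (nat_lit 5) (nat_lit 396) (nat_lit 359) (nat_lit 265)) (XT.lf (nat_lit 0) (nat_lit 1629002190) (nat_lit 152) (nat_lit 27965364668)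 (nat_lit 228) (nat_lit 584593179) (nat_lit 58) (nat_lit 5) (nat_lit 60) (nat_lit 5) (nat_lit 61) (nat_lit 5) (nat_lit 397) (nat_lit 359) (nat_lit 264))))) (XT.nd (nat_lit 234) (nat_lit 532) (nat_lit 0) (XT.nd (nat_lit 78) (nat_lit 152) (nat_lit 0) (XT.lf (nat_lit 0) (nat_lit 6313929959) (nat_lit 228) (nat_lit 11674754632) (nat_lit 76) (nat_lit 13150122142) (nat_lit 57) (nat_lit 5) (nat_lit 60) (nat_lit 5) (nat_lit 58) (nat_lit 5) (nat_lit 398) (nat_lit 359) (nat_lit 263)) (XT.nd (nat_lit 78) (nat_lit 0) (nat_lit 0) (XT.lf (nat_lit 0) (nat_lit 6217612541) (nat_lit 152) (nat_lit 7407329103) (nat_lit 228) (nat_lit 18516867114) (nat_lit 55) (nat_lit 5) (nat_lit 57) (nat_lit 5) (nat_lit 58) (nat_lit 5) (nat_lit 399) (nat_lit 359) (nat_lit 262)) (XT.lf (nat_lit 0) (nat_lit 21550541002) (nat_lit 228) (nat_lit 7852358697) (nat_lit 76) (nat_lit 3779611804) (nat_lit 55) (nat_lit 5) (nat_lit 58) (nat_lit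 5) (nat_lit 56) (nat_lit 5) (nat_lit 400) (nat_lit 359) (nat_lit 261)))) (XT.nd (nat_lit 156) (nat_lit 304) (nat_lit 0) (XT.nd (nat_lit 78) (nat_lit 76) (nat_lit 0) (XT.lf (nat_lit 0) (nat_lit 11349517431) (nat_lit 152) (nat_lit 18812258504) (nat_lit 228) (nat_lit 4099008026) (nat_lit 53) (nat_lit 5) (nat_lit 55) (nat_lit 5) (nat_lit 56) (nat_lit 5) (nat_lit 401) (nat_lit 359) (nat_lit 260)) (XT.lf (nat_lit 0) (nat_lit 3814583822) (nat_lit 228) (nat_lit 3679327608) (nat_lit 76) (nat_lit 27889788822) (nat_lit 52) (nat_lit 5) (nat_lit 55) (nat_lit 5) (nat_lit 53) (nat_lit 5) (nat_lit 402) (nat_lit 359) (nat_lit 259))) (XT.nd (nat_lit 78) (nat_lit 152) (nat_lit 0) (XT.lf (nat_lit 0) (nat_lit 12316258503) (nat_lit 228) (nat_lit 19644854613) (nat_lit 76) (nat_lit 4581783594) (nat_lit 50) (nat_lit 5) (nat_lit 53) (nat_lit 5) (nat_lit 51) (nat_lit 5) (nat_lit 403) (nat_lit 359) (nat_lit 258)) (XT.lf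 (nat_lit 0) (nat_lit 760753710) (nat_lit 152) (nat_lit 20671644733) (nat_lit 228) (nat_lit 16318187411) (nat_lit 48) (nat_lit 5) (nat_lit 50) (nat_lit 5) (nat_lit 51) (nat_lit 5) (nat_lit 404) (nat_lit 359) (nat_lit 257))))))) (XT.nd (nat_lit 1014) (nat_lit 760) (nat_lit 0) (XT.nd (nat_lit 468) (nat_lit 608) (nat_lit 0) (XT.nd (nat_lit 234) (nat_lit 228) (nat_lit 0) (XT.nd (nat_lit 78) (nat_lit 152) (nat_lit 0) (XT.lf (nat_lit 0) (nat_lit 22854102748) (nat_lit 152) (nat_lit 8474444005) (nat_lit 228) (nat_lit 7673904477) (nat_lit 48) (nat_lit 5) (nat_lit 50) (nat_lit 5) (nat_lit 51) (nat_lit 5) (nat_lit 405) (nat_lit 359) (nat_lit 256)) (XT.nd (nat_lit 78) (nat_lit 0) (nat_lit 0) (XT.lf (nat_lit 0) (nat_lit 1510817073) (nat_lit 152) (nat_lit 34493443048) (nat_lit 76) (nat_lit 4303900697) (nat_lit 46) (nat_lit 5) (nat_lit 48) (nat_lit 5) (nat_lit 47) (nat_lit 5) (nat_lit 406) (nat_lit 359)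 (nat_lit 255)) (XT.lf (nat_lit 0) (nat_lit 11305629002) (nat_lit 152) (nat_lit 12512349688) (nat_lit 76) (nat_lit 17834451317) (nat_lit 46) (nat_lit 5) (nat_lit 48) (nat_lit 5) (nat_lit 47) (nat_lit 5) (nat_lit 407) (nat_lit 359) (nat_lit 254)))) (XT.nd (nat_lit 78) (nat_lit 76) (nat_lit 0) (XT.lf (nat_lit 0) (nat_lit 10903217946) (nat_lit 152) (nat_lit 10849440153) (nat_lit 228) (nat_lit 21303132243) (nat_lit 44) (nat_lit 5) (nat_lit 46) (nat_lit 5) (nat_lit 47) (nat_lit 5) (nat_lit 408) (nat_lit 359) (nat_lit 253)) (XT.nd (nat_lit 78) (nat_lit 76) (nat_lit 0) (XT.lf (nat_lit 0) (nat_lit 32972942182) (nat_lit 228) (nat_lit 8655066026) (nat_lit 76) (nat_lit 2888766756) (nat_lit 44) (nat_lit 5) (nat_lit 47) (nat_lit 5) (nat_lit 45) (nat_lit 4) (nat_lit 409) (nat_lit 359) (nat_lit 252)) (XT.lf (nat_lit 0) (nat_lit 16349775367) (nat_lit 76) (nat_lit 28830274581) (nat_lit 152) (nat_lit 849469772)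 (nat_lit 43) (nat_lit 5) (nat_lit 44) (nat_lit 5) (nat_lit 45) (nat_lit 4) (nat_lit 410) (nat_lit 359) (nat_lit 251))))) (XT.nd (nat_lit 234) (nat_lit 380) (nat_lit 0) (XT.nd (nat_lit 78) (nat_lit 152) (nat_lit 0) (XT.lf (nat_lit 0) (nat_lit 10189093944) (nat_lit 152) (nat_lit 4882695787) (nat_lit 76) (nat_lit 32530925745) (nat_lit 42) (nat_lit 5) (nat_lit 44) (nat_lit 5) (nat_lit 43) (nat_lit 5) (nat_lit 411) (nat_lit 359) (nat_lit 250)) (XT.nd (nat_lit 78) (nat_lit 0) (nat_lit 0) (XT.lf (nat_lit 0) (nat_lit 21826473996) (nat_lit 152) (nat_lit 258397759) (nat_lit 228) (nat_lit 27152312484) (nat_lit 40) (nat_lit 5) (nat_lit 42) (nat_lit 5) (nat_lit 43) (nat_lit 5) (nat_lit 412) (nat_lit 359) (nat_lit 249)) (XT.lf (nat_lit 0) (nat_lit 34891410222) (nat_lit 228) (nat_lit 1161233262) (nat_lit 76) (nat_lit 14884935500) (nat_lit 40) (nat_lit 5) (nat_lit 43) (nat_lit 5) (nat_lit 41) (nat_lit 4)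 (nat_lit 413) (nat_lit 359) (nat_lit 248)))) (XT.nd (nat_lit 156) (nat_lit 76) (nat_lit 0) (XT.nd (nat_lit 78) (nat_lit 228) (nat_lit 0) (XT.lf (nat_lit 0) (nat_lit 27257023134) (nat_lit 76) (nat_lit 21504491965) (nat_lit 152) (nat_lit 3940317472) (nat_lit 39) (nat_lit 5) (nat_lit 40) (nat_lit 5) (nat_lit 41) (nat_lit 4) (nat_lit 414) (nat_lit 359) (nat_lit 247)) (XT.lf (nat_lit 0) (nat_lit 2514534318) (nat_lit 152) (nat_lit 6028286896) (nat_lit 228) (nat_lit 46001995941) (nat_lit 36) (nat_lit 5) (nat_lit 38) (nat_lit 5) (nat_lit 39) (nat_lit 5) (nat_lit 415) (nat_lit 359) (nat_lit 246))) (XT.nd (nat_lit 78) (nat_lit 76) (nat_lit 0) (XT.lf (nat_lit 0) (nat_lit 22108785294) (nat_lit 228) (nat_lit 23946348913) (nat_lit 76) (nat_lit 10392033475) (nat_lit 36) (nat_lit 5) (nat_lit 39) (nat_lit 5) (nat_lit 37) (nat_lit 4) (nat_lit 416) (nat_lit 359) (nat_lit 245)) (XT.lf (nat_lit 0) (nat_lit 5611192355)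 (nat_lit 76) (nat_lit 30922109573) (nat_lit 152) (nat_lit 21902321980) (nat_lit 35) (nat_lit 5) (nat_lit 36) (nat_lit 5) (nat_lit 37) (nat_lit 4) (nat_lit 417) (nat_lit 359) (nat_lit 244)))))) (XT.nd (nat_lit 546) (nat_lit 304) (nat_lit 0) (XT.nd (nat_lit 234) (nat_lit 228) (nat_lit 0) (XT.nd (nat_lit 78) (nat_lit 228) (nat_lit 0) (XT.lf (nat_lit 0) (nat_lit 37466798873) (nat_lit 76) (nat_lit 14611731707) (nat_lit 152) (nat_lit 8424998900) (nat_lit 35) (nat_lit 5) (nat_lit 36) (nat_lit 5) (nat_lit 37) (nat_lit 4) (nat_lit 418) (nat_lit 359) (nat_lit 243)) (XT.nd (nat_lit 78) (nat_lit 0) (nat_lit 0) (XT.lf (nat_lit 0) (nat_lit 5711138376) (nat_lit 228) (nat_lit 54297618007) (nat_lit 76) (nat_lit 2653193526) (nat_lit 32) (nat_lit 5) (nat_lit 35) (nat_lit 5) (nat_lit 33) (nat_lit 4) (nat_lit 419) (nat_lit 359) (nat_lit 242)) (XT.lf (nat_lit 0) (nat_lit 20901190105) (nat_lit 228) (nat_lit 23168474954)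 (nat_lit 76) (nat_lit 20820209155) (nat_lit 32) (nat_lit 5) (nat_lit 35) (nat_lit 5) (nat_lit 33) (nat_lit 4) (nat_lit 420) (nat_lit 359) (nat_lit 241)))) (XT.nd (nat_lit 156) (nat_lit 152) (nat_lit 0) (XT.nd (nat_lit 78) (nat_lit 0) (nat_lit 0) (XT.lf (nat_lit 0) (nat_lit 9821105504) (nat_lit 76) (nat_lit 27177423728) (nat_lit 152) (nat_lit 30223276955) (nat_lit 31) (nat_lit 5) (nat_lit 32) (nat_lit 5) (nat_lit 33) (nat_lit 4) (nat_lit 421) (nat_lit 359) (nat_lit 240)) (XT.lf (nat_lit 0) (nat_lit 45254332703) (nat_lit 76) (nat_lit 9033326988) (nat_lit 152) (nat_lit 15363329514) (nat_lit 31) (nat_lit 5) (nat_lit 32) (nat_lit 5) (nat_lit 33) (nat_lit 4) (nat_lit 422) (nat_lit 359) (nat_lit 239))) (XT.nd (nat_lit 78) (nat_lit 0) (nat_lit 0) (XT.lf (nat_lit 0) (nat_lit 551006791) (nat_lit 152) (nat_lit 61769872256) (nat_lit 76) (nat_lit 9864612838) (nat_lit 29) (nat_lit 5) (nat_lit 31) (nat_lit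 5) (nat_lit 30) (nat_lit 4) (nat_lit 423) (nat_lit 359) (nat_lit 238)) (XT.lf (nat_lit 0) (nat_lit 17307538035) (nat_lit 152) (nat_lit 27427181234) (nat_lit 76) (nat_lit 30071268775) (nat_lit 29) (nat_lit 5) (nat_lit 31) (nat_lit 5) (nat_lit 30) (nat_lit 4) (nat_lit 424) (nat_lit 359) (nat_lit 237))))) (XT.nd (nat_lit 234) (nat_lit 152) (nat_lit 0) (XT.nd (nat_lit 78) (nat_lit 76) (nat_lit 0) (XT.lf (nat_lit 0) (nat_lit 8908330420) (nat_lit 76) (nat_lit 26127656053) (nat_lit 152) (nat_lit 42514818549) (nat_lit 28) (nat_lit 5) (nat_lit 29) (nat_lit 5) (nat_lit 30) (nat_lit 4) (nat_lit 425) (nat_lit 359) (nat_lit 236)) (XT.nd (nat_lit 78) (nat_lit 76) (nat_lit 0) (XT.lf (nat_lit 0) (nat_lit 48003543527) (nat_lit 76) (nat_lit 6106905853) (nat_lit 152) (nat_lit 26299434387) (nat_lit 28) (nat_lit 5) (nat_lit 29) (nat_lit 5) (nat_lit 30) (nat_lit 4) (nat_lit 426) (nat_lit 359) (nat_lit 235)) (XT.lf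 (nat_lit 0) (nat_lit 5578266589) (nat_lit 76) (nat_lit 68875591964) (nat_lit 76) (nat_lit 8942297233) (nat_lit 27) (nat_lit 4) (nat_lit 28) (nat_lit 5) (nat_lit 28) (nat_lit 4) (nat_lit 427) (nat_lit 359) (nat_lit 234)))) (XT.nd (nat_lit 156) (nat_lit 76) (nat_lit 0) (XT.nd (nat_lit 78) (nat_lit 0) (nat_lit 0) (XT.lf (nat_lit 0) (nat_lit 9638797744) (nat_lit 152) (nat_lit 40180182722) (nat_lit 76) (nat_lit 36672854682) (nat_lit 26) (nat_lit 5) (nat_lit 28) (nat_lit 5) (nat_lit 27) (nat_lit 4) (nat_lit 428) (nat_lit 359) (nat_lit 233)) (XT.lf (nat_lit 0) (nat_lit 28843930476) (nat_lit 152) (nat_lit 815778115) (nat_lit 76) (nat_lit 60075485421) (nat_lit 26) (nat_lit 5) (nat_lit 28) (nat_lit 5) (nat_lit 27) (nat_lit 4) (nat_lit 429) (nat_lit 359) (nat_lit 232))) (XT.nd (nat_lit 78) (nat_lit 0) (nat_lit 0) (XT.lf (nat_lit 0) (nat_lit 41848063082) (nat_lit 76) (nat_lit 7810339287) (nat_lit 152)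 (nat_lit 43449864729) (nat_lit 25) (nat_lit 5) (nat_lit 26) (nat_lit 5) (nat_lit 27) (nat_lit 4) (nat_lit 430) (nat_lit 359) (nat_lit 231)) (XT.lf (nat_lit 0) (nat_lit 71759620223) (nat_lit 152) (nat_lit 10220557925) (nat_lit 0) (nat_lit 14657514962) (nat_lit 25) (nat_lit 5) (nat_lit 27) (nat_lit 4) (nat_lit 25) (nat_lit 4) (nat_lit 431) (nat_lit 359) (nat_lit 230))))))))
noncomputable def xc145 : XT := (XT.nd (nat_lit 2106) (nat_lit 304) (nat_lit 0) (XT.nd (nat_lit 1014) (nat_lit 456) (nat_lit 0) (XT.nd (nat_lit 468) (nat_lit 380) (nat_lit 0) (XT.nd (nat_lit 234) (nat_lit 76) (nat_lit 0) (XT.nd (nat_lit 78) (nat_lit 152) (nat_lit 0) (XT.lf (nat_lit 0) (nat_lit 33817595324) (nat_lit 76) (nat_lit 61800267700) (nat_lit 76) (nat_lit 4693129562) (nat_lit 24) (nat_lit 4) (nat_lit 25) (nat_lit 5) (nat_lit 25) (nat_lit 4) (nat_lit 432) (nat_lit 359) (nat_lit 229)) (XT.nd (nat_lit 78) (nat_lit 76)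 (nat_lit 0) (XT.lf (nat_lit 0) (nat_lit 16144797543) (nat_lit 152) (nat_lit 24015096390) (nat_lit 76) (nat_lit 63986588368) (nat_lit 23) (nat_lit 5) (nat_lit 25) (nat_lit 5) (nat_lit 24) (nat_lit 4) (nat_lit 433) (nat_lit 359) (nat_lit 228)) (XT.lf (nat_lit 0) (nat_lit 21180648934) (nat_lit 76) (nat_lit 17013080459) (nat_lit 152) (nat_lit 69959829184) (nat_lit 22) (nat_lit 5) (nat_lit 23) (nat_lit 5) (nat_lit 24) (nat_lit 4) (nat_lit 434) (nat_lit 359) (nat_lit 227)))) (XT.nd (nat_lit 78) (nat_lit 76) (nat_lit 0) (XT.lf (nat_lit 0) (nat_lit 61868469831) (nat_lit 152) (nat_lit 42998684934) (nat_lit 0) (nat_lit 7467666105) (nat_lit 22) (nat_lit 5) (nat_lit 24) (nat_lit 4) (nat_lit 22) (nat_lit 4) (nat_lit 435) (nat_lit 359) (nat_lit 226)) (XT.nd (nat_lit 78) (nat_lit 0) (nat_lit 0) (XT.lf (nat_lit 0) (nat_lit 2983740034) (nat_lit 76) (nat_lit 84065031225) (nat_lit 76) (nat_lit 29660284109)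 (nat_lit 21) (nat_lit 4) (nat_lit 22) (nat_lit 5) (nat_lit 22) (nat_lit 4) (nat_lit 436) (nat_lit 359) (nat_lit 225)) (XT.lf (nat_lit 0) (nat_lit 52751111782) (nat_lit 76) (nat_lit 61461581273) (nat_lit 76) (nat_lit 7053078546) (nat_lit 21) (nat_lit 4) (nat_lit 22) (nat_lit 5) (nat_lit 22) (nat_lit 4) (nat_lit 437) (nat_lit 359) (nat_lit 224))))) (XT.nd (nat_lit 234) (nat_lit 228) (nat_lit 0) (XT.nd (nat_lit 78) (nat_lit 76) (nat_lit 0) (XT.lf (nat_lit 0) (nat_lit 16146996177) (nat_lit 152) (nat_lit 21310737334) (nat_lit 76) (nat_lit 88579739972) (nat_lit 20) (nat_lit 5) (nat_lit 22) (nat_lit 5) (nat_lit 21) (nat_lit 4) (nat_lit 438) (nat_lit 359) (nat_lit 223)) (XT.nd (nat_lit 78) (nat_lit 0) (nat_lit 0) (XT.lf (nat_lit 0) (nat_lit 29061453420) (nat_lit 76) (nat_lit 11659004808) (nat_lit 152) (nat_lit 90299000592) (nat_lit 19) (nat_lit 5) (nat_lit 20) (nat_lit 5) (nat_lit 21) (nat_lit 4)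 (nat_lit 439) (nat_lit 359) (nat_lit 222)) (XT.lf (nat_lit 0) (nat_lit 67127010977) (nat_lit 152) (nat_lit 53793662897) (nat_lit 0) (nat_lit 15299648896) (nat_lit 19) (nat_lit 5) (nat_lit 21) (nat_lit 4) (nat_lit 19) (nat_lit 4) (nat_lit 440) (nat_lit 359) (nat_lit 221)))) (XT.nd (nat_lit 156) (nat_lit 152) (nat_lit 0) (XT.nd (nat_lit 78) (nat_lit 76) (nat_lit 0) (XT.lf (nat_lit 0) (nat_lit 95041873247) (nat_lit 152) (nat_lit 3418389247) (nat_lit 0) (nat_lit 43211568546) (nat_lit 19) (nat_lit 5) (nat_lit 21) (nat_lit 4) (nat_lit 19) (nat_lit 4) (nat_lit 441) (nat_lit 359) (nat_lit 220)) (XT.lf (nat_lit 0) (nat_lit 51105480968) (nat_lit 76) (nat_lit 74041898067) (nat_lit 76) (nat_lit 22208790872) (nat_lit 18) (nat_lit 4) (nat_lit 19) (nat_lit 5) (nat_lit 19) (nat_lit 4) (nat_lit 442) (nat_lit 359) (nat_lit 219))) (XT.nd (nat_lit 78) (nat_lit 76) (nat_lit 0) (XT.lf (nat_lit 0) (nat_lit 3379389095)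 (nat_lit 152) (nat_lit 44908028590) (nat_lit 76) (nat_lit 105031835641) (nat_lit 17) (nat_lit 5) (nat_lit 19) (nat_lit 5) (nat_lit 18) (nat_lit 4) (nat_lit 443) (nat_lit 359) (nat_lit 218)) (XT.lf (nat_lit 0) (nat_lit 8917515429) (nat_lit 76) (nat_lit 20719476576) (nat_lit 152) (nat_lit 129918476414) (nat_lit 16) (nat_lit 5) (nat_lit 17) (nat_lit 5) (nat_lit 18) (nat_lit 4) (nat_lit 444) (nat_lit 359) (nat_lit 217)))))) (XT.nd (nat_lit 546) (nat_lit 228) (nat_lit 0) (XT.nd (nat_lit 234) (nat_lit 152) (nat_lit 0) (XT.nd (nat_lit 78) (nat_lit 76) (nat_lit 0) (XT.lf (nat_lit 0) (nat_lit 58106081958) (nat_lit 152) (nat_lit 99218532634) (nat_lit 0) (nat_lit 8733949499) (nat_lit 16) (nat_lit 5) (nat_lit 18) (nat_lit 4) (nat_lit 16) (nat_lit 4) (nat_lit 445) (nat_lit 359) (nat_lit 216)) (XT.nd (nat_lit 78) (nat_lit 76) (nat_lit 0) (XT.lf (nat_lit 0) (nat_lit 88335580895) (nat_lit 152) (nat_lit 45573133480)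 (nat_lit 0) (nat_lit 38961252608) (nat_lit 16) (nat_lit 5) (nat_lit 18) (nat_lit 4) (nat_lit 16) (nat_lit 4) (nat_lit 446) (nat_lit 359) (nat_lit 215)) (XT.lf (nat_lit 0) (nat_lit 11104886424) (nat_lit 76) (nat_lit 109142466692) (nat_lit 76) (nat_lit 59766047140) (nat_lit 15) (nat_lit 4) (nat_lit 16) (nat_lit 5) (nat_lit 16) (nat_lit 4) (nat_lit 447) (nat_lit 359) (nat_lit 214)))) (XT.nd (nat_lit 156) (nat_lit 152) (nat_lit 0) (XT.nd (nat_lit 78) (nat_lit 0) (nat_lit 0) (XT.lf (nat_lit 0) (nat_lit 72194010541) (nat_lit 76) (nat_lit 82329971317) (nat_lit 76) (nat_lit 32951560085) (nat_lit 15) (nat_lit 4) (nat_lit 16) (nat_lit 5) (nat_lit 16) (nat_lit 4) (nat_lit 448) (nat_lit 359) (nat_lit 213)) (XT.lf (nat_lit 0) (nat_lit 136332835559) (nat_lit 76) (nat_lit 54179192043) (nat_lit 76) (nat_lit 4798883973) (nat_lit 15) (nat_lit 4) (nat_lit 16) (nat_lit 5) (nat_lit 16) (nat_lit 4) (nat_lit 449)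 (nat_lit 359) (nat_lit 212))) (XT.nd (nat_lit 78) (nat_lit 76) (nat_lit 0) (XT.lf (nat_lit 0) (nat_lit 23966568390) (nat_lit 152) (nat_lit 250649383) (nat_lit 76) (nat_lit 179301619143) (nat_lit 14) (nat_lit 5) (nat_lit 16) (nat_lit 5) (nat_lit 15) (nat_lit 4) (nat_lit 450) (nat_lit 359) (nat_lit 211)) (XT.lf (nat_lit 0) (nat_lit 55126541955) (nat_lit 152) (nat_lit 148856488974) (nat_lit 0) (nat_lit 8094318077) (nat_lit 13) (nat_lit 5) (nat_lit 15) (nat_lit 4) (nat_lit 13) (nat_lit 4) (nat_lit 451) (nat_lit 359) (nat_lit 210))))) (XT.nd (nat_lit 234) (nat_lit 152) (nat_lit 0) (XT.nd (nat_lit 78) (nat_lit 76) (nat_lit 0) (XT.lf (nat_lit 0) (nat_lit 88243611614) (nat_lit 152) (nat_lit 91590393127) (nat_lit 0) (nat_lit 41209827202) (nat_lit 13) (nat_lit 5) (nat_lit 15) (nat_lit 4) (nat_lit 13) (nat_lit 4) (nat_lit 452) (nat_lit 359) (nat_lit 209)) (XT.nd (nat_lit 78) (nat_lit 76) (nat_lit 0)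 (XT.lf (nat_lit 0) (nat_lit 123014419888) (nat_lit 152) (nat_lit 31465175738) (nat_lit 0) (nat_lit 75979149254) (nat_lit 13) (nat_lit 5) (nat_lit 15) (nat_lit 4) (nat_lit 13) (nat_lit 4) (nat_lit 453) (nat_lit 359) (nat_lit 208)) (XT.lf (nat_lit 0) (nat_lit 32709217710) (nat_lit 76) (nat_lit 127323219261) (nat_lit 76) (nat_lit 80286533176) (nat_lit 12) (nat_lit 4) (nat_lit 13) (nat_lit 5) (nat_lit 13) (nat_lit 4) (nat_lit 454) (nat_lit 359) (nat_lit 207)))) (XT.nd (nat_lit 156) (nat_lit 152) (nat_lit 0) (XT.nd (nat_lit 78) (nat_lit 0) (nat_lit 0) (XT.lf (nat_lit 0) (nat_lit 101180810895) (nat_lit 76) (nat_lit 98251442544) (nat_lit 76) (nat_lit 51213408412) (nat_lit 12) (nat_lit 4) (nat_lit 13) (nat_lit 5) (nat_lit 13) (nat_lit 4) (nat_lit 455) (nat_lit 359) (nat_lit 206)) (XT.lf (nat_lit 0) (nat_lit 173072250606) (nat_lit 76) (nat_lit 67727924937) (nat_lit 76) (nat_lit 20688606950) (nat_lit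 12) (nat_lit 4) (nat_lit 13) (nat_lit 5) (nat_lit 13) (nat_lit 4) (nat_lit 456) (nat_lit 359) (nat_lit 205))) (XT.nd (nat_lit 78) (nat_lit 76) (nat_lit 0) (XT.lf (nat_lit 0) (nat_lit 10996940782) (nat_lit 152) (nat_lit 24496812102) (nat_lit 76) (nat_lit 237371527642) (nat_lit 11) (nat_lit 5) (nat_lit 13) (nat_lit 5) (nat_lit 12) (nat_lit 4) (nat_lit 457) (nat_lit 359) (nat_lit 204)) (XT.lf (nat_lit 0) (nat_lit 43674137728) (nat_lit 76) (nat_lit 577492968) (nat_lit 152) (nat_lit 240508008090) (nat_lit 10) (nat_lit 5) (nat_lit 11) (nat_lit 5) (nat_lit 12) (nat_lit 4) (nat_lit 458) (nat_lit 359) (nat_lit 203))))))) (XT.nd (nat_lit 1014) (nat_lit 76) (nat_lit 0) (XT.nd (nat_lit 468) (nat_lit 152) (nat_lit 0) (XT.nd (nat_lit 234) (nat_lit 76) (nat_lit 0) (XT.nd (nat_lit 78) (nat_lit 0) (nat_lit 0) (XT.lf (nat_lit 0) (nat_lit 80152368569) (nat_lit 152) (nat_lit 181697492456) (nat_lit 0) (nat_lit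 35349688338) (nat_lit 10) (nat_lit 5) (nat_lit 12) (nat_lit 4) (nat_lit 10) (nat_lit 4) (nat_lit 459) (nat_lit 359) (nat_lit 202)) (XT.nd (nat_lit 78) (nat_lit 0) (nat_lit 0) (XT.lf (nat_lit 0) (nat_lit 117855958627) (nat_lit 152) (nat_lit 119352833688) (nat_lit 0) (nat_lit 73052272462) (nat_lit 10) (nat_lit 5) (nat_lit 12) (nat_lit 4) (nat_lit 10) (nat_lit 4) (nat_lit 460) (nat_lit 359) (nat_lit 201)) (XT.lf (nat_lit 0) (nat_lit 157443155040) (nat_lit 152) (nat_lit 53894068808) (nat_lit 0) (nat_lit 112638510842) (nat_lit 10) (nat_lit 5) (nat_lit 12) (nat_lit 4) (nat_lit 10) (nat_lit 4) (nat_lit 461) (nat_lit 359) (nat_lit 200)))) (XT.nd (nat_lit 78) (nat_lit 0) (nat_lit 0) (XT.lf (nat_lit 0) (nat_lit 15325157120) (nat_lit 76) (nat_lit 183922324567) (nat_lit 76) (nat_lit 139116767958) (nat_lit 9) (nat_lit 4) (nat_lit 10) (nat_lit 5) (nat_lit 10) (nat_lit 4) (nat_lit 462) (nat_lit 359) (nat_lit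 199)) (XT.nd (nat_lit 78) (nat_lit 0) (nat_lit 0) (XT.lf (nat_lit 0) (nat_lit 89873494821) (nat_lit 76) (nat_lit 154179779344) (nat_lit 76) (nat_lit 109373353772) (nat_lit 9) (nat_lit 4) (nat_lit 10) (nat_lit 5) (nat_lit 10) (nat_lit 4) (nat_lit 463) (nat_lit 359) (nat_lit 198)) (XT.lf (nat_lit 0) (nat_lit 168146459027) (nat_lit 76) (nat_lit 122951494729) (nat_lit 76) (nat_lit 78144241573) (nat_lit 9) (nat_lit 4) (nat_lit 10) (nat_lit 5) (nat_lit 10) (nat_lit 4) (nat_lit 464) (nat_lit 359) (nat_lit 197))))) (XT.nd (nat_lit 234) (nat_lit 0) (nat_lit 0) (XT.nd (nat_lit 78) (nat_lit 152) (nat_lit 0) (XT.lf (nat_lit 0) (nat_lit 250330413939) (nat_lit 76) (nat_lit 90163117664) (nat_lit 76) (nat_lit 45355076332) (nat_lit 9) (nat_lit 4) (nat_lit 10) (nat_lit 5) (nat_lit 10) (nat_lit 4) (nat_lit 465) (nat_lit 359) (nat_lit 196)) (XT.nd (nat_lit 78) (nat_lit 152) (nat_lit 0) (XT.lf (nat_lit 0) (nat_lit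 336621035641) (nat_lit 76) (nat_lit 55736580583) (nat_lit 76) (nat_lit 10927788608) (nat_lit 9) (nat_lit 4) (nat_lit 10) (nat_lit 5) (nat_lit 10) (nat_lit 4) (nat_lit 466) (nat_lit 359) (nat_lit 195)) (XT.lf (nat_lit 0) (nat_lit 5409050692) (nat_lit 76) (nat_lit 19087806657) (nat_lit 152) (nat_lit 397073334908) (nat_lit 7) (nat_lit 5) (nat_lit 8) (nat_lit 5) (nat_lit 9) (nat_lit 4) (nat_lit 467) (nat_lit 359) (nat_lit 194)))) (XT.nd (nat_lit 156) (nat_lit 0) (nat_lit 0) (XT.nd (nat_lit 78) (nat_lit 0) (nat_lit 0) (XT.lf (nat_lit 0) (nat_lit 62774547884) (nat_lit 152) (nat_lit 357815082512) (nat_lit 0) (nat_lit 20098178618) (nat_lit 7) (nat_lit 5) (nat_lit 9) (nat_lit 4) (nat_lit 7) (nat_lit 4) (nat_lit 468) (nat_lit 359) (nat_lit 193)) (XT.lf (nat_lit 0) (nat_lit 103277867124) (nat_lit 152) (nat_lit 296866972020) (nat_lit 0) (nat_lit 60600880302) (nat_lit 7) (nat_lit 5) (nat_lit 9) (nat_lit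 4) (nat_lit 7) (nat_lit 4) (nat_lit 469) (nat_lit 359) (nat_lit 192))) (XT.nd (nat_lit 78) (nat_lit 0) (nat_lit 0) (XT.lf (nat_lit 0) (nat_lit 145805237388) (nat_lit 152) (nat_lit 232873681385) (nat_lit 0) (nat_lit 103127662416) (nat_lit 7) (nat_lit 5) (nat_lit 9) (nat_lit 4) (nat_lit 7) (nat_lit 4) (nat_lit 470) (nat_lit 359) (nat_lit 191)) (XT.lf (nat_lit 0) (nat_lit 190457914319) (nat_lit 152) (nat_lit 165682845629) (nat_lit 0) (nat_lit 147779779206) (nat_lit 7) (nat_lit 5) (nat_lit 9) (nat_lit 4) (nat_lit 7) (nat_lit 4) (nat_lit 471) (nat_lit 359) (nat_lit 190)))))) (XT.nd (nat_lit 546) (nat_lit 0) (nat_lit 0) (XT.nd (nat_lit 234) (nat_lit 0) (nat_lit 0) (XT.nd (nat_lit 78) (nat_lit 76) (nat_lit 0) (XT.lf (nat_lit 0) (nat_lit 237342213814) (nat_lit 152) (nat_lit 95134486572) (nat_lit 0) (nat_lit 194663545233) (nat_lit 7) (nat_lit 5) (nat_lit 9) (nat_lit 4) (nat_lit 7) (nat_lit 4) (nat_lit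 472) (nat_lit 359) (nat_lit 189)) (XT.nd (nat_lit 78) (nat_lit 76) (nat_lit 0) (XT.lf (nat_lit 0) (nat_lit 286569765159) (nat_lit 152) (nat_lit 21060631930) (nat_lit 0) (nat_lit 243890588512) (nat_lit 7) (nat_lit 5) (nat_lit 9) (nat_lit 4) (nat_lit 7) (nat_lit 4) (nat_lit 473) (nat_lit 359) (nat_lit 188)) (XT.lf (nat_lit 0) (nat_lit 58590341446) (nat_lit 76) (nat_lit 280582194791) (nat_lit 76) (nat_lit 237902534273) (nat_lit 6) (nat_lit 4) (nat_lit 7) (nat_lit 5) (nat_lit 7) (nat_lit 4) (nat_lit 474) (nat_lit 359) (nat_lit 187)))) (XT.nd (nat_lit 156) (nat_lit 0) (nat_lit 0) (XT.nd (nat_lit 78) (nat_lit 0) (nat_lit 0) (XT.lf (nat_lit 0) (nat_lit 142953239779) (nat_lit 76) (nat_lit 251807976376) (nat_lit 76) (nat_lit 209127855028) (nat_lit 6) (nat_lit 4) (nat_lit 7) (nat_lit 5) (nat_lit 7) (nat_lit 4) (nat_lit 475) (nat_lit 359) (nat_lit 186)) (XT.lf (nat_lit 0) (nat_lit 231532567507) (nat_lit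 76) (nat_lit 221595903794) (nat_lit 76) (nat_lit 178915343560) (nat_lit 6) (nat_lit 4) (nat_lit 7) (nat_lit 5) (nat_lit 7) (nat_lit 4) (nat_lit 476) (nat_lit 359) (nat_lit 185))) (XT.nd (nat_lit 78) (nat_lit 0) (nat_lit 0) (XT.lf (nat_lit 0) (nat_lit 324539227791) (nat_lit 76) (nat_lit 189874043537) (nat_lit 76) (nat_lit 147193065317) (nat_lit 6) (nat_lit 4) (nat_lit 7) (nat_lit 5) (nat_lit 7) (nat_lit 4) (nat_lit 477) (nat_lit 359) (nat_lit 184)) (XT.lf (nat_lit 0) (nat_lit 422194665062) (nat_lit 76) (nat_lit 156566867369) (nat_lit 76) (nat_lit 113885491067) (nat_lit 6) (nat_lit 4) (nat_lit 7) (nat_lit 5) (nat_lit 7) (nat_lit 4) (nat_lit 478) (nat_lit 359) (nat_lit 183))))) (XT.nd (nat_lit 43914) (nat_lit 0) (nat_lit 9348) (XT.nd (nat_lit 78) (nat_lit 0) (nat_lit 0) (XT.lf (nat_lit 0) (nat_lit 524731392264) (nat_lit 76) (nat_lit 121595072487) (nat_lit 76) (nat_lit 78913317059) (nat_lit 6)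 (nat_lit 4) (nat_lit 7) (nat_lit 5) (nat_lit 7) (nat_lit 4) (nat_lit 479) (nat_lit 359) (nat_lit 182)) (XT.nd (nat_lit 43758) (nat_lit 0) (nat_lit 9348) (XT.lf (nat_lit 0) (nat_lit 632393544462) (nat_lit 76) (nat_lit 84875392714) (nat_lit 76) (nat_lit 42193276214) (nat_lit 6) (nat_lit 4) (nat_lit 7) (nat_lit 5) (nat_lit 7) (nat_lit 4) (nat_lit 480) (nat_lit 359) (nat_lit 181)) (XT.lf (nat_lit 0) (nat_lit 1623412502) (nat_lit 0) (nat_lit 1623412502) (nat_lit 684) (nat_lit 2337365747) (nat_lit 129) (nat_lit 5) (nat_lit 129) (nat_lit 3) (nat_lit 138) (nat_lit 3) (nat_lit 360) (nat_lit 360) (nat_lit 300)))) (XT.nd (nat_lit 156) (nat_lit 0) (nat_lit 76) (XT.nd (nat_lit 78) (nat_lit 0) (nat_lit 0) (XT.lf (nat_lit 0) (nat_lit 7222290941) (nat_lit 684) (nat_lit 2510402267) (nat_lit 760) (nat_lit 1686267991) (nat_lit 129) (nat_lit 5) (nat_lit 138) (nat_lit 3) (nat_lit 139) (nat_lit 5) (nat_lit 361)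 (nat_lit 360) (nat_lit 299)) (XT.lf (nat_lit 76) (nat_lit 3201274167) (nat_lit 0) (nat_lit 4855057398) (nat_lit 760) (nat_lit 3622310088) (nat_lit 130) (nat_lit 5) (nat_lit 129) (nat_lit 5) (nat_lit 139) (nat_lit 5) (nat_lit 362) (nat_lit 360) (nat_lit 298))) (XT.nd (nat_lit 78) (nat_lit 0) (nat_lit 0) (XT.lf (nat_lit 0) (nat_lit 8946758611) (nat_lit 684) (nat_lit 2689188663) (nat_lit 760) (nat_lit 314643831) (nat_lit 130) (nat_lit 5) (nat_lit 139) (nat_lit 5) (nat_lit 140) (nat_lit 5) (nat_lit 363) (nat_lit 360) (nat_lit 297)) (XT.lf (nat_lit 76) (nat_lit 3397707233) (nat_lit 0) (nat_lit 6585507524) (nat_lit 760) (nat_lit 2247866167) (nat_lit 131) (nat_lit 5) (nat_lit 130) (nat_lit 5) (nat_lit 140) (nat_lit 5) (nat_lit 364) (nat_lit 360) (nat_lit 296))))))))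
noncomputable def xc146 : XT := (XT.nd (nat_lit 2106) (nat_lit 2508) (nat_lit 0) (XT.nd (nat_lit 1014) (nat_lit 2204) (nat_lit 0) (XT.nd (nat_lit 468) (nat_lit 1824) (nat_lit 0) (XT.nd (nat_lit 234) (nat_lit 0) (nat_lit 76) (XT.nd (nat_lit 78) (nat_lit 684) (nat_lit 0) (XT.lf (nat_lit 76) (nat_lit 9862782009) (nat_lit 0) (nat_lit 1224300863) (nat_lit 760) (nat_lit 1437750313) (nat_lit 131) (nat_lit 5) (nat_lit 130) (nat_lit 5) (nat_lit 140) (nat_lit 5) (nat_lit 365) (nat_lit 360) (nat_lit 295)) (XT.nd (nat_lit 78) (nat_lit 760) (nat_lit 0) (XT.lf (nat_lit 76) (nat_lit 3852160281) (nat_lit 0) (nat_lit 8494528819) (nat_lit 760) (nat_lit 481573306) (nat_lit 132) (nat_lit 5) (nat_lit 131) (nat_lit 5) (nat_lit 141) (nat_lit 5) (nat_lit 366) (nat_lit 360) (nat_lit 294)) (XT.lf (nat_lit 0) (nat_lit 543790085) (nat_lit 760) (nat_lit 2409876921) (nat_lit 836) (nat_lit 10190898405) (nat_lit 121) (nat_lit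 5) (nat_lit 131) (nat_lit 5) (nat_lit 132) (nat_lit 5) (nat_lit 367) (nat_lit 360) (nat_lit 293)))) (XT.nd (nat_lit 78) (nat_lit 0) (nat_lit 0) (XT.lf (nat_lit 0) (nat_lit 1695783387) (nat_lit 760) (nat_lit 8915845285) (nat_lit 836) (nat_lit 2860097198) (nat_lit 122) (nat_lit 5) (nat_lit 132) (nat_lit 5) (nat_lit 133) (nat_lit 5) (nat_lit 368) (nat_lit 360) (nat_lit 292)) (XT.nd (nat_lit 78) (nat_lit 0) (nat_lit 76) (XT.lf (nat_lit 0) (nat_lit 2969857631) (nat_lit 760) (nat_lit 1929580013) (nat_lit 836) (nat_lit 8912596285) (nat_lit 122) (nat_lit 5) (nat_lit 132) (nat_lit 5) (nat_lit 133) (nat_lit 5) (nat_lit 369) (nat_lit 360) (nat_lit 291)) (XT.lf (nat_lit 0) (nat_lit 4388938171) (nat_lit 760) (nat_lit 8620673408) (nat_lit 76) (nat_lit 1155693675) (nat_lit 123) (nat_lit 5) (nat_lit 133) (nat_lit 5) (nat_lit 124) (nat_lit 5) (nat_lit 370) (nat_lit 360) (nat_lit 290))))) (XT.nd (nat_lit 234)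 (nat_lit 1216) (nat_lit 0) (XT.nd (nat_lit 78) (nat_lit 760) (nat_lit 0) (XT.lf (nat_lit 0) (nat_lit 5969201786) (nat_lit 760) (nat_lit 1176718497) (nat_lit 76) (nat_lit 7385820783) (nat_lit 123) (nat_lit 5) (nat_lit 133) (nat_lit 5) (nat_lit 124) (nat_lit 5) (nat_lit 371) (nat_lit 360) (nat_lit 289)) (XT.nd (nat_lit 78) (nat_lit 0) (nat_lit 0) (XT.lf (nat_lit 0) (nat_lit 6838496496) (nat_lit 760) (nat_lit 874556197) (nat_lit 836) (nat_lit 7199229056) (nat_lit 113) (nat_lit 5) (nat_lit 123) (nat_lit 5) (nat_lit 124) (nat_lit 5) (nat_lit 372) (nat_lit 360) (nat_lit 288)) (XT.lf (nat_lit 0) (nat_lit 9632095073) (nat_lit 836) (nat_lit 125615894) (nat_lit 76) (nat_lit 5549749774) (nat_lit 113) (nat_lit 5) (nat_lit 124) (nat_lit 5) (nat_lit 114) (nat_lit 5) (nat_lit 373) (nat_lit 360) (nat_lit 287)))) (XT.nd (nat_lit 156) (nat_lit 456) (nat_lit 0) (XT.nd (nat_lit 78) (nat_lit 380) (nat_lit 0)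 (XT.lf (nat_lit 0) (nat_lit 8456665899) (nat_lit 380) (nat_lit 3316401448) (nat_lit 456) (nat_lit 3943043135) (nat_lit 108) (nat_lit 5) (nat_lit 113) (nat_lit 5) (nat_lit 114) (nat_lit 5) (nat_lit 374) (nat_lit 360) (nat_lit 286)) (XT.lf (nat_lit 0) (nat_lit 1294608959) (nat_lit 380) (nat_lit 12782955457) (nat_lit 456) (nat_lit 2064814666) (nat_lit 103) (nat_lit 5) (nat_lit 108) (nat_lit 5) (nat_lit 109) (nat_lit 5) (nat_lit 375) (nat_lit 360) (nat_lit 285))) (XT.nd (nat_lit 78) (nat_lit 380) (nat_lit 0) (XT.lf (nat_lit 0) (nat_lit 70205351) (nat_lit 456) (nat_lit 6130987872) (nat_lit 76) (nat_lit 10380853769) (nat_lit 102) (nat_lit 5) (nat_lit 108) (nat_lit 5) (nat_lit 103) (nat_lit 5) (nat_lit 376) (nat_lit 360) (nat_lit 284)) (XT.lf (nat_lit 0) (nat_lit 2284372798) (nat_lit 456) (nat_lit 13986674826) (nat_lit 76) (nat_lit 768877609) (nat_lit 97) (nat_lit 5) (nat_lit 103) (nat_lit 5) (nat_lit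 98) (nat_lit 5) (nat_lit 377) (nat_lit 360) (nat_lit 283)))))) (XT.nd (nat_lit 546) (nat_lit 988) (nat_lit 0) (XT.nd (nat_lit 234) (nat_lit 912) (nat_lit 0) (XT.nd (nat_lit 78) (nat_lit 304) (nat_lit 0) (XT.lf (nat_lit 0) (nat_lit 4798510471) (nat_lit 456) (nat_lit 4729528952) (nat_lit 76) (nat_lit 7983203245) (nat_lit 97) (nat_lit 5) (nat_lit 103) (nat_lit 5) (nat_lit 98) (nat_lit 5) (nat_lit 378) (nat_lit 360) (nat_lit 282)) (XT.nd (nat_lit 78) (nat_lit 0) (nat_lit 0) (XT.lf (nat_lit 0) (nat_lit 5135591181) (nat_lit 304) (nat_lit 2365868200) (nat_lit 380) (nat_lit 10501519352) (nat_lit 93) (nat_lit 5) (nat_lit 97) (nat_lit 5) (nat_lit 98) (nat_lit 5) (nat_lit 379) (nat_lit 360) (nat_lit 281)) (XT.lf (nat_lit 0) (nat_lit 10484844041) (nat_lit 380) (nat_lit 2958660552) (nat_lit 76) (nat_lit 5068540190) (nat_lit 93) (nat_lit 5) (nat_lit 98) (nat_lit 5) (nat_lit 94) (nat_lit 5) (nat_lit 380)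 (nat_lit 360) (nat_lit 280)))) (XT.nd (nat_lit 156) (nat_lit 608) (nat_lit 0) (XT.nd (nat_lit 78) (nat_lit 0) (nat_lit 0) (XT.lf (nat_lit 0) (nat_lit 7632194231) (nat_lit 304) (nat_lit 6127342242) (nat_lit 380) (nat_lit 5279927970) (nat_lit 89) (nat_lit 5) (nat_lit 93) (nat_lit 5) (nat_lit 94) (nat_lit 5) (nat_lit 381) (nat_lit 360) (nat_lit 279)) (XT.lf (nat_lit 0) (nat_lit 17257771852) (nat_lit 380) (nat_lit 779756713) (nat_lit 76) (nat_lit 1552742994) (nat_lit 89) (nat_lit 5) (nat_lit 94) (nat_lit 5) (nat_lit 90) (nat_lit 5) (nat_lit 382) (nat_lit 360) (nat_lit 278))) (XT.nd (nat_lit 78) (nat_lit 304) (nat_lit 0) (XT.lf (nat_lit 0) (nat_lit 993294157) (nat_lit 304) (nat_lit 9572451683) (nat_lit 76) (nat_lit 9589514731) (nat_lit 85) (nat_lit 5) (nat_lit 89) (nat_lit 5) (nat_lit 86) (nat_lit 5) (nat_lit 383) (nat_lit 360) (nat_lit 277)) (XT.lf (nat_lit 0) (nat_lit 1793176791) (nat_lit 304)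 (nat_lit 2640750865) (nat_lit 380) (nat_lit 16311318582) (nat_lit 81) (nat_lit 5) (nat_lit 85) (nat_lit 5) (nat_lit 86) (nat_lit 5) (nat_lit 384) (nat_lit 360) (nat_lit 276))))) (XT.nd (nat_lit 234) (nat_lit 760) (nat_lit 0) (XT.nd (nat_lit 78) (nat_lit 228) (nat_lit 0) (XT.lf (nat_lit 0) (nat_lit 8285912718) (nat_lit 380) (nat_lit 7407394957) (nat_lit 76) (nat_lit 5659463189) (nat_lit 81) (nat_lit 5) (nat_lit 86) (nat_lit 5) (nat_lit 82) (nat_lit 5) (nat_lit 385) (nat_lit 360) (nat_lit 275)) (XT.nd (nat_lit 78) (nat_lit 0) (nat_lit 0) (XT.lf (nat_lit 0) (nat_lit 4807133866) (nat_lit 228) (nat_lit 7628240087) (nat_lit 304) (nat_lit 9550059319) (nat_lit 78) (nat_lit 5) (nat_lit 81) (nat_lit 5) (nat_lit 82) (nat_lit 5) (nat_lit 386) (nat_lit 360) (nat_lit 274)) (XT.lf (nat_lit 0) (nat_lit 16919756173) (nat_lit 304) (nat_lit 4787318102) (nat_lit 76) (nat_lit 936287272) (nat_lit 78) (nat_lit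 5) (nat_lit 82) (nat_lit 5) (nat_lit 79) (nat_lit 5) (nat_lit 387) (nat_lit 360) (nat_lit 273)))) (XT.nd (nat_lit 156) (nat_lit 456) (nat_lit 0) (XT.nd (nat_lit 78) (nat_lit 76) (nat_lit 0) (XT.lf (nat_lit 0) (nat_lit 8347968849) (nat_lit 228) (nat_lit 13523231781) (nat_lit 304) (nat_lit 1450848345) (nat_lit 75) (nat_lit 5) (nat_lit 78) (nat_lit 5) (nat_lit 79) (nat_lit 5) (nat_lit 388) (nat_lit 360) (nat_lit 272)) (XT.lf (nat_lit 0) (nat_lit 3008375268) (nat_lit 304) (nat_lit 1790626713) (nat_lit 76) (nat_lit 19229804307) (nat_lit 74) (nat_lit 5) (nat_lit 78) (nat_lit 5) (nat_lit 75) (nat_lit 5) (nat_lit 389) (nat_lit 360) (nat_lit 271))) (XT.nd (nat_lit 78) (nat_lit 228) (nat_lit 0) (XT.lf (nat_lit 0) (nat_lit 7895292880) (nat_lit 304) (nat_lit 12423513313) (nat_lit 76) (nat_lit 4438235741) (nat_lit 71) (nat_lit 5) (nat_lit 75) (nat_lit 5) (nat_lit 72) (nat_lit 5) (nat_lit 390) (nat_lit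 360) (nat_lit 270)) (XT.lf (nat_lit 0) (nat_lit 1663030104) (nat_lit 228) (nat_lit 11487387909) (nat_lit 304) (nat_lit 12365082297) (nat_lit 68) (nat_lit 5) (nat_lit 71) (nat_lit 5) (nat_lit 72) (nat_lit 5) (nat_lit 391) (nat_lit 360) (nat_lit 269))))))) (XT.nd (nat_lit 1014) (nat_lit 1140) (nat_lit 0) (XT.nd (nat_lit 468) (nat_lit 760) (nat_lit 0) (XT.nd (nat_lit 234) (nat_lit 380) (nat_lit 0) (XT.nd (nat_lit 78) (nat_lit 228) (nat_lit 0) (XT.lf (nat_lit 0) (nat_lit 16868576732) (nat_lit 228) (nat_lit 1998815985) (nat_lit 304) (nat_lit 7434538057) (nat_lit 68) (nat_lit 5) (nat_lit 71) (nat_lit 5) (nat_lit 72) (nat_lit 5) (nat_lit 392) (nat_lit 360) (nat_lit 268)) (XT.nd (nat_lit 78) (nat_lit 76) (nat_lit 0) (XT.lf (nat_lit 0) (nat_lit 5750103363) (nat_lit 152) (nat_lit 19323385362) (nat_lit 228) (nat_lit 2044034062) (nat_lit 66) (nat_lit 5) (nat_lit 68) (nat_lit 5) (nat_lit 69) (nat_lit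 5) (nat_lit 393) (nat_lit 360) (nat_lit 267)) (XT.lf (nat_lit 0) (nat_lit 3684648800) (nat_lit 228) (nat_lit 6053916825) (nat_lit 76) (nat_lit 18223289894) (nat_lit 65) (nat_lit 5) (nat_lit 68) (nat_lit 5) (nat_lit 66) (nat_lit 5) (nat_lit 394) (nat_lit 360) (nat_lit 266)))) (XT.nd (nat_lit 78) (nat_lit 152) (nat_lit 0) (XT.lf (nat_lit 0) (nat_lit 9789918575) (nat_lit 304) (nat_lit 18541401805) (nat_lit 76) (nat_lit 507469942) (nat_lit 62) (nat_lit 5) (nat_lit 66) (nat_lit 5) (nat_lit 63) (nat_lit 5) (nat_lit 395) (nat_lit 360) (nat_lit 265)) (XT.nd (nat_lit 78) (nat_lit 152) (nat_lit 0) (XT.lf (nat_lit 0) (nat_lit 16454226539) (nat_lit 304) (nat_lit 2255129559) (nat_lit 76) (nat_lit 11037530037) (nat_lit 62) (nat_lit 5) (nat_lit 66) (nat_lit 5) (nat_lit 63) (nat_lit 5) (nat_lit 396) (nat_lit 360) (nat_lit 264)) (XT.lf (nat_lit 0) (nat_lit 15320776764) (nat_lit 152) (nat_lit 8360572751) (nat_lit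 228) (nat_lit 7007560106) (nat_lit 60) (nat_lit 5) (nat_lit 62) (nat_lit 5) (nat_lit 63) (nat_lit 5) (nat_lit 397) (nat_lit 360) (nat_lit 263))))) (XT.nd (nat_lit 234) (nat_lit 380) (nat_lit 0) (XT.nd (nat_lit 78) (nat_lit 228) (nat_lit 0) (XT.lf (nat_lit 0) (nat_lit 2192902713) (nat_lit 152) (nat_lit 29179642130) (nat_lit 228) (nat_lit 300356354) (nat_lit 58) (nat_lit 5) (nat_lit 60) (nat_lit 5) (nat_lit 61) (nat_lit 5) (nat_lit 398) (nat_lit 360) (nat_lit 262)) (XT.nd (nat_lit 78) (nat_lit 152) (nat_lit 0) (XT.lf (nat_lit 0) (nat_lit 6918610837) (nat_lit 228) (nat_lit 11789384588) (nat_lit 76) (nat_lit 13973226364) (nat_lit 57) (nat_lit 5) (nat_lit 60) (nat_lit 5) (nat_lit 58) (nat_lit 5) (nat_lit 399) (nat_lit 360) (nat_lit 261)) (XT.lf (nat_lit 0) (nat_lit 6990034689) (nat_lit 152) (nat_lit 7598583212) (nat_lit 228) (nat_lit 19146087396) (nat_lit 55) (nat_lit 5) (nat_lit 57) (nat_lit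 5) (nat_lit 58) (nat_lit 5) (nat_lit 400) (nat_lit 360) (nat_lit 260)))) (XT.nd (nat_lit 156) (nat_lit 228) (nat_lit 0) (XT.nd (nat_lit 78) (nat_lit 152) (nat_lit 0) (XT.lf (nat_lit 0) (nat_lit 22899711501) (nat_lit 228) (nat_lit 7794558561) (nat_lit 76) (nat_lit 4133715854) (nat_lit 55) (nat_lit 5) (nat_lit 58) (nat_lit 5) (nat_lit 56) (nat_lit 5) (nat_lit 401) (nat_lit 360) (nat_lit 259)) (XT.lf (nat_lit 0) (nat_lit 12360146566) (nat_lit 152) (nat_lit 19575345076) (nat_lit 228) (nat_lit 4024984466) (nat_lit 53) (nat_lit 5) (nat_lit 55) (nat_lit 5) (nat_lit 56) (nat_lit 5) (nat_lit 402) (nat_lit 360) (nat_lit 258))) (XT.nd (nat_lit 78) (nat_lit 152) (nat_lit 0) (XT.lf (nat_lit 0) (nat_lit 4262498777) (nat_lit 228) (nat_lit 3432679942) (nat_lit 76) (nat_lit 29444787661) (nat_lit 52) (nat_lit 5) (nat_lit 55) (nat_lit 5) (nat_lit 53) (nat_lit 5) (nat_lit 403) (nat_lit 360) (nat_lit 257)) (XT.lf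 (nat_lit 0) (nat_lit 13186312107) (nat_lit 228) (nat_lit 20193481453) (nat_lit 76) (nat_lit 4977479194) (nat_lit 50) (nat_lit 5) (nat_lit 53) (nat_lit 5) (nat_lit 51) (nat_lit 5) (nat_lit 404) (nat_lit 360) (nat_lit 256)))))) (XT.nd (nat_lit 546) (nat_lit 608) (nat_lit 0) (XT.nd (nat_lit 234) (nat_lit 228) (nat_lit 0) (XT.nd (nat_lit 78) (nat_lit 152) (nat_lit 0) (XT.lf (nat_lit 0) (nat_lit 1225413482) (nat_lit 152) (nat_lit 21527399629) (nat_lit 228) (nat_lit 16872808242) (nat_lit 48) (nat_lit 5) (nat_lit 50) (nat_lit 5) (nat_lit 51) (nat_lit 5) (nat_lit 405) (nat_lit 360) (nat_lit 255)) (XT.nd (nat_lit 78) (nat_lit 152) (nat_lit 0) (XT.lf (nat_lit 0) (nat_lit 24403114634) (nat_lit 152) (nat_lit 8728806833) (nat_lit 228) (nat_lit 7808753474) (nat_lit 48) (nat_lit 5) (nat_lit 50) (nat_lit 5) (nat_lit 51) (nat_lit 5) (nat_lit 406) (nat_lit 360) (nat_lit 254)) (XT.lf (nat_lit 0) (nat_lit 1824816592)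 (nat_lit 152) (nat_lit 35801325163) (nat_lit 76) (nat_lit 4685457476) (nat_lit 46) (nat_lit 5) (nat_lit 48) (nat_lit 5) (nat_lit 47) (nat_lit 5) (nat_lit 407) (nat_lit 360) (nat_lit 253)))) (XT.nd (nat_lit 156) (nat_lit 76) (nat_lit 0) (XT.nd (nat_lit 78) (nat_lit 152) (nat_lit 0) (XT.lf (nat_lit 0) (nat_lit 12098013943) (nat_lit 152) (nat_lit 12741024279) (nat_lit 76) (nat_lit 18884613638) (nat_lit 46) (nat_lit 5) (nat_lit 48) (nat_lit 5) (nat_lit 47) (nat_lit 5) (nat_lit 408) (nat_lit 360) (nat_lit 252)) (XT.lf (nat_lit 0) (nat_lit 11838919432) (nat_lit 152) (nat_lit 11223758044) (nat_lit 228) (nat_lit 22134740706) (nat_lit 44) (nat_lit 5) (nat_lit 46) (nat_lit 5) (nat_lit 47) (nat_lit 5) (nat_lit 409) (nat_lit 360) (nat_lit 251))) (XT.nd (nat_lit 78) (nat_lit 76) (nat_lit 0) (XT.lf (nat_lit 0) (nat_lit 34835886271) (nat_lit 228) (nat_lit 8707746081) (nat_lit 76) (nat_lit 3188226175) (nat_lit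 44) (nat_lit 5) (nat_lit 47) (nat_lit 5) (nat_lit 45) (nat_lit 4) (nat_lit 410) (nat_lit 360) (nat_lit 250)) (XT.lf (nat_lit 0) (nat_lit 17541207169) (nat_lit 76) (nat_lit 30107775938) (nat_lit 152) (nat_lit 671477650) (nat_lit 43) (nat_lit 5) (nat_lit 44) (nat_lit 5) (nat_lit 45) (nat_lit 4) (nat_lit 411) (nat_lit 360) (nat_lit 249))))) (XT.nd (nat_lit 234) (nat_lit 380) (nat_lit 0) (XT.nd (nat_lit 78) (nat_lit 152) (nat_lit 0) (XT.lf (nat_lit 0) (nat_lit 10901795626) (nat_lit 152) (nat_lit 4763939246) (nat_lit 76) (nat_lit 34306919184) (nat_lit 42) (nat_lit 5) (nat_lit 44) (nat_lit 5) (nat_lit 43) (nat_lit 5) (nat_lit 412) (nat_lit 360) (nat_lit 248)) (XT.nd (nat_lit 78) (nat_lit 0) (nat_lit 0) (XT.lf (nat_lit 0) (nat_lit 23274835940) (nat_lit 152) (nat_lit 113422326) (nat_lit 228) (nat_lit 28300794852) (nat_lit 40) (nat_lit 5) (nat_lit 42) (nat_lit 5) (nat_lit 43) (nat_lit 5) (nat_lit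 413) (nat_lit 360) (nat_lit 247)) (XT.lf (nat_lit 0) (nat_lit 36827988460) (nat_lit 228) (nat_lit 872091698) (nat_lit 76) (nat_lit 15774745783) (nat_lit 40) (nat_lit 5) (nat_lit 43) (nat_lit 5) (nat_lit 41) (nat_lit 4) (nat_lit 414) (nat_lit 360) (nat_lit 246)))) (XT.nd (nat_lit 156) (nat_lit 76) (nat_lit 0) (XT.nd (nat_lit 78) (nat_lit 228) (nat_lit 0) (XT.lf (nat_lit 0) (nat_lit 28961477465) (nat_lit 76) (nat_lit 22426311273) (nat_lit 152) (nat_lit 3939695467) (nat_lit 39) (nat_lit 5) (nat_lit 40) (nat_lit 5) (nat_lit 41) (nat_lit 4) (nat_lit 415) (nat_lit 360) (nat_lit 245)) (XT.lf (nat_lit 0) (nat_lit 2982606304) (nat_lit 152) (nat_lit 6174903065) (nat_lit 228) (nat_lit 48105143986) (nat_lit 36) (nat_lit 5) (nat_lit 38) (nat_lit 5) (nat_lit 39) (nat_lit 5) (nat_lit 416) (nat_lit 360) (nat_lit 244))) (XT.nd (nat_lit 78) (nat_lit 76) (nat_lit 0) (XT.lf (nat_lit 0) (nat_lit 23395142586)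 (nat_lit 228) (nat_lit 24810968174) (nat_lit 76) (nat_lit 11054343403) (nat_lit 36) (nat_lit 5) (nat_lit 39) (nat_lit 5) (nat_lit 37) (nat_lit 4) (nat_lit 417) (nat_lit 360) (nat_lit 243)) (XT.lf (nat_lit 0) (nat_lit 6219084058) (nat_lit 76) (nat_lit 32318296421) (nat_lit 152) (nat_lit 22811129188) (nat_lit 35) (nat_lit 5) (nat_lit 36) (nat_lit 5) (nat_lit 37) (nat_lit 4) (nat_lit 418) (nat_lit 360) (nat_lit 242))))))))
noncomputable def xc147 : XT := (XT.nd (nat_lit 2106) (nat_lit 684) (nat_lit 0) (XT.nd (nat_lit 1014) (nat_lit 684) (nat_lit 0) (XT.nd (nat_lit 468) (nat_lit 304) (nat_lit 0) (XT.nd (nat_lit 234) (nat_lit 228) (nat_lit 0) (XT.nd (nat_lit 78) (nat_lit 228) (nat_lit 0) (XT.lf (nat_lit 0) (nat_lit 39651883659) (nat_lit 76) (nat_lit 15199538644) (nat_lit 152) (nat_lit 8668811806) (nat_lit 35) (nat_lit 5) (nat_lit 36) (nat_lit 5) (nat_lit 37) (nat_lit 4) (nat_lit 419) (nat_lit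 360) (nat_lit 241)) (XT.nd (nat_lit 78) (nat_lit 0) (nat_lit 0) (XT.lf (nat_lit 0) (nat_lit 6167396809) (nat_lit 228) (nat_lit 56693974687) (nat_lit 76) (nat_lit 2925119441) (nat_lit 32) (nat_lit 5) (nat_lit 35) (nat_lit 5) (nat_lit 33) (nat_lit 4) (nat_lit 420) (nat_lit 360) (nat_lit 240)) (XT.lf (nat_lit 0) (nat_lit 22108822481) (nat_lit 228) (nat_lit 24023542301) (nat_lit 76) (nat_lit 21993854126) (nat_lit 32) (nat_lit 5) (nat_lit 35) (nat_lit 5) (nat_lit 33) (nat_lit 4) (nat_lit 421) (nat_lit 360) (nat_lit 239)))) (XT.nd (nat_lit 78) (nat_lit 152) (nat_lit 0) (XT.lf (nat_lit 0) (nat_lit 10610624335) (nat_lit 76) (nat_lit 28397322517) (nat_lit 152) (nat_lit 31566955685) (nat_lit 31) (nat_lit 5) (nat_lit 32) (nat_lit 5) (nat_lit 33) (nat_lit 4) (nat_lit 422) (nat_lit 360) (nat_lit 238)) (XT.nd (nat_lit 78) (nat_lit 152) (nat_lit 0) (XT.lf (nat_lit 0) (nat_lit 47801300343) (nat_lit 76) (nat_lit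 9352638673) (nat_lit 152) (nat_lit 15971986353) (nat_lit 31) (nat_lit 5) (nat_lit 32) (nat_lit 5) (nat_lit 33) (nat_lit 4) (nat_lit 423) (nat_lit 360) (nat_lit 237)) (XT.lf (nat_lit 0) (nat_lit 732133721) (nat_lit 152) (nat_lit 64568147458) (nat_lit 76) (nat_lit 10486789710) (nat_lit 29) (nat_lit 5) (nat_lit 31) (nat_lit 5) (nat_lit 30) (nat_lit 4) (nat_lit 424) (nat_lit 360) (nat_lit 236))))) (XT.nd (nat_lit 234) (nat_lit 228) (nat_lit 0) (XT.nd (nat_lit 78) (nat_lit 76) (nat_lit 0) (XT.lf (nat_lit 0) (nat_lit 18319178356) (nat_lit 152) (nat_lit 28522141808) (nat_lit 76) (nat_lit 31697638147) (nat_lit 29) (nat_lit 5) (nat_lit 31) (nat_lit 5) (nat_lit 30) (nat_lit 4) (nat_lit 425) (nat_lit 360) (nat_lit 235)) (XT.nd (nat_lit 78) (nat_lit 0) (nat_lit 0) (XT.lf (nat_lit 0) (nat_lit 9625687388) (nat_lit 76) (nat_lit 27305642656) (nat_lit 152) (nat_lit 44489822814) (nat_lit 28) (nat_lit 5) (nat_lit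 29) (nat_lit 5) (nat_lit 30) (nat_lit 4) (nat_lit 426) (nat_lit 360) (nat_lit 234)) (XT.lf (nat_lit 0) (nat_lit 50662711605) (nat_lit 76) (nat_lit 6289969051) (nat_lit 152) (nat_lit 27470847380) (nat_lit 28) (nat_lit 5) (nat_lit 29) (nat_lit 5) (nat_lit 30) (nat_lit 4) (nat_lit 427) (nat_lit 360) (nat_lit 233)))) (XT.nd (nat_lit 156) (nat_lit 76) (nat_lit 0) (XT.nd (nat_lit 78) (nat_lit 76) (nat_lit 0) (XT.lf (nat_lit 0) (nat_lit 6116854611) (nat_lit 76) (nat_lit 72195768236) (nat_lit 76) (nat_lit 9246523370) (nat_lit 27) (nat_lit 4) (nat_lit 28) (nat_lit 5) (nat_lit 28) (nat_lit 4) (nat_lit 428) (nat_lit 360) (nat_lit 232)) (XT.lf (nat_lit 0) (nat_lit 10252466577) (nat_lit 152) (nat_lit 41937514566) (nat_lit 76) (nat_lit 38619846808) (nat_lit 26) (nat_lit 5) (nat_lit 28) (nat_lit 5) (nat_lit 27) (nat_lit 4) (nat_lit 429) (nat_lit 360) (nat_lit 231))) (XT.nd (nat_lit 78) (nat_lit 76) (nat_lit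 0) (XT.lf (nat_lit 0) (nat_lit 30411583139) (nat_lit 152) (nat_lit 616874361) (nat_lit 76) (nat_lit 63187211494) (nat_lit 26) (nat_lit 5) (nat_lit 28) (nat_lit 5) (nat_lit 27) (nat_lit 4) (nat_lit 430) (nat_lit 360) (nat_lit 230)) (XT.lf (nat_lit 0) (nat_lit 44176292885) (nat_lit 76) (nat_lit 8088193555) (nat_lit 152) (nat_lit 45493024472) (nat_lit 25) (nat_lit 5) (nat_lit 26) (nat_lit 5) (nat_lit 27) (nat_lit 4) (nat_lit 431) (nat_lit 360) (nat_lit 229)))))) (XT.nd (nat_lit 546) (nat_lit 380) (nat_lit 0) (XT.nd (nat_lit 234) (nat_lit 152) (nat_lit 0) (XT.nd (nat_lit 78) (nat_lit 152) (nat_lit 0) (XT.lf (nat_lit 0) (nat_lit 75466575455) (nat_lit 152) (nat_lit 10502788478) (nat_lit 0) (nat_lit 15494254316) (nat_lit 25) (nat_lit 5) (nat_lit 27) (nat_lit 4) (nat_lit 25) (nat_lit 4) (nat_lit 432) (nat_lit 360) (nat_lit 228)) (XT.nd (nat_lit 78) (nat_lit 76) (nat_lit 0) (XT.lf (nat_lit 0) (nat_lit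 35733582154) (nat_lit 76) (nat_lit 64781997356) (nat_lit 76) (nat_lit 4805111249) (nat_lit 24) (nat_lit 4) (nat_lit 25) (nat_lit 5) (nat_lit 25) (nat_lit 4) (nat_lit 433) (nat_lit 360) (nat_lit 227)) (XT.lf (nat_lit 0) (nat_lit 17065131165) (nat_lit 152) (nat_lit 24997714806) (nat_lit 76) (nat_lit 67285296425) (nat_lit 23) (nat_lit 5) (nat_lit 25) (nat_lit 5) (nat_lit 24) (nat_lit 4) (nat_lit 434) (nat_lit 360) (nat_lit 226)))) (XT.nd (nat_lit 156) (nat_lit 76) (nat_lit 0) (XT.nd (nat_lit 78) (nat_lit 0) (nat_lit 0) (XT.lf (nat_lit 0) (nat_lit 22454299455) (nat_lit 76) (nat_lit 17760175525) (nat_lit 152) (nat_lit 73341199681) (nat_lit 22) (nat_lit 5) (nat_lit 23) (nat_lit 5) (nat_lit 24) (nat_lit 4) (nat_lit 435) (nat_lit 360) (nat_lit 225)) (XT.lf (nat_lit 0) (nat_lit 65069203763) (nat_lit 152) (nat_lit 44940463873) (nat_lit 0) (nat_lit 7936520290) (nat_lit 22) (nat_lit 5) (nat_lit 24) (nat_lit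 4) (nat_lit 22) (nat_lit 4) (nat_lit 436) (nat_lit 360) (nat_lit 224))) (XT.nd (nat_lit 78) (nat_lit 0) (nat_lit 0) (XT.lf (nat_lit 0) (nat_lit 3337724999) (nat_lit 76) (nat_lit 88168882713) (nat_lit 76) (nat_lit 31032622468) (nat_lit 21) (nat_lit 4) (nat_lit 22) (nat_lit 5) (nat_lit 22) (nat_lit 4) (nat_lit 437) (nat_lit 360) (nat_lit 223)) (XT.lf (nat_lit 0) (nat_lit 55583713051) (nat_lit 76) (nat_lit 64439993600) (nat_lit 76) (nat_lit 7300326905) (nat_lit 21) (nat_lit 4) (nat_lit 22) (nat_lit 5) (nat_lit 22) (nat_lit 4) (nat_lit 438) (nat_lit 360) (nat_lit 222))))) (XT.nd (nat_lit 234) (nat_lit 228) (nat_lit 0) (XT.nd (nat_lit 78) (nat_lit 76) (nat_lit 0) (XT.lf (nat_lit 0) (nat_lit 17051519255) (nat_lit 152) (nat_lit 22187296459) (nat_lit 76) (nat_lit 93095665815) (nat_lit 20) (nat_lit 5) (nat_lit 22) (nat_lit 5) (nat_lit 21) (nat_lit 4) (nat_lit 439) (nat_lit 360) (nat_lit 221)) (XT.nd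 (nat_lit 78) (nat_lit 0) (nat_lit 0) (XT.lf (nat_lit 0) (nat_lit 30700455805) (nat_lit 76) (nat_lit 12151474188) (nat_lit 152) (nat_lit 94713722692) (nat_lit 19) (nat_lit 5) (nat_lit 20) (nat_lit 5) (nat_lit 21) (nat_lit 4) (nat_lit 440) (nat_lit 360) (nat_lit 220)) (XT.lf (nat_lit 0) (nat_lit 70575610587) (nat_lit 152) (nat_lit 56303064014) (nat_lit 0) (nat_lit 16148045538) (nat_lit 19) (nat_lit 5) (nat_lit 21) (nat_lit 4) (nat_lit 19) (nat_lit 4) (nat_lit 441) (nat_lit 360) (nat_lit 219)))) (XT.nd (nat_lit 156) (nat_lit 152) (nat_lit 0) (XT.nd (nat_lit 78) (nat_lit 76) (nat_lit 0) (XT.lf (nat_lit 0) (nat_lit 99881823157) (nat_lit 152) (nat_lit 3417611539) (nat_lit 0) (nat_lit 45451589066) (nat_lit 19) (nat_lit 5) (nat_lit 21) (nat_lit 4) (nat_lit 19) (nat_lit 4) (nat_lit 442) (nat_lit 360) (nat_lit 218)) (XT.lf (nat_lit 0) (nat_lit 53829682877) (nat_lit 76) (nat_lit 77661375165) (nat_lit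 76) (nat_lit 23228599128) (nat_lit 18) (nat_lit 4) (nat_lit 19) (nat_lit 5) (nat_lit 19) (nat_lit 4) (nat_lit 443) (nat_lit 360) (nat_lit 217))) (XT.nd (nat_lit 78) (nat_lit 76) (nat_lit 0) (XT.lf (nat_lit 0) (nat_lit 3631911427) (nat_lit 152) (nat_lit 46989778510) (nat_lit 76) (nat_lit 110359343215) (nat_lit 17) (nat_lit 5) (nat_lit 19) (nat_lit 5) (nat_lit 18) (nat_lit 4) (nat_lit 444) (nat_lit 360) (nat_lit 216)) (XT.lf (nat_lit 0) (nat_lit 9524403169) (nat_lit 76) (nat_lit 21676526452) (nat_lit 152) (nat_lit 136328202869) (nat_lit 16) (nat_lit 5) (nat_lit 17) (nat_lit 5) (nat_lit 18) (nat_lit 4) (nat_lit 445) (nat_lit 360) (nat_lit 215))))))) (XT.nd (nat_lit 1014) (nat_lit 304) (nat_lit 0) (XT.nd (nat_lit 468) (nat_lit 228) (nat_lit 0) (XT.nd (nat_lit 234) (nat_lit 76) (nat_lit 0) (XT.nd (nat_lit 78) (nat_lit 76) (nat_lit 0) (XT.lf (nat_lit 0) (nat_lit 61090738666) (nat_lit 152) (nat_lit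 104023374413) (nat_lit 0) (nat_lit 9243406872) (nat_lit 16) (nat_lit 5) (nat_lit 18) (nat_lit 4) (nat_lit 16) (nat_lit 4) (nat_lit 446) (nat_lit 360) (nat_lit 214)) (XT.nd (nat_lit 78) (nat_lit 76) (nat_lit 0) (XT.lf (nat_lit 0) (nat_lit 92827933854) (nat_lit 152) (nat_lit 47703137914) (nat_lit 0) (nat_lit 40978610380) (nat_lit 16) (nat_lit 5) (nat_lit 18) (nat_lit 4) (nat_lit 16) (nat_lit 4) (nat_lit 447) (nat_lit 360) (nat_lit 213)) (XT.lf (nat_lit 0) (nat_lit 11806385368) (nat_lit 76) (nat_lit 114527594003) (nat_lit 76) (nat_lit 62676373691) (nat_lit 15) (nat_lit 4) (nat_lit 16) (nat_lit 5) (nat_lit 16) (nat_lit 4) (nat_lit 448) (nat_lit 360) (nat_lit 212)))) (XT.nd (nat_lit 78) (nat_lit 76) (nat_lit 0) (XT.lf (nat_lit 0) (nat_lit 75943001186) (nat_lit 76) (nat_lit 86377902242) (nat_lit 76) (nat_lit 34524875417) (nat_lit 15) (nat_lit 4) (nat_lit 16) (nat_lit 5) (nat_lit 16) (nat_lit 4)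 (nat_lit 449) (nat_lit 360) (nat_lit 211)) (XT.nd (nat_lit 78) (nat_lit 76) (nat_lit 0) (XT.lf (nat_lit 0) (nat_lit 143282134592) (nat_lit 76) (nat_lit 56822849130) (nat_lit 76) (nat_lit 4968101816) (nat_lit 15) (nat_lit 4) (nat_lit 16) (nat_lit 5) (nat_lit 16) (nat_lit 4) (nat_lit 450) (nat_lit 360) (nat_lit 210)) (XT.lf (nat_lit 0) (nat_lit 25230099352) (nat_lit 152) (nat_lit 134682201) (nat_lit 76) (nat_lit 188326733564) (nat_lit 14) (nat_lit 5) (nat_lit 16) (nat_lit 5) (nat_lit 15) (nat_lit 4) (nat_lit 451) (nat_lit 360) (nat_lit 209))))) (XT.nd (nat_lit 234) (nat_lit 152) (nat_lit 0) (XT.nd (nat_lit 78) (nat_lit 0) (nat_lit 0) (XT.lf (nat_lit 0) (nat_lit 57947914138) (nat_lit 152) (nat_lit 156170652964) (nat_lit 0) (nat_lit 8559393750) (nat_lit 13) (nat_lit 5) (nat_lit 15) (nat_lit 4) (nat_lit 13) (nat_lit 4) (nat_lit 452) (nat_lit 360) (nat_lit 208)) (XT.nd (nat_lit 78) (nat_lit 0)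 (nat_lit 0) (XT.lf (nat_lit 0) (nat_lit 92717739895) (nat_lit 152) (nat_lit 96047379013) (nat_lit 0) (nat_lit 43327804056) (nat_lit 13) (nat_lit 5) (nat_lit 15) (nat_lit 4) (nat_lit 13) (nat_lit 4) (nat_lit 453) (nat_lit 360) (nat_lit 207)) (XT.lf (nat_lit 0) (nat_lit 129224138692) (nat_lit 152) (nat_lit 32921735697) (nat_lit 0) (nat_lit 79832854806) (nat_lit 13) (nat_lit 5) (nat_lit 15) (nat_lit 4) (nat_lit 13) (nat_lit 4) (nat_lit 454) (nat_lit 360) (nat_lit 206)))) (XT.nd (nat_lit 156) (nat_lit 76) (nat_lit 0) (XT.nd (nat_lit 78) (nat_lit 0) (nat_lit 0) (XT.lf (nat_lit 0) (nat_lit 34459495185) (nat_lit 76) (nat_lit 133632544634) (nat_lit 76) (nat_lit 84239976892) (nat_lit 12) (nat_lit 4) (nat_lit 13) (nat_lit 5) (nat_lit 13) (nat_lit 4) (nat_lit 455) (nat_lit 360) (nat_lit 205)) (XT.lf (nat_lit 0) (nat_lit 106349200572) (nat_lit 76) (nat_lit 103109885538) (nat_lit 76) (nat_lit 53716095077)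 (nat_lit 12) (nat_lit 4) (nat_lit 13) (nat_lit 5) (nat_lit 13) (nat_lit 4) (nat_lit 456) (nat_lit 360) (nat_lit 204))) (XT.nd (nat_lit 78) (nat_lit 76) (nat_lit 0) (XT.lf (nat_lit 0) (nat_lit 181830005167) (nat_lit 76) (nat_lit 71062769628) (nat_lit 76) (nat_lit 21667814673) (nat_lit 12) (nat_lit 4) (nat_lit 13) (nat_lit 5) (nat_lit 13) (nat_lit 4) (nat_lit 457) (nat_lit 360) (nat_lit 203)) (XT.lf (nat_lit 0) (nat_lit 11597697492) (nat_lit 152) (nat_lit 25620784136) (nat_lit 76) (nat_lit 249287515060) (nat_lit 11) (nat_lit 5) (nat_lit 13) (nat_lit 5) (nat_lit 12) (nat_lit 4) (nat_lit 458) (nat_lit 360) (nat_lit 202)))))) (XT.nd (nat_lit 546) (nat_lit 152) (nat_lit 0) (XT.nd (nat_lit 234) (nat_lit 76) (nat_lit 0) (XT.nd (nat_lit 78) (nat_lit 0) (nat_lit 0) (XT.lf (nat_lit 0) (nat_lit 45957086273) (nat_lit 76) (nat_lit 557160799) (nat_lit 152) (nat_lit 252480869643) (nat_lit 10) (nat_lit 5)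 (nat_lit 11) (nat_lit 5) (nat_lit 12) (nat_lit 4) (nat_lit 459) (nat_lit 360) (nat_lit 201)) (XT.nd (nat_lit 78) (nat_lit 0) (nat_lit 0) (XT.lf (nat_lit 0) (nat_lit 84208370900) (nat_lit 152) (nat_lit 190686198115) (nat_lit 0) (nat_lit 37162536461) (nat_lit 10) (nat_lit 5) (nat_lit 12) (nat_lit 4) (nat_lit 10) (nat_lit 4) (nat_lit 460) (nat_lit 360) (nat_lit 200)) (XT.lf (nat_lit 0) (nat_lit 123794836466) (nat_lit 152) (nat_lit 125228885883) (nat_lit 0) (nat_lit 76748089615) (nat_lit 10) (nat_lit 5) (nat_lit 12) (nat_lit 4) (nat_lit 10) (nat_lit 4) (nat_lit 461) (nat_lit 360) (nat_lit 199)))) (XT.nd (nat_lit 156) (nat_lit 0) (nat_lit 0) (XT.nd (nat_lit 78) (nat_lit 76) (nat_lit 0) (XT.lf (nat_lit 0) (nat_lit 165359198418) (nat_lit 152) (nat_lit 56501544164) (nat_lit 0) (nat_lit 118311582603) (nat_lit 10) (nat_lit 5) (nat_lit 12) (nat_lit 4) (nat_lit 10) (nat_lit 4) (nat_lit 462) (nat_lit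 360) (nat_lit 198)) (XT.lf (nat_lit 0) (nat_lit 16177236157) (nat_lit 76) (nat_lit 193075755359) (nat_lit 76) (nat_lit 146027311960) (nat_lit 9) (nat_lit 4) (nat_lit 10) (nat_lit 5) (nat_lit 10) (nat_lit 4) (nat_lit 463) (nat_lit 360) (nat_lit 197))) (XT.nd (nat_lit 78) (nat_lit 0) (nat_lit 0) (XT.lf (nat_lit 0) (nat_lit 94448904019) (nat_lit 76) (nat_lit 161848115515) (nat_lit 76) (nat_lit 114798883940) (nat_lit 9) (nat_lit 4) (nat_lit 10) (nat_lit 5) (nat_lit 10) (nat_lit 4) (nat_lit 464) (nat_lit 360) (nat_lit 196)) (XT.lf (nat_lit 0) (nat_lit 176631624319) (nat_lit 76) (nat_lit 129060352517) (nat_lit 76) (nat_lit 82010370298) (nat_lit 9) (nat_lit 4) (nat_lit 10) (nat_lit 5) (nat_lit 10) (nat_lit 4) (nat_lit 465) (nat_lit 360) (nat_lit 195))))) (XT.nd (nat_lit 234) (nat_lit 0) (nat_lit 0) (XT.nd (nat_lit 78) (nat_lit 152) (nat_lit 0) (XT.lf (nat_lit 0) (nat_lit 262921070199) (nat_lit 76)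 (nat_lit 94634400262) (nat_lit 76) (nat_lit 47583703146) (nat_lit 9) (nat_lit 4) (nat_lit 10) (nat_lit 5) (nat_lit 10) (nat_lit 4) (nat_lit 466) (nat_lit 360) (nat_lit 194)) (XT.nd (nat_lit 78) (nat_lit 152) (nat_lit 0) (XT.lf (nat_lit 0) (nat_lit 353522692721) (nat_lit 76) (nat_lit 58488292198) (nat_lit 76) (nat_lit 11436914226) (nat_lit 9) (nat_lit 4) (nat_lit 10) (nat_lit 5) (nat_lit 10) (nat_lit 4) (nat_lit 467) (nat_lit 360) (nat_lit 193)) (XT.lf (nat_lit 0) (nat_lit 5750144605) (nat_lit 76) (nat_lit 20007011985) (nat_lit 152) (nat_lit 416889771068) (nat_lit 7) (nat_lit 5) (nat_lit 8) (nat_lit 5) (nat_lit 9) (nat_lit 4) (nat_lit 468) (nat_lit 360) (nat_lit 192)))) (XT.nd (nat_lit 156) (nat_lit 0) (nat_lit 0) (XT.nd (nat_lit 78) (nat_lit 0) (nat_lit 0) (XT.lf (nat_lit 0) (nat_lit 65947566432) (nat_lit 152) (nat_lit 375637392587) (nat_lit 0) (nat_lit 21135524563) (nat_lit 7) (nat_lit 5)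 (nat_lit 9) (nat_lit 4) (nat_lit 7) (nat_lit 4) (nat_lit 469) (nat_lit 360) (nat_lit 191)) (XT.lf (nat_lit 0) (nat_lit 108474418722) (nat_lit 152) (nat_lit 311645135811) (nat_lit 0) (nat_lit 63661816711) (nat_lit 7) (nat_lit 5) (nat_lit 9) (nat_lit 4) (nat_lit 7) (nat_lit 4) (nat_lit 470) (nat_lit 360) (nat_lit 190))) (XT.nd (nat_lit 78) (nat_lit 0) (nat_lit 0) (XT.lf (nat_lit 0) (nat_lit 153126602344) (nat_lit 152) (nat_lit 244455284683) (nat_lit 0) (nat_lit 108313466865) (nat_lit 7) (nat_lit 5) (nat_lit 9) (nat_lit 4) (nat_lit 7) (nat_lit 4) (nat_lit 471) (nat_lit 360) (nat_lit 189)) (XT.lf (nat_lit 0) (nat_lit 200010432022) (nat_lit 152) (nat_lit 173907863366) (nat_lit 0) (nat_lit 155196788478) (nat_lit 7) (nat_lit 5) (nat_lit 9) (nat_lit 4) (nat_lit 7) (nat_lit 4) (nat_lit 472) (nat_lit 360) (nat_lit 188))))))))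
noncomputable def xc148 : XT := (XT.nd (nat_lit 45864) (nat_lit 0) (nat_lit 3192) (XT.nd (nat_lit 44772) (nat_lit 0) (nat_lit 6916) (XT.nd (nat_lit 468) (nat_lit 0) (nat_lit 0) (XT.nd (nat_lit 234) (nat_lit 0) (nat_lit 0) (XT.nd (nat_lit 78) (nat_lit 76) (nat_lit 0) (XT.lf (nat_lit 0) (nat_lit 249237535921) (nat_lit 152) (nat_lit 99834901811) (nat_lit 0) (nat_lit 204423408506) (nat_lit 7) (nat_lit 5) (nat_lit 9) (nat_lit 4) (nat_lit 7) (nat_lit 4) (nat_lit 473) (nat_lit 360) (nat_lit 187)) (XT.nd (nat_lit 78) (nat_lit 76) (nat_lit 0) (XT.lf (nat_lit 0) (nat_lit 300925121432) (nat_lit 152) (nat_lit 22060035822) (nat_lit 0) (nat_lit 256110533187) (nat_lit 7) (nat_lit 5) (nat_lit 9) (nat_lit 4) (nat_lit 7) (nat_lit 4) (nat_lit 474) (nat_lit 360) (nat_lit 186)) (XT.lf (nat_lit 0) (nat_lit 61572621259) (nat_lit 76) (nat_lit 294584954150) (nat_lit 76) (nat_lit 249769927019) (nat_lit 6) (nat_lit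 4) (nat_lit 7) (nat_lit 5) (nat_lit 7) (nat_lit 4) (nat_lit 475) (nat_lit 360) (nat_lit 185)))) (XT.nd (nat_lit 78) (nat_lit 0) (nat_lit 0) (XT.lf (nat_lit 0) (nat_lit 150151151997) (nat_lit 76) (nat_lit 264373279594) (nat_lit 76) (nat_lit 219557834477) (nat_lit 6) (nat_lit 4) (nat_lit 7) (nat_lit 5) (nat_lit 7) (nat_lit 4) (nat_lit 476) (nat_lit 360) (nat_lit 184)) (XT.nd (nat_lit 78) (nat_lit 0) (nat_lit 0) (XT.lf (nat_lit 0) (nat_lit 243157053244) (nat_lit 76) (nat_lit 232651798411) (nat_lit 76) (nat_lit 187835955212) (nat_lit 6) (nat_lit 4) (nat_lit 7) (nat_lit 5) (nat_lit 7) (nat_lit 4) (nat_lit 477) (nat_lit 360) (nat_lit 183)) (XT.lf (nat_lit 0) (nat_lit 340811767621) (nat_lit 76) (nat_lit 199344983265) (nat_lit 76) (nat_lit 154528760939) (nat_lit 6) (nat_lit 4) (nat_lit 7) (nat_lit 5) (nat_lit 7) (nat_lit 4) (nat_lit 478) (nat_lit 360) (nat_lit 182))))) (XT.nd (nat_lit 43992) (nat_lit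 0) (nat_lit 9348) (XT.nd (nat_lit 78) (nat_lit 0) (nat_lit 0) (XT.lf (nat_lit 0) (nat_lit 443347806353) (nat_lit 76) (nat_lit 164373532214) (nat_lit 76) (nat_lit 119556948816) (nat_lit 6) (nat_lit 4) (nat_lit 7) (nat_lit 5) (nat_lit 7) (nat_lit 4) (nat_lit 479) (nat_lit 360) (nat_lit 181)) (XT.nd (nat_lit 43836) (nat_lit 0) (nat_lit 9348) (XT.lf (nat_lit 0) (nat_lit 551009302865) (nat_lit 76) (nat_lit 127654179899) (nat_lit 76) (nat_lit 82837252622) (nat_lit 6) (nat_lit 4) (nat_lit 7) (nat_lit 5) (nat_lit 7) (nat_lit 4) (nat_lit 480) (nat_lit 360) (nat_lit 180)) (XT.lf (nat_lit 0) (nat_lit 1969925588) (nat_lit 0) (nat_lit 1969925588) (nat_lit 684) (nat_lit 1896704925) (nat_lit 129) (nat_lit 5) (nat_lit 129) (nat_lit 3) (nat_lit 138) (nat_lit 3) (nat_lit 361) (nat_lit 361) (nat_lit 298)))) (XT.nd (nat_lit 156) (nat_lit 0) (nat_lit 0) (XT.nd (nat_lit 78) (nat_lit 0) (nat_lit 0) (XT.lf (nat_lit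 0) (nat_lit 8586342979) (nat_lit 684) (nat_lit 2071485451) (nat_lit 760) (nat_lit 1281343590) (nat_lit 129) (nat_lit 5) (nat_lit 138) (nat_lit 3) (nat_lit 139) (nat_lit 5) (nat_lit 362) (nat_lit 361) (nat_lit 297)) (XT.lf (nat_lit 76) (nat_lit 3916670984) (nat_lit 0) (nat_lit 5506326029) (nat_lit 760) (nat_lit 2790822028) (nat_lit 130) (nat_lit 5) (nat_lit 129) (nat_lit 5) (nat_lit 139) (nat_lit 5) (nat_lit 363) (nat_lit 361) (nat_lit 296))) (XT.nd (nat_lit 78) (nat_lit 0) (nat_lit 76) (XT.lf (nat_lit 76) (nat_lit 10258956317) (nat_lit 0) (nat_lit 47762883) (nat_lit 760) (nat_lit 2195234850) (nat_lit 130) (nat_lit 5) (nat_lit 129) (nat_lit 5) (nat_lit 139) (nat_lit 5) (nat_lit 364) (nat_lit 361) (nat_lit 295)) (XT.lf (nat_lit 76) (nat_lit 4139611314) (nat_lit 0) (nat_lit 7220149230) (nat_lit 760) (nat_lit 1438495194) (nat_lit 131) (nat_lit 5) (nat_lit 130) (nat_lit 5) (nat_lit 140) (nat_lit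 5) (nat_lit 365) (nat_lit 361) (nat_lit 294)))))) (XT.nd (nat_lit 546) (nat_lit 1824) (nat_lit 0) (XT.nd (nat_lit 234) (nat_lit 0) (nat_lit 76) (XT.nd (nat_lit 78) (nat_lit 684) (nat_lit 0) (XT.lf (nat_lit 76) (nat_lit 10900700842) (nat_lit 0) (nat_lit 1576340982) (nat_lit 760) (nat_lit 631767085) (nat_lit 131) (nat_lit 5) (nat_lit 130) (nat_lit 5) (nat_lit 140) (nat_lit 5) (nat_lit 366) (nat_lit 361) (nat_lit 293)) (XT.nd (nat_lit 78) (nat_lit 0) (nat_lit 0) (XT.lf (nat_lit 0) (nat_lit 324681099) (nat_lit 760) (nat_lit 8807608056) (nat_lit 836) (nat_lit 4296633112) (nat_lit 121) (nat_lit 5) (nat_lit 131) (nat_lit 5) (nat_lit 132) (nat_lit 5) (nat_lit 367) (nat_lit 361) (nat_lit 292)) (XT.lf (nat_lit 0) (nat_lit 1346359637) (nat_lit 760) (nat_lit 1949985499) (nat_lit 836) (nat_lit 10466259982) (nat_lit 121) (nat_lit 5) (nat_lit 131) (nat_lit 5) (nat_lit 132) (nat_lit 5) (nat_lit 368) (nat_lit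 361) (nat_lit 291)))) (XT.nd (nat_lit 156) (nat_lit 0) (nat_lit 76) (XT.nd (nat_lit 78) (nat_lit 0) (nat_lit 0) (XT.lf (nat_lit 0) (nat_lit 2525191742) (nat_lit 760) (nat_lit 8750091838) (nat_lit 836) (nat_lit 2832398042) (nat_lit 122) (nat_lit 5) (nat_lit 132) (nat_lit 5) (nat_lit 133) (nat_lit 5) (nat_lit 369) (nat_lit 361) (nat_lit 290)) (XT.lf (nat_lit 0) (nat_lit 3827511642) (nat_lit 760) (nat_lit 1443634527) (nat_lit 836) (nat_lit 9195650846) (nat_lit 122) (nat_lit 5) (nat_lit 132) (nat_lit 5) (nat_lit 133) (nat_lit 5) (nat_lit 370) (nat_lit 361) (nat_lit 289))) (XT.nd (nat_lit 78) (nat_lit 0) (nat_lit 0) (XT.lf (nat_lit 0) (nat_lit 5290985420) (nat_lit 760) (nat_lit 8442359371) (nat_lit 76) (nat_lit 1105733277) (nat_lit 123) (nat_lit 5) (nat_lit 133) (nat_lit 5) (nat_lit 124) (nat_lit 5) (nat_lit 371) (nat_lit 361) (nat_lit 288)) (XT.lf (nat_lit 0) (nat_lit 6917757438) (nat_lit 760)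 (nat_lit 655223272) (nat_lit 76) (nat_lit 7652497459) (nat_lit 123) (nat_lit 5) (nat_lit 133) (nat_lit 5) (nat_lit 124) (nat_lit 5) (nat_lit 372) (nat_lit 361) (nat_lit 287))))) (XT.nd (nat_lit 234) (nat_lit 836) (nat_lit 0) (XT.nd (nat_lit 78) (nat_lit 380) (nat_lit 0) (XT.lf (nat_lit 0) (nat_lit 7751392291) (nat_lit 760) (nat_lit 975366124) (nat_lit 836) (nat_lit 6899406030) (nat_lit 113) (nat_lit 5) (nat_lit 123) (nat_lit 5) (nat_lit 124) (nat_lit 5) (nat_lit 373) (nat_lit 361) (nat_lit 286)) (XT.nd (nat_lit 78) (nat_lit 0) (nat_lit 0) (XT.lf (nat_lit 0) (nat_lit 457600403) (nat_lit 380) (nat_lit 10260540872) (nat_lit 456) (nat_lit 5324157348) (nat_lit 108) (nat_lit 5) (nat_lit 113) (nat_lit 5) (nat_lit 114) (nat_lit 5) (nat_lit 374) (nat_lit 361) (nat_lit 285)) (XT.lf (nat_lit 0) (nat_lit 9445078426) (nat_lit 380) (nat_lit 3494326875) (nat_lit 456) (nat_lit 3533328303) (nat_lit 108) (nat_lit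 5) (nat_lit 113) (nat_lit 5) (nat_lit 114) (nat_lit 5) (nat_lit 375) (nat_lit 361) (nat_lit 284)))) (XT.nd (nat_lit 156) (nat_lit 380) (nat_lit 0) (XT.nd (nat_lit 78) (nat_lit 76) (nat_lit 0) (XT.lf (nat_lit 0) (nat_lit 1944694062) (nat_lit 380) (nat_lit 13395883399) (nat_lit 456) (nat_lit 1580679858) (nat_lit 103) (nat_lit 5) (nat_lit 108) (nat_lit 5) (nat_lit 109) (nat_lit 5) (nat_lit 376) (nat_lit 361) (nat_lit 283)) (XT.lf (nat_lit 0) (nat_lit 615216433) (nat_lit 456) (nat_lit 5861894605) (nat_lit 76) (nat_lit 10906705689) (nat_lit 102) (nat_lit 5) (nat_lit 108) (nat_lit 5) (nat_lit 103) (nat_lit 5) (nat_lit 377) (nat_lit 361) (nat_lit 282))) (XT.nd (nat_lit 78) (nat_lit 0) (nat_lit 0) (XT.lf (nat_lit 0) (nat_lit 2923801561) (nat_lit 456) (nat_lit 14093829907) (nat_lit 76) (nat_lit 847784212) (nat_lit 97) (nat_lit 5) (nat_lit 103) (nat_lit 5) (nat_lit 98) (nat_lit 5) (nat_lit 378) (nat_lit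 361) (nat_lit 281)) (XT.lf (nat_lit 0) (nat_lit 5538636112) (nat_lit 456) (nat_lit 4402025723) (nat_lit 76) (nat_lit 8420899334) (nat_lit 97) (nat_lit 5) (nat_lit 103) (nat_lit 5) (nat_lit 98) (nat_lit 5) (nat_lit 379) (nat_lit 361) (nat_lit 280))))))) (XT.nd (nat_lit 1014) (nat_lit 1520) (nat_lit 0) (XT.nd (nat_lit 468) (nat_lit 988) (nat_lit 0) (XT.nd (nat_lit 234) (nat_lit 608) (nat_lit 0) (XT.nd (nat_lit 78) (nat_lit 304) (nat_lit 0) (XT.lf (nat_lit 0) (nat_lit 5947253971) (nat_lit 304) (nat_lit 2414322726) (nat_lit 380) (nat_lit 10517076254) (nat_lit 93) (nat_lit 5) (nat_lit 97) (nat_lit 5) (nat_lit 98) (nat_lit 5) (nat_lit 380) (nat_lit 361) (nat_lit 279)) (XT.nd (nat_lit 78) (nat_lit 304) (nat_lit 0) (XT.lf (nat_lit 0) (nat_lit 11472071697) (nat_lit 380) (nat_lit 2555862562) (nat_lit 76) (nat_lit 5386351584) (nat_lit 93) (nat_lit 5) (nat_lit 98) (nat_lit 5) (nat_lit 94) (nat_lit 5)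 (nat_lit 381) (nat_lit 361) (nat_lit 278)) (XT.lf (nat_lit 0) (nat_lit 8555652202) (nat_lit 304) (nat_lit 6341259392) (nat_lit 380) (nat_lit 5071854340) (nat_lit 89) (nat_lit 5) (nat_lit 93) (nat_lit 5) (nat_lit 94) (nat_lit 5) (nat_lit 382) (nat_lit 361) (nat_lit 277)))) (XT.nd (nat_lit 78) (nat_lit 608) (nat_lit 0) (XT.lf (nat_lit 0) (nat_lit 18550033493) (nat_lit 380) (nat_lit 282481132) (nat_lit 76) (nat_lit 1715609654) (nat_lit 89) (nat_lit 5) (nat_lit 94) (nat_lit 5) (nat_lit 90) (nat_lit 5) (nat_lit 383) (nat_lit 361) (nat_lit 276)) (XT.nd (nat_lit 78) (nat_lit 304) (nat_lit 0) (XT.lf (nat_lit 0) (nat_lit 1467139063) (nat_lit 304) (nat_lit 9509260611) (nat_lit 76) (nat_lit 10165240579) (nat_lit 85) (nat_lit 5) (nat_lit 89) (nat_lit 5) (nat_lit 86) (nat_lit 5) (nat_lit 384) (nat_lit 361) (nat_lit 275)) (XT.lf (nat_lit 0) (nat_lit 2415910357) (nat_lit 304) (nat_lit 2652017614) (nat_lit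 380) (nat_lit 16693799348) (nat_lit 81) (nat_lit 5) (nat_lit 85) (nat_lit 5) (nat_lit 86) (nat_lit 5) (nat_lit 385) (nat_lit 361) (nat_lit 274))))) (XT.nd (nat_lit 234) (nat_lit 760) (nat_lit 0) (XT.nd (nat_lit 78) (nat_lit 228) (nat_lit 0) (XT.lf (nat_lit 0) (nat_lit 9094674546) (nat_lit 380) (nat_lit 7252078623) (nat_lit 76) (nat_lit 6053774800) (nat_lit 81) (nat_lit 5) (nat_lit 86) (nat_lit 5) (nat_lit 82) (nat_lit 5) (nat_lit 386) (nat_lit 361) (nat_lit 273)) (XT.nd (nat_lit 78) (nat_lit 0) (nat_lit 0) (XT.lf (nat_lit 0) (nat_lit 5564697834) (nat_lit 228) (nat_lit 7876201960) (nat_lit 304) (nat_lit 9624466686) (nat_lit 78) (nat_lit 5) (nat_lit 81) (nat_lit 5) (nat_lit 82) (nat_lit 5) (nat_lit 387) (nat_lit 361) (nat_lit 272)) (XT.lf (nat_lit 0) (nat_lit 18133211290) (nat_lit 304) (nat_lit 4517672389) (nat_lit 76) (nat_lit 1106129154) (nat_lit 78) (nat_lit 5) (nat_lit 82) (nat_lit 5) (nat_lit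 79) (nat_lit 5) (nat_lit 388) (nat_lit 361) (nat_lit 271)))) (XT.nd (nat_lit 156) (nat_lit 456) (nat_lit 0) (XT.nd (nat_lit 78) (nat_lit 76) (nat_lit 0) (XT.lf (nat_lit 0) (nat_lit 9266169045) (nat_lit 228) (nat_lit 14056379401) (nat_lit 304) (nat_lit 1147576992) (nat_lit 75) (nat_lit 5) (nat_lit 78) (nat_lit 5) (nat_lit 79) (nat_lit 5) (nat_lit 389) (nat_lit 361) (nat_lit 270)) (XT.lf (nat_lit 0) (nat_lit 3505256300) (nat_lit 304) (nat_lit 1391624493) (nat_lit 76) (nat_lit 20315918798) (nat_lit 74) (nat_lit 5) (nat_lit 78) (nat_lit 5) (nat_lit 75) (nat_lit 5) (nat_lit 390) (nat_lit 361) (nat_lit 269))) (XT.nd (nat_lit 78) (nat_lit 228) (nat_lit 0) (XT.lf (nat_lit 0) (nat_lit 8629761474) (nat_lit 304) (nat_lit 12549279106) (nat_lit 76) (nat_lit 4798750257) (nat_lit 71) (nat_lit 5) (nat_lit 75) (nat_lit 5) (nat_lit 72) (nat_lit 5) (nat_lit 391) (nat_lit 361) (nat_lit 268)) (XT.lf (nat_lit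 0) (nat_lit 2233601000) (nat_lit 228) (nat_lit 11905475466) (nat_lit 304) (nat_lit 12635529602) (nat_lit 68) (nat_lit 5) (nat_lit 71) (nat_lit 5) (nat_lit 72) (nat_lit 5) (nat_lit 392) (nat_lit 361) (nat_lit 267)))))) (XT.nd (nat_lit 546) (nat_lit 760) (nat_lit 0) (XT.nd (nat_lit 234) (nat_lit 532) (nat_lit 0) (XT.nd (nat_lit 78) (nat_lit 228) (nat_lit 0) (XT.lf (nat_lit 0) (nat_lit 18176214513) (nat_lit 228) (nat_lit 1949916938) (nat_lit 304) (nat_lit 7475020379) (nat_lit 68) (nat_lit 5) (nat_lit 71) (nat_lit 5) (nat_lit 72) (nat_lit 5) (nat_lit 393) (nat_lit 361) (nat_lit 266)) (XT.nd (nat_lit 78) (nat_lit 76) (nat_lit 0) (XT.lf (nat_lit 0) (nat_lit 6507663334) (nat_lit 152) (nat_lit 20129403372) (nat_lit 228) (nat_lit 1820735113) (nat_lit 66) (nat_lit 5) (nat_lit 68) (nat_lit 5) (nat_lit 69) (nat_lit 5) (nat_lit 394) (nat_lit 361) (nat_lit 265)) (XT.lf (nat_lit 0) (nat_lit 4168959906)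 (nat_lit 228) (nat_lit 5898927016) (nat_lit 76) (nat_lit 19276964986) (nat_lit 65) (nat_lit 5) (nat_lit 68) (nat_lit 5) (nat_lit 66) (nat_lit 5) (nat_lit 395) (nat_lit 361) (nat_lit 264)))) (XT.nd (nat_lit 156) (nat_lit 304) (nat_lit 0) (XT.nd (nat_lit 78) (nat_lit 0) (nat_lit 0) (XT.lf (nat_lit 0) (nat_lit 10574692976) (nat_lit 304) (nat_lit 19005897999) (nat_lit 76) (nat_lit 685286888) (nat_lit 62) (nat_lit 5) (nat_lit 66) (nat_lit 5) (nat_lit 63) (nat_lit 5) (nat_lit 396) (nat_lit 361) (nat_lit 263)) (XT.lf (nat_lit 0) (nat_lit 17558155459) (nat_lit 304) (nat_lit 1927339469) (nat_lit 76) (nat_lit 11734590775) (nat_lit 62) (nat_lit 5) (nat_lit 66) (nat_lit 5) (nat_lit 63) (nat_lit 5) (nat_lit 397) (nat_lit 361) (nat_lit 262))) (XT.nd (nat_lit 78) (nat_lit 152) (nat_lit 0) (XT.lf (nat_lit 0) (nat_lit 16520256580) (nat_lit 152) (nat_lit 8619753918) (nat_lit 228) (nat_lit 7069535063) (nat_lit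 60) (nat_lit 5) (nat_lit 62) (nat_lit 5) (nat_lit 63) (nat_lit 5) (nat_lit 398) (nat_lit 361) (nat_lit 261)) (XT.lf (nat_lit 0) (nat_lit 2740144596) (nat_lit 152) (nat_lit 30471739184) (nat_lit 228) (nat_lit 31050831) (nat_lit 58) (nat_lit 5) (nat_lit 60) (nat_lit 5) (nat_lit 61) (nat_lit 5) (nat_lit 399) (nat_lit 361) (nat_lit 260))))) (XT.nd (nat_lit 234) (nat_lit 532) (nat_lit 0) (XT.nd (nat_lit 78) (nat_lit 152) (nat_lit 0) (XT.lf (nat_lit 0) (nat_lit 7526658729) (nat_lit 228) (nat_lit 11953359237) (nat_lit 76) (nat_lit 14822090054) (nat_lit 57) (nat_lit 5) (nat_lit 60) (nat_lit 5) (nat_lit 58) (nat_lit 5) (nat_lit 400) (nat_lit 361) (nat_lit 259)) (XT.nd (nat_lit 78) (nat_lit 0) (nat_lit 0) (XT.lf (nat_lit 0) (nat_lit 7758168189) (nat_lit 152) (nat_lit 7816052195) (nat_lit 228) (nat_lit 19834345894) (nat_lit 55) (nat_lit 5) (nat_lit 57) (nat_lit 5) (nat_lit 58) (nat_lit 5) (nat_lit 401)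 (nat_lit 361) (nat_lit 258)) (XT.lf (nat_lit 0) (nat_lit 24291085691) (nat_lit 228) (nat_lit 7775744021) (nat_lit 76) (nat_lit 4490173492) (nat_lit 55) (nat_lit 5) (nat_lit 58) (nat_lit 5) (nat_lit 56) (nat_lit 5) (nat_lit 402) (nat_lit 361) (nat_lit 257)))) (XT.nd (nat_lit 156) (nat_lit 304) (nat_lit 0) (XT.nd (nat_lit 78) (nat_lit 76) (nat_lit 0) (XT.lf (nat_lit 0) (nat_lit 13380106968) (nat_lit 152) (nat_lit 20393090695) (nat_lit 228) (nat_lit 3973196083) (nat_lit 53) (nat_lit 5) (nat_lit 55) (nat_lit 5) (nat_lit 56) (nat_lit 5) (nat_lit 403) (nat_lit 361) (nat_lit 256)) (XT.lf (nat_lit 0) (nat_lit 4708898785) (nat_lit 228) (nat_lit 3213734306) (nat_lit 76) (nat_lit 31062613799) (nat_lit 52) (nat_lit 5) (nat_lit 55) (nat_lit 5) (nat_lit 53) (nat_lit 5) (nat_lit 404) (nat_lit 361) (nat_lit 255))) (XT.nd (nat_lit 78) (nat_lit 152) (nat_lit 0) (XT.lf (nat_lit 0) (nat_lit 14076231502) (nat_lit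 228) (nat_lit 20809853130) (nat_lit 76) (nat_lit 5377470088) (nat_lit 50) (nat_lit 5) (nat_lit 53) (nat_lit 5) (nat_lit 51) (nat_lit 5) (nat_lit 405) (nat_lit 361) (nat_lit 254)) (XT.lf (nat_lit 0) (nat_lit 1673642964) (nat_lit 152) (nat_lit 22442474971) (nat_lit 228) (nat_lit 17479452247) (nat_lit 48) (nat_lit 5) (nat_lit 50) (nat_lit 5) (nat_lit 51) (nat_lit 5) (nat_lit 406) (nat_lit 361) (nat_lit 253))))))))
noncomputable def xc149 : XT := (XT.nd (nat_lit 2106) (nat_lit 1140) (nat_lit 0) (XT.nd (nat_lit 1014) (nat_lit 760) (nat_lit 0) (XT.nd (nat_lit 468) (nat_lit 608) (nat_lit 0) (XT.nd (nat_lit 234) (nat_lit 228) (nat_lit 0) (XT.nd (nat_lit 78) (nat_lit 152) (nat_lit 0) (XT.lf (nat_lit 0) (nat_lit 25991802564) (nat_lit 152) (nat_lit 9011633232) (nat_lit 228) (nat_lit 7973480283) (nat_lit 48) (nat_lit 5) (nat_lit 50) (nat_lit 5) (nat_lit 51) (nat_lit 5) (nat_lit 407) (nat_lit 361) (nat_lit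 252)) (XT.nd (nat_lit 78) (nat_lit 0) (nat_lit 0) (XT.lf (nat_lit 0) (nat_lit 2132346460) (nat_lit 152) (nat_lit 37213350571) (nat_lit 76) (nat_lit 5070625356) (nat_lit 46) (nat_lit 5) (nat_lit 48) (nat_lit 5) (nat_lit 47) (nat_lit 5) (nat_lit 408) (nat_lit 361) (nat_lit 251)) (XT.lf (nat_lit 0) (nat_lit 12908904200) (nat_lit 152) (nat_lit 13018036588) (nat_lit 76) (nat_lit 19972553849) (nat_lit 46) (nat_lit 5) (nat_lit 48) (nat_lit 5) (nat_lit 47) (nat_lit 5) (nat_lit 409) (nat_lit 361) (nat_lit 250)))) (XT.nd (nat_lit 78) (nat_lit 76) (nat_lit 0) (XT.lf (nat_lit 0) (nat_lit 12785097230) (nat_lit 152) (nat_lit 11632425206) (nat_lit 228) (nat_lit 23029642685) (nat_lit 44) (nat_lit 5) (nat_lit 46) (nat_lit 5) (nat_lit 47) (nat_lit 5) (nat_lit 410) (nat_lit 361) (nat_lit 249)) (XT.nd (nat_lit 78) (nat_lit 76) (nat_lit 0) (XT.lf (nat_lit 0) (nat_lit 36772054262) (nat_lit 228) (nat_lit 8798395746)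 (nat_lit 76) (nat_lit 3488246174) (nat_lit 44) (nat_lit 5) (nat_lit 47) (nat_lit 5) (nat_lit 45) (nat_lit 4) (nat_lit 411) (nat_lit 361) (nat_lit 248)) (XT.lf (nat_lit 0) (nat_lit 18757444882) (nat_lit 76) (nat_lit 31464400677) (nat_lit 152) (nat_lit 505082726) (nat_lit 43) (nat_lit 5) (nat_lit 44) (nat_lit 5) (nat_lit 45) (nat_lit 4) (nat_lit 412) (nat_lit 361) (nat_lit 247))))) (XT.nd (nat_lit 234) (nat_lit 380) (nat_lit 0) (XT.nd (nat_lit 78) (nat_lit 152) (nat_lit 0) (XT.lf (nat_lit 0) (nat_lit 11631236413) (nat_lit 152) (nat_lit 4672983074) (nat_lit 76) (nat_lit 36157818115) (nat_lit 42) (nat_lit 5) (nat_lit 44) (nat_lit 5) (nat_lit 43) (nat_lit 5) (nat_lit 413) (nat_lit 361) (nat_lit 246)) (XT.nd (nat_lit 78) (nat_lit 0) (nat_lit 0) (XT.lf (nat_lit 0) (nat_lit 24738676299) (nat_lit 228) (nat_lit 29502398916) (nat_lit 76) (nat_lit 23350203) (nat_lit 40) (nat_lit 5) (nat_lit 43) (nat_lit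 5) (nat_lit 41) (nat_lit 4) (nat_lit 414) (nat_lit 361) (nat_lit 245)) (XT.lf (nat_lit 0) (nat_lit 38843544551) (nat_lit 228) (nat_lit 600772722) (nat_lit 76) (nat_lit 16695513466) (nat_lit 40) (nat_lit 5) (nat_lit 43) (nat_lit 5) (nat_lit 41) (nat_lit 4) (nat_lit 415) (nat_lit 361) (nat_lit 244)))) (XT.nd (nat_lit 156) (nat_lit 76) (nat_lit 0) (XT.nd (nat_lit 78) (nat_lit 228) (nat_lit 0) (XT.lf (nat_lit 0) (nat_lit 30719395487) (nat_lit 76) (nat_lit 23408483716) (nat_lit 152) (nat_lit 3957416858) (nat_lit 39) (nat_lit 5) (nat_lit 40) (nat_lit 5) (nat_lit 41) (nat_lit 4) (nat_lit 416) (nat_lit 361) (nat_lit 243)) (XT.lf (nat_lit 0) (nat_lit 3442253871) (nat_lit 152) (nat_lit 6343241710) (nat_lit 228) (nat_lit 50331760141) (nat_lit 36) (nat_lit 5) (nat_lit 38) (nat_lit 5) (nat_lit 39) (nat_lit 5) (nat_lit 417) (nat_lit 361) (nat_lit 242))) (XT.nd (nat_lit 78) (nat_lit 76) (nat_lit 0) (XT.lf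 (nat_lit 0) (nat_lit 24728997700) (nat_lit 228) (nat_lit 25749749522) (nat_lit 76) (nat_lit 11736501167) (nat_lit 36) (nat_lit 5) (nat_lit 39) (nat_lit 5) (nat_lit 37) (nat_lit 4) (nat_lit 418) (nat_lit 361) (nat_lit 241)) (XT.lf (nat_lit 0) (nat_lit 6826938111) (nat_lit 76) (nat_lit 33798230624) (nat_lit 152) (nat_lit 23782697992) (nat_lit 35) (nat_lit 5) (nat_lit 36) (nat_lit 5) (nat_lit 37) (nat_lit 4) (nat_lit 419) (nat_lit 361) (nat_lit 240)))))) (XT.nd (nat_lit 546) (nat_lit 304) (nat_lit 0) (XT.nd (nat_lit 234) (nat_lit 228) (nat_lit 0) (XT.nd (nat_lit 78) (nat_lit 228) (nat_lit 0) (XT.lf (nat_lit 0) (nat_lit 41917239604) (nat_lit 76) (nat_lit 15830010227) (nat_lit 152) (nat_lit 8941311772) (nat_lit 35) (nat_lit 5) (nat_lit 36) (nat_lit 5) (nat_lit 37) (nat_lit 4) (nat_lit 420) (nat_lit 361) (nat_lit 239)) (XT.nd (nat_lit 78) (nat_lit 0) (nat_lit 0) (XT.lf (nat_lit 0) (nat_lit 6630597955)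 (nat_lit 228) (nat_lit 59239762564) (nat_lit 76) (nat_lit 3197693997) (nat_lit 32) (nat_lit 5) (nat_lit 35) (nat_lit 5) (nat_lit 33) (nat_lit 4) (nat_lit 421) (nat_lit 361) (nat_lit 238)) (XT.lf (nat_lit 0) (nat_lit 23361721991) (nat_lit 228) (nat_lit 24949566218) (nat_lit 76) (nat_lit 23213850246) (nat_lit 32) (nat_lit 5) (nat_lit 35) (nat_lit 5) (nat_lit 33) (nat_lit 4) (nat_lit 422) (nat_lit 361) (nat_lit 237)))) (XT.nd (nat_lit 156) (nat_lit 152) (nat_lit 0) (XT.nd (nat_lit 78) (nat_lit 0) (nat_lit 0) (XT.lf (nat_lit 0) (nat_lit 11411870795) (nat_lit 76) (nat_lit 29691136581) (nat_lit 152) (nat_lit 32993389529) (nat_lit 31) (nat_lit 5) (nat_lit 32) (nat_lit 5) (nat_lit 33) (nat_lit 4) (nat_lit 423) (nat_lit 361) (nat_lit 236)) (XT.lf (nat_lit 0) (nat_lit 50449189401) (nat_lit 76) (nat_lit 9700221024) (nat_lit 152) (nat_lit 16625905728) (nat_lit 31) (nat_lit 5) (nat_lit 32) (nat_lit 5)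 (nat_lit 33) (nat_lit 4) (nat_lit 424) (nat_lit 361) (nat_lit 235))) (XT.nd (nat_lit 78) (nat_lit 0) (nat_lit 0) (XT.lf (nat_lit 0) (nat_lit 908038902) (nat_lit 152) (nat_lit 67533318176) (nat_lit 76) (nat_lit 11128087228) (nat_lit 29) (nat_lit 5) (nat_lit 31) (nat_lit 5) (nat_lit 30) (nat_lit 4) (nat_lit 425) (nat_lit 361) (nat_lit 234)) (XT.lf (nat_lit 0) (nat_lit 19367802507) (nat_lit 152) (nat_lit 29697547323) (nat_lit 76) (nat_lit 33393908656) (nat_lit 29) (nat_lit 5) (nat_lit 31) (nat_lit 5) (nat_lit 30) (nat_lit 4) (nat_lit 426) (nat_lit 361) (nat_lit 233))))) (XT.nd (nat_lit 234) (nat_lit 152) (nat_lit 0) (XT.nd (nat_lit 78) (nat_lit 76) (nat_lit 0) (XT.lf (nat_lit 0) (nat_lit 10353629759) (nat_lit 76) (nat_lit 28554465651) (nat_lit 152) (nat_lit 46577591358) (nat_lit 28) (nat_lit 5) (nat_lit 29) (nat_lit 5) (nat_lit 30) (nat_lit 4) (nat_lit 427) (nat_lit 361) (nat_lit 232)) (XT.nd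 (nat_lit 78) (nat_lit 76) (nat_lit 0) (XT.lf (nat_lit 0) (nat_lit 53430759568) (nat_lit 76) (nat_lit 6493554038) (nat_lit 152) (nat_lit 28714177752) (nat_lit 28) (nat_lit 5) (nat_lit 29) (nat_lit 5) (nat_lit 30) (nat_lit 4) (nat_lit 428) (nat_lit 361) (nat_lit 231)) (XT.lf (nat_lit 0) (nat_lit 6658229943) (nat_lit 76) (nat_lit 75693444788) (nat_lit 76) (nat_lit 9579245253) (nat_lit 27) (nat_lit 4) (nat_lit 28) (nat_lit 5) (nat_lit 28) (nat_lit 4) (nat_lit 429) (nat_lit 361) (nat_lit 230)))) (XT.nd (nat_lit 156) (nat_lit 76) (nat_lit 0) (XT.nd (nat_lit 78) (nat_lit 0) (nat_lit 0) (XT.lf (nat_lit 0) (nat_lit 10884571943) (nat_lit 152) (nat_lit 43806111571) (nat_lit 76) (nat_lit 40653650388) (nat_lit 26) (nat_lit 5) (nat_lit 28) (nat_lit 5) (nat_lit 27) (nat_lit 4) (nat_lit 430) (nat_lit 361) (nat_lit 229)) (XT.lf (nat_lit 0) (nat_lit 32045954712) (nat_lit 152) (nat_lit 430309771) (nat_lit 76)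 (nat_lit 66444487535) (nat_lit 26) (nat_lit 5) (nat_lit 28) (nat_lit 5) (nat_lit 27) (nat_lit 4) (nat_lit 431) (nat_lit 361) (nat_lit 228))) (XT.nd (nat_lit 78) (nat_lit 0) (nat_lit 0) (XT.lf (nat_lit 0) (nat_lit 46599009252) (nat_lit 76) (nat_lit 8390414846) (nat_lit 152) (nat_lit 47650366403) (nat_lit 25) (nat_lit 5) (nat_lit 26) (nat_lit 5) (nat_lit 27) (nat_lit 4) (nat_lit 432) (nat_lit 361) (nat_lit 227)) (XT.lf (nat_lit 0) (nat_lit 79347817354) (nat_lit 152) (nat_lit 10820401967) (nat_lit 0) (nat_lit 16363174385) (nat_lit 25) (nat_lit 5) (nat_lit 27) (nat_lit 4) (nat_lit 25) (nat_lit 4) (nat_lit 433) (nat_lit 361) (nat_lit 226))))))) (XT.nd (nat_lit 1014) (nat_lit 456) (nat_lit 0) (XT.nd (nat_lit 468) (nat_lit 380) (nat_lit 0) (XT.nd (nat_lit 234) (nat_lit 76) (nat_lit 0) (XT.nd (nat_lit 78) (nat_lit 152) (nat_lit 0) (XT.lf (nat_lit 0) (nat_lit 37724440004) (nat_lit 76) (nat_lit 67922880690)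 (nat_lit 76) (nat_lit 4934097160) (nat_lit 24) (nat_lit 4) (nat_lit 25) (nat_lit 5) (nat_lit 25) (nat_lit 4) (nat_lit 434) (nat_lit 361) (nat_lit 225)) (XT.nd (nat_lit 78) (nat_lit 76) (nat_lit 0) (XT.lf (nat_lit 0) (nat_lit 18020967083) (nat_lit 152) (nat_lit 26049744399) (nat_lit 76) (nat_lit 70739700600) (nat_lit 23) (nat_lit 5) (nat_lit 25) (nat_lit 5) (nat_lit 24) (nat_lit 4) (nat_lit 435) (nat_lit 361) (nat_lit 224)) (XT.lf (nat_lit 0) (nat_lit 23771679347) (nat_lit 76) (nat_lit 18554253276) (nat_lit 152) (nat_lit 76902481014) (nat_lit 22) (nat_lit 5) (nat_lit 23) (nat_lit 5) (nat_lit 24) (nat_lit 4) (nat_lit 436) (nat_lit 361) (nat_lit 223)))) (XT.nd (nat_lit 78) (nat_lit 76) (nat_lit 0) (XT.lf (nat_lit 0) (nat_lit 68419997685) (nat_lit 152) (nat_lit 46998684067) (nat_lit 0) (nat_lit 8419941206) (nat_lit 22) (nat_lit 5) (nat_lit 24) (nat_lit 4) (nat_lit 22) (nat_lit 4) (nat_lit 437)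 (nat_lit 361) (nat_lit 222)) (XT.nd (nat_lit 78) (nat_lit 0) (nat_lit 0) (XT.lf (nat_lit 0) (nat_lit 3690369039) (nat_lit 76) (nat_lit 92487168052) (nat_lit 76) (nat_lit 32483867335) (nat_lit 21) (nat_lit 4) (nat_lit 22) (nat_lit 5) (nat_lit 22) (nat_lit 4) (nat_lit 438) (nat_lit 361) (nat_lit 221)) (XT.lf (nat_lit 0) (nat_lit 58539810885) (nat_lit 76) (nat_lit 67576127759) (nat_lit 76) (nat_lit 7569737292) (nat_lit 21) (nat_lit 4) (nat_lit 22) (nat_lit 5) (nat_lit 22) (nat_lit 4) (nat_lit 439) (nat_lit 361) (nat_lit 220))))) (XT.nd (nat_lit 234) (nat_lit 228) (nat_lit 0) (XT.nd (nat_lit 78) (nat_lit 76) (nat_lit 0) (XT.lf (nat_lit 0) (nat_lit 17992234237) (nat_lit 152) (nat_lit 23125252899) (nat_lit 76) (nat_lit 97829305202) (nat_lit 20) (nat_lit 5) (nat_lit 22) (nat_lit 5) (nat_lit 21) (nat_lit 4) (nat_lit 440) (nat_lit 361) (nat_lit 219)) (XT.nd (nat_lit 78) (nat_lit 0) (nat_lit 0) (XT.lf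 (nat_lit 0) (nat_lit 32404122326) (nat_lit 76) (nat_lit 12676979091) (nat_lit 152) (nat_lit 99358499140) (nat_lit 19) (nat_lit 5) (nat_lit 20) (nat_lit 5) (nat_lit 21) (nat_lit 4) (nat_lit 441) (nat_lit 361) (nat_lit 218)) (XT.lf (nat_lit 0) (nat_lit 74188063734) (nat_lit 152) (nat_lit 58954696101) (nat_lit 0) (nat_lit 17031106950) (nat_lit 19) (nat_lit 5) (nat_lit 21) (nat_lit 4) (nat_lit 19) (nat_lit 4) (nat_lit 442) (nat_lit 361) (nat_lit 217)))) (XT.nd (nat_lit 156) (nat_lit 152) (nat_lit 0) (XT.nd (nat_lit 78) (nat_lit 76) (nat_lit 0) (XT.lf (nat_lit 0) (nat_lit 104955602522) (nat_lit 152) (nat_lit 3432757722) (nat_lit 0) (nat_lit 47796224839) (nat_lit 19) (nat_lit 5) (nat_lit 21) (nat_lit 4) (nat_lit 19) (nat_lit 4) (nat_lit 443) (nat_lit 361) (nat_lit 216)) (XT.lf (nat_lit 0) (nat_lit 56674389570) (nat_lit 76) (nat_lit 81469507138) (nat_lit 76) (nat_lit 24307823835) (nat_lit 18) (nat_lit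 4) (nat_lit 19) (nat_lit 5) (nat_lit 19) (nat_lit 4) (nat_lit 444) (nat_lit 361) (nat_lit 215))) (XT.nd (nat_lit 78) (nat_lit 76) (nat_lit 0) (XT.lf (nat_lit 0) (nat_lit 3889291920) (nat_lit 152) (nat_lit 49190830693) (nat_lit 76) (nat_lit 115946168237) (nat_lit 17) (nat_lit 5) (nat_lit 19) (nat_lit 5) (nat_lit 18) (nat_lit 4) (nat_lit 445) (nat_lit 361) (nat_lit 214)) (XT.lf (nat_lit 0) (nat_lit 10146665930) (nat_lit 76) (nat_lit 22688766423) (nat_lit 152) (nat_lit 143066429460) (nat_lit 16) (nat_lit 5) (nat_lit 17) (nat_lit 5) (nat_lit 18) (nat_lit 4) (nat_lit 446) (nat_lit 361) (nat_lit 213)))))) (XT.nd (nat_lit 546) (nat_lit 228) (nat_lit 0) (XT.nd (nat_lit 234) (nat_lit 152) (nat_lit 0) (XT.nd (nat_lit 78) (nat_lit 76) (nat_lit 0) (XT.lf (nat_lit 0) (nat_lit 64217250755) (nat_lit 152) (nat_lit 109082969572) (nat_lit 0) (nat_lit 9771572589) (nat_lit 16) (nat_lit 5) (nat_lit 18) (nat_lit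 4) (nat_lit 16) (nat_lit 4) (nat_lit 447) (nat_lit 361) (nat_lit 212)) (XT.nd (nat_lit 78) (nat_lit 76) (nat_lit 0) (XT.lf (nat_lit 0) (nat_lit 97537878314) (nat_lit 152) (nat_lit 49953462845) (nat_lit 0) (nat_lit 43090393635) (nat_lit 16) (nat_lit 5) (nat_lit 18) (nat_lit 4) (nat_lit 16) (nat_lit 4) (nat_lit 448) (nat_lit 361) (nat_lit 211)) (XT.lf (nat_lit 0) (nat_lit 12529361892) (nat_lit 76) (nat_lit 120188671188) (nat_lit 76) (nat_lit 65739466021) (nat_lit 15) (nat_lit 4) (nat_lit 16) (nat_lit 5) (nat_lit 16) (nat_lit 4) (nat_lit 449) (nat_lit 361) (nat_lit 210)))) (XT.nd (nat_lit 156) (nat_lit 152) (nat_lit 0) (XT.nd (nat_lit 78) (nat_lit 0) (nat_lit 0) (XT.lf (nat_lit 0) (nat_lit 79866491488) (nat_lit 76) (nat_lit 90634604482) (nat_lit 76) (nat_lit 36183760754) (nat_lit 15) (nat_lit 4) (nat_lit 16) (nat_lit 5) (nat_lit 16) (nat_lit 4) (nat_lit 450) (nat_lit 361) (nat_lit 209)) (XT.lf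 (nat_lit 0) (nat_lit 150566565362) (nat_lit 76) (nat_lit 59604760280) (nat_lit 76) (nat_lit 5152356018) (nat_lit 15) (nat_lit 4) (nat_lit 16) (nat_lit 5) (nat_lit 16) (nat_lit 4) (nat_lit 451) (nat_lit 361) (nat_lit 208))) (XT.nd (nat_lit 78) (nat_lit 76) (nat_lit 0) (XT.lf (nat_lit 0) (nat_lit 26550744948) (nat_lit 152) (nat_lit 24863340) (nat_lit 76) (nat_lit 197797522363) (nat_lit 14) (nat_lit 5) (nat_lit 16) (nat_lit 5) (nat_lit 15) (nat_lit 4) (nat_lit 452) (nat_lit 361) (nat_lit 207)) (XT.lf (nat_lit 0) (nat_lit 60904307655) (nat_lit 152) (nat_lit 163862486784) (nat_lit 0) (nat_lit 9042111527) (nat_lit 13) (nat_lit 5) (nat_lit 15) (nat_lit 4) (nat_lit 13) (nat_lit 4) (nat_lit 453) (nat_lit 361) (nat_lit 206))))) (XT.nd (nat_lit 234) (nat_lit 152) (nat_lit 0) (XT.nd (nat_lit 78) (nat_lit 76) (nat_lit 0) (XT.lf (nat_lit 0) (nat_lit 97409815280) (nat_lit 152) (nat_lit 100738606223) (nat_lit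 0) (nat_lit 45546335297) (nat_lit 13) (nat_lit 5) (nat_lit 15) (nat_lit 4) (nat_lit 13) (nat_lit 4) (nat_lit 454) (nat_lit 361) (nat_lit 205)) (XT.nd (nat_lit 78) (nat_lit 76) (nat_lit 0) (XT.lf (nat_lit 0) (nat_lit 135738858380) (nat_lit 152) (nat_lit 34461973204) (nat_lit 0) (nat_lit 83874155677) (nat_lit 13) (nat_lit 5) (nat_lit 15) (nat_lit 4) (nat_lit 13) (nat_lit 4) (nat_lit 455) (nat_lit 361) (nat_lit 204)) (XT.lf (nat_lit 0) (nat_lit 36286611976) (nat_lit 76) (nat_lit 140262620309) (nat_lit 76) (nat_lit 88396753113) (nat_lit 12) (nat_lit 4) (nat_lit 13) (nat_lit 5) (nat_lit 13) (nat_lit 4) (nat_lit 456) (nat_lit 361) (nat_lit 203)))) (XT.nd (nat_lit 156) (nat_lit 152) (nat_lit 0) (XT.nd (nat_lit 78) (nat_lit 0) (nat_lit 0) (XT.lf (nat_lit 0) (nat_lit 111765843487) (nat_lit 76) (nat_lit 108216283095) (nat_lit 76) (nat_lit 56349306856) (nat_lit 12) (nat_lit 4) (nat_lit 13) (nat_lit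 5) (nat_lit 13) (nat_lit 4) (nat_lit 457) (nat_lit 361) (nat_lit 202)) (XT.lf (nat_lit 0) (nat_lit 191015965318) (nat_lit 76) (nat_lit 74569149329) (nat_lit 76) (nat_lit 22701116859) (nat_lit 12) (nat_lit 4) (nat_lit 13) (nat_lit 5) (nat_lit 13) (nat_lit 4) (nat_lit 458) (nat_lit 361) (nat_lit 201))) (XT.nd (nat_lit 78) (nat_lit 76) (nat_lit 0) (XT.lf (nat_lit 0) (nat_lit 12223758940) (nat_lit 152) (nat_lit 26810332575) (nat_lit 76) (nat_lit 261794894019) (nat_lit 11) (nat_lit 5) (nat_lit 13) (nat_lit 5) (nat_lit 12) (nat_lit 4) (nat_lit 459) (nat_lit 361) (nat_lit 200)) (XT.lf (nat_lit 0) (nat_lit 48344955697) (nat_lit 76) (nat_lit 540386806) (nat_lit 152) (nat_lit 265057258838) (nat_lit 10) (nat_lit 5) (nat_lit 11) (nat_lit 5) (nat_lit 12) (nat_lit 4) (nat_lit 460) (nat_lit 361) (nat_lit 199))))))))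
noncomputable def xc150 : XT := (XT.nd (nat_lit 45942) (nat_lit 0) (nat_lit 4560) (XT.nd (nat_lit 1014) (nat_lit 76) (nat_lit 0) (XT.nd (nat_lit 468) (nat_lit 152) (nat_lit 0) (XT.nd (nat_lit 234) (nat_lit 76) (nat_lit 0) (XT.nd (nat_lit 78) (nat_lit 0) (nat_lit 0) (XT.lf (nat_lit 0) (nat_lit 88462675072) (nat_lit 152) (nat_lit 200133279935) (nat_lit 0) (nat_lit 39061809503) (nat_lit 10) (nat_lit 5) (nat_lit 12) (nat_lit 4) (nat_lit 10) (nat_lit 4) (nat_lit 461) (nat_lit 361) (nat_lit 198)) (XT.nd (nat_lit 78) (nat_lit 0) (nat_lit 0) (XT.lf (nat_lit 0) (nat_lit 130026374124) (nat_lit 152) (nat_lit 131407255811) (nat_lit 0) (nat_lit 80624680971) (nat_lit 10) (nat_lit 5) (nat_lit 12) (nat_lit 4) (nat_lit 10) (nat_lit 4) (nat_lit 462) (nat_lit 361) (nat_lit 197)) (XT.lf (nat_lit 0) (nat_lit 173666963896) (nat_lit 152) (nat_lit 59247502927) (nat_lit 0) (nat_lit 124264482567) (nat_lit 10) (nat_lit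 5) (nat_lit 12) (nat_lit 4) (nat_lit 10) (nat_lit 4) (nat_lit 463) (nat_lit 361) (nat_lit 196)))) (XT.nd (nat_lit 78) (nat_lit 0) (nat_lit 0) (XT.lf (nat_lit 0) (nat_lit 17063940305) (nat_lit 76) (nat_lit 202690826177) (nat_lit 76) (nat_lit 153287594205) (nat_lit 9) (nat_lit 4) (nat_lit 10) (nat_lit 5) (nat_lit 10) (nat_lit 4) (nat_lit 464) (nat_lit 361) (nat_lit 195)) (XT.nd (nat_lit 78) (nat_lit 0) (nat_lit 0) (XT.lf (nat_lit 0) (nat_lit 99245484783) (nat_lit 76) (nat_lit 169903648005) (nat_lit 76) (nat_lit 120499701134) (nat_lit 9) (nat_lit 4) (nat_lit 10) (nat_lit 5) (nat_lit 10) (nat_lit 4) (nat_lit 465) (nat_lit 361) (nat_lit 194)) (XT.lf (nat_lit 0) (nat_lit 185533810832) (nat_lit 76) (nat_lit 135478252728) (nat_lit 76) (nat_lit 86073625001) (nat_lit 9) (nat_lit 4) (nat_lit 10) (nat_lit 5) (nat_lit 10) (nat_lit 4) (nat_lit 466) (nat_lit 361) (nat_lit 193))))) (XT.nd (nat_lit 234) (nat_lit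 0) (nat_lit 0) (XT.nd (nat_lit 78) (nat_lit 152) (nat_lit 0) (XT.lf (nat_lit 0) (nat_lit 276134366849) (nat_lit 76) (nat_lit 99332675119) (nat_lit 76) (nat_lit 49927398958) (nat_lit 9) (nat_lit 4) (nat_lit 10) (nat_lit 5) (nat_lit 10) (nat_lit 4) (nat_lit 467) (nat_lit 361) (nat_lit 192)) (XT.nd (nat_lit 78) (nat_lit 152) (nat_lit 0) (XT.lf (nat_lit 0) (nat_lit 371262868443) (nat_lit 76) (nat_lit 61380854278) (nat_lit 76) (nat_lit 11974960561) (nat_lit 9) (nat_lit 4) (nat_lit 10) (nat_lit 5) (nat_lit 10) (nat_lit 4) (nat_lit 468) (nat_lit 361) (nat_lit 191)) (XT.lf (nat_lit 0) (nat_lit 6101725648) (nat_lit 76) (nat_lit 20975448748) (nat_lit 152) (nat_lit 437700490384) (nat_lit 7) (nat_lit 5) (nat_lit 8) (nat_lit 5) (nat_lit 9) (nat_lit 4) (nat_lit 469) (nat_lit 361) (nat_lit 190)))) (XT.nd (nat_lit 156) (nat_lit 0) (nat_lit 0) (XT.nd (nat_lit 78) (nat_lit 0) (nat_lit 0) (XT.lf (nat_lit 0)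 (nat_lit 69276047840) (nat_lit 152) (nat_lit 394357181445) (nat_lit 0) (nat_lit 22221722119) (nat_lit 7) (nat_lit 5) (nat_lit 9) (nat_lit 4) (nat_lit 7) (nat_lit 4) (nat_lit 470) (nat_lit 361) (nat_lit 189)) (XT.lf (nat_lit 0) (nat_lit 113927761645) (nat_lit 152) (nat_lit 327168268058) (nat_lit 0) (nat_lit 66872927859) (nat_lit 7) (nat_lit 5) (nat_lit 9) (nat_lit 4) (nat_lit 7) (nat_lit 4) (nat_lit 471) (nat_lit 361) (nat_lit 188))) (XT.nd (nat_lit 78) (nat_lit 0) (nat_lit 0) (XT.lf (nat_lit 0) (nat_lit 160811143878) (nat_lit 152) (nat_lit 256621739827) (nat_lit 0) (nat_lit 113755826220) (nat_lit 7) (nat_lit 5) (nat_lit 9) (nat_lit 4) (nat_lit 7) (nat_lit 4) (nat_lit 472) (nat_lit 361) (nat_lit 187)) (XT.lf (nat_lit 0) (nat_lit 210037821639) (nat_lit 152) (nat_lit 182549628830) (nat_lit 0) (nat_lit 162982043151) (nat_lit 7) (nat_lit 5) (nat_lit 9) (nat_lit 4) (nat_lit 7) (nat_lit 4) (nat_lit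 473) (nat_lit 361) (nat_lit 186)))))) (XT.nd (nat_lit 44382) (nat_lit 0) (nat_lit 8664) (XT.nd (nat_lit 234) (nat_lit 0) (nat_lit 0) (XT.nd (nat_lit 78) (nat_lit 76) (nat_lit 0) (XT.lf (nat_lit 0) (nat_lit 261725001304) (nat_lit 152) (nat_lit 104775572897) (nat_lit 0) (nat_lit 214668783930) (nat_lit 7) (nat_lit 5) (nat_lit 9) (nat_lit 4) (nat_lit 7) (nat_lit 4) (nat_lit 474) (nat_lit 361) (nat_lit 185)) (XT.nd (nat_lit 78) (nat_lit 76) (nat_lit 0) (XT.lf (nat_lit 0) (nat_lit 315995747586) (nat_lit 152) (nat_lit 23114395705) (nat_lit 0) (nat_lit 268939112226) (nat_lit 7) (nat_lit 5) (nat_lit 9) (nat_lit 4) (nat_lit 7) (nat_lit 4) (nat_lit 475) (nat_lit 361) (nat_lit 184)) (XT.lf (nat_lit 0) (nat_lit 64699109684) (nat_lit 76) (nat_lit 309290301285) (nat_lit 76) (nat_lit 262233267843) (nat_lit 6) (nat_lit 4) (nat_lit 7) (nat_lit 5) (nat_lit 7) (nat_lit 4) (nat_lit 476) (nat_lit 361) (nat_lit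 183)))) (XT.nd (nat_lit 156) (nat_lit 0) (nat_lit 0) (XT.nd (nat_lit 78) (nat_lit 0) (nat_lit 0) (XT.lf (nat_lit 0) (nat_lit 157704288037) (nat_lit 76) (nat_lit 277569181124) (nat_lit 76) (nat_lit 230511768557) (nat_lit 6) (nat_lit 4) (nat_lit 7) (nat_lit 5) (nat_lit 7) (nat_lit 4) (nat_lit 477) (nat_lit 361) (nat_lit 182)) (XT.lf (nat_lit 0) (nat_lit 255358313944) (nat_lit 76) (nat_lit 244262709808) (nat_lit 76) (nat_lit 197204936168) (nat_lit 6) (nat_lit 4) (nat_lit 7) (nat_lit 5) (nat_lit 7) (nat_lit 4) (nat_lit 478) (nat_lit 361) (nat_lit 181))) (XT.nd (nat_lit 78) (nat_lit 0) (nat_lit 0) (XT.lf (nat_lit 0) (nat_lit 357893696990) (nat_lit 76) (nat_lit 209291586215) (nat_lit 76) (nat_lit 162233468697) (nat_lit 6) (nat_lit 4) (nat_lit 7) (nat_lit 5) (nat_lit 7) (nat_lit 4) (nat_lit 479) (nat_lit 361) (nat_lit 180)) (XT.lf (nat_lit 0) (nat_lit 465554569040) (nat_lit 76) (nat_lit 172572545765)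 (nat_lit 76) (nat_lit 125514100743) (nat_lit 6) (nat_lit 4) (nat_lit 7) (nat_lit 5) (nat_lit 7) (nat_lit 4) (nat_lit 480) (nat_lit 361) (nat_lit 179))))) (XT.nd (nat_lit 234) (nat_lit 684) (nat_lit 0) (XT.nd (nat_lit 78) (nat_lit 0) (nat_lit 0) (XT.lf (nat_lit 0) (nat_lit 2309095301) (nat_lit 0) (nat_lit 2309095301) (nat_lit 684) (nat_lit 1485844834) (nat_lit 129) (nat_lit 5) (nat_lit 129) (nat_lit 3) (nat_lit 138) (nat_lit 3) (nat_lit 362) (nat_lit 362) (nat_lit 296)) (XT.nd (nat_lit 78) (nat_lit 0) (nat_lit 0) (XT.lf (nat_lit 0) (nat_lit 9925353997) (nat_lit 684) (nat_lit 1663098790) (nat_lit 760) (nat_lit 901657663) (nat_lit 129) (nat_lit 5) (nat_lit 138) (nat_lit 3) (nat_lit 139) (nat_lit 5) (nat_lit 363) (nat_lit 362) (nat_lit 295)) (XT.lf (nat_lit 76) (nat_lit 4616208032) (nat_lit 0) (nat_lit 6152178168) (nat_lit 760) (nat_lit 2011901847) (nat_lit 130) (nat_lit 5) (nat_lit 129) (nat_lit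 5) (nat_lit 139) (nat_lit 5) (nat_lit 364) (nat_lit 362) (nat_lit 294)))) (XT.nd (nat_lit 156) (nat_lit 684) (nat_lit 0) (XT.nd (nat_lit 78) (nat_lit 0) (nat_lit 76) (XT.lf (nat_lit 76) (nat_lit 11251621751) (nat_lit 0) (nat_lit 403042301) (nat_lit 760) (nat_lit 1430271562) (nat_lit 130) (nat_lit 5) (nat_lit 129) (nat_lit 5) (nat_lit 139) (nat_lit 5) (nat_lit 365) (nat_lit 362) (nat_lit 293)) (XT.lf (nat_lit 76) (nat_lit 4865429720) (nat_lit 0) (nat_lit 7858132955) (nat_lit 760) (nat_lit 674352579) (nat_lit 131) (nat_lit 5) (nat_lit 130) (nat_lit 5) (nat_lit 140) (nat_lit 5) (nat_lit 366) (nat_lit 362) (nat_lit 292))) (XT.nd (nat_lit 78) (nat_lit 0) (nat_lit 76) (XT.lf (nat_lit 0) (nat_lit 128645597) (nat_lit 760) (nat_lit 1788120676) (nat_lit 836) (nat_lit 11809042887) (nat_lit 120) (nat_lit 5) (nat_lit 130) (nat_lit 5) (nat_lit 131) (nat_lit 5) (nat_lit 367) (nat_lit 362) (nat_lit 291))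 (XT.lf (nat_lit 0) (nat_lit 1079372342) (nat_lit 760) (nat_lit 8695240585) (nat_lit 836) (nat_lit 4288433012) (nat_lit 121) (nat_lit 5) (nat_lit 131) (nat_lit 5) (nat_lit 132) (nat_lit 5) (nat_lit 368) (nat_lit 362) (nat_lit 290))))))) (XT.nd (nat_lit 1014) (nat_lit 2052) (nat_lit 0) (XT.nd (nat_lit 468) (nat_lit 1520) (nat_lit 0) (XT.nd (nat_lit 234) (nat_lit 608) (nat_lit 0) (XT.nd (nat_lit 78) (nat_lit 0) (nat_lit 76) (XT.lf (nat_lit 0) (nat_lit 2116970179) (nat_lit 760) (nat_lit 1521058228) (nat_lit 836) (nat_lit 10777161785) (nat_lit 121) (nat_lit 5) (nat_lit 131) (nat_lit 5) (nat_lit 132) (nat_lit 5) (nat_lit 369) (nat_lit 362) (nat_lit 289)) (XT.nd (nat_lit 78) (nat_lit 0) (nat_lit 0) (XT.lf (nat_lit 0) (nat_lit 3326842880) (nat_lit 760) (nat_lit 8632906443) (nat_lit 836) (nat_lit 2819184370) (nat_lit 122) (nat_lit 5) (nat_lit 132) (nat_lit 5) (nat_lit 133) (nat_lit 5) (nat_lit 370)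 (nat_lit 362) (nat_lit 288)) (XT.lf (nat_lit 0) (nat_lit 4662117273) (nat_lit 760) (nat_lit 987540075) (nat_lit 836) (nat_lit 9507972841) (nat_lit 122) (nat_lit 5) (nat_lit 132) (nat_lit 5) (nat_lit 133) (nat_lit 5) (nat_lit 371) (nat_lit 362) (nat_lit 287)))) (XT.nd (nat_lit 78) (nat_lit 760) (nat_lit 0) (XT.lf (nat_lit 0) (nat_lit 6174673321) (nat_lit 760) (nat_lit 8311781006) (nat_lit 76) (nat_lit 1063291975) (nat_lit 123) (nat_lit 5) (nat_lit 133) (nat_lit 5) (nat_lit 124) (nat_lit 5) (nat_lit 372) (nat_lit 362) (nat_lit 286)) (XT.nd (nat_lit 78) (nat_lit 760) (nat_lit 0) (XT.lf (nat_lit 0) (nat_lit 7853301148) (nat_lit 760) (nat_lit 161606975) (nat_lit 76) (nat_lit 7942048079) (nat_lit 123) (nat_lit 5) (nat_lit 133) (nat_lit 5) (nat_lit 124) (nat_lit 5) (nat_lit 373) (nat_lit 362) (nat_lit 285)) (XT.lf (nat_lit 0) (nat_lit 8656849407) (nat_lit 760) (nat_lit 1075909593) (nat_lit 836)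 (nat_lit 6645932359) (nat_lit 113) (nat_lit 5) (nat_lit 123) (nat_lit 5) (nat_lit 124) (nat_lit 5) (nat_lit 374) (nat_lit 362) (nat_lit 284))))) (XT.nd (nat_lit 234) (nat_lit 760) (nat_lit 0) (XT.nd (nat_lit 78) (nat_lit 380) (nat_lit 0) (XT.lf (nat_lit 0) (nat_lit 1019127311) (nat_lit 380) (nat_lit 10785096825) (nat_lit 456) (nat_lit 5012396654) (nat_lit 108) (nat_lit 5) (nat_lit 113) (nat_lit 5) (nat_lit 114) (nat_lit 5) (nat_lit 375) (nat_lit 362) (nat_lit 283)) (XT.nd (nat_lit 78) (nat_lit 380) (nat_lit 0) (XT.lf (nat_lit 0) (nat_lit 10430329382) (nat_lit 380) (nat_lit 3680023132) (nat_lit 456) (nat_lit 3159548469) (nat_lit 108) (nat_lit 5) (nat_lit 113) (nat_lit 5) (nat_lit 114) (nat_lit 5) (nat_lit 376) (nat_lit 362) (nat_lit 282)) (XT.lf (nat_lit 0) (nat_lit 2572862693) (nat_lit 380) (nat_lit 14041895409) (nat_lit 456) (nat_lit 1126946921) (nat_lit 103) (nat_lit 5) (nat_lit 108) (nat_lit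 5) (nat_lit 109) (nat_lit 5) (nat_lit 377) (nat_lit 362) (nat_lit 281)))) (XT.nd (nat_lit 156) (nat_lit 304) (nat_lit 0) (XT.nd (nat_lit 78) (nat_lit 380) (nat_lit 0) (XT.lf (nat_lit 0) (nat_lit 1137134456) (nat_lit 456) (nat_lit 5632864473) (nat_lit 76) (nat_lit 11458217147) (nat_lit 102) (nat_lit 5) (nat_lit 108) (nat_lit 5) (nat_lit 103) (nat_lit 5) (nat_lit 378) (nat_lit 362) (nat_lit 280)) (XT.lf (nat_lit 0) (nat_lit 3546372703) (nat_lit 456) (nat_lit 14261397901) (nat_lit 76) (nat_lit 926874305) (nat_lit 97) (nat_lit 5) (nat_lit 103) (nat_lit 5) (nat_lit 98) (nat_lit 5) (nat_lit 379) (nat_lit 362) (nat_lit 279))) (XT.nd (nat_lit 78) (nat_lit 304) (nat_lit 0) (XT.lf (nat_lit 0) (nat_lit 6269264169) (nat_lit 456) (nat_lit 4110580817) (nat_lit 76) (nat_lit 8876897522) (nat_lit 97) (nat_lit 5) (nat_lit 103) (nat_lit 5) (nat_lit 98) (nat_lit 5) (nat_lit 380) (nat_lit 362) (nat_lit 278))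 (XT.lf (nat_lit 0) (nat_lit 6747912116) (nat_lit 304) (nat_lit 2471692936) (nat_lit 380) (nat_lit 10580781255) (nat_lit 93) (nat_lit 5) (nat_lit 97) (nat_lit 5) (nat_lit 98) (nat_lit 5) (nat_lit 381) (nat_lit 362) (nat_lit 277)))))) (XT.nd (nat_lit 546) (nat_lit 912) (nat_lit 0) (XT.nd (nat_lit 234) (nat_lit 608) (nat_lit 0) (XT.nd (nat_lit 78) (nat_lit 532) (nat_lit 0) (XT.lf (nat_lit 0) (nat_lit 12465616737) (nat_lit 380) (nat_lit 2184126422) (nat_lit 76) (nat_lit 5714067698) (nat_lit 93) (nat_lit 5) (nat_lit 98) (nat_lit 5) (nat_lit 94) (nat_lit 5) (nat_lit 382) (nat_lit 362) (nat_lit 276)) (XT.nd (nat_lit 78) (nat_lit 228) (nat_lit 0) (XT.lf (nat_lit 0) (nat_lit 9474907156) (nat_lit 304) (nat_lit 6574467521) (nat_lit 380) (nat_lit 4897265625) (nat_lit 89) (nat_lit 5) (nat_lit 93) (nat_lit 5) (nat_lit 94) (nat_lit 5) (nat_lit 383) (nat_lit 362) (nat_lit 275)) (XT.lf (nat_lit 0) (nat_lit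 196077234) (nat_lit 228) (nat_lit 19673973261) (nat_lit 304) (nat_lit 1685679896) (nat_lit 86) (nat_lit 5) (nat_lit 89) (nat_lit 5) (nat_lit 90) (nat_lit 5) (nat_lit 384) (nat_lit 362) (nat_lit 274)))) (XT.nd (nat_lit 156) (nat_lit 228) (nat_lit 0) (XT.nd (nat_lit 78) (nat_lit 304) (nat_lit 0) (XT.lf (nat_lit 0) (nat_lit 1925239961) (nat_lit 304) (nat_lit 9493282684) (nat_lit 76) (nat_lit 10760804296) (nat_lit 85) (nat_lit 5) (nat_lit 89) (nat_lit 5) (nat_lit 86) (nat_lit 5) (nat_lit 385) (nat_lit 362) (nat_lit 273)) (XT.lf (nat_lit 0) (nat_lit 3020220365) (nat_lit 304) (nat_lit 2675075824) (nat_lit 380) (nat_lit 17135668306) (nat_lit 81) (nat_lit 5) (nat_lit 85) (nat_lit 5) (nat_lit 86) (nat_lit 5) (nat_lit 386) (nat_lit 362) (nat_lit 272))) (XT.nd (nat_lit 78) (nat_lit 228) (nat_lit 0) (XT.lf (nat_lit 0) (nat_lit 9907200738) (nat_lit 380) (nat_lit 7137869781) (nat_lit 76) (nat_lit 6457450798)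 (nat_lit 81) (nat_lit 5) (nat_lit 86) (nat_lit 5) (nat_lit 82) (nat_lit 5) (nat_lit 387) (nat_lit 362) (nat_lit 271)) (XT.lf (nat_lit 0) (nat_lit 6312054970) (nat_lit 228) (nat_lit 8148968855) (nat_lit 304) (nat_lit 9740070430) (nat_lit 78) (nat_lit 5) (nat_lit 81) (nat_lit 5) (nat_lit 82) (nat_lit 5) (nat_lit 388) (nat_lit 362) (nat_lit 270))))) (XT.nd (nat_lit 234) (nat_lit 608) (nat_lit 0) (XT.nd (nat_lit 78) (nat_lit 304) (nat_lit 0) (XT.lf (nat_lit 0) (nat_lit 19373175535) (nat_lit 304) (nat_lit 4281867465) (nat_lit 76) (nat_lit 1273025197) (nat_lit 78) (nat_lit 5) (nat_lit 82) (nat_lit 5) (nat_lit 79) (nat_lit 5) (nat_lit 389) (nat_lit 362) (nat_lit 269)) (XT.nd (nat_lit 78) (nat_lit 76) (nat_lit 0) (XT.lf (nat_lit 0) (nat_lit 10183719451) (nat_lit 228) (nat_lit 14629480484) (nat_lit 304) (nat_lit 864081674) (nat_lit 75) (nat_lit 5) (nat_lit 78) (nat_lit 5) (nat_lit 79) (nat_lit 5)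 (nat_lit 390) (nat_lit 362) (nat_lit 268)) (XT.lf (nat_lit 0) (nat_lit 3994770607) (nat_lit 304) (nat_lit 1018091381) (nat_lit 76) (nat_lit 21444752630) (nat_lit 74) (nat_lit 5) (nat_lit 78) (nat_lit 5) (nat_lit 75) (nat_lit 5) (nat_lit 391) (nat_lit 362) (nat_lit 267)))) (XT.nd (nat_lit 156) (nat_lit 152) (nat_lit 0) (XT.nd (nat_lit 78) (nat_lit 228) (nat_lit 0) (XT.lf (nat_lit 0) (nat_lit 9369371043) (nat_lit 304) (nat_lit 12727391702) (nat_lit 76) (nat_lit 5164404530) (nat_lit 71) (nat_lit 5) (nat_lit 75) (nat_lit 5) (nat_lit 72) (nat_lit 5) (nat_lit 392) (nat_lit 362) (nat_lit 266)) (XT.lf (nat_lit 0) (nat_lit 2787384806) (nat_lit 228) (nat_lit 12358997006) (nat_lit 304) (nat_lit 12951835053) (nat_lit 68) (nat_lit 5) (nat_lit 71) (nat_lit 5) (nat_lit 72) (nat_lit 5) (nat_lit 393) (nat_lit 362) (nat_lit 265))) (XT.nd (nat_lit 78) (nat_lit 152) (nat_lit 0) (XT.lf (nat_lit 0) (nat_lit 19506076435)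 (nat_lit 228) (nat_lit 1912410658) (nat_lit 304) (nat_lit 7548322799) (nat_lit 68) (nat_lit 5) (nat_lit 71) (nat_lit 5) (nat_lit 72) (nat_lit 5) (nat_lit 394) (nat_lit 362) (nat_lit 264)) (XT.lf (nat_lit 0) (nat_lit 7259400063) (nat_lit 152) (nat_lit 20990611629) (nat_lit 228) (nat_lit 1616533181) (nat_lit 66) (nat_lit 5) (nat_lit 68) (nat_lit 5) (nat_lit 69) (nat_lit 5) (nat_lit 395) (nat_lit 362) (nat_lit 263))))))))
noncomputable def xc151 : XT := (XT.nd (nat_lit 2106) (nat_lit 1292) (nat_lit 0) (XT.nd (nat_lit 1014) (nat_lit 1216) (nat_lit 0) (XT.nd (nat_lit 468) (nat_lit 684) (nat_lit 0) (XT.nd (nat_lit 234) (nat_lit 380) (nat_lit 0) (XT.nd (nat_lit 78) (nat_lit 228) (nat_lit 0) (XT.lf (nat_lit 0) (nat_lit 4649588098) (nat_lit 228) (nat_lit 5778738990) (nat_lit 76) (nat_lit 20370074549) (nat_lit 65) (nat_lit 5) (nat_lit 68) (nat_lit 5) (nat_lit 66) (nat_lit 5) (nat_lit 396) (nat_lit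 362) (nat_lit 262)) (XT.nd (nat_lit 78) (nat_lit 0) (nat_lit 0) (XT.lf (nat_lit 0) (nat_lit 11371253904) (nat_lit 304) (nat_lit 19536624740) (nat_lit 76) (nat_lit 857821933) (nat_lit 62) (nat_lit 5) (nat_lit 66) (nat_lit 5) (nat_lit 63) (nat_lit 5) (nat_lit 397) (nat_lit 362) (nat_lit 261)) (XT.lf (nat_lit 0) (nat_lit 18691135879) (nat_lit 304) (nat_lit 1624117719) (nat_lit 76) (nat_lit 12453006696) (nat_lit 62) (nat_lit 5) (nat_lit 66) (nat_lit 5) (nat_lit 63) (nat_lit 5) (nat_lit 398) (nat_lit 362) (nat_lit 260)))) (XT.nd (nat_lit 78) (nat_lit 228) (nat_lit 0) (XT.lf (nat_lit 0) (nat_lit 17739413153) (nat_lit 152) (nat_lit 8906662276) (nat_lit 228) (nat_lit 7161421750) (nat_lit 60) (nat_lit 5) (nat_lit 62) (nat_lit 5) (nat_lit 63) (nat_lit 5) (nat_lit 399) (nat_lit 362) (nat_lit 259)) (XT.nd (nat_lit 78) (nat_lit 0) (nat_lit 0) (XT.lf (nat_lit 0) (nat_lit 218075710) (nat_lit 228) (nat_lit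 31622187552) (nat_lit 76) (nat_lit 3052296047) (nat_lit 57) (nat_lit 5) (nat_lit 60) (nat_lit 5) (nat_lit 58) (nat_lit 5) (nat_lit 400) (nat_lit 362) (nat_lit 258)) (XT.lf (nat_lit 0) (nat_lit 8140739830) (nat_lit 228) (nat_lit 12165091071) (nat_lit 76) (nat_lit 15699432535) (nat_lit 57) (nat_lit 5) (nat_lit 60) (nat_lit 5) (nat_lit 58) (nat_lit 5) (nat_lit 401) (nat_lit 362) (nat_lit 257))))) (XT.nd (nat_lit 234) (nat_lit 380) (nat_lit 0) (XT.nd (nat_lit 78) (nat_lit 152) (nat_lit 0) (XT.lf (nat_lit 0) (nat_lit 8525787949) (nat_lit 152) (nat_lit 8059498635) (nat_lit 228) (nat_lit 20582030651) (nat_lit 55) (nat_lit 5) (nat_lit 57) (nat_lit 5) (nat_lit 58) (nat_lit 5) (nat_lit 402) (nat_lit 362) (nat_lit 256)) (XT.nd (nat_lit 78) (nat_lit 152) (nat_lit 0) (XT.lf (nat_lit 0) (nat_lit 25729121713) (nat_lit 228) (nat_lit 7793971161) (nat_lit 76) (nat_lit 4850529645) (nat_lit 55) (nat_lit 5) (nat_lit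 58) (nat_lit 5) (nat_lit 56) (nat_lit 5) (nat_lit 403) (nat_lit 362) (nat_lit 255)) (XT.lf (nat_lit 0) (nat_lit 14413695602) (nat_lit 152) (nat_lit 21266693860) (nat_lit 228) (nat_lit 3942343318) (nat_lit 53) (nat_lit 5) (nat_lit 55) (nat_lit 5) (nat_lit 56) (nat_lit 5) (nat_lit 404) (nat_lit 362) (nat_lit 254)))) (XT.nd (nat_lit 156) (nat_lit 152) (nat_lit 0) (XT.nd (nat_lit 78) (nat_lit 152) (nat_lit 0) (XT.lf (nat_lit 0) (nat_lit 5155931089) (nat_lit 228) (nat_lit 3020153779) (nat_lit 76) (nat_lit 32747795967) (nat_lit 52) (nat_lit 5) (nat_lit 55) (nat_lit 5) (nat_lit 53) (nat_lit 5) (nat_lit 405) (nat_lit 362) (nat_lit 253)) (XT.lf (nat_lit 0) (nat_lit 14989207512) (nat_lit 228) (nat_lit 21493608920) (nat_lit 76) (nat_lit 5783411106) (nat_lit 50) (nat_lit 5) (nat_lit 53) (nat_lit 5) (nat_lit 51) (nat_lit 5) (nat_lit 406) (nat_lit 362) (nat_lit 252))) (XT.nd (nat_lit 78) (nat_lit 0) (nat_lit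 0) (XT.lf (nat_lit 0) (nat_lit 2108308159) (nat_lit 152) (nat_lit 23418299726) (nat_lit 228) (nat_lit 18138462131) (nat_lit 48) (nat_lit 5) (nat_lit 50) (nat_lit 5) (nat_lit 51) (nat_lit 5) (nat_lit 407) (nat_lit 362) (nat_lit 251)) (XT.lf (nat_lit 0) (nat_lit 27625662260) (nat_lit 152) (nat_lit 9322882519) (nat_lit 228) (nat_lit 8167427890) (nat_lit 48) (nat_lit 5) (nat_lit 50) (nat_lit 5) (nat_lit 51) (nat_lit 5) (nat_lit 408) (nat_lit 362) (nat_lit 250)))))) (XT.nd (nat_lit 546) (nat_lit 608) (nat_lit 0) (XT.nd (nat_lit 234) (nat_lit 304) (nat_lit 0) (XT.nd (nat_lit 78) (nat_lit 152) (nat_lit 0) (XT.lf (nat_lit 0) (nat_lit 2435144317) (nat_lit 152) (nat_lit 38731123904) (nat_lit 76) (nat_lit 5461022842) (nat_lit 46) (nat_lit 5) (nat_lit 48) (nat_lit 5) (nat_lit 47) (nat_lit 5) (nat_lit 409) (nat_lit 362) (nat_lit 249)) (XT.nd (nat_lit 78) (nat_lit 152) (nat_lit 0) (XT.lf (nat_lit 0) (nat_lit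 13741188014) (nat_lit 152) (nat_lit 13342372517) (nat_lit 76) (nat_lit 21101530321) (nat_lit 46) (nat_lit 5) (nat_lit 48) (nat_lit 5) (nat_lit 47) (nat_lit 5) (nat_lit 410) (nat_lit 362) (nat_lit 248)) (XT.lf (nat_lit 0) (nat_lit 13745650800) (nat_lit 152) (nat_lit 12075705658) (nat_lit 228) (nat_lit 23988984178) (nat_lit 44) (nat_lit 5) (nat_lit 46) (nat_lit 5) (nat_lit 47) (nat_lit 5) (nat_lit 411) (nat_lit 362) (nat_lit 247)))) (XT.nd (nat_lit 156) (nat_lit 228) (nat_lit 0) (XT.nd (nat_lit 78) (nat_lit 76) (nat_lit 0) (XT.lf (nat_lit 0) (nat_lit 38786959631) (nat_lit 228) (nat_lit 8925628332) (nat_lit 76) (nat_lit 3790194709) (nat_lit 44) (nat_lit 5) (nat_lit 47) (nat_lit 5) (nat_lit 45) (nat_lit 4) (nat_lit 412) (nat_lit 362) (nat_lit 246)) (XT.lf (nat_lit 0) (nat_lit 20002960985) (nat_lit 76) (nat_lit 32902687326) (nat_lit 152) (nat_lit 348959259) (nat_lit 43) (nat_lit 5) (nat_lit 44)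 (nat_lit 5) (nat_lit 45) (nat_lit 4) (nat_lit 413) (nat_lit 362) (nat_lit 245))) (XT.nd (nat_lit 78) (nat_lit 152) (nat_lit 0) (XT.lf (nat_lit 0) (nat_lit 12380010031) (nat_lit 152) (nat_lit 4608080632) (nat_lit 76) (nat_lit 38088659562) (nat_lit 42) (nat_lit 5) (nat_lit 44) (nat_lit 5) (nat_lit 43) (nat_lit 5) (nat_lit 414) (nat_lit 362) (nat_lit 244)) (XT.lf (nat_lit 0) (nat_lit 26141473607) (nat_lit 228) (nat_lit 30677591661) (nat_lit 76) (nat_lit 150260945) (nat_lit 40) (nat_lit 5) (nat_lit 43) (nat_lit 5) (nat_lit 41) (nat_lit 4) (nat_lit 415) (nat_lit 362) (nat_lit 243))))) (XT.nd (nat_lit 234) (nat_lit 304) (nat_lit 0) (XT.nd (nat_lit 78) (nat_lit 304) (nat_lit 0) (XT.lf (nat_lit 0) (nat_lit 40943687010) (nat_lit 228) (nat_lit 345166404) (nat_lit 76) (nat_lit 17650044597) (nat_lit 40) (nat_lit 5) (nat_lit 43) (nat_lit 5) (nat_lit 41) (nat_lit 4) (nat_lit 416) (nat_lit 362) (nat_lit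 242)) (XT.nd (nat_lit 78) (nat_lit 228) (nat_lit 0) (XT.lf (nat_lit 0) (nat_lit 32536403039) (nat_lit 76) (nat_lit 24452700990) (nat_lit 152) (nat_lit 3992690529) (nat_lit 39) (nat_lit 5) (nat_lit 40) (nat_lit 5) (nat_lit 41) (nat_lit 4) (nat_lit 417) (nat_lit 362) (nat_lit 241)) (XT.lf (nat_lit 0) (nat_lit 3896014866) (nat_lit 152) (nat_lit 6533050954) (nat_lit 228) (nat_lit 52686315454) (nat_lit 36) (nat_lit 5) (nat_lit 38) (nat_lit 5) (nat_lit 39) (nat_lit 5) (nat_lit 418) (nat_lit 362) (nat_lit 240)))) (XT.nd (nat_lit 156) (nat_lit 228) (nat_lit 0) (XT.nd (nat_lit 78) (nat_lit 76) (nat_lit 0) (XT.lf (nat_lit 0) (nat_lit 26114289293) (nat_lit 228) (nat_lit 26763525379) (nat_lit 76) (nat_lit 12440732659) (nat_lit 36) (nat_lit 5) (nat_lit 39) (nat_lit 5) (nat_lit 37) (nat_lit 4) (nat_lit 419) (nat_lit 362) (nat_lit 239)) (XT.lf (nat_lit 0) (nat_lit 7437581933) (nat_lit 76) (nat_lit 35364803727)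 (nat_lit 152) (nat_lit 24818556106) (nat_lit 35) (nat_lit 5) (nat_lit 36) (nat_lit 5) (nat_lit 37) (nat_lit 4) (nat_lit 420) (nat_lit 362) (nat_lit 238))) (XT.nd (nat_lit 78) (nat_lit 228) (nat_lit 0) (XT.lf (nat_lit 0) (nat_lit 44269574838) (nat_lit 76) (nat_lit 16504045568) (nat_lit 152) (nat_lit 9242399470) (nat_lit 35) (nat_lit 5) (nat_lit 36) (nat_lit 5) (nat_lit 37) (nat_lit 4) (nat_lit 421) (nat_lit 362) (nat_lit 237)) (XT.lf (nat_lit 0) (nat_lit 7102564411) (nat_lit 228) (nat_lit 61939700027) (nat_lit 76) (nat_lit 3472153377) (nat_lit 32) (nat_lit 5) (nat_lit 35) (nat_lit 5) (nat_lit 33) (nat_lit 4) (nat_lit 422) (nat_lit 362) (nat_lit 236))))))) (XT.nd (nat_lit 1092) (nat_lit 608) (nat_lit 0) (XT.nd (nat_lit 546) (nat_lit 380) (nat_lit 0) (XT.nd (nat_lit 234) (nat_lit 228) (nat_lit 0) (XT.nd (nat_lit 78) (nat_lit 76) (nat_lit 0) (XT.lf (nat_lit 0) (nat_lit 24663557193) (nat_lit 228)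 (nat_lit 25947472467) (nat_lit 76) (nat_lit 24483661501) (nat_lit 32) (nat_lit 5) (nat_lit 35) (nat_lit 5) (nat_lit 33) (nat_lit 4) (nat_lit 423) (nat_lit 362) (nat_lit 235)) (XT.nd (nat_lit 78) (nat_lit 0) (nat_lit 0) (XT.lf (nat_lit 0) (nat_lit 12228011040) (nat_lit 76) (nat_lit 31061360475) (nat_lit 152) (nat_lit 34505268584) (nat_lit 31) (nat_lit 5) (nat_lit 32) (nat_lit 5) (nat_lit 33) (nat_lit 4) (nat_lit 424) (nat_lit 362) (nat_lit 234)) (XT.lf (nat_lit 0) (nat_lit 53205502877) (nat_lit 76) (nat_lit 10076343565) (nat_lit 152) (nat_lit 17325972042) (nat_lit 31) (nat_lit 5) (nat_lit 32) (nat_lit 5) (nat_lit 33) (nat_lit 4) (nat_lit 425) (nat_lit 362) (nat_lit 233)))) (XT.nd (nat_lit 156) (nat_lit 76) (nat_lit 0) (XT.nd (nat_lit 78) (nat_lit 0) (nat_lit 0) (XT.lf (nat_lit 0) (nat_lit 1079788689) (nat_lit 152) (nat_lit 70671220680) (nat_lit 76) (nat_lit 11790575972) (nat_lit 29) (nat_lit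 5) (nat_lit 31) (nat_lit 5) (nat_lit 30) (nat_lit 4) (nat_lit 426) (nat_lit 362) (nat_lit 232)) (XT.lf (nat_lit 0) (nat_lit 20456523910) (nat_lit 152) (nat_lit 30955030970) (nat_lit 76) (nat_lit 35164636835) (nat_lit 29) (nat_lit 5) (nat_lit 31) (nat_lit 5) (nat_lit 30) (nat_lit 4) (nat_lit 427) (nat_lit 362) (nat_lit 231))) (XT.nd (nat_lit 78) (nat_lit 0) (nat_lit 0) (XT.lf (nat_lit 0) (nat_lit 11095037326) (nat_lit 76) (nat_lit 29876557062) (nat_lit 152) (nat_lit 48782459501) (nat_lit 28) (nat_lit 5) (nat_lit 29) (nat_lit 5) (nat_lit 30) (nat_lit 4) (nat_lit 428) (nat_lit 362) (nat_lit 230)) (XT.lf (nat_lit 0) (nat_lit 56315370002) (nat_lit 76) (nat_lit 6717629958) (nat_lit 152) (nat_lit 30031780521) (nat_lit 28) (nat_lit 5) (nat_lit 29) (nat_lit 5) (nat_lit 30) (nat_lit 4) (nat_lit 429) (nat_lit 362) (nat_lit 229))))) (XT.nd (nat_lit 234) (nat_lit 228) (nat_lit 0) (XT.nd (nat_lit 78) (nat_lit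 76) (nat_lit 0) (XT.lf (nat_lit 0) (nat_lit 7204776453) (nat_lit 76) (nat_lit 79376428266) (nat_lit 76) (nat_lit 9940652609) (nat_lit 27) (nat_lit 4) (nat_lit 28) (nat_lit 5) (nat_lit 28) (nat_lit 4) (nat_lit 430) (nat_lit 362) (nat_lit 228)) (XT.nd (nat_lit 78) (nat_lit 0) (nat_lit 0) (XT.lf (nat_lit 0) (nat_lit 11537174270) (nat_lit 152) (nat_lit 45789361618) (nat_lit 76) (nat_lit 42779585733) (nat_lit 26) (nat_lit 5) (nat_lit 28) (nat_lit 5) (nat_lit 27) (nat_lit 4) (nat_lit 431) (nat_lit 362) (nat_lit 227)) (XT.lf (nat_lit 0) (nat_lit 33751465524) (nat_lit 152) (nat_lit 254629516) (nat_lit 76) (nat_lit 69855524126) (nat_lit 26) (nat_lit 5) (nat_lit 28) (nat_lit 5) (nat_lit 27) (nat_lit 4) (nat_lit 432) (nat_lit 362) (nat_lit 226)))) (XT.nd (nat_lit 156) (nat_lit 152) (nat_lit 0) (XT.nd (nat_lit 78) (nat_lit 0) (nat_lit 0) (XT.lf (nat_lit 0) (nat_lit 49122974882) (nat_lit 76) (nat_lit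 8717247709) (nat_lit 152) (nat_lit 49926481738) (nat_lit 25) (nat_lit 5) (nat_lit 26) (nat_lit 5) (nat_lit 27) (nat_lit 4) (nat_lit 433) (nat_lit 362) (nat_lit 225)) (XT.lf (nat_lit 0) (nat_lit 83413088608) (nat_lit 152) (nat_lit 11173189925) (nat_lit 0) (nat_lit 17266781951) (nat_lit 25) (nat_lit 5) (nat_lit 27) (nat_lit 4) (nat_lit 25) (nat_lit 4) (nat_lit 434) (nat_lit 362) (nat_lit 224))) (XT.nd (nat_lit 78) (nat_lit 76) (nat_lit 0) (XT.lf (nat_lit 0) (nat_lit 39795858143) (nat_lit 76) (nat_lit 71229939432) (nat_lit 76) (nat_lit 5079877164) (nat_lit 24) (nat_lit 4) (nat_lit 25) (nat_lit 5) (nat_lit 25) (nat_lit 4) (nat_lit 435) (nat_lit 362) (nat_lit 223)) (XT.lf (nat_lit 0) (nat_lit 19015057940) (nat_lit 152) (nat_lit 27172770261) (nat_lit 76) (nat_lit 74358444682) (nat_lit 23) (nat_lit 5) (nat_lit 25) (nat_lit 5) (nat_lit 24) (nat_lit 4) (nat_lit 436) (nat_lit 362) (nat_lit 222))))))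 (XT.nd (nat_lit 546) (nat_lit 304) (nat_lit 0) (XT.nd (nat_lit 234) (nat_lit 152) (nat_lit 0) (XT.nd (nat_lit 78) (nat_lit 76) (nat_lit 0) (XT.lf (nat_lit 0) (nat_lit 25136830135) (nat_lit 76) (nat_lit 19396767730) (nat_lit 152) (nat_lit 80651660711) (nat_lit 22) (nat_lit 5) (nat_lit 23) (nat_lit 5) (nat_lit 24) (nat_lit 4) (nat_lit 437) (nat_lit 362) (nat_lit 221)) (XT.nd (nat_lit 78) (nat_lit 76) (nat_lit 0) (XT.lf (nat_lit 0) (nat_lit 71929282134) (nat_lit 152) (nat_lit 49177368384) (nat_lit 0) (nat_lit 8919482394) (nat_lit 22) (nat_lit 5) (nat_lit 24) (nat_lit 4) (nat_lit 22) (nat_lit 4) (nat_lit 438) (nat_lit 362) (nat_lit 220)) (XT.lf (nat_lit 0) (nat_lit 4043375283) (nat_lit 76) (nat_lit 97029749768) (nat_lit 76) (nat_lit 34017007409) (nat_lit 21) (nat_lit 4) (nat_lit 22) (nat_lit 5) (nat_lit 22) (nat_lit 4) (nat_lit 439) (nat_lit 362) (nat_lit 219)))) (XT.nd (nat_lit 156) (nat_lit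 76) (nat_lit 0) (XT.nd (nat_lit 78) (nat_lit 76) (nat_lit 0) (XT.lf (nat_lit 0) (nat_lit 61627265993) (nat_lit 76) (nat_lit 70877051589) (nat_lit 76) (nat_lit 7861506735) (nat_lit 21) (nat_lit 4) (nat_lit 22) (nat_lit 5) (nat_lit 22) (nat_lit 4) (nat_lit 440) (nat_lit 362) (nat_lit 218)) (XT.lf (nat_lit 0) (nat_lit 18971790637) (nat_lit 152) (nat_lit 24126043088) (nat_lit 76) (nat_lit 102792295265) (nat_lit 20) (nat_lit 5) (nat_lit 22) (nat_lit 5) (nat_lit 21) (nat_lit 4) (nat_lit 441) (nat_lit 362) (nat_lit 217))) (XT.nd (nat_lit 78) (nat_lit 0) (nat_lit 0) (XT.lf (nat_lit 0) (nat_lit 34177293278) (nat_lit 76) (nat_lit 13236389218) (nat_lit 152) (nat_lit 104243966331) (nat_lit 19) (nat_lit 5) (nat_lit 20) (nat_lit 5) (nat_lit 21) (nat_lit 4) (nat_lit 442) (nat_lit 362) (nat_lit 216)) (XT.lf (nat_lit 0) (nat_lit 77973360451) (nat_lit 152) (nat_lit 61754112435) (nat_lit 0) (nat_lit 17951287364)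 (nat_lit 19) (nat_lit 5) (nat_lit 21) (nat_lit 4) (nat_lit 19) (nat_lit 4) (nat_lit 443) (nat_lit 362) (nat_lit 215))))) (XT.nd (nat_lit 234) (nat_lit 152) (nat_lit 0) (XT.nd (nat_lit 78) (nat_lit 152) (nat_lit 0) (XT.lf (nat_lit 0) (nat_lit 110275662202) (nat_lit 152) (nat_lit 3463139922) (nat_lit 0) (nat_lit 50251393287) (nat_lit 19) (nat_lit 5) (nat_lit 21) (nat_lit 4) (nat_lit 19) (nat_lit 4) (nat_lit 444) (nat_lit 362) (nat_lit 214)) (XT.nd (nat_lit 78) (nat_lit 76) (nat_lit 0) (XT.lf (nat_lit 0) (nat_lit 59647086418) (nat_lit 76) (nat_lit 85475012622) (nat_lit 76) (nat_lit 25448652443) (nat_lit 18) (nat_lit 4) (nat_lit 19) (nat_lit 5) (nat_lit 19) (nat_lit 4) (nat_lit 445) (nat_lit 362) (nat_lit 213)) (XT.lf (nat_lit 0) (nat_lit 4152495674) (nat_lit 152) (nat_lit 51515735726) (nat_lit 76) (nat_lit 121805932759) (nat_lit 17) (nat_lit 5) (nat_lit 19) (nat_lit 5) (nat_lit 18) (nat_lit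 4) (nat_lit 446) (nat_lit 362) (nat_lit 212)))) (XT.nd (nat_lit 156) (nat_lit 76) (nat_lit 0) (XT.nd (nat_lit 78) (nat_lit 0) (nat_lit 0) (XT.lf (nat_lit 0) (nat_lit 10786464171) (nat_lit 76) (nat_lit 23758273813) (nat_lit 152) (nat_lit 150148836146) (nat_lit 16) (nat_lit 5) (nat_lit 17) (nat_lit 5) (nat_lit 18) (nat_lit 4) (nat_lit 447) (nat_lit 362) (nat_lit 211)) (XT.lf (nat_lit 0) (nat_lit 67493396881) (nat_lit 152) (nat_lit 114408706656) (nat_lit 0) (nat_lit 10320010966) (nat_lit 16) (nat_lit 5) (nat_lit 18) (nat_lit 4) (nat_lit 16) (nat_lit 4) (nat_lit 448) (nat_lit 362) (nat_lit 210))) (XT.nd (nat_lit 78) (nat_lit 76) (nat_lit 0) (XT.lf (nat_lit 0) (nat_lit 102476947076) (nat_lit 152) (nat_lit 52328839422) (nat_lit 0) (nat_lit 45301922601) (nat_lit 16) (nat_lit 5) (nat_lit 18) (nat_lit 4) (nat_lit 16) (nat_lit 4) (nat_lit 449) (nat_lit 362) (nat_lit 209)) (XT.lf (nat_lit 0) (nat_lit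 13276154027) (nat_lit 76) (nat_lit 126138873442) (nat_lit 76) (nat_lit 68962288433) (nat_lit 15) (nat_lit 4) (nat_lit 16) (nat_lit 5) (nat_lit 16) (nat_lit 4) (nat_lit 450) (nat_lit 362) (nat_lit 208))))))))
noncomputable def xc152 : XT := (XT.nd (nat_lit 2106) (nat_lit 0) (nat_lit 0) (XT.nd (nat_lit 1014) (nat_lit 304) (nat_lit 0) (XT.nd (nat_lit 468) (nat_lit 228) (nat_lit 0) (XT.nd (nat_lit 234) (nat_lit 0) (nat_lit 0) (XT.nd (nat_lit 78) (nat_lit 152) (nat_lit 0) (XT.lf (nat_lit 0) (nat_lit 83974410387) (nat_lit 76) (nat_lit 95109923939) (nat_lit 76) (nat_lit 37931852707) (nat_lit 15) (nat_lit 4) (nat_lit 16) (nat_lit 5) (nat_lit 16) (nat_lit 4) (nat_lit 451) (nat_lit 362) (nat_lit 207)) (XT.nd (nat_lit 78) (nat_lit 152) (nat_lit 0) (XT.lf (nat_lit 0) (nat_lit 158204031082) (nat_lit 76) (nat_lit 62531273754) (nat_lit 76) (nat_lit 5351787072) (nat_lit 15) (nat_lit 4) (nat_lit 16) (nat_lit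 5) (nat_lit 16) (nat_lit 4) (nat_lit 452) (nat_lit 362) (nat_lit 206)) (XT.lf (nat_lit 0) (nat_lit 82242754) (nat_lit 76) (nat_lit 27850965773) (nat_lit 152) (nat_lit 207655829445) (nat_lit 13) (nat_lit 5) (nat_lit 14) (nat_lit 5) (nat_lit 15) (nat_lit 4) (nat_lit 453) (nat_lit 362) (nat_lit 205)))) (XT.nd (nat_lit 78) (nat_lit 0) (nat_lit 0) (XT.lf (nat_lit 0) (nat_lit 64003035790) (nat_lit 152) (nat_lit 171949761845) (nat_lit 0) (nat_lit 9543875234) (nat_lit 13) (nat_lit 5) (nat_lit 15) (nat_lit 4) (nat_lit 13) (nat_lit 4) (nat_lit 454) (nat_lit 362) (nat_lit 204)) (XT.nd (nat_lit 78) (nat_lit 0) (nat_lit 0) (XT.lf (nat_lit 0) (nat_lit 102331270571) (nat_lit 152) (nat_lit 105674727698) (nat_lit 0) (nat_lit 47870945520) (nat_lit 13) (nat_lit 5) (nat_lit 15) (nat_lit 4) (nat_lit 13) (nat_lit 4) (nat_lit 455) (nat_lit 362) (nat_lit 203)) (XT.lf (nat_lit 0) (nat_lit 142574338943) (nat_lit 152)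 (nat_lit 36089063449) (nat_lit 0) (nat_lit 88112904850) (nat_lit 13) (nat_lit 5) (nat_lit 15) (nat_lit 4) (nat_lit 13) (nat_lit 4) (nat_lit 456) (nat_lit 362) (nat_lit 202))))) (XT.nd (nat_lit 234) (nat_lit 152) (nat_lit 0) (XT.nd (nat_lit 78) (nat_lit 0) (nat_lit 0) (XT.lf (nat_lit 0) (nat_lit 38195402467) (nat_lit 76) (nat_lit 147228992544) (nat_lit 76) (nat_lit 92766502221) (nat_lit 12) (nat_lit 4) (nat_lit 13) (nat_lit 5) (nat_lit 13) (nat_lit 4) (nat_lit 457) (nat_lit 362) (nat_lit 201)) (XT.nd (nat_lit 78) (nat_lit 0) (nat_lit 0) (XT.lf (nat_lit 0) (nat_lit 117444097464) (nat_lit 76) (nat_lit 113582565078) (nat_lit 76) (nat_lit 59119068820) (nat_lit 12) (nat_lit 4) (nat_lit 13) (nat_lit 5) (nat_lit 13) (nat_lit 4) (nat_lit 458) (nat_lit 362) (nat_lit 200)) (XT.lf (nat_lit 0) (nat_lit 200652441490) (nat_lit 76) (nat_lit 78255195203) (nat_lit 76) (nat_lit 23790740913) (nat_lit 12) (nat_lit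 4) (nat_lit 13) (nat_lit 5) (nat_lit 13) (nat_lit 4) (nat_lit 459) (nat_lit 362) (nat_lit 199)))) (XT.nd (nat_lit 156) (nat_lit 0) (nat_lit 0) (XT.nd (nat_lit 78) (nat_lit 76) (nat_lit 0) (XT.lf (nat_lit 0) (nat_lit 12876830400) (nat_lit 152) (nat_lit 28067864381) (nat_lit 76) (nat_lit 274923643896) (nat_lit 11) (nat_lit 5) (nat_lit 13) (nat_lit 5) (nat_lit 12) (nat_lit 4) (nat_lit 460) (nat_lit 362) (nat_lit 198)) (XT.lf (nat_lit 0) (nat_lit 50843849840) (nat_lit 76) (nat_lit 526923576) (nat_lit 152) (nat_lit 278266897937) (nat_lit 10) (nat_lit 5) (nat_lit 11) (nat_lit 5) (nat_lit 12) (nat_lit 4) (nat_lit 461) (nat_lit 362) (nat_lit 197))) (XT.nd (nat_lit 78) (nat_lit 0) (nat_lit 0) (XT.lf (nat_lit 0) (nat_lit 92925614382) (nat_lit 152) (nat_lit 210060825488) (nat_lit 0) (nat_lit 41052220811) (nat_lit 10) (nat_lit 5) (nat_lit 12) (nat_lit 4) (nat_lit 10) (nat_lit 4) (nat_lit 462) (nat_lit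 362) (nat_lit 196)) (XT.lf (nat_lit 0) (nat_lit 136565602884) (nat_lit 152) (nat_lit 137902267702) (nat_lit 0) (nat_lit 84691458670) (nat_lit 10) (nat_lit 5) (nat_lit 12) (nat_lit 4) (nat_lit 10) (nat_lit 4) (nat_lit 463) (nat_lit 362) (nat_lit 195)))))) (XT.nd (nat_lit 546) (nat_lit 76) (nat_lit 0) (XT.nd (nat_lit 234) (nat_lit 152) (nat_lit 0) (XT.nd (nat_lit 78) (nat_lit 76) (nat_lit 0) (XT.lf (nat_lit 0) (nat_lit 182386416904) (nat_lit 152) (nat_lit 62138115312) (nat_lit 0) (nat_lit 130511557791) (nat_lit 10) (nat_lit 5) (nat_lit 12) (nat_lit 4) (nat_lit 10) (nat_lit 4) (nat_lit 464) (nat_lit 362) (nat_lit 194)) (XT.nd (nat_lit 78) (nat_lit 0) (nat_lit 0) (XT.lf (nat_lit 0) (nat_lit 17987742618) (nat_lit 76) (nat_lit 212790250072) (nat_lit 76) (nat_lit 160914710103) (nat_lit 9) (nat_lit 4) (nat_lit 10) (nat_lit 5) (nat_lit 10) (nat_lit 4) (nat_lit 465) (nat_lit 362) (nat_lit 193)) (XT.lf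 (nat_lit 0) (nat_lit 104275002163) (nat_lit 76) (nat_lit 178365385249) (nat_lit 76) (nat_lit 126489196846) (nat_lit 9) (nat_lit 4) (nat_lit 10) (nat_lit 5) (nat_lit 10) (nat_lit 4) (nat_lit 466) (nat_lit 362) (nat_lit 192)))) (XT.nd (nat_lit 156) (nat_lit 152) (nat_lit 0) (XT.nd (nat_lit 78) (nat_lit 0) (nat_lit 0) (XT.lf (nat_lit 0) (nat_lit 194874542460) (nat_lit 76) (nat_lit 142220312834) (nat_lit 76) (nat_lit 90343506876) (nat_lit 9) (nat_lit 4) (nat_lit 10) (nat_lit 5) (nat_lit 10) (nat_lit 4) (nat_lit 467) (nat_lit 362) (nat_lit 191)) (XT.lf (nat_lit 0) (nat_lit 290002076702) (nat_lit 76) (nat_lit 104268973132) (nat_lit 76) (nat_lit 52391579024) (nat_lit 9) (nat_lit 4) (nat_lit 10) (nat_lit 5) (nat_lit 10) (nat_lit 4) (nat_lit 468) (nat_lit 362) (nat_lit 190))) (XT.nd (nat_lit 78) (nat_lit 152) (nat_lit 0) (XT.lf (nat_lit 0) (nat_lit 389884099018) (nat_lit 76) (nat_lit 64421005808)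 (nat_lit 76) (nat_lit 12543051559) (nat_lit 9) (nat_lit 4) (nat_lit 10) (nat_lit 5) (nat_lit 10) (nat_lit 4) (nat_lit 469) (nat_lit 362) (nat_lit 189)) (XT.lf (nat_lit 0) (nat_lit 6464928768) (nat_lit 76) (nat_lit 21995274395) (nat_lit 152) (nat_lit 459554885209) (nat_lit 7) (nat_lit 5) (nat_lit 8) (nat_lit 5) (nat_lit 9) (nat_lit 4) (nat_lit 470) (nat_lit 362) (nat_lit 188))))) (XT.nd (nat_lit 234) (nat_lit 76) (nat_lit 0) (XT.nd (nat_lit 78) (nat_lit 0) (nat_lit 0) (XT.lf (nat_lit 0) (nat_lit 72768061648) (nat_lit 152) (nat_lit 414018731428) (nat_lit 0) (nat_lit 23359494236) (nat_lit 7) (nat_lit 5) (nat_lit 9) (nat_lit 4) (nat_lit 7) (nat_lit 4) (nat_lit 471) (nat_lit 362) (nat_lit 187)) (XT.nd (nat_lit 78) (nat_lit 0) (nat_lit 0) (XT.lf (nat_lit 0) (nat_lit 119651017743) (nat_lit 152) (nat_lit 343473053756) (nat_lit 0) (nat_lit 70241989501) (nat_lit 7) (nat_lit 5) (nat_lit 9) (nat_lit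 4) (nat_lit 7) (nat_lit 4) (nat_lit 472) (nat_lit 362) (nat_lit 186)) (XT.lf (nat_lit 0) (nat_lit 168877289658) (nat_lit 152) (nat_lit 269401752815) (nat_lit 0) (nat_lit 119467822530) (nat_lit 7) (nat_lit 5) (nat_lit 9) (nat_lit 4) (nat_lit 7) (nat_lit 4) (nat_lit 473) (nat_lit 362) (nat_lit 185)))) (XT.nd (nat_lit 156) (nat_lit 76) (nat_lit 0) (XT.nd (nat_lit 78) (nat_lit 0) (nat_lit 0) (XT.lf (nat_lit 0) (nat_lit 220564082803) (nat_lit 152) (nat_lit 191628468363) (nat_lit 0) (nat_lit 171154197689) (nat_lit 7) (nat_lit 5) (nat_lit 9) (nat_lit 4) (nat_lit 7) (nat_lit 4) (nat_lit 474) (nat_lit 362) (nat_lit 184)) (XT.lf (nat_lit 0) (nat_lit 274834460971) (nat_lit 152) (nat_lit 109968025915) (nat_lit 0) (nat_lit 225424177775) (nat_lit 7) (nat_lit 5) (nat_lit 9) (nat_lit 4) (nat_lit 7) (nat_lit 4) (nat_lit 475) (nat_lit 362) (nat_lit 183))) (XT.nd (nat_lit 78) (nat_lit 76) (nat_lit 0) (XT.lf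 (nat_lit 0) (nat_lit 331817639348) (nat_lit 152) (nat_lit 24225995845) (nat_lit 0) (nat_lit 282406977026) (nat_lit 7) (nat_lit 5) (nat_lit 9) (nat_lit 4) (nat_lit 7) (nat_lit 4) (nat_lit 476) (nat_lit 362) (nat_lit 182)) (XT.lf (nat_lit 0) (nat_lit 67977473206) (nat_lit 76) (nat_lit 324733137826) (nat_lit 76) (nat_lit 275322114431) (nat_lit 6) (nat_lit 4) (nat_lit 7) (nat_lit 5) (nat_lit 7) (nat_lit 4) (nat_lit 477) (nat_lit 362) (nat_lit 181))))))) (XT.nd (nat_lit 44928) (nat_lit 0) (nat_lit 6004) (XT.nd (nat_lit 44382) (nat_lit 0) (nat_lit 8664) (XT.nd (nat_lit 44148) (nat_lit 0) (nat_lit 9348) (XT.nd (nat_lit 78) (nat_lit 0) (nat_lit 0) (XT.lf (nat_lit 0) (nat_lit 165630843427) (nat_lit 76) (nat_lit 291426993968) (nat_lit 76) (nat_lit 242015626695) (nat_lit 6) (nat_lit 4) (nat_lit 7) (nat_lit 5) (nat_lit 7) (nat_lit 4) (nat_lit 478) (nat_lit 362) (nat_lit 180)) (XT.nd (nat_lit 78) (nat_lit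 0) (nat_lit 0) (XT.lf (nat_lit 0) (nat_lit 268165602011) (nat_lit 76) (nat_lit 256456182239) (nat_lit 76) (nat_lit 207044487463) (nat_lit 6) (nat_lit 4) (nat_lit 7) (nat_lit 5) (nat_lit 7) (nat_lit 4) (nat_lit 479) (nat_lit 362) (nat_lit 179)) (XT.lf (nat_lit 0) (nat_lit 375825879335) (nat_lit 76) (nat_lit 219737438802) (nat_lit 76) (nat_lit 170325432118) (nat_lit 6) (nat_lit 4) (nat_lit 7) (nat_lit 5) (nat_lit 7) (nat_lit 4) (nat_lit 480) (nat_lit 362) (nat_lit 178)))) (XT.nd (nat_lit 78) (nat_lit 0) (nat_lit 0) (XT.lf (nat_lit 0) (nat_lit 2642847966) (nat_lit 0) (nat_lit 2642847966) (nat_lit 684) (nat_lit 1101456498) (nat_lit 129) (nat_lit 5) (nat_lit 129) (nat_lit 3) (nat_lit 138) (nat_lit 3) (nat_lit 363) (nat_lit 363) (nat_lit 294)) (XT.nd (nat_lit 78) (nat_lit 0) (nat_lit 0) (XT.lf (nat_lit 0) (nat_lit 11246740853) (nat_lit 684) (nat_lit 1281890071) (nat_lit 760) (nat_lit 544243397)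 (nat_lit 129) (nat_lit 5) (nat_lit 138) (nat_lit 3) (nat_lit 139) (nat_lit 5) (nat_lit 364) (nat_lit 363) (nat_lit 293)) (XT.lf (nat_lit 76) (nat_lit 5303892356) (nat_lit 0) (nat_lit 6795874004) (nat_lit 760) (nat_lit 1279425482) (nat_lit 130) (nat_lit 5) (nat_lit 129) (nat_lit 5) (nat_lit 139) (nat_lit 5) (nat_lit 365) (nat_lit 363) (nat_lit 292))))) (XT.nd (nat_lit 234) (nat_lit 0) (nat_lit 76) (XT.nd (nat_lit 78) (nat_lit 684) (nat_lit 0) (XT.lf (nat_lit 76) (nat_lit 12249320859) (nat_lit 0) (nat_lit 743277204) (nat_lit 760) (nat_lit 708383752) (nat_lit 130) (nat_lit 5) (nat_lit 129) (nat_lit 5) (nat_lit 139) (nat_lit 5) (nat_lit 366) (nat_lit 363) (nat_lit 291)) (XT.nd (nat_lit 78) (nat_lit 0) (nat_lit 0) (XT.lf (nat_lit 0) (nat_lit 48658670) (nat_lit 760) (nat_lit 8452782510) (nat_lit 836) (nat_lit 5529819693) (nat_lit 120) (nat_lit 5) (nat_lit 130) (nat_lit 5) (nat_lit 131) (nat_lit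 5) (nat_lit 367) (nat_lit 363) (nat_lit 290)) (XT.lf (nat_lit 0) (nat_lit 834188554) (nat_lit 760) (nat_lit 1405838765) (nat_lit 836) (nat_lit 12136736211) (nat_lit 120) (nat_lit 5) (nat_lit 130) (nat_lit 5) (nat_lit 131) (nat_lit 5) (nat_lit 368) (nat_lit 363) (nat_lit 289)))) (XT.nd (nat_lit 156) (nat_lit 0) (nat_lit 76) (XT.nd (nat_lit 78) (nat_lit 0) (nat_lit 0) (XT.lf (nat_lit 0) (nat_lit 1803143397) (nat_lit 760) (nat_lit 8628643999) (nat_lit 836) (nat_lit 4300558286) (nat_lit 121) (nat_lit 5) (nat_lit 131) (nat_lit 5) (nat_lit 132) (nat_lit 5) (nat_lit 369) (nat_lit 363) (nat_lit 288)) (XT.lf (nat_lit 0) (nat_lit 2860725772) (nat_lit 760) (nat_lit 1119626744) (nat_lit 836) (nat_lit 11123356658) (nat_lit 121) (nat_lit 5) (nat_lit 131) (nat_lit 5) (nat_lit 132) (nat_lit 5) (nat_lit 370) (nat_lit 363) (nat_lit 287))) (XT.nd (nat_lit 78) (nat_lit 0) (nat_lit 0) (XT.lf (nat_lit 0) (nat_lit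 4105785071) (nat_lit 760) (nat_lit 8561431596) (nat_lit 836) (nat_lit 2819704972) (nat_lit 122) (nat_lit 5) (nat_lit 132) (nat_lit 5) (nat_lit 133) (nat_lit 5) (nat_lit 371) (nat_lit 363) (nat_lit 286)) (XT.lf (nat_lit 0) (nat_lit 5478651753) (nat_lit 760) (nat_lit 557755013) (nat_lit 836) (nat_lit 9849620420) (nat_lit 122) (nat_lit 5) (nat_lit 132) (nat_lit 5) (nat_lit 133) (nat_lit 5) (nat_lit 372) (nat_lit 363) (nat_lit 285)))))) (XT.nd (nat_lit 546) (nat_lit 1292) (nat_lit 0) (XT.nd (nat_lit 234) (nat_lit 836) (nat_lit 0) (XT.nd (nat_lit 78) (nat_lit 760) (nat_lit 0) (XT.lf (nat_lit 0) (nat_lit 7044983977) (nat_lit 760) (nat_lit 8226058190) (nat_lit 76) (nat_lit 1027814428) (nat_lit 123) (nat_lit 5) (nat_lit 133) (nat_lit 5) (nat_lit 124) (nat_lit 5) (nat_lit 373) (nat_lit 363) (nat_lit 284)) (XT.nd (nat_lit 78) (nat_lit 0) (nat_lit 0) (XT.lf (nat_lit 0) (nat_lit 317928237) (nat_lit 760)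 (nat_lit 8467836947) (nat_lit 836) (nat_lit 7941764904) (nat_lit 113) (nat_lit 5) (nat_lit 123) (nat_lit 5) (nat_lit 124) (nat_lit 5) (nat_lit 374) (nat_lit 363) (nat_lit 283)) (XT.lf (nat_lit 0) (nat_lit 9559431108) (nat_lit 760) (nat_lit 1176666672) (nat_lit 836) (nat_lit 6435422654) (nat_lit 113) (nat_lit 5) (nat_lit 123) (nat_lit 5) (nat_lit 124) (nat_lit 5) (nat_lit 375) (nat_lit 363) (nat_lit 282)))) (XT.nd (nat_lit 156) (nat_lit 456) (nat_lit 0) (XT.nd (nat_lit 78) (nat_lit 0) (nat_lit 0) (XT.lf (nat_lit 0) (nat_lit 1558652281) (nat_lit 380) (nat_lit 11334808726) (nat_lit 456) (nat_lit 4738781964) (nat_lit 108) (nat_lit 5) (nat_lit 113) (nat_lit 5) (nat_lit 114) (nat_lit 5) (nat_lit 376) (nat_lit 363) (nat_lit 281)) (XT.lf (nat_lit 0) (nat_lit 11417149285) (nat_lit 380) (nat_lit 3873983394) (nat_lit 456) (nat_lit 2818254918) (nat_lit 108) (nat_lit 5) (nat_lit 113) (nat_lit 5) (nat_lit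 114) (nat_lit 5) (nat_lit 377) (nat_lit 363) (nat_lit 280))) (XT.nd (nat_lit 78) (nat_lit 76) (nat_lit 0) (XT.lf (nat_lit 0) (nat_lit 3183078551) (nat_lit 380) (nat_lit 14722419060) (nat_lit 456) (nat_lit 700058956) (nat_lit 103) (nat_lit 5) (nat_lit 108) (nat_lit 5) (nat_lit 109) (nat_lit 5) (nat_lit 378) (nat_lit 363) (nat_lit 279)) (XT.lf (nat_lit 0) (nat_lit 1639485239) (nat_lit 456) (nat_lit 5440925055) (nat_lit 76) (nat_lit 12036729976) (nat_lit 102) (nat_lit 5) (nat_lit 108) (nat_lit 5) (nat_lit 103) (nat_lit 5) (nat_lit 379) (nat_lit 363) (nat_lit 278))))) (XT.nd (nat_lit 234) (nat_lit 608) (nat_lit 0) (XT.nd (nat_lit 78) (nat_lit 304) (nat_lit 0) (XT.lf (nat_lit 0) (nat_lit 4155783006) (nat_lit 456) (nat_lit 14487280947) (nat_lit 76) (nat_lit 1006506802) (nat_lit 97) (nat_lit 5) (nat_lit 103) (nat_lit 5) (nat_lit 98) (nat_lit 5) (nat_lit 380) (nat_lit 363) (nat_lit 277)) (XT.nd (nat_lit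 78) (nat_lit 304) (nat_lit 0) (XT.lf (nat_lit 0) (nat_lit 6994243252) (nat_lit 456) (nat_lit 3852122382) (nat_lit 76) (nat_lit 9352446000) (nat_lit 97) (nat_lit 5) (nat_lit 103) (nat_lit 5) (nat_lit 98) (nat_lit 5) (nat_lit 381) (nat_lit 363) (nat_lit 276)) (XT.lf (nat_lit 0) (nat_lit 7541811529) (nat_lit 304) (nat_lit 2537820960) (nat_lit 380) (nat_lit 10690637721) (nat_lit 93) (nat_lit 5) (nat_lit 97) (nat_lit 5) (nat_lit 98) (nat_lit 5) (nat_lit 382) (nat_lit 363) (nat_lit 275)))) (XT.nd (nat_lit 156) (nat_lit 304) (nat_lit 0) (XT.nd (nat_lit 78) (nat_lit 304) (nat_lit 0) (XT.lf (nat_lit 0) (nat_lit 13469796853) (nat_lit 380) (nat_lit 1840244972) (nat_lit 76) (nat_lit 6052740275) (nat_lit 93) (nat_lit 5) (nat_lit 98) (nat_lit 5) (nat_lit 94) (nat_lit 5) (nat_lit 383) (nat_lit 363) (nat_lit 274)) (XT.lf (nat_lit 0) (nat_lit 10394432418) (nat_lit 304) (nat_lit 6827132085) (nat_lit 380) (nat_lit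 4753755725) (nat_lit 89) (nat_lit 5) (nat_lit 93) (nat_lit 5) (nat_lit 94) (nat_lit 5) (nat_lit 384) (nat_lit 363) (nat_lit 273))) (XT.nd (nat_lit 78) (nat_lit 76) (nat_lit 0) (XT.lf (nat_lit 0) (nat_lit 661653912) (nat_lit 228) (nat_lit 20562261268) (nat_lit 304) (nat_lit 1391425494) (nat_lit 86) (nat_lit 5) (nat_lit 89) (nat_lit 5) (nat_lit 90) (nat_lit 5) (nat_lit 385) (nat_lit 363) (nat_lit 272)) (XT.lf (nat_lit 0) (nat_lit 2370476058) (nat_lit 304) (nat_lit 9522195383) (nat_lit 76) (nat_lit 11378029716) (nat_lit 85) (nat_lit 5) (nat_lit 89) (nat_lit 5) (nat_lit 86) (nat_lit 5) (nat_lit 386) (nat_lit 363) (nat_lit 271))))))))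
noncomputable def xc153 : XT := (XT.nd (nat_lit 2106) (nat_lit 1748) (nat_lit 0) (XT.nd (nat_lit 1014) (nat_lit 1368) (nat_lit 0) (XT.nd (nat_lit 468) (nat_lit 912) (nat_lit 0) (XT.nd (nat_lit 234) (nat_lit 304) (nat_lit 0) (XT.nd (nat_lit 78) (nat_lit 228) (nat_lit 0) (XT.lf (nat_lit 0) (nat_lit 3609793280) (nat_lit 304) (nat_lit 2709471184) (nat_lit 380) (nat_lit 17636151486) (nat_lit 81) (nat_lit 5) (nat_lit 85) (nat_lit 5) (nat_lit 86) (nat_lit 5) (nat_lit 387) (nat_lit 363) (nat_lit 270)) (XT.nd (nat_lit 78) (nat_lit 228) (nat_lit 0) (XT.lf (nat_lit 0) (nat_lit 10727089088) (nat_lit 380) (nat_lit 7062280029) (nat_lit 76) (nat_lit 6871921758) (nat_lit 81) (nat_lit 5) (nat_lit 86) (nat_lit 5) (nat_lit 82) (nat_lit 5) (nat_lit 388) (nat_lit 363) (nat_lit 269)) (XT.lf (nat_lit 0) (nat_lit 7053165424) (nat_lit 228) (nat_lit 8446627545) (nat_lit 304) (nat_lit 9895446205) (nat_lit 78) (nat_lit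 5) (nat_lit 81) (nat_lit 5) (nat_lit 82) (nat_lit 5) (nat_lit 389) (nat_lit 363) (nat_lit 268)))) (XT.nd (nat_lit 78) (nat_lit 304) (nat_lit 0) (XT.lf (nat_lit 0) (nat_lit 20644150576) (nat_lit 304) (nat_lit 4077195721) (nat_lit 76) (nat_lit 1437891500) (nat_lit 78) (nat_lit 5) (nat_lit 82) (nat_lit 5) (nat_lit 79) (nat_lit 5) (nat_lit 390) (nat_lit 363) (nat_lit 267)) (XT.nd (nat_lit 78) (nat_lit 76) (nat_lit 0) (XT.lf (nat_lit 0) (nat_lit 11104916266) (nat_lit 228) (nat_lit 15243296562) (nat_lit 304) (nat_lit 598102838) (nat_lit 75) (nat_lit 5) (nat_lit 78) (nat_lit 5) (nat_lit 79) (nat_lit 5) (nat_lit 391) (nat_lit 363) (nat_lit 266)) (XT.lf (nat_lit 0) (nat_lit 4479544503) (nat_lit 304) (nat_lit 667078185) (nat_lit 76) (nat_lit 22619518961) (nat_lit 74) (nat_lit 5) (nat_lit 78) (nat_lit 5) (nat_lit 75) (nat_lit 5) (nat_lit 392) (nat_lit 363) (nat_lit 265))))) (XT.nd (nat_lit 234) (nat_lit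 456) (nat_lit 0) (XT.nd (nat_lit 78) (nat_lit 228) (nat_lit 0) (XT.lf (nat_lit 0) (nat_lit 10117314875) (nat_lit 304) (nat_lit 12956186359) (nat_lit 76) (nat_lit 5536653565) (nat_lit 71) (nat_lit 5) (nat_lit 75) (nat_lit 5) (nat_lit 72) (nat_lit 5) (nat_lit 393) (nat_lit 363) (nat_lit 264)) (XT.nd (nat_lit 78) (nat_lit 0) (nat_lit 0) (XT.lf (nat_lit 0) (nat_lit 3327755186) (nat_lit 228) (nat_lit 12848373402) (nat_lit 304) (nat_lit 13313285282) (nat_lit 68) (nat_lit 5) (nat_lit 71) (nat_lit 5) (nat_lit 72) (nat_lit 5) (nat_lit 394) (nat_lit 363) (nat_lit 263)) (XT.lf (nat_lit 0) (nat_lit 20863286104) (nat_lit 228) (nat_lit 1885580282) (nat_lit 304) (nat_lit 7653223203) (nat_lit 68) (nat_lit 5) (nat_lit 71) (nat_lit 5) (nat_lit 72) (nat_lit 5) (nat_lit 395) (nat_lit 363) (nat_lit 262)))) (XT.nd (nat_lit 156) (nat_lit 228) (nat_lit 0) (XT.nd (nat_lit 78) (nat_lit 76) (nat_lit 0) (XT.lf (nat_lit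 0) (nat_lit 8009085316) (nat_lit 152) (nat_lit 21908385374) (nat_lit 228) (nat_lit 1429569647) (nat_lit 66) (nat_lit 5) (nat_lit 68) (nat_lit 5) (nat_lit 69) (nat_lit 5) (nat_lit 396) (nat_lit 363) (nat_lit 261)) (XT.lf (nat_lit 0) (nat_lit 5128942963) (nat_lit 228) (nat_lit 5691136821) (nat_lit 76) (nat_lit 21505822097) (nat_lit 65) (nat_lit 5) (nat_lit 68) (nat_lit 5) (nat_lit 66) (nat_lit 5) (nat_lit 397) (nat_lit 363) (nat_lit 260))) (XT.nd (nat_lit 78) (nat_lit 0) (nat_lit 0) (XT.lf (nat_lit 0) (nat_lit 12182742929) (nat_lit 304) (nat_lit 20132895288) (nat_lit 76) (nat_lit 1026128632) (nat_lit 62) (nat_lit 5) (nat_lit 66) (nat_lit 5) (nat_lit 63) (nat_lit 5) (nat_lit 398) (nat_lit 363) (nat_lit 259)) (XT.lf (nat_lit 0) (nat_lit 19857051082) (nat_lit 304) (nat_lit 1342884854) (nat_lit 76) (nat_lit 13195100461) (nat_lit 62) (nat_lit 5) (nat_lit 66) (nat_lit 5) (nat_lit 63) (nat_lit 5)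 (nat_lit 399) (nat_lit 363) (nat_lit 258)))))) (XT.nd (nat_lit 546) (nat_lit 608) (nat_lit 0) (XT.nd (nat_lit 234) (nat_lit 380) (nat_lit 0) (XT.nd (nat_lit 78) (nat_lit 228) (nat_lit 0) (XT.lf (nat_lit 0) (nat_lit 18982976775) (nat_lit 152) (nat_lit 9221311183) (nat_lit 228) (nat_lit 7282222936) (nat_lit 60) (nat_lit 5) (nat_lit 62) (nat_lit 5) (nat_lit 63) (nat_lit 5) (nat_lit 400) (nat_lit 363) (nat_lit 257)) (XT.nd (nat_lit 78) (nat_lit 0) (nat_lit 0) (XT.lf (nat_lit 0) (nat_lit 455406318) (nat_lit 228) (nat_lit 32835738713) (nat_lit 76) (nat_lit 3334661305) (nat_lit 57) (nat_lit 5) (nat_lit 60) (nat_lit 5) (nat_lit 58) (nat_lit 5) (nat_lit 401) (nat_lit 363) (nat_lit 256)) (XT.lf (nat_lit 0) (nat_lit 8763421414) (nat_lit 228) (nat_lit 12423290180) (nat_lit 76) (nat_lit 16607976025) (nat_lit 57) (nat_lit 5) (nat_lit 60) (nat_lit 5) (nat_lit 58) (nat_lit 5) (nat_lit 402) (nat_lit 363)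 (nat_lit 255)))) (XT.nd (nat_lit 156) (nat_lit 228) (nat_lit 0) (XT.nd (nat_lit 78) (nat_lit 0) (nat_lit 0) (XT.lf (nat_lit 0) (nat_lit 9296486736) (nat_lit 152) (nat_lit 8328817176) (nat_lit 228) (nat_lit 21389787479) (nat_lit 55) (nat_lit 5) (nat_lit 57) (nat_lit 5) (nat_lit 58) (nat_lit 5) (nat_lit 403) (nat_lit 363) (nat_lit 254)) (XT.lf (nat_lit 0) (nat_lit 27218282322) (nat_lit 228) (nat_lit 7847560820) (nat_lit 76) (nat_lit 5216273795) (nat_lit 55) (nat_lit 5) (nat_lit 58) (nat_lit 5) (nat_lit 56) (nat_lit 5) (nat_lit 404) (nat_lit 363) (nat_lit 253))) (XT.nd (nat_lit 78) (nat_lit 76) (nat_lit 0) (XT.lf (nat_lit 0) (nat_lit 15465068171) (nat_lit 152) (nat_lit 22197555655) (nat_lit 228) (nat_lit 3931285819) (nat_lit 53) (nat_lit 5) (nat_lit 55) (nat_lit 5) (nat_lit 56) (nat_lit 5) (nat_lit 405) (nat_lit 363) (nat_lit 252)) (XT.lf (nat_lit 0) (nat_lit 5605643621) (nat_lit 228) (nat_lit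 2849830637) (nat_lit 76) (nat_lit 34504960349) (nat_lit 52) (nat_lit 5) (nat_lit 55) (nat_lit 5) (nat_lit 53) (nat_lit 5) (nat_lit 406) (nat_lit 363) (nat_lit 251))))) (XT.nd (nat_lit 234) (nat_lit 304) (nat_lit 0) (XT.nd (nat_lit 78) (nat_lit 152) (nat_lit 0) (XT.lf (nat_lit 0) (nat_lit 15928386196) (nat_lit 228) (nat_lit 22244718512) (nat_lit 76) (nat_lit 6196905937) (nat_lit 50) (nat_lit 5) (nat_lit 53) (nat_lit 5) (nat_lit 51) (nat_lit 5) (nat_lit 407) (nat_lit 363) (nat_lit 250)) (XT.nd (nat_lit 78) (nat_lit 0) (nat_lit 0) (XT.lf (nat_lit 0) (nat_lit 2532075536) (nat_lit 152) (nat_lit 24456517213) (nat_lit 228) (nat_lit 18850407707) (nat_lit 48) (nat_lit 5) (nat_lit 50) (nat_lit 5) (nat_lit 51) (nat_lit 5) (nat_lit 408) (nat_lit 363) (nat_lit 249)) (XT.lf (nat_lit 0) (nat_lit 29310137725) (nat_lit 152) (nat_lit 9662648074) (nat_lit 228) (nat_lit 8390106398) (nat_lit 48) (nat_lit 5) (nat_lit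 50) (nat_lit 5) (nat_lit 51) (nat_lit 5) (nat_lit 409) (nat_lit 363) (nat_lit 248)))) (XT.nd (nat_lit 156) (nat_lit 152) (nat_lit 0) (XT.nd (nat_lit 78) (nat_lit 0) (nat_lit 0) (XT.lf (nat_lit 0) (nat_lit 2734843060) (nat_lit 152) (nat_lit 40356664956) (nat_lit 76) (nat_lit 5858215678) (nat_lit 46) (nat_lit 5) (nat_lit 48) (nat_lit 5) (nat_lit 47) (nat_lit 5) (nat_lit 410) (nat_lit 363) (nat_lit 247)) (XT.lf (nat_lit 0) (nat_lit 14597715536) (nat_lit 152) (nat_lit 13713286244) (nat_lit 76) (nat_lit 22274837023) (nat_lit 46) (nat_lit 5) (nat_lit 48) (nat_lit 5) (nat_lit 47) (nat_lit 5) (nat_lit 411) (nat_lit 363) (nat_lit 246))) (XT.nd (nat_lit 78) (nat_lit 0) (nat_lit 0) (XT.lf (nat_lit 0) (nat_lit 14724360740) (nat_lit 152) (nat_lit 12554011750) (nat_lit 228) (nat_lit 25014156162) (nat_lit 44) (nat_lit 5) (nat_lit 46) (nat_lit 5) (nat_lit 47) (nat_lit 5) (nat_lit 412) (nat_lit 363) (nat_lit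 245)) (XT.lf (nat_lit 0) (nat_lit 40886219318) (nat_lit 228) (nat_lit 9088293240) (nat_lit 76) (nat_lit 4095383562) (nat_lit 44) (nat_lit 5) (nat_lit 47) (nat_lit 5) (nat_lit 45) (nat_lit 4) (nat_lit 413) (nat_lit 363) (nat_lit 244))))))) (XT.nd (nat_lit 1014) (nat_lit 760) (nat_lit 0) (XT.nd (nat_lit 468) (nat_lit 380) (nat_lit 0) (XT.nd (nat_lit 234) (nat_lit 304) (nat_lit 0) (XT.nd (nat_lit 78) (nat_lit 228) (nat_lit 0) (XT.lf (nat_lit 0) (nat_lit 21282151083) (nat_lit 76) (nat_lit 34425433135) (nat_lit 152) (nat_lit 201892390) (nat_lit 43) (nat_lit 5) (nat_lit 44) (nat_lit 5) (nat_lit 45) (nat_lit 4) (nat_lit 414) (nat_lit 363) (nat_lit 243)) (XT.nd (nat_lit 78) (nat_lit 152) (nat_lit 0) (XT.lf (nat_lit 0) (nat_lit 13150676562) (nat_lit 152) (nat_lit 4567689566) (nat_lit 76) (nat_lit 40104612306) (nat_lit 42) (nat_lit 5) (nat_lit 44) (nat_lit 5) (nat_lit 43) (nat_lit 5) (nat_lit 415)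 (nat_lit 363) (nat_lit 242)) (XT.lf (nat_lit 0) (nat_lit 27598990365) (nat_lit 228) (nat_lit 31939428431) (nat_lit 76) (nat_lit 271826810) (nat_lit 40) (nat_lit 5) (nat_lit 43) (nat_lit 5) (nat_lit 41) (nat_lit 4) (nat_lit 416) (nat_lit 363) (nat_lit 241)))) (XT.nd (nat_lit 78) (nat_lit 304) (nat_lit 0) (XT.lf (nat_lit 0) (nat_lit 43134150482) (nat_lit 228) (nat_lit 103336331) (nat_lit 76) (nat_lit 18641168559) (nat_lit 40) (nat_lit 5) (nat_lit 43) (nat_lit 5) (nat_lit 41) (nat_lit 4) (nat_lit 417) (nat_lit 363) (nat_lit 240)) (XT.nd (nat_lit 78) (nat_lit 228) (nat_lit 0) (XT.lf (nat_lit 0) (nat_lit 34418132739) (nat_lit 76) (nat_lit 25560862650) (nat_lit 152) (nat_lit 4044844627) (nat_lit 39) (nat_lit 5) (nat_lit 40) (nat_lit 5) (nat_lit 41) (nat_lit 4) (nat_lit 418) (nat_lit 363) (nat_lit 239)) (XT.lf (nat_lit 0) (nat_lit 4346278921) (nat_lit 152) (nat_lit 6744190720) (nat_lit 228) (nat_lit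 55173662797) (nat_lit 36) (nat_lit 5) (nat_lit 38) (nat_lit 5) (nat_lit 39) (nat_lit 5) (nat_lit 419) (nat_lit 363) (nat_lit 238))))) (XT.nd (nat_lit 234) (nat_lit 304) (nat_lit 0) (XT.nd (nat_lit 78) (nat_lit 76) (nat_lit 0) (XT.lf (nat_lit 0) (nat_lit 27555007575) (nat_lit 228) (nat_lit 27853437140) (nat_lit 76) (nat_lit 13169260389) (nat_lit 36) (nat_lit 5) (nat_lit 39) (nat_lit 5) (nat_lit 37) (nat_lit 4) (nat_lit 420) (nat_lit 363) (nat_lit 237)) (XT.nd (nat_lit 78) (nat_lit 0) (nat_lit 0) (XT.lf (nat_lit 0) (nat_lit 8053721271) (nat_lit 76) (nat_lit 37021172323) (nat_lit 152) (nat_lit 25920457349) (nat_lit 35) (nat_lit 5) (nat_lit 36) (nat_lit 5) (nat_lit 37) (nat_lit 4) (nat_lit 421) (nat_lit 363) (nat_lit 236)) (XT.lf (nat_lit 0) (nat_lit 46715682382) (nat_lit 76) (nat_lit 17222703475) (nat_lit 152) (nat_lit 9572113193) (nat_lit 35) (nat_lit 5) (nat_lit 36) (nat_lit 5) (nat_lit 37)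 (nat_lit 4) (nat_lit 422) (nat_lit 363) (nat_lit 235)))) (XT.nd (nat_lit 156) (nat_lit 76) (nat_lit 0) (XT.nd (nat_lit 78) (nat_lit 0) (nat_lit 0) (XT.lf (nat_lit 0) (nat_lit 7585072729) (nat_lit 228) (nat_lit 64798997351) (nat_lit 76) (nat_lit 3749683658) (nat_lit 32) (nat_lit 5) (nat_lit 35) (nat_lit 5) (nat_lit 33) (nat_lit 4) (nat_lit 423) (nat_lit 363) (nat_lit 234)) (XT.lf (nat_lit 0) (nat_lit 26018049432) (nat_lit 228) (nat_lit 27018476874) (nat_lit 76) (nat_lit 25806818492) (nat_lit 32) (nat_lit 5) (nat_lit 35) (nat_lit 5) (nat_lit 33) (nat_lit 4) (nat_lit 424) (nat_lit 363) (nat_lit 233))) (XT.nd (nat_lit 78) (nat_lit 0) (nat_lit 0) (XT.lf (nat_lit 0) (nat_lit 13062129693) (nat_lit 76) (nat_lit 32510725156) (nat_lit 152) (nat_lit 36105552039) (nat_lit 31) (nat_lit 5) (nat_lit 32) (nat_lit 5) (nat_lit 33) (nat_lit 4) (nat_lit 425) (nat_lit 363) (nat_lit 232)) (XT.lf (nat_lit 0) (nat_lit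 56077890497) (nat_lit 76) (nat_lit 10481395655) (nat_lit 152) (nat_lit 18073242097) (nat_lit 31) (nat_lit 5) (nat_lit 32) (nat_lit 5) (nat_lit 33) (nat_lit 4) (nat_lit 426) (nat_lit 363) (nat_lit 231)))))) (XT.nd (nat_lit 546) (nat_lit 380) (nat_lit 0) (XT.nd (nat_lit 234) (nat_lit 152) (nat_lit 0) (XT.nd (nat_lit 78) (nat_lit 76) (nat_lit 0) (XT.lf (nat_lit 0) (nat_lit 1248379340) (nat_lit 152) (nat_lit 73988216267) (nat_lit 76) (nat_lit 12476326433) (nat_lit 29) (nat_lit 5) (nat_lit 31) (nat_lit 5) (nat_lit 30) (nat_lit 4) (nat_lit 427) (nat_lit 363) (nat_lit 230)) (XT.nd (nat_lit 78) (nat_lit 76) (nat_lit 0) (XT.lf (nat_lit 0) (nat_lit 21588494121) (nat_lit 152) (nat_lit 32296529712) (nat_lit 76) (nat_lit 37014508355) (nat_lit 29) (nat_lit 5) (nat_lit 31) (nat_lit 5) (nat_lit 30) (nat_lit 4) (nat_lit 428) (nat_lit 363) (nat_lit 229)) (XT.lf (nat_lit 0) (nat_lit 11852715341) (nat_lit 76)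 (nat_lit 31274573694) (nat_lit 152) (nat_lit 51109100458) (nat_lit 28) (nat_lit 5) (nat_lit 29) (nat_lit 5) (nat_lit 30) (nat_lit 4) (nat_lit 429) (nat_lit 363) (nat_lit 228)))) (XT.nd (nat_lit 156) (nat_lit 76) (nat_lit 0) (XT.nd (nat_lit 78) (nat_lit 76) (nat_lit 0) (XT.lf (nat_lit 0) (nat_lit 59324401501) (nat_lit 76) (nat_lit 6962262674) (nat_lit 152) (nat_lit 31426243815) (nat_lit 28) (nat_lit 5) (nat_lit 29) (nat_lit 5) (nat_lit 30) (nat_lit 4) (nat_lit 430) (nat_lit 363) (nat_lit 227)) (XT.lf (nat_lit 0) (nat_lit 7758788529) (nat_lit 76) (nat_lit 83253014974) (nat_lit 76) (nat_lit 10331059473) (nat_lit 27) (nat_lit 4) (nat_lit 28) (nat_lit 5) (nat_lit 28) (nat_lit 4) (nat_lit 431) (nat_lit 363) (nat_lit 226))) (XT.nd (nat_lit 78) (nat_lit 0) (nat_lit 0) (XT.lf (nat_lit 0) (nat_lit 12212331151) (nat_lit 152) (nat_lit 47891024229) (nat_lit 76) (nat_lit 45003148081) (nat_lit 26) (nat_lit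 5) (nat_lit 28) (nat_lit 5) (nat_lit 27) (nat_lit 4) (nat_lit 432) (nat_lit 363) (nat_lit 225)) (XT.lf (nat_lit 0) (nat_lit 35532656103) (nat_lit 152) (nat_lit 88498639) (nat_lit 76) (nat_lit 73428855629) (nat_lit 26) (nat_lit 5) (nat_lit 28) (nat_lit 5) (nat_lit 27) (nat_lit 4) (nat_lit 433) (nat_lit 363) (nat_lit 224))))) (XT.nd (nat_lit 234) (nat_lit 228) (nat_lit 0) (XT.nd (nat_lit 78) (nat_lit 76) (nat_lit 0) (XT.lf (nat_lit 0) (nat_lit 51755101102) (nat_lit 76) (nat_lit 9069039455) (nat_lit 152) (nat_lit 52326295180) (nat_lit 25) (nat_lit 5) (nat_lit 26) (nat_lit 5) (nat_lit 27) (nat_lit 4) (nat_lit 434) (nat_lit 363) (nat_lit 223)) (XT.nd (nat_lit 78) (nat_lit 76) (nat_lit 0) (XT.lf (nat_lit 0) (nat_lit 87672523434) (nat_lit 152) (nat_lit 11561117321) (nat_lit 0) (nat_lit 18207625670) (nat_lit 25) (nat_lit 5) (nat_lit 27) (nat_lit 4) (nat_lit 25) (nat_lit 4) (nat_lit 435) (nat_lit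 363) (nat_lit 222)) (XT.lf (nat_lit 0) (nat_lit 41953629407) (nat_lit 76) (nat_lit 74710633418) (nat_lit 76) (nat_lit 5242329205) (nat_lit 24) (nat_lit 4) (nat_lit 25) (nat_lit 5) (nat_lit 25) (nat_lit 4) (nat_lit 436) (nat_lit 363) (nat_lit 221)))) (XT.nd (nat_lit 156) (nat_lit 76) (nat_lit 0) (XT.nd (nat_lit 78) (nat_lit 76) (nat_lit 0) (XT.lf (nat_lit 0) (nat_lit 20050203131) (nat_lit 152) (nat_lit 28368632032) (nat_lit 76) (nat_lit 78150524786) (nat_lit 23) (nat_lit 5) (nat_lit 25) (nat_lit 5) (nat_lit 24) (nat_lit 4) (nat_lit 437) (nat_lit 363) (nat_lit 220)) (XT.lf (nat_lit 0) (nat_lit 26553822952) (nat_lit 76) (nat_lit 20289328829) (nat_lit 152) (nat_lit 84597219389) (nat_lit 22) (nat_lit 5) (nat_lit 23) (nat_lit 5) (nat_lit 24) (nat_lit 4) (nat_lit 438) (nat_lit 363) (nat_lit 219))) (XT.nd (nat_lit 78) (nat_lit 76) (nat_lit 0) (XT.lf (nat_lit 0) (nat_lit 75605822944) (nat_lit 152)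 (nat_lit 51480908108) (nat_lit 0) (nat_lit 9436698354) (nat_lit 22) (nat_lit 5) (nat_lit 24) (nat_lit 4) (nat_lit 22) (nat_lit 4) (nat_lit 439) (nat_lit 363) (nat_lit 218)) (XT.lf (nat_lit 0) (nat_lit 4398367440) (nat_lit 76) (nat_lit 101807063391) (nat_lit 76) (nat_lit 35635269758) (nat_lit 21) (nat_lit 4) (nat_lit 22) (nat_lit 5) (nat_lit 22) (nat_lit 4) (nat_lit 440) (nat_lit 363) (nat_lit 217))))))))
noncomputable def xc154 : XT := (XT.nd (nat_lit 2106) (nat_lit 228) (nat_lit 0) (XT.nd (nat_lit 1014) (nat_lit 456) (nat_lit 0) (XT.nd (nat_lit 468) (nat_lit 228) (nat_lit 0) (XT.nd (nat_lit 234) (nat_lit 76) (nat_lit 0) (XT.nd (nat_lit 78) (nat_lit 152) (nat_lit 0) (XT.lf (nat_lit 0) (nat_lit 64854175381) (nat_lit 76) (nat_lit 74350262391) (nat_lit 76) (nat_lit 8175926814) (nat_lit 21) (nat_lit 4) (nat_lit 22) (nat_lit 5) (nat_lit 22) (nat_lit 4) (nat_lit 441) (nat_lit 363) (nat_lit 216))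 (XT.nd (nat_lit 78) (nat_lit 76) (nat_lit 0) (XT.lf (nat_lit 0) (nat_lit 19992892358) (nat_lit 152) (nat_lit 25191327142) (nat_lit 76) (nat_lit 107996785133) (nat_lit 20) (nat_lit 5) (nat_lit 22) (nat_lit 5) (nat_lit 21) (nat_lit 4) (nat_lit 442) (nat_lit 363) (nat_lit 215)) (XT.lf (nat_lit 0) (nat_lit 36024901557) (nat_lit 76) (nat_lit 13830690469) (nat_lit 152) (nat_lit 109381373023) (nat_lit 19) (nat_lit 5) (nat_lit 20) (nat_lit 5) (nat_lit 21) (nat_lit 4) (nat_lit 443) (nat_lit 363) (nat_lit 214)))) (XT.nd (nat_lit 78) (nat_lit 76) (nat_lit 0) (XT.lf (nat_lit 0) (nat_lit 81940866143) (nat_lit 152) (nat_lit 64707288832) (nat_lit 0) (nat_lit 18911096691) (nat_lit 19) (nat_lit 5) (nat_lit 21) (nat_lit 4) (nat_lit 19) (nat_lit 4) (nat_lit 444) (nat_lit 363) (nat_lit 213)) (XT.nd (nat_lit 78) (nat_lit 76) (nat_lit 0) (XT.lf (nat_lit 0) (nat_lit 115855004997) (nat_lit 152) (nat_lit 3508173846)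 (nat_lit 0) (nat_lit 52823243864) (nat_lit 19) (nat_lit 5) (nat_lit 21) (nat_lit 4) (nat_lit 19) (nat_lit 4) (nat_lit 445) (nat_lit 363) (nat_lit 212)) (XT.lf (nat_lit 0) (nat_lit 62755497309) (nat_lit 76) (nat_lit 89687112574) (nat_lit 76) (nat_lit 26653454603) (nat_lit 18) (nat_lit 4) (nat_lit 19) (nat_lit 5) (nat_lit 19) (nat_lit 4) (nat_lit 446) (nat_lit 363) (nat_lit 211))))) (XT.nd (nat_lit 234) (nat_lit 76) (nat_lit 0) (XT.nd (nat_lit 78) (nat_lit 76) (nat_lit 0) (XT.lf (nat_lit 0) (nat_lit 4422468900) (nat_lit 152) (nat_lit 53969403237) (nat_lit 76) (nat_lit 127952878929) (nat_lit 17) (nat_lit 5) (nat_lit 19) (nat_lit 5) (nat_lit 18) (nat_lit 4) (nat_lit 447) (nat_lit 363) (nat_lit 210)) (XT.nd (nat_lit 78) (nat_lit 0) (nat_lit 0) (XT.lf (nat_lit 0) (nat_lit 11445936990) (nat_lit 76) (nat_lit 24887293235) (nat_lit 152) (nat_lit 157591956152) (nat_lit 16) (nat_lit 5) (nat_lit 17) (nat_lit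 5) (nat_lit 18) (nat_lit 4) (nat_lit 448) (nat_lit 363) (nat_lit 209)) (XT.lf (nat_lit 0) (nat_lit 70927280864) (nat_lit 152) (nat_lit 120012669069) (nat_lit 0) (nat_lit 10890306071) (nat_lit 16) (nat_lit 5) (nat_lit 18) (nat_lit 4) (nat_lit 16) (nat_lit 4) (nat_lit 449) (nat_lit 363) (nat_lit 208)))) (XT.nd (nat_lit 156) (nat_lit 0) (nat_lit 0) (XT.nd (nat_lit 78) (nat_lit 76) (nat_lit 0) (XT.lf (nat_lit 0) (nat_lit 107657188848) (nat_lit 152) (nat_lit 54834354802) (nat_lit 0) (nat_lit 47618727832) (nat_lit 16) (nat_lit 5) (nat_lit 18) (nat_lit 4) (nat_lit 16) (nat_lit 4) (nat_lit 450) (nat_lit 363) (nat_lit 207)) (XT.lf (nat_lit 0) (nat_lit 14049099181) (nat_lit 76) (nat_lit 132392092573) (nat_lit 76) (nat_lit 72352216107) (nat_lit 15) (nat_lit 4) (nat_lit 16) (nat_lit 5) (nat_lit 16) (nat_lit 4) (nat_lit 451) (nat_lit 363) (nat_lit 206))) (XT.nd (nat_lit 78) (nat_lit 0) (nat_lit 0) (XT.lf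 (nat_lit 0) (nat_lit 88277071336) (nat_lit 76) (nat_lit 99814253906) (nat_lit 76) (nat_lit 39773029393) (nat_lit 15) (nat_lit 4) (nat_lit 16) (nat_lit 5) (nat_lit 16) (nat_lit 4) (nat_lit 452) (nat_lit 363) (nat_lit 205)) (XT.lf (nat_lit 0) (nat_lit 166213223522) (nat_lit 76) (nat_lit 65609107699) (nat_lit 76) (nat_lit 5566599331) (nat_lit 15) (nat_lit 4) (nat_lit 16) (nat_lit 5) (nat_lit 16) (nat_lit 4) (nat_lit 453) (nat_lit 363) (nat_lit 204)))))) (XT.nd (nat_lit 546) (nat_lit 228) (nat_lit 0) (XT.nd (nat_lit 234) (nat_lit 76) (nat_lit 0) (XT.nd (nat_lit 78) (nat_lit 0) (nat_lit 0) (XT.lf (nat_lit 0) (nat_lit 185413814) (nat_lit 76) (nat_lit 29194656869) (nat_lit 152) (nat_lit 217985906478) (nat_lit 13) (nat_lit 5) (nat_lit 14) (nat_lit 5) (nat_lit 15) (nat_lit 4) (nat_lit 454) (nat_lit 363) (nat_lit 203)) (XT.nd (nat_lit 78) (nat_lit 0) (nat_lit 0) (XT.lf (nat_lit 0) (nat_lit 67251725224)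 (nat_lit 152) (nat_lit 180451241523) (nat_lit 0) (nat_lit 10066110384) (nat_lit 13) (nat_lit 5) (nat_lit 15) (nat_lit 4) (nat_lit 13) (nat_lit 4) (nat_lit 455) (nat_lit 363) (nat_lit 202)) (XT.lf (nat_lit 0) (nat_lit 107494060427) (nat_lit 152) (nat_lit 110867027497) (nat_lit 0) (nat_lit 50307389356) (nat_lit 13) (nat_lit 5) (nat_lit 15) (nat_lit 4) (nat_lit 13) (nat_lit 4) (nat_lit 456) (nat_lit 363) (nat_lit 201)))) (XT.nd (nat_lit 156) (nat_lit 0) (nat_lit 0) (XT.nd (nat_lit 78) (nat_lit 76) (nat_lit 0) (XT.lf (nat_lit 0) (nat_lit 149747080964) (nat_lit 152) (nat_lit 37806434159) (nat_lit 0) (nat_lit 92559403960) (nat_lit 13) (nat_lit 5) (nat_lit 15) (nat_lit 4) (nat_lit 13) (nat_lit 4) (nat_lit 457) (nat_lit 363) (nat_lit 200)) (XT.lf (nat_lit 0) (nat_lit 40190850497) (nat_lit 76) (nat_lit 154548030579) (nat_lit 76) (nat_lit 97359395542) (nat_lit 12) (nat_lit 4) (nat_lit 13) (nat_lit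 5) (nat_lit 13) (nat_lit 4) (nat_lit 458) (nat_lit 363) (nat_lit 199))) (XT.nd (nat_lit 78) (nat_lit 0) (nat_lit 0) (XT.lf (nat_lit 0) (nat_lit 123397900343) (nat_lit 76) (nat_lit 119221301339) (nat_lit 76) (nat_lit 62031753890) (nat_lit 12) (nat_lit 4) (nat_lit 13) (nat_lit 5) (nat_lit 13) (nat_lit 4) (nat_lit 459) (nat_lit 363) (nat_lit 198)) (XT.lf (nat_lit 0) (nat_lit 210762775952) (nat_lit 76) (nat_lit 82129486398) (nat_lit 76) (nat_lit 24939069986) (nat_lit 12) (nat_lit 4) (nat_lit 13) (nat_lit 5) (nat_lit 13) (nat_lit 4) (nat_lit 460) (nat_lit 363) (nat_lit 197))))) (XT.nd (nat_lit 234) (nat_lit 76) (nat_lit 0) (XT.nd (nat_lit 78) (nat_lit 76) (nat_lit 0) (XT.lf (nat_lit 0) (nat_lit 13558661500) (nat_lit 152) (nat_lit 29395987919) (nat_lit 76) (nat_lit 288705204936) (nat_lit 11) (nat_lit 5) (nat_lit 13) (nat_lit 5) (nat_lit 12) (nat_lit 4) (nat_lit 461) (nat_lit 363) (nat_lit 196))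 (XT.nd (nat_lit 78) (nat_lit 0) (nat_lit 0) (XT.lf (nat_lit 0) (nat_lit 53460097986) (nat_lit 76) (nat_lit 516550871) (nat_lit 152) (nat_lit 292141037534) (nat_lit 10) (nat_lit 5) (nat_lit 11) (nat_lit 5) (nat_lit 12) (nat_lit 4) (nat_lit 462) (nat_lit 363) (nat_lit 195)) (XT.lf (nat_lit 0) (nat_lit 97607999915) (nat_lit 152) (nat_lit 220492104000) (nat_lit 0) (nat_lit 43138682948) (nat_lit 10) (nat_lit 5) (nat_lit 12) (nat_lit 4) (nat_lit 10) (nat_lit 4) (nat_lit 463) (nat_lit 363) (nat_lit 194)))) (XT.nd (nat_lit 156) (nat_lit 76) (nat_lit 0) (XT.nd (nat_lit 78) (nat_lit 0) (nat_lit 0) (XT.lf (nat_lit 0) (nat_lit 143428268565) (nat_lit 152) (nat_lit 144729035600) (nat_lit 0) (nat_lit 88958270742) (nat_lit 10) (nat_lit 5) (nat_lit 12) (nat_lit 4) (nat_lit 10) (nat_lit 4) (nat_lit 464) (nat_lit 363) (nat_lit 193)) (XT.lf (nat_lit 0) (nat_lit 191538485879) (nat_lit 152) (nat_lit 65179930138)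 (nat_lit 0) (nat_lit 137067839622) (nat_lit 10) (nat_lit 5) (nat_lit 12) (nat_lit 4) (nat_lit 10) (nat_lit 4) (nat_lit 465) (nat_lit 363) (nat_lit 192))) (XT.nd (nat_lit 78) (nat_lit 0) (nat_lit 0) (XT.lf (nat_lit 0) (nat_lit 18951170835) (nat_lit 76) (nat_lit 223397910045) (nat_lit 76) (nat_lit 168926646232) (nat_lit 9) (nat_lit 4) (nat_lit 10) (nat_lit 5) (nat_lit 10) (nat_lit 4) (nat_lit 466) (nat_lit 363) (nat_lit 191)) (XT.lf (nat_lit 0) (nat_lit 109549743782) (nat_lit 76) (nat_lit 187253318768) (nat_lit 76) (nat_lit 132781466807) (nat_lit 9) (nat_lit 4) (nat_lit 10) (nat_lit 5) (nat_lit 10) (nat_lit 4) (nat_lit 467) (nat_lit 363) (nat_lit 190))))))) (XT.nd (nat_lit 45006) (nat_lit 0) (nat_lit 7752) (XT.nd (nat_lit 468) (nat_lit 76) (nat_lit 0) (XT.nd (nat_lit 234) (nat_lit 152) (nat_lit 0) (XT.nd (nat_lit 78) (nat_lit 0) (nat_lit 0) (XT.lf (nat_lit 0) (nat_lit 204676356737) (nat_lit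 76) (nat_lit 149302437292) (nat_lit 76) (nat_lit 94830025189) (nat_lit 9) (nat_lit 4) (nat_lit 10) (nat_lit 5) (nat_lit 10) (nat_lit 4) (nat_lit 468) (nat_lit 363) (nat_lit 189)) (XT.nd (nat_lit 78) (nat_lit 0) (nat_lit 0) (XT.lf (nat_lit 0) (nat_lit 304557501636) (nat_lit 76) (nat_lit 109454906375) (nat_lit 76) (nat_lit 54981960803) (nat_lit 9) (nat_lit 4) (nat_lit 10) (nat_lit 5) (nat_lit 10) (nat_lit 4) (nat_lit 469) (nat_lit 363) (nat_lit 188)) (XT.lf (nat_lit 0) (nat_lit 409430990729) (nat_lit 76) (nat_lit 67615850943) (nat_lit 76) (nat_lit 13142397307) (nat_lit 9) (nat_lit 4) (nat_lit 10) (nat_lit 5) (nat_lit 10) (nat_lit 4) (nat_lit 470) (nat_lit 363) (nat_lit 187)))) (XT.nd (nat_lit 78) (nat_lit 0) (nat_lit 0) (XT.lf (nat_lit 0) (nat_lit 6840888890) (nat_lit 76) (nat_lit 23068782523) (nat_lit 152) (nat_lit 482504847434) (nat_lit 7) (nat_lit 5) (nat_lit 8) (nat_lit 5) (nat_lit 9) (nat_lit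 4) (nat_lit 471) (nat_lit 363) (nat_lit 186)) (XT.nd (nat_lit 78) (nat_lit 0) (nat_lit 0) (XT.lf (nat_lit 0) (nat_lit 76432053317) (nat_lit 152) (nat_lit 434668593995) (nat_lit 0) (nat_lit 24551673947) (nat_lit 7) (nat_lit 5) (nat_lit 9) (nat_lit 4) (nat_lit 7) (nat_lit 4) (nat_lit 472) (nat_lit 363) (nat_lit 185)) (XT.lf (nat_lit 0) (nat_lit 125657938712) (nat_lit 152) (nat_lit 360598064535) (nat_lit 0) (nat_lit 73777141356) (nat_lit 7) (nat_lit 5) (nat_lit 9) (nat_lit 4) (nat_lit 7) (nat_lit 4) (nat_lit 473) (nat_lit 363) (nat_lit 184))))) (XT.nd (nat_lit 234) (nat_lit 76) (nat_lit 0) (XT.nd (nat_lit 78) (nat_lit 0) (nat_lit 0) (XT.lf (nat_lit 0) (nat_lit 177344363743) (nat_lit 152) (nat_lit 282825514828) (nat_lit 0) (nat_lit 125463168305) (nat_lit 7) (nat_lit 5) (nat_lit 9) (nat_lit 4) (nat_lit 7) (nat_lit 4) (nat_lit 474) (nat_lit 363) (nat_lit 183)) (XT.nd (nat_lit 78) (nat_lit 0) (nat_lit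 0) (XT.lf (nat_lit 0) (nat_lit 231614391326) (nat_lit 152) (nat_lit 201165772136) (nat_lit 0) (nat_lit 179732816762) (nat_lit 7) (nat_lit 5) (nat_lit 9) (nat_lit 4) (nat_lit 7) (nat_lit 4) (nat_lit 475) (nat_lit 363) (nat_lit 182)) (XT.lf (nat_lit 0) (nat_lit 288597235813) (nat_lit 152) (nat_lit 115424408501) (nat_lit 0) (nat_lit 236715300176) (nat_lit 7) (nat_lit 5) (nat_lit 9) (nat_lit 4) (nat_lit 7) (nat_lit 4) (nat_lit 476) (nat_lit 363) (nat_lit 181)))) (XT.nd (nat_lit 156) (nat_lit 0) (nat_lit 0) (XT.nd (nat_lit 78) (nat_lit 76) (nat_lit 0) (XT.lf (nat_lit 0) (nat_lit 348428570643) (nat_lit 152) (nat_lit 25397277819) (nat_lit 0) (nat_lit 296546291128) (nat_lit 7) (nat_lit 5) (nat_lit 9) (nat_lit 4) (nat_lit 7) (nat_lit 4) (nat_lit 477) (nat_lit 363) (nat_lit 180)) (XT.lf (nat_lit 0) (nat_lit 71415719236) (nat_lit 76) (nat_lit 340950131657) (nat_lit 76) (nat_lit 289067524639) (nat_lit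 6) (nat_lit 4) (nat_lit 7) (nat_lit 5) (nat_lit 7) (nat_lit 4) (nat_lit 478) (nat_lit 363) (nat_lit 179))) (XT.nd (nat_lit 78) (nat_lit 0) (nat_lit 0) (XT.lf (nat_lit 0) (nat_lit 173949883094) (nat_lit 76) (nat_lit 305979616942) (nat_lit 76) (nat_lit 254096698017) (nat_lit 6) (nat_lit 4) (nat_lit 7) (nat_lit 5) (nat_lit 7) (nat_lit 4) (nat_lit 479) (nat_lit 363) (nat_lit 178)) (XT.lf (nat_lit 0) (nat_lit 281609594012) (nat_lit 76) (nat_lit 269261156376) (nat_lit 76) (nat_lit 217377940395) (nat_lit 6) (nat_lit 4) (nat_lit 7) (nat_lit 5) (nat_lit 7) (nat_lit 4) (nat_lit 480) (nat_lit 363) (nat_lit 177)))))) (XT.nd (nat_lit 546) (nat_lit 912) (nat_lit 0) (XT.nd (nat_lit 234) (nat_lit 684) (nat_lit 0) (XT.nd (nat_lit 78) (nat_lit 0) (nat_lit 0) (XT.lf (nat_lit 0) (nat_lit 2972992994) (nat_lit 0) (nat_lit 2972992994) (nat_lit 684) (nat_lit 740492517) (nat_lit 129) (nat_lit 5) (nat_lit 129) (nat_lit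 3) (nat_lit 138) (nat_lit 3) (nat_lit 364) (nat_lit 364) (nat_lit 292)) (XT.nd (nat_lit 78) (nat_lit 0) (nat_lit 0) (XT.lf (nat_lit 0) (nat_lit 12557485293) (nat_lit 684) (nat_lit 924793048) (nat_lit 760) (nat_lit 206378787) (nat_lit 129) (nat_lit 5) (nat_lit 138) (nat_lit 3) (nat_lit 139) (nat_lit 5) (nat_lit 365) (nat_lit 364) (nat_lit 291)) (XT.lf (nat_lit 76) (nat_lit 5983485089) (nat_lit 0) (nat_lit 7440508455) (nat_lit 760) (nat_lit 587776386) (nat_lit 130) (nat_lit 5) (nat_lit 129) (nat_lit 5) (nat_lit 139) (nat_lit 5) (nat_lit 366) (nat_lit 364) (nat_lit 290)))) (XT.nd (nat_lit 156) (nat_lit 0) (nat_lit 0) (XT.nd (nat_lit 78) (nat_lit 684) (nat_lit 0) (XT.lf (nat_lit 76) (nat_lit 13256451774) (nat_lit 0) (nat_lit 1070765589) (nat_lit 760) (nat_lit 24164491) (nat_lit 130) (nat_lit 5) (nat_lit 129) (nat_lit 5) (nat_lit 139) (nat_lit 5) (nat_lit 367) (nat_lit 364) (nat_lit 289)) (XT.lf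 (nat_lit 0) (nat_lit 716911296) (nat_lit 760) (nat_lit 8426195022) (nat_lit 836) (nat_lit 5556064182) (nat_lit 120) (nat_lit 5) (nat_lit 130) (nat_lit 5) (nat_lit 131) (nat_lit 5) (nat_lit 368) (nat_lit 364) (nat_lit 288))) (XT.nd (nat_lit 78) (nat_lit 0) (nat_lit 76) (XT.lf (nat_lit 0) (nat_lit 1510011975) (nat_lit 760) (nat_lit 1048295834) (nat_lit 836) (nat_lit 12505243025) (nat_lit 120) (nat_lit 5) (nat_lit 130) (nat_lit 5) (nat_lit 131) (nat_lit 5) (nat_lit 369) (nat_lit 364) (nat_lit 287)) (XT.lf (nat_lit 0) (nat_lit 2500831123) (nat_lit 760) (nat_lit 8605329156) (nat_lit 836) (nat_lit 4332097423) (nat_lit 121) (nat_lit 5) (nat_lit 131) (nat_lit 5) (nat_lit 132) (nat_lit 5) (nat_lit 370) (nat_lit 364) (nat_lit 286))))) (XT.nd (nat_lit 234) (nat_lit 988) (nat_lit 0) (XT.nd (nat_lit 78) (nat_lit 0) (nat_lit 76) (XT.lf (nat_lit 0) (nat_lit 3582362590) (nat_lit 760) (nat_lit 742515659)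 (nat_lit 836) (nat_lit 11504773275) (nat_lit 121) (nat_lit 5) (nat_lit 131) (nat_lit 5) (nat_lit 132) (nat_lit 5) (nat_lit 371) (nat_lit 364) (nat_lit 285)) (XT.nd (nat_lit 78) (nat_lit 0) (nat_lit 0) (XT.lf (nat_lit 0) (nat_lit 4866720626) (nat_lit 760) (nat_lit 8533158350) (nat_lit 836) (nat_lit 2833308256) (nat_lit 122) (nat_lit 5) (nat_lit 132) (nat_lit 5) (nat_lit 133) (nat_lit 5) (nat_lit 372) (nat_lit 364) (nat_lit 284)) (XT.lf (nat_lit 0) (nat_lit 6281771294) (nat_lit 760) (nat_lit 151028645) (nat_lit 836) (nat_lit 10220785284) (nat_lit 122) (nat_lit 5) (nat_lit 132) (nat_lit 5) (nat_lit 133) (nat_lit 5) (nat_lit 373) (nat_lit 364) (nat_lit 283)))) (XT.nd (nat_lit 156) (nat_lit 380) (nat_lit 0) (XT.nd (nat_lit 78) (nat_lit 760) (nat_lit 0) (XT.lf (nat_lit 0) (nat_lit 7906600060) (nat_lit 760) (nat_lit 8182656458) (nat_lit 76) (nat_lit 998804110) (nat_lit 123) (nat_lit 5) (nat_lit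 133) (nat_lit 5) (nat_lit 124) (nat_lit 5) (nat_lit 374) (nat_lit 364) (nat_lit 282)) (XT.lf (nat_lit 0) (nat_lit 781195345) (nat_lit 760) (nat_lit 8935954127) (nat_lit 836) (nat_lit 7821894746) (nat_lit 113) (nat_lit 5) (nat_lit 123) (nat_lit 5) (nat_lit 124) (nat_lit 5) (nat_lit 375) (nat_lit 364) (nat_lit 281))) (XT.nd (nat_lit 78) (nat_lit 380) (nat_lit 0) (XT.lf (nat_lit 0) (nat_lit 10463469992) (nat_lit 760) (nat_lit 1278095561) (nat_lit 836) (nat_lit 6264852450) (nat_lit 113) (nat_lit 5) (nat_lit 123) (nat_lit 5) (nat_lit 124) (nat_lit 5) (nat_lit 376) (nat_lit 364) (nat_lit 280)) (XT.lf (nat_lit 0) (nat_lit 2079731023) (nat_lit 380) (nat_lit 11911034024) (nat_lit 456) (nat_lit 4500224896) (nat_lit 108) (nat_lit 5) (nat_lit 113) (nat_lit 5) (nat_lit 114) (nat_lit 5) (nat_lit 377) (nat_lit 364) (nat_lit 279))))))))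
noncomputable def xc155 : XT := (XT.nd (nat_lit 2106) (nat_lit 2128) (nat_lit 0) (XT.nd (nat_lit 1014) (nat_lit 1748) (nat_lit 0) (XT.nd (nat_lit 468) (nat_lit 1140) (nat_lit 0) (XT.nd (nat_lit 234) (nat_lit 684) (nat_lit 0) (XT.nd (nat_lit 78) (nat_lit 456) (nat_lit 0) (XT.lf (nat_lit 0) (nat_lit 12410050680) (nat_lit 380) (nat_lit 4076715765) (nat_lit 456) (nat_lit 2506314173) (nat_lit 108) (nat_lit 5) (nat_lit 113) (nat_lit 5) (nat_lit 114) (nat_lit 5) (nat_lit 378) (nat_lit 364) (nat_lit 278)) (XT.nd (nat_lit 78) (nat_lit 76) (nat_lit 0) (XT.lf (nat_lit 0) (nat_lit 3779033135) (nat_lit 380) (nat_lit 15438974371) (nat_lit 456) (nat_lit 296753232) (nat_lit 103) (nat_lit 5) (nat_lit 108) (nat_lit 5) (nat_lit 109) (nat_lit 5) (nat_lit 379) (nat_lit 364) (nat_lit 277)) (XT.lf (nat_lit 0) (nat_lit 2125535746) (nat_lit 456) (nat_lit 5283417891) (nat_lit 76) (nat_lit 12643647628) (nat_lit 102)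 (nat_lit 5) (nat_lit 108) (nat_lit 5) (nat_lit 103) (nat_lit 5) (nat_lit 380) (nat_lit 364) (nat_lit 276)))) (XT.nd (nat_lit 78) (nat_lit 304) (nat_lit 0) (XT.lf (nat_lit 0) (nat_lit 4755492037) (nat_lit 456) (nat_lit 14769752160) (nat_lit 76) (nat_lit 1087026049) (nat_lit 97) (nat_lit 5) (nat_lit 103) (nat_lit 5) (nat_lit 98) (nat_lit 5) (nat_lit 381) (nat_lit 364) (nat_lit 275)) (XT.nd (nat_lit 78) (nat_lit 304) (nat_lit 0) (XT.lf (nat_lit 0) (nat_lit 7717212444) (nat_lit 456) (nat_lit 3623878183) (nat_lit 76) (nat_lit 9848824401) (nat_lit 97) (nat_lit 5) (nat_lit 103) (nat_lit 5) (nat_lit 98) (nat_lit 5) (nat_lit 382) (nat_lit 364) (nat_lit 274)) (XT.lf (nat_lit 0) (nat_lit 8332964515) (nat_lit 304) (nat_lit 2612597158) (nat_lit 380) (nat_lit 10844958635) (nat_lit 93) (nat_lit 5) (nat_lit 97) (nat_lit 5) (nat_lit 98) (nat_lit 5) (nat_lit 383) (nat_lit 364) (nat_lit 273))))) (XT.nd (nat_lit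 234) (nat_lit 608) (nat_lit 0) (XT.nd (nat_lit 78) (nat_lit 532) (nat_lit 0) (XT.lf (nat_lit 0) (nat_lit 14488773570) (nat_lit 380) (nat_lit 1521293255) (nat_lit 76) (nat_lit 6403421907) (nat_lit 93) (nat_lit 5) (nat_lit 98) (nat_lit 5) (nat_lit 94) (nat_lit 5) (nat_lit 384) (nat_lit 364) (nat_lit 272)) (XT.nd (nat_lit 78) (nat_lit 228) (nat_lit 0) (XT.lf (nat_lit 0) (nat_lit 11318489553) (nat_lit 304) (nat_lit 7099501104) (nat_lit 380) (nat_lit 4639177588) (nat_lit 89) (nat_lit 5) (nat_lit 93) (nat_lit 5) (nat_lit 94) (nat_lit 5) (nat_lit 385) (nat_lit 364) (nat_lit 271)) (XT.lf (nat_lit 0) (nat_lit 1108135987) (nat_lit 228) (nat_lit 21503834054) (nat_lit 304) (nat_lit 1117651284) (nat_lit 86) (nat_lit 5) (nat_lit 89) (nat_lit 5) (nat_lit 90) (nat_lit 5) (nat_lit 386) (nat_lit 364) (nat_lit 270)))) (XT.nd (nat_lit 156) (nat_lit 228) (nat_lit 0) (XT.nd (nat_lit 78) (nat_lit 304) (nat_lit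 0) (XT.lf (nat_lit 0) (nat_lit 2805529655) (nat_lit 304) (nat_lit 9593995460) (nat_lit 76) (nat_lit 12018754516) (nat_lit 85) (nat_lit 5) (nat_lit 89) (nat_lit 5) (nat_lit 86) (nat_lit 5) (nat_lit 387) (nat_lit 364) (nat_lit 269)) (XT.lf (nat_lit 0) (nat_lit 4188071512) (nat_lit 304) (nat_lit 2754823717) (nat_lit 380) (nat_lit 18194784244) (nat_lit 81) (nat_lit 5) (nat_lit 85) (nat_lit 5) (nat_lit 86) (nat_lit 5) (nat_lit 388) (nat_lit 364) (nat_lit 268))) (XT.nd (nat_lit 78) (nat_lit 228) (nat_lit 0) (XT.lf (nat_lit 0) (nat_lit 11557800289) (nat_lit 380) (nat_lit 7023118982) (nat_lit 76) (nat_lit 7298600313) (nat_lit 81) (nat_lit 5) (nat_lit 86) (nat_lit 5) (nat_lit 82) (nat_lit 5) (nat_lit 389) (nat_lit 364) (nat_lit 267)) (XT.lf (nat_lit 0) (nat_lit 7791771726) (nat_lit 228) (nat_lit 8769376379) (nat_lit 304) (nat_lit 10089422374) (nat_lit 78) (nat_lit 5) (nat_lit 81) (nat_lit 5) (nat_lit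 82) (nat_lit 5) (nat_lit 390) (nat_lit 364) (nat_lit 266)))))) (XT.nd (nat_lit 546) (nat_lit 836) (nat_lit 0) (XT.nd (nat_lit 234) (nat_lit 608) (nat_lit 0) (XT.nd (nat_lit 78) (nat_lit 304) (nat_lit 0) (XT.lf (nat_lit 0) (nat_lit 21950567868) (nat_lit 304) (nat_lit 3901223200) (nat_lit 76) (nat_lit 1601591103) (nat_lit 78) (nat_lit 5) (nat_lit 82) (nat_lit 5) (nat_lit 79) (nat_lit 5) (nat_lit 391) (nat_lit 364) (nat_lit 265)) (XT.nd (nat_lit 78) (nat_lit 76) (nat_lit 0) (XT.lf (nat_lit 0) (nat_lit 12033868058) (nat_lit 228) (nat_lit 15898742164) (nat_lit 304) (nat_lit 347569959) (nat_lit 75) (nat_lit 5) (nat_lit 78) (nat_lit 5) (nat_lit 79) (nat_lit 5) (nat_lit 392) (nat_lit 364) (nat_lit 264)) (XT.lf (nat_lit 0) (nat_lit 4962057208) (nat_lit 304) (nat_lit 335880833) (nat_lit 76) (nat_lit 23843491463) (nat_lit 74) (nat_lit 5) (nat_lit 78) (nat_lit 5) (nat_lit 75) (nat_lit 5) (nat_lit 393)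 (nat_lit 364) (nat_lit 263)))) (XT.nd (nat_lit 156) (nat_lit 152) (nat_lit 0) (XT.nd (nat_lit 78) (nat_lit 228) (nat_lit 0) (XT.lf (nat_lit 0) (nat_lit 10876672936) (nat_lit 304) (nat_lit 13234313202) (nat_lit 76) (nat_lit 5916913733) (nat_lit 71) (nat_lit 5) (nat_lit 75) (nat_lit 5) (nat_lit 72) (nat_lit 5) (nat_lit 394) (nat_lit 364) (nat_lit 262)) (XT.lf (nat_lit 0) (nat_lit 3857862800) (nat_lit 228) (nat_lit 13374172158) (nat_lit 304) (nat_lit 13719410750) (nat_lit 68) (nat_lit 5) (nat_lit 71) (nat_lit 5) (nat_lit 72) (nat_lit 5) (nat_lit 395) (nat_lit 364) (nat_lit 261))) (XT.nd (nat_lit 78) (nat_lit 152) (nat_lit 0) (XT.lf (nat_lit 0) (nat_lit 22252850270) (nat_lit 228) (nat_lit 1868792711) (nat_lit 304) (nat_lit 7788704557) (nat_lit 68) (nat_lit 5) (nat_lit 71) (nat_lit 5) (nat_lit 72) (nat_lit 5) (nat_lit 396) (nat_lit 364) (nat_lit 260)) (XT.lf (nat_lit 0) (nat_lit 8760301713) (nat_lit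 152) (nat_lit 22884297309) (nat_lit 228) (nat_lit 1258154531) (nat_lit 66) (nat_lit 5) (nat_lit 68) (nat_lit 5) (nat_lit 69) (nat_lit 5) (nat_lit 397) (nat_lit 364) (nat_lit 259))))) (XT.nd (nat_lit 234) (nat_lit 532) (nat_lit 0) (XT.nd (nat_lit 78) (nat_lit 228) (nat_lit 0) (XT.lf (nat_lit 0) (nat_lit 5609313432) (nat_lit 228) (nat_lit 5634161583) (nat_lit 76) (nat_lit 22687456804) (nat_lit 65) (nat_lit 5) (nat_lit 68) (nat_lit 5) (nat_lit 66) (nat_lit 5) (nat_lit 398) (nat_lit 364) (nat_lit 258)) (XT.nd (nat_lit 78) (nat_lit 0) (nat_lit 0) (XT.lf (nat_lit 0) (nat_lit 13012221418) (nat_lit 304) (nat_lit 20794360289) (nat_lit 76) (nat_lit 1191190712) (nat_lit 62) (nat_lit 5) (nat_lit 66) (nat_lit 5) (nat_lit 63) (nat_lit 5) (nat_lit 399) (nat_lit 364) (nat_lit 257)) (XT.lf (nat_lit 0) (nat_lit 21059752534) (nat_lit 304) (nat_lit 1081286465) (nat_lit 76) (nat_lit 13963194197) (nat_lit 62)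 (nat_lit 5) (nat_lit 66) (nat_lit 5) (nat_lit 63) (nat_lit 5) (nat_lit 400) (nat_lit 364) (nat_lit 256)))) (XT.nd (nat_lit 156) (nat_lit 152) (nat_lit 0) (XT.nd (nat_lit 78) (nat_lit 228) (nat_lit 0) (XT.lf (nat_lit 0) (nat_lit 20255565945) (nat_lit 152) (nat_lit 9563842314) (nat_lit 228) (nat_lit 7431123288) (nat_lit 60) (nat_lit 5) (nat_lit 62) (nat_lit 5) (nat_lit 63) (nat_lit 5) (nat_lit 401) (nat_lit 364) (nat_lit 255)) (XT.lf (nat_lit 0) (nat_lit 683552437) (nat_lit 228) (nat_lit 34144139511) (nat_lit 76) (nat_lit 3619081859) (nat_lit 57) (nat_lit 5) (nat_lit 60) (nat_lit 5) (nat_lit 58) (nat_lit 5) (nat_lit 402) (nat_lit 364) (nat_lit 254))) (XT.nd (nat_lit 78) (nat_lit 152) (nat_lit 0) (XT.lf (nat_lit 0) (nat_lit 9397188488) (nat_lit 228) (nat_lit 12726944081) (nat_lit 76) (nat_lit 17550458149) (nat_lit 57) (nat_lit 5) (nat_lit 60) (nat_lit 5) (nat_lit 58) (nat_lit 5) (nat_lit 403)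 (nat_lit 364) (nat_lit 253)) (XT.lf (nat_lit 0) (nat_lit 10073700541) (nat_lit 152) (nat_lit 8624027749) (nat_lit 228) (nat_lit 22258510681) (nat_lit 55) (nat_lit 5) (nat_lit 57) (nat_lit 5) (nat_lit 58) (nat_lit 5) (nat_lit 404) (nat_lit 364) (nat_lit 252))))))) (XT.nd (nat_lit 1092) (nat_lit 912) (nat_lit 0) (XT.nd (nat_lit 546) (nat_lit 532) (nat_lit 0) (XT.nd (nat_lit 234) (nat_lit 456) (nat_lit 0) (XT.nd (nat_lit 78) (nat_lit 228) (nat_lit 0) (XT.lf (nat_lit 0) (nat_lit 28763055416) (nat_lit 228) (nat_lit 7935078181) (nat_lit 76) (nat_lit 5588849542) (nat_lit 55) (nat_lit 5) (nat_lit 58) (nat_lit 5) (nat_lit 56) (nat_lit 5) (nat_lit 405) (nat_lit 364) (nat_lit 251)) (XT.nd (nat_lit 78) (nat_lit 76) (nat_lit 0) (XT.lf (nat_lit 0) (nat_lit 16538265151) (nat_lit 152) (nat_lit 23187276615) (nat_lit 228) (nat_lit 3939029552) (nat_lit 53) (nat_lit 5) (nat_lit 55) (nat_lit 5) (nat_lit 56) (nat_lit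 5) (nat_lit 406) (nat_lit 364) (nat_lit 250)) (XT.lf (nat_lit 0) (nat_lit 6059999250) (nat_lit 228) (nat_lit 2700865632) (nat_lit 76) (nat_lit 36338847445) (nat_lit 52) (nat_lit 5) (nat_lit 55) (nat_lit 5) (nat_lit 53) (nat_lit 5) (nat_lit 407) (nat_lit 364) (nat_lit 249)))) (XT.nd (nat_lit 156) (nat_lit 152) (nat_lit 0) (XT.nd (nat_lit 78) (nat_lit 152) (nat_lit 0) (XT.lf (nat_lit 0) (nat_lit 16896885605) (nat_lit 228) (nat_lit 23063466135) (nat_lit 76) (nat_lit 6619517017) (nat_lit 50) (nat_lit 5) (nat_lit 53) (nat_lit 5) (nat_lit 51) (nat_lit 5) (nat_lit 408) (nat_lit 364) (nat_lit 248)) (XT.lf (nat_lit 0) (nat_lit 2947433934) (nat_lit 152) (nat_lit 25558982530) (nat_lit 228) (nat_lit 19616077724) (nat_lit 48) (nat_lit 5) (nat_lit 50) (nat_lit 5) (nat_lit 51) (nat_lit 5) (nat_lit 409) (nat_lit 364) (nat_lit 247))) (XT.nd (nat_lit 78) (nat_lit 152) (nat_lit 0) (XT.lf (nat_lit 0) (nat_lit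 31050649012) (nat_lit 152) (nat_lit 10031151388) (nat_lit 228) (nat_lit 8641182796) (nat_lit 48) (nat_lit 5) (nat_lit 50) (nat_lit 5) (nat_lit 51) (nat_lit 5) (nat_lit 410) (nat_lit 364) (nat_lit 246)) (XT.lf (nat_lit 0) (nat_lit 3032983424) (nat_lit 152) (nat_lit 42092398301) (nat_lit 76) (nat_lit 6263726639) (nat_lit 46) (nat_lit 5) (nat_lit 48) (nat_lit 5) (nat_lit 47) (nat_lit 5) (nat_lit 411) (nat_lit 364) (nat_lit 245))))) (XT.nd (nat_lit 234) (nat_lit 380) (nat_lit 0) (XT.nd (nat_lit 78) (nat_lit 152) (nat_lit 0) (XT.lf (nat_lit 0) (nat_lit 15481313895) (nat_lit 152) (nat_lit 14130283982) (nat_lit 76) (nat_lit 23495817137) (nat_lit 46) (nat_lit 5) (nat_lit 48) (nat_lit 5) (nat_lit 47) (nat_lit 5) (nat_lit 412) (nat_lit 364) (nat_lit 244)) (XT.nd (nat_lit 78) (nat_lit 0) (nat_lit 0) (XT.lf (nat_lit 0) (nat_lit 15724912019) (nat_lit 152) (nat_lit 13067899013) (nat_lit 228) (nat_lit 26106789390)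 (nat_lit 44) (nat_lit 5) (nat_lit 46) (nat_lit 5) (nat_lit 47) (nat_lit 5) (nat_lit 413) (nat_lit 364) (nat_lit 243)) (XT.lf (nat_lit 0) (nat_lit 43075574915) (nat_lit 228) (nat_lit 9285459368) (nat_lit 76) (nat_lit 4405077110) (nat_lit 44) (nat_lit 5) (nat_lit 47) (nat_lit 5) (nat_lit 45) (nat_lit 4) (nat_lit 414) (nat_lit 364) (nat_lit 242)))) (XT.nd (nat_lit 156) (nat_lit 228) (nat_lit 0) (XT.nd (nat_lit 78) (nat_lit 76) (nat_lit 0) (XT.lf (nat_lit 0) (nat_lit 22599358001) (nat_lit 76) (nat_lit 36035694762) (nat_lit 152) (nat_lit 62767206) (nat_lit 43) (nat_lit 5) (nat_lit 44) (nat_lit 5) (nat_lit 45) (nat_lit 4) (nat_lit 415) (nat_lit 364) (nat_lit 241)) (XT.lf (nat_lit 0) (nat_lit 13945775949) (nat_lit 152) (nat_lit 4550454908) (nat_lit 76) (nat_lit 42210994636) (nat_lit 42) (nat_lit 5) (nat_lit 44) (nat_lit 5) (nat_lit 43) (nat_lit 5) (nat_lit 416) (nat_lit 364) (nat_lit 240))) (XT.nd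 (nat_lit 78) (nat_lit 76) (nat_lit 0) (XT.lf (nat_lit 0) (nat_lit 29115396190) (nat_lit 228) (nat_lit 33289649001) (nat_lit 76) (nat_lit 388867418) (nat_lit 40) (nat_lit 5) (nat_lit 43) (nat_lit 5) (nat_lit 41) (nat_lit 4) (nat_lit 417) (nat_lit 364) (nat_lit 239)) (XT.lf (nat_lit 0) (nat_lit 130680246) (nat_lit 76) (nat_lit 45292176431) (nat_lit 152) (nat_lit 19543110137) (nat_lit 39) (nat_lit 5) (nat_lit 40) (nat_lit 5) (nat_lit 41) (nat_lit 4) (nat_lit 418) (nat_lit 364) (nat_lit 238)))))) (XT.nd (nat_lit 546) (nat_lit 380) (nat_lit 0) (XT.nd (nat_lit 234) (nat_lit 304) (nat_lit 0) (XT.nd (nat_lit 78) (nat_lit 228) (nat_lit 0) (XT.lf (nat_lit 0) (nat_lit 36370249851) (nat_lit 76) (nat_lit 26735075044) (nat_lit 152) (nat_lit 4113317763) (nat_lit 39) (nat_lit 5) (nat_lit 40) (nat_lit 5) (nat_lit 41) (nat_lit 4) (nat_lit 419) (nat_lit 364) (nat_lit 237)) (XT.nd (nat_lit 78) (nat_lit 0) (nat_lit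 0) (XT.lf (nat_lit 0) (nat_lit 4795305622) (nat_lit 152) (nat_lit 6976626758) (nat_lit 228) (nat_lit 57799041239) (nat_lit 36) (nat_lit 5) (nat_lit 38) (nat_lit 5) (nat_lit 39) (nat_lit 5) (nat_lit 420) (nat_lit 364) (nat_lit 236)) (XT.lf (nat_lit 0) (nat_lit 29055210396) (nat_lit 228) (nat_lit 29020925770) (nat_lit 76) (nat_lit 13924313972) (nat_lit 36) (nat_lit 5) (nat_lit 39) (nat_lit 5) (nat_lit 37) (nat_lit 4) (nat_lit 421) (nat_lit 364) (nat_lit 235)))) (XT.nd (nat_lit 156) (nat_lit 228) (nat_lit 0) (XT.nd (nat_lit 78) (nat_lit 0) (nat_lit 0) (XT.lf (nat_lit 0) (nat_lit 8677958574) (nat_lit 76) (nat_lit 38770760109) (nat_lit 152) (nat_lit 27090379026) (nat_lit 35) (nat_lit 5) (nat_lit 36) (nat_lit 5) (nat_lit 37) (nat_lit 4) (nat_lit 422) (nat_lit 364) (nat_lit 234)) (XT.lf (nat_lit 0) (nat_lit 49262467681) (nat_lit 76) (nat_lit 17987199762) (nat_lit 152) (nat_lit 9930622481) (nat_lit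 35) (nat_lit 5) (nat_lit 36) (nat_lit 5) (nat_lit 37) (nat_lit 4) (nat_lit 423) (nat_lit 364) (nat_lit 233))) (XT.nd (nat_lit 78) (nat_lit 0) (nat_lit 0) (XT.lf (nat_lit 0) (nat_lit 8079863869) (nat_lit 228) (nat_lit 67823357488) (nat_lit 76) (nat_lit 4031428713) (nat_lit 32) (nat_lit 5) (nat_lit 35) (nat_lit 5) (nat_lit 33) (nat_lit 4) (nat_lit 424) (nat_lit 364) (nat_lit 232)) (XT.lf (nat_lit 0) (nat_lit 27428987622) (nat_lit 228) (nat_lit 28164077165) (nat_lit 76) (nat_lit 27186931676) (nat_lit 32) (nat_lit 5) (nat_lit 35) (nat_lit 5) (nat_lit 33) (nat_lit 4) (nat_lit 425) (nat_lit 364) (nat_lit 231))))) (XT.nd (nat_lit 234) (nat_lit 152) (nat_lit 0) (XT.nd (nat_lit 78) (nat_lit 152) (nat_lit 0) (XT.lf (nat_lit 0) (nat_lit 13917248060) (nat_lit 76) (nat_lit 34042199425) (nat_lit 152) (nat_lit 37797469120) (nat_lit 31) (nat_lit 5) (nat_lit 32) (nat_lit 5) (nat_lit 33) (nat_lit 4) (nat_lit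 426) (nat_lit 364) (nat_lit 230)) (XT.nd (nat_lit 78) (nat_lit 152) (nat_lit 0) (XT.lf (nat_lit 0) (nat_lit 59074177291) (nat_lit 76) (nat_lit 10915882591) (nat_lit 152) (nat_lit 18868941801) (nat_lit 31) (nat_lit 5) (nat_lit 32) (nat_lit 5) (nat_lit 33) (nat_lit 4) (nat_lit 427) (nat_lit 364) (nat_lit 229)) (XT.lf (nat_lit 0) (nat_lit 1414744988) (nat_lit 152) (nat_lit 77491195835) (nat_lit 76) (nat_lit 13187418639) (nat_lit 29) (nat_lit 5) (nat_lit 31) (nat_lit 5) (nat_lit 30) (nat_lit 4) (nat_lit 428) (nat_lit 364) (nat_lit 228)))) (XT.nd (nat_lit 156) (nat_lit 76) (nat_lit 0) (XT.nd (nat_lit 78) (nat_lit 76) (nat_lit 0) (XT.lf (nat_lit 0) (nat_lit 22766915667) (nat_lit 152) (nat_lit 33724278822) (nat_lit 76) (nat_lit 38948353662) (nat_lit 29) (nat_lit 5) (nat_lit 31) (nat_lit 5) (nat_lit 30) (nat_lit 4) (nat_lit 429) (nat_lit 364) (nat_lit 227)) (XT.lf (nat_lit 0) (nat_lit 12629411106)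 (nat_lit 76) (nat_lit 32751398777) (nat_lit 152) (nat_lit 53562530974) (nat_lit 28) (nat_lit 5) (nat_lit 29) (nat_lit 5) (nat_lit 30) (nat_lit 4) (nat_lit 430) (nat_lit 364) (nat_lit 226))) (XT.nd (nat_lit 78) (nat_lit 76) (nat_lit 0) (XT.lf (nat_lit 0) (nat_lit 62465916813) (nat_lit 76) (nat_lit 7227610473) (nat_lit 152) (nat_lit 32900389809) (nat_lit 28) (nat_lit 5) (nat_lit 29) (nat_lit 5) (nat_lit 30) (nat_lit 4) (nat_lit 431) (nat_lit 364) (nat_lit 225)) (XT.lf (nat_lit 0) (nat_lit 8322486009) (nat_lit 76) (nat_lit 87332006127) (nat_lit 76) (nat_lit 10750899733) (nat_lit 27) (nat_lit 4) (nat_lit 28) (nat_lit 5) (nat_lit 28) (nat_lit 4) (nat_lit 432) (nat_lit 364) (nat_lit 224))))))))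
noncomputable def xc156 : XT := (XT.nd (nat_lit 2106) (nat_lit 456) (nat_lit 0) (XT.nd (nat_lit 1014) (nat_lit 532) (nat_lit 0) (XT.nd (nat_lit 468) (nat_lit 304) (nat_lit 0) (XT.nd (nat_lit 234) (nat_lit 152) (nat_lit 0) (XT.nd (nat_lit 78) (nat_lit 76) (nat_lit 0) (XT.lf (nat_lit 0) (nat_lit 12912107044) (nat_lit 152) (nat_lit 50115230342) (nat_lit 76) (nat_lit 47330024815) (nat_lit 26) (nat_lit 5) (nat_lit 28) (nat_lit 5) (nat_lit 27) (nat_lit 4) (nat_lit 433) (nat_lit 364) (nat_lit 223)) (XT.nd (nat_lit 78) (nat_lit 0) (nat_lit 0) (XT.lf (nat_lit 0) (nat_lit 71601552) (nat_lit 76) (nat_lit 37323718909) (nat_lit 152) (nat_lit 77102880787) (nat_lit 25) (nat_lit 5) (nat_lit 26) (nat_lit 5) (nat_lit 27) (nat_lit 4) (nat_lit 434) (nat_lit 364) (nat_lit 222)) (XT.lf (nat_lit 0) (nat_lit 54502472916) (nat_lit 76) (nat_lit 9446236880) (nat_lit 152) (nat_lit 54855071940) (nat_lit 25) (nat_lit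 5) (nat_lit 26) (nat_lit 5) (nat_lit 27) (nat_lit 4) (nat_lit 435) (nat_lit 364) (nat_lit 221)))) (XT.nd (nat_lit 78) (nat_lit 152) (nat_lit 0) (XT.lf (nat_lit 0) (nat_lit 92136676042) (nat_lit 152) (nat_lit 11984314139) (nat_lit 0) (nat_lit 19188305931) (nat_lit 25) (nat_lit 5) (nat_lit 27) (nat_lit 4) (nat_lit 25) (nat_lit 4) (nat_lit 436) (nat_lit 364) (nat_lit 220)) (XT.nd (nat_lit 78) (nat_lit 76) (nat_lit 0) (XT.lf (nat_lit 0) (nat_lit 44203672198) (nat_lit 76) (nat_lit 78372874399) (nat_lit 76) (nat_lit 5421414538) (nat_lit 24) (nat_lit 4) (nat_lit 25) (nat_lit 5) (nat_lit 25) (nat_lit 4) (nat_lit 437) (nat_lit 364) (nat_lit 219)) (XT.lf (nat_lit 0) (nat_lit 21129259585) (nat_lit 152) (nat_lit 29639420330) (nat_lit 76) (nat_lit 82125314399) (nat_lit 23) (nat_lit 5) (nat_lit 25) (nat_lit 5) (nat_lit 24) (nat_lit 4) (nat_lit 438) (nat_lit 364) (nat_lit 218))))) (XT.nd (nat_lit 234) (nat_lit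 152) (nat_lit 0) (XT.nd (nat_lit 78) (nat_lit 76) (nat_lit 0) (XT.lf (nat_lit 0) (nat_lit 28026776060) (nat_lit 76) (nat_lit 21233702493) (nat_lit 152) (nat_lit 88748146701) (nat_lit 22) (nat_lit 5) (nat_lit 23) (nat_lit 5) (nat_lit 24) (nat_lit 4) (nat_lit 439) (nat_lit 364) (nat_lit 217)) (XT.nd (nat_lit 78) (nat_lit 76) (nat_lit 0) (XT.lf (nat_lit 0) (nat_lit 79458746022) (nat_lit 152) (nat_lit 53914065808) (nat_lit 0) (nat_lit 9973151720) (nat_lit 22) (nat_lit 5) (nat_lit 24) (nat_lit 4) (nat_lit 22) (nat_lit 4) (nat_lit 440) (nat_lit 364) (nat_lit 216)) (XT.lf (nat_lit 0) (nat_lit 4756901135) (nat_lit 76) (nat_lit 106830138678) (nat_lit 76) (nat_lit 37342123477) (nat_lit 21) (nat_lit 4) (nat_lit 22) (nat_lit 5) (nat_lit 22) (nat_lit 4) (nat_lit 441) (nat_lit 364) (nat_lit 215)))) (XT.nd (nat_lit 156) (nat_lit 76) (nat_lit 0) (XT.nd (nat_lit 78) (nat_lit 76) (nat_lit 0) (XT.lf (nat_lit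 0) (nat_lit 68228898744) (nat_lit 76) (nat_lit 78003701337) (nat_lit 76) (nat_lit 8513380517) (nat_lit 21) (nat_lit 4) (nat_lit 22) (nat_lit 5) (nat_lit 22) (nat_lit 4) (nat_lit 442) (nat_lit 364) (nat_lit 214)) (XT.lf (nat_lit 0) (nat_lit 21058307669) (nat_lit 152) (nat_lit 26322985925) (nat_lit 76) (nat_lit 113455468022) (nat_lit 20) (nat_lit 5) (nat_lit 22) (nat_lit 5) (nat_lit 21) (nat_lit 4) (nat_lit 443) (nat_lit 364) (nat_lit 213))) (XT.nd (nat_lit 78) (nat_lit 0) (nat_lit 0) (XT.lf (nat_lit 0) (nat_lit 37951991184) (nat_lit 76) (nat_lit 14460983985) (nat_lit 152) (nat_lit 114782603467) (nat_lit 19) (nat_lit 5) (nat_lit 20) (nat_lit 5) (nat_lit 21) (nat_lit 4) (nat_lit 444) (nat_lit 364) (nat_lit 212)) (XT.lf (nat_lit 0) (nat_lit 86100347246) (nat_lit 152) (nat_lit 67820631300) (nat_lit 0) (nat_lit 19913109538) (nat_lit 19) (nat_lit 5) (nat_lit 21) (nat_lit 4) (nat_lit 19) (nat_lit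 4) (nat_lit 445) (nat_lit 364) (nat_lit 211)))))) (XT.nd (nat_lit 546) (nat_lit 228) (nat_lit 0) (XT.nd (nat_lit 234) (nat_lit 152) (nat_lit 0) (XT.nd (nat_lit 78) (nat_lit 152) (nat_lit 0) (XT.lf (nat_lit 0) (nat_lit 121707219814) (nat_lit 152) (nat_lit 3567371136) (nat_lit 0) (nat_lit 55518175593) (nat_lit 19) (nat_lit 5) (nat_lit 21) (nat_lit 4) (nat_lit 19) (nat_lit 4) (nat_lit 446) (nat_lit 364) (nat_lit 210)) (XT.nd (nat_lit 78) (nat_lit 76) (nat_lit 0) (XT.lf (nat_lit 0) (nat_lit 66007609200) (nat_lit 76) (nat_lit 94115549220) (nat_lit 76) (nat_lit 27924784511) (nat_lit 18) (nat_lit 4) (nat_lit 19) (nat_lit 5) (nat_lit 19) (nat_lit 4) (nat_lit 447) (nat_lit 364) (nat_lit 209)) (XT.lf (nat_lit 0) (nat_lit 4700144221) (nat_lit 152) (nat_lit 56557107615) (nat_lit 76) (nat_lit 134401905672) (nat_lit 17) (nat_lit 5) (nat_lit 19) (nat_lit 5) (nat_lit 18) (nat_lit 4) (nat_lit 448) (nat_lit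 364) (nat_lit 208)))) (XT.nd (nat_lit 156) (nat_lit 76) (nat_lit 0) (XT.nd (nat_lit 78) (nat_lit 0) (nat_lit 0) (XT.lf (nat_lit 0) (nat_lit 12127213078) (nat_lit 76) (nat_lit 26078239059) (nat_lit 152) (nat_lit 165413212189) (nat_lit 16) (nat_lit 5) (nat_lit 17) (nat_lit 5) (nat_lit 18) (nat_lit 4) (nat_lit 449) (nat_lit 364) (nat_lit 207)) (XT.lf (nat_lit 0) (nat_lit 74527353877) (nat_lit 152) (nat_lit 125907658151) (nat_lit 0) (nat_lit 11484068138) (nat_lit 16) (nat_lit 5) (nat_lit 18) (nat_lit 4) (nat_lit 16) (nat_lit 4) (nat_lit 450) (nat_lit 364) (nat_lit 206))) (XT.nd (nat_lit 78) (nat_lit 76) (nat_lit 0) (XT.lf (nat_lit 0) (nat_lit 113091199690) (nat_lit 152) (nat_lit 57475458855) (nat_lit 0) (nat_lit 50046565903) (nat_lit 16) (nat_lit 5) (nat_lit 18) (nat_lit 4) (nat_lit 16) (nat_lit 4) (nat_lit 451) (nat_lit 364) (nat_lit 205)) (XT.lf (nat_lit 0) (nat_lit 14850545026) (nat_lit 76)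 (nat_lit 138962967459) (nat_lit 76) (nat_lit 75917049818) (nat_lit 15) (nat_lit 4) (nat_lit 16) (nat_lit 5) (nat_lit 16) (nat_lit 4) (nat_lit 452) (nat_lit 364) (nat_lit 204))))) (XT.nd (nat_lit 234) (nat_lit 76) (nat_lit 0) (XT.nd (nat_lit 78) (nat_lit 152) (nat_lit 0) (XT.lf (nat_lit 0) (nat_lit 92785201938) (nat_lit 76) (nat_lit 104758557323) (nat_lit 76) (nat_lit 41711416963) (nat_lit 15) (nat_lit 4) (nat_lit 16) (nat_lit 5) (nat_lit 16) (nat_lit 4) (nat_lit 453) (nat_lit 364) (nat_lit 203)) (XT.nd (nat_lit 78) (nat_lit 152) (nat_lit 0) (XT.lf (nat_lit 0) (nat_lit 174613672350) (nat_lit 76) (nat_lit 68845363772) (nat_lit 76) (nat_lit 5797058916) (nat_lit 15) (nat_lit 4) (nat_lit 16) (nat_lit 5) (nat_lit 16) (nat_lit 4) (nat_lit 454) (nat_lit 364) (nat_lit 202)) (XT.lf (nat_lit 0) (nat_lit 284533867) (nat_lit 76) (nat_lit 30610074798) (nat_lit 152) (nat_lit 228837388251) (nat_lit 13) (nat_lit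 5) (nat_lit 14) (nat_lit 5) (nat_lit 15) (nat_lit 4) (nat_lit 455) (nat_lit 364) (nat_lit 201)))) (XT.nd (nat_lit 156) (nat_lit 76) (nat_lit 0) (XT.nd (nat_lit 78) (nat_lit 0) (nat_lit 0) (XT.lf (nat_lit 0) (nat_lit 70658336559) (nat_lit 152) (nat_lit 189386721136) (nat_lit 0) (nat_lit 10610269771) (nat_lit 13) (nat_lit 5) (nat_lit 15) (nat_lit 4) (nat_lit 13) (nat_lit 4) (nat_lit 456) (nat_lit 364) (nat_lit 200)) (XT.lf (nat_lit 0) (nat_lit 112910692090) (nat_lit 152) (nat_lit 116327443194) (nat_lit 0) (nat_lit 52861667269) (nat_lit 13) (nat_lit 5) (nat_lit 15) (nat_lit 4) (nat_lit 13) (nat_lit 4) (nat_lit 457) (nat_lit 364) (nat_lit 199))) (XT.nd (nat_lit 78) (nat_lit 76) (nat_lit 0) (XT.lf (nat_lit 0) (nat_lit 157274367052) (nat_lit 152) (nat_lit 39617769507) (nat_lit 0) (nat_lit 97224429820) (nat_lit 13) (nat_lit 5) (nat_lit 15) (nat_lit 4) (nat_lit 13) (nat_lit 4) (nat_lit 458) (nat_lit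 364) (nat_lit 198)) (XT.lf (nat_lit 0) (nat_lit 42278105408) (nat_lit 76) (nat_lit 162236963543) (nat_lit 76) (nat_lit 102186157347) (nat_lit 12) (nat_lit 4) (nat_lit 13) (nat_lit 5) (nat_lit 13) (nat_lit 4) (nat_lit 459) (nat_lit 364) (nat_lit 197))))))) (XT.nd (nat_lit 1014) (nat_lit 76) (nat_lit 0) (XT.nd (nat_lit 468) (nat_lit 228) (nat_lit 0) (XT.nd (nat_lit 234) (nat_lit 76) (nat_lit 0) (XT.nd (nat_lit 78) (nat_lit 76) (nat_lit 0) (XT.lf (nat_lit 0) (nat_lit 129641807158) (nat_lit 76) (nat_lit 125145729677) (nat_lit 76) (nat_lit 65094095897) (nat_lit 12) (nat_lit 4) (nat_lit 13) (nat_lit 5) (nat_lit 13) (nat_lit 4) (nat_lit 460) (nat_lit 364) (nat_lit 196)) (XT.nd (nat_lit 78) (nat_lit 76) (nat_lit 0) (XT.lf (nat_lit 0) (nat_lit 221371402175) (nat_lit 76) (nat_lit 86201068596) (nat_lit 76) (nat_lit 26148646640) (nat_lit 12) (nat_lit 4) (nat_lit 13) (nat_lit 5) (nat_lit 13) (nat_lit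 4) (nat_lit 461) (nat_lit 364) (nat_lit 195)) (XT.lf (nat_lit 0) (nat_lit 14271052245) (nat_lit 152) (nat_lit 30797515496) (nat_lit 76) (nat_lit 303172554837) (nat_lit 11) (nat_lit 5) (nat_lit 13) (nat_lit 5) (nat_lit 12) (nat_lit 4) (nat_lit 462) (nat_lit 364) (nat_lit 194)))) (XT.nd (nat_lit 78) (nat_lit 0) (nat_lit 0) (XT.lf (nat_lit 0) (nat_lit 56200273546) (nat_lit 76) (nat_lit 509073304) (nat_lit 152) (nat_lit 306712529048) (nat_lit 10) (nat_lit 5) (nat_lit 11) (nat_lit 5) (nat_lit 12) (nat_lit 4) (nat_lit 463) (nat_lit 364) (nat_lit 193)) (XT.nd (nat_lit 78) (nat_lit 0) (nat_lit 0) (XT.lf (nat_lit 0) (nat_lit 102521148041) (nat_lit 152) (nat_lit 231451618260) (nat_lit 0) (nat_lit 45326321037) (nat_lit 10) (nat_lit 5) (nat_lit 12) (nat_lit 4) (nat_lit 10) (nat_lit 4) (nat_lit 464) (nat_lit 364) (nat_lit 192)) (XT.lf (nat_lit 0) (nat_lit 150630870689) (nat_lit 152) (nat_lit 151903496008)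 (nat_lit 0) (nat_lit 93435426129) (nat_lit 10) (nat_lit 5) (nat_lit 12) (nat_lit 4) (nat_lit 10) (nat_lit 4) (nat_lit 465) (nat_lit 364) (nat_lit 191))))) (XT.nd (nat_lit 234) (nat_lit 152) (nat_lit 0) (XT.nd (nat_lit 78) (nat_lit 76) (nat_lit 0) (XT.lf (nat_lit 0) (nat_lit 201145113693) (nat_lit 152) (nat_lit 68379887243) (nat_lit 0) (nat_lit 143949080984) (nat_lit 10) (nat_lit 5) (nat_lit 12) (nat_lit 4) (nat_lit 10) (nat_lit 4) (nat_lit 466) (nat_lit 364) (nat_lit 190)) (XT.nd (nat_lit 78) (nat_lit 0) (nat_lit 0) (XT.lf (nat_lit 0) (nat_lit 19956816530) (nat_lit 76) (nat_lit 234538914364) (nat_lit 76) (nat_lit 177342321514) (nat_lit 9) (nat_lit 4) (nat_lit 10) (nat_lit 5) (nat_lit 10) (nat_lit 4) (nat_lit 467) (nat_lit 364) (nat_lit 189)) (XT.lf (nat_lit 0) (nat_lit 115082552069) (nat_lit 76) (nat_lit 196588469294) (nat_lit 76) (nat_lit 139391342975) (nat_lit 9) (nat_lit 4) (nat_lit 10)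 (nat_lit 5) (nat_lit 10) (nat_lit 4) (nat_lit 468) (nat_lit 364) (nat_lit 188)))) (XT.nd (nat_lit 156) (nat_lit 152) (nat_lit 0) (XT.nd (nat_lit 78) (nat_lit 0) (nat_lit 0) (XT.lf (nat_lit 0) (nat_lit 214962861334) (nat_lit 76) (nat_lit 156741354002) (nat_lit 76) (nat_lit 99543719618) (nat_lit 9) (nat_lit 4) (nat_lit 10) (nat_lit 5) (nat_lit 10) (nat_lit 4) (nat_lit 469) (nat_lit 364) (nat_lit 187)) (XT.lf (nat_lit 0) (nat_lit 319835554584) (nat_lit 76) (nat_lit 114902694403) (nat_lit 76) (nat_lit 57704576148) (nat_lit 9) (nat_lit 4) (nat_lit 10) (nat_lit 5) (nat_lit 10) (nat_lit 4) (nat_lit 470) (nat_lit 364) (nat_lit 186))) (XT.nd (nat_lit 78) (nat_lit 152) (nat_lit 0) (XT.lf (nat_lit 0) (nat_lit 429950328710) (nat_lit 76) (nat_lit 70972874642) (nat_lit 76) (nat_lit 13774295557) (nat_lit 9) (nat_lit 4) (nat_lit 10) (nat_lit 5) (nat_lit 10) (nat_lit 4) (nat_lit 471) (nat_lit 364) (nat_lit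 185)) (XT.lf (nat_lit 0) (nat_lit 7230746200) (nat_lit 76) (nat_lit 24198407053) (nat_lit 152) (nat_lit 506604890680) (nat_lit 7) (nat_lit 5) (nat_lit 8) (nat_lit 5) (nat_lit 9) (nat_lit 4) (nat_lit 472) (nat_lit 364) (nat_lit 184)))))) (XT.nd (nat_lit 546) (nat_lit 0) (nat_lit 0) (XT.nd (nat_lit 234) (nat_lit 76) (nat_lit 0) (XT.nd (nat_lit 78) (nat_lit 0) (nat_lit 0) (XT.lf (nat_lit 0) (nat_lit 80276865585) (nat_lit 152) (nat_lit 456355698068) (nat_lit 0) (nat_lit 25801212293) (nat_lit 7) (nat_lit 5) (nat_lit 9) (nat_lit 4) (nat_lit 7) (nat_lit 4) (nat_lit 473) (nat_lit 364) (nat_lit 183)) (XT.nd (nat_lit 78) (nat_lit 0) (nat_lit 0) (XT.lf (nat_lit 0) (nat_lit 131962940031) (nat_lit 152) (nat_lit 378583848117) (nat_lit 0) (nat_lit 77486907612) (nat_lit 7) (nat_lit 5) (nat_lit 9) (nat_lit 4) (nat_lit 7) (nat_lit 4) (nat_lit 474) (nat_lit 364) (nat_lit 182)) (XT.lf (nat_lit 0) (nat_lit 186232633723)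 (nat_lit 152) (nat_lit 296924771860) (nat_lit 0) (nat_lit 131756240233) (nat_lit 7) (nat_lit 5) (nat_lit 9) (nat_lit 4) (nat_lit 7) (nat_lit 4) (nat_lit 475) (nat_lit 364) (nat_lit 181)))) (XT.nd (nat_lit 156) (nat_lit 76) (nat_lit 0) (XT.nd (nat_lit 78) (nat_lit 0) (nat_lit 0) (XT.lf (nat_lit 0) (nat_lit 243215160219) (nat_lit 152) (nat_lit 211184042925) (nat_lit 0) (nat_lit 188738422850) (nat_lit 7) (nat_lit 5) (nat_lit 9) (nat_lit 4) (nat_lit 7) (nat_lit 4) (nat_lit 476) (nat_lit 364) (nat_lit 180)) (XT.lf (nat_lit 0) (nat_lit 303046192200) (nat_lit 152) (nat_lit 121157516718) (nat_lit 0) (nat_lit 248569127328) (nat_lit 7) (nat_lit 5) (nat_lit 9) (nat_lit 4) (nat_lit 7) (nat_lit 4) (nat_lit 477) (nat_lit 364) (nat_lit 179))) (XT.nd (nat_lit 78) (nat_lit 76) (nat_lit 0) (XT.lf (nat_lit 0) (nat_lit 365868184505) (nat_lit 152) (nat_lit 26630844369) (nat_lit 0) (nat_lit 311390807725) (nat_lit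 7) (nat_lit 5) (nat_lit 9) (nat_lit 4) (nat_lit 7) (nat_lit 4) (nat_lit 478) (nat_lit 364) (nat_lit 178)) (XT.lf (nat_lit 0) (nat_lit 75022217099) (nat_lit 76) (nat_lit 357979803265) (nat_lit 76) (nat_lit 303502129430) (nat_lit 6) (nat_lit 4) (nat_lit 7) (nat_lit 5) (nat_lit 7) (nat_lit 4) (nat_lit 479) (nat_lit 364) (nat_lit 177))))) (XT.nd (nat_lit 44304) (nat_lit 0) (nat_lit 8588) (XT.nd (nat_lit 44148) (nat_lit 0) (nat_lit 9348) (XT.lf (nat_lit 0) (nat_lit 182681388582) (nat_lit 76) (nat_lit 321261612099) (nat_lit 76) (nat_lit 266783655354) (nat_lit 6) (nat_lit 4) (nat_lit 7) (nat_lit 5) (nat_lit 7) (nat_lit 4) (nat_lit 480) (nat_lit 364) (nat_lit 176)) (XT.nd (nat_lit 78) (nat_lit 0) (nat_lit 0) (XT.lf (nat_lit 0) (nat_lit 3301236866) (nat_lit 0) (nat_lit 3301236866) (nat_lit 684) (nat_lit 400159496) (nat_lit 129) (nat_lit 5) (nat_lit 129) (nat_lit 3) (nat_lit 138) (nat_lit 3) (nat_lit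 365) (nat_lit 365) (nat_lit 290)) (XT.lf (nat_lit 0) (nat_lit 13747811399) (nat_lit 0) (nat_lit 118221500) (nat_lit 684) (nat_lit 472623838) (nat_lit 129) (nat_lit 5) (nat_lit 129) (nat_lit 3) (nat_lit 138) (nat_lit 3) (nat_lit 366) (nat_lit 365) (nat_lit 289)))) (XT.nd (nat_lit 156) (nat_lit 0) (nat_lit 76) (XT.nd (nat_lit 78) (nat_lit 0) (nat_lit 0) (XT.lf (nat_lit 0) (nat_lit 66021767) (nat_lit 760) (nat_lit 8021893547) (nat_lit 836) (nat_lit 6591390772) (nat_lit 119) (nat_lit 5) (nat_lit 129) (nat_lit 5) (nat_lit 130) (nat_lit 5) (nat_lit 367) (nat_lit 365) (nat_lit 288)) (XT.lf (nat_lit 0) (nat_lit 607281113) (nat_lit 760) (nat_lit 770071058) (nat_lit 836) (nat_lit 13659681323) (nat_lit 119) (nat_lit 5) (nat_lit 129) (nat_lit 5) (nat_lit 130) (nat_lit 5) (nat_lit 368) (nat_lit 365) (nat_lit 287))) (XT.nd (nat_lit 78) (nat_lit 0) (nat_lit 0) (XT.lf (nat_lit 0) (nat_lit 1356674949) (nat_lit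 760) (nat_lit 8440042992) (nat_lit 836) (nat_lit 5606886442) (nat_lit 120) (nat_lit 5) (nat_lit 130) (nat_lit 5) (nat_lit 131) (nat_lit 5) (nat_lit 369) (nat_lit 365) (nat_lit 286)) (XT.lf (nat_lit 0) (nat_lit 2160672657) (nat_lit 760) (nat_lit 712651786) (nat_lit 836) (nat_lit 12914332845) (nat_lit 120) (nat_lit 5) (nat_lit 130) (nat_lit 5) (nat_lit 131) (nat_lit 5) (nat_lit 370) (nat_lit 365) (nat_lit 285))))))))
noncomputable def xc157 : XT := (XT.nd (nat_lit 2106) (nat_lit 2508) (nat_lit 0) (XT.nd (nat_lit 1014) (nat_lit 2204) (nat_lit 0) (XT.nd (nat_lit 468) (nat_lit 1216) (nat_lit 0) (XT.nd (nat_lit 234) (nat_lit 608) (nat_lit 0) (XT.nd (nat_lit 78) (nat_lit 0) (nat_lit 0) (XT.lf (nat_lit 0) (nat_lit 3176920802) (nat_lit 760) (nat_lit 8623126640) (nat_lit 836) (nat_lit 4382272564) (nat_lit 121) (nat_lit 5) (nat_lit 131) (nat_lit 5) (nat_lit 132) (nat_lit 5) (nat_lit 371) (nat_lit 365)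 (nat_lit 284)) (XT.nd (nat_lit 78) (nat_lit 0) (nat_lit 76) (XT.lf (nat_lit 0) (nat_lit 4286288456) (nat_lit 760) (nat_lit 386813847) (nat_lit 836) (nat_lit 11921507434) (nat_lit 121) (nat_lit 5) (nat_lit 131) (nat_lit 5) (nat_lit 132) (nat_lit 5) (nat_lit 372) (nat_lit 365) (nat_lit 283)) (XT.lf (nat_lit 0) (nat_lit 5614044232) (nat_lit 760) (nat_lit 8545898059) (nat_lit 836) (nat_lit 2859434471) (nat_lit 122) (nat_lit 5) (nat_lit 132) (nat_lit 5) (nat_lit 133) (nat_lit 5) (nat_lit 373) (nat_lit 365) (nat_lit 282)))) (XT.nd (nat_lit 78) (nat_lit 684) (nat_lit 0) (XT.lf (nat_lit 76) (nat_lit 243418657) (nat_lit 0) (nat_lit 6836229815) (nat_lit 836) (nat_lit 10382169007) (nat_lit 123) (nat_lit 5) (nat_lit 122) (nat_lit 5) (nat_lit 133) (nat_lit 5) (nat_lit 374) (nat_lit 365) (nat_lit 281)) (XT.nd (nat_lit 78) (nat_lit 760) (nat_lit 0) (XT.lf (nat_lit 0) (nat_lit 8763940841) (nat_lit 760) (nat_lit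 8179358767) (nat_lit 76) (nat_lit 975818203) (nat_lit 123) (nat_lit 5) (nat_lit 133) (nat_lit 5) (nat_lit 124) (nat_lit 5) (nat_lit 375) (nat_lit 365) (nat_lit 280)) (XT.lf (nat_lit 0) (nat_lit 1226033520) (nat_lit 760) (nat_lit 9423319028) (nat_lit 836) (nat_lit 7744092972) (nat_lit 113) (nat_lit 5) (nat_lit 123) (nat_lit 5) (nat_lit 124) (nat_lit 5) (nat_lit 376) (nat_lit 365) (nat_lit 279))))) (XT.nd (nat_lit 234) (nat_lit 836) (nat_lit 0) (XT.nd (nat_lit 78) (nat_lit 380) (nat_lit 0) (XT.lf (nat_lit 0) (nat_lit 11373099119) (nat_lit 760) (nat_lit 1380635763) (nat_lit 836) (nat_lit 6131526966) (nat_lit 113) (nat_lit 5) (nat_lit 123) (nat_lit 5) (nat_lit 124) (nat_lit 5) (nat_lit 377) (nat_lit 365) (nat_lit 278)) (XT.nd (nat_lit 78) (nat_lit 0) (nat_lit 0) (XT.lf (nat_lit 0) (nat_lit 2585664174) (nat_lit 380) (nat_lit 12515188775) (nat_lit 456) (nat_lit 4293947102) (nat_lit 108) (nat_lit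 5) (nat_lit 113) (nat_lit 5) (nat_lit 114) (nat_lit 5) (nat_lit 378) (nat_lit 365) (nat_lit 277)) (XT.lf (nat_lit 0) (nat_lit 13413359500) (nat_lit 380) (nat_lit 4288744934) (nat_lit 456) (nat_lit 2220878416) (nat_lit 108) (nat_lit 5) (nat_lit 113) (nat_lit 5) (nat_lit 114) (nat_lit 5) (nat_lit 379) (nat_lit 365) (nat_lit 276)))) (XT.nd (nat_lit 156) (nat_lit 380) (nat_lit 0) (XT.nd (nat_lit 78) (nat_lit 0) (nat_lit 0) (XT.lf (nat_lit 0) (nat_lit 83216479) (nat_lit 456) (nat_lit 16108550684) (nat_lit 76) (nat_lit 4279550072) (nat_lit 102) (nat_lit 5) (nat_lit 108) (nat_lit 5) (nat_lit 103) (nat_lit 5) (nat_lit 380) (nat_lit 365) (nat_lit 275)) (XT.lf (nat_lit 0) (nat_lit 2598321599) (nat_lit 456) (nat_lit 5157971175) (nat_lit 76) (nat_lit 13280438766) (nat_lit 102) (nat_lit 5) (nat_lit 108) (nat_lit 5) (nat_lit 103) (nat_lit 5) (nat_lit 381) (nat_lit 365) (nat_lit 274))) (XT.nd (nat_lit 78)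 (nat_lit 0) (nat_lit 0) (XT.lf (nat_lit 0) (nat_lit 5348749524) (nat_lit 456) (nat_lit 15107429942) (nat_lit 76) (nat_lit 1168764114) (nat_lit 97) (nat_lit 5) (nat_lit 103) (nat_lit 5) (nat_lit 98) (nat_lit 5) (nat_lit 382) (nat_lit 365) (nat_lit 273)) (XT.lf (nat_lit 0) (nat_lit 8441628194) (nat_lit 456) (nat_lit 3423348448) (nat_lit 76) (nat_lit 10367348253) (nat_lit 97) (nat_lit 5) (nat_lit 103) (nat_lit 5) (nat_lit 98) (nat_lit 5) (nat_lit 383) (nat_lit 365) (nat_lit 272)))))) (XT.nd (nat_lit 546) (nat_lit 988) (nat_lit 0) (XT.nd (nat_lit 234) (nat_lit 608) (nat_lit 0) (XT.nd (nat_lit 78) (nat_lit 304) (nat_lit 0) (XT.lf (nat_lit 0) (nat_lit 9125179552) (nat_lit 304) (nat_lit 2695957310) (nat_lit 380) (nat_lit 11042344008) (nat_lit 93) (nat_lit 5) (nat_lit 97) (nat_lit 5) (nat_lit 98) (nat_lit 5) (nat_lit 384) (nat_lit 365) (nat_lit 271)) (XT.nd (nat_lit 78) (nat_lit 304) (nat_lit 0)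 (XT.lf (nat_lit 0) (nat_lit 15526579028) (nat_lit 380) (nat_lit 1224601487) (nat_lit 76) (nat_lit 6767170888) (nat_lit 93) (nat_lit 5) (nat_lit 98) (nat_lit 5) (nat_lit 94) (nat_lit 5) (nat_lit 385) (nat_lit 365) (nat_lit 270)) (XT.lf (nat_lit 0) (nat_lit 12251158261) (nat_lit 304) (nat_lit 7391902386) (nat_lit 380) (nat_lit 4551620890) (nat_lit 89) (nat_lit 5) (nat_lit 93) (nat_lit 5) (nat_lit 94) (nat_lit 5) (nat_lit 386) (nat_lit 365) (nat_lit 269)))) (XT.nd (nat_lit 156) (nat_lit 304) (nat_lit 0) (XT.nd (nat_lit 78) (nat_lit 76) (nat_lit 0) (XT.lf (nat_lit 0) (nat_lit 1538508211) (nat_lit 228) (nat_lit 22500531174) (nat_lit 304) (nat_lit 862109373) (nat_lit 86) (nat_lit 5) (nat_lit 89) (nat_lit 5) (nat_lit 90) (nat_lit 5) (nat_lit 387) (nat_lit 365) (nat_lit 268)) (XT.lf (nat_lit 0) (nat_lit 3232907993) (nat_lit 304) (nat_lit 9706974423) (nat_lit 76) (nat_lit 12684838106) (nat_lit 85)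 (nat_lit 5) (nat_lit 89) (nat_lit 5) (nat_lit 86) (nat_lit 5) (nat_lit 388) (nat_lit 365) (nat_lit 267))) (XT.nd (nat_lit 78) (nat_lit 0) (nat_lit 0) (XT.lf (nat_lit 0) (nat_lit 4758281045) (nat_lit 304) (nat_lit 2810822476) (nat_lit 380) (nat_lit 18811394371) (nat_lit 81) (nat_lit 5) (nat_lit 85) (nat_lit 5) (nat_lit 86) (nat_lit 5) (nat_lit 389) (nat_lit 365) (nat_lit 266)) (XT.lf (nat_lit 0) (nat_lit 12402680550) (nat_lit 380) (nat_lit 7018469898) (nat_lit 76) (nat_lit 7738888576) (nat_lit 81) (nat_lit 5) (nat_lit 86) (nat_lit 5) (nat_lit 82) (nat_lit 5) (nat_lit 390) (nat_lit 365) (nat_lit 265))))) (XT.nd (nat_lit 234) (nat_lit 532) (nat_lit 0) (XT.nd (nat_lit 78) (nat_lit 228) (nat_lit 0) (XT.lf (nat_lit 0) (nat_lit 8531426554) (nat_lit 228) (nat_lit 9117520896) (nat_lit 304) (nat_lit 10321062525) (nat_lit 78) (nat_lit 5) (nat_lit 81) (nat_lit 5) (nat_lit 82) (nat_lit 5) (nat_lit 391)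 (nat_lit 365) (nat_lit 264)) (XT.nd (nat_lit 78) (nat_lit 228) (nat_lit 0) (XT.lf (nat_lit 0) (nat_lit 23296812600) (nat_lit 304) (nat_lit 3751765261) (nat_lit 76) (nat_lit 1764940525) (nat_lit 78) (nat_lit 5) (nat_lit 82) (nat_lit 5) (nat_lit 79) (nat_lit 5) (nat_lit 392) (nat_lit 365) (nat_lit 263)) (XT.lf (nat_lit 0) (nat_lit 12974523800) (nat_lit 228) (nat_lit 16596881788) (nat_lit 304) (nat_lit 110582904) (nat_lit 75) (nat_lit 5) (nat_lit 78) (nat_lit 5) (nat_lit 79) (nat_lit 5) (nat_lit 393) (nat_lit 365) (nat_lit 262)))) (XT.nd (nat_lit 156) (nat_lit 228) (nat_lit 0) (XT.nd (nat_lit 78) (nat_lit 228) (nat_lit 0) (XT.lf (nat_lit 0) (nat_lit 5444659369) (nat_lit 304) (nat_lit 22016135) (nat_lit 76) (nat_lit 25120016651) (nat_lit 74) (nat_lit 5) (nat_lit 78) (nat_lit 5) (nat_lit 75) (nat_lit 5) (nat_lit 394) (nat_lit 365) (nat_lit 261)) (XT.lf (nat_lit 0) (nat_lit 11650431587) (nat_lit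 304) (nat_lit 13560715960) (nat_lit 76) (nat_lit 6306571202) (nat_lit 71) (nat_lit 5) (nat_lit 75) (nat_lit 5) (nat_lit 72) (nat_lit 5) (nat_lit 395) (nat_lit 365) (nat_lit 260))) (XT.nd (nat_lit 78) (nat_lit 0) (nat_lit 0) (XT.lf (nat_lit 0) (nat_lit 4380660570) (nat_lit 228) (nat_lit 13937103067) (nat_lit 304) (nat_lit 14169971948) (nat_lit 68) (nat_lit 5) (nat_lit 71) (nat_lit 5) (nat_lit 72) (nat_lit 5) (nat_lit 396) (nat_lit 365) (nat_lit 259)) (XT.lf (nat_lit 0) (nat_lit 23679687669) (nat_lit 228) (nat_lit 1861491681) (nat_lit 304) (nat_lit 7953940414) (nat_lit 68) (nat_lit 5) (nat_lit 71) (nat_lit 5) (nat_lit 72) (nat_lit 5) (nat_lit 397) (nat_lit 365) (nat_lit 258))))))) (XT.nd (nat_lit 1014) (nat_lit 988) (nat_lit 0) (XT.nd (nat_lit 468) (nat_lit 684) (nat_lit 0) (XT.nd (nat_lit 234) (nat_lit 380) (nat_lit 0) (XT.nd (nat_lit 78) (nat_lit 304) (nat_lit 0) (XT.lf (nat_lit 0) (nat_lit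 9516468391) (nat_lit 152) (nat_lit 23920115499) (nat_lit 228) (nat_lit 1100750603) (nat_lit 66) (nat_lit 5) (nat_lit 68) (nat_lit 5) (nat_lit 69) (nat_lit 5) (nat_lit 398) (nat_lit 365) (nat_lit 257)) (XT.nd (nat_lit 78) (nat_lit 228) (nat_lit 0) (XT.lf (nat_lit 0) (nat_lit 6092884157) (nat_lit 228) (nat_lit 5606089998) (nat_lit 76) (nat_lit 23918286426) (nat_lit 65) (nat_lit 5) (nat_lit 68) (nat_lit 5) (nat_lit 66) (nat_lit 5) (nat_lit 399) (nat_lit 365) (nat_lit 256)) (XT.lf (nat_lit 0) (nat_lit 13862688582) (nat_lit 304) (nat_lit 21520990083) (nat_lit 76) (nat_lit 1353929974) (nat_lit 62) (nat_lit 5) (nat_lit 66) (nat_lit 5) (nat_lit 63) (nat_lit 5) (nat_lit 400) (nat_lit 365) (nat_lit 255)))) (XT.nd (nat_lit 78) (nat_lit 380) (nat_lit 0) (XT.lf (nat_lit 0) (nat_lit 22303079297) (nat_lit 304) (nat_lit 837171531) (nat_lit 76) (nat_lit 14759620313) (nat_lit 62) (nat_lit 5) (nat_lit 66) (nat_lit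 5) (nat_lit 63) (nat_lit 5) (nat_lit 401) (nat_lit 365) (nat_lit 254)) (XT.nd (nat_lit 78) (nat_lit 228) (nat_lit 0) (XT.lf (nat_lit 0) (nat_lit 21561714157) (nat_lit 152) (nat_lit 9934520209) (nat_lit 228) (nat_lit 7607476918) (nat_lit 60) (nat_lit 5) (nat_lit 62) (nat_lit 5) (nat_lit 63) (nat_lit 5) (nat_lit 402) (nat_lit 365) (nat_lit 253)) (XT.lf (nat_lit 0) (nat_lit 904011967) (nat_lit 228) (nat_lit 35548955431) (nat_lit 76) (nat_lit 3906781973) (nat_lit 57) (nat_lit 5) (nat_lit 60) (nat_lit 5) (nat_lit 58) (nat_lit 5) (nat_lit 403) (nat_lit 365) (nat_lit 252))))) (XT.nd (nat_lit 234) (nat_lit 532) (nat_lit 0) (XT.nd (nat_lit 78) (nat_lit 152) (nat_lit 0) (XT.lf (nat_lit 0) (nat_lit 10044459253) (nat_lit 228) (nat_lit 13075299805) (nat_lit 76) (nat_lit 18529643934) (nat_lit 57) (nat_lit 5) (nat_lit 60) (nat_lit 5) (nat_lit 58) (nat_lit 5) (nat_lit 404) (nat_lit 365) (nat_lit 251)) (XT.nd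 (nat_lit 78) (nat_lit 0) (nat_lit 0) (XT.lf (nat_lit 0) (nat_lit 10860732025) (nat_lit 152) (nat_lit 8945269693) (nat_lit 228) (nat_lit 23189335379) (nat_lit 55) (nat_lit 5) (nat_lit 57) (nat_lit 5) (nat_lit 58) (nat_lit 5) (nat_lit 405) (nat_lit 365) (nat_lit 250)) (XT.lf (nat_lit 0) (nat_lit 30367973700) (nat_lit 228) (nat_lit 8055314467) (nat_lit 76) (nat_lit 5969663499) (nat_lit 55) (nat_lit 5) (nat_lit 58) (nat_lit 5) (nat_lit 56) (nat_lit 5) (nat_lit 406) (nat_lit 365) (nat_lit 249)))) (XT.nd (nat_lit 156) (nat_lit 304) (nat_lit 0) (XT.nd (nat_lit 78) (nat_lit 76) (nat_lit 0) (XT.lf (nat_lit 0) (nat_lit 17637236070) (nat_lit 152) (nat_lit 24237654664) (nat_lit 228) (nat_lit 3964715218) (nat_lit 53) (nat_lit 5) (nat_lit 55) (nat_lit 5) (nat_lit 56) (nat_lit 5) (nat_lit 407) (nat_lit 365) (nat_lit 248)) (XT.lf (nat_lit 0) (nat_lit 6520888962) (nat_lit 228) (nat_lit 2571549243) (nat_lit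 76) (nat_lit 38254328663) (nat_lit 52) (nat_lit 5) (nat_lit 55) (nat_lit 5) (nat_lit 53) (nat_lit 5) (nat_lit 408) (nat_lit 365) (nat_lit 247))) (XT.nd (nat_lit 78) (nat_lit 152) (nat_lit 0) (XT.lf (nat_lit 0) (nat_lit 17897811607) (nat_lit 228) (nat_lit 23950436899) (nat_lit 76) (nat_lit 7052774757) (nat_lit 50) (nat_lit 5) (nat_lit 53) (nat_lit 5) (nat_lit 51) (nat_lit 5) (nat_lit 409) (nat_lit 365) (nat_lit 246)) (XT.lf (nat_lit 0) (nat_lit 3356714583) (nat_lit 152) (nat_lit 26727761095) (nat_lit 228) (nat_lit 20436473113) (nat_lit 48) (nat_lit 5) (nat_lit 50) (nat_lit 5) (nat_lit 51) (nat_lit 5) (nat_lit 410) (nat_lit 365) (nat_lit 245)))))) (XT.nd (nat_lit 546) (nat_lit 532) (nat_lit 0) (XT.nd (nat_lit 234) (nat_lit 304) (nat_lit 0) (XT.nd (nat_lit 78) (nat_lit 152) (nat_lit 0) (XT.lf (nat_lit 0) (nat_lit 32852618561) (nat_lit 152) (nat_lit 10428736995) (nat_lit 228) (nat_lit 8920471939)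 (nat_lit 48) (nat_lit 5) (nat_lit 50) (nat_lit 5) (nat_lit 51) (nat_lit 5) (nat_lit 411) (nat_lit 365) (nat_lit 244)) (XT.nd (nat_lit 78) (nat_lit 0) (nat_lit 0) (XT.lf (nat_lit 0) (nat_lit 3331025530) (nat_lit 152) (nat_lit 43941145288) (nat_lit 76) (nat_lit 6679044650) (nat_lit 46) (nat_lit 5) (nat_lit 48) (nat_lit 5) (nat_lit 47) (nat_lit 5) (nat_lit 412) (nat_lit 365) (nat_lit 243)) (XT.lf (nat_lit 0) (nat_lit 16394801432) (nat_lit 152) (nat_lit 14593109678) (nat_lit 76) (nat_lit 24767876260) (nat_lit 46) (nat_lit 5) (nat_lit 48) (nat_lit 5) (nat_lit 47) (nat_lit 5) (nat_lit 413) (nat_lit 365) (nat_lit 242)))) (XT.nd (nat_lit 156) (nat_lit 152) (nat_lit 0) (XT.nd (nat_lit 78) (nat_lit 0) (nat_lit 0) (XT.lf (nat_lit 0) (nat_lit 16750915663) (nat_lit 152) (nat_lit 13618061922) (nat_lit 228) (nat_lit 27268750555) (nat_lit 44) (nat_lit 5) (nat_lit 46) (nat_lit 5) (nat_lit 47) (nat_lit 5)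 (nat_lit 414) (nat_lit 365) (nat_lit 241)) (XT.lf (nat_lit 0) (nat_lit 45360913417) (nat_lit 228) (nat_lit 9516400333) (nat_lit 76) (nat_lit 4720500461) (nat_lit 44) (nat_lit 5) (nat_lit 47) (nat_lit 5) (nat_lit 45) (nat_lit 4) (nat_lit 415) (nat_lit 365) (nat_lit 240))) (XT.nd (nat_lit 78) (nat_lit 0) (nat_lit 0) (XT.lf (nat_lit 0) (nat_lit 67218640) (nat_lit 152) (nat_lit 37668433109) (nat_lit 76) (nat_lit 23890537464) (nat_lit 42) (nat_lit 5) (nat_lit 44) (nat_lit 5) (nat_lit 43) (nat_lit 5) (nat_lit 416) (nat_lit 365) (nat_lit 239)) (XT.lf (nat_lit 0) (nat_lit 14767840764) (nat_lit 152) (nat_lit 4555193856) (nat_lit 76) (nat_lit 44413291955) (nat_lit 42) (nat_lit 5) (nat_lit 44) (nat_lit 5) (nat_lit 43) (nat_lit 5) (nat_lit 417) (nat_lit 365) (nat_lit 238))))) (XT.nd (nat_lit 234) (nat_lit 304) (nat_lit 0) (XT.nd (nat_lit 78) (nat_lit 76) (nat_lit 0) (XT.lf (nat_lit 0) (nat_lit 30694935891)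 (nat_lit 228) (nat_lit 34730321156) (nat_lit 76) (nat_lit 502142324) (nat_lit 40) (nat_lit 5) (nat_lit 43) (nat_lit 5) (nat_lit 41) (nat_lit 4) (nat_lit 418) (nat_lit 365) (nat_lit 237)) (XT.nd (nat_lit 78) (nat_lit 0) (nat_lit 0) (XT.lf (nat_lit 0) (nat_lit 357414710) (nat_lit 76) (nat_lit 47457898835) (nat_lit 152) (nat_lit 20392866505) (nat_lit 39) (nat_lit 5) (nat_lit 40) (nat_lit 5) (nat_lit 41) (nat_lit 4) (nat_lit 419) (nat_lit 365) (nat_lit 236)) (XT.lf (nat_lit 0) (nat_lit 38398477059) (nat_lit 76) (nat_lit 27977651255) (nat_lit 152) (nat_lit 4197651138) (nat_lit 39) (nat_lit 5) (nat_lit 40) (nat_lit 5) (nat_lit 41) (nat_lit 4) (nat_lit 420) (nat_lit 365) (nat_lit 235)))) (XT.nd (nat_lit 156) (nat_lit 76) (nat_lit 0) (XT.nd (nat_lit 78) (nat_lit 0) (nat_lit 0) (XT.lf (nat_lit 0) (nat_lit 5245241201) (nat_lit 152) (nat_lit 7230425445) (nat_lit 228) (nat_lit 60568082010) (nat_lit 36)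 (nat_lit 5) (nat_lit 38) (nat_lit 5) (nat_lit 39) (nat_lit 5) (nat_lit 421) (nat_lit 365) (nat_lit 234)) (XT.lf (nat_lit 0) (nat_lit 30619038891) (nat_lit 228) (nat_lit 30267724233) (nat_lit 76) (nat_lit 14708140159) (nat_lit 36) (nat_lit 5) (nat_lit 39) (nat_lit 5) (nat_lit 37) (nat_lit 4) (nat_lit 422) (nat_lit 365) (nat_lit 233))) (XT.nd (nat_lit 78) (nat_lit 0) (nat_lit 0) (XT.lf (nat_lit 0) (nat_lit 9312810008) (nat_lit 76) (nat_lit 40617261080) (nat_lit 152) (nat_lit 28330520480) (nat_lit 35) (nat_lit 5) (nat_lit 36) (nat_lit 5) (nat_lit 37) (nat_lit 4) (nat_lit 423) (nat_lit 365) (nat_lit 232)) (XT.lf (nat_lit 0) (nat_lit 51916975356) (nat_lit 76) (nat_lit 18798905432) (nat_lit 152) (nat_lit 10318222655) (nat_lit 35) (nat_lit 5) (nat_lit 36) (nat_lit 5) (nat_lit 37) (nat_lit 4) (nat_lit 424) (nat_lit 365) (nat_lit 231))))))))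
noncomputable def xc158 : XT := (XT.nd (nat_lit 2106) (nat_lit 684) (nat_lit 0) (XT.nd (nat_lit 1014) (nat_lit 684) (nat_lit 0) (XT.nd (nat_lit 468) (nat_lit 304) (nat_lit 0) (XT.nd (nat_lit 234) (nat_lit 152) (nat_lit 0) (XT.nd (nat_lit 78) (nat_lit 76) (nat_lit 0) (XT.lf (nat_lit 0) (nat_lit 8588652985) (nat_lit 228) (nat_lit 71018979122) (nat_lit 76) (nat_lit 4318497539) (nat_lit 32) (nat_lit 5) (nat_lit 35) (nat_lit 5) (nat_lit 33) (nat_lit 4) (nat_lit 425) (nat_lit 365) (nat_lit 230)) (XT.nd (nat_lit 78) (nat_lit 76) (nat_lit 0) (XT.lf (nat_lit 0) (nat_lit 28900242642) (nat_lit 228) (nat_lit 29386046508) (nat_lit 76) (nat_lit 28627704345) (nat_lit 32) (nat_lit 5) (nat_lit 35) (nat_lit 5) (nat_lit 33) (nat_lit 4) (nat_lit 426) (nat_lit 365) (nat_lit 229)) (XT.lf (nat_lit 0) (nat_lit 14796341195) (nat_lit 76) (nat_lit 35658992399) (nat_lit 152) (nat_lit 39584521242) (nat_lit 31) (nat_lit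 5) (nat_lit 32) (nat_lit 5) (nat_lit 33) (nat_lit 4) (nat_lit 427) (nat_lit 365) (nat_lit 228)))) (XT.nd (nat_lit 78) (nat_lit 152) (nat_lit 0) (XT.lf (nat_lit 0) (nat_lit 62202391615) (nat_lit 76) (nat_lit 11380422438) (nat_lit 152) (nat_lit 19714463811) (nat_lit 31) (nat_lit 5) (nat_lit 32) (nat_lit 5) (nat_lit 33) (nat_lit 4) (nat_lit 428) (nat_lit 365) (nat_lit 227)) (XT.nd (nat_lit 78) (nat_lit 0) (nat_lit 0) (XT.lf (nat_lit 0) (nat_lit 1579764942) (nat_lit 152) (nat_lit 81187586698) (nat_lit 76) (nat_lit 13925951371) (nat_lit 29) (nat_lit 5) (nat_lit 31) (nat_lit 5) (nat_lit 30) (nat_lit 4) (nat_lit 429) (nat_lit 365) (nat_lit 226)) (XT.lf (nat_lit 0) (nat_lit 23995054502) (nat_lit 152) (nat_lit 35240808068) (nat_lit 76) (nat_lit 40971163536) (nat_lit 29) (nat_lit 5) (nat_lit 31) (nat_lit 5) (nat_lit 30) (nat_lit 4) (nat_lit 430) (nat_lit 365) (nat_lit 225))))) (XT.nd (nat_lit 234)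 (nat_lit 152) (nat_lit 0) (XT.nd (nat_lit 78) (nat_lit 76) (nat_lit 0) (XT.lf (nat_lit 0) (nat_lit 13427829506) (nat_lit 76) (nat_lit 34310144588) (nat_lit 152) (nat_lit 56148118288) (nat_lit 28) (nat_lit 5) (nat_lit 29) (nat_lit 5) (nat_lit 30) (nat_lit 4) (nat_lit 431) (nat_lit 365) (nat_lit 224)) (XT.nd (nat_lit 78) (nat_lit 76) (nat_lit 0) (XT.lf (nat_lit 0) (nat_lit 65748210601) (nat_lit 76) (nat_lit 7513920398) (nat_lit 152) (nat_lit 34457276695) (nat_lit 28) (nat_lit 5) (nat_lit 29) (nat_lit 5) (nat_lit 30) (nat_lit 4) (nat_lit 432) (nat_lit 365) (nat_lit 223)) (XT.lf (nat_lit 0) (nat_lit 8898028045) (nat_lit 76) (nat_lit 91622724713) (nat_lit 76) (nat_lit 11200723438) (nat_lit 27) (nat_lit 4) (nat_lit 28) (nat_lit 5) (nat_lit 28) (nat_lit 4) (nat_lit 433) (nat_lit 365) (nat_lit 222)))) (XT.nd (nat_lit 156) (nat_lit 0) (nat_lit 0) (XT.nd (nat_lit 78) (nat_lit 76) (nat_lit 0) (XT.lf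 (nat_lit 0) (nat_lit 13638582542) (nat_lit 152) (nat_lit 52466483834) (nat_lit 76) (nat_lit 49766112749) (nat_lit 26) (nat_lit 5) (nat_lit 28) (nat_lit 5) (nat_lit 27) (nat_lit 4) (nat_lit 434) (nat_lit 365) (nat_lit 221)) (XT.lf (nat_lit 0) (nat_lit 227197590) (nat_lit 76) (nat_lit 39117281476) (nat_lit 152) (nat_lit 80874655303) (nat_lit 25) (nat_lit 5) (nat_lit 26) (nat_lit 5) (nat_lit 27) (nat_lit 4) (nat_lit 435) (nat_lit 365) (nat_lit 220))) (XT.nd (nat_lit 78) (nat_lit 0) (nat_lit 0) (XT.lf (nat_lit 0) (nat_lit 57372373667) (nat_lit 76) (nat_lit 9849383601) (nat_lit 152) (nat_lit 57518425990) (nat_lit 25) (nat_lit 5) (nat_lit 26) (nat_lit 5) (nat_lit 27) (nat_lit 4) (nat_lit 436) (nat_lit 365) (nat_lit 219)) (XT.lf (nat_lit 0) (nat_lit 96816549696) (nat_lit 152) (nat_lit 12443068124) (nat_lit 0) (nat_lit 20211484472) (nat_lit 25) (nat_lit 5) (nat_lit 27) (nat_lit 4) (nat_lit 25) (nat_lit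 4) (nat_lit 437) (nat_lit 365) (nat_lit 218)))))) (XT.nd (nat_lit 546) (nat_lit 304) (nat_lit 0) (XT.nd (nat_lit 234) (nat_lit 152) (nat_lit 0) (XT.nd (nat_lit 78) (nat_lit 152) (nat_lit 0) (XT.lf (nat_lit 0) (nat_lit 46552052018) (nat_lit 76) (nat_lit 82225041302) (nat_lit 76) (nat_lit 5617173584) (nat_lit 24) (nat_lit 4) (nat_lit 25) (nat_lit 5) (nat_lit 25) (nat_lit 4) (nat_lit 438) (nat_lit 365) (nat_lit 217)) (XT.nd (nat_lit 78) (nat_lit 76) (nat_lit 0) (XT.lf (nat_lit 0) (nat_lit 22255152313) (nat_lit 152) (nat_lit 30987474518) (nat_lit 76) (nat_lit 86292589982) (nat_lit 23) (nat_lit 5) (nat_lit 25) (nat_lit 5) (nat_lit 24) (nat_lit 4) (nat_lit 439) (nat_lit 365) (nat_lit 216)) (XT.lf (nat_lit 0) (nat_lit 29559871743) (nat_lit 76) (nat_lit 22231811402) (nat_lit 152) (nat_lit 93113958882) (nat_lit 22) (nat_lit 5) (nat_lit 23) (nat_lit 5) (nat_lit 24) (nat_lit 4) (nat_lit 440) (nat_lit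 365) (nat_lit 215)))) (XT.nd (nat_lit 156) (nat_lit 76) (nat_lit 0) (XT.nd (nat_lit 78) (nat_lit 76) (nat_lit 0) (XT.lf (nat_lit 0) (nat_lit 83497562625) (nat_lit 152) (nat_lit 56481979796) (nat_lit 0) (nat_lit 10530420144) (nat_lit 22) (nat_lit 5) (nat_lit 24) (nat_lit 4) (nat_lit 22) (nat_lit 4) (nat_lit 441) (nat_lit 365) (nat_lit 214)) (XT.lf (nat_lit 0) (nat_lit 5120474376) (nat_lit 76) (nat_lit 112110622590) (nat_lit 76) (nat_lit 39141284281) (nat_lit 21) (nat_lit 4) (nat_lit 22) (nat_lit 5) (nat_lit 22) (nat_lit 4) (nat_lit 442) (nat_lit 365) (nat_lit 213))) (XT.nd (nat_lit 78) (nat_lit 76) (nat_lit 0) (XT.lf (nat_lit 0) (nat_lit 71760084809) (nat_lit 76) (nat_lit 81845769240) (nat_lit 76) (nat_lit 8874339667) (nat_lit 21) (nat_lit 4) (nat_lit 22) (nat_lit 5) (nat_lit 22) (nat_lit 4) (nat_lit 443) (nat_lit 365) (nat_lit 212)) (XT.lf (nat_lit 0) (nat_lit 22170879010) (nat_lit 152) (nat_lit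 27523119281) (nat_lit 76) (nat_lit 119181614333) (nat_lit 20) (nat_lit 5) (nat_lit 22) (nat_lit 5) (nat_lit 21) (nat_lit 4) (nat_lit 444) (nat_lit 365) (nat_lit 211))))) (XT.nd (nat_lit 234) (nat_lit 228) (nat_lit 0) (XT.nd (nat_lit 78) (nat_lit 0) (nat_lit 0) (XT.lf (nat_lit 0) (nat_lit 39963735458) (nat_lit 76) (nat_lit 15128485785) (nat_lit 152) (nat_lit 120460202386) (nat_lit 19) (nat_lit 5) (nat_lit 20) (nat_lit 5) (nat_lit 21) (nat_lit 4) (nat_lit 445) (nat_lit 365) (nat_lit 210)) (XT.nd (nat_lit 78) (nat_lit 0) (nat_lit 0) (XT.lf (nat_lit 0) (nat_lit 90461997529) (nat_lit 152) (nat_lit 71100985339) (nat_lit 0) (nat_lit 20959974096) (nat_lit 19) (nat_lit 5) (nat_lit 21) (nat_lit 4) (nat_lit 19) (nat_lit 4) (nat_lit 446) (nat_lit 365) (nat_lit 209)) (XT.lf (nat_lit 0) (nat_lit 127846516920) (nat_lit 152) (nat_lit 3640332525) (nat_lit 0) (nat_lit 58342854926) (nat_lit 19) (nat_lit 5)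 (nat_lit 21) (nat_lit 4) (nat_lit 19) (nat_lit 4) (nat_lit 447) (nat_lit 365) (nat_lit 208)))) (XT.nd (nat_lit 156) (nat_lit 76) (nat_lit 0) (XT.nd (nat_lit 78) (nat_lit 76) (nat_lit 0) (XT.lf (nat_lit 0) (nat_lit 69411696713) (nat_lit 76) (nat_lit 98770606515) (nat_lit 76) (nat_lit 29265383988) (nat_lit 18) (nat_lit 4) (nat_lit 19) (nat_lit 5) (nat_lit 19) (nat_lit 4) (nat_lit 448) (nat_lit 365) (nat_lit 207)) (XT.lf (nat_lit 0) (nat_lit 4986445650) (nat_lit 152) (nat_lit 59284495166) (nat_lit 76) (nat_lit 141168606667) (nat_lit 17) (nat_lit 5) (nat_lit 19) (nat_lit 5) (nat_lit 18) (nat_lit 4) (nat_lit 449) (nat_lit 365) (nat_lit 206))) (XT.nd (nat_lit 78) (nat_lit 0) (nat_lit 0) (XT.lf (nat_lit 0) (nat_lit 12832421113) (nat_lit 76) (nat_lit 27333698551) (nat_lit 152) (nat_lit 173630955093) (nat_lit 16) (nat_lit 5) (nat_lit 17) (nat_lit 5) (nat_lit 18) (nat_lit 4) (nat_lit 450) (nat_lit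 365) (nat_lit 205)) (XT.lf (nat_lit 0) (nat_lit 78302437190) (nat_lit 152) (nat_lit 132107218499) (nat_lit 0) (nat_lit 12102939811) (nat_lit 16) (nat_lit 5) (nat_lit 18) (nat_lit 4) (nat_lit 16) (nat_lit 4) (nat_lit 451) (nat_lit 365) (nat_lit 204))))))) (XT.nd (nat_lit 1014) (nat_lit 228) (nat_lit 0) (XT.nd (nat_lit 468) (nat_lit 228) (nat_lit 0) (XT.nd (nat_lit 234) (nat_lit 152) (nat_lit 0) (XT.nd (nat_lit 78) (nat_lit 76) (nat_lit 0) (XT.lf (nat_lit 0) (nat_lit 118792155502) (nat_lit 152) (nat_lit 60257972217) (nat_lit 0) (nat_lit 52591435404) (nat_lit 16) (nat_lit 5) (nat_lit 18) (nat_lit 4) (nat_lit 16) (nat_lit 4) (nat_lit 452) (nat_lit 365) (nat_lit 203)) (XT.nd (nat_lit 78) (nat_lit 0) (nat_lit 0) (XT.lf (nat_lit 0) (nat_lit 15682859929) (nat_lit 76) (nat_lit 145866916520) (nat_lit 76) (nat_lit 79665031928) (nat_lit 15) (nat_lit 4) (nat_lit 16) (nat_lit 5) (nat_lit 16) (nat_lit 4)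 (nat_lit 453) (nat_lit 365) (nat_lit 202)) (XT.lf (nat_lit 0) (nat_lit 97509974084) (nat_lit 76) (nat_lit 109954390606) (nat_lit 76) (nat_lit 43751396972) (nat_lit 15) (nat_lit 4) (nat_lit 16) (nat_lit 5) (nat_lit 16) (nat_lit 4) (nat_lit 454) (nat_lit 365) (nat_lit 201)))) (XT.nd (nat_lit 78) (nat_lit 152) (nat_lit 0) (XT.lf (nat_lit 0) (nat_lit 183425796015) (nat_lit 76) (nat_lit 72247541881) (nat_lit 76) (nat_lit 6043492016) (nat_lit 15) (nat_lit 4) (nat_lit 16) (nat_lit 5) (nat_lit 16) (nat_lit 4) (nat_lit 455) (nat_lit 365) (nat_lit 200)) (XT.nd (nat_lit 78) (nat_lit 0) (nat_lit 0) (XT.lf (nat_lit 0) (nat_lit 380256581) (nat_lit 76) (nat_lit 32100383604) (nat_lit 152) (nat_lit 240235889363) (nat_lit 13) (nat_lit 5) (nat_lit 14) (nat_lit 5) (nat_lit 15) (nat_lit 4) (nat_lit 456) (nat_lit 365) (nat_lit 199)) (XT.lf (nat_lit 0) (nat_lit 74231185427) (nat_lit 152) (nat_lit 198777070833)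 (nat_lit 0) (nat_lit 11177838921) (nat_lit 13) (nat_lit 5) (nat_lit 15) (nat_lit 4) (nat_lit 13) (nat_lit 4) (nat_lit 457) (nat_lit 365) (nat_lit 198))))) (XT.nd (nat_lit 234) (nat_lit 152) (nat_lit 0) (XT.nd (nat_lit 78) (nat_lit 76) (nat_lit 0) (XT.lf (nat_lit 0) (nat_lit 118594257209) (nat_lit 152) (nat_lit 122068590248) (nat_lit 0) (nat_lit 55540041739) (nat_lit 13) (nat_lit 5) (nat_lit 15) (nat_lit 4) (nat_lit 13) (nat_lit 4) (nat_lit 458) (nat_lit 365) (nat_lit 197)) (XT.nd (nat_lit 78) (nat_lit 76) (nat_lit 0) (XT.lf (nat_lit 0) (nat_lit 165174304942) (nat_lit 152) (nat_lit 41527015025) (nat_lit 0) (nat_lit 102119261888) (nat_lit 13) (nat_lit 5) (nat_lit 15) (nat_lit 4) (nat_lit 13) (nat_lit 4) (nat_lit 459) (nat_lit 365) (nat_lit 196)) (XT.lf (nat_lit 0) (nat_lit 44462498105) (nat_lit 76) (nat_lit 170313919599) (nat_lit 76) (nat_lit 107258088369) (nat_lit 12) (nat_lit 4) (nat_lit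 13) (nat_lit 5) (nat_lit 13) (nat_lit 4) (nat_lit 460) (nat_lit 365) (nat_lit 195)))) (XT.nd (nat_lit 156) (nat_lit 152) (nat_lit 0) (XT.nd (nat_lit 78) (nat_lit 0) (nat_lit 0) (XT.lf (nat_lit 0) (nat_lit 136191028398) (nat_lit 76) (nat_lit 131369785569) (nat_lit 76) (nat_lit 68313203696) (nat_lit 12) (nat_lit 4) (nat_lit 13) (nat_lit 5) (nat_lit 13) (nat_lit 4) (nat_lit 461) (nat_lit 365) (nat_lit 194)) (XT.lf (nat_lit 0) (nat_lit 232503906457) (nat_lit 76) (nat_lit 90479473843) (nat_lit 76) (nat_lit 27422177071) (nat_lit 12) (nat_lit 4) (nat_lit 13) (nat_lit 5) (nat_lit 13) (nat_lit 4) (nat_lit 462) (nat_lit 365) (nat_lit 193))) (XT.nd (nat_lit 78) (nat_lit 76) (nat_lit 0) (XT.lf (nat_lit 0) (nat_lit 15015858979) (nat_lit 152) (nat_lit 32275466718) (nat_lit 76) (nat_lit 318360288842) (nat_lit 11) (nat_lit 5) (nat_lit 13) (nat_lit 5) (nat_lit 12) (nat_lit 4) (nat_lit 463) (nat_lit 365) (nat_lit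 192)) (XT.lf (nat_lit 0) (nat_lit 59071212993) (nat_lit 76) (nat_lit 504318252) (nat_lit 152) (nat_lit 322015901203) (nat_lit 10) (nat_lit 5) (nat_lit 11) (nat_lit 5) (nat_lit 12) (nat_lit 4) (nat_lit 464) (nat_lit 365) (nat_lit 191)))))) (XT.nd (nat_lit 546) (nat_lit 152) (nat_lit 0) (XT.nd (nat_lit 234) (nat_lit 76) (nat_lit 0) (XT.nd (nat_lit 78) (nat_lit 0) (nat_lit 0) (XT.lf (nat_lit 0) (nat_lit 107676908962) (nat_lit 152) (nat_lit 242965159772) (nat_lit 0) (nat_lit 47620486469) (nat_lit 10) (nat_lit 5) (nat_lit 12) (nat_lit 4) (nat_lit 10) (nat_lit 4) (nat_lit 465) (nat_lit 365) (nat_lit 190)) (XT.nd (nat_lit 78) (nat_lit 0) (nat_lit 0) (XT.lf (nat_lit 0) (nat_lit 158190703289) (nat_lit 152) (nat_lit 159442442807) (nat_lit 0) (nat_lit 98133720655) (nat_lit 10) (nat_lit 5) (nat_lit 12) (nat_lit 4) (nat_lit 10) (nat_lit 4) (nat_lit 466) (nat_lit 365) (nat_lit 189)) (XT.lf (nat_lit 0)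 (nat_lit 211229311345) (nat_lit 152) (nat_lit 71745331128) (nat_lit 0) (nat_lit 151171795242) (nat_lit 10) (nat_lit 5) (nat_lit 12) (nat_lit 4) (nat_lit 10) (nat_lit 4) (nat_lit 467) (nat_lit 365) (nat_lit 188)))) (XT.nd (nat_lit 156) (nat_lit 0) (nat_lit 0) (XT.nd (nat_lit 78) (nat_lit 0) (nat_lit 0) (XT.lf (nat_lit 0) (nat_lit 21007344117) (nat_lit 76) (nat_lit 246239654927) (nat_lit 76) (nat_lit 186181630759) (nat_lit 9) (nat_lit 4) (nat_lit 10) (nat_lit 5) (nat_lit 10) (nat_lit 4) (nat_lit 468) (nat_lit 365) (nat_lit 187)) (XT.lf (nat_lit 0) (nat_lit 120886857539) (nat_lit 76) (nat_lit 206392935468) (nat_lit 76) (nat_lit 146334427429) (nat_lit 9) (nat_lit 4) (nat_lit 10) (nat_lit 5) (nat_lit 10) (nat_lit 4) (nat_lit 469) (nat_lit 365) (nat_lit 186))) (XT.nd (nat_lit 78) (nat_lit 0) (nat_lit 0) (XT.lf (nat_lit 0) (nat_lit 225758792845) (nat_lit 76) (nat_lit 164554652853) (nat_lit 76) (nat_lit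 104495683984) (nat_lit 9) (nat_lit 4) (nat_lit 10) (nat_lit 5) (nat_lit 10) (nat_lit 4) (nat_lit 470) (nat_lit 365) (nat_lit 185)) (XT.lf (nat_lit 0) (nat_lit 335872845118) (nat_lit 76) (nat_lit 120625192125) (nat_lit 76) (nat_lit 60565784370) (nat_lit 9) (nat_lit 4) (nat_lit 10) (nat_lit 5) (nat_lit 10) (nat_lit 4) (nat_lit 471) (nat_lit 365) (nat_lit 184))))) (XT.nd (nat_lit 234) (nat_lit 0) (nat_lit 0) (XT.nd (nat_lit 78) (nat_lit 152) (nat_lit 0) (XT.lf (nat_lit 0) (nat_lit 451491190674) (nat_lit 76) (nat_lit 74499959328) (nat_lit 76) (nat_lit 14440133587) (nat_lit 9) (nat_lit 4) (nat_lit 10) (nat_lit 5) (nat_lit 10) (nat_lit 4) (nat_lit 472) (nat_lit 365) (nat_lit 183)) (XT.nd (nat_lit 78) (nat_lit 0) (nat_lit 0) (XT.lf (nat_lit 0) (nat_lit 7635651189) (nat_lit 76) (nat_lit 25386726865) (nat_lit 152) (nat_lit 531912278865) (nat_lit 7) (nat_lit 5) (nat_lit 8) (nat_lit 5) (nat_lit 9) (nat_lit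 4) (nat_lit 473) (nat_lit 365) (nat_lit 182)) (XT.lf (nat_lit 0) (nat_lit 84311760657) (nat_lit 152) (nat_lit 479131464262) (nat_lit 0) (nat_lit 27111186420) (nat_lit 7) (nat_lit 5) (nat_lit 9) (nat_lit 4) (nat_lit 7) (nat_lit 4) (nat_lit 474) (nat_lit 365) (nat_lit 181)))) (XT.nd (nat_lit 156) (nat_lit 0) (nat_lit 0) (XT.nd (nat_lit 78) (nat_lit 0) (nat_lit 0) (XT.lf (nat_lit 0) (nat_lit 138581136359) (nat_lit 152) (nat_lit 397473022704) (nat_lit 0) (nat_lit 81380218243) (nat_lit 7) (nat_lit 5) (nat_lit 9) (nat_lit 4) (nat_lit 7) (nat_lit 4) (nat_lit 475) (nat_lit 365) (nat_lit 180)) (XT.lf (nat_lit 0) (nat_lit 195563360006) (nat_lit 152) (nat_lit 311732898245) (nat_lit 0) (nat_lit 138362114388) (nat_lit 7) (nat_lit 5) (nat_lit 9) (nat_lit 4) (nat_lit 7) (nat_lit 4) (nat_lit 476) (nat_lit 365) (nat_lit 179))) (XT.nd (nat_lit 78) (nat_lit 0) (nat_lit 0) (XT.lf (nat_lit 0) (nat_lit 255394103561)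 (nat_lit 152) (nat_lit 221706947730) (nat_lit 0) (nat_lit 198192546034) (nat_lit 7) (nat_lit 5) (nat_lit 9) (nat_lit 4) (nat_lit 7) (nat_lit 4) (nat_lit 477) (nat_lit 365) (nat_lit 178)) (XT.lf (nat_lit 0) (nat_lit 318215821173) (nat_lit 152) (nat_lit 127180823658) (nat_lit 0) (nat_lit 261013966591) (nat_lit 7) (nat_lit 5) (nat_lit 9) (nat_lit 4) (nat_lit 7) (nat_lit 4) (nat_lit 478) (nat_lit 365) (nat_lit 177))))))))
noncomputable def xc159 : XT := (XT.nd (nat_lit 46254) (nat_lit 0) (nat_lit 2736) (XT.nd (nat_lit 45162) (nat_lit 0) (nat_lit 5700) (XT.nd (nat_lit 44616) (nat_lit 0) (nat_lit 8664) (XT.nd (nat_lit 44382) (nat_lit 0) (nat_lit 8512) (XT.nd (nat_lit 78) (nat_lit 76) (nat_lit 0) (XT.lf (nat_lit 0) (nat_lit 384178088361) (nat_lit 152) (nat_lit 27929463829) (nat_lit 0) (nat_lit 326975950870) (nat_lit 7) (nat_lit 5) (nat_lit 9) (nat_lit 4) (nat_lit 7) (nat_lit 4) (nat_lit 479) (nat_lit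 365) (nat_lit 176)) (XT.nd (nat_lit 44226) (nat_lit 0) (nat_lit 9348) (XT.lf (nat_lit 0) (nat_lit 78805719700) (nat_lit 76) (nat_lit 375862616580) (nat_lit 76) (nat_lit 318660209651) (nat_lit 6) (nat_lit 4) (nat_lit 7) (nat_lit 5) (nat_lit 7) (nat_lit 4) (nat_lit 480) (nat_lit 365) (nat_lit 175)) (XT.lf (nat_lit 0) (nat_lit 3629195963) (nat_lit 0) (nat_lit 3629195963) (nat_lit 684) (nat_lit 77892962) (nat_lit 129) (nat_lit 5) (nat_lit 129) (nat_lit 3) (nat_lit 138) (nat_lit 3) (nat_lit 366) (nat_lit 366) (nat_lit 288)))) (XT.nd (nat_lit 78) (nat_lit 0) (nat_lit 76) (XT.lf (nat_lit 0) (nat_lit 150713158) (nat_lit 836) (nat_lit 281147499) (nat_lit 836) (nat_lit 14592216893) (nat_lit 118) (nat_lit 3) (nat_lit 129) (nat_lit 3) (nat_lit 129) (nat_lit 5) (nat_lit 367) (nat_lit 366) (nat_lit 287)) (XT.nd (nat_lit 78) (nat_lit 0) (nat_lit 0) (XT.lf (nat_lit 0) (nat_lit 671076897) (nat_lit 760) (nat_lit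 8061836426) (nat_lit 836) (nat_lit 6649941627) (nat_lit 119) (nat_lit 5) (nat_lit 129) (nat_lit 5) (nat_lit 130) (nat_lit 5) (nat_lit 368) (nat_lit 366) (nat_lit 286)) (XT.lf (nat_lit 0) (nat_lit 1210744256) (nat_lit 760) (nat_lit 464620517) (nat_lit 836) (nat_lit 14084552357) (nat_lit 119) (nat_lit 5) (nat_lit 129) (nat_lit 5) (nat_lit 130) (nat_lit 5) (nat_lit 369) (nat_lit 366) (nat_lit 285))))) (XT.nd (nat_lit 234) (nat_lit 0) (nat_lit 76) (XT.nd (nat_lit 78) (nat_lit 0) (nat_lit 0) (XT.lf (nat_lit 0) (nat_lit 1972280205) (nat_lit 760) (nat_lit 8492465295) (nat_lit 836) (nat_lit 5681352353) (nat_lit 120) (nat_lit 5) (nat_lit 130) (nat_lit 5) (nat_lit 131) (nat_lit 5) (nat_lit 370) (nat_lit 366) (nat_lit 284)) (XT.nd (nat_lit 78) (nat_lit 0) (nat_lit 76) (XT.lf (nat_lit 0) (nat_lit 2790393441) (nat_lit 760) (nat_lit 396303569) (nat_lit 836) (nat_lit 13363974810) (nat_lit 120) (nat_lit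 5) (nat_lit 130) (nat_lit 5) (nat_lit 131) (nat_lit 5) (nat_lit 371) (nat_lit 366) (nat_lit 283)) (XT.lf (nat_lit 0) (nat_lit 3835583734) (nat_lit 760) (nat_lit 8680161453) (nat_lit 836) (nat_lit 4450429521) (nat_lit 121) (nat_lit 5) (nat_lit 131) (nat_lit 5) (nat_lit 132) (nat_lit 5) (nat_lit 372) (nat_lit 366) (nat_lit 282)))) (XT.nd (nat_lit 156) (nat_lit 0) (nat_lit 76) (XT.nd (nat_lit 78) (nat_lit 0) (nat_lit 76) (XT.lf (nat_lit 0) (nat_lit 4976618966) (nat_lit 760) (nat_lit 49848332) (nat_lit 836) (nat_lit 12373814548) (nat_lit 121) (nat_lit 5) (nat_lit 131) (nat_lit 5) (nat_lit 132) (nat_lit 5) (nat_lit 373) (nat_lit 366) (nat_lit 281)) (XT.lf (nat_lit 0) (nat_lit 6351878030) (nat_lit 760) (nat_lit 8597756945) (nat_lit 836) (nat_lit 2897608737) (nat_lit 122) (nat_lit 5) (nat_lit 132) (nat_lit 5) (nat_lit 133) (nat_lit 5) (nat_lit 374) (nat_lit 366) (nat_lit 280))) (XT.nd (nat_lit 78)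 (nat_lit 0) (nat_lit 76) (XT.lf (nat_lit 76) (nat_lit 624970187) (nat_lit 0) (nat_lit 7249791190) (nat_lit 836) (nat_lit 10437856824) (nat_lit 123) (nat_lit 5) (nat_lit 122) (nat_lit 5) (nat_lit 133) (nat_lit 5) (nat_lit 375) (nat_lit 366) (nat_lit 279)) (XT.lf (nat_lit 0) (nat_lit 9621195279) (nat_lit 760) (nat_lit 8214240072) (nat_lit 76) (nat_lit 958462979) (nat_lit 123) (nat_lit 5) (nat_lit 133) (nat_lit 5) (nat_lit 124) (nat_lit 5) (nat_lit 376) (nat_lit 366) (nat_lit 278)))))) (XT.nd (nat_lit 546) (nat_lit 1216) (nat_lit 0) (XT.nd (nat_lit 234) (nat_lit 836) (nat_lit 0) (XT.nd (nat_lit 78) (nat_lit 380) (nat_lit 0) (XT.lf (nat_lit 0) (nat_lit 1655388175) (nat_lit 760) (nat_lit 9931280622) (nat_lit 836) (nat_lit 7705994663) (nat_lit 113) (nat_lit 5) (nat_lit 123) (nat_lit 5) (nat_lit 124) (nat_lit 5) (nat_lit 377) (nat_lit 366) (nat_lit 277)) (XT.nd (nat_lit 78) (nat_lit 380) (nat_lit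 0) (XT.lf (nat_lit 0) (nat_lit 12292280721) (nat_lit 760) (nat_lit 1484711020) (nat_lit 836) (nat_lit 6033052878) (nat_lit 113) (nat_lit 5) (nat_lit 123) (nat_lit 5) (nat_lit 124) (nat_lit 5) (nat_lit 378) (nat_lit 366) (nat_lit 276)) (XT.lf (nat_lit 0) (nat_lit 3079524799) (nat_lit 380) (nat_lit 13148751433) (nat_lit 456) (nat_lit 4117452584) (nat_lit 108) (nat_lit 5) (nat_lit 113) (nat_lit 5) (nat_lit 114) (nat_lit 5) (nat_lit 379) (nat_lit 366) (nat_lit 275)))) (XT.nd (nat_lit 156) (nat_lit 380) (nat_lit 0) (XT.nd (nat_lit 78) (nat_lit 456) (nat_lit 0) (XT.lf (nat_lit 0) (nat_lit 14431244061) (nat_lit 380) (nat_lit 4510613818) (nat_lit 456) (nat_lit 1959358649) (nat_lit 108) (nat_lit 5) (nat_lit 113) (nat_lit 5) (nat_lit 114) (nat_lit 5) (nat_lit 380) (nat_lit 366) (nat_lit 274)) (XT.lf (nat_lit 0) (nat_lit 436433557) (nat_lit 456) (nat_lit 16542913827) (nat_lit 76) (nat_lit 4497916867)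 (nat_lit 102) (nat_lit 5) (nat_lit 108) (nat_lit 5) (nat_lit 103) (nat_lit 5) (nat_lit 381) (nat_lit 366) (nat_lit 273))) (XT.nd (nat_lit 78) (nat_lit 380) (nat_lit 0) (XT.lf (nat_lit 0) (nat_lit 3060672206) (nat_lit 456) (nat_lit 5062475075) (nat_lit 76) (nat_lit 13948640981) (nat_lit 102) (nat_lit 5) (nat_lit 108) (nat_lit 5) (nat_lit 103) (nat_lit 5) (nat_lit 382) (nat_lit 366) (nat_lit 272)) (XT.lf (nat_lit 0) (nat_lit 5938620455) (nat_lit 456) (nat_lit 15499255111) (nat_lit 76) (nat_lit 1252042922) (nat_lit 97) (nat_lit 5) (nat_lit 103) (nat_lit 5) (nat_lit 98) (nat_lit 5) (nat_lit 383) (nat_lit 366) (nat_lit 271))))) (XT.nd (nat_lit 234) (nat_lit 912) (nat_lit 0) (XT.nd (nat_lit 78) (nat_lit 304) (nat_lit 0) (XT.lf (nat_lit 0) (nat_lit 9170789086) (nat_lit 456) (nat_lit 3248281272) (nat_lit 76) (nat_lit 10909373382) (nat_lit 97) (nat_lit 5) (nat_lit 103) (nat_lit 5) (nat_lit 98) (nat_lit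 5) (nat_lit 384) (nat_lit 366) (nat_lit 270)) (XT.nd (nat_lit 78) (nat_lit 0) (nat_lit 0) (XT.lf (nat_lit 0) (nat_lit 9922088699) (nat_lit 304) (nat_lit 2787880159) (nat_lit 380) (nat_lit 11281660701) (nat_lit 93) (nat_lit 5) (nat_lit 97) (nat_lit 5) (nat_lit 98) (nat_lit 5) (nat_lit 385) (nat_lit 366) (nat_lit 269)) (XT.lf (nat_lit 0) (nat_lit 16587140886) (nat_lit 380) (nat_lit 947730491) (nat_lit 76) (nat_lit 7145055859) (nat_lit 93) (nat_lit 5) (nat_lit 98) (nat_lit 5) (nat_lit 94) (nat_lit 5) (nat_lit 386) (nat_lit 366) (nat_lit 268)))) (XT.nd (nat_lit 156) (nat_lit 380) (nat_lit 0) (XT.nd (nat_lit 78) (nat_lit 228) (nat_lit 0) (XT.lf (nat_lit 0) (nat_lit 13196364002) (nat_lit 304) (nat_lit 7704741249) (nat_lit 380) (nat_lit 4489391888) (nat_lit 89) (nat_lit 5) (nat_lit 93) (nat_lit 5) (nat_lit 94) (nat_lit 5) (nat_lit 387) (nat_lit 366) (nat_lit 267)) (XT.lf (nat_lit 0) (nat_lit 1955538314)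 (nat_lit 228) (nat_lit 23554360832) (nat_lit 304) (nat_lit 622743662) (nat_lit 86) (nat_lit 5) (nat_lit 89) (nat_lit 5) (nat_lit 90) (nat_lit 5) (nat_lit 388) (nat_lit 366) (nat_lit 266))) (XT.nd (nat_lit 78) (nat_lit 304) (nat_lit 0) (XT.lf (nat_lit 0) (nat_lit 3654963238) (nat_lit 304) (nat_lit 9859696560) (nat_lit 76) (nat_lit 13378169231) (nat_lit 85) (nat_lit 5) (nat_lit 89) (nat_lit 5) (nat_lit 86) (nat_lit 5) (nat_lit 389) (nat_lit 366) (nat_lit 265)) (XT.lf (nat_lit 0) (nat_lit 5323456737) (nat_lit 304) (nat_lit 2877220809) (nat_lit 380) (nat_lit 19486087369) (nat_lit 81) (nat_lit 5) (nat_lit 85) (nat_lit 5) (nat_lit 86) (nat_lit 5) (nat_lit 390) (nat_lit 366) (nat_lit 264))))))) (XT.nd (nat_lit 1092) (nat_lit 1140) (nat_lit 0) (XT.nd (nat_lit 546) (nat_lit 836) (nat_lit 0) (XT.nd (nat_lit 234) (nat_lit 760) (nat_lit 0) (XT.nd (nat_lit 78) (nat_lit 228) (nat_lit 0) (XT.lf (nat_lit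 0) (nat_lit 13264982601) (nat_lit 380) (nat_lit 7046667740) (nat_lit 76) (nat_lit 8194185156) (nat_lit 81) (nat_lit 5) (nat_lit 86) (nat_lit 5) (nat_lit 82) (nat_lit 5) (nat_lit 391) (nat_lit 366) (nat_lit 263)) (XT.nd (nat_lit 78) (nat_lit 0) (nat_lit 0) (XT.lf (nat_lit 0) (nat_lit 9275518283) (nat_lit 228) (nat_lit 9491470137) (nat_lit 304) (nat_lit 10589649921) (nat_lit 78) (nat_lit 5) (nat_lit 81) (nat_lit 5) (nat_lit 82) (nat_lit 5) (nat_lit 392) (nat_lit 366) (nat_lit 262)) (XT.lf (nat_lit 0) (nat_lit 24687246281) (nat_lit 304) (nat_lit 3626864545) (nat_lit 76) (nat_lit 1928715775) (nat_lit 78) (nat_lit 5) (nat_lit 82) (nat_lit 5) (nat_lit 79) (nat_lit 5) (nat_lit 393) (nat_lit 366) (nat_lit 261)))) (XT.nd (nat_lit 156) (nat_lit 228) (nat_lit 0) (XT.nd (nat_lit 78) (nat_lit 228) (nat_lit 0) (XT.lf (nat_lit 0) (nat_lit 110936928) (nat_lit 304) (nat_lit 17226112008) (nat_lit 76) (nat_lit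 13817883125) (nat_lit 74) (nat_lit 5) (nat_lit 78) (nat_lit 5) (nat_lit 75) (nat_lit 5) (nat_lit 394) (nat_lit 366) (nat_lit 260)) (XT.lf (nat_lit 0) (nat_lit 285952549) (nat_lit 228) (nat_lit 5648102087) (nat_lit 304) (nat_lit 26171037949) (nat_lit 71) (nat_lit 5) (nat_lit 74) (nat_lit 5) (nat_lit 75) (nat_lit 5) (nat_lit 395) (nat_lit 366) (nat_lit 259))) (XT.nd (nat_lit 78) (nat_lit 228) (nat_lit 0) (XT.lf (nat_lit 0) (nat_lit 12441501924) (nat_lit 304) (nat_lit 13934613071) (nat_lit 76) (nat_lit 6706989815) (nat_lit 71) (nat_lit 5) (nat_lit 75) (nat_lit 5) (nat_lit 72) (nat_lit 5) (nat_lit 396) (nat_lit 366) (nat_lit 258)) (XT.lf (nat_lit 0) (nat_lit 4898926822) (nat_lit 228) (nat_lit 14538014729) (nat_lit 304) (nat_lit 14664947336) (nat_lit 68) (nat_lit 5) (nat_lit 71) (nat_lit 5) (nat_lit 72) (nat_lit 5) (nat_lit 397) (nat_lit 366) (nat_lit 257))))) (XT.nd (nat_lit 234) (nat_lit 608)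 (nat_lit 0) (XT.nd (nat_lit 78) (nat_lit 228) (nat_lit 0) (XT.lf (nat_lit 0) (nat_lit 25148656076) (nat_lit 228) (nat_lit 1863191511) (nat_lit 304) (nat_lit 8148281996) (nat_lit 68) (nat_lit 5) (nat_lit 71) (nat_lit 5) (nat_lit 72) (nat_lit 5) (nat_lit 398) (nat_lit 366) (nat_lit 256)) (XT.nd (nat_lit 78) (nat_lit 76) (nat_lit 0) (XT.lf (nat_lit 0) (nat_lit 10280864684) (nat_lit 152) (nat_lit 25017802294) (nat_lit 228) (nat_lit 955958969) (nat_lit 66) (nat_lit 5) (nat_lit 68) (nat_lit 5) (nat_lit 69) (nat_lit 5) (nat_lit 399) (nat_lit 366) (nat_lit 255)) (XT.lf (nat_lit 0) (nat_lit 6581750635) (nat_lit 228) (nat_lit 5605415211) (nat_lit 76) (nat_lit 25201689892) (nat_lit 65) (nat_lit 5) (nat_lit 68) (nat_lit 5) (nat_lit 66) (nat_lit 5) (nat_lit 400) (nat_lit 366) (nat_lit 254)))) (XT.nd (nat_lit 156) (nat_lit 380) (nat_lit 0) (XT.nd (nat_lit 78) (nat_lit 0) (nat_lit 0) (XT.lf (nat_lit 0)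 (nat_lit 14737098379) (nat_lit 304) (nat_lit 22313059342) (nat_lit 76) (nat_lit 1515213525) (nat_lit 62) (nat_lit 5) (nat_lit 66) (nat_lit 5) (nat_lit 63) (nat_lit 5) (nat_lit 401) (nat_lit 366) (nat_lit 253)) (XT.lf (nat_lit 0) (nat_lit 23590876469) (nat_lit 304) (nat_lit 608572731) (nat_lit 76) (nat_lit 15586731855) (nat_lit 62) (nat_lit 5) (nat_lit 66) (nat_lit 5) (nat_lit 63) (nat_lit 5) (nat_lit 402) (nat_lit 366) (nat_lit 252))) (XT.nd (nat_lit 78) (nat_lit 228) (nat_lit 0) (XT.lf (nat_lit 0) (nat_lit 22905895026) (nat_lit 152) (nat_lit 10333727652) (nat_lit 228) (nat_lit 7810796310) (nat_lit 60) (nat_lit 5) (nat_lit 62) (nat_lit 5) (nat_lit 63) (nat_lit 5) (nat_lit 403) (nat_lit 366) (nat_lit 251)) (XT.lf (nat_lit 0) (nat_lit 1118175747) (nat_lit 228) (nat_lit 37052125602) (nat_lit 76) (nat_lit 4198942860) (nat_lit 57) (nat_lit 5) (nat_lit 60) (nat_lit 5) (nat_lit 58) (nat_lit 5) (nat_lit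 404) (nat_lit 366) (nat_lit 250)))))) (XT.nd (nat_lit 546) (nat_lit 456) (nat_lit 0) (XT.nd (nat_lit 234) (nat_lit 532) (nat_lit 0) (XT.nd (nat_lit 78) (nat_lit 152) (nat_lit 0) (XT.lf (nat_lit 0) (nat_lit 10707599531) (nat_lit 228) (nat_lit 13467848032) (nat_lit 76) (nat_lit 19548337357) (nat_lit 57) (nat_lit 5) (nat_lit 60) (nat_lit 5) (nat_lit 58) (nat_lit 5) (nat_lit 405) (nat_lit 366) (nat_lit 249)) (XT.nd (nat_lit 78) (nat_lit 0) (nat_lit 0) (XT.lf (nat_lit 0) (nat_lit 11660772216) (nat_lit 152) (nat_lit 9292796722) (nat_lit 228) (nat_lit 24183631321) (nat_lit 55) (nat_lit 5) (nat_lit 57) (nat_lit 5) (nat_lit 58) (nat_lit 5) (nat_lit 406) (nat_lit 366) (nat_lit 248)) (XT.lf (nat_lit 0) (nat_lit 32037633621) (nat_lit 228) (nat_lit 8207270554) (nat_lit 76) (nat_lit 6360093595) (nat_lit 55) (nat_lit 5) (nat_lit 58) (nat_lit 5) (nat_lit 56) (nat_lit 5) (nat_lit 407) (nat_lit 366) (nat_lit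 247)))) (XT.nd (nat_lit 156) (nat_lit 304) (nat_lit 0) (XT.nd (nat_lit 78) (nat_lit 76) (nat_lit 0) (XT.lf (nat_lit 0) (nat_lit 18765862193) (nat_lit 152) (nat_lit 25350684082) (nat_lit 228) (nat_lit 4007607838) (nat_lit 53) (nat_lit 5) (nat_lit 55) (nat_lit 5) (nat_lit 56) (nat_lit 5) (nat_lit 408) (nat_lit 366) (nat_lit 246)) (XT.lf (nat_lit 0) (nat_lit 6990144067) (nat_lit 228) (nat_lit 2460344692) (nat_lit 76) (nat_lit 40256422735) (nat_lit 52) (nat_lit 5) (nat_lit 55) (nat_lit 5) (nat_lit 53) (nat_lit 5) (nat_lit 409) (nat_lit 366) (nat_lit 245))) (XT.nd (nat_lit 78) (nat_lit 152) (nat_lit 0) (XT.lf (nat_lit 0) (nat_lit 18934272910) (nat_lit 228) (nat_lit 24906505191) (nat_lit 76) (nat_lit 7498186184) (nat_lit 50) (nat_lit 5) (nat_lit 53) (nat_lit 5) (nat_lit 51) (nat_lit 5) (nat_lit 410) (nat_lit 366) (nat_lit 244)) (XT.lf (nat_lit 0) (nat_lit 3762109454) (nat_lit 152) (nat_lit 27965128232)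 (nat_lit 228) (nat_lit 21312801534) (nat_lit 48) (nat_lit 5) (nat_lit 50) (nat_lit 5) (nat_lit 51) (nat_lit 5) (nat_lit 411) (nat_lit 366) (nat_lit 243))))) (XT.nd (nat_lit 234) (nat_lit 304) (nat_lit 0) (XT.nd (nat_lit 78) (nat_lit 152) (nat_lit 0) (XT.lf (nat_lit 0) (nat_lit 34721496290) (nat_lit 152) (nat_lit 10855868209) (nat_lit 228) (nat_lit 9227928644) (nat_lit 48) (nat_lit 5) (nat_lit 50) (nat_lit 5) (nat_lit 51) (nat_lit 5) (nat_lit 412) (nat_lit 366) (nat_lit 242)) (XT.nd (nat_lit 78) (nat_lit 0) (nat_lit 0) (XT.lf (nat_lit 0) (nat_lit 3630359514) (nat_lit 152) (nat_lit 45906118263) (nat_lit 76) (nat_lit 7105633327) (nat_lit 46) (nat_lit 5) (nat_lit 48) (nat_lit 5) (nat_lit 47) (nat_lit 5) (nat_lit 413) (nat_lit 366) (nat_lit 241)) (XT.lf (nat_lit 0) (nat_lit 17341001225) (nat_lit 152) (nat_lit 15101732506) (nat_lit 76) (nat_lit 26094495258) (nat_lit 46) (nat_lit 5) (nat_lit 48)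 (nat_lit 5) (nat_lit 47) (nat_lit 5) (nat_lit 414) (nat_lit 366) (nat_lit 240)))) (XT.nd (nat_lit 156) (nat_lit 152) (nat_lit 0) (XT.nd (nat_lit 78) (nat_lit 0) (nat_lit 0) (XT.lf (nat_lit 0) (nat_lit 17805929059) (nat_lit 152) (nat_lit 14205330514) (nat_lit 228) (nat_lit 28502139734) (nat_lit 44) (nat_lit 5) (nat_lit 46) (nat_lit 5) (nat_lit 47) (nat_lit 5) (nat_lit 415) (nat_lit 366) (nat_lit 239)) (XT.lf (nat_lit 0) (nat_lit 47748287664) (nat_lit 228) (nat_lit 9780581344) (nat_lit 76) (nat_lit 5042847023) (nat_lit 44) (nat_lit 5) (nat_lit 47) (nat_lit 5) (nat_lit 45) (nat_lit 4) (nat_lit 416) (nat_lit 366) (nat_lit 238))) (XT.nd (nat_lit 78) (nat_lit 0) (nat_lit 0) (XT.lf (nat_lit 0) (nat_lit 189413875) (nat_lit 152) (nat_lit 39339679720) (nat_lit 76) (nat_lit 25172442992) (nat_lit 42) (nat_lit 5) (nat_lit 44) (nat_lit 5) (nat_lit 43) (nat_lit 5) (nat_lit 417) (nat_lit 366) (nat_lit 237))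 (XT.lf (nat_lit 0) (nat_lit 15619408328) (nat_lit 152) (nat_lit 4580882077) (nat_lit 76) (nat_lit 46717174319) (nat_lit 42) (nat_lit 5) (nat_lit 44) (nat_lit 5) (nat_lit 43) (nat_lit 5) (nat_lit 418) (nat_lit 366) (nat_lit 236))))))))
noncomputable def xc160 : XT := (XT.nd (nat_lit 2106) (nat_lit 836) (nat_lit 0) (XT.nd (nat_lit 1014) (nat_lit 684) (nat_lit 0) (XT.nd (nat_lit 468) (nat_lit 456) (nat_lit 0) (XT.nd (nat_lit 234) (nat_lit 304) (nat_lit 0) (XT.nd (nat_lit 78) (nat_lit 76) (nat_lit 0) (XT.lf (nat_lit 0) (nat_lit 32341945627) (nat_lit 228) (nat_lit 36263834678) (nat_lit 76) (nat_lit 612357409) (nat_lit 40) (nat_lit 5) (nat_lit 43) (nat_lit 5) (nat_lit 41) (nat_lit 4) (nat_lit 419) (nat_lit 366) (nat_lit 235)) (XT.nd (nat_lit 78) (nat_lit 0) (nat_lit 0) (XT.lf (nat_lit 0) (nat_lit 575013747) (nat_lit 76) (nat_lit 49741100881) (nat_lit 152) (nat_lit 21296955056) (nat_lit 39) (nat_lit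 5) (nat_lit 40) (nat_lit 5) (nat_lit 41) (nat_lit 4) (nat_lit 420) (nat_lit 366) (nat_lit 234)) (XT.lf (nat_lit 0) (nat_lit 40508618342) (nat_lit 76) (nat_lit 29291112012) (nat_lit 152) (nat_lit 4297481529) (nat_lit 39) (nat_lit 5) (nat_lit 40) (nat_lit 5) (nat_lit 41) (nat_lit 4) (nat_lit 421) (nat_lit 366) (nat_lit 233)))) (XT.nd (nat_lit 78) (nat_lit 76) (nat_lit 0) (XT.lf (nat_lit 0) (nat_lit 5698133918) (nat_lit 152) (nat_lit 7505749301) (nat_lit 228) (nat_lit 63486816006) (nat_lit 36) (nat_lit 5) (nat_lit 38) (nat_lit 5) (nat_lit 39) (nat_lit 5) (nat_lit 422) (nat_lit 366) (nat_lit 232)) (XT.nd (nat_lit 78) (nat_lit 76) (nat_lit 0) (XT.lf (nat_lit 0) (nat_lit 32250732762) (nat_lit 228) (nat_lit 31595851647) (nat_lit 76) (nat_lit 15523012463) (nat_lit 36) (nat_lit 5) (nat_lit 39) (nat_lit 5) (nat_lit 37) (nat_lit 4) (nat_lit 423) (nat_lit 366) (nat_lit 231)) (XT.lf (nat_lit 0) (nat_lit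 9960721261) (nat_lit 76) (nat_lit 42564643831) (nat_lit 152) (nat_lit 29643302742) (nat_lit 35) (nat_lit 5) (nat_lit 36) (nat_lit 5) (nat_lit 37) (nat_lit 4) (nat_lit 424) (nat_lit 366) (nat_lit 230))))) (XT.nd (nat_lit 234) (nat_lit 228) (nat_lit 0) (XT.nd (nat_lit 78) (nat_lit 228) (nat_lit 0) (XT.lf (nat_lit 0) (nat_lit 54686415317) (nat_lit 76) (nat_lit 19659345653) (nat_lit 152) (nat_lit 10735330206) (nat_lit 35) (nat_lit 5) (nat_lit 36) (nat_lit 5) (nat_lit 37) (nat_lit 4) (nat_lit 425) (nat_lit 366) (nat_lit 229)) (XT.nd (nat_lit 78) (nat_lit 0) (nat_lit 0) (XT.lf (nat_lit 0) (nat_lit 9113138624) (nat_lit 228) (nat_lit 74392561874) (nat_lit 76) (nat_lit 4611971069) (nat_lit 32) (nat_lit 5) (nat_lit 35) (nat_lit 5) (nat_lit 33) (nat_lit 4) (nat_lit 426) (nat_lit 366) (nat_lit 228)) (XT.lf (nat_lit 0) (nat_lit 30435781432) (nat_lit 228) (nat_lit 30686428639) (nat_lit 76) (nat_lit 30132945423)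 (nat_lit 32) (nat_lit 5) (nat_lit 35) (nat_lit 5) (nat_lit 33) (nat_lit 4) (nat_lit 427) (nat_lit 366) (nat_lit 227)))) (XT.nd (nat_lit 156) (nat_lit 152) (nat_lit 0) (XT.nd (nat_lit 78) (nat_lit 0) (nat_lit 0) (XT.lf (nat_lit 0) (nat_lit 15702353930) (nat_lit 76) (nat_lit 37364556988) (nat_lit 152) (nat_lit 41470485323) (nat_lit 31) (nat_lit 5) (nat_lit 32) (nat_lit 5) (nat_lit 33) (nat_lit 4) (nat_lit 428) (nat_lit 366) (nat_lit 226)) (XT.lf (nat_lit 0) (nat_lit 65470792791) (nat_lit 76) (nat_lit 11875743530) (nat_lit 152) (nat_lit 20611366067) (nat_lit 31) (nat_lit 5) (nat_lit 32) (nat_lit 5) (nat_lit 33) (nat_lit 4) (nat_lit 429) (nat_lit 366) (nat_lit 225))) (XT.nd (nat_lit 78) (nat_lit 0) (nat_lit 0) (XT.lf (nat_lit 0) (nat_lit 1744270382) (nat_lit 152) (nat_lit 85085361562) (nat_lit 76) (nat_lit 14694051025) (nat_lit 29) (nat_lit 5) (nat_lit 31) (nat_lit 5) (nat_lit 30) (nat_lit 4)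 (nat_lit 430) (nat_lit 366) (nat_lit 224)) (XT.lf (nat_lit 0) (nat_lit 25276252172) (nat_lit 152) (nat_lit 36848939452) (nat_lit 76) (nat_lit 43088104652) (nat_lit 29) (nat_lit 5) (nat_lit 31) (nat_lit 5) (nat_lit 30) (nat_lit 4) (nat_lit 431) (nat_lit 366) (nat_lit 223)))))) (XT.nd (nat_lit 546) (nat_lit 380) (nat_lit 0) (XT.nd (nat_lit 234) (nat_lit 152) (nat_lit 0) (XT.nd (nat_lit 78) (nat_lit 76) (nat_lit 0) (XT.lf (nat_lit 0) (nat_lit 14250647598) (nat_lit 76) (nat_lit 35954156009) (nat_lit 152) (nat_lit 58871588389) (nat_lit 28) (nat_lit 5) (nat_lit 29) (nat_lit 5) (nat_lit 30) (nat_lit 4) (nat_lit 432) (nat_lit 366) (nat_lit 222)) (XT.nd (nat_lit 78) (nat_lit 76) (nat_lit 0) (XT.lf (nat_lit 0) (nat_lit 69179836956) (nat_lit 76) (nat_lit 7821525172) (nat_lit 152) (nat_lit 36100201659) (nat_lit 28) (nat_lit 5) (nat_lit 29) (nat_lit 5) (nat_lit 30) (nat_lit 4) (nat_lit 433) (nat_lit 366)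 (nat_lit 221)) (XT.lf (nat_lit 0) (nat_lit 9487526033) (nat_lit 76) (nat_lit 96135033992) (nat_lit 76) (nat_lit 11681193821) (nat_lit 27) (nat_lit 4) (nat_lit 28) (nat_lit 5) (nat_lit 28) (nat_lit 4) (nat_lit 434) (nat_lit 366) (nat_lit 220)))) (XT.nd (nat_lit 156) (nat_lit 0) (nat_lit 0) (XT.nd (nat_lit 78) (nat_lit 76) (nat_lit 0) (XT.lf (nat_lit 0) (nat_lit 14393863276) (nat_lit 152) (nat_lit 54949664692) (nat_lit 76) (nat_lit 52317535570) (nat_lit 26) (nat_lit 5) (nat_lit 28) (nat_lit 5) (nat_lit 27) (nat_lit 4) (nat_lit 435) (nat_lit 366) (nat_lit 219)) (XT.lf (nat_lit 0) (nat_lit 376440427) (nat_lit 76) (nat_lit 41007274005) (nat_lit 152) (nat_lit 84842769453) (nat_lit 25) (nat_lit 5) (nat_lit 26) (nat_lit 5) (nat_lit 27) (nat_lit 4) (nat_lit 436) (nat_lit 366) (nat_lit 218))) (XT.nd (nat_lit 78) (nat_lit 0) (nat_lit 0) (XT.lf (nat_lit 0) (nat_lit 60372309452) (nat_lit 76) (nat_lit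 10279117976) (nat_lit 152) (nat_lit 60322329561) (nat_lit 25) (nat_lit 5) (nat_lit 26) (nat_lit 5) (nat_lit 27) (nat_lit 4) (nat_lit 437) (nat_lit 366) (nat_lit 217)) (XT.lf (nat_lit 0) (nat_lit 101723626479) (nat_lit 152) (nat_lit 12937818609) (nat_lit 0) (nat_lit 21279893839) (nat_lit 25) (nat_lit 5) (nat_lit 27) (nat_lit 4) (nat_lit 25) (nat_lit 4) (nat_lit 438) (nat_lit 366) (nat_lit 216))))) (XT.nd (nat_lit 234) (nat_lit 152) (nat_lit 0) (XT.nd (nat_lit 78) (nat_lit 152) (nat_lit 0) (XT.lf (nat_lit 0) (nat_lit 49005002655) (nat_lit 76) (nat_lit 86275996935) (nat_lit 76) (nat_lit 5829722350) (nat_lit 24) (nat_lit 4) (nat_lit 25) (nat_lit 5) (nat_lit 25) (nat_lit 4) (nat_lit 439) (nat_lit 366) (nat_lit 215)) (XT.nd (nat_lit 78) (nat_lit 76) (nat_lit 0) (XT.lf (nat_lit 0) (nat_lit 23430884757) (nat_lit 152) (nat_lit 32415381732) (nat_lit 76) (nat_lit 90662557225) (nat_lit 23) (nat_lit 5)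 (nat_lit 25) (nat_lit 5) (nat_lit 24) (nat_lit 4) (nat_lit 440) (nat_lit 366) (nat_lit 214)) (XT.lf (nat_lit 0) (nat_lit 31157372704) (nat_lit 76) (nat_lit 23285736470) (nat_lit 152) (nat_lit 97704717911) (nat_lit 22) (nat_lit 5) (nat_lit 23) (nat_lit 5) (nat_lit 24) (nat_lit 4) (nat_lit 441) (nat_lit 366) (nat_lit 213)))) (XT.nd (nat_lit 156) (nat_lit 76) (nat_lit 0) (XT.nd (nat_lit 78) (nat_lit 76) (nat_lit 0) (XT.lf (nat_lit 0) (nat_lit 87732195225) (nat_lit 152) (nat_lit 59190170122) (nat_lit 0) (nat_lit 11110102909) (nat_lit 22) (nat_lit 5) (nat_lit 24) (nat_lit 4) (nat_lit 22) (nat_lit 4) (nat_lit 442) (nat_lit 366) (nat_lit 212)) (XT.lf (nat_lit 0) (nat_lit 5490537265) (nat_lit 76) (nat_lit 117660804039) (nat_lit 76) (nat_lit 41036720042) (nat_lit 21) (nat_lit 4) (nat_lit 22) (nat_lit 5) (nat_lit 22) (nat_lit 4) (nat_lit 443) (nat_lit 366) (nat_lit 211))) (XT.nd (nat_lit 78) (nat_lit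 76) (nat_lit 0) (XT.lf (nat_lit 0) (nat_lit 75456697782) (nat_lit 76) (nat_lit 85885343721) (nat_lit 76) (nat_lit 9259362886) (nat_lit 21) (nat_lit 4) (nat_lit 22) (nat_lit 5) (nat_lit 22) (nat_lit 4) (nat_lit 444) (nat_lit 366) (nat_lit 210)) (XT.lf (nat_lit 0) (nat_lit 23333532673) (nat_lit 152) (nat_lit 28794045367) (nat_lit 76) (nat_lit 125189105851) (nat_lit 20) (nat_lit 5) (nat_lit 22) (nat_lit 5) (nat_lit 21) (nat_lit 4) (nat_lit 445) (nat_lit 366) (nat_lit 209))))))) (XT.nd (nat_lit 1014) (nat_lit 304) (nat_lit 0) (XT.nd (nat_lit 468) (nat_lit 228) (nat_lit 0) (XT.nd (nat_lit 234) (nat_lit 228) (nat_lit 0) (XT.nd (nat_lit 78) (nat_lit 0) (nat_lit 0) (XT.lf (nat_lit 0) (nat_lit 42065454853) (nat_lit 76) (nat_lit 15834526946) (nat_lit 152) (nat_lit 126427401843) (nat_lit 19) (nat_lit 5) (nat_lit 20) (nat_lit 5) (nat_lit 21) (nat_lit 4) (nat_lit 446) (nat_lit 366) (nat_lit 208)) (XT.nd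 (nat_lit 78) (nat_lit 0) (nat_lit 0) (XT.lf (nat_lit 0) (nat_lit 95036465134) (nat_lit 152) (nat_lit 74555646827) (nat_lit 0) (nat_lit 22054420947) (nat_lit 19) (nat_lit 5) (nat_lit 21) (nat_lit 4) (nat_lit 19) (nat_lit 4) (nat_lit 447) (nat_lit 366) (nat_lit 207)) (XT.lf (nat_lit 0) (nat_lit 134287764412) (nat_lit 152) (nat_lit 3726741742) (nat_lit 0) (nat_lit 61304234002) (nat_lit 19) (nat_lit 5) (nat_lit 21) (nat_lit 4) (nat_lit 19) (nat_lit 4) (nat_lit 448) (nat_lit 366) (nat_lit 206)))) (XT.nd (nat_lit 78) (nat_lit 152) (nat_lit 0) (XT.lf (nat_lit 0) (nat_lit 72976346902) (nat_lit 76) (nat_lit 103663132155) (nat_lit 76) (nat_lit 30678186295) (nat_lit 18) (nat_lit 4) (nat_lit 19) (nat_lit 5) (nat_lit 19) (nat_lit 4) (nat_lit 449) (nat_lit 366) (nat_lit 205)) (XT.nd (nat_lit 78) (nat_lit 76) (nat_lit 0) (XT.lf (nat_lit 0) (nat_lit 5282293301) (nat_lit 152) (nat_lit 62157592640) (nat_lit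 76) (nat_lit 148269309753) (nat_lit 17) (nat_lit 5) (nat_lit 19) (nat_lit 5) (nat_lit 18) (nat_lit 4) (nat_lit 450) (nat_lit 366) (nat_lit 204)) (XT.lf (nat_lit 0) (nat_lit 13563699658) (nat_lit 76) (nat_lit 28656435669) (nat_lit 152) (nat_lit 182264504929) (nat_lit 16) (nat_lit 5) (nat_lit 17) (nat_lit 5) (nat_lit 18) (nat_lit 4) (nat_lit 451) (nat_lit 366) (nat_lit 203))))) (XT.nd (nat_lit 234) (nat_lit 152) (nat_lit 0) (XT.nd (nat_lit 78) (nat_lit 76) (nat_lit 0) (XT.lf (nat_lit 0) (nat_lit 82261745552) (nat_lit 152) (nat_lit 138625665537) (nat_lit 0) (nat_lit 12748602235) (nat_lit 16) (nat_lit 5) (nat_lit 18) (nat_lit 4) (nat_lit 16) (nat_lit 4) (nat_lit 452) (nat_lit 366) (nat_lit 202)) (XT.nd (nat_lit 78) (nat_lit 76) (nat_lit 0) (XT.lf (nat_lit 0) (nat_lit 124773845660) (nat_lit 152) (nat_lit 63188095698) (nat_lit 0) (nat_lit 55259593302) (nat_lit 16) (nat_lit 5) (nat_lit 18) (nat_lit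 4) (nat_lit 16) (nat_lit 4) (nat_lit 453) (nat_lit 366) (nat_lit 201)) (XT.lf (nat_lit 0) (nat_lit 16548442972) (nat_lit 76) (nat_lit 153120172266) (nat_lit 76) (nat_lit 83604863677) (nat_lit 15) (nat_lit 4) (nat_lit 16) (nat_lit 5) (nat_lit 16) (nat_lit 4) (nat_lit 454) (nat_lit 366) (nat_lit 200)))) (XT.nd (nat_lit 156) (nat_lit 152) (nat_lit 0) (XT.nd (nat_lit 78) (nat_lit 0) (nat_lit 0) (XT.lf (nat_lit 0) (nat_lit 102463034738) (nat_lit 76) (nat_lit 115413929108) (nat_lit 76) (nat_lit 45897614585) (nat_lit 15) (nat_lit 4) (nat_lit 16) (nat_lit 5) (nat_lit 16) (nat_lit 4) (nat_lit 455) (nat_lit 366) (nat_lit 199)) (XT.lf (nat_lit 0) (nat_lit 192670954339) (nat_lit 76) (nat_lit 75823556091) (nat_lit 76) (nat_lit 6306283536) (nat_lit 15) (nat_lit 4) (nat_lit 16) (nat_lit 5) (nat_lit 16) (nat_lit 4) (nat_lit 456) (nat_lit 366) (nat_lit 198))) (XT.nd (nat_lit 78) (nat_lit 0) (nat_lit 0) (XT.lf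 (nat_lit 0) (nat_lit 473188703) (nat_lit 76) (nat_lit 33668944794) (nat_lit 152) (nat_lit 252208347504) (nat_lit 13) (nat_lit 5) (nat_lit 14) (nat_lit 5) (nat_lit 15) (nat_lit 4) (nat_lit 457) (nat_lit 366) (nat_lit 197)) (XT.lf (nat_lit 0) (nat_lit 77978964236) (nat_lit 152) (nat_lit 208644281417) (nat_lit 0) (nat_lit 11770341445) (nat_lit 13) (nat_lit 5) (nat_lit 15) (nat_lit 4) (nat_lit 13) (nat_lit 4) (nat_lit 458) (nat_lit 366) (nat_lit 196)))))) (XT.nd (nat_lit 546) (nat_lit 76) (nat_lit 0) (XT.nd (nat_lit 234) (nat_lit 152) (nat_lit 0) (XT.nd (nat_lit 78) (nat_lit 76) (nat_lit 0) (XT.lf (nat_lit 0) (nat_lit 124558464867) (nat_lit 152) (nat_lit 128103788373) (nat_lit 0) (nat_lit 58349053900) (nat_lit 13) (nat_lit 5) (nat_lit 15) (nat_lit 4) (nat_lit 13) (nat_lit 4) (nat_lit 459) (nat_lit 366) (nat_lit 195)) (XT.nd (nat_lit 78) (nat_lit 76) (nat_lit 0) (XT.lf (nat_lit 0) (nat_lit 173465872377)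 (nat_lit 152) (nat_lit 43538383502) (nat_lit 0) (nat_lit 107255710767) (nat_lit 13) (nat_lit 5) (nat_lit 15) (nat_lit 4) (nat_lit 13) (nat_lit 4) (nat_lit 460) (nat_lit 366) (nat_lit 194)) (XT.lf (nat_lit 0) (nat_lit 46749557183) (nat_lit 76) (nat_lit 178797967395) (nat_lit 76) (nat_lit 112587090887) (nat_lit 12) (nat_lit 4) (nat_lit 13) (nat_lit 5) (nat_lit 13) (nat_lit 4) (nat_lit 461) (nat_lit 366) (nat_lit 193)))) (XT.nd (nat_lit 156) (nat_lit 152) (nat_lit 0) (XT.nd (nat_lit 78) (nat_lit 0) (nat_lit 0) (XT.lf (nat_lit 0) (nat_lit 143061469506) (nat_lit 76) (nat_lit 137908133720) (nat_lit 76) (nat_lit 71696576356) (nat_lit 12) (nat_lit 4) (nat_lit 13) (nat_lit 5) (nat_lit 13) (nat_lit 4) (nat_lit 462) (nat_lit 366) (nat_lit 192)) (XT.lf (nat_lit 0) (nat_lit 244187091960) (nat_lit 76) (nat_lit 94974741700) (nat_lit 76) (nat_lit 28762535902) (nat_lit 12) (nat_lit 4) (nat_lit 13) (nat_lit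 5) (nat_lit 13) (nat_lit 4) (nat_lit 463) (nat_lit 366) (nat_lit 191))) (XT.nd (nat_lit 78) (nat_lit 76) (nat_lit 0) (XT.lf (nat_lit 0) (nat_lit 15795000339) (nat_lit 152) (nat_lit 33833072659) (nat_lit 76) (nat_lit 334304703523) (nat_lit 11) (nat_lit 5) (nat_lit 13) (nat_lit 5) (nat_lit 12) (nat_lit 4) (nat_lit 464) (nat_lit 366) (nat_lit 190)) (XT.lf (nat_lit 0) (nat_lit 62080035112) (nat_lit 76) (nat_lit 502133968) (nat_lit 152) (nat_lit 338087440664) (nat_lit 10) (nat_lit 5) (nat_lit 11) (nat_lit 5) (nat_lit 12) (nat_lit 4) (nat_lit 465) (nat_lit 366) (nat_lit 189))))) (XT.nd (nat_lit 234) (nat_lit 76) (nat_lit 0) (XT.nd (nat_lit 78) (nat_lit 0) (nat_lit 0) (XT.lf (nat_lit 0) (nat_lit 113087696378) (nat_lit 152) (nat_lit 255059867283) (nat_lit 0) (nat_lit 50026771002) (nat_lit 10) (nat_lit 5) (nat_lit 12) (nat_lit 4) (nat_lit 10) (nat_lit 4) (nat_lit 466) (nat_lit 366) (nat_lit 188))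 (XT.nd (nat_lit 78) (nat_lit 0) (nat_lit 0) (XT.lf (nat_lit 0) (nat_lit 166125897471) (nat_lit 152) (nat_lit 167363564493) (nat_lit 0) (nat_lit 103064464030) (nat_lit 10) (nat_lit 5) (nat_lit 12) (nat_lit 4) (nat_lit 10) (nat_lit 4) (nat_lit 467) (nat_lit 366) (nat_lit 187)) (XT.lf (nat_lit 0) (nat_lit 221815214071) (nat_lit 152) (nat_lit 75284025823) (nat_lit 0) (nat_lit 158753296759) (nat_lit 10) (nat_lit 5) (nat_lit 12) (nat_lit 4) (nat_lit 10) (nat_lit 4) (nat_lit 468) (nat_lit 366) (nat_lit 186)))) (XT.nd (nat_lit 156) (nat_lit 0) (nat_lit 0) (XT.nd (nat_lit 78) (nat_lit 0) (nat_lit 0) (XT.lf (nat_lit 0) (nat_lit 22105499767) (nat_lit 76) (nat_lit 258527868825) (nat_lit 76) (nat_lit 195465490682) (nat_lit 9) (nat_lit 4) (nat_lit 10) (nat_lit 5) (nat_lit 10) (nat_lit 4) (nat_lit 469) (nat_lit 366) (nat_lit 185)) (XT.lf (nat_lit 0) (nat_lit 126976713220) (nat_lit 76) (nat_lit 216689945243)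 (nat_lit 76) (nat_lit 153627128215) (nat_lit 9) (nat_lit 4) (nat_lit 10) (nat_lit 5) (nat_lit 10) (nat_lit 4) (nat_lit 470) (nat_lit 366) (nat_lit 184))) (XT.nd (nat_lit 78) (nat_lit 0) (nat_lit 0) (XT.lf (nat_lit 0) (nat_lit 237090078015) (nat_lit 76) (nat_lit 172760826450) (nat_lit 76) (nat_lit 109697591435) (nat_lit 9) (nat_lit 4) (nat_lit 10) (nat_lit 5) (nat_lit 10) (nat_lit 4) (nat_lit 471) (nat_lit 366) (nat_lit 183)) (XT.lf (nat_lit 0) (nat_lit 352707768829) (nat_lit 76) (nat_lit 126635919306) (nat_lit 76) (nat_lit 63572286210) (nat_lit 9) (nat_lit 4) (nat_lit 10) (nat_lit 5) (nat_lit 10) (nat_lit 4) (nat_lit 472) (nat_lit 366) (nat_lit 182))))))))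
noncomputable def xc161 : XT := (XT.nd (nat_lit 46332) (nat_lit 0) (nat_lit 3116) (XT.nd (nat_lit 45240) (nat_lit 0) (nat_lit 6840) (XT.nd (nat_lit 468) (nat_lit 0) (nat_lit 0) (XT.nd (nat_lit 234) (nat_lit 0) (nat_lit 0) (XT.nd (nat_lit 78) (nat_lit 152) (nat_lit 0) (XT.lf (nat_lit 0) (nat_lit 474105065879) (nat_lit 76) (nat_lit 78205402604) (nat_lit 76) (nat_lit 15141390382) (nat_lit 9) (nat_lit 4) (nat_lit 10) (nat_lit 5) (nat_lit 10) (nat_lit 4) (nat_lit 473) (nat_lit 366) (nat_lit 181)) (XT.nd (nat_lit 78) (nat_lit 0) (nat_lit 0) (XT.lf (nat_lit 0) (nat_lit 8056769511) (nat_lit 76) (nat_lit 26636470881) (nat_lit 152) (nat_lit 558487161425) (nat_lit 7) (nat_lit 5) (nat_lit 8) (nat_lit 5) (nat_lit 9) (nat_lit 4) (nat_lit 474) (nat_lit 366) (nat_lit 180)) (XT.lf (nat_lit 0) (nat_lit 88546443287) (nat_lit 152) (nat_lit 503049925267) (nat_lit 0) (nat_lit 28484807884) (nat_lit 7) (nat_lit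 5) (nat_lit 9) (nat_lit 4) (nat_lit 7) (nat_lit 4) (nat_lit 475) (nat_lit 366) (nat_lit 179)))) (XT.nd (nat_lit 78) (nat_lit 0) (nat_lit 0) (XT.lf (nat_lit 0) (nat_lit 145528378507) (nat_lit 152) (nat_lit 417310376498) (nat_lit 0) (nat_lit 85466431197) (nat_lit 7) (nat_lit 5) (nat_lit 9) (nat_lit 4) (nat_lit 7) (nat_lit 4) (nat_lit 476) (nat_lit 366) (nat_lit 178)) (XT.nd (nat_lit 78) (nat_lit 0) (nat_lit 0) (XT.lf (nat_lit 0) (nat_lit 205358847369) (nat_lit 152) (nat_lit 327284974261) (nat_lit 0) (nat_lit 145296603003) (nat_lit 7) (nat_lit 5) (nat_lit 9) (nat_lit 4) (nat_lit 7) (nat_lit 4) (nat_lit 477) (nat_lit 366) (nat_lit 177)) (XT.lf (nat_lit 0) (nat_lit 268180303370) (nat_lit 152) (nat_lit 232759372358) (nat_lit 0) (nat_lit 208117776094) (nat_lit 7) (nat_lit 5) (nat_lit 9) (nat_lit 4) (nat_lit 7) (nat_lit 4) (nat_lit 478) (nat_lit 366) (nat_lit 176))))) (XT.nd (nat_lit 44460) (nat_lit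 0) (nat_lit 8436) (XT.nd (nat_lit 78) (nat_lit 0) (nat_lit 0) (XT.lf (nat_lit 0) (nat_lit 334142321404) (nat_lit 152) (nat_lit 133508509833) (nat_lit 0) (nat_lit 274079524690) (nat_lit 7) (nat_lit 5) (nat_lit 9) (nat_lit 4) (nat_lit 7) (nat_lit 4) (nat_lit 479) (nat_lit 366) (nat_lit 175)) (XT.nd (nat_lit 44304) (nat_lit 0) (nat_lit 8436) (XT.lf (nat_lit 0) (nat_lit 403401953896) (nat_lit 152) (nat_lit 29296075108) (nat_lit 0) (nat_lit 343338900575) (nat_lit 7) (nat_lit 5) (nat_lit 9) (nat_lit 4) (nat_lit 7) (nat_lit 4) (nat_lit 480) (nat_lit 366) (nat_lit 174)) (XT.lf (nat_lit 0) (nat_lit 221346736) (nat_lit 836) (nat_lit 3733313021) (nat_lit 836) (nat_lit 3733313021) (nat_lit 118) (nat_lit 3) (nat_lit 129) (nat_lit 3) (nat_lit 129) (nat_lit 5) (nat_lit 367) (nat_lit 367) (nat_lit 286)))) (XT.nd (nat_lit 156) (nat_lit 0) (nat_lit 76) (XT.nd (nat_lit 78) (nat_lit 0) (nat_lit 76) (XT.lf (nat_lit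 76) (nat_lit 5649106) (nat_lit 0) (nat_lit 725100542) (nat_lit 836) (nat_lit 15015593655) (nat_lit 119) (nat_lit 5) (nat_lit 118) (nat_lit 3) (nat_lit 129) (nat_lit 5) (nat_lit 368) (nat_lit 367) (nat_lit 285)) (XT.lf (nat_lit 0) (nat_lit 1250439397) (nat_lit 760) (nat_lit 8137352921) (nat_lit 836) (nat_lit 6736616774) (nat_lit 119) (nat_lit 5) (nat_lit 129) (nat_lit 5) (nat_lit 130) (nat_lit 5) (nat_lit 369) (nat_lit 367) (nat_lit 284))) (XT.nd (nat_lit 78) (nat_lit 0) (nat_lit 76) (XT.lf (nat_lit 0) (nat_lit 1791099236) (nat_lit 760) (nat_lit 175875041) (nat_lit 836) (nat_lit 14554663847) (nat_lit 119) (nat_lit 5) (nat_lit 129) (nat_lit 5) (nat_lit 130) (nat_lit 5) (nat_lit 370) (nat_lit 367) (nat_lit 283)) (XT.lf (nat_lit 0) (nat_lit 2567739121) (nat_lit 760) (nat_lit 8581868744) (nat_lit 836) (nat_lit 5778682183) (nat_lit 120) (nat_lit 5) (nat_lit 130) (nat_lit 5) (nat_lit 131) (nat_lit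 5) (nat_lit 371) (nat_lit 367) (nat_lit 282)))))) (XT.nd (nat_lit 546) (nat_lit 1216) (nat_lit 0) (XT.nd (nat_lit 234) (nat_lit 532) (nat_lit 0) (XT.nd (nat_lit 78) (nat_lit 0) (nat_lit 76) (XT.lf (nat_lit 0) (nat_lit 3403098738) (nat_lit 760) (nat_lit 96861780) (nat_lit 836) (nat_lit 13854328038) (nat_lit 120) (nat_lit 5) (nat_lit 130) (nat_lit 5) (nat_lit 131) (nat_lit 5) (nat_lit 372) (nat_lit 367) (nat_lit 281)) (XT.nd (nat_lit 78) (nat_lit 0) (nat_lit 0) (XT.lf (nat_lit 0) (nat_lit 4480711576) (nat_lit 760) (nat_lit 8774830281) (nat_lit 836) (nat_lit 4536028847) (nat_lit 121) (nat_lit 5) (nat_lit 131) (nat_lit 5) (nat_lit 132) (nat_lit 5) (nat_lit 373) (nat_lit 367) (nat_lit 280)) (XT.lf (nat_lit 76) (nat_lit 279794661) (nat_lit 0) (nat_lit 5381784256) (nat_lit 836) (nat_lit 12586676945) (nat_lit 122) (nat_lit 5) (nat_lit 121) (nat_lit 5) (nat_lit 132) (nat_lit 5) (nat_lit 374) (nat_lit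 367) (nat_lit 279)))) (XT.nd (nat_lit 156) (nat_lit 684) (nat_lit 0) (XT.nd (nat_lit 78) (nat_lit 0) (nat_lit 0) (XT.lf (nat_lit 0) (nat_lit 7084103756) (nat_lit 760) (nat_lit 8687113258) (nat_lit 836) (nat_lit 2947434791) (nat_lit 122) (nat_lit 5) (nat_lit 132) (nat_lit 5) (nat_lit 133) (nat_lit 5) (nat_lit 375) (nat_lit 367) (nat_lit 278)) (XT.lf (nat_lit 76) (nat_lit 991257787) (nat_lit 0) (nat_lit 7677360011) (nat_lit 836) (nat_lit 10539413489) (nat_lit 123) (nat_lit 5) (nat_lit 122) (nat_lit 5) (nat_lit 133) (nat_lit 5) (nat_lit 376) (nat_lit 367) (nat_lit 277))) (XT.nd (nat_lit 78) (nat_lit 760) (nat_lit 0) (XT.lf (nat_lit 0) (nat_lit 10482352455) (nat_lit 760) (nat_lit 8285644471) (nat_lit 76) (nat_lit 946389635) (nat_lit 123) (nat_lit 5) (nat_lit 133) (nat_lit 5) (nat_lit 124) (nat_lit 5) (nat_lit 377) (nat_lit 367) (nat_lit 276)) (XT.lf (nat_lit 0) (nat_lit 2071992485) (nat_lit 760)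 (nat_lit 10461219385) (nat_lit 836) (nat_lit 7705532076) (nat_lit 113) (nat_lit 5) (nat_lit 123) (nat_lit 5) (nat_lit 124) (nat_lit 5) (nat_lit 378) (nat_lit 367) (nat_lit 275))))) (XT.nd (nat_lit 234) (nat_lit 836) (nat_lit 0) (XT.nd (nat_lit 78) (nat_lit 380) (nat_lit 0) (XT.lf (nat_lit 0) (nat_lit 13224832758) (nat_lit 760) (nat_lit 1590732030) (nat_lit 836) (nat_lit 5967312837) (nat_lit 113) (nat_lit 5) (nat_lit 123) (nat_lit 5) (nat_lit 124) (nat_lit 5) (nat_lit 379) (nat_lit 367) (nat_lit 274)) (XT.nd (nat_lit 78) (nat_lit 0) (nat_lit 0) (XT.lf (nat_lit 0) (nat_lit 3564183502) (nat_lit 380) (nat_lit 13813266755) (nat_lit 456) (nat_lit 3968502654) (nat_lit 108) (nat_lit 5) (nat_lit 113) (nat_lit 5) (nat_lit 114) (nat_lit 5) (nat_lit 380) (nat_lit 367) (nat_lit 273)) (XT.lf (nat_lit 0) (nat_lit 15467741944) (nat_lit 380) (nat_lit 4742885224) (nat_lit 456) (nat_lit 1719400334) (nat_lit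 108) (nat_lit 5) (nat_lit 113) (nat_lit 5) (nat_lit 114) (nat_lit 5) (nat_lit 381) (nat_lit 367) (nat_lit 272)))) (XT.nd (nat_lit 156) (nat_lit 380) (nat_lit 0) (XT.nd (nat_lit 78) (nat_lit 0) (nat_lit 0) (XT.lf (nat_lit 0) (nat_lit 774859546) (nat_lit 456) (nat_lit 17033493177) (nat_lit 76) (nat_lit 4726793927) (nat_lit 102) (nat_lit 5) (nat_lit 108) (nat_lit 5) (nat_lit 103) (nat_lit 5) (nat_lit 382) (nat_lit 367) (nat_lit 271)) (XT.lf (nat_lit 0) (nat_lit 3515233732) (nat_lit 456) (nat_lit 4995059456) (nat_lit 76) (nat_lit 14649864665) (nat_lit 102) (nat_lit 5) (nat_lit 108) (nat_lit 5) (nat_lit 103) (nat_lit 5) (nat_lit 383) (nat_lit 367) (nat_lit 270))) (XT.nd (nat_lit 78) (nat_lit 0) (nat_lit 0) (XT.lf (nat_lit 0) (nat_lit 6528008127) (nat_lit 456) (nat_lit 15944470630) (nat_lit 76) (nat_lit 1337176226) (nat_lit 97) (nat_lit 5) (nat_lit 103) (nat_lit 5) (nat_lit 98) (nat_lit 5) (nat_lit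 384) (nat_lit 367) (nat_lit 269)) (XT.lf (nat_lit 0) (nat_lit 9907858682) (nat_lit 456) (nat_lit 3096650349) (nat_lit 76) (nat_lit 11476300296) (nat_lit 97) (nat_lit 5) (nat_lit 103) (nat_lit 5) (nat_lit 98) (nat_lit 5) (nat_lit 385) (nat_lit 367) (nat_lit 268))))))) (XT.nd (nat_lit 1014) (nat_lit 1520) (nat_lit 0) (XT.nd (nat_lit 468) (nat_lit 988) (nat_lit 0) (XT.nd (nat_lit 234) (nat_lit 608) (nat_lit 0) (XT.nd (nat_lit 78) (nat_lit 304) (nat_lit 0) (XT.lf (nat_lit 0) (nat_lit 10727172879) (nat_lit 304) (nat_lit 2888385264) (nat_lit 380) (nat_lit 11562024455) (nat_lit 93) (nat_lit 5) (nat_lit 97) (nat_lit 5) (nat_lit 98) (nat_lit 5) (nat_lit 386) (nat_lit 367) (nat_lit 267)) (XT.nd (nat_lit 78) (nat_lit 304) (nat_lit 0) (XT.lf (nat_lit 0) (nat_lit 17674305556) (nat_lit 380) (nat_lit 688449377) (nat_lit 76) (nat_lit 7538160286) (nat_lit 93) (nat_lit 5) (nat_lit 98) (nat_lit 5) (nat_lit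 94) (nat_lit 5) (nat_lit 387) (nat_lit 367) (nat_lit 266)) (XT.lf (nat_lit 0) (nat_lit 14157903589) (nat_lit 304) (nat_lit 8038498713) (nat_lit 380) (nat_lit 4450995226) (nat_lit 89) (nat_lit 5) (nat_lit 93) (nat_lit 5) (nat_lit 94) (nat_lit 5) (nat_lit 388) (nat_lit 367) (nat_lit 265)))) (XT.nd (nat_lit 78) (nat_lit 380) (nat_lit 0) (XT.lf (nat_lit 0) (nat_lit 2361800212) (nat_lit 228) (nat_lit 24667501186) (nat_lit 304) (nat_lit 397671158) (nat_lit 86) (nat_lit 5) (nat_lit 89) (nat_lit 5) (nat_lit 90) (nat_lit 5) (nat_lit 389) (nat_lit 367) (nat_lit 264)) (XT.nd (nat_lit 78) (nat_lit 304) (nat_lit 0) (XT.lf (nat_lit 0) (nat_lit 4073910807) (nat_lit 304) (nat_lit 10050979271) (nat_lit 76) (nat_lit 14100673356) (nat_lit 85) (nat_lit 5) (nat_lit 89) (nat_lit 5) (nat_lit 86) (nat_lit 5) (nat_lit 390) (nat_lit 367) (nat_lit 263)) (XT.lf (nat_lit 0) (nat_lit 5886465528) (nat_lit 304) (nat_lit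 2953832152) (nat_lit 380) (nat_lit 20219233713) (nat_lit 81) (nat_lit 5) (nat_lit 85) (nat_lit 5) (nat_lit 86) (nat_lit 5) (nat_lit 391) (nat_lit 367) (nat_lit 262))))) (XT.nd (nat_lit 234) (nat_lit 760) (nat_lit 0) (XT.nd (nat_lit 78) (nat_lit 228) (nat_lit 0) (XT.lf (nat_lit 0) (nat_lit 14147885267) (nat_lit 380) (nat_lit 7106279447) (nat_lit 76) (nat_lit 8665891830) (nat_lit 81) (nat_lit 5) (nat_lit 86) (nat_lit 5) (nat_lit 82) (nat_lit 5) (nat_lit 392) (nat_lit 367) (nat_lit 261)) (XT.nd (nat_lit 78) (nat_lit 0) (nat_lit 0) (XT.lf (nat_lit 0) (nat_lit 10027294560) (nat_lit 228) (nat_lit 9891733617) (nat_lit 304) (nat_lit 10894673704) (nat_lit 78) (nat_lit 5) (nat_lit 81) (nat_lit 5) (nat_lit 82) (nat_lit 5) (nat_lit 393) (nat_lit 367) (nat_lit 260)) (XT.lf (nat_lit 0) (nat_lit 26126228142) (nat_lit 304) (nat_lit 3524771057) (nat_lit 76) (nat_lit 2093657889) (nat_lit 78) (nat_lit 5) (nat_lit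 82) (nat_lit 5) (nat_lit 79) (nat_lit 5) (nat_lit 394) (nat_lit 367) (nat_lit 259)))) (XT.nd (nat_lit 156) (nat_lit 228) (nat_lit 0) (XT.nd (nat_lit 78) (nat_lit 228) (nat_lit 0) (XT.lf (nat_lit 0) (nat_lit 319053087) (nat_lit 304) (nat_lit 17801782156) (nat_lit 76) (nat_lit 14581642515) (nat_lit 74) (nat_lit 5) (nat_lit 78) (nat_lit 5) (nat_lit 75) (nat_lit 5) (nat_lit 395) (nat_lit 367) (nat_lit 258)) (XT.lf (nat_lit 0) (nat_lit 581278606) (nat_lit 228) (nat_lit 5846789560) (nat_lit 304) (nat_lit 27272344520) (nat_lit 71) (nat_lit 5) (nat_lit 74) (nat_lit 5) (nat_lit 75) (nat_lit 5) (nat_lit 396) (nat_lit 367) (nat_lit 257))) (XT.nd (nat_lit 78) (nat_lit 228) (nat_lit 0) (XT.lf (nat_lit 0) (nat_lit 13252736890) (nat_lit 304) (nat_lit 14355480970) (nat_lit 76) (nat_lit 7119518491) (nat_lit 71) (nat_lit 5) (nat_lit 75) (nat_lit 5) (nat_lit 72) (nat_lit 5) (nat_lit 397) (nat_lit 367) (nat_lit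 256)) (XT.lf (nat_lit 0) (nat_lit 5415286519) (nat_lit 228) (nat_lit 15177891890) (nat_lit 304) (nat_lit 15204522856) (nat_lit 68) (nat_lit 5) (nat_lit 71) (nat_lit 5) (nat_lit 72) (nat_lit 5) (nat_lit 398) (nat_lit 367) (nat_lit 255)))))) (XT.nd (nat_lit 546) (nat_lit 684) (nat_lit 0) (XT.nd (nat_lit 234) (nat_lit 608) (nat_lit 0) (XT.nd (nat_lit 78) (nat_lit 228) (nat_lit 0) (XT.lf (nat_lit 0) (nat_lit 26664577789) (nat_lit 228) (nat_lit 1873471492) (nat_lit 304) (nat_lit 8371246719) (nat_lit 68) (nat_lit 5) (nat_lit 71) (nat_lit 5) (nat_lit 72) (nat_lit 5) (nat_lit 399) (nat_lit 367) (nat_lit 254)) (XT.nd (nat_lit 78) (nat_lit 76) (nat_lit 0) (XT.lf (nat_lit 0) (nat_lit 11056652021) (nat_lit 152) (nat_lit 26179514196) (nat_lit 228) (nat_lit 822505974) (nat_lit 66) (nat_lit 5) (nat_lit 68) (nat_lit 5) (nat_lit 69) (nat_lit 5) (nat_lit 400) (nat_lit 367) (nat_lit 253)) (XT.lf (nat_lit 0)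 (nat_lit 7077933196) (nat_lit 228) (nat_lit 5630829476) (nat_lit 76) (nat_lit 26541129620) (nat_lit 65) (nat_lit 5) (nat_lit 68) (nat_lit 5) (nat_lit 66) (nat_lit 5) (nat_lit 401) (nat_lit 367) (nat_lit 252)))) (XT.nd (nat_lit 156) (nat_lit 380) (nat_lit 0) (XT.nd (nat_lit 78) (nat_lit 0) (nat_lit 0) (XT.lf (nat_lit 0) (nat_lit 15638375400) (nat_lit 304) (nat_lit 23171133855) (nat_lit 76) (nat_lit 1675860418) (nat_lit 62) (nat_lit 5) (nat_lit 66) (nat_lit 5) (nat_lit 63) (nat_lit 5) (nat_lit 402) (nat_lit 367) (nat_lit 251)) (XT.lf (nat_lit 0) (nat_lit 24927012771) (nat_lit 304) (nat_lit 393688554) (nat_lit 76) (nat_lit 16446912463) (nat_lit 62) (nat_lit 5) (nat_lit 66) (nat_lit 5) (nat_lit 63) (nat_lit 5) (nat_lit 403) (nat_lit 367) (nat_lit 250))) (XT.nd (nat_lit 78) (nat_lit 228) (nat_lit 0) (XT.lf (nat_lit 0) (nat_lit 24292545932) (nat_lit 152) (nat_lit 10761961820) (nat_lit 228) (nat_lit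 8040742517) (nat_lit 60) (nat_lit 5) (nat_lit 62) (nat_lit 5) (nat_lit 63) (nat_lit 5) (nat_lit 404) (nat_lit 367) (nat_lit 249)) (XT.lf (nat_lit 0) (nat_lit 1327339120) (nat_lit 228) (nat_lit 38655954014) (nat_lit 76) (nat_lit 4496710219) (nat_lit 57) (nat_lit 5) (nat_lit 60) (nat_lit 5) (nat_lit 58) (nat_lit 5) (nat_lit 405) (nat_lit 367) (nat_lit 248))))) (XT.nd (nat_lit 234) (nat_lit 532) (nat_lit 0) (XT.nd (nat_lit 78) (nat_lit 152) (nat_lit 0) (XT.lf (nat_lit 0) (nat_lit 11388936257) (nat_lit 228) (nat_lit 13904309130) (nat_lit 76) (nat_lit 20609392526) (nat_lit 57) (nat_lit 5) (nat_lit 60) (nat_lit 5) (nat_lit 58) (nat_lit 5) (nat_lit 406) (nat_lit 367) (nat_lit 247)) (XT.nd (nat_lit 78) (nat_lit 0) (nat_lit 0) (XT.lf (nat_lit 0) (nat_lit 12476920658) (nat_lit 152) (nat_lit 9666972652) (nat_lit 228) (nat_lit 25242998078) (nat_lit 55) (nat_lit 5) (nat_lit 57) (nat_lit 5) (nat_lit 58)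 (nat_lit 5) (nat_lit 407) (nat_lit 367) (nat_lit 246)) (XT.lf (nat_lit 0) (nat_lit 33776713703) (nat_lit 228) (nat_lit 8390142349) (nat_lit 76) (nat_lit 6761496843) (nat_lit 55) (nat_lit 5) (nat_lit 58) (nat_lit 5) (nat_lit 56) (nat_lit 5) (nat_lit 408) (nat_lit 367) (nat_lit 245)))) (XT.nd (nat_lit 156) (nat_lit 304) (nat_lit 0) (XT.nd (nat_lit 78) (nat_lit 76) (nat_lit 0) (XT.lf (nat_lit 0) (nat_lit 19927977814) (nat_lit 152) (nat_lit 26528555414) (nat_lit 228) (nat_lit 4067087422) (nat_lit 53) (nat_lit 5) (nat_lit 55) (nat_lit 5) (nat_lit 56) (nat_lit 5) (nat_lit 409) (nat_lit 367) (nat_lit 244)) (XT.lf (nat_lit 0) (nat_lit 7469547558) (nat_lit 228) (nat_lit 2365872571) (nat_lit 76) (nat_lit 42350312025) (nat_lit 52) (nat_lit 5) (nat_lit 55) (nat_lit 5) (nat_lit 53) (nat_lit 5) (nat_lit 410) (nat_lit 367) (nat_lit 243))) (XT.nd (nat_lit 78) (nat_lit 152) (nat_lit 0) (XT.lf (nat_lit 0)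 (nat_lit 20009395375) (nat_lit 228) (nat_lit 25932824960) (nat_lit 76) (nat_lit 7957243056) (nat_lit 50) (nat_lit 5) (nat_lit 53) (nat_lit 5) (nat_lit 51) (nat_lit 5) (nat_lit 411) (nat_lit 367) (nat_lit 242)) (XT.lf (nat_lit 0) (nat_lit 4165688070) (nat_lit 152) (nat_lit 29273569753) (nat_lit 228) (nat_lit 22246473143) (nat_lit 48) (nat_lit 5) (nat_lit 50) (nat_lit 5) (nat_lit 51) (nat_lit 5) (nat_lit 412) (nat_lit 367) (nat_lit 241))))))))
noncomputable def xc162 : XT := (XT.nd (nat_lit 2106) (nat_lit 1140) (nat_lit 0) (XT.nd (nat_lit 1014) (nat_lit 760) (nat_lit 0) (XT.nd (nat_lit 468) (nat_lit 532) (nat_lit 0) (XT.nd (nat_lit 234) (nat_lit 304) (nat_lit 0) (XT.nd (nat_lit 78) (nat_lit 152) (nat_lit 0) (XT.lf (nat_lit 0) (nat_lit 36662783623) (nat_lit 152) (nat_lit 11313123628) (nat_lit 228) (nat_lit 9563640822) (nat_lit 48) (nat_lit 5) (nat_lit 50) (nat_lit 5) (nat_lit 51) (nat_lit 5)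 (nat_lit 413) (nat_lit 367) (nat_lit 240)) (XT.nd (nat_lit 78) (nat_lit 0) (nat_lit 0) (XT.lf (nat_lit 0) (nat_lit 3932315320) (nat_lit 152) (nat_lit 47990916885) (nat_lit 76) (nat_lit 7544938978) (nat_lit 46) (nat_lit 5) (nat_lit 48) (nat_lit 5) (nat_lit 47) (nat_lit 5) (nat_lit 414) (nat_lit 367) (nat_lit 239)) (XT.lf (nat_lit 0) (nat_lit 18322753981) (nat_lit 152) (nat_lit 15656335997) (nat_lit 76) (nat_lit 27479242864) (nat_lit 46) (nat_lit 5) (nat_lit 48) (nat_lit 5) (nat_lit 47) (nat_lit 5) (nat_lit 415) (nat_lit 367) (nat_lit 238)))) (XT.nd (nat_lit 78) (nat_lit 152) (nat_lit 0) (XT.lf (nat_lit 0) (nat_lit 18893475048) (nat_lit 152) (nat_lit 14830667785) (nat_lit 228) (nat_lit 29809289035) (nat_lit 44) (nat_lit 5) (nat_lit 46) (nat_lit 5) (nat_lit 47) (nat_lit 5) (nat_lit 416) (nat_lit 367) (nat_lit 237)) (XT.nd (nat_lit 78) (nat_lit 152) (nat_lit 0) (XT.lf (nat_lit 0) (nat_lit 50243936584)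 (nat_lit 228) (nat_lit 10077647595) (nat_lit 76) (nat_lit 5373285554) (nat_lit 44) (nat_lit 5) (nat_lit 47) (nat_lit 5) (nat_lit 45) (nat_lit 4) (nat_lit 417) (nat_lit 367) (nat_lit 236)) (XT.lf (nat_lit 0) (nat_lit 306670784) (nat_lit 152) (nat_lit 41114214685) (nat_lit 76) (nat_lit 26510320157) (nat_lit 42) (nat_lit 5) (nat_lit 44) (nat_lit 5) (nat_lit 43) (nat_lit 5) (nat_lit 418) (nat_lit 367) (nat_lit 235))))) (XT.nd (nat_lit 234) (nat_lit 304) (nat_lit 0) (XT.nd (nat_lit 78) (nat_lit 228) (nat_lit 0) (XT.lf (nat_lit 0) (nat_lit 16503032283) (nat_lit 152) (nat_lit 4626641400) (nat_lit 76) (nat_lit 49128514002) (nat_lit 42) (nat_lit 5) (nat_lit 44) (nat_lit 5) (nat_lit 43) (nat_lit 5) (nat_lit 419) (nat_lit 367) (nat_lit 234)) (XT.nd (nat_lit 78) (nat_lit 76) (nat_lit 0) (XT.lf (nat_lit 0) (nat_lit 34060868705) (nat_lit 228) (nat_lit 37892897128) (nat_lit 76) (nat_lit 720170716) (nat_lit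 40) (nat_lit 5) (nat_lit 43) (nat_lit 5) (nat_lit 41) (nat_lit 4) (nat_lit 420) (nat_lit 367) (nat_lit 233)) (XT.lf (nat_lit 0) (nat_lit 784923891) (nat_lit 76) (nat_lit 52146801824) (nat_lit 152) (nat_lit 22256991222) (nat_lit 39) (nat_lit 5) (nat_lit 40) (nat_lit 5) (nat_lit 41) (nat_lit 4) (nat_lit 421) (nat_lit 367) (nat_lit 232)))) (XT.nd (nat_lit 156) (nat_lit 76) (nat_lit 0) (XT.nd (nat_lit 78) (nat_lit 228) (nat_lit 0) (XT.lf (nat_lit 0) (nat_lit 42706582075) (nat_lit 76) (nat_lit 30678187517) (nat_lit 152) (nat_lit 4412535046) (nat_lit 39) (nat_lit 5) (nat_lit 40) (nat_lit 5) (nat_lit 41) (nat_lit 4) (nat_lit 422) (nat_lit 367) (nat_lit 231)) (XT.lf (nat_lit 0) (nat_lit 6155948239) (nat_lit 152) (nat_lit 7802853168) (nat_lit 228) (nat_lit 66561682788) (nat_lit 36) (nat_lit 5) (nat_lit 38) (nat_lit 5) (nat_lit 39) (nat_lit 5) (nat_lit 423) (nat_lit 367) (nat_lit 230))) (XT.nd (nat_lit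 78) (nat_lit 76) (nat_lit 0) (XT.lf (nat_lit 0) (nat_lit 33954645298) (nat_lit 228) (nat_lit 33007609038) (nat_lit 76) (nat_lit 16371240452) (nat_lit 36) (nat_lit 5) (nat_lit 39) (nat_lit 5) (nat_lit 37) (nat_lit 4) (nat_lit 424) (nat_lit 367) (nat_lit 229)) (XT.lf (nat_lit 0) (nat_lit 10624082271) (nat_lit 76) (nat_lit 44617156927) (nat_lit 152) (nat_lit 31031369229) (nat_lit 35) (nat_lit 5) (nat_lit 36) (nat_lit 5) (nat_lit 37) (nat_lit 4) (nat_lit 425) (nat_lit 367) (nat_lit 228)))))) (XT.nd (nat_lit 546) (nat_lit 304) (nat_lit 0) (XT.nd (nat_lit 234) (nat_lit 228) (nat_lit 0) (XT.nd (nat_lit 78) (nat_lit 228) (nat_lit 0) (XT.lf (nat_lit 0) (nat_lit 57578188413) (nat_lit 76) (nat_lit 20570199511) (nat_lit 152) (nat_lit 11182478954) (nat_lit 35) (nat_lit 5) (nat_lit 36) (nat_lit 5) (nat_lit 37) (nat_lit 4) (nat_lit 426) (nat_lit 367) (nat_lit 227)) (XT.nd (nat_lit 78) (nat_lit 0) (nat_lit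 0) (XT.lf (nat_lit 0) (nat_lit 9655011420) (nat_lit 228) (nat_lit 77951313591) (nat_lit 76) (nat_lit 4912908536) (nat_lit 32) (nat_lit 5) (nat_lit 35) (nat_lit 5) (nat_lit 33) (nat_lit 4) (nat_lit 427) (nat_lit 367) (nat_lit 226)) (XT.lf (nat_lit 0) (nat_lit 32039680851) (nat_lit 228) (nat_lit 32067534475) (nat_lit 76) (nat_lit 31706582136) (nat_lit 32) (nat_lit 5) (nat_lit 35) (nat_lit 5) (nat_lit 33) (nat_lit 4) (nat_lit 428) (nat_lit 367) (nat_lit 225)))) (XT.nd (nat_lit 156) (nat_lit 152) (nat_lit 0) (XT.nd (nat_lit 78) (nat_lit 0) (nat_lit 0) (XT.lf (nat_lit 0) (nat_lit 16638216004) (nat_lit 76) (nat_lit 39162594333) (nat_lit 152) (nat_lit 43459418223) (nat_lit 31) (nat_lit 5) (nat_lit 32) (nat_lit 5) (nat_lit 33) (nat_lit 4) (nat_lit 429) (nat_lit 367) (nat_lit 224)) (XT.lf (nat_lit 0) (nat_lit 68887898504) (nat_lit 76) (nat_lit 12402682608) (nat_lit 152) (nat_lit 21561371165) (nat_lit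 31) (nat_lit 5) (nat_lit 32) (nat_lit 5) (nat_lit 33) (nat_lit 4) (nat_lit 430) (nat_lit 367) (nat_lit 223))) (XT.nd (nat_lit 78) (nat_lit 0) (nat_lit 0) (XT.lf (nat_lit 0) (nat_lit 1909050515) (nat_lit 152) (nat_lit 89193049621) (nat_lit 76) (nat_lit 15493880185) (nat_lit 29) (nat_lit 5) (nat_lit 31) (nat_lit 5) (nat_lit 30) (nat_lit 4) (nat_lit 431) (nat_lit 367) (nat_lit 222)) (XT.lf (nat_lit 0) (nat_lit 26613937747) (nat_lit 152) (nat_lit 38551786406) (nat_lit 76) (nat_lit 45304535226) (nat_lit 29) (nat_lit 5) (nat_lit 31) (nat_lit 5) (nat_lit 30) (nat_lit 4) (nat_lit 432) (nat_lit 367) (nat_lit 221))))) (XT.nd (nat_lit 234) (nat_lit 152) (nat_lit 0) (XT.nd (nat_lit 78) (nat_lit 76) (nat_lit 0) (XT.lf (nat_lit 0) (nat_lit 15100528383) (nat_lit 76) (nat_lit 37687015003) (nat_lit 152) (nat_lit 61739035550) (nat_lit 28) (nat_lit 5) (nat_lit 29) (nat_lit 5) (nat_lit 30) (nat_lit 4) (nat_lit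 433) (nat_lit 367) (nat_lit 220)) (XT.nd (nat_lit 78) (nat_lit 76) (nat_lit 0) (XT.lf (nat_lit 0) (nat_lit 72769636809) (nat_lit 76) (nat_lit 8150840663) (nat_lit 152) (nat_lit 37832704830) (nat_lit 28) (nat_lit 5) (nat_lit 29) (nat_lit 5) (nat_lit 30) (nat_lit 4) (nat_lit 434) (nat_lit 367) (nat_lit 219)) (XT.lf (nat_lit 0) (nat_lit 10093055700) (nat_lit 76) (nat_lit 100879357613) (nat_lit 76) (nat_lit 12193084997) (nat_lit 27) (nat_lit 4) (nat_lit 28) (nat_lit 5) (nat_lit 28) (nat_lit 4) (nat_lit 435) (nat_lit 367) (nat_lit 218)))) (XT.nd (nat_lit 156) (nat_lit 0) (nat_lit 0) (XT.nd (nat_lit 78) (nat_lit 76) (nat_lit 0) (XT.lf (nat_lit 0) (nat_lit 15180088509) (nat_lit 152) (nat_lit 57570033792) (nat_lit 76) (nat_lit 54990661493) (nat_lit 26) (nat_lit 5) (nat_lit 28) (nat_lit 5) (nat_lit 27) (nat_lit 4) (nat_lit 436) (nat_lit 367) (nat_lit 217)) (XT.lf (nat_lit 0) (nat_lit 520326355) (nat_lit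 76) (nat_lit 42997890271) (nat_lit 152) (nat_lit 89016319612) (nat_lit 25) (nat_lit 5) (nat_lit 26) (nat_lit 5) (nat_lit 27) (nat_lit 4) (nat_lit 437) (nat_lit 367) (nat_lit 216))) (XT.nd (nat_lit 78) (nat_lit 0) (nat_lit 0) (XT.lf (nat_lit 0) (nat_lit 63510033408) (nat_lit 76) (nat_lit 10736171557) (nat_lit 152) (nat_lit 63273123836) (nat_lit 25) (nat_lit 5) (nat_lit 26) (nat_lit 5) (nat_lit 27) (nat_lit 4) (nat_lit 438) (nat_lit 367) (nat_lit 215)) (XT.lf (nat_lit 0) (nat_lit 106869897869) (nat_lit 152) (nat_lit 13469151333) (nat_lit 0) (nat_lit 22396346710) (nat_lit 25) (nat_lit 5) (nat_lit 27) (nat_lit 4) (nat_lit 25) (nat_lit 4) (nat_lit 439) (nat_lit 367) (nat_lit 214))))))) (XT.nd (nat_lit 1014) (nat_lit 456) (nat_lit 0) (XT.nd (nat_lit 468) (nat_lit 380) (nat_lit 0) (XT.nd (nat_lit 234) (nat_lit 76) (nat_lit 0) (XT.nd (nat_lit 78) (nat_lit 152) (nat_lit 0) (XT.lf (nat_lit 0) (nat_lit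 51568947152) (nat_lit 76) (nat_lit 90535106140) (nat_lit 76) (nat_lit 6059249362) (nat_lit 24) (nat_lit 4) (nat_lit 25) (nat_lit 5) (nat_lit 25) (nat_lit 4) (nat_lit 440) (nat_lit 367) (nat_lit 213)) (XT.nd (nat_lit 78) (nat_lit 76) (nat_lit 0) (XT.lf (nat_lit 0) (nat_lit 24659549021) (nat_lit 152) (nat_lit 33925977112) (nat_lit 76) (nat_lit 95245878052) (nat_lit 23) (nat_lit 5) (nat_lit 25) (nat_lit 5) (nat_lit 24) (nat_lit 4) (nat_lit 441) (nat_lit 367) (nat_lit 212)) (XT.lf (nat_lit 0) (nat_lit 32823638050) (nat_lit 76) (nat_lit 24397718984) (nat_lit 152) (nat_lit 102531052296) (nat_lit 22) (nat_lit 5) (nat_lit 23) (nat_lit 5) (nat_lit 24) (nat_lit 4) (nat_lit 442) (nat_lit 367) (nat_lit 211)))) (XT.nd (nat_lit 78) (nat_lit 76) (nat_lit 0) (XT.lf (nat_lit 0) (nat_lit 92173004051) (nat_lit 152) (nat_lit 62044546053) (nat_lit 0) (nat_lit 11713827336) (nat_lit 22) (nat_lit 5) (nat_lit 24)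 (nat_lit 4) (nat_lit 22) (nat_lit 4) (nat_lit 443) (nat_lit 367) (nat_lit 210)) (XT.nd (nat_lit 78) (nat_lit 0) (nat_lit 0) (XT.lf (nat_lit 0) (nat_lit 5868501016) (nat_lit 76) (nat_lit 123493640449) (nat_lit 76) (nat_lit 43032657221) (nat_lit 21) (nat_lit 4) (nat_lit 22) (nat_lit 5) (nat_lit 22) (nat_lit 4) (nat_lit 444) (nat_lit 367) (nat_lit 209)) (XT.lf (nat_lit 0) (nat_lit 79328043993) (nat_lit 76) (nat_lit 90131797772) (nat_lit 76) (nat_lit 9669094055) (nat_lit 21) (nat_lit 4) (nat_lit 22) (nat_lit 5) (nat_lit 22) (nat_lit 4) (nat_lit 445) (nat_lit 367) (nat_lit 208))))) (XT.nd (nat_lit 234) (nat_lit 228) (nat_lit 0) (XT.nd (nat_lit 78) (nat_lit 76) (nat_lit 0) (XT.lf (nat_lit 0) (nat_lit 24549288411) (nat_lit 152) (nat_lit 30138301034) (nat_lit 76) (nat_lit 131492471169) (nat_lit 20) (nat_lit 5) (nat_lit 22) (nat_lit 5) (nat_lit 21) (nat_lit 4) (nat_lit 446) (nat_lit 367) (nat_lit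 207)) (XT.nd (nat_lit 78) (nat_lit 0) (nat_lit 0) (XT.lf (nat_lit 0) (nat_lit 44262634736) (nat_lit 76) (nat_lit 16580554311) (nat_lit 152) (nat_lit 132698150020) (nat_lit 19) (nat_lit 5) (nat_lit 20) (nat_lit 5) (nat_lit 21) (nat_lit 4) (nat_lit 447) (nat_lit 367) (nat_lit 206)) (XT.lf (nat_lit 0) (nat_lit 99834880435) (nat_lit 152) (nat_lit 78192374493) (nat_lit 0) (nat_lit 23199271832) (nat_lit 19) (nat_lit 5) (nat_lit 21) (nat_lit 4) (nat_lit 19) (nat_lit 4) (nat_lit 448) (nat_lit 367) (nat_lit 205)))) (XT.nd (nat_lit 156) (nat_lit 152) (nat_lit 0) (XT.nd (nat_lit 78) (nat_lit 76) (nat_lit 0) (XT.lf (nat_lit 0) (nat_lit 141046526009) (nat_lit 152) (nat_lit 3826360091) (nat_lit 0) (nat_lit 64409569358) (nat_lit 19) (nat_lit 5) (nat_lit 21) (nat_lit 4) (nat_lit 19) (nat_lit 4) (nat_lit 449) (nat_lit 367) (nat_lit 204)) (XT.lf (nat_lit 0) (nat_lit 76710484296) (nat_lit 76) (nat_lit 108804561157)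 (nat_lit 76) (nat_lit 32166320651) (nat_lit 18) (nat_lit 4) (nat_lit 19) (nat_lit 5) (nat_lit 19) (nat_lit 4) (nat_lit 450) (nat_lit 367) (nat_lit 203))) (XT.nd (nat_lit 78) (nat_lit 76) (nat_lit 0) (XT.lf (nat_lit 0) (nat_lit 5588607846) (nat_lit 152) (nat_lit 65182817140) (nat_lit 76) (nat_lit 155721117875) (nat_lit 17) (nat_lit 5) (nat_lit 19) (nat_lit 5) (nat_lit 18) (nat_lit 4) (nat_lit 451) (nat_lit 367) (nat_lit 202)) (XT.lf (nat_lit 0) (nat_lit 14323206626) (nat_lit 76) (nat_lit 30049395493) (nat_lit 152) (nat_lit 191334194648) (nat_lit 16) (nat_lit 5) (nat_lit 17) (nat_lit 5) (nat_lit 18) (nat_lit 4) (nat_lit 452) (nat_lit 367) (nat_lit 201)))))) (XT.nd (nat_lit 546) (nat_lit 228) (nat_lit 0) (XT.nd (nat_lit 234) (nat_lit 152) (nat_lit 0) (XT.nd (nat_lit 78) (nat_lit 76) (nat_lit 0) (XT.lf (nat_lit 0) (nat_lit 86414911289) (nat_lit 152) (nat_lit 145478115357) (nat_lit 0) (nat_lit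 13422781040) (nat_lit 16) (nat_lit 5) (nat_lit 18) (nat_lit 4) (nat_lit 16) (nat_lit 4) (nat_lit 453) (nat_lit 367) (nat_lit 200)) (XT.nd (nat_lit 78) (nat_lit 76) (nat_lit 0) (XT.lf (nat_lit 0) (nat_lit 131050707905) (nat_lit 152) (nat_lit 66272421001) (nat_lit 0) (nat_lit 58057571722) (nat_lit 16) (nat_lit 5) (nat_lit 18) (nat_lit 4) (nat_lit 16) (nat_lit 4) (nat_lit 454) (nat_lit 367) (nat_lit 199)) (XT.lf (nat_lit 0) (nat_lit 17449733644) (nat_lit 76) (nat_lit 160739817996) (nat_lit 76) (nat_lit 87745723780) (nat_lit 15) (nat_lit 4) (nat_lit 16) (nat_lit 5) (nat_lit 16) (nat_lit 4) (nat_lit 455) (nat_lit 367) (nat_lit 198)))) (XT.nd (nat_lit 156) (nat_lit 152) (nat_lit 0) (XT.nd (nat_lit 78) (nat_lit 0) (nat_lit 0) (XT.lf (nat_lit 0) (nat_lit 107656537449) (nat_lit 76) (nat_lit 121149994246) (nat_lit 76) (nat_lit 48154987619) (nat_lit 15) (nat_lit 4) (nat_lit 16) (nat_lit 5) (nat_lit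 16) (nat_lit 4) (nat_lit 456) (nat_lit 367) (nat_lit 197)) (XT.lf (nat_lit 0) (nat_lit 202371502984) (nat_lit 76) (nat_lit 79581751688) (nat_lit 76) (nat_lit 6585876097) (nat_lit 15) (nat_lit 4) (nat_lit 16) (nat_lit 5) (nat_lit 16) (nat_lit 4) (nat_lit 457) (nat_lit 367) (nat_lit 196))) (XT.nd (nat_lit 78) (nat_lit 0) (nat_lit 0) (XT.lf (nat_lit 0) (nat_lit 563895116) (nat_lit 76) (nat_lit 35319323562) (nat_lit 152) (nat_lit 264783085672) (nat_lit 13) (nat_lit 5) (nat_lit 14) (nat_lit 5) (nat_lit 15) (nat_lit 4) (nat_lit 458) (nat_lit 367) (nat_lit 195)) (XT.lf (nat_lit 0) (nat_lit 81910764636) (nat_lit 152) (nat_lit 219011513213) (nat_lit 0) (nat_lit 12389344302) (nat_lit 13) (nat_lit 5) (nat_lit 15) (nat_lit 4) (nat_lit 13) (nat_lit 4) (nat_lit 459) (nat_lit 367) (nat_lit 194))))) (XT.nd (nat_lit 234) (nat_lit 152) (nat_lit 0) (XT.nd (nat_lit 78) (nat_lit 76) (nat_lit 0) (XT.lf (nat_lit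 0) (nat_lit 130817675909) (nat_lit 152) (nat_lit 134447089911) (nat_lit 0) (nat_lit 61295540676) (nat_lit 13) (nat_lit 5) (nat_lit 15) (nat_lit 4) (nat_lit 13) (nat_lit 4) (nat_lit 460) (nat_lit 367) (nat_lit 193)) (XT.nd (nat_lit 78) (nat_lit 76) (nat_lit 0) (XT.lf (nat_lit 0) (nat_lit 182168963899) (nat_lit 152) (nat_lit 45656361838) (nat_lit 0) (nat_lit 112646147811) (nat_lit 13) (nat_lit 5) (nat_lit 15) (nat_lit 4) (nat_lit 13) (nat_lit 4) (nat_lit 461) (nat_lit 367) (nat_lit 192)) (XT.lf (nat_lit 0) (nat_lit 49145025222) (nat_lit 76) (nat_lit 187709159930) (nat_lit 76) (nat_lit 118185695408) (nat_lit 12) (nat_lit 4) (nat_lit 13) (nat_lit 5) (nat_lit 13) (nat_lit 4) (nat_lit 462) (nat_lit 367) (nat_lit 191)))) (XT.nd (nat_lit 156) (nat_lit 152) (nat_lit 0) (XT.nd (nat_lit 78) (nat_lit 0) (nat_lit 0) (XT.lf (nat_lit 0) (nat_lit 150269771724) (nat_lit 76) (nat_lit 144776201516) (nat_lit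 76) (nat_lit 75252119437) (nat_lit 12) (nat_lit 4) (nat_lit 13) (nat_lit 5) (nat_lit 13) (nat_lit 4) (nat_lit 463) (nat_lit 367) (nat_lit 190)) (XT.lf (nat_lit 0) (nat_lit 256449045360) (nat_lit 76) (nat_lit 99697441746) (nat_lit 76) (nat_lit 30172771519) (nat_lit 12) (nat_lit 4) (nat_lit 13) (nat_lit 5) (nat_lit 13) (nat_lit 4) (nat_lit 464) (nat_lit 367) (nat_lit 189))) (XT.nd (nat_lit 78) (nat_lit 76) (nat_lit 0) (XT.lf (nat_lit 0) (nat_lit 16610463199) (nat_lit 152) (nat_lit 35473780809) (nat_lit 76) (nat_lit 351043884493) (nat_lit 11) (nat_lit 5) (nat_lit 13) (nat_lit 5) (nat_lit 12) (nat_lit 4) (nat_lit 465) (nat_lit 367) (nat_lit 188)) (XT.lf (nat_lit 0) (nat_lit 65234160649) (nat_lit 76) (nat_lit 502387880) (nat_lit 152) (nat_lit 354965277007) (nat_lit 10) (nat_lit 5) (nat_lit 11) (nat_lit 5) (nat_lit 12) (nat_lit 4) (nat_lit 466) (nat_lit 367) (nat_lit 187))))))))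
noncomputable def xc163 : XT := (XT.nd (nat_lit 46488) (nat_lit 0) (nat_lit 3648) (XT.nd (nat_lit 45396) (nat_lit 0) (nat_lit 7676) (XT.nd (nat_lit 468) (nat_lit 152) (nat_lit 0) (XT.nd (nat_lit 234) (nat_lit 76) (nat_lit 0) (XT.nd (nat_lit 78) (nat_lit 0) (nat_lit 0) (XT.lf (nat_lit 0) (nat_lit 118766518356) (nat_lit 152) (nat_lit 267764288785) (nat_lit 0) (nat_lit 52551021306) (nat_lit 10) (nat_lit 5) (nat_lit 12) (nat_lit 4) (nat_lit 10) (nat_lit 4) (nat_lit 467) (nat_lit 367) (nat_lit 186)) (XT.nd (nat_lit 78) (nat_lit 0) (nat_lit 0) (XT.lf (nat_lit 0) (nat_lit 174455465829) (nat_lit 152) (nat_lit 175685483802) (nat_lit 0) (nat_lit 108239507949) (nat_lit 10) (nat_lit 5) (nat_lit 12) (nat_lit 4) (nat_lit 10) (nat_lit 4) (nat_lit 468) (nat_lit 367) (nat_lit 185)) (XT.lf (nat_lit 0) (nat_lit 232928139998) (nat_lit 152) (nat_lit 79004171003) (nat_lit 0) (nat_lit 166711743233) (nat_lit 10)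 (nat_lit 5) (nat_lit 12) (nat_lit 4) (nat_lit 10) (nat_lit 4) (nat_lit 469) (nat_lit 367) (nat_lit 184)))) (XT.nd (nat_lit 78) (nat_lit 0) (nat_lit 0) (XT.lf (nat_lit 0) (nat_lit 23254120284) (nat_lit 76) (nat_lit 271432703220) (nat_lit 76) (nat_lit 205215888468) (nat_lit 9) (nat_lit 4) (nat_lit 10) (nat_lit 5) (nat_lit 10) (nat_lit 4) (nat_lit 470) (nat_lit 367) (nat_lit 183)) (XT.nd (nat_lit 78) (nat_lit 0) (nat_lit 0) (XT.lf (nat_lit 0) (nat_lit 133366830337) (nat_lit 76) (nat_lit 227503910080) (nat_lit 76) (nat_lit 161286697246) (nat_lit 9) (nat_lit 4) (nat_lit 10) (nat_lit 5) (nat_lit 10) (nat_lit 4) (nat_lit 471) (nat_lit 367) (nat_lit 182)) (XT.lf (nat_lit 0) (nat_lit 248983897587) (nat_lit 76) (nat_lit 181379313082) (nat_lit 76) (nat_lit 115161721122) (nat_lit 9) (nat_lit 4) (nat_lit 10) (nat_lit 5) (nat_lit 10) (nat_lit 4) (nat_lit 472) (nat_lit 367) (nat_lit 181))))) (XT.nd (nat_lit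 234) (nat_lit 0) (nat_lit 0) (XT.nd (nat_lit 78) (nat_lit 152) (nat_lit 0) (XT.lf (nat_lit 0) (nat_lit 370380600767) (nat_lit 76) (nat_lit 132949091757) (nat_lit 76) (nat_lit 66731138725) (nat_lit 9) (nat_lit 4) (nat_lit 10) (nat_lit 5) (nat_lit 10) (nat_lit 4) (nat_lit 473) (nat_lit 367) (nat_lit 180)) (XT.nd (nat_lit 78) (nat_lit 152) (nat_lit 0) (XT.lf (nat_lit 0) (nat_lit 497845979646) (nat_lit 76) (nat_lit 82097936054) (nat_lit 76) (nat_lit 15879639143) (nat_lit 9) (nat_lit 4) (nat_lit 10) (nat_lit 5) (nat_lit 10) (nat_lit 4) (nat_lit 474) (nat_lit 367) (nat_lit 179)) (XT.lf (nat_lit 0) (nat_lit 8495286683) (nat_lit 76) (nat_lit 27950523607) (nat_lit 152) (nat_lit 586392715521) (nat_lit 7) (nat_lit 5) (nat_lit 8) (nat_lit 5) (nat_lit 9) (nat_lit 4) (nat_lit 475) (nat_lit 367) (nat_lit 178)))) (XT.nd (nat_lit 156) (nat_lit 0) (nat_lit 0) (XT.nd (nat_lit 78) (nat_lit 0) (nat_lit 0) (XT.lf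 (nat_lit 0) (nat_lit 92991084814) (nat_lit 152) (nat_lit 528167852634) (nat_lit 0) (nat_lit 29925431175) (nat_lit 7) (nat_lit 5) (nat_lit 9) (nat_lit 4) (nat_lit 7) (nat_lit 4) (nat_lit 476) (nat_lit 367) (nat_lit 177)) (XT.lf (nat_lit 0) (nat_lit 152821292064) (nat_lit 152) (nat_lit 438142972565) (nat_lit 0) (nat_lit 89755355515) (nat_lit 7) (nat_lit 5) (nat_lit 9) (nat_lit 4) (nat_lit 7) (nat_lit 4) (nat_lit 477) (nat_lit 367) (nat_lit 176))) (XT.nd (nat_lit 78) (nat_lit 0) (nat_lit 0) (XT.lf (nat_lit 0) (nat_lit 215642498910) (nat_lit 152) (nat_lit 343617867966) (nat_lit 0) (nat_lit 152576292923) (nat_lit 7) (nat_lit 5) (nat_lit 9) (nat_lit 4) (nat_lit 7) (nat_lit 4) (nat_lit 478) (nat_lit 367) (nat_lit 175)) (XT.lf (nat_lit 0) (nat_lit 281604279654) (nat_lit 152) (nat_lit 244367479063) (nat_lit 0) (nat_lit 218537817060) (nat_lit 7) (nat_lit 5) (nat_lit 9) (nat_lit 4) (nat_lit 7) (nat_lit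 4) (nat_lit 479) (nat_lit 367) (nat_lit 174)))))) (XT.nd (nat_lit 546) (nat_lit 760) (nat_lit 0) (XT.nd (nat_lit 234) (nat_lit 0) (nat_lit 76) (XT.nd (nat_lit 78) (nat_lit 0) (nat_lit 0) (XT.lf (nat_lit 0) (nat_lit 504991518) (nat_lit 836) (nat_lit 3776800970) (nat_lit 836) (nat_lit 3776800970) (nat_lit 118) (nat_lit 3) (nat_lit 129) (nat_lit 3) (nat_lit 129) (nat_lit 5) (nat_lit 368) (nat_lit 368) (nat_lit 284)) (XT.nd (nat_lit 78) (nat_lit 0) (nat_lit 76) (XT.lf (nat_lit 76) (nat_lit 287668330) (nat_lit 0) (nat_lit 1003212634) (nat_lit 836) (nat_lit 15216315837) (nat_lit 119) (nat_lit 5) (nat_lit 118) (nat_lit 3) (nat_lit 129) (nat_lit 5) (nat_lit 369) (nat_lit 368) (nat_lit 283)) (XT.lf (nat_lit 0) (nat_lit 1808025907) (nat_lit 760) (nat_lit 8247100089) (nat_lit 836) (nat_lit 6850479871) (nat_lit 119) (nat_lit 5) (nat_lit 129) (nat_lit 5) (nat_lit 130) (nat_lit 5) (nat_lit 370) (nat_lit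 368) (nat_lit 282)))) (XT.nd (nat_lit 156) (nat_lit 0) (nat_lit 76) (XT.nd (nat_lit 78) (nat_lit 0) (nat_lit 76) (XT.lf (nat_lit 76) (nat_lit 101553434) (nat_lit 0) (nat_lit 2252176335) (nat_lit 836) (nat_lit 14970078908) (nat_lit 120) (nat_lit 5) (nat_lit 119) (nat_lit 5) (nat_lit 130) (nat_lit 5) (nat_lit 371) (nat_lit 368) (nat_lit 281)) (XT.lf (nat_lit 0) (nat_lit 3146779053) (nat_lit 760) (nat_lit 8706907927) (nat_lit 836) (nat_lit 5898239613) (nat_lit 120) (nat_lit 5) (nat_lit 130) (nat_lit 5) (nat_lit 131) (nat_lit 5) (nat_lit 372) (nat_lit 368) (nat_lit 280))) (XT.nd (nat_lit 78) (nat_lit 0) (nat_lit 76) (XT.lf (nat_lit 76) (nat_lit 194082461) (nat_lit 0) (nat_lit 3811394695) (nat_lit 836) (nat_lit 14194681027) (nat_lit 121) (nat_lit 5) (nat_lit 120) (nat_lit 5) (nat_lit 131) (nat_lit 5) (nat_lit 373) (nat_lit 368) (nat_lit 279)) (XT.lf (nat_lit 0) (nat_lit 5115947749) (nat_lit 760)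 (nat_lit 8905781096) (nat_lit 836) (nat_lit 4638637862) (nat_lit 121) (nat_lit 5) (nat_lit 131) (nat_lit 5) (nat_lit 132) (nat_lit 5) (nat_lit 374) (nat_lit 368) (nat_lit 278))))) (XT.nd (nat_lit 234) (nat_lit 988) (nat_lit 0) (XT.nd (nat_lit 78) (nat_lit 0) (nat_lit 76) (XT.lf (nat_lit 76) (nat_lit 596610726) (nat_lit 0) (nat_lit 5744394717) (nat_lit 836) (nat_lit 12799633925) (nat_lit 122) (nat_lit 5) (nat_lit 121) (nat_lit 5) (nat_lit 132) (nat_lit 5) (nat_lit 375) (nat_lit 368) (nat_lit 277)) (XT.nd (nat_lit 78) (nat_lit 0) (nat_lit 0) (XT.lf (nat_lit 0) (nat_lit 7814392232) (nat_lit 760) (nat_lit 8812596780) (nat_lit 836) (nat_lit 3008589402) (nat_lit 122) (nat_lit 5) (nat_lit 132) (nat_lit 5) (nat_lit 133) (nat_lit 5) (nat_lit 376) (nat_lit 368) (nat_lit 276)) (XT.lf (nat_lit 76) (nat_lit 1344711008) (nat_lit 0) (nat_lit 8120256819) (nat_lit 836) (nat_lit 10685126862) (nat_lit 123)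 (nat_lit 5) (nat_lit 122) (nat_lit 5) (nat_lit 133) (nat_lit 5) (nat_lit 377) (nat_lit 368) (nat_lit 275)))) (XT.nd (nat_lit 156) (nat_lit 380) (nat_lit 0) (XT.nd (nat_lit 78) (nat_lit 760) (nat_lit 0) (XT.lf (nat_lit 0) (nat_lit 11351229634) (nat_lit 760) (nat_lit 8392164695) (nat_lit 76) (nat_lit 939290529) (nat_lit 123) (nat_lit 5) (nat_lit 133) (nat_lit 5) (nat_lit 124) (nat_lit 5) (nat_lit 378) (nat_lit 368) (nat_lit 274)) (XT.lf (nat_lit 0) (nat_lit 2478390205) (nat_lit 760) (nat_lit 11014552220) (nat_lit 836) (nat_lit 7740910884) (nat_lit 113) (nat_lit 5) (nat_lit 123) (nat_lit 5) (nat_lit 124) (nat_lit 5) (nat_lit 379) (nat_lit 368) (nat_lit 273))) (XT.nd (nat_lit 78) (nat_lit 380) (nat_lit 0) (XT.lf (nat_lit 0) (nat_lit 14174453535) (nat_lit 760) (nat_lit 1699098979) (nat_lit 836) (nat_lit 5932442482) (nat_lit 113) (nat_lit 5) (nat_lit 123) (nat_lit 5) (nat_lit 124) (nat_lit 5) (nat_lit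 380) (nat_lit 368) (nat_lit 272)) (XT.lf (nat_lit 0) (nat_lit 4042331419) (nat_lit 380) (nat_lit 14510349821) (nat_lit 456) (nat_lit 3845093265) (nat_lit 108) (nat_lit 5) (nat_lit 113) (nat_lit 5) (nat_lit 114) (nat_lit 5) (nat_lit 381) (nat_lit 368) (nat_lit 271))))))) (XT.nd (nat_lit 1014) (nat_lit 1748) (nat_lit 0) (XT.nd (nat_lit 468) (nat_lit 1140) (nat_lit 0) (XT.nd (nat_lit 234) (nat_lit 684) (nat_lit 0) (XT.nd (nat_lit 78) (nat_lit 456) (nat_lit 0) (XT.lf (nat_lit 0) (nat_lit 16526784986) (nat_lit 380) (nat_lit 4986143512) (nat_lit 456) (nat_lit 1498861282) (nat_lit 108) (nat_lit 5) (nat_lit 113) (nat_lit 5) (nat_lit 114) (nat_lit 5) (nat_lit 382) (nat_lit 368) (nat_lit 270)) (XT.nd (nat_lit 78) (nat_lit 0) (nat_lit 0) (XT.lf (nat_lit 0) (nat_lit 1100771966) (nat_lit 456) (nat_lit 17579892243) (nat_lit 76) (nat_lit 4966744704) (nat_lit 102) (nat_lit 5) (nat_lit 108) (nat_lit 5) (nat_lit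 103) (nat_lit 5) (nat_lit 383) (nat_lit 368) (nat_lit 269)) (XT.lf (nat_lit 0) (nat_lit 3964490127) (nat_lit 456) (nat_lit 4954073768) (nat_lit 76) (nat_lit 15385797023) (nat_lit 102) (nat_lit 5) (nat_lit 108) (nat_lit 5) (nat_lit 103) (nat_lit 5) (nat_lit 384) (nat_lit 368) (nat_lit 268)))) (XT.nd (nat_lit 78) (nat_lit 304) (nat_lit 0) (XT.lf (nat_lit 0) (nat_lit 7119675335) (nat_lit 456) (nat_lit 16442603698) (nat_lit 76) (nat_lit 1424471462) (nat_lit 97) (nat_lit 5) (nat_lit 103) (nat_lit 5) (nat_lit 98) (nat_lit 5) (nat_lit 385) (nat_lit 368) (nat_lit 267)) (XT.nd (nat_lit 78) (nat_lit 304) (nat_lit 0) (XT.lf (nat_lit 0) (nat_lit 10655886665) (nat_lit 456) (nat_lit 2966634805) (nat_lit 76) (nat_lit 12069578573) (nat_lit 97) (nat_lit 5) (nat_lit 103) (nat_lit 5) (nat_lit 98) (nat_lit 5) (nat_lit 386) (nat_lit 368) (nat_lit 266)) (XT.lf (nat_lit 0) (nat_lit 11543785260) (nat_lit 304) (nat_lit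 2997531145) (nat_lit 380) (nat_lit 11882783926) (nat_lit 93) (nat_lit 5) (nat_lit 97) (nat_lit 5) (nat_lit 98) (nat_lit 5) (nat_lit 387) (nat_lit 368) (nat_lit 265))))) (XT.nd (nat_lit 234) (nat_lit 608) (nat_lit 0) (XT.nd (nat_lit 78) (nat_lit 532) (nat_lit 0) (XT.lf (nat_lit 0) (nat_lit 18791859949) (nat_lit 380) (nat_lit 444715258) (nat_lit 76) (nat_lit 7947586790) (nat_lit 93) (nat_lit 5) (nat_lit 98) (nat_lit 5) (nat_lit 94) (nat_lit 5) (nat_lit 388) (nat_lit 368) (nat_lit 264)) (XT.nd (nat_lit 78) (nat_lit 228) (nat_lit 0) (XT.lf (nat_lit 0) (nat_lit 15139468959) (nat_lit 304) (nat_lit 8393730136) (nat_lit 380) (nat_lit 4435117544) (nat_lit 89) (nat_lit 5) (nat_lit 93) (nat_lit 5) (nat_lit 94) (nat_lit 5) (nat_lit 389) (nat_lit 368) (nat_lit 263)) (XT.lf (nat_lit 0) (nat_lit 2759695196) (nat_lit 228) (nat_lit 25842302379) (nat_lit 304) (nat_lit 185164977) (nat_lit 86) (nat_lit 5) (nat_lit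 89) (nat_lit 5) (nat_lit 90) (nat_lit 5) (nat_lit 390) (nat_lit 368) (nat_lit 262)))) (XT.nd (nat_lit 156) (nat_lit 228) (nat_lit 0) (XT.nd (nat_lit 78) (nat_lit 304) (nat_lit 0) (XT.lf (nat_lit 0) (nat_lit 4491846172) (nat_lit 304) (nat_lit 10279875521) (nat_lit 76) (nat_lit 14854319870) (nat_lit 85) (nat_lit 5) (nat_lit 89) (nat_lit 5) (nat_lit 86) (nat_lit 5) (nat_lit 391) (nat_lit 368) (nat_lit 261)) (XT.lf (nat_lit 0) (nat_lit 6450027765) (nat_lit 304) (nat_lit 3040526302) (nat_lit 380) (nat_lit 21011457962) (nat_lit 81) (nat_lit 5) (nat_lit 85) (nat_lit 5) (nat_lit 86) (nat_lit 5) (nat_lit 392) (nat_lit 368) (nat_lit 260))) (XT.nd (nat_lit 78) (nat_lit 228) (nat_lit 0) (XT.lf (nat_lit 0) (nat_lit 15054511763) (nat_lit 380) (nat_lit 7196086225) (nat_lit 76) (nat_lit 9155419906) (nat_lit 81) (nat_lit 5) (nat_lit 86) (nat_lit 5) (nat_lit 82) (nat_lit 5) (nat_lit 393) (nat_lit 368) (nat_lit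 259)) (XT.lf (nat_lit 0) (nat_lit 10789884108) (nat_lit 228) (nat_lit 10318918914) (nat_lit 304) (nat_lit 11235816721) (nat_lit 78) (nat_lit 5) (nat_lit 81) (nat_lit 5) (nat_lit 82) (nat_lit 5) (nat_lit 394) (nat_lit 368) (nat_lit 258)))))) (XT.nd (nat_lit 546) (nat_lit 836) (nat_lit 0) (XT.nd (nat_lit 234) (nat_lit 380) (nat_lit 0) (XT.nd (nat_lit 78) (nat_lit 532) (nat_lit 0) (XT.lf (nat_lit 0) (nat_lit 27618135510) (nat_lit 304) (nat_lit 3443924154) (nat_lit 76) (nat_lit 2260478040) (nat_lit 78) (nat_lit 5) (nat_lit 82) (nat_lit 5) (nat_lit 79) (nat_lit 5) (nat_lit 395) (nat_lit 368) (nat_lit 257)) (XT.nd (nat_lit 78) (nat_lit 228) (nat_lit 0) (XT.lf (nat_lit 0) (nat_lit 518742080) (nat_lit 304) (nat_lit 18432791489) (nat_lit 76) (nat_lit 15376815555) (nat_lit 74) (nat_lit 5) (nat_lit 78) (nat_lit 5) (nat_lit 75) (nat_lit 5) (nat_lit 396) (nat_lit 368) (nat_lit 256)) (XT.lf (nat_lit 0)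 (nat_lit 865243605) (nat_lit 228) (nat_lit 6063194678) (nat_lit 304) (nat_lit 28447984124) (nat_lit 71) (nat_lit 5) (nat_lit 74) (nat_lit 5) (nat_lit 75) (nat_lit 5) (nat_lit 397) (nat_lit 368) (nat_lit 255)))) (XT.nd (nat_lit 156) (nat_lit 152) (nat_lit 0) (XT.nd (nat_lit 78) (nat_lit 228) (nat_lit 0) (XT.lf (nat_lit 0) (nat_lit 14086947313) (nat_lit 304) (nat_lit 14823039368) (nat_lit 76) (nat_lit 7545498212) (nat_lit 71) (nat_lit 5) (nat_lit 75) (nat_lit 5) (nat_lit 72) (nat_lit 5) (nat_lit 398) (nat_lit 368) (nat_lit 254)) (XT.lf (nat_lit 0) (nat_lit 5932230759) (nat_lit 228) (nat_lit 15857853537) (nat_lit 304) (nat_lit 15789082926) (nat_lit 68) (nat_lit 5) (nat_lit 71) (nat_lit 5) (nat_lit 72) (nat_lit 5) (nat_lit 399) (nat_lit 368) (nat_lit 253))) (XT.nd (nat_lit 78) (nat_lit 152) (nat_lit 0) (XT.lf (nat_lit 0) (nat_lit 28232263740) (nat_lit 228) (nat_lit 1891970830) (nat_lit 304) (nat_lit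 8622508033) (nat_lit 68) (nat_lit 5) (nat_lit 71) (nat_lit 5) (nat_lit 72) (nat_lit 5) (nat_lit 400) (nat_lit 368) (nat_lit 252)) (XT.lf (nat_lit 0) (nat_lit 11846894239) (nat_lit 152) (nat_lit 27407602638) (nat_lit 228) (nat_lit 699231324) (nat_lit 66) (nat_lit 5) (nat_lit 68) (nat_lit 5) (nat_lit 69) (nat_lit 5) (nat_lit 401) (nat_lit 368) (nat_lit 251))))) (XT.nd (nat_lit 234) (nat_lit 532) (nat_lit 0) (XT.nd (nat_lit 78) (nat_lit 228) (nat_lit 0) (XT.lf (nat_lit 0) (nat_lit 7583389973) (nat_lit 228) (nat_lit 5681208595) (nat_lit 76) (nat_lit 27940163636) (nat_lit 65) (nat_lit 5) (nat_lit 68) (nat_lit 5) (nat_lit 66) (nat_lit 5) (nat_lit 402) (nat_lit 368) (nat_lit 250)) (XT.nd (nat_lit 78) (nat_lit 0) (nat_lit 0) (XT.lf (nat_lit 0) (nat_lit 16569429863) (nat_lit 304) (nat_lit 24096059297) (nat_lit 76) (nat_lit 1836647739) (nat_lit 62) (nat_lit 5) (nat_lit 66) (nat_lit 5) (nat_lit 63)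 (nat_lit 5) (nat_lit 403) (nat_lit 368) (nat_lit 249)) (XT.lf (nat_lit 0) (nat_lit 26315397403) (nat_lit 304) (nat_lit 190867029) (nat_lit 76) (nat_lit 17342585992) (nat_lit 62) (nat_lit 5) (nat_lit 66) (nat_lit 5) (nat_lit 63) (nat_lit 5) (nat_lit 404) (nat_lit 368) (nat_lit 248)))) (XT.nd (nat_lit 156) (nat_lit 152) (nat_lit 0) (XT.nd (nat_lit 78) (nat_lit 228) (nat_lit 0) (XT.lf (nat_lit 0) (nat_lit 25726090376) (nat_lit 152) (nat_lit 11219831144) (nat_lit 228) (nat_lit 8297116506) (nat_lit 60) (nat_lit 5) (nat_lit 62) (nat_lit 5) (nat_lit 63) (nat_lit 5) (nat_lit 405) (nat_lit 368) (nat_lit 247)) (XT.lf (nat_lit 0) (nat_lit 1532712504) (nat_lit 228) (nat_lit 40363102853) (nat_lit 76) (nat_lit 4801201255) (nat_lit 57) (nat_lit 5) (nat_lit 60) (nat_lit 5) (nat_lit 58) (nat_lit 5) (nat_lit 406) (nat_lit 368) (nat_lit 246))) (XT.nd (nat_lit 78) (nat_lit 152) (nat_lit 0) (XT.lf (nat_lit 0)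 (nat_lit 12090770143) (nat_lit 228) (nat_lit 14384620910) (nat_lit 76) (nat_lit 21715724557) (nat_lit 57) (nat_lit 5) (nat_lit 60) (nat_lit 5) (nat_lit 58) (nat_lit 5) (nat_lit 407) (nat_lit 368) (nat_lit 245)) (XT.lf (nat_lit 0) (nat_lit 13312204179) (nat_lit 152) (nat_lit 10068267855) (nat_lit 228) (nat_lit 26369261534) (nat_lit 55) (nat_lit 5) (nat_lit 57) (nat_lit 5) (nat_lit 58) (nat_lit 5) (nat_lit 408) (nat_lit 368) (nat_lit 244))))))))
noncomputable def xc164 : XT := (XT.nd (nat_lit 2106) (nat_lit 1140) (nat_lit 0) (XT.nd (nat_lit 1014) (nat_lit 912) (nat_lit 0) (XT.nd (nat_lit 468) (nat_lit 608) (nat_lit 0) (XT.nd (nat_lit 234) (nat_lit 304) (nat_lit 0) (XT.nd (nat_lit 78) (nat_lit 228) (nat_lit 0) (XT.lf (nat_lit 0) (nat_lit 35589992382) (nat_lit 228) (nat_lit 8603307759) (nat_lit 76) (nat_lit 7175216644) (nat_lit 55) (nat_lit 5) (nat_lit 58) (nat_lit 5) (nat_lit 56) (nat_lit 5)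 (nat_lit 409) (nat_lit 368) (nat_lit 243)) (XT.nd (nat_lit 78) (nat_lit 76) (nat_lit 0) (XT.lf (nat_lit 0) (nat_lit 21127390320) (nat_lit 152) (nat_lit 27773656317) (nat_lit 228) (nat_lit 4142640608) (nat_lit 53) (nat_lit 5) (nat_lit 55) (nat_lit 5) (nat_lit 56) (nat_lit 5) (nat_lit 410) (nat_lit 368) (nat_lit 242)) (XT.lf (nat_lit 0) (nat_lit 7960844698) (nat_lit 228) (nat_lit 2286896944) (nat_lit 76) (nat_lit 44541358830) (nat_lit 52) (nat_lit 5) (nat_lit 55) (nat_lit 5) (nat_lit 53) (nat_lit 5) (nat_lit 411) (nat_lit 368) (nat_lit 241)))) (XT.nd (nat_lit 78) (nat_lit 152) (nat_lit 0) (XT.lf (nat_lit 0) (nat_lit 21126335728) (nat_lit 228) (nat_lit 27030821772) (nat_lit 76) (nat_lit 8431429530) (nat_lit 50) (nat_lit 5) (nat_lit 53) (nat_lit 5) (nat_lit 51) (nat_lit 5) (nat_lit 412) (nat_lit 368) (nat_lit 240)) (XT.nd (nat_lit 78) (nat_lit 0) (nat_lit 0) (XT.lf (nat_lit 0) (nat_lit 4569412967)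 (nat_lit 152) (nat_lit 30655783487) (nat_lit 228) (nat_lit 23239097510) (nat_lit 48) (nat_lit 5) (nat_lit 50) (nat_lit 5) (nat_lit 51) (nat_lit 5) (nat_lit 413) (nat_lit 368) (nat_lit 239)) (XT.lf (nat_lit 0) (nat_lit 38682056607) (nat_lit 152) (nat_lit 11801194330) (nat_lit 228) (nat_lit 9927823539) (nat_lit 48) (nat_lit 5) (nat_lit 50) (nat_lit 5) (nat_lit 51) (nat_lit 5) (nat_lit 414) (nat_lit 368) (nat_lit 238))))) (XT.nd (nat_lit 234) (nat_lit 304) (nat_lit 0) (XT.nd (nat_lit 78) (nat_lit 152) (nat_lit 0) (XT.lf (nat_lit 0) (nat_lit 4238171748) (nat_lit 152) (nat_lit 50199526411) (nat_lit 76) (nat_lit 7998398159) (nat_lit 46) (nat_lit 5) (nat_lit 48) (nat_lit 5) (nat_lit 47) (nat_lit 5) (nat_lit 415) (nat_lit 368) (nat_lit 237)) (XT.nd (nat_lit 78) (nat_lit 152) (nat_lit 0) (XT.lf (nat_lit 0) (nat_lit 19342930406) (nat_lit 152) (nat_lit 16257308684) (nat_lit 76) (nat_lit 28925788085)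 (nat_lit 46) (nat_lit 5) (nat_lit 48) (nat_lit 5) (nat_lit 47) (nat_lit 5) (nat_lit 416) (nat_lit 368) (nat_lit 236)) (XT.lf (nat_lit 0) (nat_lit 20017059944) (nat_lit 152) (nat_lit 15495167836) (nat_lit 228) (nat_lit 31192762388) (nat_lit 44) (nat_lit 5) (nat_lit 46) (nat_lit 5) (nat_lit 47) (nat_lit 5) (nat_lit 417) (nat_lit 368) (nat_lit 235)))) (XT.nd (nat_lit 156) (nat_lit 152) (nat_lit 0) (XT.nd (nat_lit 78) (nat_lit 152) (nat_lit 0) (XT.lf (nat_lit 0) (nat_lit 52854305329) (nat_lit 228) (nat_lit 10407414041) (nat_lit 76) (nat_lit 5712966775) (nat_lit 44) (nat_lit 5) (nat_lit 47) (nat_lit 5) (nat_lit 45) (nat_lit 4) (nat_lit 418) (nat_lit 368) (nat_lit 234)) (XT.lf (nat_lit 0) (nat_lit 419769598) (nat_lit 152) (nat_lit 42995368485) (nat_lit 76) (nat_lit 27907722800) (nat_lit 42) (nat_lit 5) (nat_lit 44) (nat_lit 5) (nat_lit 43) (nat_lit 5) (nat_lit 419) (nat_lit 368) (nat_lit 233)))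 (XT.nd (nat_lit 78) (nat_lit 152) (nat_lit 0) (XT.lf (nat_lit 0) (nat_lit 17421293682) (nat_lit 152) (nat_lit 4691728770) (nat_lit 76) (nat_lit 51653403164) (nat_lit 42) (nat_lit 5) (nat_lit 44) (nat_lit 5) (nat_lit 43) (nat_lit 5) (nat_lit 420) (nat_lit 368) (nat_lit 232)) (XT.lf (nat_lit 0) (nat_lit 35856271140) (nat_lit 228) (nat_lit 39620531296) (nat_lit 76) (nat_lit 826197788) (nat_lit 40) (nat_lit 5) (nat_lit 43) (nat_lit 5) (nat_lit 41) (nat_lit 4) (nat_lit 421) (nat_lit 368) (nat_lit 231)))))) (XT.nd (nat_lit 546) (nat_lit 304) (nat_lit 0) (XT.nd (nat_lit 234) (nat_lit 304) (nat_lit 0) (XT.nd (nat_lit 78) (nat_lit 228) (nat_lit 0) (XT.lf (nat_lit 0) (nat_lit 988487054) (nat_lit 76) (nat_lit 54680351348) (nat_lit 152) (nat_lit 23274773584) (nat_lit 39) (nat_lit 5) (nat_lit 40) (nat_lit 5) (nat_lit 41) (nat_lit 4) (nat_lit 422) (nat_lit 368) (nat_lit 230)) (XT.nd (nat_lit 78) (nat_lit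 228) (nat_lit 0) (XT.lf (nat_lit 0) (nat_lit 44998403529) (nat_lit 76) (nat_lit 32141820162) (nat_lit 152) (nat_lit 4542621609) (nat_lit 39) (nat_lit 5) (nat_lit 40) (nat_lit 5) (nat_lit 41) (nat_lit 4) (nat_lit 423) (nat_lit 368) (nat_lit 229)) (XT.lf (nat_lit 0) (nat_lit 6620577964) (nat_lit 152) (nat_lit 8122080999) (nat_lit 228) (nat_lit 69799541060) (nat_lit 36) (nat_lit 5) (nat_lit 38) (nat_lit 5) (nat_lit 39) (nat_lit 5) (nat_lit 424) (nat_lit 368) (nat_lit 228)))) (XT.nd (nat_lit 156) (nat_lit 228) (nat_lit 0) (XT.nd (nat_lit 78) (nat_lit 76) (nat_lit 0) (XT.lf (nat_lit 0) (nat_lit 35735258196) (nat_lit 228) (nat_lit 34505576618) (nat_lit 76) (nat_lit 17255178770) (nat_lit 36) (nat_lit 5) (nat_lit 39) (nat_lit 5) (nat_lit 37) (nat_lit 4) (nat_lit 425) (nat_lit 368) (nat_lit 227)) (XT.lf (nat_lit 0) (nat_lit 11305240984) (nat_lit 76) (nat_lit 46779335321) (nat_lit 152) (nat_lit 32497587441)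 (nat_lit 35) (nat_lit 5) (nat_lit 36) (nat_lit 5) (nat_lit 37) (nat_lit 4) (nat_lit 426) (nat_lit 368) (nat_lit 226))) (XT.nd (nat_lit 78) (nat_lit 228) (nat_lit 0) (XT.lf (nat_lit 0) (nat_lit 60599911738) (nat_lit 76) (nat_lit 21533300485) (nat_lit 152) (nat_lit 11660316950) (nat_lit 35) (nat_lit 5) (nat_lit 36) (nat_lit 5) (nat_lit 37) (nat_lit 4) (nat_lit 427) (nat_lit 368) (nat_lit 225)) (XT.lf (nat_lit 0) (nat_lit 10215962321) (nat_lit 228) (nat_lit 81702959655) (nat_lit 76) (nat_lit 5222353432) (nat_lit 32) (nat_lit 5) (nat_lit 35) (nat_lit 5) (nat_lit 33) (nat_lit 4) (nat_lit 428) (nat_lit 368) (nat_lit 224))))) (XT.nd (nat_lit 234) (nat_lit 228) (nat_lit 0) (XT.nd (nat_lit 78) (nat_lit 76) (nat_lit 0) (XT.lf (nat_lit 0) (nat_lit 33716141398) (nat_lit 228) (nat_lit 33531940136) (nat_lit 76) (nat_lit 33352672642) (nat_lit 32) (nat_lit 5) (nat_lit 35) (nat_lit 5) (nat_lit 33) (nat_lit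 4) (nat_lit 429) (nat_lit 368) (nat_lit 223)) (XT.nd (nat_lit 78) (nat_lit 0) (nat_lit 0) (XT.lf (nat_lit 0) (nat_lit 17606856398) (nat_lit 76) (nat_lit 41057059193) (nat_lit 152) (nat_lit 45555662272) (nat_lit 31) (nat_lit 5) (nat_lit 32) (nat_lit 5) (nat_lit 33) (nat_lit 4) (nat_lit 430) (nat_lit 368) (nat_lit 222)) (XT.lf (nat_lit 0) (nat_lit 72462512090) (nat_lit 76) (nat_lit 12962183541) (nat_lit 152) (nat_lit 22566366521) (nat_lit 31) (nat_lit 5) (nat_lit 32) (nat_lit 5) (nat_lit 33) (nat_lit 4) (nat_lit 431) (nat_lit 368) (nat_lit 221)))) (XT.nd (nat_lit 156) (nat_lit 76) (nat_lit 0) (XT.nd (nat_lit 78) (nat_lit 0) (nat_lit 0) (XT.lf (nat_lit 0) (nat_lit 2074858246) (nat_lit 152) (nat_lit 93519749704) (nat_lit 76) (nat_lit 16327645948) (nat_lit 29) (nat_lit 5) (nat_lit 31) (nat_lit 5) (nat_lit 30) (nat_lit 4) (nat_lit 432) (nat_lit 368) (nat_lit 220)) (XT.lf (nat_lit 0) (nat_lit 28011639592)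 (nat_lit 152) (nat_lit 40352754395) (nat_lit 76) (nat_lit 47626020800) (nat_lit 29) (nat_lit 5) (nat_lit 31) (nat_lit 5) (nat_lit 30) (nat_lit 4) (nat_lit 433) (nat_lit 368) (nat_lit 219))) (XT.nd (nat_lit 78) (nat_lit 0) (nat_lit 0) (XT.lf (nat_lit 0) (nat_lit 15980133854) (nat_lit 76) (nat_lit 39512545975) (nat_lit 152) (nat_lit 64756933126) (nat_lit 28) (nat_lit 5) (nat_lit 29) (nat_lit 5) (nat_lit 30) (nat_lit 4) (nat_lit 434) (nat_lit 368) (nat_lit 218)) (XT.lf (nat_lit 0) (nat_lit 76526765365) (nat_lit 76) (nat_lit 8502363860) (nat_lit 152) (nat_lit 39658574165) (nat_lit 28) (nat_lit 5) (nat_lit 29) (nat_lit 5) (nat_lit 30) (nat_lit 4) (nat_lit 435) (nat_lit 368) (nat_lit 217))))))) (XT.nd (nat_lit 1014) (nat_lit 456) (nat_lit 0) (XT.nd (nat_lit 468) (nat_lit 380) (nat_lit 0) (XT.nd (nat_lit 234) (nat_lit 76) (nat_lit 0) (XT.nd (nat_lit 78) (nat_lit 152) (nat_lit 0) (XT.lf (nat_lit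 0) (nat_lit 10716668453) (nat_lit 76) (nat_lit 105866701386) (nat_lit 76) (nat_lit 12737280275) (nat_lit 27) (nat_lit 4) (nat_lit 28) (nat_lit 5) (nat_lit 28) (nat_lit 4) (nat_lit 436) (nat_lit 368) (nat_lit 216)) (XT.nd (nat_lit 78) (nat_lit 76) (nat_lit 0) (XT.lf (nat_lit 0) (nat_lit 15999439482) (nat_lit 152) (nat_lit 60333239214) (nat_lit 76) (nat_lit 57792121230) (nat_lit 26) (nat_lit 5) (nat_lit 28) (nat_lit 5) (nat_lit 27) (nat_lit 4) (nat_lit 437) (nat_lit 368) (nat_lit 215)) (XT.lf (nat_lit 0) (nat_lit 659779323) (nat_lit 76) (nat_lit 45093592101) (nat_lit 152) (nat_lit 93404923971) (nat_lit 25) (nat_lit 5) (nat_lit 26) (nat_lit 5) (nat_lit 27) (nat_lit 4) (nat_lit 438) (nat_lit 368) (nat_lit 214)))) (XT.nd (nat_lit 78) (nat_lit 76) (nat_lit 0) (XT.lf (nat_lit 0) (nat_lit 66793569983) (nat_lit 76) (nat_lit 11221368056) (nat_lit 152) (nat_lit 66377530864) (nat_lit 25) (nat_lit 5)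 (nat_lit 26) (nat_lit 5) (nat_lit 27) (nat_lit 4) (nat_lit 439) (nat_lit 368) (nat_lit 213)) (XT.nd (nat_lit 78) (nat_lit 76) (nat_lit 0) (XT.lf (nat_lit 0) (nat_lit 112267896224) (nat_lit 152) (nat_lit 14037794201) (nat_lit 0) (nat_lit 23563745160) (nat_lit 25) (nat_lit 5) (nat_lit 27) (nat_lit 4) (nat_lit 25) (nat_lit 4) (nat_lit 440) (nat_lit 368) (nat_lit 212)) (XT.lf (nat_lit 0) (nat_lit 54250518649) (nat_lit 76) (nat_lit 95012255423) (nat_lit 76) (nat_lit 6306013095) (nat_lit 24) (nat_lit 4) (nat_lit 25) (nat_lit 5) (nat_lit 25) (nat_lit 4) (nat_lit 441) (nat_lit 368) (nat_lit 211))))) (XT.nd (nat_lit 234) (nat_lit 228) (nat_lit 0) (XT.nd (nat_lit 78) (nat_lit 76) (nat_lit 0) (XT.lf (nat_lit 0) (nat_lit 25944336019) (nat_lit 152) (nat_lit 35522345169) (nat_lit 76) (nat_lit 100053698453) (nat_lit 23) (nat_lit 5) (nat_lit 25) (nat_lit 5) (nat_lit 24) (nat_lit 4) (nat_lit 442) (nat_lit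 368) (nat_lit 210)) (XT.nd (nat_lit 78) (nat_lit 0) (nat_lit 0) (XT.lf (nat_lit 0) (nat_lit 34563138965) (nat_lit 76) (nat_lit 25570163382) (nat_lit 152) (nat_lit 107604179504) (nat_lit 22) (nat_lit 5) (nat_lit 23) (nat_lit 5) (nat_lit 24) (nat_lit 4) (nat_lit 443) (nat_lit 368) (nat_lit 209)) (XT.lf (nat_lit 0) (nat_lit 96830814403) (nat_lit 152) (nat_lit 65051415011) (nat_lit 0) (nat_lit 12343255012) (nat_lit 22) (nat_lit 5) (nat_lit 24) (nat_lit 4) (nat_lit 22) (nat_lit 4) (nat_lit 444) (nat_lit 368) (nat_lit 208)))) (XT.nd (nat_lit 156) (nat_lit 152) (nat_lit 0) (XT.nd (nat_lit 78) (nat_lit 0) (nat_lit 0) (XT.lf (nat_lit 0) (nat_lit 6255746374) (nat_lit 76) (nat_lit 129622786153) (nat_lit 76) (nat_lit 45133588201) (nat_lit 21) (nat_lit 4) (nat_lit 22) (nat_lit 5) (nat_lit 22) (nat_lit 4) (nat_lit 445) (nat_lit 368) (nat_lit 207)) (XT.lf (nat_lit 0) (nat_lit 83383798866) (nat_lit 76) (nat_lit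 94595019738) (nat_lit 76) (nat_lit 10104261252) (nat_lit 21) (nat_lit 4) (nat_lit 22) (nat_lit 5) (nat_lit 22) (nat_lit 4) (nat_lit 446) (nat_lit 368) (nat_lit 206))) (XT.nd (nat_lit 78) (nat_lit 76) (nat_lit 0) (XT.lf (nat_lit 0) (nat_lit 25821269025) (nat_lit 152) (nat_lit 31558643205) (nat_lit 76) (nat_lit 138106922414) (nat_lit 20) (nat_lit 5) (nat_lit 22) (nat_lit 5) (nat_lit 21) (nat_lit 4) (nat_lit 447) (nat_lit 368) (nat_lit 205)) (XT.lf (nat_lit 0) (nat_lit 46560943017) (nat_lit 76) (nat_lit 17368131702) (nat_lit 152) (nat_lit 139287141952) (nat_lit 19) (nat_lit 5) (nat_lit 20) (nat_lit 5) (nat_lit 21) (nat_lit 4) (nat_lit 448) (nat_lit 368) (nat_lit 204)))))) (XT.nd (nat_lit 546) (nat_lit 228) (nat_lit 0) (XT.nd (nat_lit 234) (nat_lit 152) (nat_lit 0) (XT.nd (nat_lit 78) (nat_lit 76) (nat_lit 0) (XT.lf (nat_lit 0) (nat_lit 104868884815) (nat_lit 152) (nat_lit 82019403944) (nat_lit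 0) (nat_lit 24397448429) (nat_lit 19) (nat_lit 5) (nat_lit 21) (nat_lit 4) (nat_lit 19) (nat_lit 4) (nat_lit 449) (nat_lit 368) (nat_lit 203)) (XT.nd (nat_lit 78) (nat_lit 76) (nat_lit 0) (XT.lf (nat_lit 0) (nat_lit 148139100269) (nat_lit 152) (nat_lit 3939021644) (nat_lit 0) (nat_lit 67666441163) (nat_lit 19) (nat_lit 5) (nat_lit 21) (nat_lit 4) (nat_lit 19) (nat_lit 4) (nat_lit 450) (nat_lit 368) (nat_lit 202)) (XT.lf (nat_lit 0) (nat_lit 80623396310) (nat_lit 76) (nat_lit 114206941046) (nat_lit 76) (nat_lit 33733117447) (nat_lit 18) (nat_lit 4) (nat_lit 19) (nat_lit 5) (nat_lit 19) (nat_lit 4) (nat_lit 451) (nat_lit 368) (nat_lit 201)))) (XT.nd (nat_lit 156) (nat_lit 0) (nat_lit 0) (XT.nd (nat_lit 78) (nat_lit 76) (nat_lit 0) (XT.lf (nat_lit 0) (nat_lit 5906314773) (nat_lit 152) (nat_lit 68366987355) (nat_lit 76) (nat_lit 163541951668) (nat_lit 17) (nat_lit 5) (nat_lit 19) (nat_lit 5)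 (nat_lit 18) (nat_lit 4) (nat_lit 452) (nat_lit 368) (nat_lit 200)) (XT.lf (nat_lit 0) (nat_lit 15113128396) (nat_lit 76) (nat_lit 31515709295) (nat_lit 152) (nat_lit 200861416373) (nat_lit 16) (nat_lit 5) (nat_lit 17) (nat_lit 5) (nat_lit 18) (nat_lit 4) (nat_lit 453) (nat_lit 368) (nat_lit 199))) (XT.nd (nat_lit 78) (nat_lit 0) (nat_lit 0) (XT.lf (nat_lit 0) (nat_lit 90772009198) (nat_lit 152) (nat_lit 152680516856) (nat_lit 0) (nat_lit 14127252240) (nat_lit 16) (nat_lit 5) (nat_lit 18) (nat_lit 4) (nat_lit 16) (nat_lit 4) (nat_lit 454) (nat_lit 368) (nat_lit 198)) (XT.lf (nat_lit 0) (nat_lit 137637864581) (nat_lit 152) (nat_lit 69517942747) (nat_lit 0) (nat_lit 60992195211) (nat_lit 16) (nat_lit 5) (nat_lit 18) (nat_lit 4) (nat_lit 16) (nat_lit 4) (nat_lit 455) (nat_lit 368) (nat_lit 197))))) (XT.nd (nat_lit 234) (nat_lit 152) (nat_lit 0) (XT.nd (nat_lit 78) (nat_lit 0) (nat_lit 0) (XT.lf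 (nat_lit 0) (nat_lit 18389221255) (nat_lit 76) (nat_lit 168743826688) (nat_lit 76) (nat_lit 92097288354) (nat_lit 15) (nat_lit 4) (nat_lit 16) (nat_lit 5) (nat_lit 16) (nat_lit 4) (nat_lit 456) (nat_lit 368) (nat_lit 196)) (XT.nd (nat_lit 78) (nat_lit 0) (nat_lit 0) (XT.lf (nat_lit 0) (nat_lit 113103174729) (nat_lit 76) (nat_lit 127176082332) (nat_lit 76) (nat_lit 50528716414) (nat_lit 15) (nat_lit 4) (nat_lit 16) (nat_lit 5) (nat_lit 16) (nat_lit 4) (nat_lit 457) (nat_lit 368) (nat_lit 195)) (XT.lf (nat_lit 0) (nat_lit 212550849950) (nat_lit 76) (nat_lit 83530923438) (nat_lit 76) (nat_lit 6882769344) (nat_lit 15) (nat_lit 4) (nat_lit 16) (nat_lit 5) (nat_lit 16) (nat_lit 4) (nat_lit 458) (nat_lit 368) (nat_lit 194)))) (XT.nd (nat_lit 156) (nat_lit 0) (nat_lit 0) (XT.nd (nat_lit 78) (nat_lit 0) (nat_lit 0) (XT.lf (nat_lit 0) (nat_lit 652903457) (nat_lit 76) (nat_lit 37055295661) (nat_lit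 152) (nat_lit 277989877862) (nat_lit 13) (nat_lit 5) (nat_lit 14) (nat_lit 5) (nat_lit 15) (nat_lit 4) (nat_lit 459) (nat_lit 368) (nat_lit 193)) (XT.lf (nat_lit 0) (nat_lit 86036100771) (nat_lit 152) (nat_lit 229903148036) (nat_lit 0) (nat_lit 13036463023) (nat_lit 13) (nat_lit 5) (nat_lit 15) (nat_lit 4) (nat_lit 13) (nat_lit 4) (nat_lit 460) (nat_lit 368) (nat_lit 192))) (XT.nd (nat_lit 78) (nat_lit 0) (nat_lit 0) (XT.lf (nat_lit 0) (nat_lit 137386938659) (nat_lit 152) (nat_lit 141113310275) (nat_lit 0) (nat_lit 64386652477) (nat_lit 13) (nat_lit 5) (nat_lit 15) (nat_lit 4) (nat_lit 13) (nat_lit 4) (nat_lit 461) (nat_lit 368) (nat_lit 191)) (XT.lf (nat_lit 0) (nat_lit 191304439671) (nat_lit 152) (nat_lit 47885718852) (nat_lit 0) (nat_lit 118303535932) (nat_lit 13) (nat_lit 5) (nat_lit 15) (nat_lit 4) (nat_lit 13) (nat_lit 4) (nat_lit 462) (nat_lit 368) (nat_lit 190))))))))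
noncomputable def xc165 : XT := (XT.nd (nat_lit 46566) (nat_lit 0) (nat_lit 4028) (XT.nd (nat_lit 1014) (nat_lit 152) (nat_lit 0) (XT.nd (nat_lit 468) (nat_lit 76) (nat_lit 0) (XT.nd (nat_lit 234) (nat_lit 152) (nat_lit 0) (XT.nd (nat_lit 78) (nat_lit 0) (nat_lit 0) (XT.lf (nat_lit 0) (nat_lit 51654875286) (nat_lit 76) (nat_lit 197068580888) (nat_lit 76) (nat_lit 124067089000) (nat_lit 12) (nat_lit 4) (nat_lit 13) (nat_lit 5) (nat_lit 13) (nat_lit 4) (nat_lit 463) (nat_lit 368) (nat_lit 189)) (XT.nd (nat_lit 78) (nat_lit 0) (nat_lit 0) (XT.lf (nat_lit 0) (nat_lit 157833354408) (nat_lit 76) (nat_lit 151990214412) (nat_lit 76) (nat_lit 78988162383) (nat_lit 12) (nat_lit 4) (nat_lit 13) (nat_lit 5) (nat_lit 13) (nat_lit 4) (nat_lit 464) (nat_lit 368) (nat_lit 188)) (XT.lf (nat_lit 0) (nat_lit 269319206292) (nat_lit 76) (nat_lit 104658697472) (nat_lit 76) (nat_lit 31656111975) (nat_lit 12) (nat_lit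 4) (nat_lit 13) (nat_lit 5) (nat_lit 13) (nat_lit 4) (nat_lit 465) (nat_lit 368) (nat_lit 187)))) (XT.nd (nat_lit 78) (nat_lit 76) (nat_lit 0) (XT.lf (nat_lit 0) (nat_lit 17464308666) (nat_lit 152) (nat_lit 37201260795) (nat_lit 76) (nat_lit 368617798260) (nat_lit 11) (nat_lit 5) (nat_lit 13) (nat_lit 5) (nat_lit 12) (nat_lit 4) (nat_lit 466) (nat_lit 368) (nat_lit 186)) (XT.nd (nat_lit 78) (nat_lit 0) (nat_lit 0) (XT.lf (nat_lit 0) (nat_lit 68541332429) (nat_lit 76) (nat_lit 504965064) (nat_lit 152) (nat_lit 372689472205) (nat_lit 10) (nat_lit 5) (nat_lit 11) (nat_lit 5) (nat_lit 12) (nat_lit 4) (nat_lit 467) (nat_lit 368) (nat_lit 185)) (XT.lf (nat_lit 0) (nat_lit 124727009497) (nat_lit 152) (nat_lit 281108447114) (nat_lit 0) (nat_lit 55199354008) (nat_lit 10) (nat_lit 5) (nat_lit 12) (nat_lit 4) (nat_lit 10) (nat_lit 4) (nat_lit 468) (nat_lit 368) (nat_lit 184))))) (XT.nd (nat_lit 234)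 (nat_lit 0) (nat_lit 0) (XT.nd (nat_lit 78) (nat_lit 76) (nat_lit 0) (XT.lf (nat_lit 0) (nat_lit 183199348857) (nat_lit 152) (nat_lit 184427799791) (nat_lit 0) (nat_lit 113671275381) (nat_lit 10) (nat_lit 5) (nat_lit 12) (nat_lit 4) (nat_lit 10) (nat_lit 4) (nat_lit 469) (nat_lit 368) (nat_lit 183)) (XT.nd (nat_lit 78) (nat_lit 76) (nat_lit 0) (XT.lf (nat_lit 0) (nat_lit 244594651509) (nat_lit 152) (nat_lit 82914419363) (nat_lit 0) (nat_lit 175066179952) (nat_lit 10) (nat_lit 5) (nat_lit 12) (nat_lit 4) (nat_lit 10) (nat_lit 4) (nat_lit 470) (nat_lit 368) (nat_lit 182)) (XT.lf (nat_lit 0) (nat_lit 24456141969) (nat_lit 76) (nat_lit 284984783690) (nat_lit 76) (nat_lit 215455933007) (nat_lit 9) (nat_lit 4) (nat_lit 10) (nat_lit 5) (nat_lit 10) (nat_lit 4) (nat_lit 471) (nat_lit 368) (nat_lit 181)))) (XT.nd (nat_lit 156) (nat_lit 0) (nat_lit 0) (XT.nd (nat_lit 78) (nat_lit 0) (nat_lit 0) (XT.lf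 (nat_lit 0) (nat_lit 140072615350) (nat_lit 76) (nat_lit 238860482069) (nat_lit 76) (nat_lit 169331270313) (nat_lit 9) (nat_lit 4) (nat_lit 10) (nat_lit 5) (nat_lit 10) (nat_lit 4) (nat_lit 472) (nat_lit 368) (nat_lit 180)) (XT.lf (nat_lit 0) (nat_lit 261468752940) (nat_lit 76) (nat_lit 190430542055) (nat_lit 76) (nat_lit 120900986421) (nat_lit 9) (nat_lit 4) (nat_lit 10) (nat_lit 5) (nat_lit 10) (nat_lit 4) (nat_lit 473) (nat_lit 368) (nat_lit 179))) (XT.nd (nat_lit 78) (nat_lit 0) (nat_lit 0) (XT.lf (nat_lit 0) (nat_lit 388933593161) (nat_lit 76) (nat_lit 139579654268) (nat_lit 76) (nat_lit 70049771130) (nat_lit 9) (nat_lit 4) (nat_lit 10) (nat_lit 5) (nat_lit 10) (nat_lit 4) (nat_lit 474) (nat_lit 368) (nat_lit 178)) (XT.lf (nat_lit 0) (nat_lit 522770623729) (nat_lit 76) (nat_lit 86186745164) (nat_lit 76) (nat_lit 16656550119) (nat_lit 9) (nat_lit 4) (nat_lit 10) (nat_lit 5) (nat_lit 10)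 (nat_lit 4) (nat_lit 475) (nat_lit 368) (nat_lit 177)))))) (XT.nd (nat_lit 45006) (nat_lit 0) (nat_lit 8512) (XT.nd (nat_lit 234) (nat_lit 0) (nat_lit 0) (XT.nd (nat_lit 78) (nat_lit 0) (nat_lit 0) (XT.lf (nat_lit 0) (nat_lit 8952412647) (nat_lit 76) (nat_lit 29331931131) (nat_lit 152) (nat_lit 615695295538) (nat_lit 7) (nat_lit 5) (nat_lit 8) (nat_lit 5) (nat_lit 9) (nat_lit 4) (nat_lit 476) (nat_lit 368) (nat_lit 176)) (XT.nd (nat_lit 78) (nat_lit 0) (nat_lit 0) (XT.lf (nat_lit 0) (nat_lit 97656348227) (nat_lit 152) (nat_lit 554544890257) (nat_lit 0) (nat_lit 31436562503) (nat_lit 7) (nat_lit 5) (nat_lit 9) (nat_lit 4) (nat_lit 7) (nat_lit 4) (nat_lit 477) (nat_lit 368) (nat_lit 175)) (XT.lf (nat_lit 0) (nat_lit 160477317783) (nat_lit 152) (nat_lit 460020259281) (nat_lit 0) (nat_lit 94257275452) (nat_lit 7) (nat_lit 5) (nat_lit 9) (nat_lit 4) (nat_lit 7) (nat_lit 4) (nat_lit 478) (nat_lit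 368) (nat_lit 174)))) (XT.nd (nat_lit 44616) (nat_lit 0) (nat_lit 8436) (XT.nd (nat_lit 44538) (nat_lit 0) (nat_lit 8436) (XT.lf (nat_lit 0) (nat_lit 226438872538) (nat_lit 152) (nat_lit 360770321448) (nat_lit 0) (nat_lit 160218585819) (nat_lit 7) (nat_lit 5) (nat_lit 9) (nat_lit 4) (nat_lit 7) (nat_lit 4) (nat_lit 479) (nat_lit 368) (nat_lit 173)) (XT.lf (nat_lit 0) (nat_lit 777476872) (nat_lit 836) (nat_lit 3835774622) (nat_lit 836) (nat_lit 3835774622) (nat_lit 118) (nat_lit 3) (nat_lit 129) (nat_lit 3) (nat_lit 129) (nat_lit 5) (nat_lit 369) (nat_lit 369) (nat_lit 282))) (XT.nd (nat_lit 78) (nat_lit 0) (nat_lit 76) (XT.lf (nat_lit 76) (nat_lit 557595301) (nat_lit 0) (nat_lit 1272744753) (nat_lit 836) (nat_lit 15478213261) (nat_lit 119) (nat_lit 5) (nat_lit 118) (nat_lit 3) (nat_lit 129) (nat_lit 5) (nat_lit 370) (nat_lit 369) (nat_lit 281)) (XT.lf (nat_lit 0) (nat_lit 2347465334) (nat_lit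 760) (nat_lit 8389958061) (nat_lit 836) (nat_lit 6990765551) (nat_lit 119) (nat_lit 5) (nat_lit 129) (nat_lit 5) (nat_lit 130) (nat_lit 5) (nat_lit 371) (nat_lit 369) (nat_lit 280))))) (XT.nd (nat_lit 234) (nat_lit 0) (nat_lit 152) (XT.nd (nat_lit 78) (nat_lit 0) (nat_lit 76) (XT.lf (nat_lit 76) (nat_lit 371781412) (nat_lit 0) (nat_lit 2531429948) (nat_lit 836) (nat_lit 15264964369) (nat_lit 120) (nat_lit 5) (nat_lit 119) (nat_lit 5) (nat_lit 130) (nat_lit 5) (nat_lit 372) (nat_lit 369) (nat_lit 279)) (XT.nd (nat_lit 78) (nat_lit 0) (nat_lit 0) (XT.lf (nat_lit 0) (nat_lit 3712873539) (nat_lit 760) (nat_lit 8866467151) (nat_lit 836) (nat_lit 6039521954) (nat_lit 120) (nat_lit 5) (nat_lit 130) (nat_lit 5) (nat_lit 131) (nat_lit 5) (nat_lit 373) (nat_lit 369) (nat_lit 278)) (XT.lf (nat_lit 76) (nat_lit 475124592) (nat_lit 0) (nat_lit 4124153753) (nat_lit 836) (nat_lit 14490999474) (nat_lit 121)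 (nat_lit 5) (nat_lit 120) (nat_lit 5) (nat_lit 131) (nat_lit 5) (nat_lit 374) (nat_lit 369) (nat_lit 277)))) (XT.nd (nat_lit 156) (nat_lit 0) (nat_lit 76) (XT.nd (nat_lit 78) (nat_lit 0) (nat_lit 0) (XT.lf (nat_lit 0) (nat_lit 5744716196) (nat_lit 760) (nat_lit 9071894914) (nat_lit 836) (nat_lit 4757923563) (nat_lit 121) (nat_lit 5) (nat_lit 131) (nat_lit 5) (nat_lit 132) (nat_lit 5) (nat_lit 375) (nat_lit 369) (nat_lit 276)) (XT.lf (nat_lit 76) (nat_lit 901113673) (nat_lit 0) (nat_lit 6116440982) (nat_lit 836) (nat_lit 13061949529) (nat_lit 122) (nat_lit 5) (nat_lit 121) (nat_lit 5) (nat_lit 132) (nat_lit 5) (nat_lit 376) (nat_lit 369) (nat_lit 275))) (XT.nd (nat_lit 78) (nat_lit 0) (nat_lit 0) (XT.lf (nat_lit 0) (nat_lit 8546230472) (nat_lit 760) (nat_lit 8973070483) (nat_lit 836) (nat_lit 3080817396) (nat_lit 122) (nat_lit 5) (nat_lit 132) (nat_lit 5) (nat_lit 133) (nat_lit 5) (nat_lit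 377) (nat_lit 369) (nat_lit 274)) (XT.lf (nat_lit 76) (nat_lit 1687584048) (nat_lit 0) (nat_lit 8579810529) (nat_lit 836) (nat_lit 10873571593) (nat_lit 123) (nat_lit 5) (nat_lit 122) (nat_lit 5) (nat_lit 133) (nat_lit 5) (nat_lit 378) (nat_lit 369) (nat_lit 273))))))) (XT.nd (nat_lit 1014) (nat_lit 1900) (nat_lit 0) (XT.nd (nat_lit 468) (nat_lit 1292) (nat_lit 0) (XT.nd (nat_lit 234) (nat_lit 836) (nat_lit 0) (XT.nd (nat_lit 78) (nat_lit 760) (nat_lit 0) (XT.lf (nat_lit 0) (nat_lit 12231498196) (nat_lit 760) (nat_lit 8532623724) (nat_lit 76) (nat_lit 936895791) (nat_lit 123) (nat_lit 5) (nat_lit 133) (nat_lit 5) (nat_lit 124) (nat_lit 5) (nat_lit 379) (nat_lit 369) (nat_lit 272)) (XT.nd (nat_lit 78) (nat_lit 0) (nat_lit 0) (XT.lf (nat_lit 0) (nat_lit 2876956514) (nat_lit 760) (nat_lit 11592737305) (nat_lit 836) (nat_lit 7810588812) (nat_lit 113) (nat_lit 5) (nat_lit 123) (nat_lit 5) (nat_lit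 124) (nat_lit 5) (nat_lit 380) (nat_lit 369) (nat_lit 271)) (XT.lf (nat_lit 0) (nat_lit 15144744592) (nat_lit 760) (nat_lit 1810203904) (nat_lit 836) (nat_lit 5926809734) (nat_lit 113) (nat_lit 5) (nat_lit 123) (nat_lit 5) (nat_lit 124) (nat_lit 5) (nat_lit 381) (nat_lit 369) (nat_lit 270)))) (XT.nd (nat_lit 78) (nat_lit 456) (nat_lit 0) (XT.lf (nat_lit 0) (nat_lit 4516501270) (nat_lit 380) (nat_lit 15241690194) (nat_lit 456) (nat_lit 3745434530) (nat_lit 108) (nat_lit 5) (nat_lit 113) (nat_lit 5) (nat_lit 114) (nat_lit 5) (nat_lit 382) (nat_lit 369) (nat_lit 269)) (XT.nd (nat_lit 78) (nat_lit 456) (nat_lit 0) (XT.lf (nat_lit 0) (nat_lit 17612222597) (nat_lit 380) (nat_lit 5240996290) (nat_lit 456) (nat_lit 1295791586) (nat_lit 108) (nat_lit 5) (nat_lit 113) (nat_lit 5) (nat_lit 114) (nat_lit 5) (nat_lit 383) (nat_lit 369) (nat_lit 268)) (XT.lf (nat_lit 0) (nat_lit 1416281715) (nat_lit 456)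 (nat_lit 18181992893) (nat_lit 76) (nat_lit 5218357296) (nat_lit 102) (nat_lit 5) (nat_lit 108) (nat_lit 5) (nat_lit 103) (nat_lit 5) (nat_lit 384) (nat_lit 369) (nat_lit 267))))) (XT.nd (nat_lit 234) (nat_lit 912) (nat_lit 0) (XT.nd (nat_lit 78) (nat_lit 380) (nat_lit 0) (XT.lf (nat_lit 0) (nat_lit 4410782395) (nat_lit 456) (nat_lit 4938068922) (nat_lit 76) (nat_lit 16158206262) (nat_lit 102) (nat_lit 5) (nat_lit 108) (nat_lit 5) (nat_lit 103) (nat_lit 5) (nat_lit 385) (nat_lit 369) (nat_lit 266)) (XT.nd (nat_lit 78) (nat_lit 0) (nat_lit 0) (XT.lf (nat_lit 0) (nat_lit 7716263911) (nat_lit 456) (nat_lit 16993450015) (nat_lit 76) (nat_lit 1514231474) (nat_lit 97) (nat_lit 5) (nat_lit 103) (nat_lit 5) (nat_lit 98) (nat_lit 5) (nat_lit 386) (nat_lit 369) (nat_lit 265)) (XT.lf (nat_lit 0) (nat_lit 11417828436) (nat_lit 456) (nat_lit 2856600958) (nat_lit 76) (nat_lit 12690711253) (nat_lit 97)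 (nat_lit 5) (nat_lit 103) (nat_lit 5) (nat_lit 98) (nat_lit 5) (nat_lit 387) (nat_lit 369) (nat_lit 264)))) (XT.nd (nat_lit 156) (nat_lit 608) (nat_lit 0) (XT.nd (nat_lit 78) (nat_lit 0) (nat_lit 0) (XT.lf (nat_lit 0) (nat_lit 12375172925) (nat_lit 304) (nat_lit 3115413705) (nat_lit 380) (nat_lit 12243506568) (nat_lit 93) (nat_lit 5) (nat_lit 97) (nat_lit 5) (nat_lit 98) (nat_lit 5) (nat_lit 388) (nat_lit 369) (nat_lit 263)) (XT.lf (nat_lit 0) (nat_lit 19943551918) (nat_lit 380) (nat_lit 214654796) (nat_lit 76) (nat_lit 8374461358) (nat_lit 93) (nat_lit 5) (nat_lit 98) (nat_lit 5) (nat_lit 94) (nat_lit 5) (nat_lit 389) (nat_lit 369) (nat_lit 262))) (XT.nd (nat_lit 78) (nat_lit 304) (nat_lit 0) (XT.lf (nat_lit 0) (nat_lit 16144669338) (nat_lit 304) (nat_lit 8771064250) (nat_lit 380) (nat_lit 4440612702) (nat_lit 89) (nat_lit 5) (nat_lit 93) (nat_lit 5) (nat_lit 94) (nat_lit 5) (nat_lit 390)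 (nat_lit 369) (nat_lit 261)) (XT.lf (nat_lit 0) (nat_lit 15837459) (nat_lit 304) (nat_lit 27065183601) (nat_lit 76) (nat_lit 3135365640) (nat_lit 85) (nat_lit 5) (nat_lit 89) (nat_lit 5) (nat_lit 86) (nat_lit 5) (nat_lit 391) (nat_lit 369) (nat_lit 260)))))) (XT.nd (nat_lit 546) (nat_lit 836) (nat_lit 0) (XT.nd (nat_lit 234) (nat_lit 760) (nat_lit 0) (XT.nd (nat_lit 78) (nat_lit 304) (nat_lit 0) (XT.lf (nat_lit 0) (nat_lit 4910760316) (nat_lit 304) (nat_lit 10545658218) (nat_lit 76) (nat_lit 15641129149) (nat_lit 85) (nat_lit 5) (nat_lit 89) (nat_lit 5) (nat_lit 86) (nat_lit 5) (nat_lit 392) (nat_lit 369) (nat_lit 259)) (XT.nd (nat_lit 78) (nat_lit 0) (nat_lit 0) (XT.lf (nat_lit 0) (nat_lit 7016736827) (nat_lit 304) (nat_lit 3137226124) (nat_lit 380) (nat_lit 21863629557) (nat_lit 81) (nat_lit 5) (nat_lit 85) (nat_lit 5) (nat_lit 86) (nat_lit 5) (nat_lit 393) (nat_lit 369) (nat_lit 258))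 (XT.lf (nat_lit 0) (nat_lit 15987946859) (nat_lit 380) (nat_lit 7315067685) (nat_lit 76) (nat_lit 9664196329) (nat_lit 81) (nat_lit 5) (nat_lit 86) (nat_lit 5) (nat_lit 82) (nat_lit 5) (nat_lit 394) (nat_lit 369) (nat_lit 257)))) (XT.nd (nat_lit 156) (nat_lit 532) (nat_lit 0) (XT.nd (nat_lit 78) (nat_lit 0) (nat_lit 0) (XT.lf (nat_lit 0) (nat_lit 11566316925) (nat_lit 228) (nat_lit 10773729817) (nat_lit 304) (nat_lit 11612944819) (nat_lit 78) (nat_lit 5) (nat_lit 81) (nat_lit 5) (nat_lit 82) (nat_lit 5) (nat_lit 395) (nat_lit 369) (nat_lit 256)) (XT.lf (nat_lit 0) (nat_lit 29167383294) (nat_lit 304) (nat_lit 3382936274) (nat_lit 76) (nat_lit 2429862265) (nat_lit 78) (nat_lit 5) (nat_lit 82) (nat_lit 5) (nat_lit 79) (nat_lit 5) (nat_lit 396) (nat_lit 369) (nat_lit 255))) (XT.nd (nat_lit 78) (nat_lit 228) (nat_lit 0) (XT.lf (nat_lit 0) (nat_lit 711333459) (nat_lit 304) (nat_lit 19119438070)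 (nat_lit 76) (nat_lit 16205602740) (nat_lit 74) (nat_lit 5) (nat_lit 78) (nat_lit 5) (nat_lit 75) (nat_lit 5) (nat_lit 397) (nat_lit 369) (nat_lit 254)) (XT.lf (nat_lit 0) (nat_lit 1139708569) (nat_lit 228) (nat_lit 6297479709) (nat_lit 304) (nat_lit 29699882087) (nat_lit 71) (nat_lit 5) (nat_lit 74) (nat_lit 5) (nat_lit 75) (nat_lit 5) (nat_lit 398) (nat_lit 369) (nat_lit 253))))) (XT.nd (nat_lit 234) (nat_lit 608) (nat_lit 0) (XT.nd (nat_lit 78) (nat_lit 228) (nat_lit 0) (XT.lf (nat_lit 0) (nat_lit 14946916972) (nat_lit 304) (nat_lit 15337238365) (nat_lit 76) (nat_lit 7986268630) (nat_lit 71) (nat_lit 5) (nat_lit 75) (nat_lit 5) (nat_lit 72) (nat_lit 5) (nat_lit 399) (nat_lit 369) (nat_lit 252)) (XT.nd (nat_lit 78) (nat_lit 0) (nat_lit 0) (XT.lf (nat_lit 0) (nat_lit 6452134736) (nat_lit 228) (nat_lit 16579151703) (nat_lit 304) (nat_lit 16419202765) (nat_lit 68) (nat_lit 5) (nat_lit 71)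 (nat_lit 5) (nat_lit 72) (nat_lit 5) (nat_lit 400) (nat_lit 369) (nat_lit 251)) (XT.lf (nat_lit 0) (nat_lit 29856536393) (nat_lit 228) (nat_lit 1918384124) (nat_lit 304) (nat_lit 8901886475) (nat_lit 68) (nat_lit 5) (nat_lit 71) (nat_lit 5) (nat_lit 72) (nat_lit 5) (nat_lit 401) (nat_lit 369) (nat_lit 250)))) (XT.nd (nat_lit 156) (nat_lit 380) (nat_lit 0) (XT.nd (nat_lit 78) (nat_lit 76) (nat_lit 0) (XT.lf (nat_lit 0) (nat_lit 12654576472) (nat_lit 152) (nat_lit 28704615633) (nat_lit 228) (nat_lit 585077291) (nat_lit 66) (nat_lit 5) (nat_lit 68) (nat_lit 5) (nat_lit 69) (nat_lit 5) (nat_lit 402) (nat_lit 369) (nat_lit 249)) (XT.lf (nat_lit 0) (nat_lit 8100028966) (nat_lit 228) (nat_lit 5755597955) (nat_lit 76) (nat_lit 29402457565) (nat_lit 65) (nat_lit 5) (nat_lit 68) (nat_lit 5) (nat_lit 66) (nat_lit 5) (nat_lit 403) (nat_lit 369) (nat_lit 248))) (XT.nd (nat_lit 78) (nat_lit 152) (nat_lit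 0) (XT.lf (nat_lit 0) (nat_lit 17533171827) (nat_lit 304) (nat_lit 25088951831) (nat_lit 76) (nat_lit 1998316226) (nat_lit 62) (nat_lit 5) (nat_lit 66) (nat_lit 5) (nat_lit 63) (nat_lit 5) (nat_lit 404) (nat_lit 369) (nat_lit 247)) (XT.lf (nat_lit 0) (nat_lit 1455667) (nat_lit 152) (nat_lit 27758563352) (nat_lit 228) (nat_lit 18274792922) (nat_lit 60) (nat_lit 5) (nat_lit 62) (nat_lit 5) (nat_lit 63) (nat_lit 5) (nat_lit 405) (nat_lit 369) (nat_lit 246))))))))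
noncomputable def xc166 : XT := (XT.nd (nat_lit 2106) (nat_lit 1216) (nat_lit 0) (XT.nd (nat_lit 1014) (nat_lit 988) (nat_lit 0) (XT.nd (nat_lit 468) (nat_lit 684) (nat_lit 0) (XT.nd (nat_lit 234) (nat_lit 304) (nat_lit 0) (XT.nd (nat_lit 78) (nat_lit 228) (nat_lit 0) (XT.lf (nat_lit 0) (nat_lit 27210959201) (nat_lit 152) (nat_lit 11708052845) (nat_lit 228) (nat_lit 8579851572) (nat_lit 60) (nat_lit 5) (nat_lit 62) (nat_lit 5) (nat_lit 63) (nat_lit 5) (nat_lit 406) (nat_lit 369) (nat_lit 245)) (XT.nd (nat_lit 78) (nat_lit 0) (nat_lit 0) (XT.lf (nat_lit 0) (nat_lit 1735431056) (nat_lit 228) (nat_lit 42176587828) (nat_lit 76) (nat_lit 5113511226) (nat_lit 57) (nat_lit 5) (nat_lit 60) (nat_lit 5) (nat_lit 58) (nat_lit 5) (nat_lit 407) (nat_lit 369) (nat_lit 244)) (XT.lf (nat_lit 0) (nat_lit 12815387629) (nat_lit 228) (nat_lit 14908927985) (nat_lit 76) (nat_lit 22870320222) (nat_lit 57) (nat_lit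 5) (nat_lit 60) (nat_lit 5) (nat_lit 58) (nat_lit 5) (nat_lit 408) (nat_lit 369) (nat_lit 243)))) (XT.nd (nat_lit 78) (nat_lit 152) (nat_lit 0) (XT.lf (nat_lit 0) (nat_lit 14169594423) (nat_lit 152) (nat_lit 10497256368) (nat_lit 228) (nat_lit 27564471597) (nat_lit 55) (nat_lit 5) (nat_lit 57) (nat_lit 5) (nat_lit 58) (nat_lit 5) (nat_lit 409) (nat_lit 369) (nat_lit 242)) (XT.nd (nat_lit 78) (nat_lit 152) (nat_lit 0) (XT.lf (nat_lit 0) (nat_lit 37482365464) (nat_lit 228) (nat_lit 8846315135) (nat_lit 76) (nat_lit 7602589684) (nat_lit 55) (nat_lit 5) (nat_lit 58) (nat_lit 5) (nat_lit 56) (nat_lit 5) (nat_lit 410) (nat_lit 369) (nat_lit 241)) (XT.lf (nat_lit 0) (nat_lit 22367899171) (nat_lit 152) (nat_lit 29088573267) (nat_lit 228) (nat_lit 4233853195) (nat_lit 53) (nat_lit 5) (nat_lit 55) (nat_lit 5) (nat_lit 56) (nat_lit 5) (nat_lit 411) (nat_lit 369) (nat_lit 240))))) (XT.nd (nat_lit 234)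 (nat_lit 304) (nat_lit 0) (XT.nd (nat_lit 78) (nat_lit 304) (nat_lit 0) (XT.lf (nat_lit 0) (nat_lit 8465752930) (nat_lit 228) (nat_lit 2222312760) (nat_lit 76) (nat_lit 46835121742) (nat_lit 52) (nat_lit 5) (nat_lit 55) (nat_lit 5) (nat_lit 53) (nat_lit 5) (nat_lit 412) (nat_lit 369) (nat_lit 239)) (XT.nd (nat_lit 78) (nat_lit 152) (nat_lit 0) (XT.lf (nat_lit 0) (nat_lit 22288294767) (nat_lit 228) (nat_lit 28202186502) (nat_lit 76) (nat_lit 8922229415) (nat_lit 50) (nat_lit 5) (nat_lit 53) (nat_lit 5) (nat_lit 51) (nat_lit 5) (nat_lit 413) (nat_lit 369) (nat_lit 238)) (XT.lf (nat_lit 0) (nat_lit 4975153904) (nat_lit 152) (nat_lit 32114681729) (nat_lit 228) (nat_lit 24292481600) (nat_lit 48) (nat_lit 5) (nat_lit 50) (nat_lit 5) (nat_lit 51) (nat_lit 5) (nat_lit 414) (nat_lit 369) (nat_lit 237)))) (XT.nd (nat_lit 156) (nat_lit 152) (nat_lit 0) (XT.nd (nat_lit 78) (nat_lit 152) (nat_lit 0) (XT.lf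 (nat_lit 0) (nat_lit 40784988284) (nat_lit 152) (nat_lit 12320881729) (nat_lit 228) (nat_lit 10320813968) (nat_lit 48) (nat_lit 5) (nat_lit 50) (nat_lit 5) (nat_lit 51) (nat_lit 5) (nat_lit 415) (nat_lit 369) (nat_lit 236)) (XT.lf (nat_lit 0) (nat_lit 4549164836) (nat_lit 152) (nat_lit 52536317862) (nat_lit 76) (nat_lit 8467444808) (nat_lit 46) (nat_lit 5) (nat_lit 48) (nat_lit 5) (nat_lit 47) (nat_lit 5) (nat_lit 416) (nat_lit 369) (nat_lit 235))) (XT.nd (nat_lit 78) (nat_lit 152) (nat_lit 0) (XT.lf (nat_lit 0) (nat_lit 20404443118) (nat_lit 152) (nat_lit 16905236148) (nat_lit 76) (nat_lit 30437912480) (nat_lit 46) (nat_lit 5) (nat_lit 48) (nat_lit 5) (nat_lit 47) (nat_lit 5) (nat_lit 417) (nat_lit 369) (nat_lit 234)) (XT.lf (nat_lit 0) (nat_lit 21180190622) (nat_lit 152) (nat_lit 16200054719) (nat_lit 228) (nat_lit 32655356428) (nat_lit 44) (nat_lit 5) (nat_lit 46) (nat_lit 5) (nat_lit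 47) (nat_lit 5) (nat_lit 418) (nat_lit 369) (nat_lit 233)))))) (XT.nd (nat_lit 546) (nat_lit 380) (nat_lit 0) (XT.nd (nat_lit 234) (nat_lit 456) (nat_lit 0) (XT.nd (nat_lit 78) (nat_lit 152) (nat_lit 0) (XT.lf (nat_lit 0) (nat_lit 55586065417) (nat_lit 228) (nat_lit 10769856459) (nat_lit 76) (nat_lit 6063029574) (nat_lit 44) (nat_lit 5) (nat_lit 47) (nat_lit 5) (nat_lit 45) (nat_lit 4) (nat_lit 419) (nat_lit 369) (nat_lit 232)) (XT.nd (nat_lit 78) (nat_lit 0) (nat_lit 0) (XT.lf (nat_lit 0) (nat_lit 529434064) (nat_lit 152) (nat_lit 44986808624) (nat_lit 76) (nat_lit 29368312237) (nat_lit 42) (nat_lit 5) (nat_lit 44) (nat_lit 5) (nat_lit 43) (nat_lit 5) (nat_lit 420) (nat_lit 369) (nat_lit 231)) (XT.lf (nat_lit 0) (nat_lit 18376811687) (nat_lit 152) (nat_lit 4775526366) (nat_lit 76) (nat_lit 54298171701) (nat_lit 42) (nat_lit 5) (nat_lit 44) (nat_lit 5) (nat_lit 43) (nat_lit 5) (nat_lit 421)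 (nat_lit 369) (nat_lit 230)))) (XT.nd (nat_lit 156) (nat_lit 228) (nat_lit 0) (XT.nd (nat_lit 78) (nat_lit 76) (nat_lit 0) (XT.lf (nat_lit 0) (nat_lit 37732857032) (nat_lit 228) (nat_lit 41450074243) (nat_lit 76) (nat_lit 931016554) (nat_lit 40) (nat_lit 5) (nat_lit 43) (nat_lit 5) (nat_lit 41) (nat_lit 4) (nat_lit 422) (nat_lit 369) (nat_lit 229)) (XT.lf (nat_lit 0) (nat_lit 1186951740) (nat_lit 76) (nat_lit 57347438695) (nat_lit 152) (nat_lit 24352283512) (nat_lit 39) (nat_lit 5) (nat_lit 40) (nat_lit 5) (nat_lit 41) (nat_lit 4) (nat_lit 423) (nat_lit 369) (nat_lit 228))) (XT.nd (nat_lit 78) (nat_lit 228) (nat_lit 0) (XT.lf (nat_lit 0) (nat_lit 47390266881) (nat_lit 76) (nat_lit 33685168103) (nat_lit 152) (nat_lit 4687630069) (nat_lit 39) (nat_lit 5) (nat_lit 40) (nat_lit 5) (nat_lit 41) (nat_lit 4) (nat_lit 424) (nat_lit 369) (nat_lit 227)) (XT.lf (nat_lit 0) (nat_lit 7093858393) (nat_lit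 152) (nat_lit 8463863210) (nat_lit 228) (nat_lit 73207680593) (nat_lit 36) (nat_lit 5) (nat_lit 38) (nat_lit 5) (nat_lit 39) (nat_lit 5) (nat_lit 425) (nat_lit 369) (nat_lit 226))))) (XT.nd (nat_lit 234) (nat_lit 304) (nat_lit 0) (XT.nd (nat_lit 78) (nat_lit 76) (nat_lit 0) (XT.lf (nat_lit 0) (nat_lit 37597196283) (nat_lit 228) (nat_lit 36092612482) (nat_lit 76) (nat_lit 18177235936) (nat_lit 36) (nat_lit 5) (nat_lit 39) (nat_lit 5) (nat_lit 37) (nat_lit 4) (nat_lit 426) (nat_lit 369) (nat_lit 225)) (XT.nd (nat_lit 78) (nat_lit 0) (nat_lit 0) (XT.lf (nat_lit 0) (nat_lit 12006516275) (nat_lit 76) (nat_lit 49056007799) (nat_lit 152) (nat_lit 34045051621) (nat_lit 35) (nat_lit 5) (nat_lit 36) (nat_lit 5) (nat_lit 37) (nat_lit 4) (nat_lit 427) (nat_lit 369) (nat_lit 224)) (XT.lf (nat_lit 0) (nat_lit 63759443746) (nat_lit 76) (nat_lit 22550637616) (nat_lit 152) (nat_lit 12169604043) (nat_lit 35)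 (nat_lit 5) (nat_lit 36) (nat_lit 5) (nat_lit 37) (nat_lit 4) (nat_lit 428) (nat_lit 369) (nat_lit 223)))) (XT.nd (nat_lit 156) (nat_lit 76) (nat_lit 0) (XT.nd (nat_lit 78) (nat_lit 0) (nat_lit 0) (XT.lf (nat_lit 0) (nat_lit 10797690442) (nat_lit 228) (nat_lit 85655754245) (nat_lit 76) (nat_lit 5541339103) (nat_lit 32) (nat_lit 5) (nat_lit 35) (nat_lit 5) (nat_lit 33) (nat_lit 4) (nat_lit 429) (nat_lit 369) (nat_lit 222)) (XT.lf (nat_lit 0) (nat_lit 35469500854) (nat_lit 228) (nat_lit 35082486293) (nat_lit 76) (nat_lit 35075418654) (nat_lit 32) (nat_lit 5) (nat_lit 35) (nat_lit 5) (nat_lit 33) (nat_lit 4) (nat_lit 430) (nat_lit 369) (nat_lit 221))) (XT.nd (nat_lit 78) (nat_lit 0) (nat_lit 0) (XT.lf (nat_lit 0) (nat_lit 18611216990) (nat_lit 76) (nat_lit 43052166251) (nat_lit 152) (nat_lit 47763851859) (nat_lit 31) (nat_lit 5) (nat_lit 32) (nat_lit 5) (nat_lit 33) (nat_lit 4) (nat_lit 431)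 (nat_lit 369) (nat_lit 220)) (XT.lf (nat_lit 0) (nat_lit 76203749859) (nat_lit 76) (nat_lit 13555296621) (nat_lit 152) (nat_lit 23628405298) (nat_lit 31) (nat_lit 5) (nat_lit 32) (nat_lit 5) (nat_lit 33) (nat_lit 4) (nat_lit 432) (nat_lit 369) (nat_lit 219))))))) (XT.nd (nat_lit 1014) (nat_lit 532) (nat_lit 0) (XT.nd (nat_lit 468) (nat_lit 304) (nat_lit 0) (XT.nd (nat_lit 234) (nat_lit 152) (nat_lit 0) (XT.nd (nat_lit 78) (nat_lit 76) (nat_lit 0) (XT.lf (nat_lit 0) (nat_lit 2242415404) (nat_lit 152) (nat_lit 98075145445) (nat_lit 76) (nat_lit 17197608068) (nat_lit 29) (nat_lit 5) (nat_lit 31) (nat_lit 5) (nat_lit 30) (nat_lit 4) (nat_lit 433) (nat_lit 369) (nat_lit 218)) (XT.nd (nat_lit 78) (nat_lit 76) (nat_lit 0) (XT.lf (nat_lit 0) (nat_lit 29472997043) (nat_lit 152) (nat_lit 42255542835) (nat_lit 76) (nat_lit 50058350242) (nat_lit 29) (nat_lit 5) (nat_lit 31) (nat_lit 5) (nat_lit 30) (nat_lit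 4) (nat_lit 434) (nat_lit 369) (nat_lit 217)) (XT.lf (nat_lit 0) (nat_lit 16892137419) (nat_lit 76) (nat_lit 41434822001) (nat_lit 152) (nat_lit 67932145586) (nat_lit 28) (nat_lit 5) (nat_lit 29) (nat_lit 5) (nat_lit 30) (nat_lit 4) (nat_lit 435) (nat_lit 369) (nat_lit 216)))) (XT.nd (nat_lit 78) (nat_lit 152) (nat_lit 0) (XT.lf (nat_lit 0) (nat_lit 80460719703) (nat_lit 76) (nat_lit 8876671317) (nat_lit 152) (nat_lit 41581851257) (nat_lit 28) (nat_lit 5) (nat_lit 29) (nat_lit 5) (nat_lit 30) (nat_lit 4) (nat_lit 436) (nat_lit 369) (nat_lit 215)) (XT.nd (nat_lit 78) (nat_lit 76) (nat_lit 0) (XT.lf (nat_lit 0) (nat_lit 11360402074) (nat_lit 76) (nat_lit 111108676721) (nat_lit 76) (nat_lit 13314771072) (nat_lit 27) (nat_lit 4) (nat_lit 28) (nat_lit 5) (nat_lit 28) (nat_lit 4) (nat_lit 437) (nat_lit 369) (nat_lit 214)) (XT.lf (nat_lit 0) (nat_lit 16854147554) (nat_lit 152) (nat_lit 63245324061)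 (nat_lit 76) (nat_lit 60728826306) (nat_lit 26) (nat_lit 5) (nat_lit 28) (nat_lit 5) (nat_lit 27) (nat_lit 4) (nat_lit 438) (nat_lit 369) (nat_lit 213))))) (XT.nd (nat_lit 234) (nat_lit 228) (nat_lit 0) (XT.nd (nat_lit 78) (nat_lit 0) (nat_lit 0) (XT.lf (nat_lit 0) (nat_lit 795658675) (nat_lit 76) (nat_lit 47299117345) (nat_lit 152) (nat_lit 98018742395) (nat_lit 25) (nat_lit 5) (nat_lit 26) (nat_lit 5) (nat_lit 27) (nat_lit 4) (nat_lit 439) (nat_lit 369) (nat_lit 212)) (XT.nd (nat_lit 78) (nat_lit 0) (nat_lit 0) (XT.lf (nat_lit 0) (nat_lit 70231239326) (nat_lit 76) (nat_lit 11735622781) (nat_lit 152) (nat_lit 69642666669) (nat_lit 25) (nat_lit 5) (nat_lit 26) (nat_lit 5) (nat_lit 27) (nat_lit 4) (nat_lit 440) (nat_lit 369) (nat_lit 211)) (XT.lf (nat_lit 0) (nat_lit 117930727282) (nat_lit 152) (nat_lit 14644613889) (nat_lit 0) (nat_lit 24785089892) (nat_lit 25) (nat_lit 5) (nat_lit 27) (nat_lit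 4) (nat_lit 25) (nat_lit 4) (nat_lit 441) (nat_lit 369) (nat_lit 210)))) (XT.nd (nat_lit 156) (nat_lit 76) (nat_lit 0) (XT.nd (nat_lit 78) (nat_lit 76) (nat_lit 0) (XT.lf (nat_lit 0) (nat_lit 57056581216) (nat_lit 76) (nat_lit 99717874069) (nat_lit 76) (nat_lit 6570339840) (nat_lit 24) (nat_lit 4) (nat_lit 25) (nat_lit 5) (nat_lit 25) (nat_lit 4) (nat_lit 442) (nat_lit 369) (nat_lit 209)) (XT.lf (nat_lit 0) (nat_lit 27288545607) (nat_lit 152) (nat_lit 37207822246) (nat_lit 76) (nat_lit 105097677253) (nat_lit 23) (nat_lit 5) (nat_lit 25) (nat_lit 5) (nat_lit 24) (nat_lit 4) (nat_lit 443) (nat_lit 369) (nat_lit 208))) (XT.nd (nat_lit 78) (nat_lit 0) (nat_lit 0) (XT.lf (nat_lit 0) (nat_lit 36380474156) (nat_lit 76) (nat_lit 26805640666) (nat_lit 152) (nat_lit 112935930061) (nat_lit 22) (nat_lit 5) (nat_lit 23) (nat_lit 5) (nat_lit 24) (nat_lit 4) (nat_lit 444) (nat_lit 369) (nat_lit 207)) (XT.lf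 (nat_lit 0) (nat_lit 101716944828) (nat_lit 152) (nat_lit 68217492932) (nat_lit 0) (nat_lit 13000087885) (nat_lit 22) (nat_lit 5) (nat_lit 24) (nat_lit 4) (nat_lit 22) (nat_lit 4) (nat_lit 445) (nat_lit 369) (nat_lit 206)))))) (XT.nd (nat_lit 546) (nat_lit 228) (nat_lit 0) (XT.nd (nat_lit 234) (nat_lit 152) (nat_lit 0) (XT.nd (nat_lit 78) (nat_lit 76) (nat_lit 0) (XT.lf (nat_lit 0) (nat_lit 6653631477) (nat_lit 76) (nat_lit 136062622677) (nat_lit 76) (nat_lit 47344279511) (nat_lit 21) (nat_lit 4) (nat_lit 22) (nat_lit 5) (nat_lit 22) (nat_lit 4) (nat_lit 446) (nat_lit 369) (nat_lit 205)) (XT.nd (nat_lit 78) (nat_lit 76) (nat_lit 0) (XT.lf (nat_lit 0) (nat_lit 87634034318) (nat_lit 76) (nat_lit 99285434740) (nat_lit 76) (nat_lit 10565676124) (nat_lit 21) (nat_lit 4) (nat_lit 22) (nat_lit 5) (nat_lit 22) (nat_lit 4) (nat_lit 447) (nat_lit 369) (nat_lit 204)) (XT.lf (nat_lit 0) (nat_lit 27152709977)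 (nat_lit 152) (nat_lit 33058051210) (nat_lit 76) (nat_lit 145048393420) (nat_lit 20) (nat_lit 5) (nat_lit 22) (nat_lit 5) (nat_lit 21) (nat_lit 4) (nat_lit 448) (nat_lit 369) (nat_lit 203)))) (XT.nd (nat_lit 156) (nat_lit 76) (nat_lit 0) (XT.nd (nat_lit 78) (nat_lit 0) (nat_lit 0) (XT.lf (nat_lit 0) (nat_lit 48966247804) (nat_lit 76) (nat_lit 18198941621) (nat_lit 152) (nat_lit 146209852275) (nat_lit 19) (nat_lit 5) (nat_lit 20) (nat_lit 5) (nat_lit 21) (nat_lit 4) (nat_lit 449) (nat_lit 369) (nat_lit 202)) (XT.lf (nat_lit 0) (nat_lit 110150660446) (nat_lit 152) (nat_lit 86045463234) (nat_lit 0) (nat_lit 25651981172) (nat_lit 19) (nat_lit 5) (nat_lit 21) (nat_lit 4) (nat_lit 19) (nat_lit 4) (nat_lit 450) (nat_lit 369) (nat_lit 201))) (XT.nd (nat_lit 78) (nat_lit 76) (nat_lit 0) (XT.lf (nat_lit 0) (nat_lit 155582561368) (nat_lit 152) (nat_lit 4064629006) (nat_lit 0) (nat_lit 71082773052) (nat_lit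 19) (nat_lit 5) (nat_lit 21) (nat_lit 4) (nat_lit 19) (nat_lit 4) (nat_lit 451) (nat_lit 369) (nat_lit 200)) (XT.lf (nat_lit 0) (nat_lit 84724759141) (nat_lit 76) (nat_lit 119882958694) (nat_lit 76) (nat_lit 35382114147) (nat_lit 18) (nat_lit 4) (nat_lit 19) (nat_lit 5) (nat_lit 19) (nat_lit 4) (nat_lit 452) (nat_lit 369) (nat_lit 199))))) (XT.nd (nat_lit 234) (nat_lit 76) (nat_lit 0) (XT.nd (nat_lit 78) (nat_lit 76) (nat_lit 0) (XT.lf (nat_lit 0) (nat_lit 6236348458) (nat_lit 152) (nat_lit 71717336140) (nat_lit 76) (nat_lit 171750593831) (nat_lit 17) (nat_lit 5) (nat_lit 19) (nat_lit 5) (nat_lit 18) (nat_lit 4) (nat_lit 453) (nat_lit 369) (nat_lit 198)) (XT.nd (nat_lit 78) (nat_lit 0) (nat_lit 0) (XT.lf (nat_lit 0) (nat_lit 15935688614) (nat_lit 76) (nat_lit 33058700228) (nat_lit 152) (nat_lit 210868670406) (nat_lit 16) (nat_lit 5) (nat_lit 17) (nat_lit 5) (nat_lit 18) (nat_lit 4) (nat_lit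 454) (nat_lit 369) (nat_lit 197)) (XT.lf (nat_lit 0) (nat_lit 95343582307) (nat_lit 152) (nat_lit 160249686219) (nat_lit 0) (nat_lit 14863848093) (nat_lit 16) (nat_lit 5) (nat_lit 18) (nat_lit 4) (nat_lit 16) (nat_lit 4) (nat_lit 455) (nat_lit 369) (nat_lit 196)))) (XT.nd (nat_lit 156) (nat_lit 0) (nat_lit 0) (XT.nd (nat_lit 78) (nat_lit 76) (nat_lit 0) (XT.lf (nat_lit 0) (nat_lit 144551160332) (nat_lit 152) (nat_lit 72932071808) (nat_lit 0) (nat_lit 64070598534) (nat_lit 16) (nat_lit 5) (nat_lit 18) (nat_lit 4) (nat_lit 16) (nat_lit 4) (nat_lit 456) (nat_lit 369) (nat_lit 195)) (XT.lf (nat_lit 0) (nat_lit 19369454134) (nat_lit 76) (nat_lit 177151102188) (nat_lit 76) (nat_lit 96669752214) (nat_lit 15) (nat_lit 4) (nat_lit 16) (nat_lit 5) (nat_lit 16) (nat_lit 4) (nat_lit 457) (nat_lit 369) (nat_lit 194))) (XT.nd (nat_lit 78) (nat_lit 0) (nat_lit 0) (XT.lf (nat_lit 0) (nat_lit 118816211387)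 (nat_lit 76) (nat_lit 133506395177) (nat_lit 76) (nat_lit 53024294560) (nat_lit 15) (nat_lit 4) (nat_lit 16) (nat_lit 5) (nat_lit 16) (nat_lit 4) (nat_lit 458) (nat_lit 369) (nat_lit 193)) (XT.lf (nat_lit 0) (nat_lit 223233514277) (nat_lit 76) (nat_lit 87680335066) (nat_lit 76) (nat_lit 7197519550) (nat_lit 15) (nat_lit 4) (nat_lit 16) (nat_lit 5) (nat_lit 16) (nat_lit 4) (nat_lit 459) (nat_lit 369) (nat_lit 192))))))))
noncomputable def xc167 : XT := (XT.nd (nat_lit 46644) (nat_lit 0) (nat_lit 4408) (XT.nd (nat_lit 1014) (nat_lit 152) (nat_lit 0) (XT.nd (nat_lit 468) (nat_lit 228) (nat_lit 0) (XT.nd (nat_lit 234) (nat_lit 76) (nat_lit 0) (XT.nd (nat_lit 78) (nat_lit 0) (nat_lit 0) (XT.lf (nat_lit 0) (nat_lit 740708344) (nat_lit 76) (nat_lit 38880854931) (nat_lit 152) (nat_lit 291860018383) (nat_lit 13) (nat_lit 5) (nat_lit 14) (nat_lit 5) (nat_lit 15) (nat_lit 4) (nat_lit 460) (nat_lit 369)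 (nat_lit 191)) (XT.nd (nat_lit 78) (nat_lit 0) (nat_lit 0) (XT.lf (nat_lit 0) (nat_lit 90364933386) (nat_lit 152) (nat_lit 241344844360) (nat_lit 0) (nat_lit 13713366905) (nat_lit 13) (nat_lit 5) (nat_lit 15) (nat_lit 4) (nat_lit 13) (nat_lit 4) (nat_lit 461) (nat_lit 369) (nat_lit 190)) (XT.lf (nat_lit 0) (nat_lit 144282026141) (nat_lit 152) (nat_lit 148118060476) (nat_lit 0) (nat_lit 67629871511) (nat_lit 13) (nat_lit 5) (nat_lit 15) (nat_lit 4) (nat_lit 13) (nat_lit 4) (nat_lit 462) (nat_lit 369) (nat_lit 189)))) (XT.nd (nat_lit 78) (nat_lit 76) (nat_lit 0) (XT.lf (nat_lit 0) (nat_lit 200894176463) (nat_lit 152) (nat_lit 50231514022) (nat_lit 0) (nat_lit 124241461691) (nat_lit 13) (nat_lit 5) (nat_lit 15) (nat_lit 4) (nat_lit 13) (nat_lit 4) (nat_lit 463) (nat_lit 369) (nat_lit 188)) (XT.nd (nat_lit 78) (nat_lit 0) (nat_lit 0) (XT.lf (nat_lit 0) (nat_lit 54285327714) (nat_lit 76) (nat_lit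 206898393570) (nat_lit 76) (nat_lit 130245145330) (nat_lit 12) (nat_lit 4) (nat_lit 13) (nat_lit 5) (nat_lit 13) (nat_lit 4) (nat_lit 464) (nat_lit 369) (nat_lit 187)) (XT.lf (nat_lit 0) (nat_lit 165770458951) (nat_lit 76) (nat_lit 159567233359) (nat_lit 76) (nat_lit 82913477054) (nat_lit 12) (nat_lit 4) (nat_lit 13) (nat_lit 5) (nat_lit 13) (nat_lit 4) (nat_lit 465) (nat_lit 369) (nat_lit 186))))) (XT.nd (nat_lit 234) (nat_lit 76) (nat_lit 0) (XT.nd (nat_lit 78) (nat_lit 152) (nat_lit 0) (XT.lf (nat_lit 0) (nat_lit 282828439772) (nat_lit 76) (nat_lit 109870211609) (nat_lit 76) (nat_lit 33215971432) (nat_lit 12) (nat_lit 4) (nat_lit 13) (nat_lit 5) (nat_lit 13) (nat_lit 4) (nat_lit 466) (nat_lit 369) (nat_lit 185)) (XT.nd (nat_lit 78) (nat_lit 76) (nat_lit 0) (XT.lf (nat_lit 0) (nat_lit 18358678120) (nat_lit 152) (nat_lit 39019410860) (nat_lit 76) (nat_lit 387068388437) (nat_lit 11) (nat_lit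 5) (nat_lit 13) (nat_lit 5) (nat_lit 12) (nat_lit 4) (nat_lit 467) (nat_lit 369) (nat_lit 184)) (XT.lf (nat_lit 0) (nat_lit 72009636010) (nat_lit 76) (nat_lit 509766869) (nat_lit 152) (nat_lit 391302114837) (nat_lit 10) (nat_lit 5) (nat_lit 11) (nat_lit 5) (nat_lit 12) (nat_lit 4) (nat_lit 468) (nat_lit 369) (nat_lit 183)))) (XT.nd (nat_lit 156) (nat_lit 76) (nat_lit 0) (XT.nd (nat_lit 78) (nat_lit 0) (nat_lit 0) (XT.lf (nat_lit 0) (nat_lit 130983464483) (nat_lit 152) (nat_lit 295123909279) (nat_lit 0) (nat_lit 57978171265) (nat_lit 10) (nat_lit 5) (nat_lit 12) (nat_lit 4) (nat_lit 10) (nat_lit 4) (nat_lit 469) (nat_lit 369) (nat_lit 182)) (XT.lf (nat_lit 0) (nat_lit 192378463453) (nat_lit 152) (nat_lit 193611132456) (nat_lit 0) (nat_lit 119372791110) (nat_lit 10) (nat_lit 5) (nat_lit 12) (nat_lit 4) (nat_lit 10) (nat_lit 4) (nat_lit 470) (nat_lit 369) (nat_lit 181))) (XT.nd (nat_lit 78)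 (nat_lit 76) (nat_lit 0) (XT.lf (nat_lit 0) (nat_lit 256842619469) (nat_lit 152) (nat_lit 87023895260) (nat_lit 0) (nat_lit 183836586053) (nat_lit 10) (nat_lit 5) (nat_lit 12) (nat_lit 4) (nat_lit 10) (nat_lit 4) (nat_lit 471) (nat_lit 369) (nat_lit 180)) (XT.lf (nat_lit 0) (nat_lit 25714609541) (nat_lit 76) (nat_lit 299216286194) (nat_lit 76) (nat_lit 226209908900) (nat_lit 9) (nat_lit 4) (nat_lit 10) (nat_lit 5) (nat_lit 10) (nat_lit 4) (nat_lit 472) (nat_lit 369) (nat_lit 179)))))) (XT.nd (nat_lit 45084) (nat_lit 0) (nat_lit 8436) (XT.nd (nat_lit 234) (nat_lit 152) (nat_lit 0) (XT.nd (nat_lit 78) (nat_lit 0) (nat_lit 0) (XT.lf (nat_lit 0) (nat_lit 147110208473) (nat_lit 76) (nat_lit 250786614096) (nat_lit 76) (nat_lit 177779909298) (nat_lit 9) (nat_lit 4) (nat_lit 10) (nat_lit 5) (nat_lit 10) (nat_lit 4) (nat_lit 473) (nat_lit 369) (nat_lit 178)) (XT.nd (nat_lit 78) (nat_lit 0) (nat_lit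 0) (XT.lf (nat_lit 0) (nat_lit 274574535687) (nat_lit 76) (nat_lit 199935981466) (nat_lit 76) (nat_lit 126928964761) (nat_lit 9) (nat_lit 4) (nat_lit 10) (nat_lit 5) (nat_lit 10) (nat_lit 4) (nat_lit 474) (nat_lit 369) (nat_lit 177)) (XT.lf (nat_lit 0) (nat_lit 408411077677) (nat_lit 76) (nat_lit 146543315370) (nat_lit 76) (nat_lit 73536001609) (nat_lit 9) (nat_lit 4) (nat_lit 10) (nat_lit 5) (nat_lit 10) (nat_lit 4) (nat_lit 475) (nat_lit 369) (nat_lit 176)))) (XT.nd (nat_lit 156) (nat_lit 0) (nat_lit 0) (XT.nd (nat_lit 78) (nat_lit 152) (nat_lit 0) (XT.lf (nat_lit 0) (nat_lit 548938492875) (nat_lit 76) (nat_lit 90481490411) (nat_lit 76) (nat_lit 17473893741) (nat_lit 9) (nat_lit 4) (nat_lit 10) (nat_lit 5) (nat_lit 10) (nat_lit 4) (nat_lit 476) (nat_lit 369) (nat_lit 175)) (XT.lf (nat_lit 0) (nat_lit 9429386231) (nat_lit 76) (nat_lit 30783907592) (nat_lit 152) (nat_lit 646464590238) (nat_lit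 7) (nat_lit 5) (nat_lit 8) (nat_lit 5) (nat_lit 9) (nat_lit 4) (nat_lit 477) (nat_lit 369) (nat_lit 174))) (XT.nd (nat_lit 78) (nat_lit 0) (nat_lit 0) (XT.lf (nat_lit 0) (nat_lit 102553414321) (nat_lit 152) (nat_lit 582243694854) (nat_lit 0) (nat_lit 33021868878) (nat_lit 7) (nat_lit 5) (nat_lit 9) (nat_lit 4) (nat_lit 7) (nat_lit 4) (nat_lit 478) (nat_lit 369) (nat_lit 173)) (XT.lf (nat_lit 0) (nat_lit 168514753846) (nat_lit 152) (nat_lit 482994186610) (nat_lit 0) (nat_lit 98982975653) (nat_lit 7) (nat_lit 5) (nat_lit 9) (nat_lit 4) (nat_lit 7) (nat_lit 4) (nat_lit 479) (nat_lit 369) (nat_lit 172))))) (XT.nd (nat_lit 234) (nat_lit 0) (nat_lit 76) (XT.nd (nat_lit 78) (nat_lit 0) (nat_lit 0) (XT.lf (nat_lit 0) (nat_lit 1040600854) (nat_lit 836) (nat_lit 3909770703) (nat_lit 836) (nat_lit 3909770703) (nat_lit 118) (nat_lit 3) (nat_lit 129) (nat_lit 3) (nat_lit 129) (nat_lit 5) (nat_lit 370)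 (nat_lit 370) (nat_lit 280)) (XT.nd (nat_lit 78) (nat_lit 0) (nat_lit 76) (XT.lf (nat_lit 76) (nat_lit 817260602) (nat_lit 0) (nat_lit 1535358396) (nat_lit 836) (nat_lit 15799590258) (nat_lit 119) (nat_lit 5) (nat_lit 118) (nat_lit 3) (nat_lit 129) (nat_lit 5) (nat_lit 371) (nat_lit 370) (nat_lit 279)) (XT.lf (nat_lit 0) (nat_lit 2872129422) (nat_lit 760) (nat_lit 8565014211) (nat_lit 836) (nat_lit 7156867716) (nat_lit 119) (nat_lit 5) (nat_lit 129) (nat_lit 5) (nat_lit 130) (nat_lit 5) (nat_lit 372) (nat_lit 370) (nat_lit 278)))) (XT.nd (nat_lit 156) (nat_lit 0) (nat_lit 76) (XT.nd (nat_lit 78) (nat_lit 0) (nat_lit 76) (XT.lf (nat_lit 76) (nat_lit 630869626) (nat_lit 0) (nat_lit 2809153189) (nat_lit 836) (nat_lit 15616767250) (nat_lit 120) (nat_lit 5) (nat_lit 119) (nat_lit 5) (nat_lit 130) (nat_lit 5) (nat_lit 373) (nat_lit 370) (nat_lit 277)) (XT.lf (nat_lit 0) (nat_lit 4269270534) (nat_lit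 760) (nat_lit 9059644321) (nat_lit 836) (nat_lit 6202151439) (nat_lit 120) (nat_lit 5) (nat_lit 130) (nat_lit 5) (nat_lit 131) (nat_lit 5) (nat_lit 374) (nat_lit 370) (nat_lit 276))) (XT.nd (nat_lit 78) (nat_lit 0) (nat_lit 76) (XT.lf (nat_lit 76) (nat_lit 744992393) (nat_lit 0) (nat_lit 4441190758) (nat_lit 836) (nat_lit 14840569308) (nat_lit 121) (nat_lit 5) (nat_lit 120) (nat_lit 5) (nat_lit 131) (nat_lit 5) (nat_lit 375) (nat_lit 370) (nat_lit 275)) (XT.lf (nat_lit 0) (nat_lit 6370247752) (nat_lit 760) (nat_lit 9272269490) (nat_lit 836) (nat_lit 4893646325) (nat_lit 121) (nat_lit 5) (nat_lit 131) (nat_lit 5) (nat_lit 132) (nat_lit 5) (nat_lit 376) (nat_lit 370) (nat_lit 274))))))) (XT.nd (nat_lit 1092) (nat_lit 1824) (nat_lit 0) (XT.nd (nat_lit 546) (nat_lit 1444) (nat_lit 0) (XT.nd (nat_lit 234) (nat_lit 988) (nat_lit 0) (XT.nd (nat_lit 78) (nat_lit 0) (nat_lit 76) (XT.lf (nat_lit 76)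 (nat_lit 1195305330) (nat_lit 0) (nat_lit 6499203194) (nat_lit 836) (nat_lit 13372492727) (nat_lit 122) (nat_lit 5) (nat_lit 121) (nat_lit 5) (nat_lit 132) (nat_lit 5) (nat_lit 377) (nat_lit 370) (nat_lit 273)) (XT.nd (nat_lit 78) (nat_lit 0) (nat_lit 0) (XT.lf (nat_lit 0) (nat_lit 9282946647) (nat_lit 760) (nat_lit 9167614133) (nat_lit 836) (nat_lit 3163927221) (nat_lit 122) (nat_lit 5) (nat_lit 132) (nat_lit 5) (nat_lit 133) (nat_lit 5) (nat_lit 378) (nat_lit 370) (nat_lit 272)) (XT.lf (nat_lit 76) (nat_lit 2021974578) (nat_lit 0) (nat_lit 9057364202) (nat_lit 836) (nat_lit 11103588846) (nat_lit 123) (nat_lit 5) (nat_lit 122) (nat_lit 5) (nat_lit 133) (nat_lit 5) (nat_lit 379) (nat_lit 370) (nat_lit 271)))) (XT.nd (nat_lit 156) (nat_lit 380) (nat_lit 0) (XT.nd (nat_lit 78) (nat_lit 760) (nat_lit 0) (XT.lf (nat_lit 0) (nat_lit 13126707647) (nat_lit 760) (nat_lit 8706058352) (nat_lit 76)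 (nat_lit 938970274) (nat_lit 123) (nat_lit 5) (nat_lit 133) (nat_lit 5) (nat_lit 124) (nat_lit 5) (nat_lit 380) (nat_lit 370) (nat_lit 270)) (XT.lf (nat_lit 0) (nat_lit 3269917083) (nat_lit 760) (nat_lit 12197278909) (nat_lit 836) (nat_lit 7913256470) (nat_lit 113) (nat_lit 5) (nat_lit 123) (nat_lit 5) (nat_lit 124) (nat_lit 5) (nat_lit 381) (nat_lit 370) (nat_lit 269))) (XT.nd (nat_lit 78) (nat_lit 380) (nat_lit 0) (XT.lf (nat_lit 0) (nat_lit 16139232053) (nat_lit 760) (nat_lit 1924432898) (nat_lit 836) (nat_lit 5948996142) (nat_lit 113) (nat_lit 5) (nat_lit 123) (nat_lit 5) (nat_lit 124) (nat_lit 5) (nat_lit 382) (nat_lit 370) (nat_lit 268)) (XT.lf (nat_lit 0) (nat_lit 4989086679) (nat_lit 380) (nat_lit 16009056230) (nat_lit 456) (nat_lit 3667932199) (nat_lit 108) (nat_lit 5) (nat_lit 113) (nat_lit 5) (nat_lit 114) (nat_lit 5) (nat_lit 383) (nat_lit 370) (nat_lit 267))))) (XT.nd (nat_lit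 234) (nat_lit 988) (nat_lit 0) (XT.nd (nat_lit 78) (nat_lit 456) (nat_lit 0) (XT.lf (nat_lit 0) (nat_lit 18727843580) (nat_lit 380) (nat_lit 5508076129) (nat_lit 456) (nat_lit 1108415397) (nat_lit 108) (nat_lit 5) (nat_lit 113) (nat_lit 5) (nat_lit 114) (nat_lit 5) (nat_lit 384) (nat_lit 370) (nat_lit 266)) (XT.nd (nat_lit 78) (nat_lit 0) (nat_lit 0) (XT.lf (nat_lit 0) (nat_lit 1723350813) (nat_lit 456) (nat_lit 18839941551) (nat_lit 76) (nat_lit 5482246006) (nat_lit 102) (nat_lit 5) (nat_lit 108) (nat_lit 5) (nat_lit 103) (nat_lit 5) (nat_lit 385) (nat_lit 370) (nat_lit 265)) (XT.lf (nat_lit 0) (nat_lit 4856326288) (nat_lit 456) (nat_lit 4945780952) (nat_lit 76) (nat_lit 16968945951) (nat_lit 102) (nat_lit 5) (nat_lit 108) (nat_lit 5) (nat_lit 103) (nat_lit 5) (nat_lit 386) (nat_lit 370) (nat_lit 264)))) (XT.nd (nat_lit 156) (nat_lit 608) (nat_lit 0) (XT.nd (nat_lit 78) (nat_lit 0) (nat_lit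 0) (XT.lf (nat_lit 0) (nat_lit 8320312761) (nat_lit 456) (nat_lit 17597060051) (nat_lit 76) (nat_lit 1606756145) (nat_lit 97) (nat_lit 5) (nat_lit 103) (nat_lit 5) (nat_lit 98) (nat_lit 5) (nat_lit 387) (nat_lit 370) (nat_lit 263)) (XT.lf (nat_lit 0) (nat_lit 12196563338) (nat_lit 456) (nat_lit 2765085801) (nat_lit 76) (nat_lit 13341259289) (nat_lit 97) (nat_lit 5) (nat_lit 103) (nat_lit 5) (nat_lit 98) (nat_lit 5) (nat_lit 388) (nat_lit 370) (nat_lit 262))) (XT.nd (nat_lit 78) (nat_lit 304) (nat_lit 0) (XT.lf (nat_lit 0) (nat_lit 13224497014) (nat_lit 304) (nat_lit 3242164891) (nat_lit 380) (nat_lit 12643966200) (nat_lit 93) (nat_lit 5) (nat_lit 97) (nat_lit 5) (nat_lit 98) (nat_lit 5) (nat_lit 389) (nat_lit 370) (nat_lit 261)) (XT.lf (nat_lit 0) (nat_lit 3566734) (nat_lit 304) (nat_lit 21129598485) (nat_lit 380) (nat_lit 8816426419) (nat_lit 89) (nat_lit 5) (nat_lit 93) (nat_lit 5) (nat_lit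 94) (nat_lit 5) (nat_lit 390) (nat_lit 370) (nat_lit 260)))))) (XT.nd (nat_lit 546) (nat_lit 988) (nat_lit 0) (XT.nd (nat_lit 234) (nat_lit 532) (nat_lit 0) (XT.nd (nat_lit 78) (nat_lit 304) (nat_lit 0) (XT.lf (nat_lit 0) (nat_lit 17177051949) (nat_lit 304) (nat_lit 9171202594) (nat_lit 380) (nat_lit 4466488490) (nat_lit 89) (nat_lit 5) (nat_lit 93) (nat_lit 5) (nat_lit 94) (nat_lit 5) (nat_lit 391) (nat_lit 370) (nat_lit 259)) (XT.nd (nat_lit 78) (nat_lit 0) (nat_lit 0) (XT.lf (nat_lit 0) (nat_lit 201697747) (nat_lit 304) (nat_lit 28182051278) (nat_lit 76) (nat_lit 3334127527) (nat_lit 85) (nat_lit 5) (nat_lit 89) (nat_lit 5) (nat_lit 86) (nat_lit 5) (nat_lit 392) (nat_lit 370) (nat_lit 258)) (XT.lf (nat_lit 0) (nat_lit 5332553966) (nat_lit 304) (nat_lit 10847806364) (nat_lit 76) (nat_lit 16463179516) (nat_lit 85) (nat_lit 5) (nat_lit 89) (nat_lit 5) (nat_lit 86) (nat_lit 5) (nat_lit 393)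 (nat_lit 370) (nat_lit 257)))) (XT.nd (nat_lit 156) (nat_lit 228) (nat_lit 0) (XT.nd (nat_lit 78) (nat_lit 0) (nat_lit 0) (XT.lf (nat_lit 0) (nat_lit 7589077227) (nat_lit 304) (nat_lit 3243904671) (nat_lit 380) (nat_lit 22776855205) (nat_lit 81) (nat_lit 5) (nat_lit 85) (nat_lit 5) (nat_lit 86) (nat_lit 5) (nat_lit 394) (nat_lit 370) (nat_lit 256)) (XT.lf (nat_lit 0) (nat_lit 16951253053) (nat_lit 380) (nat_lit 7462387645) (nat_lit 76) (nat_lit 10193669572) (nat_lit 81) (nat_lit 5) (nat_lit 86) (nat_lit 5) (nat_lit 82) (nat_lit 5) (nat_lit 395) (nat_lit 370) (nat_lit 255))) (XT.nd (nat_lit 78) (nat_lit 0) (nat_lit 0) (XT.lf (nat_lit 0) (nat_lit 12359543076) (nat_lit 228) (nat_lit 11256965021) (nat_lit 304) (nat_lit 12026097512) (nat_lit 78) (nat_lit 5) (nat_lit 81) (nat_lit 5) (nat_lit 82) (nat_lit 5) (nat_lit 396) (nat_lit 370) (nat_lit 254)) (XT.lf (nat_lit 0) (nat_lit 30778442715) (nat_lit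 304) (nat_lit 3340578247) (nat_lit 76) (nat_lit 2602475853) (nat_lit 78) (nat_lit 5) (nat_lit 82) (nat_lit 5) (nat_lit 79) (nat_lit 5) (nat_lit 397) (nat_lit 370) (nat_lit 253))))) (XT.nd (nat_lit 234) (nat_lit 456) (nat_lit 0) (XT.nd (nat_lit 78) (nat_lit 228) (nat_lit 0) (XT.lf (nat_lit 0) (nat_lit 898060473) (nat_lit 304) (nat_lit 19862264401) (nat_lit 76) (nat_lit 17070256036) (nat_lit 74) (nat_lit 5) (nat_lit 78) (nat_lit 5) (nat_lit 75) (nat_lit 5) (nat_lit 398) (nat_lit 370) (nat_lit 252)) (XT.nd (nat_lit 78) (nat_lit 0) (nat_lit 0) (XT.lf (nat_lit 0) (nat_lit 1406401738) (nat_lit 228) (nat_lit 6549882309) (nat_lit 304) (nat_lit 31030226537) (nat_lit 71) (nat_lit 5) (nat_lit 74) (nat_lit 5) (nat_lit 75) (nat_lit 5) (nat_lit 399) (nat_lit 370) (nat_lit 251)) (XT.lf (nat_lit 0) (nat_lit 15835416828) (nat_lit 304) (nat_lit 15898247248) (nat_lit 76) (nat_lit 8443174358) (nat_lit 71) (nat_lit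 5) (nat_lit 75) (nat_lit 5) (nat_lit 72) (nat_lit 5) (nat_lit 400) (nat_lit 370) (nat_lit 250)))) (XT.nd (nat_lit 156) (nat_lit 228) (nat_lit 0) (XT.nd (nat_lit 78) (nat_lit 0) (nat_lit 0) (XT.lf (nat_lit 0) (nat_lit 6977274298) (nat_lit 228) (nat_lit 17343170957) (nat_lit 304) (nat_lit 17095641990) (nat_lit 68) (nat_lit 5) (nat_lit 71) (nat_lit 5) (nat_lit 72) (nat_lit 5) (nat_lit 401) (nat_lit 370) (nat_lit 249)) (XT.lf (nat_lit 0) (nat_lit 31542251617) (nat_lit 228) (nat_lit 1952457300) (nat_lit 304) (nat_lit 9209341834) (nat_lit 68) (nat_lit 5) (nat_lit 71) (nat_lit 5) (nat_lit 72) (nat_lit 5) (nat_lit 402) (nat_lit 370) (nat_lit 248))) (XT.nd (nat_lit 78) (nat_lit 76) (nat_lit 0) (XT.lf (nat_lit 0) (nat_lit 13482622775) (nat_lit 152) (nat_lit 30073300259) (nat_lit 228) (nat_lit 479078911) (nat_lit 66) (nat_lit 5) (nat_lit 68) (nat_lit 5) (nat_lit 69) (nat_lit 5) (nat_lit 403) (nat_lit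 370) (nat_lit 247)) (XT.lf (nat_lit 0) (nat_lit 8629719298) (nat_lit 228) (nat_lit 5853200011) (nat_lit 76) (nat_lit 30931796540) (nat_lit 65) (nat_lit 5) (nat_lit 68) (nat_lit 5) (nat_lit 66) (nat_lit 5) (nat_lit 404) (nat_lit 370) (nat_lit 246))))))))
noncomputable def xc168 : XT := (XT.nd (nat_lit 2106) (nat_lit 1292) (nat_lit 0) (XT.nd (nat_lit 1014) (nat_lit 1064) (nat_lit 0) (XT.nd (nat_lit 468) (nat_lit 684) (nat_lit 0) (XT.nd (nat_lit 234) (nat_lit 380) (nat_lit 0) (XT.nd (nat_lit 78) (nat_lit 152) (nat_lit 0) (XT.lf (nat_lit 0) (nat_lit 18532524723) (nat_lit 304) (nat_lit 26151190414) (nat_lit 76) (nat_lit 2161575439) (nat_lit 62) (nat_lit 5) (nat_lit 66) (nat_lit 5) (nat_lit 63) (nat_lit 5) (nat_lit 405) (nat_lit 370) (nat_lit 245)) (XT.nd (nat_lit 78) (nat_lit 0) (nat_lit 0) (XT.lf (nat_lit 0) (nat_lit 190637314) (nat_lit 152) (nat_lit 29077186894) (nat_lit 228) (nat_lit 19062703273)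 (nat_lit 60) (nat_lit 5) (nat_lit 62) (nat_lit 5) (nat_lit 63) (nat_lit 5) (nat_lit 406) (nat_lit 370) (nat_lit 244)) (XT.lf (nat_lit 0) (nat_lit 28751610840) (nat_lit 152) (nat_lit 12227451082) (nat_lit 228) (nat_lit 8889006727) (nat_lit 60) (nat_lit 5) (nat_lit 62) (nat_lit 5) (nat_lit 63) (nat_lit 5) (nat_lit 407) (nat_lit 370) (nat_lit 243)))) (XT.nd (nat_lit 78) (nat_lit 152) (nat_lit 0) (XT.lf (nat_lit 0) (nat_lit 1936563541) (nat_lit 228) (nat_lit 44099775343) (nat_lit 76) (nat_lit 5434719585) (nat_lit 57) (nat_lit 5) (nat_lit 60) (nat_lit 5) (nat_lit 58) (nat_lit 5) (nat_lit 408) (nat_lit 370) (nat_lit 242)) (XT.nd (nat_lit 78) (nat_lit 152) (nat_lit 0) (XT.lf (nat_lit 0) (nat_lit 13565072184) (nat_lit 228) (nat_lit 15477572598) (nat_lit 76) (nat_lit 24076248421) (nat_lit 57) (nat_lit 5) (nat_lit 60) (nat_lit 5) (nat_lit 58) (nat_lit 5) (nat_lit 409) (nat_lit 370) (nat_lit 241)) (XT.lf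 (nat_lit 0) (nat_lit 15052024289) (nat_lit 152) (nat_lit 10954613627) (nat_lit 228) (nat_lit 28830901060) (nat_lit 55) (nat_lit 5) (nat_lit 57) (nat_lit 5) (nat_lit 58) (nat_lit 5) (nat_lit 410) (nat_lit 370) (nat_lit 240))))) (XT.nd (nat_lit 234) (nat_lit 456) (nat_lit 0) (XT.nd (nat_lit 78) (nat_lit 228) (nat_lit 0) (XT.lf (nat_lit 0) (nat_lit 39458863296) (nat_lit 228) (nat_lit 9118873058) (nat_lit 76) (nat_lit 8044952464) (nat_lit 55) (nat_lit 5) (nat_lit 58) (nat_lit 5) (nat_lit 56) (nat_lit 5) (nat_lit 411) (nat_lit 370) (nat_lit 239)) (XT.nd (nat_lit 78) (nat_lit 76) (nat_lit 0) (XT.lf (nat_lit 0) (nat_lit 23653313933) (nat_lit 152) (nat_lit 30476094115) (nat_lit 228) (nat_lit 4340403503) (nat_lit 53) (nat_lit 5) (nat_lit 55) (nat_lit 5) (nat_lit 56) (nat_lit 5) (nat_lit 412) (nat_lit 370) (nat_lit 238)) (XT.lf (nat_lit 0) (nat_lit 8985971186) (nat_lit 228) (nat_lit 2171134493) (nat_lit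 76) (nat_lit 49237372132) (nat_lit 52) (nat_lit 5) (nat_lit 55) (nat_lit 5) (nat_lit 53) (nat_lit 5) (nat_lit 413) (nat_lit 370) (nat_lit 237)))) (XT.nd (nat_lit 156) (nat_lit 152) (nat_lit 0) (XT.nd (nat_lit 78) (nat_lit 152) (nat_lit 0) (XT.lf (nat_lit 0) (nat_lit 23498530144) (nat_lit 228) (nat_lit 29448870558) (nat_lit 76) (nat_lit 9431133093) (nat_lit 50) (nat_lit 5) (nat_lit 53) (nat_lit 5) (nat_lit 51) (nat_lit 5) (nat_lit 414) (nat_lit 370) (nat_lit 236)) (XT.lf (nat_lit 0) (nat_lit 5384700977) (nat_lit 152) (nat_lit 33653394561) (nat_lit 228) (nat_lit 25408628778) (nat_lit 48) (nat_lit 5) (nat_lit 50) (nat_lit 5) (nat_lit 51) (nat_lit 5) (nat_lit 415) (nat_lit 370) (nat_lit 235))) (XT.nd (nat_lit 78) (nat_lit 152) (nat_lit 0) (XT.lf (nat_lit 0) (nat_lit 42977370439) (nat_lit 152) (nat_lit 12873096049) (nat_lit 228) (nat_lit 10743067141) (nat_lit 48) (nat_lit 5) (nat_lit 50) (nat_lit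 5) (nat_lit 51) (nat_lit 5) (nat_lit 416) (nat_lit 370) (nat_lit 234)) (XT.lf (nat_lit 0) (nat_lit 4866495641) (nat_lit 152) (nat_lit 55006049974) (nat_lit 76) (nat_lit 8953517040) (nat_lit 46) (nat_lit 5) (nat_lit 48) (nat_lit 5) (nat_lit 47) (nat_lit 5) (nat_lit 417) (nat_lit 370) (nat_lit 233)))))) (XT.nd (nat_lit 546) (nat_lit 532) (nat_lit 0) (XT.nd (nat_lit 234) (nat_lit 380) (nat_lit 0) (XT.nd (nat_lit 78) (nat_lit 152) (nat_lit 0) (XT.lf (nat_lit 0) (nat_lit 21510258191) (nat_lit 152) (nat_lit 17600894353) (nat_lit 76) (nat_lit 32019522382) (nat_lit 46) (nat_lit 5) (nat_lit 48) (nat_lit 5) (nat_lit 47) (nat_lit 5) (nat_lit 418) (nat_lit 370) (nat_lit 232)) (XT.nd (nat_lit 78) (nat_lit 0) (nat_lit 0) (XT.lf (nat_lit 0) (nat_lit 22386390793) (nat_lit 152) (nat_lit 16946681937) (nat_lit 228) (nat_lit 34200102408) (nat_lit 44) (nat_lit 5) (nat_lit 46) (nat_lit 5) (nat_lit 47) (nat_lit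 5) (nat_lit 419) (nat_lit 370) (nat_lit 231)) (XT.lf (nat_lit 0) (nat_lit 58446134966) (nat_lit 228) (nat_lit 11165103672) (nat_lit 76) (nat_lit 6424606868) (nat_lit 44) (nat_lit 5) (nat_lit 47) (nat_lit 5) (nat_lit 45) (nat_lit 4) (nat_lit 420) (nat_lit 370) (nat_lit 230)))) (XT.nd (nat_lit 156) (nat_lit 228) (nat_lit 0) (XT.nd (nat_lit 78) (nat_lit 0) (nat_lit 0) (XT.lf (nat_lit 0) (nat_lit 636337500) (nat_lit 152) (nat_lit 47092540633) (nat_lit 76) (nat_lit 30895869162) (nat_lit 42) (nat_lit 5) (nat_lit 44) (nat_lit 5) (nat_lit 43) (nat_lit 5) (nat_lit 421) (nat_lit 370) (nat_lit 229)) (XT.lf (nat_lit 0) (nat_lit 19372253922) (nat_lit 152) (nat_lit 4877532758) (nat_lit 76) (nat_lit 57069405346) (nat_lit 42) (nat_lit 5) (nat_lit 44) (nat_lit 5) (nat_lit 43) (nat_lit 5) (nat_lit 422) (nat_lit 370) (nat_lit 228))) (XT.nd (nat_lit 78) (nat_lit 76) (nat_lit 0) (XT.lf (nat_lit 0) (nat_lit 39695483860)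 (nat_lit 228) (nat_lit 43385177849) (nat_lit 76) (nat_lit 1035171805) (nat_lit 40) (nat_lit 5) (nat_lit 43) (nat_lit 5) (nat_lit 41) (nat_lit 4) (nat_lit 423) (nat_lit 370) (nat_lit 227)) (XT.lf (nat_lit 0) (nat_lit 1381483303) (nat_lit 76) (nat_lit 60154102947) (nat_lit 152) (nat_lit 25491685667) (nat_lit 39) (nat_lit 5) (nat_lit 40) (nat_lit 5) (nat_lit 41) (nat_lit 4) (nat_lit 424) (nat_lit 370) (nat_lit 226))))) (XT.nd (nat_lit 234) (nat_lit 304) (nat_lit 0) (XT.nd (nat_lit 78) (nat_lit 228) (nat_lit 0) (XT.lf (nat_lit 0) (nat_lit 49888526868) (nat_lit 76) (nat_lit 35311609668) (nat_lit 152) (nat_lit 4847523934) (nat_lit 39) (nat_lit 5) (nat_lit 40) (nat_lit 5) (nat_lit 41) (nat_lit 4) (nat_lit 425) (nat_lit 370) (nat_lit 225)) (XT.nd (nat_lit 78) (nat_lit 0) (nat_lit 0) (XT.lf (nat_lit 0) (nat_lit 7577577644) (nat_lit 152) (nat_lit 8828714566) (nat_lit 228) (nat_lit 76793835578) (nat_lit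 36) (nat_lit 5) (nat_lit 38) (nat_lit 5) (nat_lit 39) (nat_lit 5) (nat_lit 426) (nat_lit 370) (nat_lit 224)) (XT.lf (nat_lit 0) (nat_lit 39545242199) (nat_lit 228) (nat_lit 37771852659) (nat_lit 76) (nat_lit 19139882972) (nat_lit 36) (nat_lit 5) (nat_lit 39) (nat_lit 5) (nat_lit 37) (nat_lit 4) (nat_lit 427) (nat_lit 370) (nat_lit 223)))) (XT.nd (nat_lit 156) (nat_lit 228) (nat_lit 0) (XT.nd (nat_lit 78) (nat_lit 0) (nat_lit 0) (XT.lf (nat_lit 0) (nat_lit 12730210109) (nat_lit 76) (nat_lit 51452305434) (nat_lit 152) (nat_lit 35677086341) (nat_lit 35) (nat_lit 5) (nat_lit 36) (nat_lit 5) (nat_lit 37) (nat_lit 4) (nat_lit 428) (nat_lit 370) (nat_lit 222)) (XT.lf (nat_lit 0) (nat_lit 67064909285) (nat_lit 76) (nat_lit 23624357349) (nat_lit 152) (nat_lit 12711210091) (nat_lit 35) (nat_lit 5) (nat_lit 36) (nat_lit 5) (nat_lit 37) (nat_lit 4) (nat_lit 429) (nat_lit 370) (nat_lit 221))) (XT.nd (nat_lit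 78) (nat_lit 0) (nat_lit 0) (XT.lf (nat_lit 0) (nat_lit 11401910570) (nat_lit 228) (nat_lit 89818493529) (nat_lit 76) (nat_lit 5870894039) (nat_lit 32) (nat_lit 5) (nat_lit 35) (nat_lit 5) (nat_lit 33) (nat_lit 4) (nat_lit 430) (nat_lit 370) (nat_lit 220)) (XT.lf (nat_lit 0) (nat_lit 37304247902) (nat_lit 228) (nat_lit 36722278770) (nat_lit 76) (nat_lit 36879178140) (nat_lit 32) (nat_lit 5) (nat_lit 35) (nat_lit 5) (nat_lit 33) (nat_lit 4) (nat_lit 431) (nat_lit 370) (nat_lit 219))))))) (XT.nd (nat_lit 1014) (nat_lit 608) (nat_lit 0) (XT.nd (nat_lit 468) (nat_lit 380) (nat_lit 0) (XT.nd (nat_lit 234) (nat_lit 76) (nat_lit 0) (XT.nd (nat_lit 78) (nat_lit 152) (nat_lit 0) (XT.lf (nat_lit 0) (nat_lit 19654265614) (nat_lit 76) (nat_lit 45152397328) (nat_lit 152) (nat_lit 50088921073) (nat_lit 31) (nat_lit 5) (nat_lit 32) (nat_lit 5) (nat_lit 33) (nat_lit 4) (nat_lit 432) (nat_lit 370) (nat_lit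 218)) (XT.nd (nat_lit 78) (nat_lit 152) (nat_lit 0) (XT.lf (nat_lit 0) (nat_lit 80121068566) (nat_lit 76) (nat_lit 14183178371) (nat_lit 152) (nat_lit 24749708058) (nat_lit 31) (nat_lit 5) (nat_lit 32) (nat_lit 5) (nat_lit 33) (nat_lit 4) (nat_lit 433) (nat_lit 370) (nat_lit 217)) (XT.lf (nat_lit 0) (nat_lit 2412417576) (nat_lit 152) (nat_lit 102869522450) (nat_lit 76) (nat_lit 18106086949) (nat_lit 29) (nat_lit 5) (nat_lit 31) (nat_lit 5) (nat_lit 30) (nat_lit 4) (nat_lit 434) (nat_lit 370) (nat_lit 216)))) (XT.nd (nat_lit 78) (nat_lit 76) (nat_lit 0) (XT.lf (nat_lit 0) (nat_lit 31001772040) (nat_lit 152) (nat_lit 44264148294) (nat_lit 76) (nat_lit 52607552019) (nat_lit 29) (nat_lit 5) (nat_lit 31) (nat_lit 5) (nat_lit 30) (nat_lit 4) (nat_lit 435) (nat_lit 370) (nat_lit 215)) (XT.nd (nat_lit 78) (nat_lit 0) (nat_lit 0) (XT.lf (nat_lit 0) (nat_lit 17839235785) (nat_lit 76) (nat_lit 43458171924)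 (nat_lit 152) (nat_lit 71271941802) (nat_lit 28) (nat_lit 5) (nat_lit 29) (nat_lit 5) (nat_lit 30) (nat_lit 4) (nat_lit 436) (nat_lit 370) (nat_lit 214)) (XT.lf (nat_lit 0) (nat_lit 84581366635) (nat_lit 76) (nat_lit 9274418047) (nat_lit 152) (nat_lit 43606838046) (nat_lit 28) (nat_lit 5) (nat_lit 29) (nat_lit 5) (nat_lit 30) (nat_lit 4) (nat_lit 437) (nat_lit 370) (nat_lit 213))))) (XT.nd (nat_lit 234) (nat_lit 152) (nat_lit 0) (XT.nd (nat_lit 78) (nat_lit 152) (nat_lit 0) (XT.lf (nat_lit 0) (nat_lit 12026290839) (nat_lit 76) (nat_lit 116617525763) (nat_lit 76) (nat_lit 13926656369) (nat_lit 27) (nat_lit 4) (nat_lit 28) (nat_lit 5) (nat_lit 28) (nat_lit 4) (nat_lit 438) (nat_lit 370) (nat_lit 212)) (XT.nd (nat_lit 78) (nat_lit 76) (nat_lit 0) (XT.lf (nat_lit 0) (nat_lit 17746502186) (nat_lit 152) (nat_lit 66312735740) (nat_lit 76) (nat_lit 63807987814) (nat_lit 26) (nat_lit 5) (nat_lit 28)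 (nat_lit 5) (nat_lit 27) (nat_lit 4) (nat_lit 439) (nat_lit 370) (nat_lit 211)) (XT.lf (nat_lit 0) (nat_lit 928766221) (nat_lit 76) (nat_lit 49619488758) (nat_lit 152) (nat_lit 102868497859) (nat_lit 25) (nat_lit 5) (nat_lit 26) (nat_lit 5) (nat_lit 27) (nat_lit 4) (nat_lit 440) (nat_lit 370) (nat_lit 210)))) (XT.nd (nat_lit 156) (nat_lit 152) (nat_lit 0) (XT.nd (nat_lit 78) (nat_lit 0) (nat_lit 0) (XT.lf (nat_lit 0) (nat_lit 73831681876) (nat_lit 76) (nat_lit 12279942535) (nat_lit 152) (nat_lit 73076055569) (nat_lit 25) (nat_lit 5) (nat_lit 26) (nat_lit 5) (nat_lit 27) (nat_lit 4) (nat_lit 441) (nat_lit 370) (nat_lit 209)) (XT.lf (nat_lit 0) (nat_lit 123872103779) (nat_lit 152) (nat_lit 15290613271) (nat_lit 0) (nat_lit 26063489487) (nat_lit 25) (nat_lit 5) (nat_lit 27) (nat_lit 4) (nat_lit 25) (nat_lit 4) (nat_lit 442) (nat_lit 370) (nat_lit 208))) (XT.nd (nat_lit 78) (nat_lit 76) (nat_lit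 0) (XT.lf (nat_lit 0) (nat_lit 59994250761) (nat_lit 76) (nat_lit 104662956773) (nat_lit 76) (nat_lit 6852621994) (nat_lit 24) (nat_lit 4) (nat_lit 25) (nat_lit 5) (nat_lit 25) (nat_lit 4) (nat_lit 443) (nat_lit 370) (nat_lit 207)) (XT.lf (nat_lit 0) (nat_lit 28695596730) (nat_lit 152) (nat_lit 38986000042) (nat_lit 76) (nat_lit 110390015879) (nat_lit 23) (nat_lit 5) (nat_lit 25) (nat_lit 5) (nat_lit 24) (nat_lit 4) (nat_lit 444) (nat_lit 370) (nat_lit 206)))))) (XT.nd (nat_lit 546) (nat_lit 304) (nat_lit 0) (XT.nd (nat_lit 234) (nat_lit 152) (nat_lit 0) (XT.nd (nat_lit 78) (nat_lit 76) (nat_lit 0) (XT.lf (nat_lit 0) (nat_lit 38280385158) (nat_lit 76) (nat_lit 28106892418) (nat_lit 152) (nat_lit 118538773350) (nat_lit 22) (nat_lit 5) (nat_lit 23) (nat_lit 5) (nat_lit 24) (nat_lit 4) (nat_lit 445) (nat_lit 370) (nat_lit 205)) (XT.nd (nat_lit 78) (nat_lit 76) (nat_lit 0) (XT.lf (nat_lit 0)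 (nat_lit 106843236246) (nat_lit 152) (nat_lit 71549916033) (nat_lit 0) (nat_lit 13686074249) (nat_lit 22) (nat_lit 5) (nat_lit 24) (nat_lit 4) (nat_lit 22) (nat_lit 4) (nat_lit 446) (nat_lit 370) (nat_lit 204)) (XT.lf (nat_lit 0) (nat_lit 7063499249) (nat_lit 76) (nat_lit 142828290968) (nat_lit 76) (nat_lit 49669780924) (nat_lit 21) (nat_lit 4) (nat_lit 22) (nat_lit 5) (nat_lit 22) (nat_lit 4) (nat_lit 447) (nat_lit 370) (nat_lit 203)))) (XT.nd (nat_lit 156) (nat_lit 76) (nat_lit 0) (XT.nd (nat_lit 78) (nat_lit 76) (nat_lit 0) (XT.lf (nat_lit 0) (nat_lit 92089246700) (nat_lit 76) (nat_lit 104214027580) (nat_lit 76) (nat_lit 11054233680) (nat_lit 21) (nat_lit 4) (nat_lit 22) (nat_lit 5) (nat_lit 22) (nat_lit 4) (nat_lit 448) (nat_lit 370) (nat_lit 202)) (XT.lf (nat_lit 0) (nat_lit 28546969059) (nat_lit 152) (nat_lit 34639730047) (nat_lit 76) (nat_lit 152333579428) (nat_lit 20) (nat_lit 5)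 (nat_lit 22) (nat_lit 5) (nat_lit 21) (nat_lit 4) (nat_lit 449) (nat_lit 370) (nat_lit 201))) (XT.nd (nat_lit 78) (nat_lit 0) (nat_lit 0) (XT.lf (nat_lit 0) (nat_lit 51484635148) (nat_lit 76) (nat_lit 19074787417) (nat_lit 152) (nat_lit 153482570036) (nat_lit 19) (nat_lit 5) (nat_lit 20) (nat_lit 5) (nat_lit 21) (nat_lit 4) (nat_lit 450) (nat_lit 370) (nat_lit 200)) (XT.lf (nat_lit 0) (nat_lit 115692961169) (nat_lit 152) (nat_lit 90279789996) (nat_lit 0) (nat_lit 26966018164) (nat_lit 19) (nat_lit 5) (nat_lit 21) (nat_lit 4) (nat_lit 19) (nat_lit 4) (nat_lit 451) (nat_lit 370) (nat_lit 199))))) (XT.nd (nat_lit 234) (nat_lit 152) (nat_lit 0) (XT.nd (nat_lit 78) (nat_lit 152) (nat_lit 0) (XT.lf (nat_lit 0) (nat_lit 163394801533) (nat_lit 152) (nat_lit 4203149599) (nat_lit 0) (nat_lit 74666852594) (nat_lit 19) (nat_lit 5) (nat_lit 21) (nat_lit 4) (nat_lit 19) (nat_lit 4) (nat_lit 452) (nat_lit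 370) (nat_lit 198)) (XT.nd (nat_lit 78) (nat_lit 76) (nat_lit 0) (XT.lf (nat_lit 0) (nat_lit 89024664232) (nat_lit 76) (nat_lit 125845968846) (nat_lit 76) (nat_lit 37117061875) (nat_lit 18) (nat_lit 4) (nat_lit 19) (nat_lit 5) (nat_lit 19) (nat_lit 4) (nat_lit 453) (nat_lit 370) (nat_lit 197)) (XT.lf (nat_lit 0) (nat_lit 6579656081) (nat_lit 152) (nat_lit 75241524415) (nat_lit 76) (nat_lit 180366735386) (nat_lit 17) (nat_lit 5) (nat_lit 19) (nat_lit 5) (nat_lit 18) (nat_lit 4) (nat_lit 454) (nat_lit 370) (nat_lit 196)))) (XT.nd (nat_lit 156) (nat_lit 76) (nat_lit 0) (XT.nd (nat_lit 78) (nat_lit 0) (nat_lit 0) (XT.lf (nat_lit 0) (nat_lit 16793156763) (nat_lit 76) (nat_lit 34681889631) (nat_lit 152) (nat_lit 221379617045) (nat_lit 16) (nat_lit 5) (nat_lit 17) (nat_lit 5) (nat_lit 18) (nat_lit 4) (nat_lit 455) (nat_lit 370) (nat_lit 195)) (XT.lf (nat_lit 0) (nat_lit 100140668586) (nat_lit 152)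 (nat_lit 168203343790) (nat_lit 0) (nat_lit 15634462938) (nat_lit 16) (nat_lit 5) (nat_lit 18) (nat_lit 4) (nat_lit 16) (nat_lit 4) (nat_lit 456) (nat_lit 370) (nat_lit 194))) (XT.nd (nat_lit 78) (nat_lit 76) (nat_lit 0) (XT.lf (nat_lit 0) (nat_lit 151807201362) (nat_lit 152) (nat_lit 76522649932) (nat_lit 0) (nat_lit 67300245070) (nat_lit 16) (nat_lit 5) (nat_lit 18) (nat_lit 4) (nat_lit 16) (nat_lit 4) (nat_lit 457) (nat_lit 370) (nat_lit 193)) (XT.lf (nat_lit 0) (nat_lit 20393048671) (nat_lit 76) (nat_lit 185981522753) (nat_lit 76) (nat_lit 101473851563) (nat_lit 15) (nat_lit 4) (nat_lit 16) (nat_lit 5) (nat_lit 16) (nat_lit 4) (nat_lit 458) (nat_lit 370) (nat_lit 192))))))))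
noncomputable def xc169 : XT := (XT.nd (nat_lit 46722) (nat_lit 0) (nat_lit 4636) (XT.nd (nat_lit 1014) (nat_lit 228) (nat_lit 0) (XT.nd (nat_lit 468) (nat_lit 228) (nat_lit 0) (XT.nd (nat_lit 234) (nat_lit 0) (nat_lit 0) (XT.nd (nat_lit 78) (nat_lit 152) (nat_lit 0) (XT.lf (nat_lit 0) (nat_lit 124809518937) (nat_lit 76) (nat_lit 140155872513) (nat_lit 76) (nat_lit 55647520468) (nat_lit 15) (nat_lit 4) (nat_lit 16) (nat_lit 5) (nat_lit 16) (nat_lit 4) (nat_lit 459) (nat_lit 370) (nat_lit 191)) (XT.nd (nat_lit 78) (nat_lit 152) (nat_lit 0) (XT.lf (nat_lit 0) (nat_lit 234445187115) (nat_lit 76) (nat_lit 92039739988) (nat_lit 76) (nat_lit 7530739508) (nat_lit 15) (nat_lit 4) (nat_lit 16) (nat_lit 5) (nat_lit 16) (nat_lit 4) (nat_lit 460) (nat_lit 370) (nat_lit 190)) (XT.lf (nat_lit 0) (nat_lit 827775248) (nat_lit 76) (nat_lit 40800221475) (nat_lit 152) (nat_lit 306426394927) (nat_lit 13) (nat_lit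 5) (nat_lit 14) (nat_lit 5) (nat_lit 15) (nat_lit 4) (nat_lit 461) (nat_lit 370) (nat_lit 189)))) (XT.nd (nat_lit 78) (nat_lit 0) (nat_lit 0) (XT.lf (nat_lit 0) (nat_lit 94907694864) (nat_lit 152) (nat_lit 253363595804) (nat_lit 0) (nat_lit 14421784212) (nat_lit 13) (nat_lit 5) (nat_lit 15) (nat_lit 4) (nat_lit 13) (nat_lit 4) (nat_lit 462) (nat_lit 370) (nat_lit 188)) (XT.nd (nat_lit 78) (nat_lit 0) (nat_lit 0) (XT.lf (nat_lit 0) (nat_lit 151519474885) (nat_lit 152) (nat_lit 155477781811) (nat_lit 0) (nat_lit 71033030765) (nat_lit 13) (nat_lit 5) (nat_lit 15) (nat_lit 4) (nat_lit 13) (nat_lit 4) (nat_lit 463) (nat_lit 370) (nat_lit 187)) (XT.lf (nat_lit 0) (nat_lit 210961120940) (nat_lit 152) (nat_lit 52699107162) (nat_lit 0) (nat_lit 130474168755) (nat_lit 13) (nat_lit 5) (nat_lit 15) (nat_lit 4) (nat_lit 13) (nat_lit 4) (nat_lit 464) (nat_lit 370) (nat_lit 186))))) (XT.nd (nat_lit 234)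 (nat_lit 152) (nat_lit 0) (XT.nd (nat_lit 78) (nat_lit 0) (nat_lit 0) (XT.lf (nat_lit 0) (nat_lit 57042867265) (nat_lit 76) (nat_lit 217221892513) (nat_lit 76) (nat_lit 136734456456) (nat_lit 12) (nat_lit 4) (nat_lit 13) (nat_lit 5) (nat_lit 13) (nat_lit 4) (nat_lit 465) (nat_lit 370) (nat_lit 185)) (XT.nd (nat_lit 78) (nat_lit 0) (nat_lit 0) (XT.lf (nat_lit 0) (nat_lit 174100194437) (nat_lit 76) (nat_lit 167525194326) (nat_lit 76) (nat_lit 87037297439) (nat_lit 12) (nat_lit 4) (nat_lit 13) (nat_lit 5) (nat_lit 13) (nat_lit 4) (nat_lit 466) (nat_lit 370) (nat_lit 184)) (XT.lf (nat_lit 0) (nat_lit 297009111797) (nat_lit 76) (nat_lit 115344292950) (nat_lit 76) (nat_lit 34855957178) (nat_lit 12) (nat_lit 4) (nat_lit 13) (nat_lit 5) (nat_lit 13) (nat_lit 4) (nat_lit 467) (nat_lit 370) (nat_lit 183)))) (XT.nd (nat_lit 156) (nat_lit 0) (nat_lit 0) (XT.nd (nat_lit 78) (nat_lit 76) (nat_lit 0) (XT.lf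 (nat_lit 0) (nat_lit 19295799345) (nat_lit 152) (nat_lit 40932365099) (nat_lit 76) (nat_lit 406439676579) (nat_lit 11) (nat_lit 5) (nat_lit 13) (nat_lit 5) (nat_lit 12) (nat_lit 4) (nat_lit 468) (nat_lit 370) (nat_lit 182)) (XT.lf (nat_lit 0) (nat_lit 75647520947) (nat_lit 76) (nat_lit 516709680) (nat_lit 152) (nat_lit 410847419238) (nat_lit 10) (nat_lit 5) (nat_lit 11) (nat_lit 5) (nat_lit 12) (nat_lit 4) (nat_lit 469) (nat_lit 370) (nat_lit 181))) (XT.nd (nat_lit 78) (nat_lit 0) (nat_lit 0) (XT.lf (nat_lit 0) (nat_lit 137550873091) (nat_lit 152) (nat_lit 309843859672) (nat_lit 0) (nat_lit 60894176932) (nat_lit 10) (nat_lit 5) (nat_lit 12) (nat_lit 4) (nat_lit 10) (nat_lit 4) (nat_lit 470) (nat_lit 370) (nat_lit 180)) (XT.lf (nat_lit 0) (nat_lit 202014753658) (nat_lit 152) (nat_lit 203257169964) (nat_lit 0) (nat_lit 125357713621) (nat_lit 10) (nat_lit 5) (nat_lit 12) (nat_lit 4) (nat_lit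 10) (nat_lit 4) (nat_lit 471) (nat_lit 370) (nat_lit 179)))))) (XT.nd (nat_lit 546) (nat_lit 0) (nat_lit 0) (XT.nd (nat_lit 234) (nat_lit 152) (nat_lit 0) (XT.nd (nat_lit 78) (nat_lit 76) (nat_lit 0) (XT.lf (nat_lit 0) (nat_lit 269701290473) (nat_lit 152) (nat_lit 91342214675) (nat_lit 0) (nat_lit 193043922933) (nat_lit 10) (nat_lit 5) (nat_lit 12) (nat_lit 4) (nat_lit 10) (nat_lit 4) (nat_lit 472) (nat_lit 370) (nat_lit 178)) (XT.nd (nat_lit 78) (nat_lit 0) (nat_lit 0) (XT.lf (nat_lit 0) (nat_lit 27032685118) (nat_lit 76) (nat_lit 314161012812) (nat_lit 76) (nat_lit 237503333363) (nat_lit 9) (nat_lit 4) (nat_lit 10) (nat_lit 5) (nat_lit 10) (nat_lit 4) (nat_lit 473) (nat_lit 370) (nat_lit 177)) (XT.lf (nat_lit 0) (nat_lit 154496523754) (nat_lit 76) (nat_lit 263310623189) (nat_lit 76) (nat_lit 186652646686) (nat_lit 9) (nat_lit 4) (nat_lit 10) (nat_lit 5) (nat_lit 10) (nat_lit 4) (nat_lit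 474) (nat_lit 370) (nat_lit 176)))) (XT.nd (nat_lit 156) (nat_lit 152) (nat_lit 0) (XT.nd (nat_lit 78) (nat_lit 0) (nat_lit 0) (XT.lf (nat_lit 0) (nat_lit 288332600431) (nat_lit 76) (nat_lit 209918188528) (nat_lit 76) (nat_lit 133259929115) (nat_lit 9) (nat_lit 4) (nat_lit 10) (nat_lit 5) (nat_lit 10) (nat_lit 4) (nat_lit 475) (nat_lit 370) (nat_lit 175)) (XT.lf (nat_lit 0) (nat_lit 428859572474) (nat_lit 76) (nat_lit 153856583985) (nat_lit 76) (nat_lit 77198055134) (nat_lit 9) (nat_lit 4) (nat_lit 10) (nat_lit 5) (nat_lit 10) (nat_lit 4) (nat_lit 476) (nat_lit 370) (nat_lit 174))) (XT.nd (nat_lit 78) (nat_lit 152) (nat_lit 0) (XT.lf (nat_lit 0) (nat_lit 576412027913) (nat_lit 76) (nat_lit 94992329548) (nat_lit 76) (nat_lit 18333544090) (nat_lit 9) (nat_lit 4) (nat_lit 10) (nat_lit 5) (nat_lit 10) (nat_lit 4) (nat_lit 477) (nat_lit 370) (nat_lit 173)) (XT.lf (nat_lit 0) (nat_lit 9927479536)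 (nat_lit 76) (nat_lit 32309842113) (nat_lit 152) (nat_lit 678773787934) (nat_lit 7) (nat_lit 5) (nat_lit 8) (nat_lit 5) (nat_lit 9) (nat_lit 4) (nat_lit 478) (nat_lit 370) (nat_lit 172))))) (XT.nd (nat_lit 44850) (nat_lit 0) (nat_lit 8512) (XT.nd (nat_lit 44694) (nat_lit 0) (nat_lit 8436) (XT.lf (nat_lit 0) (nat_lit 107694009012) (nat_lit 152) (nat_lit 611330083754) (nat_lit 0) (nat_lit 34685187491) (nat_lit 7) (nat_lit 5) (nat_lit 9) (nat_lit 4) (nat_lit 7) (nat_lit 4) (nat_lit 479) (nat_lit 370) (nat_lit 171)) (XT.nd (nat_lit 78) (nat_lit 0) (nat_lit 0) (XT.lf (nat_lit 0) (nat_lit 1296032382) (nat_lit 836) (nat_lit 3998417833) (nat_lit 836) (nat_lit 3998417833) (nat_lit 118) (nat_lit 3) (nat_lit 129) (nat_lit 3) (nat_lit 129) (nat_lit 5) (nat_lit 371) (nat_lit 371) (nat_lit 278)) (XT.lf (nat_lit 76) (nat_lit 1068359947) (nat_lit 0) (nat_lit 1792603782) (nat_lit 836) (nat_lit 16179108395)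 (nat_lit 119) (nat_lit 5) (nat_lit 118) (nat_lit 3) (nat_lit 129) (nat_lit 5) (nat_lit 372) (nat_lit 371) (nat_lit 277)))) (XT.nd (nat_lit 156) (nat_lit 0) (nat_lit 76) (XT.nd (nat_lit 78) (nat_lit 0) (nat_lit 0) (XT.lf (nat_lit 0) (nat_lit 3385160675) (nat_lit 760) (nat_lit 8771549047) (nat_lit 836) (nat_lit 7348329140) (nat_lit 119) (nat_lit 5) (nat_lit 129) (nat_lit 5) (nat_lit 130) (nat_lit 5) (nat_lit 373) (nat_lit 371) (nat_lit 276)) (XT.lf (nat_lit 76) (nat_lit 880552920) (nat_lit 0) (nat_lit 3086709935) (nat_lit 836) (nat_lit 16024412562) (nat_lit 120) (nat_lit 5) (nat_lit 119) (nat_lit 5) (nat_lit 130) (nat_lit 5) (nat_lit 374) (nat_lit 371) (nat_lit 275))) (XT.nd (nat_lit 78) (nat_lit 0) (nat_lit 0) (XT.lf (nat_lit 0) (nat_lit 4819018250) (nat_lit 760) (nat_lit 9285736571) (nat_lit 836) (nat_lit 6385867526) (nat_lit 120) (nat_lit 5) (nat_lit 130) (nat_lit 5) (nat_lit 131) (nat_lit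 5) (nat_lit 375) (nat_lit 371) (nat_lit 274)) (XT.lf (nat_lit 76) (nat_lit 1005472464) (nat_lit 0) (nat_lit 4763775755) (nat_lit 836) (nat_lit 15242479732) (nat_lit 121) (nat_lit 5) (nat_lit 120) (nat_lit 5) (nat_lit 131) (nat_lit 5) (nat_lit 376) (nat_lit 371) (nat_lit 273))))))) (XT.nd (nat_lit 1014) (nat_lit 2204) (nat_lit 0) (XT.nd (nat_lit 468) (nat_lit 1216) (nat_lit 0) (XT.nd (nat_lit 234) (nat_lit 608) (nat_lit 0) (XT.nd (nat_lit 78) (nat_lit 0) (nat_lit 0) (XT.lf (nat_lit 0) (nat_lit 6995604354) (nat_lit 760) (nat_lit 9506204806) (nat_lit 836) (nat_lit 5045654340) (nat_lit 121) (nat_lit 5) (nat_lit 131) (nat_lit 5) (nat_lit 132) (nat_lit 5) (nat_lit 377) (nat_lit 371) (nat_lit 272)) (XT.nd (nat_lit 78) (nat_lit 0) (nat_lit 76) (XT.lf (nat_lit 76) (nat_lit 1481044269) (nat_lit 0) (nat_lit 6893950349) (nat_lit 836) (nat_lit 13730410534) (nat_lit 122) (nat_lit 5) (nat_lit 121) (nat_lit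 5) (nat_lit 132) (nat_lit 5) (nat_lit 378) (nat_lit 371) (nat_lit 271)) (XT.lf (nat_lit 0) (nat_lit 10027733120) (nat_lit 760) (nat_lit 9395509693) (nat_lit 836) (nat_lit 3257787034) (nat_lit 122) (nat_lit 5) (nat_lit 132) (nat_lit 5) (nat_lit 133) (nat_lit 5) (nat_lit 379) (nat_lit 371) (nat_lit 270)))) (XT.nd (nat_lit 78) (nat_lit 684) (nat_lit 0) (XT.lf (nat_lit 76) (nat_lit 2349840951) (nat_lit 0) (nat_lit 9554280618) (nat_lit 836) (nat_lit 11374268220) (nat_lit 123) (nat_lit 5) (nat_lit 122) (nat_lit 5) (nat_lit 133) (nat_lit 5) (nat_lit 380) (nat_lit 371) (nat_lit 269)) (XT.nd (nat_lit 78) (nat_lit 760) (nat_lit 0) (XT.lf (nat_lit 0) (nat_lit 14040307918) (nat_lit 760) (nat_lit 8911704527) (nat_lit 76) (nat_lit 945310799) (nat_lit 123) (nat_lit 5) (nat_lit 133) (nat_lit 5) (nat_lit 124) (nat_lit 5) (nat_lit 381) (nat_lit 371) (nat_lit 268)) (XT.lf (nat_lit 0) (nat_lit 3659365539) (nat_lit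 760) (nat_lit 12829732187) (nat_lit 836) (nat_lit 8047820171) (nat_lit 113) (nat_lit 5) (nat_lit 123) (nat_lit 5) (nat_lit 124) (nat_lit 5) (nat_lit 382) (nat_lit 371) (nat_lit 267))))) (XT.nd (nat_lit 234) (nat_lit 836) (nat_lit 0) (XT.nd (nat_lit 78) (nat_lit 380) (nat_lit 0) (XT.lf (nat_lit 0) (nat_lit 17161386610) (nat_lit 760) (nat_lit 2042168193) (nat_lit 836) (nat_lit 5997780118) (nat_lit 113) (nat_lit 5) (nat_lit 123) (nat_lit 5) (nat_lit 124) (nat_lit 5) (nat_lit 383) (nat_lit 371) (nat_lit 266)) (XT.nd (nat_lit 78) (nat_lit 0) (nat_lit 0) (XT.lf (nat_lit 0) (nat_lit 5462359920) (nat_lit 380) (nat_lit 16814299542) (nat_lit 456) (nat_lit 3611170934) (nat_lit 108) (nat_lit 5) (nat_lit 113) (nat_lit 5) (nat_lit 114) (nat_lit 5) (nat_lit 384) (nat_lit 371) (nat_lit 265)) (XT.lf (nat_lit 0) (nat_lit 19877396623) (nat_lit 380) (nat_lit 5788042316) (nat_lit 456) (nat_lit 935114381) (nat_lit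 108) (nat_lit 5) (nat_lit 113) (nat_lit 5) (nat_lit 114) (nat_lit 5) (nat_lit 385) (nat_lit 371) (nat_lit 264)))) (XT.nd (nat_lit 156) (nat_lit 380) (nat_lit 0) (XT.nd (nat_lit 78) (nat_lit 0) (nat_lit 0) (XT.lf (nat_lit 0) (nat_lit 2023808613) (nat_lit 456) (nat_lit 19554137281) (nat_lit 76) (nat_lit 5759052951) (nat_lit 102) (nat_lit 5) (nat_lit 108) (nat_lit 5) (nat_lit 103) (nat_lit 5) (nat_lit 386) (nat_lit 371) (nat_lit 263)) (XT.lf (nat_lit 0) (nat_lit 5303228565) (nat_lit 456) (nat_lit 4976116335) (nat_lit 76) (nat_lit 17819959576) (nat_lit 102) (nat_lit 5) (nat_lit 108) (nat_lit 5) (nat_lit 103) (nat_lit 5) (nat_lit 387) (nat_lit 371) (nat_lit 262))) (XT.nd (nat_lit 78) (nat_lit 0) (nat_lit 0) (XT.lf (nat_lit 0) (nat_lit 8934274571) (nat_lit 456) (nat_lit 18253727145) (nat_lit 76) (nat_lit 1702343927) (nat_lit 97) (nat_lit 5) (nat_lit 103) (nat_lit 5) (nat_lit 98) (nat_lit 5) (nat_lit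 388) (nat_lit 371) (nat_lit 261)) (XT.lf (nat_lit 0) (nat_lit 12994911668) (nat_lit 456) (nat_lit 2690782083) (nat_lit 76) (nat_lit 14022846039) (nat_lit 97) (nat_lit 5) (nat_lit 103) (nat_lit 5) (nat_lit 98) (nat_lit 5) (nat_lit 389) (nat_lit 371) (nat_lit 260)))))) (XT.nd (nat_lit 546) (nat_lit 988) (nat_lit 0) (XT.nd (nat_lit 234) (nat_lit 608) (nat_lit 0) (XT.nd (nat_lit 78) (nat_lit 304) (nat_lit 0) (XT.lf (nat_lit 0) (nat_lit 14094851518) (nat_lit 304) (nat_lit 3377951595) (nat_lit 380) (nat_lit 13084132133) (nat_lit 93) (nat_lit 5) (nat_lit 97) (nat_lit 5) (nat_lit 98) (nat_lit 5) (nat_lit 390) (nat_lit 371) (nat_lit 259)) (XT.nd (nat_lit 78) (nat_lit 0) (nat_lit 0) (XT.lf (nat_lit 0) (nat_lit 218172827) (nat_lit 304) (nat_lit 22149492820) (nat_lit 380) (nat_lit 9070433600) (nat_lit 89) (nat_lit 5) (nat_lit 93) (nat_lit 5) (nat_lit 94) (nat_lit 5) (nat_lit 391) (nat_lit 371) (nat_lit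 258)) (XT.lf (nat_lit 0) (nat_lit 18240121457) (nat_lit 304) (nat_lit 9594919306) (nat_lit 380) (nat_lit 4511894686) (nat_lit 89) (nat_lit 5) (nat_lit 93) (nat_lit 5) (nat_lit 94) (nat_lit 5) (nat_lit 392) (nat_lit 371) (nat_lit 257)))) (XT.nd (nat_lit 156) (nat_lit 304) (nat_lit 0) (XT.nd (nat_lit 78) (nat_lit 0) (nat_lit 0) (XT.lf (nat_lit 0) (nat_lit 379645143) (nat_lit 304) (nat_lit 29376739780) (nat_lit 76) (nat_lit 3538923340) (nat_lit 85) (nat_lit 5) (nat_lit 89) (nat_lit 5) (nat_lit 86) (nat_lit 5) (nat_lit 393) (nat_lit 371) (nat_lit 256)) (XT.lf (nat_lit 0) (nat_lit 5759050720) (nat_lit 304) (nat_lit 11185992814) (nat_lit 76) (nat_lit 17322614146) (nat_lit 85) (nat_lit 5) (nat_lit 89) (nat_lit 5) (nat_lit 86) (nat_lit 5) (nat_lit 394) (nat_lit 371) (nat_lit 255))) (XT.nd (nat_lit 78) (nat_lit 0) (nat_lit 0) (XT.lf (nat_lit 0) (nat_lit 8169441347) (nat_lit 304) (nat_lit 3360582662)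 (nat_lit 380) (nat_lit 23752472722) (nat_lit 81) (nat_lit 5) (nat_lit 85) (nat_lit 5) (nat_lit 86) (nat_lit 5) (nat_lit 395) (nat_lit 371) (nat_lit 254)) (XT.lf (nat_lit 0) (nat_lit 17947485865) (nat_lit 380) (nat_lit 7637381471) (nat_lit 76) (nat_lit 10745315342) (nat_lit 81) (nat_lit 5) (nat_lit 86) (nat_lit 5) (nat_lit 82) (nat_lit 5) (nat_lit 396) (nat_lit 371) (nat_lit 253))))) (XT.nd (nat_lit 234) (nat_lit 456) (nat_lit 0) (XT.nd (nat_lit 78) (nat_lit 304) (nat_lit 0) (XT.lf (nat_lit 0) (nat_lit 13172450213) (nat_lit 228) (nat_lit 11769517322) (nat_lit 304) (nat_lit 12475479896) (nat_lit 78) (nat_lit 5) (nat_lit 81) (nat_lit 5) (nat_lit 82) (nat_lit 5) (nat_lit 397) (nat_lit 371) (nat_lit 252)) (XT.nd (nat_lit 78) (nat_lit 304) (nat_lit 0) (XT.lf (nat_lit 0) (nat_lit 32455859415) (nat_lit 304) (nat_lit 3315766034) (nat_lit 76) (nat_lit 2778967424) (nat_lit 78) (nat_lit 5) (nat_lit 82)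 (nat_lit 5) (nat_lit 79) (nat_lit 5) (nat_lit 398) (nat_lit 371) (nat_lit 251)) (XT.lf (nat_lit 0) (nat_lit 1080070381) (nat_lit 304) (nat_lit 20662048304) (nat_lit 76) (nat_lit 17973086895) (nat_lit 74) (nat_lit 5) (nat_lit 78) (nat_lit 5) (nat_lit 75) (nat_lit 5) (nat_lit 399) (nat_lit 371) (nat_lit 250)))) (XT.nd (nat_lit 156) (nat_lit 228) (nat_lit 0) (XT.nd (nat_lit 78) (nat_lit 0) (nat_lit 0) (XT.lf (nat_lit 0) (nat_lit 1666932927) (nat_lit 228) (nat_lit 6820713035) (nat_lit 304) (nat_lit 32441466069) (nat_lit 71) (nat_lit 5) (nat_lit 74) (nat_lit 5) (nat_lit 75) (nat_lit 5) (nat_lit 400) (nat_lit 371) (nat_lit 249)) (XT.lf (nat_lit 0) (nat_lit 16755218515) (nat_lit 304) (nat_lit 16506444840) (nat_lit 76) (nat_lit 8917570986) (nat_lit 71) (nat_lit 5) (nat_lit 75) (nat_lit 5) (nat_lit 72) (nat_lit 5) (nat_lit 401) (nat_lit 371) (nat_lit 248))) (XT.nd (nat_lit 78) (nat_lit 0) (nat_lit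 0) (XT.lf (nat_lit 0) (nat_lit 7509841255) (nat_lit 228) (nat_lit 18151428524) (nat_lit 304) (nat_lit 17819339361) (nat_lit 68) (nat_lit 5) (nat_lit 71) (nat_lit 5) (nat_lit 72) (nat_lit 5) (nat_lit 402) (nat_lit 371) (nat_lit 247)) (XT.lf (nat_lit 0) (nat_lit 33294319667) (nat_lit 228) (nat_lit 1993983992) (nat_lit 304) (nat_lit 9544966327) (nat_lit 68) (nat_lit 5) (nat_lit 71) (nat_lit 5) (nat_lit 72) (nat_lit 5) (nat_lit 403) (nat_lit 371) (nat_lit 246))))))))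
noncomputable def xc170 : XT := (XT.nd (nat_lit 2106) (nat_lit 1444) (nat_lit 0) (XT.nd (nat_lit 1014) (nat_lit 988) (nat_lit 0) (XT.nd (nat_lit 468) (nat_lit 684) (nat_lit 0) (XT.nd (nat_lit 234) (nat_lit 380) (nat_lit 0) (XT.nd (nat_lit 78) (nat_lit 304) (nat_lit 0) (XT.lf (nat_lit 0) (nat_lit 14333912625) (nat_lit 152) (nat_lit 31516605948) (nat_lit 228) (nat_lit 380355084) (nat_lit 66) (nat_lit 5) (nat_lit 68) (nat_lit 5) (nat_lit 69) (nat_lit 5) (nat_lit 404) (nat_lit 371) (nat_lit 245)) (XT.nd (nat_lit 78) (nat_lit 228) (nat_lit 0) (XT.lf (nat_lit 0) (nat_lit 9174301757) (nat_lit 228) (nat_lit 5973363104) (nat_lit 76) (nat_lit 32532097112) (nat_lit 65) (nat_lit 5) (nat_lit 68) (nat_lit 5) (nat_lit 66) (nat_lit 5) (nat_lit 405) (nat_lit 371) (nat_lit 244)) (XT.lf (nat_lit 0) (nat_lit 19570438310) (nat_lit 304) (nat_lit 27284410698) (nat_lit 76) (nat_lit 2327108543) (nat_lit 62) (nat_lit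 5) (nat_lit 66) (nat_lit 5) (nat_lit 63) (nat_lit 5) (nat_lit 406) (nat_lit 371) (nat_lit 243)))) (XT.nd (nat_lit 78) (nat_lit 228) (nat_lit 0) (XT.lf (nat_lit 0) (nat_lit 371696493) (nat_lit 152) (nat_lit 30468184901) (nat_lit 228) (nat_lit 19901707558) (nat_lit 60) (nat_lit 5) (nat_lit 62) (nat_lit 5) (nat_lit 63) (nat_lit 5) (nat_lit 407) (nat_lit 371) (nat_lit 242)) (XT.nd (nat_lit 78) (nat_lit 228) (nat_lit 0) (XT.lf (nat_lit 0) (nat_lit 30352550728) (nat_lit 152) (nat_lit 12778955695) (nat_lit 228) (nat_lit 9224760988) (nat_lit 60) (nat_lit 5) (nat_lit 62) (nat_lit 5) (nat_lit 63) (nat_lit 5) (nat_lit 408) (nat_lit 371) (nat_lit 241)) (XT.lf (nat_lit 0) (nat_lit 2137120455) (nat_lit 228) (nat_lit 46136381456) (nat_lit 76) (nat_lit 5765895743) (nat_lit 57) (nat_lit 5) (nat_lit 60) (nat_lit 5) (nat_lit 58) (nat_lit 5) (nat_lit 409) (nat_lit 371) (nat_lit 240))))) (XT.nd (nat_lit 234)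 (nat_lit 532) (nat_lit 0) (XT.nd (nat_lit 78) (nat_lit 152) (nat_lit 0) (XT.lf (nat_lit 0) (nat_lit 14342115066) (nat_lit 228) (nat_lit 16091086795) (nat_lit 76) (nat_lit 25336670536) (nat_lit 57) (nat_lit 5) (nat_lit 60) (nat_lit 5) (nat_lit 58) (nat_lit 5) (nat_lit 410) (nat_lit 371) (nat_lit 239)) (XT.nd (nat_lit 78) (nat_lit 0) (nat_lit 0) (XT.lf (nat_lit 0) (nat_lit 15962403413) (nat_lit 152) (nat_lit 11441114776) (nat_lit 228) (nat_lit 30171045554) (nat_lit 55) (nat_lit 5) (nat_lit 57) (nat_lit 5) (nat_lit 58) (nat_lit 5) (nat_lit 411) (nat_lit 371) (nat_lit 238)) (XT.lf (nat_lit 0) (nat_lit 41524667739) (nat_lit 228) (nat_lit 9420841352) (nat_lit 76) (nat_lit 8503647520) (nat_lit 55) (nat_lit 5) (nat_lit 58) (nat_lit 5) (nat_lit 56) (nat_lit 5) (nat_lit 412) (nat_lit 371) (nat_lit 237)))) (XT.nd (nat_lit 156) (nat_lit 304) (nat_lit 0) (XT.nd (nat_lit 78) (nat_lit 76) (nat_lit 0) (XT.lf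 (nat_lit 0) (nat_lit 24987471516) (nat_lit 152) (nat_lit 31939211460) (nat_lit 228) (nat_lit 4462056465) (nat_lit 53) (nat_lit 5) (nat_lit 55) (nat_lit 5) (nat_lit 56) (nat_lit 5) (nat_lit 413) (nat_lit 371) (nat_lit 236)) (XT.lf (nat_lit 0) (nat_lit 9523188665) (nat_lit 228) (nat_lit 2132485861) (nat_lit 76) (nat_lit 51754110856) (nat_lit 52) (nat_lit 5) (nat_lit 55) (nat_lit 5) (nat_lit 53) (nat_lit 5) (nat_lit 414) (nat_lit 371) (nat_lit 235))) (XT.nd (nat_lit 78) (nat_lit 152) (nat_lit 0) (XT.lf (nat_lit 0) (nat_lit 24760368794) (nat_lit 228) (nat_lit 30773082549) (nat_lit 76) (nat_lit 9959644131) (nat_lit 50) (nat_lit 5) (nat_lit 53) (nat_lit 5) (nat_lit 51) (nat_lit 5) (nat_lit 415) (nat_lit 371) (nat_lit 234)) (XT.lf (nat_lit 0) (nat_lit 5799776731) (nat_lit 152) (nat_lit 35275274035) (nat_lit 228) (nat_lit 26589738763) (nat_lit 48) (nat_lit 5) (nat_lit 50) (nat_lit 5) (nat_lit 51)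 (nat_lit 5) (nat_lit 416) (nat_lit 371) (nat_lit 233)))))) (XT.nd (nat_lit 546) (nat_lit 532) (nat_lit 0) (XT.nd (nat_lit 234) (nat_lit 304) (nat_lit 0) (XT.nd (nat_lit 78) (nat_lit 152) (nat_lit 0) (XT.lf (nat_lit 0) (nat_lit 45265134870) (nat_lit 152) (nat_lit 13458855372) (nat_lit 228) (nat_lit 11195152447) (nat_lit 48) (nat_lit 5) (nat_lit 50) (nat_lit 5) (nat_lit 51) (nat_lit 5) (nat_lit 417) (nat_lit 371) (nat_lit 232)) (XT.nd (nat_lit 78) (nat_lit 0) (nat_lit 0) (XT.lf (nat_lit 0) (nat_lit 5191337487) (nat_lit 152) (nat_lit 57613872852) (nat_lit 76) (nat_lit 9458063632) (nat_lit 46) (nat_lit 5) (nat_lit 48) (nat_lit 5) (nat_lit 47) (nat_lit 5) (nat_lit 418) (nat_lit 371) (nat_lit 231)) (XT.lf (nat_lit 0) (nat_lit 22663406399) (nat_lit 152) (nat_lit 18345244194) (nat_lit 76) (nat_lit 33674661111) (nat_lit 46) (nat_lit 5) (nat_lit 48) (nat_lit 5) (nat_lit 47) (nat_lit 5) (nat_lit 419)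 (nat_lit 371) (nat_lit 230)))) (XT.nd (nat_lit 156) (nat_lit 152) (nat_lit 0) (XT.nd (nat_lit 78) (nat_lit 0) (nat_lit 0) (XT.lf (nat_lit 0) (nat_lit 23639216583) (nat_lit 152) (nat_lit 17736532570) (nat_lit 228) (nat_lit 35830269123) (nat_lit 44) (nat_lit 5) (nat_lit 46) (nat_lit 5) (nat_lit 47) (nat_lit 5) (nat_lit 420) (nat_lit 371) (nat_lit 229)) (XT.lf (nat_lit 0) (nat_lit 61441699109) (nat_lit 228) (nat_lit 11593430865) (nat_lit 76) (nat_lit 6798831148) (nat_lit 44) (nat_lit 5) (nat_lit 47) (nat_lit 5) (nat_lit 45) (nat_lit 4) (nat_lit 421) (nat_lit 371) (nat_lit 228))) (XT.nd (nat_lit 78) (nat_lit 0) (nat_lit 0) (XT.lf (nat_lit 0) (nat_lit 741108329) (nat_lit 152) (nat_lit 49316910592) (nat_lit 76) (nat_lit 32494305534) (nat_lit 42) (nat_lit 5) (nat_lit 44) (nat_lit 5) (nat_lit 43) (nat_lit 5) (nat_lit 422) (nat_lit 371) (nat_lit 227)) (XT.lf (nat_lit 0) (nat_lit 20410346573) (nat_lit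 152) (nat_lit 4997355042) (nat_lit 76) (nat_lit 59973964103) (nat_lit 42) (nat_lit 5) (nat_lit 44) (nat_lit 5) (nat_lit 43) (nat_lit 5) (nat_lit 423) (nat_lit 371) (nat_lit 226))))) (XT.nd (nat_lit 234) (nat_lit 304) (nat_lit 0) (XT.nd (nat_lit 78) (nat_lit 76) (nat_lit 0) (XT.lf (nat_lit 0) (nat_lit 41749177761) (nat_lit 228) (nat_lit 45429810794) (nat_lit 76) (nat_lit 1139179306) (nat_lit 40) (nat_lit 5) (nat_lit 43) (nat_lit 5) (nat_lit 41) (nat_lit 4) (nat_lit 424) (nat_lit 371) (nat_lit 225)) (XT.nd (nat_lit 78) (nat_lit 0) (nat_lit 0) (XT.lf (nat_lit 0) (nat_lit 1573173319) (nat_lit 76) (nat_lit 63106744437) (nat_lit 152) (nat_lit 26695329343) (nat_lit 39) (nat_lit 5) (nat_lit 40) (nat_lit 5) (nat_lit 41) (nat_lit 4) (nat_lit 425) (nat_lit 371) (nat_lit 224)) (XT.lf (nat_lit 0) (nat_lit 52499730213) (nat_lit 76) (nat_lit 37024748573) (nat_lit 152) (nat_lit 5022337648) (nat_lit 39) (nat_lit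 5) (nat_lit 40) (nat_lit 5) (nat_lit 41) (nat_lit 4) (nat_lit 426) (nat_lit 371) (nat_lit 223)))) (XT.nd (nat_lit 156) (nat_lit 76) (nat_lit 0) (XT.nd (nat_lit 78) (nat_lit 0) (nat_lit 0) (XT.lf (nat_lit 0) (nat_lit 8073487213) (nat_lit 152) (nat_lit 9217232558) (nat_lit 228) (nat_lit 80566199426) (nat_lit 36) (nat_lit 5) (nat_lit 38) (nat_lit 5) (nat_lit 39) (nat_lit 5) (nat_lit 427) (nat_lit 371) (nat_lit 222)) (XT.lf (nat_lit 0) (nat_lit 41584351113) (nat_lit 228) (nat_lit 39546712461) (nat_lit 76) (nat_lit 20145661919) (nat_lit 36) (nat_lit 5) (nat_lit 39) (nat_lit 5) (nat_lit 37) (nat_lit 4) (nat_lit 428) (nat_lit 371) (nat_lit 221))) (XT.nd (nat_lit 78) (nat_lit 0) (nat_lit 0) (XT.lf (nat_lit 0) (nat_lit 13478619046) (nat_lit 76) (nat_lit 53973671041) (nat_lit 152) (nat_lit 37397250988) (nat_lit 35) (nat_lit 5) (nat_lit 36) (nat_lit 5) (nat_lit 37) (nat_lit 4) (nat_lit 429) (nat_lit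 371) (nat_lit 220)) (XT.lf (nat_lit 0) (nat_lit 70524724684) (nat_lit 76) (nat_lit 24756766012) (nat_lit 152) (nat_lit 13286113767) (nat_lit 35) (nat_lit 5) (nat_lit 36) (nat_lit 5) (nat_lit 37) (nat_lit 4) (nat_lit 430) (nat_lit 371) (nat_lit 219))))))) (XT.nd (nat_lit 1014) (nat_lit 684) (nat_lit 0) (XT.nd (nat_lit 468) (nat_lit 304) (nat_lit 0) (XT.nd (nat_lit 234) (nat_lit 152) (nat_lit 0) (XT.nd (nat_lit 78) (nat_lit 76) (nat_lit 0) (XT.lf (nat_lit 0) (nat_lit 12030360389) (nat_lit 228) (nat_lit 94200530742) (nat_lit 76) (nat_lit 6212046886) (nat_lit 32) (nat_lit 5) (nat_lit 35) (nat_lit 5) (nat_lit 33) (nat_lit 4) (nat_lit 431) (nat_lit 371) (nat_lit 218)) (XT.nd (nat_lit 78) (nat_lit 76) (nat_lit 0) (XT.lf (nat_lit 0) (nat_lit 39225035811) (nat_lit 228) (nat_lit 38454690363) (nat_lit 76) (nat_lit 38768478138) (nat_lit 32) (nat_lit 5) (nat_lit 35) (nat_lit 5) (nat_lit 33) (nat_lit 4)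 (nat_lit 432) (nat_lit 371) (nat_lit 217)) (XT.lf (nat_lit 0) (nat_lit 20739008623) (nat_lit 76) (nat_lit 47362509498) (nat_lit 152) (nat_lit 52536112360) (nat_lit 31) (nat_lit 5) (nat_lit 32) (nat_lit 5) (nat_lit 33) (nat_lit 4) (nat_lit 433) (nat_lit 371) (nat_lit 216)))) (XT.nd (nat_lit 78) (nat_lit 152) (nat_lit 0) (XT.lf (nat_lit 0) (nat_lit 84224293164) (nat_lit 76) (nat_lit 14847091865) (nat_lit 152) (nat_lit 25932665113) (nat_lit 31) (nat_lit 5) (nat_lit 32) (nat_lit 5) (nat_lit 33) (nat_lit 4) (nat_lit 434) (nat_lit 371) (nat_lit 215)) (XT.nd (nat_lit 78) (nat_lit 0) (nat_lit 0) (XT.lf (nat_lit 0) (nat_lit 2585538593) (nat_lit 152) (nat_lit 107913787446) (nat_lit 76) (nat_lit 19055471549) (nat_lit 29) (nat_lit 5) (nat_lit 31) (nat_lit 5) (nat_lit 30) (nat_lit 4) (nat_lit 435) (nat_lit 371) (nat_lit 214)) (XT.lf (nat_lit 0) (nat_lit 32601860773) (nat_lit 152) (nat_lit 46382868921)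 (nat_lit 76) (nat_lit 55279910813) (nat_lit 29) (nat_lit 5) (nat_lit 31) (nat_lit 5) (nat_lit 30) (nat_lit 4) (nat_lit 436) (nat_lit 371) (nat_lit 213))))) (XT.nd (nat_lit 234) (nat_lit 152) (nat_lit 0) (XT.nd (nat_lit 78) (nat_lit 76) (nat_lit 0) (XT.lf (nat_lit 0) (nat_lit 18824160381) (nat_lit 76) (nat_lit 45587188296) (nat_lit 152) (nat_lit 74784009584) (nat_lit 28) (nat_lit 5) (nat_lit 29) (nat_lit 5) (nat_lit 30) (nat_lit 4) (nat_lit 437) (nat_lit 371) (nat_lit 212)) (XT.nd (nat_lit 78) (nat_lit 76) (nat_lit 0) (XT.lf (nat_lit 0) (nat_lit 88898970973) (nat_lit 76) (nat_lit 9696336831) (nat_lit 152) (nat_lit 45738104417) (nat_lit 28) (nat_lit 5) (nat_lit 29) (nat_lit 5) (nat_lit 30) (nat_lit 4) (nat_lit 438) (nat_lit 371) (nat_lit 211)) (XT.lf (nat_lit 0) (nat_lit 12716375141) (nat_lit 76) (nat_lit 122406148271) (nat_lit 76) (nat_lit 14574142695) (nat_lit 27) (nat_lit 4) (nat_lit 28)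 (nat_lit 5) (nat_lit 28) (nat_lit 4) (nat_lit 439) (nat_lit 371) (nat_lit 210)))) (XT.nd (nat_lit 156) (nat_lit 0) (nat_lit 0) (XT.nd (nat_lit 78) (nat_lit 76) (nat_lit 0) (XT.lf (nat_lit 0) (nat_lit 18678858818) (nat_lit 152) (nat_lit 69542336677) (nat_lit 76) (nat_lit 67037135680) (nat_lit 26) (nat_lit 5) (nat_lit 28) (nat_lit 5) (nat_lit 27) (nat_lit 4) (nat_lit 440) (nat_lit 371) (nat_lit 209)) (XT.lf (nat_lit 0) (nat_lit 1059852707) (nat_lit 76) (nat_lit 52060023781) (nat_lit 152) (nat_lit 107965499482) (nat_lit 25) (nat_lit 5) (nat_lit 26) (nat_lit 5) (nat_lit 27) (nat_lit 4) (nat_lit 441) (nat_lit 371) (nat_lit 208))) (XT.nd (nat_lit 78) (nat_lit 0) (nat_lit 0) (XT.lf (nat_lit 0) (nat_lit 77603883279) (nat_lit 76) (nat_lit 12855425933) (nat_lit 152) (nat_lit 76685645709) (nat_lit 25) (nat_lit 5) (nat_lit 26) (nat_lit 5) (nat_lit 27) (nat_lit 4) (nat_lit 442) (nat_lit 371) (nat_lit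 207)) (XT.lf (nat_lit 0) (nat_lit 130106380290) (nat_lit 152) (nat_lit 15976929592) (nat_lit 0) (nat_lit 27402169722) (nat_lit 25) (nat_lit 5) (nat_lit 27) (nat_lit 4) (nat_lit 25) (nat_lit 4) (nat_lit 443) (nat_lit 371) (nat_lit 206)))))) (XT.nd (nat_lit 546) (nat_lit 304) (nat_lit 0) (XT.nd (nat_lit 234) (nat_lit 152) (nat_lit 0) (XT.nd (nat_lit 78) (nat_lit 152) (nat_lit 0) (XT.lf (nat_lit 0) (nat_lit 63070916120) (nat_lit 76) (nat_lit 109859087833) (nat_lit 76) (nat_lit 7153316732) (nat_lit 24) (nat_lit 4) (nat_lit 25) (nat_lit 5) (nat_lit 25) (nat_lit 4) (nat_lit 444) (nat_lit 371) (nat_lit 205)) (XT.nd (nat_lit 78) (nat_lit 76) (nat_lit 0) (XT.lf (nat_lit 0) (nat_lit 30169037648) (nat_lit 152) (nat_lit 40860730143) (nat_lit 76) (nat_lit 115943489248) (nat_lit 23) (nat_lit 5) (nat_lit 25) (nat_lit 5) (nat_lit 24) (nat_lit 4) (nat_lit 445) (nat_lit 371) (nat_lit 204)) (XT.lf (nat_lit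 0) (nat_lit 40267771577) (nat_lit 76) (nat_lit 29476835423) (nat_lit 152) (nat_lit 124425845156) (nat_lit 22) (nat_lit 5) (nat_lit 23) (nat_lit 5) (nat_lit 24) (nat_lit 4) (nat_lit 446) (nat_lit 371) (nat_lit 203)))) (XT.nd (nat_lit 156) (nat_lit 76) (nat_lit 0) (XT.nd (nat_lit 78) (nat_lit 76) (nat_lit 0) (XT.lf (nat_lit 0) (nat_lit 112222082119) (nat_lit 152) (nat_lit 75056253969) (nat_lit 0) (nat_lit 14403014669) (nat_lit 22) (nat_lit 5) (nat_lit 24) (nat_lit 4) (nat_lit 22) (nat_lit 4) (nat_lit 447) (nat_lit 371) (nat_lit 202)) (XT.lf (nat_lit 0) (nat_lit 7486684369) (nat_lit 76) (nat_lit 149935725614) (nat_lit 76) (nat_lit 52115435446) (nat_lit 21) (nat_lit 4) (nat_lit 22) (nat_lit 5) (nat_lit 22) (nat_lit 4) (nat_lit 448) (nat_lit 371) (nat_lit 201))) (XT.nd (nat_lit 78) (nat_lit 76) (nat_lit 0) (XT.lf (nat_lit 0) (nat_lit 96760385375) (nat_lit 76) (nat_lit 109392367147) (nat_lit 76)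 (nat_lit 11570912484) (nat_lit 21) (nat_lit 4) (nat_lit 22) (nat_lit 5) (nat_lit 22) (nat_lit 4) (nat_lit 449) (nat_lit 371) (nat_lit 200)) (XT.lf (nat_lit 0) (nat_lit 30007536181) (nat_lit 152) (nat_lit 36307114533) (nat_lit 76) (nat_lit 159979978432) (nat_lit 20) (nat_lit 5) (nat_lit 22) (nat_lit 5) (nat_lit 21) (nat_lit 4) (nat_lit 450) (nat_lit 371) (nat_lit 199))))) (XT.nd (nat_lit 234) (nat_lit 228) (nat_lit 0) (XT.nd (nat_lit 78) (nat_lit 0) (nat_lit 0) (XT.lf (nat_lit 0) (nat_lit 54122426954) (nat_lit 76) (nat_lit 19997595918) (nat_lit 152) (nat_lit 161122435633) (nat_lit 19) (nat_lit 5) (nat_lit 20) (nat_lit 5) (nat_lit 21) (nat_lit 4) (nat_lit 451) (nat_lit 371) (nat_lit 198)) (XT.nd (nat_lit 78) (nat_lit 0) (nat_lit 0) (XT.lf (nat_lit 0) (nat_lit 121509144557) (nat_lit 152) (nat_lit 94732150107) (nat_lit 0) (nat_lit 28342834205) (nat_lit 19) (nat_lit 5) (nat_lit 21) (nat_lit 4)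 (nat_lit 19) (nat_lit 4) (nat_lit 452) (nat_lit 371) (nat_lit 197)) (XT.lf (nat_lit 0) (nat_lit 171594575256) (nat_lit 152) (nat_lit 4354612424) (nat_lit 0) (nat_lit 78427352493) (nat_lit 19) (nat_lit 5) (nat_lit 21) (nat_lit 4) (nat_lit 19) (nat_lit 4) (nat_lit 453) (nat_lit 371) (nat_lit 196)))) (XT.nd (nat_lit 156) (nat_lit 76) (nat_lit 0) (XT.nd (nat_lit 78) (nat_lit 76) (nat_lit 0) (XT.lf (nat_lit 0) (nat_lit 93533645411) (nat_lit 76) (nat_lit 132110024403) (nat_lit 76) (nat_lit 38941932675) (nat_lit 18) (nat_lit 4) (nat_lit 19) (nat_lit 5) (nat_lit 19) (nat_lit 4) (nat_lit 454) (nat_lit 371) (nat_lit 195)) (XT.lf (nat_lit 0) (nat_lit 6937201425) (nat_lit 152) (nat_lit 78947656388) (nat_lit 76) (nat_lit 189411023959) (nat_lit 17) (nat_lit 5) (nat_lit 19) (nat_lit 5) (nat_lit 18) (nat_lit 4) (nat_lit 455) (nat_lit 371) (nat_lit 194))) (XT.nd (nat_lit 78) (nat_lit 0) (nat_lit 0) (XT.lf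 (nat_lit 0) (nat_lit 17687856521) (nat_lit 76) (nat_lit 36389003970) (nat_lit 152) (nat_lit 232419131339) (nat_lit 16) (nat_lit 5) (nat_lit 17) (nat_lit 5) (nat_lit 18) (nat_lit 4) (nat_lit 456) (nat_lit 371) (nat_lit 193)) (XT.lf (nat_lit 0) (nat_lit 105174828695) (nat_lit 152) (nat_lit 176560153393) (nat_lit 0) (nat_lit 16441059047) (nat_lit 16) (nat_lit 5) (nat_lit 18) (nat_lit 4) (nat_lit 16) (nat_lit 4) (nat_lit 457) (nat_lit 371) (nat_lit 192))))))))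
noncomputable def xc171 : XT := (XT.nd (nat_lit 46800) (nat_lit 0) (nat_lit 4636) (XT.nd (nat_lit 1014) (nat_lit 228) (nat_lit 0) (XT.nd (nat_lit 468) (nat_lit 228) (nat_lit 0) (XT.nd (nat_lit 234) (nat_lit 152) (nat_lit 0) (XT.nd (nat_lit 78) (nat_lit 76) (nat_lit 0) (XT.lf (nat_lit 0) (nat_lit 159423396363) (nat_lit 152) (nat_lit 80297965679) (nat_lit 0) (nat_lit 70688945859) (nat_lit 16) (nat_lit 5) (nat_lit 18) (nat_lit 4) (nat_lit 16) (nat_lit 4) (nat_lit 458) (nat_lit 371) (nat_lit 191)) (XT.nd (nat_lit 78) (nat_lit 0) (nat_lit 0) (XT.lf (nat_lit 0) (nat_lit 21462698228) (nat_lit 76) (nat_lit 195255987060) (nat_lit 76) (nat_lit 106520888122) (nat_lit 15) (nat_lit 4) (nat_lit 16) (nat_lit 5) (nat_lit 16) (nat_lit 4) (nat_lit 459) (nat_lit 371) (nat_lit 190)) (XT.lf (nat_lit 0) (nat_lit 131097611192) (nat_lit 76) (nat_lit 147140226300) (nat_lit 76) (nat_lit 58404509806) (nat_lit 15) (nat_lit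 4) (nat_lit 16) (nat_lit 5) (nat_lit 16) (nat_lit 4) (nat_lit 460) (nat_lit 371) (nat_lit 189)))) (XT.nd (nat_lit 78) (nat_lit 152) (nat_lit 0) (XT.lf (nat_lit 0) (nat_lit 246212795337) (nat_lit 76) (nat_lit 96619403331) (nat_lit 76) (nat_lit 7883098688) (nat_lit 15) (nat_lit 4) (nat_lit 16) (nat_lit 5) (nat_lit 16) (nat_lit 4) (nat_lit 461) (nat_lit 371) (nat_lit 188)) (XT.nd (nat_lit 78) (nat_lit 0) (nat_lit 0) (XT.lf (nat_lit 0) (nat_lit 914544044) (nat_lit 76) (nat_lit 42817850505) (nat_lit 152) (nat_lit 321723565581) (nat_lit 13) (nat_lit 5) (nat_lit 14) (nat_lit 5) (nat_lit 15) (nat_lit 4) (nat_lit 462) (nat_lit 371) (nat_lit 187)) (XT.lf (nat_lit 0) (nat_lit 99675315261) (nat_lit 152) (nat_lit 265987793033) (nat_lit 0) (nat_lit 15163507402) (nat_lit 13) (nat_lit 5) (nat_lit 15) (nat_lit 4) (nat_lit 13) (nat_lit 4) (nat_lit 463) (nat_lit 371) (nat_lit 186))))) (XT.nd (nat_lit 234) (nat_lit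 152) (nat_lit 0) (XT.nd (nat_lit 78) (nat_lit 76) (nat_lit 0) (XT.lf (nat_lit 0) (nat_lit 159116625443) (nat_lit 152) (nat_lit 163209782748) (nat_lit 0) (nat_lit 74604333712) (nat_lit 13) (nat_lit 5) (nat_lit 15) (nat_lit 4) (nat_lit 13) (nat_lit 4) (nat_lit 464) (nat_lit 371) (nat_lit 185)) (XT.nd (nat_lit 78) (nat_lit 76) (nat_lit 0) (XT.lf (nat_lit 0) (nat_lit 221529345381) (nat_lit 152) (nat_lit 55294169040) (nat_lit 0) (nat_lit 137016592820) (nat_lit 13) (nat_lit 5) (nat_lit 15) (nat_lit 4) (nat_lit 13) (nat_lit 4) (nat_lit 465) (nat_lit 371) (nat_lit 184)) (XT.lf (nat_lit 0) (nat_lit 59934260664) (nat_lit 76) (nat_lit 228063557899) (nat_lit 76) (nat_lit 143550366452) (nat_lit 12) (nat_lit 4) (nat_lit 13) (nat_lit 5) (nat_lit 13) (nat_lit 4) (nat_lit 466) (nat_lit 371) (nat_lit 183)))) (XT.nd (nat_lit 156) (nat_lit 152) (nat_lit 0) (XT.nd (nat_lit 78) (nat_lit 0) (nat_lit 0) (XT.lf (nat_lit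 0) (nat_lit 182842585146) (nat_lit 76) (nat_lit 175882950005) (nat_lit 76) (nat_lit 91369340572) (nat_lit 12) (nat_lit 4) (nat_lit 13) (nat_lit 5) (nat_lit 13) (nat_lit 4) (nat_lit 467) (nat_lit 371) (nat_lit 182)) (XT.lf (nat_lit 0) (nat_lit 311895168327) (nat_lit 76) (nat_lit 121093884705) (nat_lit 76) (nat_lit 36579877190) (nat_lit 12) (nat_lit 4) (nat_lit 13) (nat_lit 5) (nat_lit 13) (nat_lit 4) (nat_lit 468) (nat_lit 371) (nat_lit 181))) (XT.nd (nat_lit 78) (nat_lit 76) (nat_lit 0) (XT.lf (nat_lit 0) (nat_lit 20277992777) (nat_lit 152) (nat_lit 42944501446) (nat_lit 76) (nat_lit 426777867865) (nat_lit 11) (nat_lit 5) (nat_lit 13) (nat_lit 5) (nat_lit 12) (nat_lit 4) (nat_lit 469) (nat_lit 371) (nat_lit 180)) (XT.lf (nat_lit 0) (nat_lit 79463822743) (nat_lit 76) (nat_lit 525723820) (nat_lit 152) (nat_lit 431371829801) (nat_lit 10) (nat_lit 5) (nat_lit 11) (nat_lit 5) (nat_lit 12) (nat_lit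 4) (nat_lit 470) (nat_lit 371) (nat_lit 179)))))) (XT.nd (nat_lit 546) (nat_lit 152) (nat_lit 0) (XT.nd (nat_lit 234) (nat_lit 76) (nat_lit 0) (XT.nd (nat_lit 78) (nat_lit 0) (nat_lit 0) (XT.lf (nat_lit 0) (nat_lit 144444956777) (nat_lit 152) (nat_lit 325303177308) (nat_lit 0) (nat_lit 63954393356) (nat_lit 10) (nat_lit 5) (nat_lit 12) (nat_lit 4) (nat_lit 10) (nat_lit 4) (nat_lit 471) (nat_lit 371) (nat_lit 178)) (XT.nd (nat_lit 78) (nat_lit 0) (nat_lit 0) (XT.lf (nat_lit 0) (nat_lit 212131243752) (nat_lit 152) (nat_lit 213388718607) (nat_lit 0) (nat_lit 131640368423) (nat_lit 10) (nat_lit 5) (nat_lit 12) (nat_lit 4) (nat_lit 10) (nat_lit 4) (nat_lit 472) (nat_lit 371) (nat_lit 177)) (XT.lf (nat_lit 0) (nat_lit 283201357293) (nat_lit 152) (nat_lit 95879506499) (nat_lit 0) (nat_lit 202710184909) (nat_lit 10) (nat_lit 5) (nat_lit 12) (nat_lit 4) (nat_lit 10) (nat_lit 4) (nat_lit 473) (nat_lit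 371) (nat_lit 176)))) (XT.nd (nat_lit 156) (nat_lit 0) (nat_lit 0) (XT.nd (nat_lit 78) (nat_lit 0) (nat_lit 0) (XT.lf (nat_lit 0) (nat_lit 28413657334) (nat_lit 76) (nat_lit 329854471441) (nat_lit 76) (nat_lit 249363016148) (nat_lit 9) (nat_lit 4) (nat_lit 10) (nat_lit 5) (nat_lit 10) (nat_lit 4) (nat_lit 474) (nat_lit 371) (nat_lit 175)) (XT.lf (nat_lit 0) (nat_lit 162249290856) (nat_lit 76) (nat_lit 276462257195) (nat_lit 76) (nat_lit 195970532464) (nat_lit 9) (nat_lit 4) (nat_lit 10) (nat_lit 5) (nat_lit 10) (nat_lit 4) (nat_lit 475) (nat_lit 371) (nat_lit 174))) (XT.nd (nat_lit 78) (nat_lit 0) (nat_lit 0) (XT.lf (nat_lit 0) (nat_lit 302775840847) (nat_lit 76) (nat_lit 220400862571) (nat_lit 76) (nat_lit 139908881232) (nat_lit 9) (nat_lit 4) (nat_lit 10) (nat_lit 5) (nat_lit 10) (nat_lit 4) (nat_lit 476) (nat_lit 371) (nat_lit 173)) (XT.lf (nat_lit 0) (nat_lit 450327894331) (nat_lit 76)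 (nat_lit 161536808056) (nat_lit 76) (nat_lit 81044582330) (nat_lit 9) (nat_lit 4) (nat_lit 10) (nat_lit 5) (nat_lit 10) (nat_lit 4) (nat_lit 477) (nat_lit 371) (nat_lit 172))))) (XT.nd (nat_lit 44928) (nat_lit 0) (nat_lit 8436) (XT.nd (nat_lit 78) (nat_lit 152) (nat_lit 0) (XT.lf (nat_lit 0) (nat_lit 605256765720) (nat_lit 76) (nat_lit 99729941142) (nat_lit 76) (nat_lit 19237482665) (nat_lit 9) (nat_lit 4) (nat_lit 10) (nat_lit 5) (nat_lit 10) (nat_lit 4) (nat_lit 478) (nat_lit 371) (nat_lit 171)) (XT.nd (nat_lit 44772) (nat_lit 0) (nat_lit 8436) (XT.lf (nat_lit 0) (nat_lit 10448002258) (nat_lit 76) (nat_lit 33913306230) (nat_lit 152) (nat_lit 712699750060) (nat_lit 7) (nat_lit 5) (nat_lit 8) (nat_lit 5) (nat_lit 9) (nat_lit 4) (nat_lit 479) (nat_lit 371) (nat_lit 170)) (XT.lf (nat_lit 0) (nat_lit 1545325145) (nat_lit 836) (nat_lit 4101430420) (nat_lit 836) (nat_lit 4101430420) (nat_lit 118)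 (nat_lit 3) (nat_lit 129) (nat_lit 3) (nat_lit 129) (nat_lit 5) (nat_lit 372) (nat_lit 372) (nat_lit 276)))) (XT.nd (nat_lit 156) (nat_lit 0) (nat_lit 76) (XT.nd (nat_lit 78) (nat_lit 0) (nat_lit 76) (XT.lf (nat_lit 76) (nat_lit 1312468479) (nat_lit 0) (nat_lit 2045932352) (nat_lit 836) (nat_lit 16615763247) (nat_lit 119) (nat_lit 5) (nat_lit 118) (nat_lit 3) (nat_lit 129) (nat_lit 5) (nat_lit 373) (nat_lit 372) (nat_lit 275)) (XT.lf (nat_lit 0) (nat_lit 3889497876) (nat_lit 760) (nat_lit 9009023664) (nat_lit 836) (nat_lit 7564832253) (nat_lit 119) (nat_lit 5) (nat_lit 129) (nat_lit 5) (nat_lit 130) (nat_lit 5) (nat_lit 374) (nat_lit 372) (nat_lit 274))) (XT.nd (nat_lit 78) (nat_lit 0) (nat_lit 76) (XT.lf (nat_lit 76) (nat_lit 1122439807) (nat_lit 0) (nat_lit 3365398344) (nat_lit 836) (nat_lit 16487136093) (nat_lit 120) (nat_lit 5) (nat_lit 119) (nat_lit 5) (nat_lit 130) (nat_lit 5) (nat_lit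 375) (nat_lit 372) (nat_lit 273)) (XT.lf (nat_lit 0) (nat_lit 5364988835) (nat_lit 760) (nat_lit 9544227512) (nat_lit 836) (nat_lit 6590520099) (nat_lit 120) (nat_lit 5) (nat_lit 130) (nat_lit 5) (nat_lit 131) (nat_lit 5) (nat_lit 376) (nat_lit 372) (nat_lit 272))))))) (XT.nd (nat_lit 1092) (nat_lit 2204) (nat_lit 0) (XT.nd (nat_lit 546) (nat_lit 1216) (nat_lit 0) (XT.nd (nat_lit 234) (nat_lit 532) (nat_lit 0) (XT.nd (nat_lit 78) (nat_lit 0) (nat_lit 76) (XT.lf (nat_lit 76) (nat_lit 1258222686) (nat_lit 0) (nat_lit 5093144097) (nat_lit 836) (nat_lit 15696106630) (nat_lit 121) (nat_lit 5) (nat_lit 120) (nat_lit 5) (nat_lit 131) (nat_lit 5) (nat_lit 377) (nat_lit 372) (nat_lit 271)) (XT.nd (nat_lit 78) (nat_lit 0) (nat_lit 0) (XT.lf (nat_lit 0) (nat_lit 7623701320) (nat_lit 760) (nat_lit 9773190186) (nat_lit 836) (nat_lit 5213878734) (nat_lit 121) (nat_lit 5) (nat_lit 131) (nat_lit 5) (nat_lit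 132) (nat_lit 5) (nat_lit 378) (nat_lit 372) (nat_lit 270)) (XT.lf (nat_lit 76) (nat_lit 1760061264) (nat_lit 0) (nat_lit 7301946728) (nat_lit 836) (nat_lit 14135110808) (nat_lit 122) (nat_lit 5) (nat_lit 121) (nat_lit 5) (nat_lit 132) (nat_lit 5) (nat_lit 379) (nat_lit 372) (nat_lit 269)))) (XT.nd (nat_lit 156) (nat_lit 684) (nat_lit 0) (XT.nd (nat_lit 78) (nat_lit 0) (nat_lit 0) (XT.lf (nat_lit 0) (nat_lit 10783667748) (nat_lit 760) (nat_lit 9656228355) (nat_lit 836) (nat_lit 3362321240) (nat_lit 122) (nat_lit 5) (nat_lit 132) (nat_lit 5) (nat_lit 133) (nat_lit 5) (nat_lit 380) (nat_lit 372) (nat_lit 268)) (XT.lf (nat_lit 76) (nat_lit 2673017937) (nat_lit 0) (nat_lit 10071947669) (nat_lit 836) (nat_lit 11684931681) (nat_lit 123) (nat_lit 5) (nat_lit 122) (nat_lit 5) (nat_lit 133) (nat_lit 5) (nat_lit 381) (nat_lit 372) (nat_lit 267))) (XT.nd (nat_lit 78) (nat_lit 760) (nat_lit 0) (XT.lf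 (nat_lit 0) (nat_lit 14975670153) (nat_lit 760) (nat_lit 9148984318) (nat_lit 76) (nat_lit 955743697) (nat_lit 123) (nat_lit 5) (nat_lit 133) (nat_lit 5) (nat_lit 124) (nat_lit 5) (nat_lit 382) (nat_lit 372) (nat_lit 266)) (XT.lf (nat_lit 0) (nat_lit 4047279486) (nat_lit 760) (nat_lit 13491707987) (nat_lit 836) (nat_lit 8213386579) (nat_lit 113) (nat_lit 5) (nat_lit 123) (nat_lit 5) (nat_lit 124) (nat_lit 5) (nat_lit 383) (nat_lit 372) (nat_lit 265))))) (XT.nd (nat_lit 234) (nat_lit 836) (nat_lit 0) (XT.nd (nat_lit 78) (nat_lit 380) (nat_lit 0) (XT.lf (nat_lit 0) (nat_lit 18214642293) (nat_lit 760) (nat_lit 2163790117) (nat_lit 836) (nat_lit 6072121885) (nat_lit 113) (nat_lit 5) (nat_lit 123) (nat_lit 5) (nat_lit 124) (nat_lit 5) (nat_lit 384) (nat_lit 372) (nat_lit 264)) (XT.nd (nat_lit 78) (nat_lit 0) (nat_lit 0) (XT.lf (nat_lit 0) (nat_lit 5938488263) (nat_lit 380) (nat_lit 17659359643)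 (nat_lit 456) (nat_lit 3573899209) (nat_lit 108) (nat_lit 5) (nat_lit 113) (nat_lit 5) (nat_lit 114) (nat_lit 5) (nat_lit 385) (nat_lit 372) (nat_lit 263)) (XT.lf (nat_lit 0) (nat_lit 21064609642) (nat_lit 380) (nat_lit 6081582646) (nat_lit 456) (nat_lit 774412698) (nat_lit 108) (nat_lit 5) (nat_lit 113) (nat_lit 5) (nat_lit 114) (nat_lit 5) (nat_lit 386) (nat_lit 372) (nat_lit 262)))) (XT.nd (nat_lit 156) (nat_lit 380) (nat_lit 0) (XT.nd (nat_lit 78) (nat_lit 0) (nat_lit 0) (XT.lf (nat_lit 0) (nat_lit 2319366627) (nat_lit 456) (nat_lit 20325221607) (nat_lit 76) (nat_lit 6049449720) (nat_lit 102) (nat_lit 5) (nat_lit 108) (nat_lit 5) (nat_lit 103) (nat_lit 5) (nat_lit 387) (nat_lit 372) (nat_lit 261)) (XT.lf (nat_lit 0) (nat_lit 5753501976) (nat_lit 456) (nat_lit 5028138783) (nat_lit 76) (nat_lit 18713285290) (nat_lit 102) (nat_lit 5) (nat_lit 108) (nat_lit 5) (nat_lit 103) (nat_lit 5) (nat_lit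 388) (nat_lit 372) (nat_lit 260))) (XT.nd (nat_lit 78) (nat_lit 0) (nat_lit 0) (XT.lf (nat_lit 0) (nat_lit 9560531312) (nat_lit 456) (nat_lit 18963977303) (nat_lit 76) (nat_lit 1801293300) (nat_lit 97) (nat_lit 5) (nat_lit 103) (nat_lit 5) (nat_lit 98) (nat_lit 5) (nat_lit 389) (nat_lit 372) (nat_lit 259)) (XT.lf (nat_lit 0) (nat_lit 13815650597) (nat_lit 456) (nat_lit 2632524807) (nat_lit 76) (nat_lit 14737161842) (nat_lit 97) (nat_lit 5) (nat_lit 103) (nat_lit 5) (nat_lit 98) (nat_lit 5) (nat_lit 390) (nat_lit 372) (nat_lit 258)))))) (XT.nd (nat_lit 546) (nat_lit 988) (nat_lit 0) (XT.nd (nat_lit 234) (nat_lit 608) (nat_lit 0) (XT.nd (nat_lit 78) (nat_lit 304) (nat_lit 0) (XT.lf (nat_lit 0) (nat_lit 14989280855) (nat_lit 304) (nat_lit 3522974761) (nat_lit 380) (nat_lit 13564159713) (nat_lit 93) (nat_lit 5) (nat_lit 97) (nat_lit 5) (nat_lit 98) (nat_lit 5) (nat_lit 391) (nat_lit 372) (nat_lit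 257)) (XT.nd (nat_lit 78) (nat_lit 0) (nat_lit 0) (XT.lf (nat_lit 0) (nat_lit 423573764) (nat_lit 304) (nat_lit 23223783254) (nat_lit 380) (nat_lit 9354509347) (nat_lit 89) (nat_lit 5) (nat_lit 93) (nat_lit 5) (nat_lit 94) (nat_lit 5) (nat_lit 392) (nat_lit 372) (nat_lit 256)) (XT.lf (nat_lit 0) (nat_lit 19337358287) (nat_lit 304) (nat_lit 10043061263) (nat_lit 380) (nat_lit 4576112341) (nat_lit 89) (nat_lit 5) (nat_lit 93) (nat_lit 5) (nat_lit 94) (nat_lit 5) (nat_lit 393) (nat_lit 372) (nat_lit 255)))) (XT.nd (nat_lit 156) (nat_lit 304) (nat_lit 0) (XT.nd (nat_lit 78) (nat_lit 0) (nat_lit 0) (XT.lf (nat_lit 0) (nat_lit 550883643) (nat_lit 304) (nat_lit 30651096894) (nat_lit 76) (nat_lit 3750417750) (nat_lit 85) (nat_lit 5) (nat_lit 89) (nat_lit 5) (nat_lit 86) (nat_lit 5) (nat_lit 394) (nat_lit 372) (nat_lit 254)) (XT.lf (nat_lit 0) (nat_lit 6192009202) (nat_lit 304) (nat_lit 11560073526)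 (nat_lit 76) (nat_lit 18221647942) (nat_lit 85) (nat_lit 5) (nat_lit 89) (nat_lit 5) (nat_lit 86) (nat_lit 5) (nat_lit 395) (nat_lit 372) (nat_lit 253))) (XT.nd (nat_lit 78) (nat_lit 0) (nat_lit 0) (XT.lf (nat_lit 0) (nat_lit 8760144940) (nat_lit 304) (nat_lit 3487326315) (nat_lit 380) (nat_lit 24792046251) (nat_lit 81) (nat_lit 5) (nat_lit 85) (nat_lit 5) (nat_lit 86) (nat_lit 5) (nat_lit 396) (nat_lit 372) (nat_lit 252)) (XT.lf (nat_lit 0) (nat_lit 18979708375) (nat_lit 380) (nat_lit 7839544825) (nat_lit 76) (nat_lit 11320642144) (nat_lit 81) (nat_lit 5) (nat_lit 86) (nat_lit 5) (nat_lit 82) (nat_lit 5) (nat_lit 397) (nat_lit 372) (nat_lit 251))))) (XT.nd (nat_lit 234) (nat_lit 456) (nat_lit 0) (XT.nd (nat_lit 78) (nat_lit 304) (nat_lit 0) (XT.lf (nat_lit 0) (nat_lit 14007879963) (nat_lit 228) (nat_lit 12312373277) (nat_lit 304) (nat_lit 12961455713) (nat_lit 78) (nat_lit 5) (nat_lit 81)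 (nat_lit 5) (nat_lit 82) (nat_lit 5) (nat_lit 398) (nat_lit 372) (nat_lit 250)) (XT.nd (nat_lit 78) (nat_lit 304) (nat_lit 0) (XT.lf (nat_lit 0) (nat_lit 34204271038) (nat_lit 304) (nat_lit 3307548780) (nat_lit 76) (nat_lit 2959972736) (nat_lit 78) (nat_lit 5) (nat_lit 82) (nat_lit 5) (nat_lit 79) (nat_lit 5) (nat_lit 399) (nat_lit 372) (nat_lit 249)) (XT.lf (nat_lit 0) (nat_lit 1258433886) (nat_lit 304) (nat_lit 21519795330) (nat_lit 76) (nat_lit 18916474172) (nat_lit 74) (nat_lit 5) (nat_lit 78) (nat_lit 5) (nat_lit 75) (nat_lit 5) (nat_lit 400) (nat_lit 372) (nat_lit 248)))) (XT.nd (nat_lit 156) (nat_lit 228) (nat_lit 0) (XT.nd (nat_lit 78) (nat_lit 0) (nat_lit 0) (XT.lf (nat_lit 0) (nat_lit 1922806650) (nat_lit 228) (nat_lit 7110353323) (nat_lit 304) (nat_lit 33936308719) (nat_lit 71) (nat_lit 5) (nat_lit 74) (nat_lit 5) (nat_lit 75) (nat_lit 5) (nat_lit 401) (nat_lit 372) (nat_lit 247))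 (XT.lf (nat_lit 0) (nat_lit 17709107192) (nat_lit 304) (nat_lit 17162411281) (nat_lit 76) (nat_lit 9410830861) (nat_lit 71) (nat_lit 5) (nat_lit 75) (nat_lit 5) (nat_lit 72) (nat_lit 5) (nat_lit 402) (nat_lit 372) (nat_lit 246))) (XT.nd (nat_lit 78) (nat_lit 0) (nat_lit 0) (XT.lf (nat_lit 0) (nat_lit 8051957574) (nat_lit 228) (nat_lit 19005575024) (nat_lit 304) (nat_lit 18591408616) (nat_lit 68) (nat_lit 5) (nat_lit 71) (nat_lit 5) (nat_lit 72) (nat_lit 5) (nat_lit 403) (nat_lit 372) (nat_lit 245)) (XT.lf (nat_lit 0) (nat_lit 35117725418) (nat_lit 228) (nat_lit 2042802310) (nat_lit 304) (nat_lit 9908978726) (nat_lit 68) (nat_lit 5) (nat_lit 71) (nat_lit 5) (nat_lit 72) (nat_lit 5) (nat_lit 404) (nat_lit 372) (nat_lit 244))))))))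
noncomputable def xc172 : XT := (XT.nd (nat_lit 2106) (nat_lit 1444) (nat_lit 0) (XT.nd (nat_lit 1014) (nat_lit 988) (nat_lit 0) (XT.nd (nat_lit 468) (nat_lit 684) (nat_lit 0) (XT.nd (nat_lit 234) (nat_lit 380) (nat_lit 0) (XT.nd (nat_lit 78) (nat_lit 304) (nat_lit 0) (XT.lf (nat_lit 0) (nat_lit 15211296430) (nat_lit 152) (nat_lit 33037688558) (nat_lit 228) (nat_lit 288100482) (nat_lit 66) (nat_lit 5) (nat_lit 68) (nat_lit 5) (nat_lit 69) (nat_lit 5) (nat_lit 405) (nat_lit 372) (nat_lit 243)) (XT.nd (nat_lit 78) (nat_lit 228) (nat_lit 0) (XT.lf (nat_lit 0) (nat_lit 9735598698) (nat_lit 228) (nat_lit 6115571478) (nat_lit 76) (nat_lit 34207419197) (nat_lit 65) (nat_lit 5) (nat_lit 68) (nat_lit 5) (nat_lit 66) (nat_lit 5) (nat_lit 406) (nat_lit 372) (nat_lit 242)) (XT.lf (nat_lit 0) (nat_lit 20649901133) (nat_lit 304) (nat_lit 28490500407) (nat_lit 76) (nat_lit 2495576743) (nat_lit 62) (nat_lit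 5) (nat_lit 66) (nat_lit 5) (nat_lit 63) (nat_lit 5) (nat_lit 407) (nat_lit 372) (nat_lit 241)))) (XT.nd (nat_lit 78) (nat_lit 228) (nat_lit 0) (XT.lf (nat_lit 0) (nat_lit 545861647) (nat_lit 152) (nat_lit 31934577060) (nat_lit 228) (nat_lit 20793272863) (nat_lit 60) (nat_lit 5) (nat_lit 62) (nat_lit 5) (nat_lit 63) (nat_lit 5) (nat_lit 408) (nat_lit 372) (nat_lit 240)) (XT.nd (nat_lit 78) (nat_lit 228) (nat_lit 0) (XT.lf (nat_lit 0) (nat_lit 32018350007) (nat_lit 152) (nat_lit 13363601493) (nat_lit 228) (nat_lit 9587408492) (nat_lit 60) (nat_lit 5) (nat_lit 62) (nat_lit 5) (nat_lit 63) (nat_lit 5) (nat_lit 409) (nat_lit 372) (nat_lit 239)) (XT.lf (nat_lit 0) (nat_lit 2338061499) (nat_lit 228) (nat_lit 48290472498) (nat_lit 76) (nat_lit 6108104525) (nat_lit 57) (nat_lit 5) (nat_lit 60) (nat_lit 5) (nat_lit 58) (nat_lit 5) (nat_lit 410) (nat_lit 372) (nat_lit 238))))) (XT.nd (nat_lit 234)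 (nat_lit 532) (nat_lit 0) (XT.nd (nat_lit 78) (nat_lit 152) (nat_lit 0) (XT.lf (nat_lit 0) (nat_lit 15148825602) (nat_lit 228) (nat_lit 16750185867) (nat_lit 76) (nat_lit 26654850724) (nat_lit 57) (nat_lit 5) (nat_lit 60) (nat_lit 5) (nat_lit 58) (nat_lit 5) (nat_lit 411) (nat_lit 372) (nat_lit 237)) (XT.nd (nat_lit 78) (nat_lit 0) (nat_lit 0) (XT.lf (nat_lit 0) (nat_lit 16903632799) (nat_lit 152) (nat_lit 11957633524) (nat_lit 228) (nat_lit 31587624535) (nat_lit 55) (nat_lit 5) (nat_lit 57) (nat_lit 5) (nat_lit 58) (nat_lit 5) (nat_lit 412) (nat_lit 372) (nat_lit 236)) (XT.lf (nat_lit 0) (nat_lit 43685129042) (nat_lit 228) (nat_lit 9752223229) (nat_lit 76) (nat_lit 8980029382) (nat_lit 55) (nat_lit 5) (nat_lit 58) (nat_lit 5) (nat_lit 56) (nat_lit 5) (nat_lit 413) (nat_lit 372) (nat_lit 235)))) (XT.nd (nat_lit 156) (nat_lit 304) (nat_lit 0) (XT.nd (nat_lit 78) (nat_lit 76) (nat_lit 0) (XT.lf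 (nat_lit 0) (nat_lit 26374252698) (nat_lit 152) (nat_lit 33481126807) (nat_lit 228) (nat_lit 4598658415) (nat_lit 53) (nat_lit 5) (nat_lit 55) (nat_lit 5) (nat_lit 56) (nat_lit 5) (nat_lit 414) (nat_lit 372) (nat_lit 234)) (XT.lf (nat_lit 0) (nat_lit 10079093151) (nat_lit 228) (nat_lit 2105590557) (nat_lit 76) (nat_lit 54391585212) (nat_lit 52) (nat_lit 5) (nat_lit 55) (nat_lit 5) (nat_lit 53) (nat_lit 5) (nat_lit 415) (nat_lit 372) (nat_lit 233))) (XT.nd (nat_lit 78) (nat_lit 152) (nat_lit 0) (XT.lf (nat_lit 0) (nat_lit 26077219110) (nat_lit 228) (nat_lit 32177286303) (nat_lit 76) (nat_lit 10509285642) (nat_lit 50) (nat_lit 5) (nat_lit 53) (nat_lit 5) (nat_lit 51) (nat_lit 5) (nat_lit 416) (nat_lit 372) (nat_lit 232)) (XT.lf (nat_lit 0) (nat_lit 6222047386) (nat_lit 152) (nat_lit 36983899185) (nat_lit 228) (nat_lit 27838208510) (nat_lit 48) (nat_lit 5) (nat_lit 50) (nat_lit 5) (nat_lit 51)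 (nat_lit 5) (nat_lit 417) (nat_lit 372) (nat_lit 231)))))) (XT.nd (nat_lit 546) (nat_lit 532) (nat_lit 0) (XT.nd (nat_lit 234) (nat_lit 304) (nat_lit 0) (XT.nd (nat_lit 78) (nat_lit 152) (nat_lit 0) (XT.lf (nat_lit 0) (nat_lit 47654374298) (nat_lit 152) (nat_lit 14079285235) (nat_lit 228) (nat_lit 11677750839) (nat_lit 48) (nat_lit 5) (nat_lit 50) (nat_lit 5) (nat_lit 51) (nat_lit 5) (nat_lit 418) (nat_lit 372) (nat_lit 230)) (XT.nd (nat_lit 78) (nat_lit 0) (nat_lit 0) (XT.lf (nat_lit 0) (nat_lit 5524842741) (nat_lit 152) (nat_lit 60365333278) (nat_lit 76) (nat_lit 9982550252) (nat_lit 46) (nat_lit 5) (nat_lit 48) (nat_lit 5) (nat_lit 47) (nat_lit 5) (nat_lit 419) (nat_lit 372) (nat_lit 229)) (XT.lf (nat_lit 0) (nat_lit 23866994224) (nat_lit 152) (nat_lit 19139427151) (nat_lit 76) (nat_lit 35407521251) (nat_lit 46) (nat_lit 5) (nat_lit 48) (nat_lit 5) (nat_lit 47) (nat_lit 5) (nat_lit 420)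 (nat_lit 372) (nat_lit 228)))) (XT.nd (nat_lit 156) (nat_lit 152) (nat_lit 0) (XT.nd (nat_lit 78) (nat_lit 0) (nat_lit 0) (XT.lf (nat_lit 0) (nat_lit 24942271516) (nat_lit 152) (nat_lit 18571220003) (nat_lit 228) (nat_lit 37549366793) (nat_lit 44) (nat_lit 5) (nat_lit 46) (nat_lit 5) (nat_lit 47) (nat_lit 5) (nat_lit 421) (nat_lit 372) (nat_lit 227)) (XT.lf (nat_lit 0) (nat_lit 64580230681) (nat_lit 228) (nat_lit 12055253891) (nat_lit 76) (nat_lit 7186839768) (nat_lit 44) (nat_lit 5) (nat_lit 47) (nat_lit 5) (nat_lit 45) (nat_lit 4) (nat_lit 422) (nat_lit 372) (nat_lit 226))) (XT.nd (nat_lit 78) (nat_lit 0) (nat_lit 0) (XT.lf (nat_lit 0) (nat_lit 844335131) (nat_lit 152) (nat_lit 51664609118) (nat_lit 76) (nat_lit 34167676515) (nat_lit 42) (nat_lit 5) (nat_lit 44) (nat_lit 5) (nat_lit 43) (nat_lit 5) (nat_lit 423) (nat_lit 372) (nat_lit 225)) (XT.lf (nat_lit 0) (nat_lit 21493884270) (nat_lit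 152) (nat_lit 5134701837) (nat_lit 76) (nat_lit 63019001074) (nat_lit 42) (nat_lit 5) (nat_lit 44) (nat_lit 5) (nat_lit 43) (nat_lit 5) (nat_lit 424) (nat_lit 372) (nat_lit 224))))) (XT.nd (nat_lit 234) (nat_lit 304) (nat_lit 0) (XT.nd (nat_lit 78) (nat_lit 76) (nat_lit 0) (XT.lf (nat_lit 0) (nat_lit 43899148855) (nat_lit 228) (nat_lit 47588261926) (nat_lit 76) (nat_lit 1243529572) (nat_lit 40) (nat_lit 5) (nat_lit 43) (nat_lit 5) (nat_lit 41) (nat_lit 4) (nat_lit 425) (nat_lit 372) (nat_lit 223)) (XT.nd (nat_lit 78) (nat_lit 0) (nat_lit 0) (XT.lf (nat_lit 0) (nat_lit 1763048177) (nat_lit 76) (nat_lit 66212137298) (nat_lit 152) (nat_lit 27965750588) (nat_lit 39) (nat_lit 5) (nat_lit 40) (nat_lit 5) (nat_lit 41) (nat_lit 4) (nat_lit 426) (nat_lit 372) (nat_lit 222)) (XT.lf (nat_lit 0) (nat_lit 55230636906) (nat_lit 76) (nat_lit 38828419943) (nat_lit 152) (nat_lit 5212173366) (nat_lit 39) (nat_lit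 5) (nat_lit 40) (nat_lit 5) (nat_lit 41) (nat_lit 4) (nat_lit 427) (nat_lit 372) (nat_lit 221)))) (XT.nd (nat_lit 156) (nat_lit 76) (nat_lit 0) (XT.nd (nat_lit 78) (nat_lit 0) (nat_lit 0) (XT.lf (nat_lit 0) (nat_lit 8583311857) (nat_lit 152) (nat_lit 9630096239) (nat_lit 228) (nat_lit 84533440979) (nat_lit 36) (nat_lit 5) (nat_lit 38) (nat_lit 5) (nat_lit 39) (nat_lit 5) (nat_lit 428) (nat_lit 372) (nat_lit 220)) (XT.lf (nat_lit 0) (nat_lit 43719665543) (nat_lit 228) (nat_lit 41420889053) (nat_lit 76) (nat_lit 21197194266) (nat_lit 36) (nat_lit 5) (nat_lit 39) (nat_lit 5) (nat_lit 37) (nat_lit 4) (nat_lit 429) (nat_lit 372) (nat_lit 219))) (XT.nd (nat_lit 78) (nat_lit 0) (nat_lit 0) (XT.lf (nat_lit 0) (nat_lit 14254045173) (nat_lit 76) (nat_lit 56625869637) (nat_lit 152) (nat_lit 39209345129) (nat_lit 35) (nat_lit 5) (nat_lit 36) (nat_lit 5) (nat_lit 37) (nat_lit 4) (nat_lit 430) (nat_lit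 372) (nat_lit 218)) (XT.lf (nat_lit 0) (nat_lit 74147622990) (nat_lit 76) (nat_lit 25950332926) (nat_lit 152) (nat_lit 13895401924) (nat_lit 35) (nat_lit 5) (nat_lit 36) (nat_lit 5) (nat_lit 37) (nat_lit 4) (nat_lit 431) (nat_lit 372) (nat_lit 217))))))) (XT.nd (nat_lit 1014) (nat_lit 684) (nat_lit 0) (XT.nd (nat_lit 468) (nat_lit 304) (nat_lit 0) (XT.nd (nat_lit 234) (nat_lit 152) (nat_lit 0) (XT.nd (nat_lit 78) (nat_lit 76) (nat_lit 0) (XT.lf (nat_lit 0) (nat_lit 12684807470) (nat_lit 228) (nat_lit 98811793139) (nat_lit 76) (nat_lit 6565831223) (nat_lit 32) (nat_lit 5) (nat_lit 35) (nat_lit 5) (nat_lit 33) (nat_lit 4) (nat_lit 432) (nat_lit 372) (nat_lit 216)) (XT.nd (nat_lit 78) (nat_lit 76) (nat_lit 0) (XT.lf (nat_lit 0) (nat_lit 41236696232) (nat_lit 228) (nat_lit 40283363795) (nat_lit 76) (nat_lit 40748027751) (nat_lit 32) (nat_lit 5) (nat_lit 35) (nat_lit 5) (nat_lit 33) (nat_lit 4)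 (nat_lit 433) (nat_lit 372) (nat_lit 215)) (XT.lf (nat_lit 0) (nat_lit 21868503025) (nat_lit 76) (nat_lit 49687544092) (nat_lit 152) (nat_lit 55110986217) (nat_lit 31) (nat_lit 5) (nat_lit 32) (nat_lit 5) (nat_lit 33) (nat_lit 4) (nat_lit 434) (nat_lit 372) (nat_lit 214)))) (XT.nd (nat_lit 78) (nat_lit 152) (nat_lit 0) (XT.lf (nat_lit 0) (nat_lit 88523644937) (nat_lit 76) (nat_lit 15548407524) (nat_lit 152) (nat_lit 27179839548) (nat_lit 31) (nat_lit 5) (nat_lit 32) (nat_lit 5) (nat_lit 33) (nat_lit 4) (nat_lit 435) (nat_lit 372) (nat_lit 213)) (XT.nd (nat_lit 78) (nat_lit 0) (nat_lit 0) (XT.lf (nat_lit 0) (nat_lit 2762434695) (nat_lit 152) (nat_lit 113219489402) (nat_lit 76) (nat_lit 20048227215) (nat_lit 29) (nat_lit 5) (nat_lit 31) (nat_lit 5) (nat_lit 30) (nat_lit 4) (nat_lit 436) (nat_lit 372) (nat_lit 212)) (XT.lf (nat_lit 0) (nat_lit 34277305405) (nat_lit 152) (nat_lit 48616310066)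 (nat_lit 76) (nat_lit 58081984532) (nat_lit 29) (nat_lit 5) (nat_lit 31) (nat_lit 5) (nat_lit 30) (nat_lit 4) (nat_lit 437) (nat_lit 372) (nat_lit 211))))) (XT.nd (nat_lit 234) (nat_lit 152) (nat_lit 0) (XT.nd (nat_lit 78) (nat_lit 76) (nat_lit 0) (XT.lf (nat_lit 0) (nat_lit 19849688406) (nat_lit 76) (nat_lit 47826736169) (nat_lit 152) (nat_lit 78476471461) (nat_lit 28) (nat_lit 5) (nat_lit 29) (nat_lit 5) (nat_lit 30) (nat_lit 4) (nat_lit 438) (nat_lit 372) (nat_lit 210)) (XT.nd (nat_lit 78) (nat_lit 76) (nat_lit 0) (XT.lf (nat_lit 0) (nat_lit 93424224290) (nat_lit 76) (nat_lit 10143237919) (nat_lit 152) (nat_lit 47980496683) (nat_lit 28) (nat_lit 5) (nat_lit 29) (nat_lit 5) (nat_lit 30) (nat_lit 4) (nat_lit 439) (nat_lit 372) (nat_lit 209)) (XT.lf (nat_lit 0) (nat_lit 13432710687) (nat_lit 76) (nat_lit 128488130259) (nat_lit 76) (nat_lit 15258544621) (nat_lit 27) (nat_lit 4) (nat_lit 28)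 (nat_lit 5) (nat_lit 28) (nat_lit 4) (nat_lit 440) (nat_lit 372) (nat_lit 208)))) (XT.nd (nat_lit 156) (nat_lit 0) (nat_lit 0) (XT.nd (nat_lit 78) (nat_lit 76) (nat_lit 0) (XT.lf (nat_lit 0) (nat_lit 19653646678) (nat_lit 152) (nat_lit 72941416459) (nat_lit 76) (nat_lit 70424138473) (nat_lit 26) (nat_lit 5) (nat_lit 28) (nat_lit 5) (nat_lit 27) (nat_lit 4) (nat_lit 441) (nat_lit 372) (nat_lit 207)) (XT.lf (nat_lit 0) (nat_lit 1189623733) (nat_lit 76) (nat_lit 54626345228) (nat_lit 152) (nat_lit 113321667181) (nat_lit 25) (nat_lit 5) (nat_lit 26) (nat_lit 5) (nat_lit 27) (nat_lit 4) (nat_lit 442) (nat_lit 372) (nat_lit 206))) (XT.nd (nat_lit 78) (nat_lit 0) (nat_lit 0) (XT.lf (nat_lit 0) (nat_lit 81557199719) (nat_lit 76) (nat_lit 13463264143) (nat_lit 152) (nat_lit 80479825828) (nat_lit 25) (nat_lit 5) (nat_lit 26) (nat_lit 5) (nat_lit 27) (nat_lit 4) (nat_lit 443) (nat_lit 372) (nat_lit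 205)) (XT.lf (nat_lit 0) (nat_lit 136648589393) (nat_lit 152) (nat_lit 16704833358) (nat_lit 0) (nat_lit 28804482980) (nat_lit 25) (nat_lit 5) (nat_lit 27) (nat_lit 4) (nat_lit 25) (nat_lit 4) (nat_lit 444) (nat_lit 372) (nat_lit 204)))))) (XT.nd (nat_lit 546) (nat_lit 304) (nat_lit 0) (XT.nd (nat_lit 234) (nat_lit 152) (nat_lit 0) (XT.nd (nat_lit 78) (nat_lit 152) (nat_lit 0) (XT.lf (nat_lit 0) (nat_lit 66294260403) (nat_lit 76) (nat_lit 115318466915) (nat_lit 76) (nat_lit 7472945052) (nat_lit 24) (nat_lit 4) (nat_lit 25) (nat_lit 5) (nat_lit 25) (nat_lit 4) (nat_lit 445) (nat_lit 372) (nat_lit 203)) (XT.nd (nat_lit 78) (nat_lit 76) (nat_lit 0) (XT.lf (nat_lit 0) (nat_lit 31712556272) (nat_lit 152) (nat_lit 42836129552) (nat_lit 76) (nat_lit 121771477837) (nat_lit 23) (nat_lit 5) (nat_lit 25) (nat_lit 5) (nat_lit 24) (nat_lit 4) (nat_lit 446) (nat_lit 372) (nat_lit 202)) (XT.lf (nat_lit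 0) (nat_lit 42347706334) (nat_lit 76) (nat_lit 30918566885) (nat_lit 152) (nat_lit 130610976996) (nat_lit 22) (nat_lit 5) (nat_lit 23) (nat_lit 5) (nat_lit 24) (nat_lit 4) (nat_lit 447) (nat_lit 372) (nat_lit 201)))) (XT.nd (nat_lit 156) (nat_lit 76) (nat_lit 0) (XT.nd (nat_lit 78) (nat_lit 76) (nat_lit 0) (XT.lf (nat_lit 0) (nat_lit 117866459749) (nat_lit 152) (nat_lit 78744524387) (nat_lit 0) (nat_lit 15152767859) (nat_lit 22) (nat_lit 5) (nat_lit 24) (nat_lit 4) (nat_lit 22) (nat_lit 4) (nat_lit 448) (nat_lit 372) (nat_lit 200)) (XT.lf (nat_lit 0) (nat_lit 7924519864) (nat_lit 76) (nat_lit 157401691122) (nat_lit 76) (nat_lit 54686890190) (nat_lit 21) (nat_lit 4) (nat_lit 22) (nat_lit 5) (nat_lit 22) (nat_lit 4) (nat_lit 449) (nat_lit 372) (nat_lit 199))) (XT.nd (nat_lit 78) (nat_lit 76) (nat_lit 0) (XT.lf (nat_lit 0) (nat_lit 101658882050) (nat_lit 76) (nat_lit 114832632387) (nat_lit 76)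 (nat_lit 12116775224) (nat_lit 21) (nat_lit 4) (nat_lit 22) (nat_lit 5) (nat_lit 22) (nat_lit 4) (nat_lit 450) (nat_lit 372) (nat_lit 198)) (XT.lf (nat_lit 0) (nat_lit 31538043302) (nat_lit 152) (nat_lit 38063874326) (nat_lit 76) (nat_lit 168005934300) (nat_lit 20) (nat_lit 5) (nat_lit 22) (nat_lit 5) (nat_lit 21) (nat_lit 4) (nat_lit 451) (nat_lit 372) (nat_lit 197))))) (XT.nd (nat_lit 234) (nat_lit 228) (nat_lit 0) (XT.nd (nat_lit 78) (nat_lit 0) (nat_lit 0) (XT.lf (nat_lit 0) (nat_lit 56886199140) (nat_lit 76) (nat_lit 20969420503) (nat_lit 152) (nat_lit 169147479950) (nat_lit 19) (nat_lit 5) (nat_lit 20) (nat_lit 5) (nat_lit 21) (nat_lit 4) (nat_lit 452) (nat_lit 372) (nat_lit 196)) (XT.nd (nat_lit 78) (nat_lit 0) (nat_lit 0) (XT.lf (nat_lit 0) (nat_lit 127613205258) (nat_lit 152) (nat_lit 99412857941) (nat_lit 0) (nat_lit 29785839981) (nat_lit 19) (nat_lit 5) (nat_lit 21) (nat_lit 4)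 (nat_lit 19) (nat_lit 4) (nat_lit 453) (nat_lit 372) (nat_lit 195)) (XT.lf (nat_lit 0) (nat_lit 180201545423) (nat_lit 152) (nat_lit 4519105262) (nat_lit 0) (nat_lit 82373352561) (nat_lit 19) (nat_lit 5) (nat_lit 21) (nat_lit 4) (nat_lit 19) (nat_lit 4) (nat_lit 454) (nat_lit 372) (nat_lit 194)))) (XT.nd (nat_lit 156) (nat_lit 76) (nat_lit 0) (XT.nd (nat_lit 78) (nat_lit 76) (nat_lit 0) (XT.lf (nat_lit 0) (nat_lit 98262706790) (nat_lit 76) (nat_lit 138689908492) (nat_lit 76) (nat_lit 40860927455) (nat_lit 18) (nat_lit 4) (nat_lit 19) (nat_lit 5) (nat_lit 19) (nat_lit 4) (nat_lit 455) (nat_lit 372) (nat_lit 193)) (XT.lf (nat_lit 0) (nat_lit 7309968562) (nat_lit 152) (nat_lit 82844296126) (nat_lit 76) (nat_lit 198905114208) (nat_lit 17) (nat_lit 5) (nat_lit 19) (nat_lit 5) (nat_lit 18) (nat_lit 4) (nat_lit 456) (nat_lit 372) (nat_lit 192))) (XT.nd (nat_lit 78) (nat_lit 0) (nat_lit 0) (XT.lf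 (nat_lit 0) (nat_lit 18622173992) (nat_lit 76) (nat_lit 38183982383) (nat_lit 152) (nat_lit 244013360869) (nat_lit 16) (nat_lit 5) (nat_lit 17) (nat_lit 5) (nat_lit 18) (nat_lit 4) (nat_lit 457) (nat_lit 372) (nat_lit 191)) (XT.lf (nat_lit 0) (nat_lit 110458174827) (nat_lit 152) (nat_lit 185339764159) (nat_lit 0) (nat_lit 17285672509) (nat_lit 16) (nat_lit 5) (nat_lit 18) (nat_lit 4) (nat_lit 16) (nat_lit 4) (nat_lit 458) (nat_lit 372) (nat_lit 190))))))))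
noncomputable def xc173 : XT := (XT.nd (nat_lit 46878) (nat_lit 0) (nat_lit 4484) (XT.nd (nat_lit 1014) (nat_lit 76) (nat_lit 0) (XT.nd (nat_lit 468) (nat_lit 228) (nat_lit 0) (XT.nd (nat_lit 234) (nat_lit 152) (nat_lit 0) (XT.nd (nat_lit 78) (nat_lit 76) (nat_lit 0) (XT.lf (nat_lit 0) (nat_lit 167417999227) (nat_lit 152) (nat_lit 84266771674) (nat_lit 0) (nat_lit 74244879352) (nat_lit 16) (nat_lit 5) (nat_lit 18) (nat_lit 4) (nat_lit 16) (nat_lit 4) (nat_lit 459) (nat_lit 372) (nat_lit 189)) (XT.nd (nat_lit 78) (nat_lit 0) (nat_lit 0) (XT.lf (nat_lit 0) (nat_lit 22581182005) (nat_lit 76) (nat_lit 204996462756) (nat_lit 76) (nat_lit 111822754733) (nat_lit 15) (nat_lit 4) (nat_lit 16) (nat_lit 5) (nat_lit 16) (nat_lit 4) (nat_lit 460) (nat_lit 372) (nat_lit 188)) (XT.lf (nat_lit 0) (nat_lit 137695681148) (nat_lit 76) (nat_lit 154475976990) (nat_lit 76) (nat_lit 61301708825) (nat_lit 15) (nat_lit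 4) (nat_lit 16) (nat_lit 5) (nat_lit 16) (nat_lit 4) (nat_lit 461) (nat_lit 372) (nat_lit 187)))) (XT.nd (nat_lit 78) (nat_lit 152) (nat_lit 0) (XT.lf (nat_lit 0) (nat_lit 258564567861) (nat_lit 76) (nat_lit 101430125283) (nat_lit 76) (nat_lit 8255323649) (nat_lit 15) (nat_lit 4) (nat_lit 16) (nat_lit 5) (nat_lit 16) (nat_lit 4) (nat_lit 462) (nat_lit 372) (nat_lit 186)) (XT.nd (nat_lit 78) (nat_lit 0) (nat_lit 0) (XT.lf (nat_lit 0) (nat_lit 1001432275) (nat_lit 76) (nat_lit 44938441858) (nat_lit 152) (nat_lit 337787839922) (nat_lit 13) (nat_lit 5) (nat_lit 14) (nat_lit 5) (nat_lit 15) (nat_lit 4) (nat_lit 463) (nat_lit 372) (nat_lit 185)) (XT.lf (nat_lit 0) (nat_lit 104679249418) (nat_lit 152) (nat_lit 279247289205) (nat_lit 0) (nat_lit 15940398399) (nat_lit 13) (nat_lit 5) (nat_lit 15) (nat_lit 4) (nat_lit 13) (nat_lit 4) (nat_lit 464) (nat_lit 372) (nat_lit 184))))) (XT.nd (nat_lit 234)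 (nat_lit 152) (nat_lit 0) (XT.nd (nat_lit 78) (nat_lit 76) (nat_lit 0) (XT.lf (nat_lit 0) (nat_lit 167091664709) (nat_lit 152) (nat_lit 171332278095) (nat_lit 0) (nat_lit 78352374804) (nat_lit 13) (nat_lit 5) (nat_lit 15) (nat_lit 4) (nat_lit 13) (nat_lit 4) (nat_lit 465) (nat_lit 372) (nat_lit 183)) (XT.nd (nat_lit 78) (nat_lit 76) (nat_lit 0) (XT.lf (nat_lit 0) (nat_lit 232624105978) (nat_lit 152) (nat_lit 58022692930) (nat_lit 0) (nat_lit 143884398087) (nat_lit 13) (nat_lit 5) (nat_lit 15) (nat_lit 4) (nat_lit 13) (nat_lit 4) (nat_lit 466) (nat_lit 372) (nat_lit 182)) (XT.lf (nat_lit 0) (nat_lit 62966574638) (nat_lit 76) (nat_lit 239449112902) (nat_lit 76) (nat_lit 150709006928) (nat_lit 12) (nat_lit 4) (nat_lit 13) (nat_lit 5) (nat_lit 13) (nat_lit 4) (nat_lit 467) (nat_lit 372) (nat_lit 181)))) (XT.nd (nat_lit 156) (nat_lit 152) (nat_lit 0) (XT.nd (nat_lit 78) (nat_lit 0) (nat_lit 0)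 (XT.lf (nat_lit 0) (nat_lit 192018620060) (nat_lit 76) (nat_lit 184660313798) (nat_lit 76) (nat_lit 95919828699) (nat_lit 12) (nat_lit 4) (nat_lit 13) (nat_lit 5) (nat_lit 13) (nat_lit 4) (nat_lit 468) (nat_lit 372) (nat_lit 180)) (XT.lf (nat_lit 0) (nat_lit 327522217845) (nat_lit 76) (nat_lit 127132594457) (nat_lit 76) (nat_lit 38391748286) (nat_lit 12) (nat_lit 4) (nat_lit 13) (nat_lit 5) (nat_lit 13) (nat_lit 4) (nat_lit 469) (nat_lit 372) (nat_lit 179))) (XT.nd (nat_lit 78) (nat_lit 76) (nat_lit 0) (XT.lf (nat_lit 0) (nat_lit 21307677872) (nat_lit 152) (nat_lit 45060450411) (nat_lit 76) (nat_lit 448131461899) (nat_lit 11) (nat_lit 5) (nat_lit 13) (nat_lit 5) (nat_lit 12) (nat_lit 4) (nat_lit 470) (nat_lit 372) (nat_lit 178)) (XT.lf (nat_lit 0) (nat_lit 83467785534) (nat_lit 76) (nat_lit 536752557) (nat_lit 152) (nat_lit 452924130679) (nat_lit 10) (nat_lit 5) (nat_lit 11) (nat_lit 5) (nat_lit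 12) (nat_lit 4) (nat_lit 471) (nat_lit 372) (nat_lit 177)))))) (XT.nd (nat_lit 546) (nat_lit 0) (nat_lit 0) (XT.nd (nat_lit 234) (nat_lit 76) (nat_lit 0) (XT.nd (nat_lit 78) (nat_lit 0) (nat_lit 0) (XT.lf (nat_lit 0) (nat_lit 151682206912) (nat_lit 152) (nat_lit 341538517264) (nat_lit 0) (nat_lit 67166178853) (nat_lit 10) (nat_lit 5) (nat_lit 12) (nat_lit 4) (nat_lit 10) (nat_lit 4) (nat_lit 472) (nat_lit 372) (nat_lit 176)) (XT.nd (nat_lit 78) (nat_lit 0) (nat_lit 0) (XT.lf (nat_lit 0) (nat_lit 222752093840) (nat_lit 152) (nat_lit 224029755576) (nat_lit 0) (nat_lit 138235782872) (nat_lit 10) (nat_lit 5) (nat_lit 12) (nat_lit 4) (nat_lit 10) (nat_lit 4) (nat_lit 473) (nat_lit 372) (nat_lit 175)) (XT.lf (nat_lit 0) (nat_lit 297375032682) (nat_lit 152) (nat_lit 100646435194) (nat_lit 0) (nat_lit 212858452276) (nat_lit 10) (nat_lit 5) (nat_lit 12) (nat_lit 4) (nat_lit 10) (nat_lit 4) (nat_lit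 474) (nat_lit 372) (nat_lit 174)))) (XT.nd (nat_lit 156) (nat_lit 0) (nat_lit 0) (XT.nd (nat_lit 78) (nat_lit 0) (nat_lit 0) (XT.lf (nat_lit 0) (nat_lit 29860950595) (nat_lit 76) (nat_lit 346333959629) (nat_lit 76) (nat_lit 261817122616) (nat_lit 9) (nat_lit 4) (nat_lit 10) (nat_lit 5) (nat_lit 10) (nat_lit 4) (nat_lit 475) (nat_lit 372) (nat_lit 173)) (XT.lf (nat_lit 0) (nat_lit 170387098631) (nat_lit 76) (nat_lit 290272764927) (nat_lit 76) (nat_lit 205755683527) (nat_lit 9) (nat_lit 4) (nat_lit 10) (nat_lit 5) (nat_lit 10) (nat_lit 4) (nat_lit 476) (nat_lit 372) (nat_lit 172))) (XT.nd (nat_lit 78) (nat_lit 0) (nat_lit 0) (XT.lf (nat_lit 0) (nat_lit 317938769301) (nat_lit 76) (nat_lit 231408900816) (nat_lit 76) (nat_lit 146891586664) (nat_lit 9) (nat_lit 4) (nat_lit 10) (nat_lit 5) (nat_lit 10) (nat_lit 4) (nat_lit 477) (nat_lit 372) (nat_lit 171)) (XT.lf (nat_lit 0) (nat_lit 472867276106)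 (nat_lit 76) (nat_lit 169602215237) (nat_lit 76) (nat_lit 85084679418) (nat_lit 9) (nat_lit 4) (nat_lit 10) (nat_lit 5) (nat_lit 10) (nat_lit 4) (nat_lit 478) (nat_lit 372) (nat_lit 170))))) (XT.nd (nat_lit 45006) (nat_lit 0) (nat_lit 8360) (XT.nd (nat_lit 44850) (nat_lit 0) (nat_lit 8284) (XT.lf (nat_lit 0) (nat_lit 635541496443) (nat_lit 76) (nat_lit 104705549415) (nat_lit 76) (nat_lit 20187802486) (nat_lit 9) (nat_lit 4) (nat_lit 10) (nat_lit 5) (nat_lit 10) (nat_lit 4) (nat_lit 479) (nat_lit 372) (nat_lit 169)) (XT.nd (nat_lit 78) (nat_lit 0) (nat_lit 0) (XT.lf (nat_lit 0) (nat_lit 1789930308) (nat_lit 836) (nat_lit 4218603252) (nat_lit 836) (nat_lit 4218603252) (nat_lit 118) (nat_lit 3) (nat_lit 129) (nat_lit 3) (nat_lit 129) (nat_lit 5) (nat_lit 373) (nat_lit 373) (nat_lit 274)) (XT.lf (nat_lit 76) (nat_lit 1551053839) (nat_lit 0) (nat_lit 2296708228) (nat_lit 836) (nat_lit 17108863820)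 (nat_lit 119) (nat_lit 5) (nat_lit 118) (nat_lit 3) (nat_lit 129) (nat_lit 5) (nat_lit 374) (nat_lit 373) (nat_lit 273)))) (XT.nd (nat_lit 156) (nat_lit 0) (nat_lit 76) (XT.nd (nat_lit 78) (nat_lit 0) (nat_lit 0) (XT.lf (nat_lit 0) (nat_lit 4387899453) (nat_lit 760) (nat_lit 9277068648) (nat_lit 836) (nat_lit 7806191014) (nat_lit 119) (nat_lit 5) (nat_lit 129) (nat_lit 5) (nat_lit 130) (nat_lit 5) (nat_lit 375) (nat_lit 373) (nat_lit 272)) (XT.lf (nat_lit 76) (nat_lit 1358025961) (nat_lit 0) (nat_lit 3646460020) (nat_lit 836) (nat_lit 17004466052) (nat_lit 120) (nat_lit 5) (nat_lit 119) (nat_lit 5) (nat_lit 130) (nat_lit 5) (nat_lit 376) (nat_lit 373) (nat_lit 271))) (XT.nd (nat_lit 78) (nat_lit 0) (nat_lit 0) (XT.lf (nat_lit 0) (nat_lit 5909900112) (nat_lit 760) (nat_lit 9834775951) (nat_lit 836) (nat_lit 6816063516) (nat_lit 120) (nat_lit 5) (nat_lit 130) (nat_lit 5) (nat_lit 131) (nat_lit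 5) (nat_lit 377) (nat_lit 373) (nat_lit 270)) (XT.lf (nat_lit 76) (nat_lit 1504786064) (nat_lit 0) (nat_lit 5430503845) (nat_lit 836) (nat_lit 16201096007) (nat_lit 121) (nat_lit 5) (nat_lit 120) (nat_lit 5) (nat_lit 131) (nat_lit 5) (nat_lit 378) (nat_lit 373) (nat_lit 269))))))) (XT.nd (nat_lit 1014) (nat_lit 2204) (nat_lit 0) (XT.nd (nat_lit 468) (nat_lit 1216) (nat_lit 0) (XT.nd (nat_lit 234) (nat_lit 608) (nat_lit 0) (XT.nd (nat_lit 78) (nat_lit 0) (nat_lit 0) (XT.lf (nat_lit 0) (nat_lit 8257327880) (nat_lit 760) (nat_lit 10072892906) (nat_lit 836) (nat_lit 5398329294) (nat_lit 121) (nat_lit 5) (nat_lit 131) (nat_lit 5) (nat_lit 132) (nat_lit 5) (nat_lit 379) (nat_lit 373) (nat_lit 268)) (XT.nd (nat_lit 78) (nat_lit 0) (nat_lit 76) (XT.lf (nat_lit 76) (nat_lit 2033973427) (nat_lit 0) (nat_lit 7724457998) (nat_lit 836) (nat_lit 14586247072) (nat_lit 122) (nat_lit 5) (nat_lit 121) (nat_lit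 5) (nat_lit 132) (nat_lit 5) (nat_lit 380) (nat_lit 373) (nat_lit 267)) (XT.lf (nat_lit 0) (nat_lit 11553733651) (nat_lit 760) (nat_lit 9949419073) (nat_lit 836) (nat_lit 3477507464) (nat_lit 122) (nat_lit 5) (nat_lit 132) (nat_lit 5) (nat_lit 133) (nat_lit 5) (nat_lit 381) (nat_lit 373) (nat_lit 266)))) (XT.nd (nat_lit 78) (nat_lit 684) (nat_lit 0) (XT.lf (nat_lit 76) (nat_lit 2993231136) (nat_lit 0) (nat_lit 10611783621) (nat_lit 836) (nat_lit 12035119355) (nat_lit 123) (nat_lit 5) (nat_lit 122) (nat_lit 5) (nat_lit 133) (nat_lit 5) (nat_lit 382) (nat_lit 373) (nat_lit 265)) (XT.nd (nat_lit 78) (nat_lit 760) (nat_lit 0) (XT.lf (nat_lit 0) (nat_lit 15936106122) (nat_lit 760) (nat_lit 9417494364) (nat_lit 76) (nat_lit 970122589) (nat_lit 123) (nat_lit 5) (nat_lit 133) (nat_lit 5) (nat_lit 124) (nat_lit 5) (nat_lit 383) (nat_lit 373) (nat_lit 264)) (XT.lf (nat_lit 0) (nat_lit 4435535225) (nat_lit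 760) (nat_lit 14184877685) (nat_lit 836) (nat_lit 8409249013) (nat_lit 113) (nat_lit 5) (nat_lit 123) (nat_lit 5) (nat_lit 124) (nat_lit 5) (nat_lit 384) (nat_lit 373) (nat_lit 263))))) (XT.nd (nat_lit 234) (nat_lit 836) (nat_lit 0) (XT.nd (nat_lit 78) (nat_lit 380) (nat_lit 0) (XT.lf (nat_lit 0) (nat_lit 19302414183) (nat_lit 760) (nat_lit 2289678956) (nat_lit 836) (nat_lit 6171149985) (nat_lit 113) (nat_lit 5) (nat_lit 123) (nat_lit 5) (nat_lit 124) (nat_lit 5) (nat_lit 385) (nat_lit 373) (nat_lit 262)) (XT.nd (nat_lit 78) (nat_lit 0) (nat_lit 0) (XT.lf (nat_lit 0) (nat_lit 6419549045) (nat_lit 380) (nat_lit 18546268782) (nat_lit 456) (nat_lit 3555015691) (nat_lit 108) (nat_lit 5) (nat_lit 113) (nat_lit 5) (nat_lit 114) (nat_lit 5) (nat_lit 386) (nat_lit 373) (nat_lit 261)) (XT.lf (nat_lit 0) (nat_lit 22293208094) (nat_lit 380) (nat_lit 6389415260) (nat_lit 456) (nat_lit 624963354) (nat_lit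 108) (nat_lit 5) (nat_lit 113) (nat_lit 5) (nat_lit 114) (nat_lit 5) (nat_lit 387) (nat_lit 373) (nat_lit 260)))) (XT.nd (nat_lit 156) (nat_lit 380) (nat_lit 0) (XT.nd (nat_lit 78) (nat_lit 0) (nat_lit 0) (XT.lf (nat_lit 0) (nat_lit 2611632085) (nat_lit 456) (nat_lit 21154069955) (nat_lit 76) (nat_lit 6354139096) (nat_lit 102) (nat_lit 5) (nat_lit 108) (nat_lit 5) (nat_lit 103) (nat_lit 5) (nat_lit 388) (nat_lit 373) (nat_lit 259)) (XT.lf (nat_lit 0) (nat_lit 6209079101) (nat_lit 456) (nat_lit 5101057405) (nat_lit 76) (nat_lit 19651060879) (nat_lit 102) (nat_lit 5) (nat_lit 108) (nat_lit 5) (nat_lit 103) (nat_lit 5) (nat_lit 389) (nat_lit 373) (nat_lit 258))) (XT.nd (nat_lit 78) (nat_lit 0) (nat_lit 0) (XT.lf (nat_lit 0) (nat_lit 10201408683) (nat_lit 456) (nat_lit 19728560568) (nat_lit 76) (nat_lit 1903904156) (nat_lit 97) (nat_lit 5) (nat_lit 103) (nat_lit 5) (nat_lit 98) (nat_lit 5) (nat_lit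 390) (nat_lit 373) (nat_lit 257)) (XT.lf (nat_lit 0) (nat_lit 14661529132) (nat_lit 456) (nat_lit 2589279048) (nat_lit 76) (nat_lit 15485968688) (nat_lit 97) (nat_lit 5) (nat_lit 103) (nat_lit 5) (nat_lit 98) (nat_lit 5) (nat_lit 391) (nat_lit 373) (nat_lit 256)))))) (XT.nd (nat_lit 546) (nat_lit 988) (nat_lit 0) (XT.nd (nat_lit 234) (nat_lit 608) (nat_lit 0) (XT.nd (nat_lit 78) (nat_lit 304) (nat_lit 0) (XT.lf (nat_lit 0) (nat_lit 15910796382) (nat_lit 304) (nat_lit 3677468703) (nat_lit 380) (nat_lit 14084382186) (nat_lit 93) (nat_lit 5) (nat_lit 97) (nat_lit 5) (nat_lit 98) (nat_lit 5) (nat_lit 392) (nat_lit 373) (nat_lit 255)) (XT.nd (nat_lit 78) (nat_lit 0) (nat_lit 0) (XT.lf (nat_lit 0) (nat_lit 621162697) (nat_lit 304) (nat_lit 24354873362) (nat_lit 380) (nat_lit 9668542359) (nat_lit 89) (nat_lit 5) (nat_lit 93) (nat_lit 5) (nat_lit 94) (nat_lit 5) (nat_lit 393) (nat_lit 373) (nat_lit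 254)) (XT.lf (nat_lit 0) (nat_lit 20472235959) (nat_lit 304) (nat_lit 10516548560) (nat_lit 380) (nat_lit 4658544191) (nat_lit 89) (nat_lit 5) (nat_lit 93) (nat_lit 5) (nat_lit 94) (nat_lit 5) (nat_lit 394) (nat_lit 373) (nat_lit 253)))) (XT.nd (nat_lit 156) (nat_lit 304) (nat_lit 0) (XT.nd (nat_lit 78) (nat_lit 0) (nat_lit 0) (XT.lf (nat_lit 0) (nat_lit 716528727) (nat_lit 304) (nat_lit 32007252759) (nat_lit 76) (nat_lit 3969274912) (nat_lit 85) (nat_lit 5) (nat_lit 89) (nat_lit 5) (nat_lit 86) (nat_lit 5) (nat_lit 395) (nat_lit 373) (nat_lit 252)) (XT.lf (nat_lit 0) (nat_lit 6633134330) (nat_lit 304) (nat_lit 11970078174) (nat_lit 76) (nat_lit 19162574410) (nat_lit 85) (nat_lit 5) (nat_lit 89) (nat_lit 5) (nat_lit 86) (nat_lit 5) (nat_lit 396) (nat_lit 373) (nat_lit 251))) (XT.nd (nat_lit 78) (nat_lit 0) (nat_lit 0) (XT.lf (nat_lit 0) (nat_lit 9363441554) (nat_lit 304) (nat_lit 3624245483)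 (nat_lit 380) (nat_lit 25897362752) (nat_lit 81) (nat_lit 5) (nat_lit 85) (nat_lit 5) (nat_lit 86) (nat_lit 5) (nat_lit 397) (nat_lit 373) (nat_lit 250)) (XT.lf (nat_lit 0) (nat_lit 20051005102) (nat_lit 380) (nat_lit 8068523681) (nat_lit 76) (nat_lit 11921196733) (nat_lit 81) (nat_lit 5) (nat_lit 86) (nat_lit 5) (nat_lit 82) (nat_lit 5) (nat_lit 398) (nat_lit 373) (nat_lit 249))))) (XT.nd (nat_lit 234) (nat_lit 456) (nat_lit 0) (XT.nd (nat_lit 78) (nat_lit 304) (nat_lit 0) (XT.lf (nat_lit 0) (nat_lit 14868643340) (nat_lit 228) (nat_lit 12886613338) (nat_lit 304) (nat_lit 13484541489) (nat_lit 78) (nat_lit 5) (nat_lit 81) (nat_lit 5) (nat_lit 82) (nat_lit 5) (nat_lit 399) (nat_lit 373) (nat_lit 248)) (XT.nd (nat_lit 78) (nat_lit 304) (nat_lit 0) (XT.lf (nat_lit 0) (nat_lit 36028424410) (nat_lit 304) (nat_lit 3315098050) (nat_lit 76) (nat_lit 3146118258) (nat_lit 78) (nat_lit 5) (nat_lit 82)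 (nat_lit 5) (nat_lit 79) (nat_lit 5) (nat_lit 400) (nat_lit 373) (nat_lit 247)) (XT.lf (nat_lit 0) (nat_lit 1434153754) (nat_lit 304) (nat_lit 22436732589) (nat_lit 76) (nat_lit 19902871969) (nat_lit 74) (nat_lit 5) (nat_lit 78) (nat_lit 5) (nat_lit 75) (nat_lit 5) (nat_lit 401) (nat_lit 373) (nat_lit 246)))) (XT.nd (nat_lit 156) (nat_lit 228) (nat_lit 0) (XT.nd (nat_lit 78) (nat_lit 0) (nat_lit 0) (XT.lf (nat_lit 0) (nat_lit 2175434128) (nat_lit 228) (nat_lit 7419253880) (nat_lit 304) (nat_lit 35517722202) (nat_lit 71) (nat_lit 5) (nat_lit 74) (nat_lit 5) (nat_lit 75) (nat_lit 5) (nat_lit 402) (nat_lit 373) (nat_lit 245)) (XT.lf (nat_lit 0) (nat_lit 18699893845) (nat_lit 304) (nat_lit 17866921141) (nat_lit 76) (nat_lit 9924348662) (nat_lit 71) (nat_lit 5) (nat_lit 75) (nat_lit 5) (nat_lit 72) (nat_lit 5) (nat_lit 403) (nat_lit 373) (nat_lit 244))) (XT.nd (nat_lit 78) (nat_lit 0) (nat_lit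 0) (XT.lf (nat_lit 0) (nat_lit 8605688564) (nat_lit 228) (nat_lit 19907395792) (nat_lit 304) (nat_lit 19413135316) (nat_lit 68) (nat_lit 5) (nat_lit 71) (nat_lit 5) (nat_lit 72) (nat_lit 5) (nat_lit 404) (nat_lit 373) (nat_lit 243)) (XT.lf (nat_lit 0) (nat_lit 37017547986) (nat_lit 228) (nat_lit 2098791966) (nat_lit 304) (nat_lit 10301719347) (nat_lit 68) (nat_lit 5) (nat_lit 71) (nat_lit 5) (nat_lit 72) (nat_lit 5) (nat_lit 405) (nat_lit 373) (nat_lit 242))))))))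
noncomputable def xc174 : XT := (XT.nd (nat_lit 2106) (nat_lit 1444) (nat_lit 0) (XT.nd (nat_lit 1014) (nat_lit 988) (nat_lit 0) (XT.nd (nat_lit 468) (nat_lit 684) (nat_lit 0) (XT.nd (nat_lit 234) (nat_lit 380) (nat_lit 0) (XT.nd (nat_lit 78) (nat_lit 304) (nat_lit 0) (XT.lf (nat_lit 0) (nat_lit 16117610162) (nat_lit 152) (nat_lit 34639915220) (nat_lit 228) (nat_lit 201578199) (nat_lit 66) (nat_lit 5) (nat_lit 68) (nat_lit 5) (nat_lit 69) (nat_lit 5) (nat_lit 406) (nat_lit 373) (nat_lit 241)) (XT.nd (nat_lit 78) (nat_lit 228) (nat_lit 0) (XT.lf (nat_lit 0) (nat_lit 10315423397) (nat_lit 228) (nat_lit 6279436419) (nat_lit 76) (nat_lit 35961978120) (nat_lit 65) (nat_lit 5) (nat_lit 68) (nat_lit 5) (nat_lit 66) (nat_lit 5) (nat_lit 407) (nat_lit 373) (nat_lit 240)) (XT.lf (nat_lit 0) (nat_lit 21773952568) (nat_lit 304) (nat_lit 29771596106) (nat_lit 76) (nat_lit 2667623402) (nat_lit 62) (nat_lit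 5) (nat_lit 66) (nat_lit 5) (nat_lit 63) (nat_lit 5) (nat_lit 408) (nat_lit 373) (nat_lit 239)))) (XT.nd (nat_lit 78) (nat_lit 228) (nat_lit 0) (XT.lf (nat_lit 0) (nat_lit 714270674) (nat_lit 152) (nat_lit 33479589734) (nat_lit 228) (nat_lit 21739040750) (nat_lit 60) (nat_lit 5) (nat_lit 62) (nat_lit 5) (nat_lit 63) (nat_lit 5) (nat_lit 409) (nat_lit 373) (nat_lit 238)) (XT.nd (nat_lit 78) (nat_lit 228) (nat_lit 0) (XT.lf (nat_lit 0) (nat_lit 33753663645) (nat_lit 152) (nat_lit 13982528064) (nat_lit 228) (nat_lit 9977354386) (nat_lit 60) (nat_lit 5) (nat_lit 62) (nat_lit 5) (nat_lit 63) (nat_lit 5) (nat_lit 410) (nat_lit 373) (nat_lit 237)) (XT.lf (nat_lit 0) (nat_lit 2540302462) (nat_lit 228) (nat_lit 50566467296) (nat_lit 76) (nat_lit 6462411333) (nat_lit 57) (nat_lit 5) (nat_lit 60) (nat_lit 5) (nat_lit 58) (nat_lit 5) (nat_lit 411) (nat_lit 373) (nat_lit 236))))) (XT.nd (nat_lit 234)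 (nat_lit 532) (nat_lit 0) (XT.nd (nat_lit 78) (nat_lit 152) (nat_lit 0) (XT.lf (nat_lit 0) (nat_lit 15987541061) (nat_lit 228) (nat_lit 17455762945) (nat_lit 76) (nat_lit 28034166196) (nat_lit 57) (nat_lit 5) (nat_lit 60) (nat_lit 5) (nat_lit 58) (nat_lit 5) (nat_lit 412) (nat_lit 373) (nat_lit 235)) (XT.nd (nat_lit 78) (nat_lit 0) (nat_lit 0) (XT.lf (nat_lit 0) (nat_lit 17878618715) (nat_lit 152) (nat_lit 12505141513) (nat_lit 228) (nat_lit 33083583270) (nat_lit 55) (nat_lit 5) (nat_lit 57) (nat_lit 5) (nat_lit 58) (nat_lit 5) (nat_lit 413) (nat_lit 373) (nat_lit 234)) (XT.lf (nat_lit 0) (nat_lit 45945782697) (nat_lit 228) (nat_lit 10113158481) (nat_lit 76) (nat_lit 9475470294) (nat_lit 55) (nat_lit 5) (nat_lit 58) (nat_lit 5) (nat_lit 56) (nat_lit 5) (nat_lit 414) (nat_lit 373) (nat_lit 233)))) (XT.nd (nat_lit 156) (nat_lit 304) (nat_lit 0) (XT.nd (nat_lit 78) (nat_lit 76) (nat_lit 0) (XT.lf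 (nat_lit 0) (nat_lit 27817598082) (nat_lit 152) (nat_lit 35105255506) (nat_lit 228) (nat_lit 4750132494) (nat_lit 53) (nat_lit 5) (nat_lit 55) (nat_lit 5) (nat_lit 56) (nat_lit 5) (nat_lit 415) (nat_lit 373) (nat_lit 232)) (XT.lf (nat_lit 0) (nat_lit 10655378922) (nat_lit 228) (nat_lit 2089763874) (nat_lit 76) (nat_lit 57156306254) (nat_lit 52) (nat_lit 5) (nat_lit 55) (nat_lit 5) (nat_lit 53) (nat_lit 5) (nat_lit 416) (nat_lit 373) (nat_lit 231))) (XT.nd (nat_lit 78) (nat_lit 152) (nat_lit 0) (XT.lf (nat_lit 0) (nat_lit 27452582900) (nat_lit 228) (nat_lit 33664200167) (nat_lit 76) (nat_lit 11081606436) (nat_lit 50) (nat_lit 5) (nat_lit 53) (nat_lit 5) (nat_lit 51) (nat_lit 5) (nat_lit 417) (nat_lit 373) (nat_lit 230)) (XT.lf (nat_lit 0) (nat_lit 6653133265) (nat_lit 152) (nat_lit 38783081852) (nat_lit 228) (nat_lit 29156633955) (nat_lit 48) (nat_lit 5) (nat_lit 50) (nat_lit 5) (nat_lit 51)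 (nat_lit 5) (nat_lit 418) (nat_lit 373) (nat_lit 229)))))) (XT.nd (nat_lit 546) (nat_lit 532) (nat_lit 0) (XT.nd (nat_lit 234) (nat_lit 304) (nat_lit 0) (XT.nd (nat_lit 78) (nat_lit 152) (nat_lit 0) (XT.lf (nat_lit 0) (nat_lit 50151363022) (nat_lit 152) (nat_lit 14735618742) (nat_lit 228) (nat_lit 12191652686) (nat_lit 48) (nat_lit 5) (nat_lit 50) (nat_lit 5) (nat_lit 51) (nat_lit 5) (nat_lit 419) (nat_lit 373) (nat_lit 228)) (XT.nd (nat_lit 78) (nat_lit 0) (nat_lit 0) (XT.lf (nat_lit 0) (nat_lit 5868149168) (nat_lit 152) (nat_lit 63266381606) (nat_lit 76) (nat_lit 10528465464) (nat_lit 46) (nat_lit 5) (nat_lit 48) (nat_lit 5) (nat_lit 47) (nat_lit 5) (nat_lit 420) (nat_lit 373) (nat_lit 227)) (XT.lf (nat_lit 0) (nat_lit 25124214688) (nat_lit 152) (nat_lit 19984761997) (nat_lit 76) (nat_lit 37222457027) (nat_lit 46) (nat_lit 5) (nat_lit 48) (nat_lit 5) (nat_lit 47) (nat_lit 5) (nat_lit 421)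 (nat_lit 373) (nat_lit 226)))) (XT.nd (nat_lit 156) (nat_lit 152) (nat_lit 0) (XT.nd (nat_lit 78) (nat_lit 0) (nat_lit 0) (XT.lf (nat_lit 0) (nat_lit 26299221014) (nat_lit 152) (nat_lit 19452489216) (nat_lit 228) (nat_lit 39361151879) (nat_lit 44) (nat_lit 5) (nat_lit 46) (nat_lit 5) (nat_lit 47) (nat_lit 5) (nat_lit 422) (nat_lit 373) (nat_lit 225)) (XT.lf (nat_lit 0) (nat_lit 67869511255) (nat_lit 228) (nat_lit 12551124506) (nat_lit 76) (nat_lit 7589779999) (nat_lit 44) (nat_lit 5) (nat_lit 47) (nat_lit 5) (nat_lit 45) (nat_lit 4) (nat_lit 423) (nat_lit 373) (nat_lit 224))) (XT.nd (nat_lit 78) (nat_lit 0) (nat_lit 0) (XT.lf (nat_lit 0) (nat_lit 946571286) (nat_lit 152) (nat_lit 54140676758) (nat_lit 76) (nat_lit 35920192499) (nat_lit 42) (nat_lit 5) (nat_lit 44) (nat_lit 5) (nat_lit 43) (nat_lit 5) (nat_lit 424) (nat_lit 373) (nat_lit 223)) (XT.lf (nat_lit 0) (nat_lit 22625739814) (nat_lit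 152) (nat_lit 5289377105) (nat_lit 76) (nat_lit 66211981754) (nat_lit 42) (nat_lit 5) (nat_lit 44) (nat_lit 5) (nat_lit 43) (nat_lit 5) (nat_lit 425) (nat_lit 373) (nat_lit 222))))) (XT.nd (nat_lit 234) (nat_lit 304) (nat_lit 0) (XT.nd (nat_lit 78) (nat_lit 76) (nat_lit 0) (XT.lf (nat_lit 0) (nat_lit 46150806712) (nat_lit 228) (nat_lit 49865144947) (nat_lit 76) (nat_lit 1348691359) (nat_lit 40) (nat_lit 5) (nat_lit 43) (nat_lit 5) (nat_lit 41) (nat_lit 4) (nat_lit 426) (nat_lit 373) (nat_lit 221)) (XT.nd (nat_lit 78) (nat_lit 0) (nat_lit 0) (XT.lf (nat_lit 0) (nat_lit 1952076950) (nat_lit 76) (nat_lit 69477443156) (nat_lit 152) (nat_lit 29305675104) (nat_lit 39) (nat_lit 5) (nat_lit 40) (nat_lit 5) (nat_lit 41) (nat_lit 4) (nat_lit 427) (nat_lit 373) (nat_lit 220)) (XT.lf (nat_lit 0) (nat_lit 58088241479) (nat_lit 76) (nat_lit 40726697124) (nat_lit 152) (nat_lit 5417198212) (nat_lit 39) (nat_lit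 5) (nat_lit 40) (nat_lit 5) (nat_lit 41) (nat_lit 4) (nat_lit 428) (nat_lit 373) (nat_lit 219)))) (XT.nd (nat_lit 156) (nat_lit 76) (nat_lit 0) (XT.nd (nat_lit 78) (nat_lit 0) (nat_lit 0) (XT.lf (nat_lit 0) (nat_lit 9108758885) (nat_lit 152) (nat_lit 10068065499) (nat_lit 228) (nat_lit 88704722173) (nat_lit 36) (nat_lit 5) (nat_lit 38) (nat_lit 5) (nat_lit 39) (nat_lit 5) (nat_lit 429) (nat_lit 373) (nat_lit 218)) (XT.lf (nat_lit 0) (nat_lit 45956530339) (nat_lit 228) (nat_lit 43398365224) (nat_lit 76) (nat_lit 22297189353) (nat_lit 36) (nat_lit 5) (nat_lit 39) (nat_lit 5) (nat_lit 37) (nat_lit 4) (nat_lit 430) (nat_lit 373) (nat_lit 217))) (XT.nd (nat_lit 78) (nat_lit 0) (nat_lit 0) (XT.lf (nat_lit 0) (nat_lit 15058806548) (nat_lit 76) (nat_lit 59414999893) (nat_lit 152) (nat_lit 41117414736) (nat_lit 35) (nat_lit 5) (nat_lit 36) (nat_lit 5) (nat_lit 37) (nat_lit 4) (nat_lit 431) (nat_lit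 373) (nat_lit 216)) (XT.lf (nat_lit 0) (nat_lit 77942679488) (nat_lit 76) (nat_lit 27207694119) (nat_lit 152) (nat_lit 14540269497) (nat_lit 35) (nat_lit 5) (nat_lit 36) (nat_lit 5) (nat_lit 37) (nat_lit 4) (nat_lit 432) (nat_lit 373) (nat_lit 215))))))) (XT.nd (nat_lit 1014) (nat_lit 684) (nat_lit 0) (XT.nd (nat_lit 468) (nat_lit 304) (nat_lit 0) (XT.nd (nat_lit 234) (nat_lit 152) (nat_lit 0) (XT.nd (nat_lit 78) (nat_lit 76) (nat_lit 0) (XT.lf (nat_lit 0) (nat_lit 13367056063) (nat_lit 228) (nat_lit 103662800810) (nat_lit 76) (nat_lit 6933290123) (nat_lit 32) (nat_lit 5) (nat_lit 35) (nat_lit 5) (nat_lit 33) (nat_lit 4) (nat_lit 433) (nat_lit 373) (nat_lit 214)) (XT.nd (nat_lit 78) (nat_lit 76) (nat_lit 0) (XT.lf (nat_lit 0) (nat_lit 43344253157) (nat_lit 228) (nat_lit 42212215808) (nat_lit 76) (nat_lit 42822731367) (nat_lit 32) (nat_lit 5) (nat_lit 35) (nat_lit 5) (nat_lit 33) (nat_lit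 4) (nat_lit 434) (nat_lit 373) (nat_lit 213)) (XT.lf (nat_lit 0) (nat_lit 23045868286) (nat_lit 76) (nat_lit 52132836598) (nat_lit 152) (nat_lit 57819431891) (nat_lit 31) (nat_lit 5) (nat_lit 32) (nat_lit 5) (nat_lit 33) (nat_lit 4) (nat_lit 435) (nat_lit 373) (nat_lit 212)))) (XT.nd (nat_lit 78) (nat_lit 152) (nat_lit 0) (XT.lf (nat_lit 0) (nat_lit 93029770145) (nat_lit 76) (nat_lit 16288604377) (nat_lit 152) (nat_lit 28493970918) (nat_lit 31) (nat_lit 5) (nat_lit 32) (nat_lit 5) (nat_lit 33) (nat_lit 4) (nat_lit 436) (nat_lit 373) (nat_lit 211)) (XT.nd (nat_lit 78) (nat_lit 0) (nat_lit 0) (XT.lf (nat_lit 0) (nat_lit 2943748423) (nat_lit 152) (nat_lit 118798842633) (nat_lit 76) (nat_lit 21086903508) (nat_lit 29) (nat_lit 5) (nat_lit 31) (nat_lit 5) (nat_lit 30) (nat_lit 4) (nat_lit 437) (nat_lit 373) (nat_lit 210)) (XT.lf (nat_lit 0) (nat_lit 36032305907) (nat_lit 152) (nat_lit 50969391055)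 (nat_lit 76) (nat_lit 61020621790) (nat_lit 29) (nat_lit 5) (nat_lit 31) (nat_lit 5) (nat_lit 30) (nat_lit 4) (nat_lit 438) (nat_lit 373) (nat_lit 209))))) (XT.nd (nat_lit 234) (nat_lit 152) (nat_lit 0) (XT.nd (nat_lit 78) (nat_lit 76) (nat_lit 0) (XT.lf (nat_lit 0) (nat_lit 20918653558) (nat_lit 76) (nat_lit 50181962736) (nat_lit 152) (nat_lit 82357901744) (nat_lit 28) (nat_lit 5) (nat_lit 29) (nat_lit 5) (nat_lit 30) (nat_lit 4) (nat_lit 439) (nat_lit 373) (nat_lit 208)) (XT.nd (nat_lit 78) (nat_lit 76) (nat_lit 0) (XT.lf (nat_lit 0) (nat_lit 98168274296) (nat_lit 76) (nat_lit 10616009109) (nat_lit 152) (nat_lit 50339146956) (nat_lit 28) (nat_lit 5) (nat_lit 29) (nat_lit 5) (nat_lit 30) (nat_lit 4) (nat_lit 440) (nat_lit 373) (nat_lit 207)) (XT.lf (nat_lit 0) (nat_lit 14177377323) (nat_lit 76) (nat_lit 134877774482) (nat_lit 76) (nat_lit 15981285722) (nat_lit 27) (nat_lit 4) (nat_lit 28)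 (nat_lit 5) (nat_lit 28) (nat_lit 4) (nat_lit 441) (nat_lit 373) (nat_lit 206)))) (XT.nd (nat_lit 156) (nat_lit 0) (nat_lit 0) (XT.nd (nat_lit 78) (nat_lit 76) (nat_lit 0) (XT.lf (nat_lit 0) (nat_lit 20673376558) (nat_lit 152) (nat_lit 76517705375) (nat_lit 76) (nat_lit 73977223863) (nat_lit 26) (nat_lit 5) (nat_lit 28) (nat_lit 5) (nat_lit 27) (nat_lit 4) (nat_lit 442) (nat_lit 373) (nat_lit 205)) (XT.lf (nat_lit 0) (nat_lit 1318745182) (nat_lit 76) (nat_lit 57324392883) (nat_lit 152) (nat_lit 118949558001) (nat_lit 25) (nat_lit 5) (nat_lit 26) (nat_lit 5) (nat_lit 27) (nat_lit 4) (nat_lit 443) (nat_lit 373) (nat_lit 204))) (XT.nd (nat_lit 78) (nat_lit 0) (nat_lit 0) (XT.lf (nat_lit 0) (nat_lit 85701383765) (nat_lit 76) (nat_lit 14104742010) (nat_lit 152) (nat_lit 84467443273) (nat_lit 25) (nat_lit 5) (nat_lit 26) (nat_lit 5) (nat_lit 27) (nat_lit 4) (nat_lit 444) (nat_lit 373) (nat_lit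 203)) (XT.lf (nat_lit 0) (nat_lit 143514479260) (nat_lit 152) (nat_lit 17475727893) (nat_lit 0) (nat_lit 30273917806) (nat_lit 25) (nat_lit 5) (nat_lit 27) (nat_lit 4) (nat_lit 25) (nat_lit 4) (nat_lit 445) (nat_lit 373) (nat_lit 202)))))) (XT.nd (nat_lit 546) (nat_lit 304) (nat_lit 0) (XT.nd (nat_lit 234) (nat_lit 152) (nat_lit 0) (XT.nd (nat_lit 78) (nat_lit 152) (nat_lit 0) (XT.lf (nat_lit 0) (nat_lit 69672282699) (nat_lit 76) (nat_lit 121053936465) (nat_lit 76) (nat_lit 7812091157) (nat_lit 24) (nat_lit 4) (nat_lit 25) (nat_lit 5) (nat_lit 25) (nat_lit 4) (nat_lit 446) (nat_lit 373) (nat_lit 201)) (XT.nd (nat_lit 78) (nat_lit 76) (nat_lit 0) (XT.lf (nat_lit 0) (nat_lit 33329990653) (nat_lit 152) (nat_lit 44916587188) (nat_lit 76) (nat_lit 127888001050) (nat_lit 23) (nat_lit 5) (nat_lit 25) (nat_lit 5) (nat_lit 24) (nat_lit 4) (nat_lit 447) (nat_lit 373) (nat_lit 200)) (XT.lf (nat_lit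 0) (nat_lit 44525450995) (nat_lit 76) (nat_lit 32435370232) (nat_lit 152) (nat_lit 137108727281) (nat_lit 22) (nat_lit 5) (nat_lit 23) (nat_lit 5) (nat_lit 24) (nat_lit 4) (nat_lit 448) (nat_lit 373) (nat_lit 199)))) (XT.nd (nat_lit 156) (nat_lit 76) (nat_lit 0) (XT.nd (nat_lit 78) (nat_lit 76) (nat_lit 0) (XT.lf (nat_lit 0) (nat_lit 123789962804) (nat_lit 152) (nat_lit 82623208854) (nat_lit 0) (nat_lit 15937256552) (nat_lit 22) (nat_lit 5) (nat_lit 24) (nat_lit 4) (nat_lit 22) (nat_lit 4) (nat_lit 449) (nat_lit 373) (nat_lit 198)) (XT.lf (nat_lit 0) (nat_lit 8378343387) (nat_lit 76) (nat_lit 165243820328) (nat_lit 76) (nat_lit 57390108143) (nat_lit 21) (nat_lit 4) (nat_lit 22) (nat_lit 5) (nat_lit 22) (nat_lit 4) (nat_lit 450) (nat_lit 373) (nat_lit 197))) (XT.nd (nat_lit 78) (nat_lit 76) (nat_lit 0) (XT.lf (nat_lit 0) (nat_lit 106796680943) (nat_lit 76) (nat_lit 120547639864) (nat_lit 76)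 (nat_lit 12692969646) (nat_lit 21) (nat_lit 4) (nat_lit 22) (nat_lit 5) (nat_lit 22) (nat_lit 4) (nat_lit 451) (nat_lit 373) (nat_lit 196)) (XT.lf (nat_lit 0) (nat_lit 33142274549) (nat_lit 152) (nat_lit 39913919803) (nat_lit 76) (nat_lit 176430681760) (nat_lit 20) (nat_lit 5) (nat_lit 22) (nat_lit 5) (nat_lit 21) (nat_lit 4) (nat_lit 452) (nat_lit 373) (nat_lit 195))))) (XT.nd (nat_lit 234) (nat_lit 228) (nat_lit 0) (XT.nd (nat_lit 78) (nat_lit 0) (nat_lit 0) (XT.lf (nat_lit 0) (nat_lit 59782800106) (nat_lit 76) (nat_lit 21992444625) (nat_lit 152) (nat_lit 177576665771) (nat_lit 19) (nat_lit 5) (nat_lit 20) (nat_lit 5) (nat_lit 21) (nat_lit 4) (nat_lit 453) (nat_lit 373) (nat_lit 194)) (XT.nd (nat_lit 78) (nat_lit 0) (nat_lit 0) (XT.lf (nat_lit 0) (nat_lit 134019809715) (nat_lit 152) (nat_lit 104332798188) (nat_lit 0) (nat_lit 31298591450) (nat_lit 19) (nat_lit 5) (nat_lit 21) (nat_lit 4)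 (nat_lit 19) (nat_lit 4) (nat_lit 454) (nat_lit 373) (nat_lit 193)) (XT.lf (nat_lit 0) (nat_lit 189236331450) (nat_lit 152) (nat_lit 4696772287) (nat_lit 0) (nat_lit 86514362542) (nat_lit 19) (nat_lit 5) (nat_lit 21) (nat_lit 4) (nat_lit 19) (nat_lit 4) (nat_lit 455) (nat_lit 373) (nat_lit 192)))) (XT.nd (nat_lit 156) (nat_lit 76) (nat_lit 0) (XT.nd (nat_lit 78) (nat_lit 76) (nat_lit 0) (XT.lf (nat_lit 0) (nat_lit 103223351525) (nat_lit 76) (nat_lit 145601168425) (nat_lit 76) (nat_lit 42878484618) (nat_lit 18) (nat_lit 4) (nat_lit 19) (nat_lit 5) (nat_lit 19) (nat_lit 4) (nat_lit 456) (nat_lit 373) (nat_lit 191)) (XT.lf (nat_lit 0) (nat_lit 7698965463) (nat_lit 152) (nat_lit 86940485462) (nat_lit 76) (nat_lit 208871720531) (nat_lit 17) (nat_lit 5) (nat_lit 19) (nat_lit 5) (nat_lit 18) (nat_lit 4) (nat_lit 457) (nat_lit 373) (nat_lit 190))) (XT.nd (nat_lit 78) (nat_lit 0) (nat_lit 0) (XT.lf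 (nat_lit 0) (nat_lit 19598565816) (nat_lit 76) (nat_lit 40070984872) (nat_lit 152) (nat_lit 256189786702) (nat_lit 16) (nat_lit 5) (nat_lit 17) (nat_lit 5) (nat_lit 18) (nat_lit 4) (nat_lit 458) (nat_lit 373) (nat_lit 189)) (XT.lf (nat_lit 0) (nat_lit 116003400755) (nat_lit 152) (nat_lit 194562854948) (nat_lit 0) (nat_lit 18170419181) (nat_lit 16) (nat_lit 5) (nat_lit 18) (nat_lit 4) (nat_lit 16) (nat_lit 4) (nat_lit 459) (nat_lit 373) (nat_lit 188))))))))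
noncomputable def xc175 : XT := (XT.nd (nat_lit 46956) (nat_lit 0) (nat_lit 4256) (XT.nd (nat_lit 1014) (nat_lit 76) (nat_lit 0) (XT.nd (nat_lit 468) (nat_lit 228) (nat_lit 0) (XT.nd (nat_lit 234) (nat_lit 152) (nat_lit 0) (XT.nd (nat_lit 78) (nat_lit 76) (nat_lit 0) (XT.lf (nat_lit 0) (nat_lit 175810153651) (nat_lit 152) (nat_lit 88438303192) (nat_lit 0) (nat_lit 77976611936) (nat_lit 16) (nat_lit 5) (nat_lit 18) (nat_lit 4) (nat_lit 16) (nat_lit 4) (nat_lit 460) (nat_lit 373) (nat_lit 187)) (XT.nd (nat_lit 78) (nat_lit 0) (nat_lit 0) (XT.lf (nat_lit 0) (nat_lit 23751373863) (nat_lit 76) (nat_lit 215226037680) (nat_lit 76) (nat_lit 117391962496) (nat_lit 15) (nat_lit 4) (nat_lit 16) (nat_lit 5) (nat_lit 16) (nat_lit 4) (nat_lit 461) (nat_lit 373) (nat_lit 186)) (XT.lf (nat_lit 0) (nat_lit 144619639260) (nat_lit 76) (nat_lit 162180491826) (nat_lit 76) (nat_lit 64345908577) (nat_lit 15) (nat_lit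 4) (nat_lit 16) (nat_lit 5) (nat_lit 16) (nat_lit 4) (nat_lit 462) (nat_lit 373) (nat_lit 185)))) (XT.nd (nat_lit 78) (nat_lit 152) (nat_lit 0) (XT.lf (nat_lit 0) (nat_lit 271530104878) (nat_lit 76) (nat_lit 106483265820) (nat_lit 76) (nat_lit 8648198700) (nat_lit 15) (nat_lit 4) (nat_lit 16) (nat_lit 5) (nat_lit 16) (nat_lit 4) (nat_lit 463) (nat_lit 373) (nat_lit 184)) (XT.nd (nat_lit 78) (nat_lit 0) (nat_lit 0) (XT.lf (nat_lit 0) (nat_lit 1088838155) (nat_lit 76) (nat_lit 47166950188) (nat_lit 152) (nat_lit 354657364400) (nat_lit 13) (nat_lit 5) (nat_lit 14) (nat_lit 5) (nat_lit 15) (nat_lit 4) (nat_lit 464) (nat_lit 373) (nat_lit 183)) (XT.lf (nat_lit 0) (nat_lit 109931505217) (nat_lit 152) (nat_lit 293173469104) (nat_lit 0) (nat_lit 16754393945) (nat_lit 13) (nat_lit 5) (nat_lit 15) (nat_lit 4) (nat_lit 13) (nat_lit 4) (nat_lit 465) (nat_lit 373) (nat_lit 182))))) (XT.nd (nat_lit 234)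 (nat_lit 152) (nat_lit 0) (XT.nd (nat_lit 78) (nat_lit 76) (nat_lit 0) (XT.lf (nat_lit 0) (nat_lit 175463670161) (nat_lit 152) (nat_lit 179864430513) (nat_lit 0) (nat_lit 82286160807) (nat_lit 13) (nat_lit 5) (nat_lit 15) (nat_lit 4) (nat_lit 13) (nat_lit 4) (nat_lit 466) (nat_lit 373) (nat_lit 181)) (XT.nd (nat_lit 78) (nat_lit 76) (nat_lit 0) (XT.lf (nat_lit 0) (nat_lit 244271903864) (nat_lit 152) (nat_lit 60891007113) (nat_lit 0) (nat_lit 151094015384) (nat_lit 13) (nat_lit 5) (nat_lit 15) (nat_lit 4) (nat_lit 13) (nat_lit 4) (nat_lit 467) (nat_lit 373) (nat_lit 180)) (XT.lf (nat_lit 0) (nat_lit 66147194471) (nat_lit 76) (nat_lit 251405584064) (nat_lit 76) (nat_lit 158227334511) (nat_lit 12) (nat_lit 4) (nat_lit 13) (nat_lit 5) (nat_lit 13) (nat_lit 4) (nat_lit 468) (nat_lit 373) (nat_lit 179)))) (XT.nd (nat_lit 156) (nat_lit 152) (nat_lit 0) (XT.nd (nat_lit 78) (nat_lit 0) (nat_lit 0)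 (XT.lf (nat_lit 0) (nat_lit 201650304494) (nat_lit 76) (nat_lit 193878106171) (nat_lit 76) (nat_lit 100699512740) (nat_lit 12) (nat_lit 4) (nat_lit 13) (nat_lit 5) (nat_lit 13) (nat_lit 4) (nat_lit 469) (nat_lit 373) (nat_lit 178)) (XT.lf (nat_lit 0) (nat_lit 343927617719) (nat_lit 76) (nat_lit 133474725783) (nat_lit 76) (nat_lit 40295804849) (nat_lit 12) (nat_lit 4) (nat_lit 13) (nat_lit 5) (nat_lit 13) (nat_lit 4) (nat_lit 470) (nat_lit 373) (nat_lit 177))) (XT.nd (nat_lit 78) (nat_lit 76) (nat_lit 0) (XT.lf (nat_lit 0) (nat_lit 22387379639) (nat_lit 152) (nat_lit 47285104581) (nat_lit 76) (nat_lit 470551368908) (nat_lit 11) (nat_lit 5) (nat_lit 13) (nat_lit 5) (nat_lit 12) (nat_lit 4) (nat_lit 471) (nat_lit 373) (nat_lit 176)) (XT.lf (nat_lit 0) (nat_lit 87669085608) (nat_lit 76) (nat_lit 549751223) (nat_lit 152) (nat_lit 475555561148) (nat_lit 10) (nat_lit 5) (nat_lit 11) (nat_lit 5)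 (nat_lit 12) (nat_lit 4) (nat_lit 472) (nat_lit 373) (nat_lit 175)))))) (XT.nd (nat_lit 45396) (nat_lit 0) (nat_lit 8284) (XT.nd (nat_lit 234) (nat_lit 76) (nat_lit 0) (XT.nd (nat_lit 78) (nat_lit 0) (nat_lit 0) (XT.lf (nat_lit 0) (nat_lit 159279924782) (nat_lit 152) (nat_lit 358588396497) (nat_lit 0) (nat_lit 70537245918) (nat_lit 10) (nat_lit 5) (nat_lit 12) (nat_lit 4) (nat_lit 10) (nat_lit 4) (nat_lit 473) (nat_lit 373) (nat_lit 174)) (XT.nd (nat_lit 78) (nat_lit 0) (nat_lit 0) (XT.lf (nat_lit 0) (nat_lit 233902658079) (nat_lit 152) (nat_lit 235205484659) (nat_lit 0) (nat_lit 145159722608) (nat_lit 10) (nat_lit 5) (nat_lit 12) (nat_lit 4) (nat_lit 10) (nat_lit 4) (nat_lit 474) (nat_lit 373) (nat_lit 173)) (XT.lf (nat_lit 0) (nat_lit 312256126742) (nat_lit 152) (nat_lit 105654224863) (nat_lit 0) (nat_lit 223512946883) (nat_lit 10) (nat_lit 5) (nat_lit 12) (nat_lit 4) (nat_lit 10) (nat_lit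 4) (nat_lit 475) (nat_lit 373) (nat_lit 172)))) (XT.nd (nat_lit 156) (nat_lit 0) (nat_lit 0) (XT.nd (nat_lit 78) (nat_lit 0) (nat_lit 0) (XT.lf (nat_lit 0) (nat_lit 31378134536) (nat_lit 76) (nat_lit 363638652727) (nat_lit 76) (nat_lit 274895240118) (nat_lit 9) (nat_lit 4) (nat_lit 10) (nat_lit 5) (nat_lit 10) (nat_lit 4) (nat_lit 476) (nat_lit 373) (nat_lit 171)) (XT.lf (nat_lit 0) (nat_lit 178929440622) (nat_lit 76) (nat_lit 304774969951) (nat_lit 76) (nat_lit 216031335675) (nat_lit 9) (nat_lit 4) (nat_lit 10) (nat_lit 5) (nat_lit 10) (nat_lit 4) (nat_lit 477) (nat_lit 373) (nat_lit 170))) (XT.nd (nat_lit 78) (nat_lit 0) (nat_lit 0) (XT.lf (nat_lit 0) (nat_lit 333857600203) (nat_lit 76) (nat_lit 242968457073) (nat_lit 76) (nat_lit 154224611685) (nat_lit 9) (nat_lit 4) (nat_lit 10) (nat_lit 5) (nat_lit 10) (nat_lit 4) (nat_lit 478) (nat_lit 373) (nat_lit 169)) (XT.lf (nat_lit 0) (nat_lit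 496531489852) (nat_lit 76) (nat_lit 178071955729) (nat_lit 76) (nat_lit 89327909282) (nat_lit 9) (nat_lit 4) (nat_lit 10) (nat_lit 5) (nat_lit 10) (nat_lit 4) (nat_lit 479) (nat_lit 373) (nat_lit 168))))) (XT.nd (nat_lit 234) (nat_lit 0) (nat_lit 76) (XT.nd (nat_lit 78) (nat_lit 0) (nat_lit 0) (XT.lf (nat_lit 0) (nat_lit 2031208144) (nat_lit 836) (nat_lit 4349806713) (nat_lit 836) (nat_lit 4349806713) (nat_lit 118) (nat_lit 3) (nat_lit 129) (nat_lit 3) (nat_lit 129) (nat_lit 5) (nat_lit 374) (nat_lit 374) (nat_lit 272)) (XT.nd (nat_lit 78) (nat_lit 0) (nat_lit 76) (XT.lf (nat_lit 76) (nat_lit 1785488106) (nat_lit 0) (nat_lit 2546218703) (nat_lit 836) (nat_lit 17658014412) (nat_lit 119) (nat_lit 5) (nat_lit 118) (nat_lit 3) (nat_lit 129) (nat_lit 5) (nat_lit 375) (nat_lit 374) (nat_lit 271)) (XT.lf (nat_lit 0) (nat_lit 4882964885) (nat_lit 760) (nat_lit 9575474281) (nat_lit 836) (nat_lit 8072343784)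 (nat_lit 119) (nat_lit 5) (nat_lit 129) (nat_lit 5) (nat_lit 130) (nat_lit 5) (nat_lit 376) (nat_lit 374) (nat_lit 270)))) (XT.nd (nat_lit 156) (nat_lit 0) (nat_lit 76) (XT.nd (nat_lit 78) (nat_lit 0) (nat_lit 76) (XT.lf (nat_lit 76) (nat_lit 1588706546) (nat_lit 0) (nat_lit 3931088470) (nat_lit 836) (nat_lit 17576206954) (nat_lit 120) (nat_lit 5) (nat_lit 119) (nat_lit 5) (nat_lit 130) (nat_lit 5) (nat_lit 377) (nat_lit 374) (nat_lit 269)) (XT.lf (nat_lit 0) (nat_lit 6456335557) (nat_lit 760) (nat_lit 10157205962) (nat_lit 836) (nat_lit 7062551419) (nat_lit 120) (nat_lit 5) (nat_lit 130) (nat_lit 5) (nat_lit 131) (nat_lit 5) (nat_lit 378) (nat_lit 374) (nat_lit 268))) (XT.nd (nat_lit 78) (nat_lit 0) (nat_lit 76) (XT.lf (nat_lit 76) (nat_lit 1746603367) (nat_lit 0) (nat_lit 5777042683) (nat_lit 836) (nat_lit 16757349489) (nat_lit 121) (nat_lit 5) (nat_lit 120) (nat_lit 5) (nat_lit 131) (nat_lit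 5) (nat_lit 379) (nat_lit 374) (nat_lit 267)) (XT.lf (nat_lit 0) (nat_lit 8899166151) (nat_lit 760) (nat_lit 10405148173) (nat_lit 836) (nat_lit 5599090768) (nat_lit 121) (nat_lit 5) (nat_lit 131) (nat_lit 5) (nat_lit 132) (nat_lit 5) (nat_lit 380) (nat_lit 374) (nat_lit 266))))))) (XT.nd (nat_lit 1092) (nat_lit 1824) (nat_lit 0) (XT.nd (nat_lit 546) (nat_lit 1444) (nat_lit 0) (XT.nd (nat_lit 234) (nat_lit 988) (nat_lit 0) (XT.nd (nat_lit 78) (nat_lit 0) (nat_lit 76) (XT.lf (nat_lit 76) (nat_lit 2304297131) (nat_lit 0) (nat_lit 8162757029) (nat_lit 836) (nat_lit 15083705206) (nat_lit 122) (nat_lit 5) (nat_lit 121) (nat_lit 5) (nat_lit 132) (nat_lit 5) (nat_lit 381) (nat_lit 374) (nat_lit 265)) (XT.nd (nat_lit 78) (nat_lit 0) (nat_lit 0) (XT.lf (nat_lit 0) (nat_lit 12340837580) (nat_lit 760) (nat_lit 10274898461) (nat_lit 836) (nat_lit 3603373915) (nat_lit 122) (nat_lit 5) (nat_lit 132) (nat_lit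 5) (nat_lit 133) (nat_lit 5) (nat_lit 382) (nat_lit 374) (nat_lit 264)) (XT.lf (nat_lit 76) (nat_lit 3312110200) (nat_lit 0) (nat_lit 11175242251) (nat_lit 836) (nat_lit 12424576991) (nat_lit 123) (nat_lit 5) (nat_lit 122) (nat_lit 5) (nat_lit 133) (nat_lit 5) (nat_lit 383) (nat_lit 374) (nat_lit 263)))) (XT.nd (nat_lit 156) (nat_lit 380) (nat_lit 0) (XT.nd (nat_lit 78) (nat_lit 760) (nat_lit 0) (XT.lf (nat_lit 0) (nat_lit 16924886449) (nat_lit 760) (nat_lit 9716995685) (nat_lit 76) (nat_lit 988326413) (nat_lit 123) (nat_lit 5) (nat_lit 133) (nat_lit 5) (nat_lit 124) (nat_lit 5) (nat_lit 384) (nat_lit 374) (nat_lit 262)) (XT.lf (nat_lit 0) (nat_lit 4825921296) (nat_lit 760) (nat_lit 14910978077) (nat_lit 836) (nat_lit 8634875279) (nat_lit 113) (nat_lit 5) (nat_lit 123) (nat_lit 5) (nat_lit 124) (nat_lit 5) (nat_lit 385) (nat_lit 374) (nat_lit 261))) (XT.nd (nat_lit 78) (nat_lit 380) (nat_lit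 0) (XT.lf (nat_lit 0) (nat_lit 20428115188) (nat_lit 760) (nat_lit 2420216720) (nat_lit 836) (nat_lit 6294149213) (nat_lit 113) (nat_lit 5) (nat_lit 123) (nat_lit 5) (nat_lit 124) (nat_lit 5) (nat_lit 386) (nat_lit 374) (nat_lit 260)) (XT.lf (nat_lit 0) (nat_lit 6907543612) (nat_lit 380) (nat_lit 19477156965) (nat_lit 456) (nat_lit 3553556972) (nat_lit 108) (nat_lit 5) (nat_lit 113) (nat_lit 5) (nat_lit 114) (nat_lit 5) (nat_lit 387) (nat_lit 374) (nat_lit 259))))) (XT.nd (nat_lit 234) (nat_lit 988) (nat_lit 0) (XT.nd (nat_lit 78) (nat_lit 456) (nat_lit 0) (XT.lf (nat_lit 0) (nat_lit 23566932418) (nat_lit 380) (nat_lit 6712290542) (nat_lit 456) (nat_lit 485535803) (nat_lit 108) (nat_lit 5) (nat_lit 113) (nat_lit 5) (nat_lit 114) (nat_lit 5) (nat_lit 388) (nat_lit 374) (nat_lit 258)) (XT.nd (nat_lit 78) (nat_lit 0) (nat_lit 0) (XT.lf (nat_lit 0) (nat_lit 2902120381) (nat_lit 456) (nat_lit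 22041784580) (nat_lit 76) (nat_lit 6673856836) (nat_lit 102) (nat_lit 5) (nat_lit 108) (nat_lit 5) (nat_lit 103) (nat_lit 5) (nat_lit 389) (nat_lit 374) (nat_lit 257)) (XT.lf (nat_lit 0) (nat_lit 6671825143) (nat_lit 456) (nat_lit 5194216111) (nat_lit 76) (nat_lit 20635528956) (nat_lit 102) (nat_lit 5) (nat_lit 108) (nat_lit 5) (nat_lit 103) (nat_lit 5) (nat_lit 390) (nat_lit 374) (nat_lit 256)))) (XT.nd (nat_lit 156) (nat_lit 608) (nat_lit 0) (XT.nd (nat_lit 78) (nat_lit 0) (nat_lit 0) (XT.lf (nat_lit 0) (nat_lit 10859189598) (nat_lit 456) (nat_lit 20548443835) (nat_lit 76) (nat_lit 2010479130) (nat_lit 97) (nat_lit 5) (nat_lit 103) (nat_lit 5) (nat_lit 98) (nat_lit 5) (nat_lit 391) (nat_lit 374) (nat_lit 255)) (XT.lf (nat_lit 0) (nat_lit 15535282237) (nat_lit 456) (nat_lit 2560128941) (nat_lit 76) (nat_lit 16271104995) (nat_lit 97) (nat_lit 5) (nat_lit 103) (nat_lit 5) (nat_lit 98) (nat_lit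 5) (nat_lit 392) (nat_lit 374) (nat_lit 254))) (XT.nd (nat_lit 78) (nat_lit 304) (nat_lit 0) (XT.lf (nat_lit 0) (nat_lit 16862391968) (nat_lit 304) (nat_lit 3841700599) (nat_lit 380) (nat_lit 14645303779) (nat_lit 93) (nat_lit 5) (nat_lit 97) (nat_lit 5) (nat_lit 98) (nat_lit 5) (nat_lit 393) (nat_lit 374) (nat_lit 253)) (XT.lf (nat_lit 0) (nat_lit 812230125) (nat_lit 304) (nat_lit 25545316300) (nat_lit 380) (nat_lit 10012565889) (nat_lit 89) (nat_lit 5) (nat_lit 93) (nat_lit 5) (nat_lit 94) (nat_lit 5) (nat_lit 394) (nat_lit 374) (nat_lit 252)))))) (XT.nd (nat_lit 546) (nat_lit 988) (nat_lit 0) (XT.nd (nat_lit 234) (nat_lit 532) (nat_lit 0) (XT.nd (nat_lit 78) (nat_lit 304) (nat_lit 0) (XT.lf (nat_lit 0) (nat_lit 21648237560) (nat_lit 304) (nat_lit 11016375293) (nat_lit 380) (nat_lit 4758706079) (nat_lit 89) (nat_lit 5) (nat_lit 93) (nat_lit 5) (nat_lit 94) (nat_lit 5) (nat_lit 395) (nat_lit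 374) (nat_lit 251)) (XT.nd (nat_lit 78) (nat_lit 0) (nat_lit 0) (XT.lf (nat_lit 0) (nat_lit 877616751) (nat_lit 304) (nat_lit 33447616323) (nat_lit 76) (nat_lit 4196161582) (nat_lit 85) (nat_lit 5) (nat_lit 89) (nat_lit 5) (nat_lit 86) (nat_lit 5) (nat_lit 396) (nat_lit 374) (nat_lit 250)) (XT.lf (nat_lit 0) (nat_lit 7084087797) (nat_lit 304) (nat_lit 12416202012) (nat_lit 76) (nat_lit 20147772582) (nat_lit 85) (nat_lit 5) (nat_lit 89) (nat_lit 5) (nat_lit 86) (nat_lit 5) (nat_lit 397) (nat_lit 374) (nat_lit 249)))) (XT.nd (nat_lit 156) (nat_lit 228) (nat_lit 0) (XT.nd (nat_lit 78) (nat_lit 0) (nat_lit 0) (XT.lf (nat_lit 0) (nat_lit 9981535959) (nat_lit 304) (nat_lit 3771492090) (nat_lit 380) (nat_lit 27070429701) (nat_lit 81) (nat_lit 5) (nat_lit 85) (nat_lit 5) (nat_lit 86) (nat_lit 5) (nat_lit 398) (nat_lit 374) (nat_lit 248)) (XT.lf (nat_lit 0) (nat_lit 21164495319) (nat_lit 380) (nat_lit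 8324105525) (nat_lit 76) (nat_lit 12548569478) (nat_lit 81) (nat_lit 5) (nat_lit 86) (nat_lit 5) (nat_lit 82) (nat_lit 5) (nat_lit 399) (nat_lit 374) (nat_lit 247))) (XT.nd (nat_lit 78) (nat_lit 0) (nat_lit 0) (XT.lf (nat_lit 0) (nat_lit 15757535261) (nat_lit 228) (nat_lit 13493412392) (nat_lit 304) (nat_lit 14045401661) (nat_lit 78) (nat_lit 5) (nat_lit 81) (nat_lit 5) (nat_lit 82) (nat_lit 5) (nat_lit 400) (nat_lit 374) (nat_lit 246)) (XT.lf (nat_lit 0) (nat_lit 37933192406) (nat_lit 304) (nat_lit 3337698151) (nat_lit 76) (nat_lit 3338024521) (nat_lit 78) (nat_lit 5) (nat_lit 82) (nat_lit 5) (nat_lit 79) (nat_lit 5) (nat_lit 401) (nat_lit 374) (nat_lit 245))))) (XT.nd (nat_lit 234) (nat_lit 456) (nat_lit 0) (XT.nd (nat_lit 78) (nat_lit 228) (nat_lit 0) (XT.lf (nat_lit 0) (nat_lit 1608172710) (nat_lit 304) (nat_lit 23414303905) (nat_lit 76) (nat_lit 20934817462) (nat_lit 74) (nat_lit 5)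 (nat_lit 78) (nat_lit 5) (nat_lit 75) (nat_lit 5) (nat_lit 402) (nat_lit 374) (nat_lit 244)) (XT.nd (nat_lit 78) (nat_lit 0) (nat_lit 0) (XT.lf (nat_lit 0) (nat_lit 2426144287) (nat_lit 228) (nat_lit 7747933481) (nat_lit 304) (nat_lit 37188935339) (nat_lit 71) (nat_lit 5) (nat_lit 74) (nat_lit 5) (nat_lit 75) (nat_lit 5) (nat_lit 403) (nat_lit 374) (nat_lit 243)) (XT.lf (nat_lit 0) (nat_lit 19730427126) (nat_lit 304) (nat_lit 18620937761) (nat_lit 76) (nat_lit 10459546828) (nat_lit 71) (nat_lit 5) (nat_lit 75) (nat_lit 5) (nat_lit 72) (nat_lit 5) (nat_lit 404) (nat_lit 374) (nat_lit 242)))) (XT.nd (nat_lit 156) (nat_lit 228) (nat_lit 0) (XT.nd (nat_lit 78) (nat_lit 0) (nat_lit 0) (XT.lf (nat_lit 0) (nat_lit 9173055180) (nat_lit 228) (nat_lit 20858812763) (nat_lit 304) (nat_lit 20285974639) (nat_lit 68) (nat_lit 5) (nat_lit 71) (nat_lit 5) (nat_lit 72) (nat_lit 5) (nat_lit 405) (nat_lit 374)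 (nat_lit 241)) (XT.lf (nat_lit 0) (nat_lit 38998979850) (nat_lit 228) (nat_lit 2161871736) (nat_lit 304) (nat_lit 10723645845) (nat_lit 68) (nat_lit 5) (nat_lit 71) (nat_lit 5) (nat_lit 72) (nat_lit 5) (nat_lit 406) (nat_lit 374) (nat_lit 240))) (XT.nd (nat_lit 78) (nat_lit 76) (nat_lit 0) (XT.lf (nat_lit 0) (nat_lit 17055689229) (nat_lit 152) (nat_lit 36326869924) (nat_lit 228) (nat_lit 120113066) (nat_lit 66) (nat_lit 5) (nat_lit 68) (nat_lit 5) (nat_lit 69) (nat_lit 5) (nat_lit 407) (nat_lit 374) (nat_lit 239)) (XT.lf (nat_lit 0) (nat_lit 10915588912) (nat_lit 228) (nat_lit 6464688391) (nat_lit 76) (nat_lit 37800156811) (nat_lit 65) (nat_lit 5) (nat_lit 68) (nat_lit 5) (nat_lit 66) (nat_lit 5) (nat_lit 408) (nat_lit 374) (nat_lit 238))))))))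
noncomputable def xc176 : XT := (XT.nd (nat_lit 2106) (nat_lit 1292) (nat_lit 0) (XT.nd (nat_lit 1014) (nat_lit 1064) (nat_lit 0) (XT.nd (nat_lit 468) (nat_lit 684) (nat_lit 0) (XT.nd (nat_lit 234) (nat_lit 380) (nat_lit 0) (XT.nd (nat_lit 78) (nat_lit 152) (nat_lit 0) (XT.lf (nat_lit 0) (nat_lit 22945694532) (nat_lit 304) (nat_lit 31130081289) (nat_lit 76) (nat_lit 2843877880) (nat_lit 62) (nat_lit 5) (nat_lit 66) (nat_lit 5) (nat_lit 63) (nat_lit 5) (nat_lit 409) (nat_lit 374) (nat_lit 237)) (XT.nd (nat_lit 78) (nat_lit 0) (nat_lit 0) (XT.lf (nat_lit 0) (nat_lit 877980530) (nat_lit 152) (nat_lit 35106661123) (nat_lit 228) (nat_lit 22740826568) (nat_lit 60) (nat_lit 5) (nat_lit 62) (nat_lit 5) (nat_lit 63) (nat_lit 5) (nat_lit 410) (nat_lit 374) (nat_lit 236)) (XT.lf (nat_lit 0) (nat_lit 35563248087) (nat_lit 152) (nat_lit 14636980088) (nat_lit 228) (nat_lit 10395111421) (nat_lit 60) (nat_lit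 5) (nat_lit 62) (nat_lit 5) (nat_lit 63) (nat_lit 5) (nat_lit 411) (nat_lit 374) (nat_lit 235)))) (XT.nd (nat_lit 78) (nat_lit 152) (nat_lit 0) (XT.lf (nat_lit 0) (nat_lit 2744721566) (nat_lit 228) (nat_lit 52969140932) (nat_lit 76) (nat_lit 6829887077) (nat_lit 57) (nat_lit 5) (nat_lit 60) (nat_lit 5) (nat_lit 58) (nat_lit 5) (nat_lit 412) (nat_lit 374) (nat_lit 234)) (XT.nd (nat_lit 78) (nat_lit 152) (nat_lit 0) (XT.lf (nat_lit 0) (nat_lit 16860636190) (nat_lit 228) (nat_lit 18208884684) (nat_lit 76) (nat_lit 29478117531) (nat_lit 57) (nat_lit 5) (nat_lit 60) (nat_lit 5) (nat_lit 58) (nat_lit 5) (nat_lit 413) (nat_lit 374) (nat_lit 233)) (XT.lf (nat_lit 0) (nat_lit 18890285957) (nat_lit 152) (nat_lit 13084708169) (nat_lit 228) (nat_lit 34662095775) (nat_lit 55) (nat_lit 5) (nat_lit 57) (nat_lit 5) (nat_lit 58) (nat_lit 5) (nat_lit 414) (nat_lit 374) (nat_lit 232))))) (XT.nd (nat_lit 234)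 (nat_lit 456) (nat_lit 0) (XT.nd (nat_lit 78) (nat_lit 228) (nat_lit 0) (XT.lf (nat_lit 0) (nat_lit 48312366347) (nat_lit 228) (nat_lit 10503917622) (nat_lit 76) (nat_lit 9991365753) (nat_lit 55) (nat_lit 5) (nat_lit 58) (nat_lit 5) (nat_lit 56) (nat_lit 5) (nat_lit 415) (nat_lit 374) (nat_lit 231)) (XT.nd (nat_lit 78) (nat_lit 76) (nat_lit 0) (XT.lf (nat_lit 0) (nat_lit 29321523564) (nat_lit 152) (nat_lit 36815232438) (nat_lit 228) (nat_lit 4916474636) (nat_lit 53) (nat_lit 5) (nat_lit 55) (nat_lit 5) (nat_lit 56) (nat_lit 5) (nat_lit 416) (nat_lit 374) (nat_lit 230)) (XT.lf (nat_lit 0) (nat_lit 11253754320) (nat_lit 228) (nat_lit 2084405164) (nat_lit 76) (nat_lit 60055066492) (nat_lit 52) (nat_lit 5) (nat_lit 55) (nat_lit 5) (nat_lit 53) (nat_lit 5) (nat_lit 417) (nat_lit 374) (nat_lit 229)))) (XT.nd (nat_lit 156) (nat_lit 152) (nat_lit 0) (XT.nd (nat_lit 78) (nat_lit 152) (nat_lit 0) (XT.lf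 (nat_lit 0) (nat_lit 28890067225) (nat_lit 228) (nat_lit 35236797520) (nat_lit 76) (nat_lit 11678186996) (nat_lit 50) (nat_lit 5) (nat_lit 53) (nat_lit 5) (nat_lit 51) (nat_lit 5) (nat_lit 418) (nat_lit 374) (nat_lit 228)) (XT.lf (nat_lit 0) (nat_lit 7094618508) (nat_lit 152) (nat_lit 40676873322) (nat_lit 228) (nat_lit 30547812609) (nat_lit 48) (nat_lit 5) (nat_lit 50) (nat_lit 5) (nat_lit 51) (nat_lit 5) (nat_lit 419) (nat_lit 374) (nat_lit 227))) (XT.nd (nat_lit 78) (nat_lit 152) (nat_lit 0) (XT.lf (nat_lit 0) (nat_lit 52762577439) (nat_lit 152) (nat_lit 15429197181) (nat_lit 228) (nat_lit 12737756231) (nat_lit 48) (nat_lit 5) (nat_lit 50) (nat_lit 5) (nat_lit 51) (nat_lit 5) (nat_lit 420) (nat_lit 374) (nat_lit 226)) (XT.lf (nat_lit 0) (nat_lit 6222385915) (nat_lit 152) (nat_lit 66323380200) (nat_lit 76) (nat_lit 11097326559) (nat_lit 46) (nat_lit 5) (nat_lit 48) (nat_lit 5) (nat_lit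 47) (nat_lit 5) (nat_lit 421) (nat_lit 374) (nat_lit 225)))))) (XT.nd (nat_lit 546) (nat_lit 532) (nat_lit 0) (XT.nd (nat_lit 234) (nat_lit 380) (nat_lit 0) (XT.nd (nat_lit 78) (nat_lit 152) (nat_lit 0) (XT.lf (nat_lit 0) (nat_lit 26438358077) (nat_lit 152) (nat_lit 20882742491) (nat_lit 76) (nat_lit 39123996852) (nat_lit 46) (nat_lit 5) (nat_lit 48) (nat_lit 5) (nat_lit 47) (nat_lit 5) (nat_lit 422) (nat_lit 374) (nat_lit 224)) (XT.nd (nat_lit 78) (nat_lit 0) (nat_lit 0) (XT.lf (nat_lit 0) (nat_lit 27713806484) (nat_lit 152) (nat_lit 20382218632) (nat_lit 228) (nat_lit 41269632826) (nat_lit 44) (nat_lit 5) (nat_lit 46) (nat_lit 5) (nat_lit 47) (nat_lit 5) (nat_lit 423) (nat_lit 374) (nat_lit 223)) (XT.lf (nat_lit 0) (nat_lit 71317652614) (nat_lit 228) (nat_lit 13081726465) (nat_lit 76) (nat_lit 8008813890) (nat_lit 44) (nat_lit 5) (nat_lit 47) (nat_lit 5) (nat_lit 45) (nat_lit 4) (nat_lit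 424) (nat_lit 374) (nat_lit 222)))) (XT.nd (nat_lit 156) (nat_lit 228) (nat_lit 0) (XT.nd (nat_lit 78) (nat_lit 0) (nat_lit 0) (XT.lf (nat_lit 0) (nat_lit 1048339213) (nat_lit 152) (nat_lit 56750510763) (nat_lit 76) (nat_lit 37756231292) (nat_lit 42) (nat_lit 5) (nat_lit 44) (nat_lit 5) (nat_lit 43) (nat_lit 5) (nat_lit 425) (nat_lit 374) (nat_lit 221)) (XT.lf (nat_lit 0) (nat_lit 23808873818) (nat_lit 152) (nat_lit 5461274691) (nat_lit 76) (nat_lit 69560703859) (nat_lit 42) (nat_lit 5) (nat_lit 44) (nat_lit 5) (nat_lit 43) (nat_lit 5) (nat_lit 426) (nat_lit 374) (nat_lit 220))) (XT.nd (nat_lit 78) (nat_lit 76) (nat_lit 0) (XT.lf (nat_lit 0) (nat_lit 48509775994) (nat_lit 228) (nat_lit 52265404394) (nat_lit 76) (nat_lit 1455114868) (nat_lit 40) (nat_lit 5) (nat_lit 43) (nat_lit 5) (nat_lit 41) (nat_lit 4) (nat_lit 427) (nat_lit 374) (nat_lit 219)) (XT.lf (nat_lit 0) (nat_lit 2141178633) (nat_lit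 76) (nat_lit 72910225964) (nat_lit 152) (nat_lit 30718021886) (nat_lit 39) (nat_lit 5) (nat_lit 40) (nat_lit 5) (nat_lit 41) (nat_lit 4) (nat_lit 428) (nat_lit 374) (nat_lit 218))))) (XT.nd (nat_lit 234) (nat_lit 304) (nat_lit 0) (XT.nd (nat_lit 78) (nat_lit 228) (nat_lit 0) (XT.lf (nat_lit 0) (nat_lit 61079794349) (nat_lit 76) (nat_lit 42723899267) (nat_lit 152) (nat_lit 5637641957) (nat_lit 39) (nat_lit 5) (nat_lit 40) (nat_lit 5) (nat_lit 41) (nat_lit 4) (nat_lit 429) (nat_lit 374) (nat_lit 217)) (XT.nd (nat_lit 78) (nat_lit 0) (nat_lit 0) (XT.lf (nat_lit 0) (nat_lit 9651526929) (nat_lit 152) (nat_lit 10531980744) (nat_lit 228) (nat_lit 93089717143) (nat_lit 36) (nat_lit 5) (nat_lit 38) (nat_lit 5) (nat_lit 39) (nat_lit 5) (nat_lit 430) (nat_lit 374) (nat_lit 216)) (XT.lf (nat_lit 0) (nat_lit 48300507894) (nat_lit 228) (nat_lit 45483414295) (nat_lit 76) (nat_lit 23448452788) (nat_lit 36)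 (nat_lit 5) (nat_lit 39) (nat_lit 5) (nat_lit 37) (nat_lit 4) (nat_lit 431) (nat_lit 374) (nat_lit 215)))) (XT.nd (nat_lit 156) (nat_lit 228) (nat_lit 0) (XT.nd (nat_lit 78) (nat_lit 0) (nat_lit 0) (XT.lf (nat_lit 0) (nat_lit 15895247208) (nat_lit 76) (nat_lit 62347506599) (nat_lit 152) (nat_lit 43125759260) (nat_lit 35) (nat_lit 5) (nat_lit 36) (nat_lit 5) (nat_lit 37) (nat_lit 4) (nat_lit 432) (nat_lit 374) (nat_lit 214)) (XT.lf (nat_lit 0) (nat_lit 81919337589) (nat_lit 76) (nat_lit 28531656645) (nat_lit 152) (nat_lit 15222019912) (nat_lit 35) (nat_lit 5) (nat_lit 36) (nat_lit 5) (nat_lit 37) (nat_lit 4) (nat_lit 433) (nat_lit 374) (nat_lit 213))) (XT.nd (nat_lit 78) (nat_lit 0) (nat_lit 0) (XT.lf (nat_lit 0) (nat_lit 14078953736) (nat_lit 228) (nat_lit 108764687349) (nat_lit 76) (nat_lit 7315480561) (nat_lit 32) (nat_lit 5) (nat_lit 35) (nat_lit 5) (nat_lit 33) (nat_lit 4) (nat_lit 434)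 (nat_lit 374) (nat_lit 212)) (XT.lf (nat_lit 0) (nat_lit 45552937120) (nat_lit 228) (nat_lit 44245442311) (nat_lit 76) (nat_lit 44997702156) (nat_lit 32) (nat_lit 5) (nat_lit 35) (nat_lit 5) (nat_lit 33) (nat_lit 4) (nat_lit 435) (nat_lit 374) (nat_lit 211))))))) (XT.nd (nat_lit 1014) (nat_lit 608) (nat_lit 0) (XT.nd (nat_lit 468) (nat_lit 380) (nat_lit 0) (XT.nd (nat_lit 234) (nat_lit 76) (nat_lit 0) (XT.nd (nat_lit 78) (nat_lit 152) (nat_lit 0) (XT.lf (nat_lit 0) (nat_lit 24274297854) (nat_lit 76) (nat_lit 54704027453) (nat_lit 152) (nat_lit 60667679097) (nat_lit 31) (nat_lit 5) (nat_lit 32) (nat_lit 5) (nat_lit 33) (nat_lit 4) (nat_lit 436) (nat_lit 374) (nat_lit 210)) (XT.nd (nat_lit 78) (nat_lit 152) (nat_lit 0) (XT.lf (nat_lit 0) (nat_lit 97753769276) (nat_lit 76) (nat_lit 17069271763) (nat_lit 152) (nat_lit 29877979571) (nat_lit 31) (nat_lit 5) (nat_lit 32) (nat_lit 5) (nat_lit 33)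 (nat_lit 4) (nat_lit 437) (nat_lit 374) (nat_lit 209)) (XT.lf (nat_lit 0) (nat_lit 3130112255) (nat_lit 152) (nat_lit 124664751894) (nat_lit 76) (nat_lit 22174142046) (nat_lit 29) (nat_lit 5) (nat_lit 31) (nat_lit 5) (nat_lit 30) (nat_lit 4) (nat_lit 438) (nat_lit 374) (nat_lit 208)))) (XT.nd (nat_lit 78) (nat_lit 76) (nat_lit 0) (XT.lf (nat_lit 0) (nat_lit 37871232070) (nat_lit 152) (nat_lit 53447353113) (nat_lit 76) (nat_lit 64102979892) (nat_lit 29) (nat_lit 5) (nat_lit 31) (nat_lit 5) (nat_lit 30) (nat_lit 4) (nat_lit 439) (nat_lit 374) (nat_lit 207)) (XT.nd (nat_lit 78) (nat_lit 0) (nat_lit 0) (XT.lf (nat_lit 0) (nat_lit 22033956513) (nat_lit 76) (nat_lit 52658307820) (nat_lit 152) (nat_lit 86437344868) (nat_lit 28) (nat_lit 5) (nat_lit 29) (nat_lit 5) (nat_lit 30) (nat_lit 4) (nat_lit 440) (nat_lit 374) (nat_lit 206)) (XT.lf (nat_lit 0) (nat_lit 103142754942) (nat_lit 76) (nat_lit 11115616180)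 (nat_lit 152) (nat_lit 52819483386) (nat_lit 28) (nat_lit 5) (nat_lit 29) (nat_lit 5) (nat_lit 30) (nat_lit 4) (nat_lit 441) (nat_lit 374) (nat_lit 205))))) (XT.nd (nat_lit 234) (nat_lit 152) (nat_lit 0) (XT.nd (nat_lit 78) (nat_lit 152) (nat_lit 0) (XT.lf (nat_lit 0) (nat_lit 14952487551) (nat_lit 76) (nat_lit 141590132784) (nat_lit 76) (nat_lit 16743900004) (nat_lit 27) (nat_lit 4) (nat_lit 28) (nat_lit 5) (nat_lit 28) (nat_lit 4) (nat_lit 442) (nat_lit 374) (nat_lit 204)) (XT.nd (nat_lit 78) (nat_lit 76) (nat_lit 0) (XT.lf (nat_lit 0) (nat_lit 21740648602) (nat_lit 152) (nat_lit 80279389368) (nat_lit 76) (nat_lit 77704999765) (nat_lit 26) (nat_lit 5) (nat_lit 28) (nat_lit 5) (nat_lit 27) (nat_lit 4) (nat_lit 443) (nat_lit 374) (nat_lit 203)) (XT.lf (nat_lit 0) (nat_lit 1447848213) (nat_lit 76) (nat_lit 60160436014) (nat_lit 152) (nat_lit 124862394142) (nat_lit 25) (nat_lit 5) (nat_lit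 26) (nat_lit 5) (nat_lit 27) (nat_lit 4) (nat_lit 444) (nat_lit 374) (nat_lit 202)))) (XT.nd (nat_lit 156) (nat_lit 152) (nat_lit 0) (XT.nd (nat_lit 78) (nat_lit 0) (nat_lit 0) (XT.lf (nat_lit 0) (nat_lit 90046610831) (nat_lit 76) (nat_lit 14781239574) (nat_lit 152) (nat_lit 88657823285) (nat_lit 25) (nat_lit 5) (nat_lit 26) (nat_lit 5) (nat_lit 27) (nat_lit 4) (nat_lit 445) (nat_lit 374) (nat_lit 201)) (XT.lf (nat_lit 0) (nat_lit 150720552790) (nat_lit 152) (nat_lit 18291149541) (nat_lit 0) (nat_lit 31814108641) (nat_lit 25) (nat_lit 5) (nat_lit 27) (nat_lit 4) (nat_lit 25) (nat_lit 4) (nat_lit 446) (nat_lit 374) (nat_lit 200))) (XT.nd (nat_lit 78) (nat_lit 76) (nat_lit 0) (XT.lf (nat_lit 0) (nat_lit 73213320213) (nat_lit 76) (nat_lit 127079010798) (nat_lit 76) (nat_lit 8171402156) (nat_lit 24) (nat_lit 4) (nat_lit 25) (nat_lit 5) (nat_lit 25) (nat_lit 4) (nat_lit 447) (nat_lit 374) (nat_lit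 199)) (XT.lf (nat_lit 0) (nat_lit 35025339680) (nat_lit 152) (nat_lit 47106771339) (nat_lit 76) (nat_lit 134307751960) (nat_lit 23) (nat_lit 5) (nat_lit 25) (nat_lit 5) (nat_lit 24) (nat_lit 4) (nat_lit 448) (nat_lit 374) (nat_lit 198)))))) (XT.nd (nat_lit 546) (nat_lit 304) (nat_lit 0) (XT.nd (nat_lit 234) (nat_lit 152) (nat_lit 0) (XT.nd (nat_lit 78) (nat_lit 76) (nat_lit 0) (XT.lf (nat_lit 0) (nat_lit 46806471250) (nat_lit 76) (nat_lit 34030721513) (nat_lit 152) (nat_lit 143934414379) (nat_lit 22) (nat_lit 5) (nat_lit 23) (nat_lit 5) (nat_lit 24) (nat_lit 4) (nat_lit 449) (nat_lit 374) (nat_lit 197)) (XT.nd (nat_lit 78) (nat_lit 76) (nat_lit 0) (XT.lf (nat_lit 0) (nat_lit 130006835155) (nat_lit 152) (nat_lit 86701270203) (nat_lit 0) (nat_lit 16758473393) (nat_lit 22) (nat_lit 5) (nat_lit 24) (nat_lit 4) (nat_lit 22) (nat_lit 4) (nat_lit 450) (nat_lit 374) (nat_lit 196)) (XT.lf (nat_lit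 0) (nat_lit 8849503214) (nat_lit 76) (nat_lit 173480655019) (nat_lit 76) (nat_lit 60231380846) (nat_lit 21) (nat_lit 4) (nat_lit 22) (nat_lit 5) (nat_lit 22) (nat_lit 4) (nat_lit 451) (nat_lit 374) (nat_lit 195)))) (XT.nd (nat_lit 156) (nat_lit 76) (nat_lit 0) (XT.nd (nat_lit 78) (nat_lit 76) (nat_lit 0) (XT.lf (nat_lit 0) (nat_lit 112186269902) (nat_lit 76) (nat_lit 126550872975) (nat_lit 76) (nat_lit 13300729838) (nat_lit 21) (nat_lit 4) (nat_lit 22) (nat_lit 5) (nat_lit 22) (nat_lit 4) (nat_lit 452) (nat_lit 374) (nat_lit 194)) (XT.lf (nat_lit 0) (nat_lit 34824176559) (nat_lit 152) (nat_lit 41861408774) (nat_lit 76) (nat_lit 185274393394) (nat_lit 20) (nat_lit 5) (nat_lit 22) (nat_lit 5) (nat_lit 21) (nat_lit 4) (nat_lit 453) (nat_lit 374) (nat_lit 193))) (XT.nd (nat_lit 78) (nat_lit 0) (nat_lit 0) (XT.lf (nat_lit 0) (nat_lit 62819369598) (nat_lit 76) (nat_lit 23068985764) (nat_lit 152)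 (nat_lit 186429931552) (nat_lit 19) (nat_lit 5) (nat_lit 20) (nat_lit 5) (nat_lit 21) (nat_lit 4) (nat_lit 454) (nat_lit 374) (nat_lit 192)) (XT.lf (nat_lit 0) (nat_lit 140744332349) (nat_lit 152) (nat_lit 109503449299) (nat_lit 0) (nat_lit 32884799454) (nat_lit 19) (nat_lit 5) (nat_lit 21) (nat_lit 4) (nat_lit 19) (nat_lit 4) (nat_lit 455) (nat_lit 374) (nat_lit 191))))) (XT.nd (nat_lit 234) (nat_lit 152) (nat_lit 0) (XT.nd (nat_lit 78) (nat_lit 152) (nat_lit 0) (XT.lf (nat_lit 0) (nat_lit 198720559592) (nat_lit 152) (nat_lit 4887812046) (nat_lit 0) (nat_lit 90860345841) (nat_lit 19) (nat_lit 5) (nat_lit 21) (nat_lit 4) (nat_lit 19) (nat_lit 4) (nat_lit 456) (nat_lit 374) (nat_lit 190)) (XT.nd (nat_lit 78) (nat_lit 76) (nat_lit 0) (XT.lf (nat_lit 0) (nat_lit 108427611524) (nat_lit 76) (nat_lit 152860151569) (nat_lit 76) (nat_lit 44999289384) (nat_lit 18) (nat_lit 4) (nat_lit 19) (nat_lit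 5) (nat_lit 19) (nat_lit 4) (nat_lit 457) (nat_lit 374) (nat_lit 189)) (XT.lf (nat_lit 0) (nat_lit 8105227543) (nat_lit 152) (nat_lit 91245763276) (nat_lit 76) (nat_lit 219334672193) (nat_lit 17) (nat_lit 5) (nat_lit 19) (nat_lit 5) (nat_lit 18) (nat_lit 4) (nat_lit 458) (nat_lit 374) (nat_lit 188)))) (XT.nd (nat_lit 156) (nat_lit 76) (nat_lit 0) (XT.nd (nat_lit 78) (nat_lit 0) (nat_lit 0) (XT.lf (nat_lit 0) (nat_lit 20619567236) (nat_lit 76) (nat_lit 42054401117) (nat_lit 152) (nat_lit 268977287637) (nat_lit 16) (nat_lit 5) (nat_lit 17) (nat_lit 5) (nat_lit 18) (nat_lit 4) (nat_lit 459) (nat_lit 374) (nat_lit 187)) (XT.lf (nat_lit 0) (nat_lit 121823813139) (nat_lit 152) (nat_lit 204251181443) (nat_lit 0) (nat_lit 19097500728) (nat_lit 16) (nat_lit 5) (nat_lit 18) (nat_lit 4) (nat_lit 16) (nat_lit 4) (nat_lit 460) (nat_lit 374) (nat_lit 186))) (XT.nd (nat_lit 78) (nat_lit 76) (nat_lit 0)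 (XT.lf (nat_lit 0) (nat_lit 184619939758) (nat_lit 152) (nat_lit 92822298111) (nat_lit 0) (nat_lit 81893119282) (nat_lit 16) (nat_lit 5) (nat_lit 18) (nat_lit 4) (nat_lit 16) (nat_lit 4) (nat_lit 461) (nat_lit 374) (nat_lit 185)) (XT.lf (nat_lit 0) (nat_lit 24976251180) (nat_lit 76) (nat_lit 225968973837) (nat_lit 76) (nat_lit 123241669489) (nat_lit 15) (nat_lit 4) (nat_lit 16) (nat_lit 5) (nat_lit 16) (nat_lit 4) (nat_lit 462) (nat_lit 374) (nat_lit 184))))))))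
noncomputable def xc177 : XT := (XT.nd (nat_lit 47112) (nat_lit 0) (nat_lit 3876) (XT.nd (nat_lit 1014) (nat_lit 76) (nat_lit 0) (XT.nd (nat_lit 468) (nat_lit 228) (nat_lit 0) (XT.nd (nat_lit 234) (nat_lit 0) (nat_lit 0) (XT.nd (nat_lit 78) (nat_lit 152) (nat_lit 0) (XT.lf (nat_lit 0) (nat_lit 151886153246) (nat_lit 76) (nat_lit 170272025248) (nat_lit 76) (nat_lit 67544260071) (nat_lit 15) (nat_lit 4) (nat_lit 16) (nat_lit 5) (nat_lit 16) (nat_lit 4) (nat_lit 463) (nat_lit 374) (nat_lit 183)) (XT.nd (nat_lit 78) (nat_lit 152) (nat_lit 0) (XT.lf (nat_lit 0) (nat_lit 285140450144) (nat_lit 76) (nat_lit 111790770855) (nat_lit 76) (nat_lit 9062566792) (nat_lit 15) (nat_lit 4) (nat_lit 16) (nat_lit 5) (nat_lit 16) (nat_lit 4) (nat_lit 464) (nat_lit 374) (nat_lit 182)) (XT.lf (nat_lit 0) (nat_lit 1177143342) (nat_lit 76) (nat_lit 49508595872) (nat_lit 152) (nat_lit 372372212196) (nat_lit 13) (nat_lit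 5) (nat_lit 14) (nat_lit 5) (nat_lit 15) (nat_lit 4) (nat_lit 465) (nat_lit 374) (nat_lit 181)))) (XT.nd (nat_lit 78) (nat_lit 0) (nat_lit 0) (XT.lf (nat_lit 0) (nat_lit 115444673065) (nat_lit 152) (nat_lit 307799322095) (nat_lit 0) (nat_lit 17607511035) (nat_lit 13) (nat_lit 5) (nat_lit 15) (nat_lit 4) (nat_lit 13) (nat_lit 4) (nat_lit 466) (nat_lit 374) (nat_lit 180)) (XT.nd (nat_lit 78) (nat_lit 0) (nat_lit 0) (XT.lf (nat_lit 0) (nat_lit 184252656134) (nat_lit 152) (nat_lit 188826394453) (nat_lit 0) (nat_lit 86415133031) (nat_lit 13) (nat_lit 5) (nat_lit 15) (nat_lit 4) (nat_lit 13) (nat_lit 4) (nat_lit 467) (nat_lit 374) (nat_lit 179)) (XT.lf (nat_lit 0) (nat_lit 256500549023) (nat_lit 152) (nat_lit 63905788340) (nat_lit 0) (nat_lit 158662682042) (nat_lit 13) (nat_lit 5) (nat_lit 15) (nat_lit 4) (nat_lit 13) (nat_lit 4) (nat_lit 468) (nat_lit 374) (nat_lit 178))))) (XT.nd (nat_lit 234)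 (nat_lit 152) (nat_lit 0) (XT.nd (nat_lit 78) (nat_lit 0) (nat_lit 0) (XT.lf (nat_lit 0) (nat_lit 69483843176) (nat_lit 76) (nat_lit 263961364869) (nat_lit 76) (nat_lit 166123170385) (nat_lit 12) (nat_lit 4) (nat_lit 13) (nat_lit 5) (nat_lit 13) (nat_lit 4) (nat_lit 469) (nat_lit 374) (nat_lit 177)) (XT.nd (nat_lit 78) (nat_lit 0) (nat_lit 0) (XT.lf (nat_lit 0) (nat_lit 211760713986) (nat_lit 76) (nat_lit 203558203482) (nat_lit 76) (nat_lit 105719697090) (nat_lit 12) (nat_lit 4) (nat_lit 13) (nat_lit 5) (nat_lit 13) (nat_lit 4) (nat_lit 470) (nat_lit 374) (nat_lit 176)) (XT.lf (nat_lit 0) (nat_lit 361150564574) (nat_lit 76) (nat_lit 140135311598) (nat_lit 76) (nat_lit 42296508151) (nat_lit 12) (nat_lit 4) (nat_lit 13) (nat_lit 5) (nat_lit 13) (nat_lit 4) (nat_lit 471) (nat_lit 374) (nat_lit 175)))) (XT.nd (nat_lit 156) (nat_lit 0) (nat_lit 0) (XT.nd (nat_lit 78) (nat_lit 76) (nat_lit 0) (XT.lf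 (nat_lit 0) (nat_lit 23519735354) (nat_lit 152) (nat_lit 49623628879) (nat_lit 76) (nat_lit 494091031607) (nat_lit 11) (nat_lit 5) (nat_lit 13) (nat_lit 5) (nat_lit 12) (nat_lit 4) (nat_lit 472) (nat_lit 374) (nat_lit 174)) (XT.lf (nat_lit 0) (nat_lit 92077855804) (nat_lit 76) (nat_lit 564686438) (nat_lit 152) (nat_lit 499319936878) (nat_lit 10) (nat_lit 5) (nat_lit 11) (nat_lit 5) (nat_lit 12) (nat_lit 4) (nat_lit 473) (nat_lit 374) (nat_lit 173))) (XT.nd (nat_lit 78) (nat_lit 0) (nat_lit 0) (XT.lf (nat_lit 0) (nat_lit 167256263446) (nat_lit 152) (nat_lit 376493284231) (nat_lit 0) (nat_lit 74075680207) (nat_lit 10) (nat_lit 5) (nat_lit 12) (nat_lit 4) (nat_lit 10) (nat_lit 4) (nat_lit 474) (nat_lit 374) (nat_lit 172)) (XT.lf (nat_lit 0) (nat_lit 245609545675) (nat_lit 152) (nat_lit 246942394996) (nat_lit 0) (nat_lit 152428729684) (nat_lit 10) (nat_lit 5) (nat_lit 12) (nat_lit 4) (nat_lit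 10) (nat_lit 4) (nat_lit 475) (nat_lit 374) (nat_lit 171)))))) (XT.nd (nat_lit 45552) (nat_lit 0) (nat_lit 8436) (XT.nd (nat_lit 45240) (nat_lit 0) (nat_lit 8284) (XT.nd (nat_lit 78) (nat_lit 76) (nat_lit 0) (XT.lf (nat_lit 0) (nat_lit 327880128023) (nat_lit 152) (nat_lit 110914684777) (nat_lit 0) (nat_lit 234699090366) (nat_lit 10) (nat_lit 5) (nat_lit 12) (nat_lit 4) (nat_lit 10) (nat_lit 4) (nat_lit 476) (nat_lit 374) (nat_lit 170)) (XT.nd (nat_lit 78) (nat_lit 0) (nat_lit 0) (XT.lf (nat_lit 0) (nat_lit 32968933700) (nat_lit 76) (nat_lit 381809696580) (nat_lit 76) (nat_lit 288628447812) (nat_lit 9) (nat_lit 4) (nat_lit 10) (nat_lit 5) (nat_lit 10) (nat_lit 4) (nat_lit 477) (nat_lit 374) (nat_lit 169)) (XT.lf (nat_lit 0) (nat_lit 187896762593) (nat_lit 76) (nat_lit 320003348179) (nat_lit 76) (nat_lit 226821898352) (nat_lit 9) (nat_lit 4) (nat_lit 10) (nat_lit 5) (nat_lit 10) (nat_lit 4)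 (nat_lit 478) (nat_lit 374) (nat_lit 168)))) (XT.nd (nat_lit 156) (nat_lit 0) (nat_lit 76) (XT.nd (nat_lit 78) (nat_lit 0) (nat_lit 0) (XT.lf (nat_lit 0) (nat_lit 2270438684) (nat_lit 836) (nat_lit 4494982580) (nat_lit 836) (nat_lit 4494982580) (nat_lit 118) (nat_lit 3) (nat_lit 129) (nat_lit 3) (nat_lit 129) (nat_lit 5) (nat_lit 375) (nat_lit 375) (nat_lit 270)) (XT.lf (nat_lit 76) (nat_lit 2017058724) (nat_lit 0) (nat_lit 2795683891) (nat_lit 836) (nat_lit 18263098717) (nat_lit 119) (nat_lit 5) (nat_lit 118) (nat_lit 3) (nat_lit 129) (nat_lit 5) (nat_lit 376) (nat_lit 375) (nat_lit 269))) (XT.nd (nat_lit 78) (nat_lit 0) (nat_lit 0) (XT.lf (nat_lit 0) (nat_lit 5377154363) (nat_lit 760) (nat_lit 9904181963) (nat_lit 836) (nat_lit 8363347112) (nat_lit 119) (nat_lit 5) (nat_lit 129) (nat_lit 5) (nat_lit 130) (nat_lit 5) (nat_lit 377) (nat_lit 375) (nat_lit 268)) (XT.lf (nat_lit 76) (nat_lit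 1815787485) (nat_lit 0) (nat_lit 4220436952) (nat_lit 836) (nat_lit 18202425556) (nat_lit 120) (nat_lit 5) (nat_lit 119) (nat_lit 5) (nat_lit 130) (nat_lit 5) (nat_lit 378) (nat_lit 375) (nat_lit 267))))) (XT.nd (nat_lit 234) (nat_lit 0) (nat_lit 76) (XT.nd (nat_lit 78) (nat_lit 0) (nat_lit 0) (XT.lf (nat_lit 0) (nat_lit 7006762711) (nat_lit 760) (nat_lit 10511498200) (nat_lit 836) (nat_lit 7330132258) (nat_lit 120) (nat_lit 5) (nat_lit 130) (nat_lit 5) (nat_lit 131) (nat_lit 5) (nat_lit 379) (nat_lit 375) (nat_lit 266)) (XT.nd (nat_lit 78) (nat_lit 0) (nat_lit 76) (XT.lf (nat_lit 76) (nat_lit 1985024691) (nat_lit 0) (nat_lit 6133934404) (nat_lit 836) (nat_lit 17365011686) (nat_lit 121) (nat_lit 5) (nat_lit 120) (nat_lit 5) (nat_lit 131) (nat_lit 5) (nat_lit 380) (nat_lit 375) (nat_lit 265)) (XT.lf (nat_lit 0) (nat_lit 9551808701) (nat_lit 760) (nat_lit 10769950364) (nat_lit 836) (nat_lit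 5816319692) (nat_lit 121) (nat_lit 5) (nat_lit 131) (nat_lit 5) (nat_lit 132) (nat_lit 5) (nat_lit 381) (nat_lit 375) (nat_lit 264)))) (XT.nd (nat_lit 156) (nat_lit 0) (nat_lit 76) (XT.nd (nat_lit 78) (nat_lit 0) (nat_lit 76) (XT.lf (nat_lit 76) (nat_lit 2572459864) (nat_lit 0) (nat_lit 8618129466) (nat_lit 836) (nat_lit 15627591854) (nat_lit 122) (nat_lit 5) (nat_lit 121) (nat_lit 5) (nat_lit 132) (nat_lit 5) (nat_lit 382) (nat_lit 375) (nat_lit 263)) (XT.lf (nat_lit 0) (nat_lit 13147827076) (nat_lit 760) (nat_lit 10632641965) (nat_lit 836) (nat_lit 3739997102) (nat_lit 122) (nat_lit 5) (nat_lit 132) (nat_lit 5) (nat_lit 133) (nat_lit 5) (nat_lit 383) (nat_lit 375) (nat_lit 262))) (XT.nd (nat_lit 78) (nat_lit 0) (nat_lit 76) (XT.lf (nat_lit 76) (nat_lit 3631200978) (nat_lit 0) (nat_lit 11763817922) (nat_lit 836) (nat_lit 12853244995) (nat_lit 123) (nat_lit 5) (nat_lit 122) (nat_lit 5) (nat_lit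 133) (nat_lit 5) (nat_lit 384) (nat_lit 375) (nat_lit 261)) (XT.lf (nat_lit 0) (nat_lit 17945257775) (nat_lit 760) (nat_lit 10047404746) (nat_lit 76) (nat_lit 1010257648) (nat_lit 123) (nat_lit 5) (nat_lit 133) (nat_lit 5) (nat_lit 124) (nat_lit 5) (nat_lit 385) (nat_lit 375) (nat_lit 260))))))) (XT.nd (nat_lit 1014) (nat_lit 1900) (nat_lit 0) (XT.nd (nat_lit 468) (nat_lit 1292) (nat_lit 0) (XT.nd (nat_lit 234) (nat_lit 456) (nat_lit 0) (XT.nd (nat_lit 78) (nat_lit 380) (nat_lit 0) (XT.lf (nat_lit 0) (nat_lit 5220150975) (nat_lit 760) (nat_lit 15671816330) (nat_lit 836) (nat_lit 8889896879) (nat_lit 113) (nat_lit 5) (nat_lit 123) (nat_lit 5) (nat_lit 124) (nat_lit 5) (nat_lit 386) (nat_lit 375) (nat_lit 259)) (XT.nd (nat_lit 78) (nat_lit 380) (nat_lit 0) (XT.lf (nat_lit 0) (nat_lit 21595172009) (nat_lit 760) (nat_lit 2555788841) (nat_lit 836) (nat_lit 6440549851) (nat_lit 113) (nat_lit 5)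 (nat_lit 123) (nat_lit 5) (nat_lit 124) (nat_lit 5) (nat_lit 387) (nat_lit 375) (nat_lit 258)) (XT.lf (nat_lit 0) (nat_lit 7404410239) (nat_lit 380) (nat_lit 20454257213) (nat_lit 456) (nat_lit 3568686517) (nat_lit 108) (nat_lit 5) (nat_lit 113) (nat_lit 5) (nat_lit 114) (nat_lit 5) (nat_lit 388) (nat_lit 375) (nat_lit 257)))) (XT.nd (nat_lit 78) (nat_lit 456) (nat_lit 0) (XT.lf (nat_lit 0) (nat_lit 24889554702) (nat_lit 380) (nat_lit 7050993068) (nat_lit 456) (nat_lit 355004686) (nat_lit 108) (nat_lit 5) (nat_lit 113) (nat_lit 5) (nat_lit 114) (nat_lit 5) (nat_lit 389) (nat_lit 375) (nat_lit 256)) (XT.nd (nat_lit 78) (nat_lit 0) (nat_lit 0) (XT.lf (nat_lit 0) (nat_lit 3192266483) (nat_lit 456) (nat_lit 22989688890) (nat_lit 76) (nat_lit 7009373519) (nat_lit 102) (nat_lit 5) (nat_lit 108) (nat_lit 5) (nat_lit 103) (nat_lit 5) (nat_lit 390) (nat_lit 375) (nat_lit 255)) (XT.lf (nat_lit 0) (nat_lit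 7143549813) (nat_lit 456) (nat_lit 5307084136) (nat_lit 76) (nat_lit 21669042395) (nat_lit 102) (nat_lit 5) (nat_lit 108) (nat_lit 5) (nat_lit 103) (nat_lit 5) (nat_lit 391) (nat_lit 375) (nat_lit 254))))) (XT.nd (nat_lit 234) (nat_lit 608) (nat_lit 0) (XT.nd (nat_lit 78) (nat_lit 304) (nat_lit 0) (XT.lf (nat_lit 0) (nat_lit 11536126839) (nat_lit 456) (nat_lit 21424805019) (nat_lit 76) (nat_lit 2121324870) (nat_lit 97) (nat_lit 5) (nat_lit 103) (nat_lit 5) (nat_lit 98) (nat_lit 5) (nat_lit 392) (nat_lit 375) (nat_lit 253)) (XT.nd (nat_lit 78) (nat_lit 304) (nat_lit 0) (XT.lf (nat_lit 0) (nat_lit 16439644217) (nat_lit 456) (nat_lit 2544267761) (nat_lit 76) (nat_lit 17094490515) (nat_lit 97) (nat_lit 5) (nat_lit 103) (nat_lit 5) (nat_lit 98) (nat_lit 5) (nat_lit 393) (nat_lit 375) (nat_lit 252)) (XT.lf (nat_lit 0) (nat_lit 17847058748) (nat_lit 304) (nat_lit 4015970174) (nat_lit 380) (nat_lit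 15247593897) (nat_lit 93) (nat_lit 5) (nat_lit 97) (nat_lit 5) (nat_lit 98) (nat_lit 5) (nat_lit 394) (nat_lit 375) (nat_lit 251)))) (XT.nd (nat_lit 156) (nat_lit 304) (nat_lit 0) (XT.nd (nat_lit 78) (nat_lit 0) (nat_lit 0) (XT.lf (nat_lit 0) (nat_lit 997974777) (nat_lit 304) (nat_lit 26797819548) (nat_lit 380) (nat_lit 10386751020) (nat_lit 89) (nat_lit 5) (nat_lit 93) (nat_lit 5) (nat_lit 94) (nat_lit 5) (nat_lit 395) (nat_lit 375) (nat_lit 250)) (XT.lf (nat_lit 0) (nat_lit 22868871481) (nat_lit 304) (nat_lit 11543610661) (nat_lit 380) (nat_lit 4876219322) (nat_lit 89) (nat_lit 5) (nat_lit 93) (nat_lit 5) (nat_lit 94) (nat_lit 5) (nat_lit 396) (nat_lit 375) (nat_lit 249))) (XT.nd (nat_lit 78) (nat_lit 0) (nat_lit 0) (XT.lf (nat_lit 0) (nat_lit 1035113542) (nat_lit 304) (nat_lit 34974873262) (nat_lit 76) (nat_lit 4431750092) (nat_lit 85) (nat_lit 5) (nat_lit 89) (nat_lit 5) (nat_lit 86)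 (nat_lit 5) (nat_lit 397) (nat_lit 375) (nat_lit 248)) (XT.lf (nat_lit 0) (nat_lit 7546497857) (nat_lit 304) (nat_lit 12898798897) (nat_lit 76) (nat_lit 21179714002) (nat_lit 85) (nat_lit 5) (nat_lit 89) (nat_lit 5) (nat_lit 86) (nat_lit 5) (nat_lit 398) (nat_lit 375) (nat_lit 247)))))) (XT.nd (nat_lit 546) (nat_lit 836) (nat_lit 0) (XT.nd (nat_lit 234) (nat_lit 532) (nat_lit 0) (XT.nd (nat_lit 78) (nat_lit 228) (nat_lit 0) (XT.lf (nat_lit 0) (nat_lit 10616596728) (nat_lit 304) (nat_lit 3929258834) (nat_lit 380) (nat_lit 28313473916) (nat_lit 81) (nat_lit 5) (nat_lit 85) (nat_lit 5) (nat_lit 86) (nat_lit 5) (nat_lit 399) (nat_lit 375) (nat_lit 246)) (XT.nd (nat_lit 78) (nat_lit 228) (nat_lit 0) (XT.lf (nat_lit 0) (nat_lit 22323345900) (nat_lit 380) (nat_lit 8606211627) (nat_lit 76) (nat_lit 13204399682) (nat_lit 81) (nat_lit 5) (nat_lit 86) (nat_lit 5) (nat_lit 82) (nat_lit 5) (nat_lit 400)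 (nat_lit 375) (nat_lit 245)) (XT.lf (nat_lit 0) (nat_lit 16677348309) (nat_lit 228) (nat_lit 14134040732) (nat_lit 304) (nat_lit 14644844621) (nat_lit 78) (nat_lit 5) (nat_lit 81) (nat_lit 5) (nat_lit 82) (nat_lit 5) (nat_lit 401) (nat_lit 375) (nat_lit 244)))) (XT.nd (nat_lit 156) (nat_lit 228) (nat_lit 0) (XT.nd (nat_lit 78) (nat_lit 304) (nat_lit 0) (XT.lf (nat_lit 0) (nat_lit 39923590599) (nat_lit 304) (nat_lit 3374737433) (nat_lit 76) (nat_lit 3536309284) (nat_lit 78) (nat_lit 5) (nat_lit 82) (nat_lit 5) (nat_lit 79) (nat_lit 5) (nat_lit 402) (nat_lit 375) (nat_lit 243)) (XT.lf (nat_lit 0) (nat_lit 1781380682) (nat_lit 304) (nat_lit 24454166208) (nat_lit 76) (nat_lit 22014938738) (nat_lit 74) (nat_lit 5) (nat_lit 78) (nat_lit 5) (nat_lit 75) (nat_lit 5) (nat_lit 403) (nat_lit 375) (nat_lit 242))) (XT.nd (nat_lit 78) (nat_lit 0) (nat_lit 0) (XT.lf (nat_lit 0) (nat_lit 2676193863) (nat_lit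 228) (nat_lit 8096978143) (nat_lit 304) (nat_lit 38953440634) (nat_lit 71) (nat_lit 5) (nat_lit 74) (nat_lit 5) (nat_lit 75) (nat_lit 5) (nat_lit 404) (nat_lit 375) (nat_lit 241)) (XT.lf (nat_lit 0) (nat_lit 20803604798) (nat_lit 304) (nat_lit 19425608743) (nat_lit 76) (nat_lit 11017880844) (nat_lit 71) (nat_lit 5) (nat_lit 75) (nat_lit 5) (nat_lit 72) (nat_lit 5) (nat_lit 405) (nat_lit 375) (nat_lit 240))))) (XT.nd (nat_lit 234) (nat_lit 456) (nat_lit 0) (XT.nd (nat_lit 78) (nat_lit 152) (nat_lit 0) (XT.lf (nat_lit 0) (nat_lit 9756045525) (nat_lit 228) (nat_lit 21861886898) (nat_lit 304) (nat_lit 21211550067) (nat_lit 68) (nat_lit 5) (nat_lit 71) (nat_lit 5) (nat_lit 72) (nat_lit 5) (nat_lit 406) (nat_lit 375) (nat_lit 239)) (XT.nd (nat_lit 78) (nat_lit 152) (nat_lit 0) (XT.lf (nat_lit 0) (nat_lit 41067345590) (nat_lit 228) (nat_lit 2231997226) (nat_lit 304) (nat_lit 11175329753) (nat_lit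 68) (nat_lit 5) (nat_lit 71) (nat_lit 5) (nat_lit 72) (nat_lit 5) (nat_lit 407) (nat_lit 375) (nat_lit 238)) (XT.lf (nat_lit 0) (nat_lit 18028381679) (nat_lit 152) (nat_lit 38102359853) (nat_lit 228) (nat_lit 43085574) (nat_lit 66) (nat_lit 5) (nat_lit 68) (nat_lit 5) (nat_lit 69) (nat_lit 5) (nat_lit 408) (nat_lit 375) (nat_lit 237)))) (XT.nd (nat_lit 156) (nat_lit 152) (nat_lit 0) (XT.nd (nat_lit 78) (nat_lit 228) (nat_lit 0) (XT.lf (nat_lit 0) (nat_lit 11537916516) (nat_lit 228) (nat_lit 6671170113) (nat_lit 76) (nat_lit 39726518199) (nat_lit 65) (nat_lit 5) (nat_lit 68) (nat_lit 5) (nat_lit 66) (nat_lit 5) (nat_lit 409) (nat_lit 375) (nat_lit 236)) (XT.lf (nat_lit 0) (nat_lit 24168302918) (nat_lit 304) (nat_lit 32568585696) (nat_lit 76) (nat_lit 3024959127) (nat_lit 62) (nat_lit 5) (nat_lit 66) (nat_lit 5) (nat_lit 63) (nat_lit 5) (nat_lit 410) (nat_lit 375) (nat_lit 235))) (XT.nd (nat_lit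 78) (nat_lit 0) (nat_lit 0) (XT.lf (nat_lit 0) (nat_lit 1037975994) (nat_lit 152) (nat_lit 36819447151) (nat_lit 228) (nat_lit 23800619625) (nat_lit 60) (nat_lit 5) (nat_lit 62) (nat_lit 5) (nat_lit 63) (nat_lit 5) (nat_lit 411) (nat_lit 375) (nat_lit 234)) (XT.lf (nat_lit 0) (nat_lit 37451978526) (nat_lit 152) (nat_lit 15328308113) (nat_lit 228) (nat_lit 10841297209) (nat_lit 60) (nat_lit 5) (nat_lit 62) (nat_lit 5) (nat_lit 63) (nat_lit 5) (nat_lit 412) (nat_lit 375) (nat_lit 233))))))))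
noncomputable def xc178 : XT := (XT.nd (nat_lit 2106) (nat_lit 1216) (nat_lit 0) (XT.nd (nat_lit 1014) (nat_lit 1140) (nat_lit 0) (XT.nd (nat_lit 468) (nat_lit 608) (nat_lit 0) (XT.nd (nat_lit 234) (nat_lit 228) (nat_lit 0) (XT.nd (nat_lit 78) (nat_lit 152) (nat_lit 0) (XT.lf (nat_lit 0) (nat_lit 2952165336) (nat_lit 228) (nat_lit 55503629970) (nat_lit 76) (nat_lit 7211612883) (nat_lit 57) (nat_lit 5) (nat_lit 60) (nat_lit 5) (nat_lit 58) (nat_lit 5) (nat_lit 413) (nat_lit 375) (nat_lit 232)) (XT.nd (nat_lit 78) (nat_lit 152) (nat_lit 0) (XT.lf (nat_lit 0) (nat_lit 17770532468) (nat_lit 228) (nat_lit 19010787958) (nat_lit 76) (nat_lit 30990339077) (nat_lit 57) (nat_lit 5) (nat_lit 60) (nat_lit 5) (nat_lit 58) (nat_lit 5) (nat_lit 414) (nat_lit 375) (nat_lit 231)) (XT.lf (nat_lit 0) (nat_lit 19941590554) (nat_lit 152) (nat_lit 13697501019) (nat_lit 228) (nat_lit 36326568673) (nat_lit 55) (nat_lit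 5) (nat_lit 57) (nat_lit 5) (nat_lit 58) (nat_lit 5) (nat_lit 415) (nat_lit 375) (nat_lit 230)))) (XT.nd (nat_lit 78) (nat_lit 228) (nat_lit 0) (XT.lf (nat_lit 0) (nat_lit 50790836833) (nat_lit 228) (nat_lit 10924896919) (nat_lit 76) (nat_lit 10529139885) (nat_lit 55) (nat_lit 5) (nat_lit 58) (nat_lit 5) (nat_lit 56) (nat_lit 5) (nat_lit 416) (nat_lit 375) (nat_lit 229)) (XT.nd (nat_lit 78) (nat_lit 76) (nat_lit 0) (XT.lf (nat_lit 0) (nat_lit 30890135414) (nat_lit 152) (nat_lit 38614918465) (nat_lit 228) (nat_lit 5097750085) (nat_lit 53) (nat_lit 5) (nat_lit 55) (nat_lit 5) (nat_lit 56) (nat_lit 5) (nat_lit 417) (nat_lit 375) (nat_lit 228)) (XT.lf (nat_lit 0) (nat_lit 11875949022) (nat_lit 228) (nat_lit 2088991043) (nat_lit 76) (nat_lit 63094958072) (nat_lit 52) (nat_lit 5) (nat_lit 55) (nat_lit 5) (nat_lit 53) (nat_lit 5) (nat_lit 418) (nat_lit 375) (nat_lit 227))))) (XT.nd (nat_lit 234)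 (nat_lit 304) (nat_lit 0) (XT.nd (nat_lit 78) (nat_lit 152) (nat_lit 0) (XT.lf (nat_lit 0) (nat_lit 30393396145) (nat_lit 228) (nat_lit 36898308458) (nat_lit 76) (nat_lit 12300645314) (nat_lit 50) (nat_lit 5) (nat_lit 53) (nat_lit 5) (nat_lit 51) (nat_lit 5) (nat_lit 419) (nat_lit 375) (nat_lit 226)) (XT.nd (nat_lit 78) (nat_lit 0) (nat_lit 0) (XT.lf (nat_lit 0) (nat_lit 7548060163) (nat_lit 152) (nat_lit 42669571752) (nat_lit 228) (nat_lit 32014746964) (nat_lit 48) (nat_lit 5) (nat_lit 50) (nat_lit 5) (nat_lit 51) (nat_lit 5) (nat_lit 420) (nat_lit 375) (nat_lit 225)) (XT.lf (nat_lit 0) (nat_lit 55494716530) (nat_lit 152) (nat_lit 16161471101) (nat_lit 228) (nat_lit 13317066637) (nat_lit 48) (nat_lit 5) (nat_lit 50) (nat_lit 5) (nat_lit 51) (nat_lit 5) (nat_lit 421) (nat_lit 375) (nat_lit 224)))) (XT.nd (nat_lit 156) (nat_lit 152) (nat_lit 0) (XT.nd (nat_lit 78) (nat_lit 0) (nat_lit 0) (XT.lf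 (nat_lit 0) (nat_lit 6588679168) (nat_lit 152) (nat_lit 69543113394) (nat_lit 76) (nat_lit 11690685243) (nat_lit 46) (nat_lit 5) (nat_lit 48) (nat_lit 5) (nat_lit 47) (nat_lit 5) (nat_lit 422) (nat_lit 375) (nat_lit 223)) (XT.lf (nat_lit 0) (nat_lit 27812822608) (nat_lit 152) (nat_lit 21835035981) (nat_lit 76) (nat_lit 41116856081) (nat_lit 46) (nat_lit 5) (nat_lit 48) (nat_lit 5) (nat_lit 47) (nat_lit 5) (nat_lit 423) (nat_lit 375) (nat_lit 222))) (XT.nd (nat_lit 78) (nat_lit 0) (nat_lit 0) (XT.lf (nat_lit 0) (nat_lit 29189859093) (nat_lit 152) (nat_lit 21362422493) (nat_lit 228) (nat_lit 43279076693) (nat_lit 44) (nat_lit 5) (nat_lit 46) (nat_lit 5) (nat_lit 47) (nat_lit 5) (nat_lit 424) (nat_lit 375) (nat_lit 221)) (XT.lf (nat_lit 0) (nat_lit 74933118733) (nat_lit 228) (nat_lit 13647872410) (nat_lit 76) (nat_lit 8445122967) (nat_lit 44) (nat_lit 5) (nat_lit 47) (nat_lit 5) (nat_lit 45)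 (nat_lit 4) (nat_lit 425) (nat_lit 375) (nat_lit 220)))))) (XT.nd (nat_lit 546) (nat_lit 532) (nat_lit 0) (XT.nd (nat_lit 234) (nat_lit 304) (nat_lit 0) (XT.nd (nat_lit 78) (nat_lit 152) (nat_lit 0) (XT.lf (nat_lit 0) (nat_lit 1150134281) (nat_lit 152) (nat_lit 59499873188) (nat_lit 76) (nat_lit 39680350493) (nat_lit 42) (nat_lit 5) (nat_lit 44) (nat_lit 5) (nat_lit 43) (nat_lit 5) (nat_lit 426) (nat_lit 375) (nat_lit 219)) (XT.nd (nat_lit 78) (nat_lit 152) (nat_lit 0) (XT.lf (nat_lit 0) (nat_lit 25046344277) (nat_lit 152) (nat_lit 5650373555) (nat_lit 76) (nat_lit 73073317753) (nat_lit 42) (nat_lit 5) (nat_lit 44) (nat_lit 5) (nat_lit 43) (nat_lit 5) (nat_lit 427) (nat_lit 375) (nat_lit 218)) (XT.lf (nat_lit 0) (nat_lit 50981912364) (nat_lit 228) (nat_lit 54794322867) (nat_lit 76) (nat_lit 1563234730) (nat_lit 40) (nat_lit 5) (nat_lit 43) (nat_lit 5) (nat_lit 41) (nat_lit 4) (nat_lit 428)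 (nat_lit 375) (nat_lit 217)))) (XT.nd (nat_lit 156) (nat_lit 228) (nat_lit 0) (XT.nd (nat_lit 78) (nat_lit 0) (nat_lit 0) (XT.lf (nat_lit 0) (nat_lit 2331228799) (nat_lit 76) (nat_lit 76518468012) (nat_lit 152) (nat_lit 32205907585) (nat_lit 39) (nat_lit 5) (nat_lit 40) (nat_lit 5) (nat_lit 41) (nat_lit 4) (nat_lit 429) (nat_lit 375) (nat_lit 216)) (XT.lf (nat_lit 0) (nat_lit 64212823338) (nat_lit 76) (nat_lit 44824599705) (nat_lit 152) (nat_lit 5873795107) (nat_lit 39) (nat_lit 5) (nat_lit 40) (nat_lit 5) (nat_lit 41) (nat_lit 4) (nat_lit 430) (nat_lit 375) (nat_lit 215))) (XT.nd (nat_lit 78) (nat_lit 0) (nat_lit 0) (XT.lf (nat_lit 0) (nat_lit 10213314251) (nat_lit 152) (nat_lit 11022762975) (nat_lit 228) (nat_lit 97698632806) (nat_lit 36) (nat_lit 5) (nat_lit 38) (nat_lit 5) (nat_lit 39) (nat_lit 5) (nat_lit 431) (nat_lit 375) (nat_lit 214)) (XT.lf (nat_lit 0) (nat_lit 50757393640) (nat_lit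 228) (nat_lit 47680606153) (nat_lit 76) (nat_lit 24653894900) (nat_lit 36) (nat_lit 5) (nat_lit 39) (nat_lit 5) (nat_lit 37) (nat_lit 4) (nat_lit 432) (nat_lit 375) (nat_lit 213))))) (XT.nd (nat_lit 234) (nat_lit 228) (nat_lit 0) (XT.nd (nat_lit 78) (nat_lit 228) (nat_lit 0) (XT.lf (nat_lit 0) (nat_lit 16765746831) (nat_lit 76) (nat_lit 65430194139) (nat_lit 152) (nat_lit 45238939547) (nat_lit 35) (nat_lit 5) (nat_lit 36) (nat_lit 5) (nat_lit 37) (nat_lit 4) (nat_lit 433) (nat_lit 375) (nat_lit 212)) (XT.nd (nat_lit 78) (nat_lit 228) (nat_lit 0) (XT.lf (nat_lit 0) (nat_lit 86087435194) (nat_lit 76) (nat_lit 29925203487) (nat_lit 152) (nat_lit 15942065978) (nat_lit 35) (nat_lit 5) (nat_lit 36) (nat_lit 5) (nat_lit 37) (nat_lit 4) (nat_lit 434) (nat_lit 375) (nat_lit 211)) (XT.lf (nat_lit 0) (nat_lit 14822397903) (nat_lit 228) (nat_lit 114129222395) (nat_lit 76) (nat_lit 7713477656) (nat_lit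 32) (nat_lit 5) (nat_lit 35) (nat_lit 5) (nat_lit 33) (nat_lit 4) (nat_lit 435) (nat_lit 375) (nat_lit 210)))) (XT.nd (nat_lit 156) (nat_lit 152) (nat_lit 0) (XT.nd (nat_lit 78) (nat_lit 76) (nat_lit 0) (XT.lf (nat_lit 0) (nat_lit 47868199672) (nat_lit 228) (nat_lit 46387524597) (nat_lit 76) (nat_lit 47278275899) (nat_lit 32) (nat_lit 5) (nat_lit 35) (nat_lit 5) (nat_lit 33) (nat_lit 4) (nat_lit 436) (nat_lit 375) (nat_lit 209)) (XT.lf (nat_lit 0) (nat_lit 25557070483) (nat_lit 76) (nat_lit 57407073747) (nat_lit 152) (nat_lit 63662310772) (nat_lit 31) (nat_lit 5) (nat_lit 32) (nat_lit 5) (nat_lit 33) (nat_lit 4) (nat_lit 437) (nat_lit 375) (nat_lit 208))) (XT.nd (nat_lit 78) (nat_lit 152) (nat_lit 0) (XT.lf (nat_lit 0) (nat_lit 102707227012) (nat_lit 76) (nat_lit 17892111467) (nat_lit 152) (nat_lit 31334971617) (nat_lit 31) (nat_lit 5) (nat_lit 32) (nat_lit 5) (nat_lit 33) (nat_lit 4) (nat_lit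 438) (nat_lit 375) (nat_lit 207)) (XT.lf (nat_lit 0) (nat_lit 3322152028) (nat_lit 152) (nat_lit 130830839494) (nat_lit 76) (nat_lit 23312684398) (nat_lit 29) (nat_lit 5) (nat_lit 31) (nat_lit 5) (nat_lit 30) (nat_lit 4) (nat_lit 439) (nat_lit 375) (nat_lit 206))))))) (XT.nd (nat_lit 1014) (nat_lit 608) (nat_lit 0) (XT.nd (nat_lit 468) (nat_lit 304) (nat_lit 0) (XT.nd (nat_lit 234) (nat_lit 228) (nat_lit 0) (XT.nd (nat_lit 78) (nat_lit 76) (nat_lit 0) (XT.lf (nat_lit 0) (nat_lit 39798635730) (nat_lit 152) (nat_lit 56055768392) (nat_lit 76) (nat_lit 67336543410) (nat_lit 29) (nat_lit 5) (nat_lit 31) (nat_lit 5) (nat_lit 30) (nat_lit 4) (nat_lit 440) (nat_lit 375) (nat_lit 205)) (XT.nd (nat_lit 78) (nat_lit 0) (nat_lit 0) (XT.lf (nat_lit 0) (nat_lit 23198575226) (nat_lit 76) (nat_lit 55261515225) (nat_lit 152) (nat_lit 90724335047) (nat_lit 28) (nat_lit 5) (nat_lit 29) (nat_lit 5) (nat_lit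 30) (nat_lit 4) (nat_lit 441) (nat_lit 375) (nat_lit 204)) (XT.lf (nat_lit 0) (nat_lit 108359817343) (nat_lit 76) (nat_lit 11643103670) (nat_lit 152) (nat_lit 55427241303) (nat_lit 28) (nat_lit 5) (nat_lit 29) (nat_lit 5) (nat_lit 30) (nat_lit 4) (nat_lit 442) (nat_lit 375) (nat_lit 203)))) (XT.nd (nat_lit 78) (nat_lit 152) (nat_lit 0) (XT.lf (nat_lit 0) (nat_lit 15760194797) (nat_lit 76) (nat_lit 148641040402) (nat_lit 76) (nat_lit 17548033776) (nat_lit 27) (nat_lit 4) (nat_lit 28) (nat_lit 5) (nat_lit 28) (nat_lit 4) (nat_lit 443) (nat_lit 375) (nat_lit 202)) (XT.nd (nat_lit 78) (nat_lit 76) (nat_lit 0) (XT.lf (nat_lit 0) (nat_lit 22858160139) (nat_lit 152) (nat_lit 84235126387) (nat_lit 76) (nat_lit 81616476246) (nat_lit 26) (nat_lit 5) (nat_lit 28) (nat_lit 5) (nat_lit 27) (nat_lit 4) (nat_lit 444) (nat_lit 375) (nat_lit 201)) (XT.lf (nat_lit 0) (nat_lit 1577533840) (nat_lit 76) (nat_lit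 63141086827) (nat_lit 152) (nat_lit 131074092753) (nat_lit 25) (nat_lit 5) (nat_lit 26) (nat_lit 5) (nat_lit 27) (nat_lit 4) (nat_lit 445) (nat_lit 375) (nat_lit 200))))) (XT.nd (nat_lit 234) (nat_lit 228) (nat_lit 0) (XT.nd (nat_lit 78) (nat_lit 76) (nat_lit 0) (XT.lf (nat_lit 0) (nat_lit 94603506341) (nat_lit 76) (nat_lit 15494233945) (nat_lit 152) (nat_lit 93060789595) (nat_lit 25) (nat_lit 5) (nat_lit 26) (nat_lit 5) (nat_lit 27) (nat_lit 4) (nat_lit 446) (nat_lit 375) (nat_lit 199)) (XT.nd (nat_lit 78) (nat_lit 76) (nat_lit 0) (XT.lf (nat_lit 0) (nat_lit 158284108381) (nat_lit 152) (nat_lit 19152768472) (nat_lit 0) (nat_lit 33428845770) (nat_lit 25) (nat_lit 5) (nat_lit 27) (nat_lit 4) (nat_lit 25) (nat_lit 4) (nat_lit 447) (nat_lit 375) (nat_lit 198)) (XT.lf (nat_lit 0) (nat_lit 76926070922) (nat_lit 76) (nat_lit 133407906925) (nat_lit 76) (nat_lit 8551588084) (nat_lit 24) (nat_lit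 4) (nat_lit 25) (nat_lit 5) (nat_lit 25) (nat_lit 4) (nat_lit 448) (nat_lit 375) (nat_lit 197)))) (XT.nd (nat_lit 156) (nat_lit 76) (nat_lit 0) (XT.nd (nat_lit 78) (nat_lit 76) (nat_lit 0) (XT.lf (nat_lit 0) (nat_lit 36802774006) (nat_lit 152) (nat_lit 49411638061) (nat_lit 76) (nat_lit 141046133534) (nat_lit 23) (nat_lit 5) (nat_lit 25) (nat_lit 5) (nat_lit 24) (nat_lit 4) (nat_lit 449) (nat_lit 375) (nat_lit 196)) (XT.lf (nat_lit 0) (nat_lit 49196452595) (nat_lit 76) (nat_lit 35708296382) (nat_lit 152) (nat_lit 151104151638) (nat_lit 22) (nat_lit 5) (nat_lit 23) (nat_lit 5) (nat_lit 24) (nat_lit 4) (nat_lit 450) (nat_lit 375) (nat_lit 195))) (XT.nd (nat_lit 78) (nat_lit 76) (nat_lit 0) (XT.lf (nat_lit 0) (nat_lit 136532006128) (nat_lit 152) (nat_lit 90988171269) (nat_lit 0) (nat_lit 17618486871) (nat_lit 22) (nat_lit 5) (nat_lit 24) (nat_lit 4) (nat_lit 22) (nat_lit 4) (nat_lit 451) (nat_lit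 375) (nat_lit 194)) (XT.lf (nat_lit 0) (nat_lit 9339364005) (nat_lit 76) (nat_lit 182131688834) (nat_lit 76) (nat_lit 63217341993) (nat_lit 21) (nat_lit 4) (nat_lit 22) (nat_lit 5) (nat_lit 22) (nat_lit 4) (nat_lit 452) (nat_lit 375) (nat_lit 193)))))) (XT.nd (nat_lit 546) (nat_lit 304) (nat_lit 0) (XT.nd (nat_lit 234) (nat_lit 152) (nat_lit 0) (XT.nd (nat_lit 78) (nat_lit 152) (nat_lit 0) (XT.lf (nat_lit 0) (nat_lit 117840712569) (nat_lit 76) (nat_lit 132856512876) (nat_lit 76) (nat_lit 13941377859) (nat_lit 21) (nat_lit 4) (nat_lit 22) (nat_lit 5) (nat_lit 22) (nat_lit 4) (nat_lit 453) (nat_lit 375) (nat_lit 192)) (XT.nd (nat_lit 78) (nat_lit 76) (nat_lit 0) (XT.lf (nat_lit 0) (nat_lit 36587869090) (nat_lit 152) (nat_lit 43910754025) (nat_lit 76) (nat_lit 194558228752) (nat_lit 20) (nat_lit 5) (nat_lit 22) (nat_lit 5) (nat_lit 21) (nat_lit 4) (nat_lit 454) (nat_lit 375) (nat_lit 191)) (XT.lf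 (nat_lit 0) (nat_lit 66003358021) (nat_lit 76) (nat_lit 24201499822) (nat_lit 152) (nat_lit 195728237647) (nat_lit 19) (nat_lit 5) (nat_lit 20) (nat_lit 5) (nat_lit 21) (nat_lit 4) (nat_lit 455) (nat_lit 375) (nat_lit 190)))) (XT.nd (nat_lit 156) (nat_lit 152) (nat_lit 0) (XT.nd (nat_lit 78) (nat_lit 0) (nat_lit 0) (XT.lf (nat_lit 0) (nat_lit 147802893319) (nat_lit 152) (nat_lit 114936908569) (nat_lit 0) (nat_lit 34548339591) (nat_lit 19) (nat_lit 5) (nat_lit 21) (nat_lit 4) (nat_lit 19) (nat_lit 4) (nat_lit 456) (nat_lit 375) (nat_lit 189)) (XT.lf (nat_lit 0) (nat_lit 208676915526) (nat_lit 152) (nat_lit 5092475795) (nat_lit 0) (nat_lit 95421744242) (nat_lit 19) (nat_lit 5) (nat_lit 21) (nat_lit 4) (nat_lit 19) (nat_lit 4) (nat_lit 457) (nat_lit 375) (nat_lit 188))) (XT.nd (nat_lit 78) (nat_lit 76) (nat_lit 0) (XT.lf (nat_lit 0) (nat_lit 113888078197) (nat_lit 76) (nat_lit 160484043251)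 (nat_lit 76) (nat_lit 47228283818) (nat_lit 18) (nat_lit 4) (nat_lit 19) (nat_lit 5) (nat_lit 19) (nat_lit 4) (nat_lit 458) (nat_lit 375) (nat_lit 187)) (XT.lf (nat_lit 0) (nat_lit 8529821172) (nat_lit 152) (nat_lit 95770186171) (nat_lit 76) (nat_lit 230318971005) (nat_lit 17) (nat_lit 5) (nat_lit 19) (nat_lit 5) (nat_lit 18) (nat_lit 4) (nat_lit 459) (nat_lit 375) (nat_lit 186))))) (XT.nd (nat_lit 234) (nat_lit 228) (nat_lit 0) (XT.nd (nat_lit 78) (nat_lit 0) (nat_lit 0) (XT.lf (nat_lit 0) (nat_lit 21687800136) (nat_lit 76) (nat_lit 44138859951) (nat_lit 152) (nat_lit 282406207892) (nat_lit 16) (nat_lit 5) (nat_lit 17) (nat_lit 5) (nat_lit 18) (nat_lit 4) (nat_lit 460) (nat_lit 375) (nat_lit 185)) (XT.nd (nat_lit 78) (nat_lit 0) (nat_lit 0) (XT.lf (nat_lit 0) (nat_lit 127933364200) (nat_lit 152) (nat_lit 214427626000) (nat_lit 0) (nat_lit 20069210764) (nat_lit 16) (nat_lit 5) (nat_lit 18)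 (nat_lit 4) (nat_lit 16) (nat_lit 4) (nat_lit 461) (nat_lit 375) (nat_lit 184)) (XT.lf (nat_lit 0) (nat_lit 193868422845) (nat_lit 152) (nat_lit 97429018241) (nat_lit 0) (nat_lit 86003808579) (nat_lit 16) (nat_lit 5) (nat_lit 18) (nat_lit 4) (nat_lit 16) (nat_lit 4) (nat_lit 462) (nat_lit 375) (nat_lit 183)))) (XT.nd (nat_lit 156) (nat_lit 152) (nat_lit 0) (XT.nd (nat_lit 78) (nat_lit 0) (nat_lit 0) (XT.lf (nat_lit 0) (nat_lit 26258903761) (nat_lit 76) (nat_lit 237250764272) (nat_lit 76) (nat_lit 129385711121) (nat_lit 15) (nat_lit 4) (nat_lit 16) (nat_lit 5) (nat_lit 16) (nat_lit 4) (nat_lit 463) (nat_lit 375) (nat_lit 182)) (XT.lf (nat_lit 0) (nat_lit 159512689500) (nat_lit 76) (nat_lit 178769761505) (nat_lit 76) (nat_lit 70904290367) (nat_lit 15) (nat_lit 4) (nat_lit 16) (nat_lit 5) (nat_lit 16) (nat_lit 4) (nat_lit 464) (nat_lit 375) (nat_lit 181))) (XT.nd (nat_lit 78) (nat_lit 152) (nat_lit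 0) (XT.lf (nat_lit 0) (nat_lit 299428166548) (nat_lit 76) (nat_lit 117365199868) (nat_lit 76) (nat_lit 9499330648) (nat_lit 15) (nat_lit 4) (nat_lit 16) (nat_lit 5) (nat_lit 16) (nat_lit 4) (nat_lit 465) (nat_lit 375) (nat_lit 180)) (XT.lf (nat_lit 0) (nat_lit 1266715502) (nat_lit 76) (nat_lit 51968876618) (nat_lit 152) (nat_lit 390974477749) (nat_lit 13) (nat_lit 5) (nat_lit 14) (nat_lit 5) (nat_lit 15) (nat_lit 4) (nat_lit 466) (nat_lit 375) (nat_lit 179))))))))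
noncomputable def xc179 : XT := (XT.nd (nat_lit 47190) (nat_lit 0) (nat_lit 3344) (XT.nd (nat_lit 46098) (nat_lit 0) (nat_lit 7524) (XT.nd (nat_lit 468) (nat_lit 228) (nat_lit 0) (XT.nd (nat_lit 234) (nat_lit 76) (nat_lit 0) (XT.nd (nat_lit 78) (nat_lit 0) (nat_lit 0) (XT.lf (nat_lit 0) (nat_lit 121231956684) (nat_lit 152) (nat_lit 323159519071) (nat_lit 0) (nat_lit 18501852476) (nat_lit 13) (nat_lit 5) (nat_lit 15) (nat_lit 4) (nat_lit 13) (nat_lit 4) (nat_lit 467) (nat_lit 375) (nat_lit 178)) (XT.nd (nat_lit 78) (nat_lit 0) (nat_lit 0) (XT.lf (nat_lit 0) (nat_lit 193479622241) (nat_lit 152) (nat_lit 198239362625) (nat_lit 0) (nat_lit 90749190530) (nat_lit 13) (nat_lit 5) (nat_lit 15) (nat_lit 4) (nat_lit 13) (nat_lit 4) (nat_lit 468) (nat_lit 375) (nat_lit 177)) (XT.lf (nat_lit 0) (nat_lit 269339227237) (nat_lit 152) (nat_lit 67074076280) (nat_lit 0) (nat_lit 166608483618) (nat_lit 13)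 (nat_lit 5) (nat_lit 15) (nat_lit 4) (nat_lit 13) (nat_lit 4) (nat_lit 469) (nat_lit 375) (nat_lit 176)))) (XT.nd (nat_lit 78) (nat_lit 0) (nat_lit 0) (XT.lf (nat_lit 0) (nat_lit 72984601305) (nat_lit 76) (nat_lit 277146282639) (nat_lit 76) (nat_lit 174415241965) (nat_lit 12) (nat_lit 4) (nat_lit 13) (nat_lit 5) (nat_lit 13) (nat_lit 4) (nat_lit 470) (nat_lit 375) (nat_lit 175)) (XT.nd (nat_lit 78) (nat_lit 0) (nat_lit 0) (XT.lf (nat_lit 0) (nat_lit 222374050609) (nat_lit 76) (nat_lit 213723589395) (nat_lit 76) (nat_lit 110992265811) (nat_lit 12) (nat_lit 4) (nat_lit 13) (nat_lit 5) (nat_lit 13) (nat_lit 4) (nat_lit 471) (nat_lit 375) (nat_lit 174)) (XT.lf (nat_lit 0) (nat_lit 379232188920) (nat_lit 76) (nat_lit 147130149311) (nat_lit 76) (nat_lit 44398556289) (nat_lit 12) (nat_lit 4) (nat_lit 13) (nat_lit 5) (nat_lit 13) (nat_lit 4) (nat_lit 472) (nat_lit 375) (nat_lit 173))))) (XT.nd (nat_lit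 234) (nat_lit 76) (nat_lit 0) (XT.nd (nat_lit 78) (nat_lit 76) (nat_lit 0) (XT.lf (nat_lit 0) (nat_lit 24707501472) (nat_lit 152) (nat_lit 52081471611) (nat_lit 76) (nat_lit 518806553032) (nat_lit 11) (nat_lit 5) (nat_lit 13) (nat_lit 5) (nat_lit 12) (nat_lit 4) (nat_lit 473) (nat_lit 375) (nat_lit 172)) (XT.nd (nat_lit 78) (nat_lit 0) (nat_lit 0) (XT.lf (nat_lit 0) (nat_lit 96704710876) (nat_lit 76) (nat_lit 581535413) (nat_lit 152) (nat_lit 524273777417) (nat_lit 10) (nat_lit 5) (nat_lit 11) (nat_lit 5) (nat_lit 12) (nat_lit 4) (nat_lit 474) (nat_lit 375) (nat_lit 171)) (XT.lf (nat_lit 0) (nat_lit 175630271563) (nat_lit 152) (nat_lit 395295697113) (nat_lit 0) (nat_lit 77789960356) (nat_lit 10) (nat_lit 5) (nat_lit 12) (nat_lit 4) (nat_lit 10) (nat_lit 4) (nat_lit 475) (nat_lit 375) (nat_lit 170)))) (XT.nd (nat_lit 156) (nat_lit 76) (nat_lit 0) (XT.nd (nat_lit 78) (nat_lit 0) (nat_lit 0)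 (XT.lf (nat_lit 0) (nat_lit 257900684810) (nat_lit 152) (nat_lit 259268323004) (nat_lit 0) (nat_lit 160060162491) (nat_lit 10) (nat_lit 5) (nat_lit 12) (nat_lit 4) (nat_lit 10) (nat_lit 4) (nat_lit 476) (nat_lit 375) (nat_lit 169)) (XT.lf (nat_lit 0) (nat_lit 344284288568) (nat_lit 152) (nat_lit 116440236404) (nat_lit 0) (nat_lit 246443565191) (nat_lit 10) (nat_lit 5) (nat_lit 12) (nat_lit 4) (nat_lit 10) (nat_lit 4) (nat_lit 477) (nat_lit 375) (nat_lit 168))) (XT.nd (nat_lit 45162) (nat_lit 0) (nat_lit 8284) (XT.lf (nat_lit 0) (nat_lit 34637237471) (nat_lit 76) (nat_lit 400890304962) (nat_lit 76) (nat_lit 303049390100) (nat_lit 9) (nat_lit 4) (nat_lit 10) (nat_lit 5) (nat_lit 10) (nat_lit 4) (nat_lit 478) (nat_lit 375) (nat_lit 167)) (XT.lf (nat_lit 0) (nat_lit 2508831486) (nat_lit 836) (nat_lit 4654140354) (nat_lit 836) (nat_lit 4654140354) (nat_lit 118) (nat_lit 3) (nat_lit 129) (nat_lit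 3) (nat_lit 129) (nat_lit 5) (nat_lit 376) (nat_lit 376) (nat_lit 268)))))) (XT.nd (nat_lit 546) (nat_lit 760) (nat_lit 0) (XT.nd (nat_lit 234) (nat_lit 0) (nat_lit 152) (XT.nd (nat_lit 78) (nat_lit 0) (nat_lit 76) (XT.lf (nat_lit 76) (nat_lit 2246978520) (nat_lit 0) (nat_lit 3046265593) (nat_lit 836) (nat_lit 18924265975) (nat_lit 119) (nat_lit 5) (nat_lit 118) (nat_lit 3) (nat_lit 129) (nat_lit 5) (nat_lit 377) (nat_lit 376) (nat_lit 267)) (XT.nd (nat_lit 78) (nat_lit 0) (nat_lit 0) (XT.lf (nat_lit 0) (nat_lit 5872806851) (nat_lit 760) (nat_lit 10263276747) (nat_lit 836) (nat_lit 8679370377) (nat_lit 119) (nat_lit 5) (nat_lit 129) (nat_lit 5) (nat_lit 130) (nat_lit 5) (nat_lit 378) (nat_lit 376) (nat_lit 266)) (XT.lf (nat_lit 76) (nat_lit 2040495782) (nat_lit 0) (nat_lit 4515625746) (nat_lit 836) (nat_lit 18883438675) (nat_lit 120) (nat_lit 5) (nat_lit 119) (nat_lit 5) (nat_lit 130) (nat_lit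 5) (nat_lit 379) (nat_lit 376) (nat_lit 265)))) (XT.nd (nat_lit 156) (nat_lit 0) (nat_lit 76) (XT.nd (nat_lit 78) (nat_lit 0) (nat_lit 0) (XT.lf (nat_lit 0) (nat_lit 7563550167) (nat_lit 760) (nat_lit 10897782353) (nat_lit 836) (nat_lit 7619045463) (nat_lit 120) (nat_lit 5) (nat_lit 130) (nat_lit 5) (nat_lit 131) (nat_lit 5) (nat_lit 380) (nat_lit 376) (nat_lit 264)) (XT.lf (nat_lit 76) (nat_lit 2221320058) (nat_lit 0) (nat_lit 6502345036) (nat_lit 836) (nat_lit 18024459297) (nat_lit 121) (nat_lit 5) (nat_lit 120) (nat_lit 5) (nat_lit 131) (nat_lit 5) (nat_lit 381) (nat_lit 376) (nat_lit 263))) (XT.nd (nat_lit 78) (nat_lit 0) (nat_lit 0) (XT.lf (nat_lit 0) (nat_lit 10217774866) (nat_lit 760) (nat_lit 11167445416) (nat_lit 836) (nat_lit 6050241695) (nat_lit 121) (nat_lit 5) (nat_lit 131) (nat_lit 5) (nat_lit 132) (nat_lit 5) (nat_lit 382) (nat_lit 376) (nat_lit 262)) (XT.lf (nat_lit 76) (nat_lit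 2839811089) (nat_lit 0) (nat_lit 9091879100) (nat_lit 836) (nat_lit 16218224407) (nat_lit 122) (nat_lit 5) (nat_lit 121) (nat_lit 5) (nat_lit 132) (nat_lit 5) (nat_lit 383) (nat_lit 376) (nat_lit 261))))) (XT.nd (nat_lit 234) (nat_lit 1064) (nat_lit 0) (XT.nd (nat_lit 78) (nat_lit 0) (nat_lit 0) (XT.lf (nat_lit 0) (nat_lit 13977506517) (nat_lit 760) (nat_lit 11022776177) (nat_lit 836) (nat_lit 3887499898) (nat_lit 122) (nat_lit 5) (nat_lit 132) (nat_lit 5) (nat_lit 133) (nat_lit 5) (nat_lit 384) (nat_lit 376) (nat_lit 260)) (XT.nd (nat_lit 78) (nat_lit 0) (nat_lit 76) (XT.lf (nat_lit 76) (nat_lit 3951976689) (nat_lit 0) (nat_lit 12379050596) (nat_lit 836) (nat_lit 13321248882) (nat_lit 123) (nat_lit 5) (nat_lit 122) (nat_lit 5) (nat_lit 133) (nat_lit 5) (nat_lit 385) (nat_lit 376) (nat_lit 259)) (XT.lf (nat_lit 0) (nat_lit 19000458989) (nat_lit 760) (nat_lit 10408785666) (nat_lit 76) (nat_lit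 1035840749) (nat_lit 123) (nat_lit 5) (nat_lit 133) (nat_lit 5) (nat_lit 124) (nat_lit 5) (nat_lit 386) (nat_lit 376) (nat_lit 258)))) (XT.nd (nat_lit 156) (nat_lit 380) (nat_lit 0) (XT.nd (nat_lit 78) (nat_lit 0) (nat_lit 0) (XT.lf (nat_lit 0) (nat_lit 5619873821) (nat_lit 760) (nat_lit 16469275037) (nat_lit 836) (nat_lit 9174099511) (nat_lit 113) (nat_lit 5) (nat_lit 123) (nat_lit 5) (nat_lit 124) (nat_lit 5) (nat_lit 387) (nat_lit 376) (nat_lit 257)) (XT.lf (nat_lit 0) (nat_lit 22807040415) (nat_lit 760) (nat_lit 2696785798) (nat_lit 836) (nat_lit 6609918094) (nat_lit 113) (nat_lit 5) (nat_lit 123) (nat_lit 5) (nat_lit 124) (nat_lit 5) (nat_lit 388) (nat_lit 376) (nat_lit 256))) (XT.nd (nat_lit 78) (nat_lit 0) (nat_lit 0) (XT.lf (nat_lit 0) (nat_lit 7912036145) (nat_lit 380) (nat_lit 21479911025) (nat_lit 456) (nat_lit 3599684741) (nat_lit 108) (nat_lit 5) (nat_lit 113) (nat_lit 5) (nat_lit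 114) (nat_lit 5) (nat_lit 389) (nat_lit 376) (nat_lit 255)) (XT.lf (nat_lit 0) (nat_lit 26264894717) (nat_lit 380) (nat_lit 7406343627) (nat_lit 456) (nat_lit 232339584) (nat_lit 108) (nat_lit 5) (nat_lit 113) (nat_lit 5) (nat_lit 114) (nat_lit 5) (nat_lit 390) (nat_lit 376) (nat_lit 254))))))) (XT.nd (nat_lit 1092) (nat_lit 1596) (nat_lit 0) (XT.nd (nat_lit 546) (nat_lit 1140) (nat_lit 0) (XT.nd (nat_lit 234) (nat_lit 608) (nat_lit 0) (XT.nd (nat_lit 78) (nat_lit 380) (nat_lit 0) (XT.lf (nat_lit 0) (nat_lit 3483435438) (nat_lit 456) (nat_lit 23999323067) (nat_lit 76) (nat_lit 7361496473) (nat_lit 102) (nat_lit 5) (nat_lit 108) (nat_lit 5) (nat_lit 103) (nat_lit 5) (nat_lit 391) (nat_lit 376) (nat_lit 253)) (XT.nd (nat_lit 78) (nat_lit 380) (nat_lit 0) (XT.lf (nat_lit 0) (nat_lit 7626018380) (nat_lit 456) (nat_lit 5439247613) (nat_lit 76) (nat_lit 22754070018) (nat_lit 102) (nat_lit 5) (nat_lit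 108) (nat_lit 5) (nat_lit 103) (nat_lit 5) (nat_lit 392) (nat_lit 376) (nat_lit 252)) (XT.lf (nat_lit 0) (nat_lit 12234454959) (nat_lit 456) (nat_lit 22359028482) (nat_lit 76) (nat_lit 2236753275) (nat_lit 97) (nat_lit 5) (nat_lit 103) (nat_lit 5) (nat_lit 98) (nat_lit 5) (nat_lit 393) (nat_lit 376) (nat_lit 251)))) (XT.nd (nat_lit 156) (nat_lit 304) (nat_lit 0) (XT.nd (nat_lit 78) (nat_lit 304) (nat_lit 0) (XT.lf (nat_lit 0) (nat_lit 17377361454) (nat_lit 456) (nat_lit 2540988971) (nat_lit 76) (nat_lit 17958131385) (nat_lit 97) (nat_lit 5) (nat_lit 103) (nat_lit 5) (nat_lit 98) (nat_lit 5) (nat_lit 394) (nat_lit 376) (nat_lit 250)) (XT.lf (nat_lit 0) (nat_lit 18867799151) (nat_lit 304) (nat_lit 4200609540) (nat_lit 380) (nat_lit 15892082370) (nat_lit 93) (nat_lit 5) (nat_lit 97) (nat_lit 5) (nat_lit 98) (nat_lit 5) (nat_lit 395) (nat_lit 376) (nat_lit 249))) (XT.nd (nat_lit 78) (nat_lit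 0) (nat_lit 0) (XT.lf (nat_lit 0) (nat_lit 1179513557) (nat_lit 304) (nat_lit 28115250147) (nat_lit 380) (nat_lit 10791400894) (nat_lit 89) (nat_lit 5) (nat_lit 93) (nat_lit 5) (nat_lit 94) (nat_lit 5) (nat_lit 396) (nat_lit 376) (nat_lit 248)) (XT.lf (nat_lit 0) (nat_lit 24137686523) (nat_lit 304) (nat_lit 12099400357) (nat_lit 380) (nat_lit 5010803930) (nat_lit 89) (nat_lit 5) (nat_lit 93) (nat_lit 5) (nat_lit 94) (nat_lit 5) (nat_lit 397) (nat_lit 376) (nat_lit 247))))) (XT.nd (nat_lit 234) (nat_lit 532) (nat_lit 0) (XT.nd (nat_lit 78) (nat_lit 304) (nat_lit 0) (XT.lf (nat_lit 0) (nat_lit 1189922238) (nat_lit 304) (nat_lit 36591985291) (nat_lit 76) (nat_lit 4676721207) (nat_lit 85) (nat_lit 5) (nat_lit 89) (nat_lit 5) (nat_lit 86) (nat_lit 5) (nat_lit 398) (nat_lit 376) (nat_lit 246)) (XT.nd (nat_lit 78) (nat_lit 304) (nat_lit 0) (XT.lf (nat_lit 0) (nat_lit 8021968482) (nat_lit 304) (nat_lit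 13418375380) (nat_lit 76) (nat_lit 22260969808) (nat_lit 85) (nat_lit 5) (nat_lit 89) (nat_lit 5) (nat_lit 86) (nat_lit 5) (nat_lit 399) (nat_lit 376) (nat_lit 245)) (XT.lf (nat_lit 0) (nat_lit 11270768034) (nat_lit 304) (nat_lit 4097778137) (nat_lit 380) (nat_lit 29628941472) (nat_lit 81) (nat_lit 5) (nat_lit 85) (nat_lit 5) (nat_lit 86) (nat_lit 5) (nat_lit 400) (nat_lit 376) (nat_lit 244)))) (XT.nd (nat_lit 156) (nat_lit 304) (nat_lit 0) (XT.nd (nat_lit 78) (nat_lit 228) (nat_lit 0) (XT.lf (nat_lit 0) (nat_lit 23530783777) (nat_lit 380) (nat_lit 8914890304) (nat_lit 76) (nat_lit 13890380873) (nat_lit 81) (nat_lit 5) (nat_lit 86) (nat_lit 5) (nat_lit 82) (nat_lit 5) (nat_lit 401) (nat_lit 376) (nat_lit 243)) (XT.lf (nat_lit 0) (nat_lit 17630885824) (nat_lit 228) (nat_lit 14809865418) (nat_lit 304) (nat_lit 15283819621) (nat_lit 78) (nat_lit 5) (nat_lit 81) (nat_lit 5) (nat_lit 82) (nat_lit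 5) (nat_lit 402) (nat_lit 376) (nat_lit 242))) (XT.nd (nat_lit 78) (nat_lit 304) (nat_lit 0) (XT.lf (nat_lit 0) (nat_lit 42004793777) (nat_lit 304) (nat_lit 3425700495) (nat_lit 76) (nat_lit 3741590541) (nat_lit 78) (nat_lit 5) (nat_lit 82) (nat_lit 5) (nat_lit 79) (nat_lit 5) (nat_lit 403) (nat_lit 376) (nat_lit 241)) (XT.lf (nat_lit 0) (nat_lit 1954621450) (nat_lit 304) (nat_lit 25558187089) (nat_lit 76) (nat_lit 23145962684) (nat_lit 74) (nat_lit 5) (nat_lit 78) (nat_lit 5) (nat_lit 75) (nat_lit 5) (nat_lit 404) (nat_lit 376) (nat_lit 240)))))) (XT.nd (nat_lit 546) (nat_lit 684) (nat_lit 0) (XT.nd (nat_lit 234) (nat_lit 456) (nat_lit 0) (XT.nd (nat_lit 78) (nat_lit 228) (nat_lit 0) (XT.lf (nat_lit 0) (nat_lit 2926776673) (nat_lit 228) (nat_lit 8467040645) (nat_lit 304) (nat_lit 40814997951) (nat_lit 71) (nat_lit 5) (nat_lit 74) (nat_lit 5) (nat_lit 75) (nat_lit 5) (nat_lit 405) (nat_lit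 376) (nat_lit 239)) (XT.nd (nat_lit 78) (nat_lit 228) (nat_lit 0) (XT.lf (nat_lit 0) (nat_lit 21922384871) (nat_lit 304) (nat_lit 20282262507) (nat_lit 76) (nat_lit 11600844432) (nat_lit 71) (nat_lit 5) (nat_lit 75) (nat_lit 5) (nat_lit 72) (nat_lit 5) (nat_lit 406) (nat_lit 376) (nat_lit 238)) (XT.lf (nat_lit 0) (nat_lit 10356625656) (nat_lit 228) (nat_lit 22918821150) (nat_lit 304) (nat_lit 22191652918) (nat_lit 68) (nat_lit 5) (nat_lit 71) (nat_lit 5) (nat_lit 72) (nat_lit 5) (nat_lit 407) (nat_lit 376) (nat_lit 237)))) (XT.nd (nat_lit 156) (nat_lit 228) (nat_lit 0) (XT.nd (nat_lit 78) (nat_lit 228) (nat_lit 0) (XT.lf (nat_lit 0) (nat_lit 43228120351) (nat_lit 228) (nat_lit 2309158903) (nat_lit 304) (nat_lit 11657453715) (nat_lit 68) (nat_lit 5) (nat_lit 71) (nat_lit 5) (nat_lit 72) (nat_lit 5) (nat_lit 408) (nat_lit 376) (nat_lit 236)) (XT.lf (nat_lit 0) (nat_lit 29111112) (nat_lit 228)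 (nat_lit 39940818334) (nat_lit 76) (nat_lit 19008956721) (nat_lit 65) (nat_lit 5) (nat_lit 68) (nat_lit 5) (nat_lit 66) (nat_lit 5) (nat_lit 409) (nat_lit 376) (nat_lit 235))) (XT.nd (nat_lit 78) (nat_lit 228) (nat_lit 0) (XT.lf (nat_lit 0) (nat_lit 12184243778) (nat_lit 228) (nat_lit 6898830481) (nat_lit 76) (nat_lit 41745817847) (nat_lit 65) (nat_lit 5) (nat_lit 68) (nat_lit 5) (nat_lit 66) (nat_lit 5) (nat_lit 410) (nat_lit 376) (nat_lit 234)) (XT.lf (nat_lit 0) (nat_lit 25445038843) (nat_lit 304) (nat_lit 34089985813) (nat_lit 76) (nat_lit 3211479060) (nat_lit 62) (nat_lit 5) (nat_lit 66) (nat_lit 5) (nat_lit 63) (nat_lit 5) (nat_lit 411) (nat_lit 376) (nat_lit 233))))) (XT.nd (nat_lit 234) (nat_lit 304) (nat_lit 0) (XT.nd (nat_lit 78) (nat_lit 228) (nat_lit 0) (XT.lf (nat_lit 0) (nat_lit 1195177684) (nat_lit 152) (nat_lit 38621828100) (nat_lit 228) (nat_lit 24920584146) (nat_lit 60)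 (nat_lit 5) (nat_lit 62) (nat_lit 5) (nat_lit 63) (nat_lit 5) (nat_lit 412) (nat_lit 376) (nat_lit 232)) (XT.nd (nat_lit 78) (nat_lit 228) (nat_lit 0) (XT.lf (nat_lit 0) (nat_lit 39424865920) (nat_lit 152) (nat_lit 16057969797) (nat_lit 228) (nat_lit 11316632108) (nat_lit 60) (nat_lit 5) (nat_lit 62) (nat_lit 5) (nat_lit 63) (nat_lit 5) (nat_lit 413) (nat_lit 376) (nat_lit 231)) (XT.lf (nat_lit 0) (nat_lit 3163454049) (nat_lit 228) (nat_lit 58175439126) (nat_lit 76) (nat_lit 7608684641) (nat_lit 57) (nat_lit 5) (nat_lit 60) (nat_lit 5) (nat_lit 58) (nat_lit 5) (nat_lit 414) (nat_lit 376) (nat_lit 230)))) (XT.nd (nat_lit 156) (nat_lit 152) (nat_lit 0) (XT.nd (nat_lit 78) (nat_lit 152) (nat_lit 0) (XT.lf (nat_lit 0) (nat_lit 18719707136) (nat_lit 228) (nat_lit 19862877505) (nat_lit 76) (nat_lit 32574609473) (nat_lit 57) (nat_lit 5) (nat_lit 60) (nat_lit 5) (nat_lit 58) (nat_lit 5) (nat_lit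 415) (nat_lit 376) (nat_lit 229)) (XT.lf (nat_lit 0) (nat_lit 21035532031) (nat_lit 152) (nat_lit 14344786449) (nat_lit 228) (nat_lit 38080645960) (nat_lit 55) (nat_lit 5) (nat_lit 57) (nat_lit 5) (nat_lit 58) (nat_lit 5) (nat_lit 416) (nat_lit 376) (nat_lit 228))) (XT.nd (nat_lit 78) (nat_lit 152) (nat_lit 0) (XT.lf (nat_lit 0) (nat_lit 53387387443) (nat_lit 228) (nat_lit 11376614251) (nat_lit 76) (nat_lit 11090250707) (nat_lit 55) (nat_lit 5) (nat_lit 58) (nat_lit 5) (nat_lit 56) (nat_lit 5) (nat_lit 417) (nat_lit 376) (nat_lit 227)) (XT.lf (nat_lit 0) (nat_lit 32527645061) (nat_lit 152) (nat_lit 40508407614) (nat_lit 228) (nat_lit 5294090393) (nat_lit 53) (nat_lit 5) (nat_lit 55) (nat_lit 5) (nat_lit 56) (nat_lit 5) (nat_lit 418) (nat_lit 376) (nat_lit 226))))))))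
noncomputable def xc180 : XT := (XT.nd (nat_lit 2106) (nat_lit 1064) (nat_lit 0) (XT.nd (nat_lit 1014) (nat_lit 988) (nat_lit 0) (XT.nd (nat_lit 468) (nat_lit 532) (nat_lit 0) (XT.nd (nat_lit 234) (nat_lit 152) (nat_lit 0) (XT.nd (nat_lit 78) (nat_lit 304) (nat_lit 0) (XT.lf (nat_lit 0) (nat_lit 12523721064) (nat_lit 228) (nat_lit 2103069276) (nat_lit 76) (nat_lit 66283391467) (nat_lit 52) (nat_lit 5) (nat_lit 55) (nat_lit 5) (nat_lit 53) (nat_lit 5) (nat_lit 419) (nat_lit 376) (nat_lit 225)) (XT.nd (nat_lit 78) (nat_lit 152) (nat_lit 0) (XT.lf (nat_lit 0) (nat_lit 31966422469) (nat_lit 228) (nat_lit 38652222576) (nat_lit 76) (nat_lit 12950642631) (nat_lit 50) (nat_lit 5) (nat_lit 53) (nat_lit 5) (nat_lit 51) (nat_lit 5) (nat_lit 420) (nat_lit 376) (nat_lit 224)) (XT.lf (nat_lit 0) (nat_lit 8014996713) (nat_lit 152) (nat_lit 44765730397) (nat_lit 228) (nat_lit 33560648688) (nat_lit 48) (nat_lit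 5) (nat_lit 50) (nat_lit 5) (nat_lit 51) (nat_lit 5) (nat_lit 421) (nat_lit 376) (nat_lit 223)))) (XT.nd (nat_lit 78) (nat_lit 152) (nat_lit 0) (XT.lf (nat_lit 0) (nat_lit 58354722397) (nat_lit 152) (nat_lit 16934001854) (nat_lit 228) (nat_lit 13930695565) (nat_lit 48) (nat_lit 5) (nat_lit 50) (nat_lit 5) (nat_lit 51) (nat_lit 5) (nat_lit 422) (nat_lit 376) (nat_lit 222)) (XT.nd (nat_lit 78) (nat_lit 0) (nat_lit 0) (XT.lf (nat_lit 0) (nat_lit 6968157532) (nat_lit 152) (nat_lit 72932798936) (nat_lit 76) (nat_lit 12310133207) (nat_lit 46) (nat_lit 5) (nat_lit 48) (nat_lit 5) (nat_lit 47) (nat_lit 5) (nat_lit 423) (nat_lit 376) (nat_lit 221)) (XT.lf (nat_lit 0) (nat_lit 29251125077) (nat_lit 152) (nat_lit 22843482897) (nat_lit 76) (nat_lit 43205950029) (nat_lit 46) (nat_lit 5) (nat_lit 48) (nat_lit 5) (nat_lit 47) (nat_lit 5) (nat_lit 424) (nat_lit 376) (nat_lit 220))))) (XT.nd (nat_lit 234)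 (nat_lit 228) (nat_lit 0) (XT.nd (nat_lit 78) (nat_lit 152) (nat_lit 0) (XT.lf (nat_lit 0) (nat_lit 30731313304) (nat_lit 152) (nat_lit 22395253758) (nat_lit 228) (nat_lit 45394016672) (nat_lit 44) (nat_lit 5) (nat_lit 46) (nat_lit 5) (nat_lit 47) (nat_lit 5) (nat_lit 425) (nat_lit 376) (nat_lit 219)) (XT.nd (nat_lit 78) (nat_lit 152) (nat_lit 0) (XT.lf (nat_lit 0) (nat_lit 78724748355) (nat_lit 228) (nat_lit 14250501515) (nat_lit 76) (nat_lit 8899912795) (nat_lit 44) (nat_lit 5) (nat_lit 47) (nat_lit 5) (nat_lit 45) (nat_lit 4) (nat_lit 426) (nat_lit 376) (nat_lit 218)) (XT.lf (nat_lit 0) (nat_lit 1252428394) (nat_lit 152) (nat_lit 62394900304) (nat_lit 76) (nat_lit 41697300113) (nat_lit 42) (nat_lit 5) (nat_lit 44) (nat_lit 5) (nat_lit 43) (nat_lit 5) (nat_lit 427) (nat_lit 376) (nat_lit 217)))) (XT.nd (nat_lit 156) (nat_lit 76) (nat_lit 0) (XT.nd (nat_lit 78) (nat_lit 152) (nat_lit 0)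 (XT.lf (nat_lit 0) (nat_lit 26341316157) (nat_lit 152) (nat_lit 5856733620) (nat_lit 76) (nat_lit 76758347542) (nat_lit 42) (nat_lit 5) (nat_lit 44) (nat_lit 5) (nat_lit 43) (nat_lit 5) (nat_lit 428) (nat_lit 376) (nat_lit 216)) (XT.lf (nat_lit 0) (nat_lit 53573318704) (nat_lit 228) (nat_lit 57457529490) (nat_lit 76) (nat_lit 1673472765) (nat_lit 40) (nat_lit 5) (nat_lit 43) (nat_lit 5) (nat_lit 41) (nat_lit 4) (nat_lit 429) (nat_lit 376) (nat_lit 215))) (XT.nd (nat_lit 78) (nat_lit 0) (nat_lit 0) (XT.lf (nat_lit 0) (nat_lit 2523065736) (nat_lit 76) (nat_lit 80310587103) (nat_lit 152) (nat_lit 33772651585) (nat_lit 39) (nat_lit 5) (nat_lit 40) (nat_lit 5) (nat_lit 41) (nat_lit 4) (nat_lit 430) (nat_lit 376) (nat_lit 214)) (XT.lf (nat_lit 0) (nat_lit 67495155454) (nat_lit 76) (nat_lit 47033635111) (nat_lit 152) (nat_lit 6126007359) (nat_lit 39) (nat_lit 5) (nat_lit 40) (nat_lit 5) (nat_lit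 41) (nat_lit 4) (nat_lit 431) (nat_lit 376) (nat_lit 213)))))) (XT.nd (nat_lit 546) (nat_lit 380) (nat_lit 0) (XT.nd (nat_lit 234) (nat_lit 304) (nat_lit 0) (XT.nd (nat_lit 78) (nat_lit 76) (nat_lit 0) (XT.lf (nat_lit 0) (nat_lit 10795826653) (nat_lit 152) (nat_lit 11541414224) (nat_lit 228) (nat_lit 102542230937) (nat_lit 36) (nat_lit 5) (nat_lit 38) (nat_lit 5) (nat_lit 39) (nat_lit 5) (nat_lit 432) (nat_lit 376) (nat_lit 212)) (XT.nd (nat_lit 78) (nat_lit 76) (nat_lit 0) (XT.lf (nat_lit 0) (nat_lit 53333231895) (nat_lit 228) (nat_lit 49994814368) (nat_lit 76) (nat_lit 25916539279) (nat_lit 36) (nat_lit 5) (nat_lit 39) (nat_lit 5) (nat_lit 37) (nat_lit 4) (nat_lit 433) (nat_lit 376) (nat_lit 211)) (XT.lf (nat_lit 0) (nat_lit 17672730102) (nat_lit 76) (nat_lit 68670240997) (nat_lit 152) (nat_lit 47461786592) (nat_lit 35) (nat_lit 5) (nat_lit 36) (nat_lit 5) (nat_lit 37) (nat_lit 4) (nat_lit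 434) (nat_lit 376) (nat_lit 210)))) (XT.nd (nat_lit 156) (nat_lit 76) (nat_lit 0) (XT.nd (nat_lit 78) (nat_lit 228) (nat_lit 0) (XT.lf (nat_lit 0) (nat_lit 90457231649) (nat_lit 76) (nat_lit 31391499044) (nat_lit 152) (nat_lit 16701931246) (nat_lit 35) (nat_lit 5) (nat_lit 36) (nat_lit 5) (nat_lit 37) (nat_lit 4) (nat_lit 435) (nat_lit 376) (nat_lit 209)) (XT.lf (nat_lit 0) (nat_lit 15599342271) (nat_lit 228) (nat_lit 119768836058) (nat_lit 76) (nat_lit 8128378811) (nat_lit 32) (nat_lit 5) (nat_lit 35) (nat_lit 5) (nat_lit 33) (nat_lit 4) (nat_lit 436) (nat_lit 376) (nat_lit 208))) (XT.nd (nat_lit 78) (nat_lit 76) (nat_lit 0) (XT.lf (nat_lit 0) (nat_lit 50295728201) (nat_lit 228) (nat_lit 48643236582) (nat_lit 76) (nat_lit 49670025191) (nat_lit 32) (nat_lit 5) (nat_lit 35) (nat_lit 5) (nat_lit 33) (nat_lit 4) (nat_lit 437) (nat_lit 376) (nat_lit 207)) (XT.lf (nat_lit 0) (nat_lit 26897561409)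 (nat_lit 76) (nat_lit 60248261830) (nat_lit 152) (nat_lit 66810276851) (nat_lit 31) (nat_lit 5) (nat_lit 32) (nat_lit 5) (nat_lit 33) (nat_lit 4) (nat_lit 438) (nat_lit 376) (nat_lit 206))))) (XT.nd (nat_lit 234) (nat_lit 228) (nat_lit 0) (XT.nd (nat_lit 78) (nat_lit 152) (nat_lit 0) (XT.lf (nat_lit 0) (nat_lit 107902243031) (nat_lit 76) (nat_lit 18758940274) (nat_lit 152) (nat_lit 32868244522) (nat_lit 31) (nat_lit 5) (nat_lit 32) (nat_lit 5) (nat_lit 33) (nat_lit 4) (nat_lit 439) (nat_lit 376) (nat_lit 205)) (XT.nd (nat_lit 78) (nat_lit 0) (nat_lit 0) (XT.lf (nat_lit 0) (nat_lit 3520490159) (nat_lit 152) (nat_lit 137311474443) (nat_lit 76) (nat_lit 24505380069) (nat_lit 29) (nat_lit 5) (nat_lit 31) (nat_lit 5) (nat_lit 30) (nat_lit 4) (nat_lit 440) (nat_lit 376) (nat_lit 204)) (XT.lf (nat_lit 0) (nat_lit 41819263260) (nat_lit 152) (nat_lit 58800550120) (nat_lit 76) (nat_lit 70729143391)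 (nat_lit 29) (nat_lit 5) (nat_lit 31) (nat_lit 5) (nat_lit 30) (nat_lit 4) (nat_lit 441) (nat_lit 376) (nat_lit 203)))) (XT.nd (nat_lit 156) (nat_lit 152) (nat_lit 0) (XT.nd (nat_lit 78) (nat_lit 0) (nat_lit 0) (XT.lf (nat_lit 0) (nat_lit 24415575086) (nat_lit 76) (nat_lit 57997644969) (nat_lit 152) (nat_lit 95228917274) (nat_lit 28) (nat_lit 5) (nat_lit 29) (nat_lit 5) (nat_lit 30) (nat_lit 4) (nat_lit 442) (nat_lit 376) (nat_lit 202)) (XT.lf (nat_lit 0) (nat_lit 113832161638) (nat_lit 76) (nat_lit 12199595979) (nat_lit 152) (nat_lit 58168475249) (nat_lit 28) (nat_lit 5) (nat_lit 29) (nat_lit 5) (nat_lit 30) (nat_lit 4) (nat_lit 443) (nat_lit 376) (nat_lit 201))) (XT.nd (nat_lit 78) (nat_lit 76) (nat_lit 0) (XT.lf (nat_lit 0) (nat_lit 16602701469) (nat_lit 76) (nat_lit 156047152265) (nat_lit 76) (nat_lit 18395447956) (nat_lit 27) (nat_lit 4) (nat_lit 28) (nat_lit 5) (nat_lit 28) (nat_lit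 4) (nat_lit 444) (nat_lit 376) (nat_lit 200)) (XT.lf (nat_lit 0) (nat_lit 24028713595) (nat_lit 152) (nat_lit 88394064157) (nat_lit 76) (nat_lit 85721088261) (nat_lit 26) (nat_lit 5) (nat_lit 28) (nat_lit 5) (nat_lit 27) (nat_lit 4) (nat_lit 445) (nat_lit 376) (nat_lit 199))))))) (XT.nd (nat_lit 1014) (nat_lit 532) (nat_lit 0) (XT.nd (nat_lit 468) (nat_lit 228) (nat_lit 0) (XT.nd (nat_lit 234) (nat_lit 228) (nat_lit 0) (XT.nd (nat_lit 78) (nat_lit 0) (nat_lit 0) (XT.lf (nat_lit 0) (nat_lit 1708377169) (nat_lit 76) (nat_lit 66273314875) (nat_lit 152) (nat_lit 137599297529) (nat_lit 25) (nat_lit 5) (nat_lit 26) (nat_lit 5) (nat_lit 27) (nat_lit 4) (nat_lit 446) (nat_lit 376) (nat_lit 198)) (XT.nd (nat_lit 78) (nat_lit 0) (nat_lit 0) (XT.lf (nat_lit 0) (nat_lit 99383173693) (nat_lit 76) (nat_lit 16245301554) (nat_lit 152) (nat_lit 97686686350) (nat_lit 25) (nat_lit 5) (nat_lit 26) (nat_lit 5)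 (nat_lit 27) (nat_lit 4) (nat_lit 447) (nat_lit 376) (nat_lit 197)) (XT.lf (nat_lit 0) (nat_lit 166223282464) (nat_lit 152) (nat_lit 20062390075) (nat_lit 0) (nat_lit 35122085515) (nat_lit 25) (nat_lit 5) (nat_lit 27) (nat_lit 4) (nat_lit 25) (nat_lit 4) (nat_lit 448) (nat_lit 376) (nat_lit 196)))) (XT.nd (nat_lit 78) (nat_lit 152) (nat_lit 0) (XT.lf (nat_lit 0) (nat_lit 80819616825) (nat_lit 76) (nat_lit 140055577181) (nat_lit 76) (nat_lit 8953422200) (nat_lit 24) (nat_lit 4) (nat_lit 25) (nat_lit 5) (nat_lit 25) (nat_lit 4) (nat_lit 449) (nat_lit 376) (nat_lit 195)) (XT.nd (nat_lit 78) (nat_lit 76) (nat_lit 0) (XT.lf (nat_lit 0) (nat_lit 38666647257) (nat_lit 152) (nat_lit 51836440514) (nat_lit 76) (nat_lit 148119296425) (nat_lit 23) (nat_lit 5) (nat_lit 25) (nat_lit 5) (nat_lit 24) (nat_lit 4) (nat_lit 450) (nat_lit 376) (nat_lit 194)) (XT.lf (nat_lit 0) (nat_lit 51701316297) (nat_lit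 76) (nat_lit 37471977679) (nat_lit 152) (nat_lit 158634884425) (nat_lit 22) (nat_lit 5) (nat_lit 23) (nat_lit 5) (nat_lit 24) (nat_lit 4) (nat_lit 451) (nat_lit 376) (nat_lit 193))))) (XT.nd (nat_lit 234) (nat_lit 152) (nat_lit 0) (XT.nd (nat_lit 78) (nat_lit 76) (nat_lit 0) (XT.lf (nat_lit 0) (nat_lit 143381127266) (nat_lit 152) (nat_lit 95493895076) (nat_lit 0) (nat_lit 18519447322) (nat_lit 22) (nat_lit 5) (nat_lit 24) (nat_lit 4) (nat_lit 22) (nat_lit 4) (nat_lit 452) (nat_lit 376) (nat_lit 192)) (XT.nd (nat_lit 78) (nat_lit 0) (nat_lit 0) (XT.lf (nat_lit 0) (nat_lit 9849312369) (nat_lit 76) (nat_lit 191217412564) (nat_lit 76) (nat_lit 66354981977) (nat_lit 21) (nat_lit 4) (nat_lit 22) (nat_lit 5) (nat_lit 22) (nat_lit 4) (nat_lit 453) (nat_lit 376) (nat_lit 191)) (XT.lf (nat_lit 0) (nat_lit 123773681686) (nat_lit 76) (nat_lit 139479471174) (nat_lit 76) (nat_lit 14616325689) (nat_lit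 21) (nat_lit 4) (nat_lit 22) (nat_lit 5) (nat_lit 22) (nat_lit 4) (nat_lit 454) (nat_lit 376) (nat_lit 190)))) (XT.nd (nat_lit 156) (nat_lit 0) (nat_lit 0) (XT.nd (nat_lit 78) (nat_lit 76) (nat_lit 0) (XT.lf (nat_lit 0) (nat_lit 38437655926) (nat_lit 152) (nat_lit 46066631692) (nat_lit 76) (nat_lit 204304385712) (nat_lit 20) (nat_lit 5) (nat_lit 22) (nat_lit 5) (nat_lit 21) (nat_lit 4) (nat_lit 455) (nat_lit 376) (nat_lit 189)) (XT.lf (nat_lit 0) (nat_lit 69342546278) (nat_lit 76) (nat_lit 25392585942) (nat_lit 152) (nat_lit 205493615078) (nat_lit 19) (nat_lit 5) (nat_lit 20) (nat_lit 5) (nat_lit 21) (nat_lit 4) (nat_lit 456) (nat_lit 376) (nat_lit 188))) (XT.nd (nat_lit 78) (nat_lit 0) (nat_lit 0) (XT.lf (nat_lit 0) (nat_lit 155212397942) (nat_lit 152) (nat_lit 120645918899) (nat_lit 0) (nat_lit 36293262388) (nat_lit 19) (nat_lit 5) (nat_lit 21) (nat_lit 4) (nat_lit 19) (nat_lit 4) (nat_lit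 457) (nat_lit 376) (nat_lit 187)) (XT.lf (nat_lit 0) (nat_lit 219129199357) (nat_lit 152) (nat_lit 5311066158) (nat_lit 0) (nat_lit 100209503661) (nat_lit 19) (nat_lit 5) (nat_lit 21) (nat_lit 4) (nat_lit 19) (nat_lit 4) (nat_lit 458) (nat_lit 376) (nat_lit 186)))))) (XT.nd (nat_lit 546) (nat_lit 228) (nat_lit 0) (XT.nd (nat_lit 234) (nat_lit 76) (nat_lit 0) (XT.nd (nat_lit 78) (nat_lit 152) (nat_lit 0) (XT.lf (nat_lit 0) (nat_lit 119617934350) (nat_lit 76) (nat_lit 168490906731) (nat_lit 76) (nat_lit 49570677568) (nat_lit 18) (nat_lit 4) (nat_lit 19) (nat_lit 5) (nat_lit 19) (nat_lit 4) (nat_lit 459) (nat_lit 376) (nat_lit 185)) (XT.nd (nat_lit 78) (nat_lit 76) (nat_lit 0) (XT.lf (nat_lit 0) (nat_lit 8973847152) (nat_lit 152) (nat_lit 100524350565) (nat_lit 76) (nat_lit 241850851712) (nat_lit 17) (nat_lit 5) (nat_lit 19) (nat_lit 5) (nat_lit 18) (nat_lit 4) (nat_lit 460) (nat_lit 376) (nat_lit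 184)) (XT.lf (nat_lit 0) (nat_lit 22805981108) (nat_lit 76) (nat_lit 46329239481) (nat_lit 152) (nat_lit 296508428376) (nat_lit 16) (nat_lit 5) (nat_lit 17) (nat_lit 5) (nat_lit 18) (nat_lit 4) (nat_lit 461) (nat_lit 376) (nat_lit 183)))) (XT.nd (nat_lit 156) (nat_lit 76) (nat_lit 0) (XT.nd (nat_lit 78) (nat_lit 0) (nat_lit 0) (XT.lf (nat_lit 0) (nat_lit 134346685838) (nat_lit 152) (nat_lit 225116250371) (nat_lit 0) (nat_lit 21087941143) (nat_lit 16) (nat_lit 5) (nat_lit 18) (nat_lit 4) (nat_lit 16) (nat_lit 4) (nat_lit 462) (nat_lit 376) (nat_lit 182)) (XT.lf (nat_lit 0) (nat_lit 203577704395) (nat_lit 152) (nat_lit 102269272077) (nat_lit 0) (nat_lit 90318541714) (nat_lit 16) (nat_lit 5) (nat_lit 18) (nat_lit 4) (nat_lit 16) (nat_lit 4) (nat_lit 463) (nat_lit 376) (nat_lit 181))) (XT.nd (nat_lit 78) (nat_lit 0) (nat_lit 0) (XT.lf (nat_lit 0) (nat_lit 27602542846) (nat_lit 76) (nat_lit 249098192957)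 (nat_lit 76) (nat_lit 135838632193) (nat_lit 15) (nat_lit 4) (nat_lit 16) (nat_lit 5) (nat_lit 16) (nat_lit 4) (nat_lit 464) (nat_lit 376) (nat_lit 180)) (XT.lf (nat_lit 0) (nat_lit 167517556258) (nat_lit 76) (nat_lit 187693859552) (nat_lit 76) (nat_lit 74433919662) (nat_lit 15) (nat_lit 4) (nat_lit 16) (nat_lit 5) (nat_lit 16) (nat_lit 4) (nat_lit 465) (nat_lit 376) (nat_lit 179))))) (XT.nd (nat_lit 234) (nat_lit 76) (nat_lit 0) (XT.nd (nat_lit 78) (nat_lit 152) (nat_lit 0) (XT.lf (nat_lit 0) (nat_lit 314427415145) (nat_lit 76) (nat_lit 123219755073) (nat_lit 76) (nat_lit 9959454111) (nat_lit 15) (nat_lit 4) (nat_lit 16) (nat_lit 5) (nat_lit 16) (nat_lit 4) (nat_lit 466) (nat_lit 376) (nat_lit 178)) (XT.nd (nat_lit 78) (nat_lit 0) (nat_lit 0) (XT.lf (nat_lit 0) (nat_lit 1357910681) (nat_lit 76) (nat_lit 54553579816) (nat_lit 152) (nat_lit 410508376189) (nat_lit 13) (nat_lit 5) (nat_lit 14)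 (nat_lit 5) (nat_lit 15) (nat_lit 4) (nat_lit 467) (nat_lit 376) (nat_lit 177)) (XT.lf (nat_lit 0) (nat_lit 127307205281) (nat_lit 152) (nat_lit 339290493547) (nat_lit 0) (nat_lit 19439612573) (nat_lit 13) (nat_lit 5) (nat_lit 15) (nat_lit 4) (nat_lit 13) (nat_lit 4) (nat_lit 468) (nat_lit 376) (nat_lit 176)))) (XT.nd (nat_lit 156) (nat_lit 76) (nat_lit 0) (XT.nd (nat_lit 78) (nat_lit 0) (nat_lit 0) (XT.lf (nat_lit 0) (nat_lit 203166604080) (nat_lit 152) (nat_lit 208125615064) (nat_lit 0) (nat_lit 95298714317) (nat_lit 13) (nat_lit 5) (nat_lit 15) (nat_lit 4) (nat_lit 13) (nat_lit 4) (nat_lit 469) (nat_lit 376) (nat_lit 175)) (XT.lf (nat_lit 0) (nat_lit 282818570243) (nat_lit 152) (nat_lit 70403288958) (nat_lit 0) (nat_lit 174950397570) (nat_lit 13) (nat_lit 5) (nat_lit 15) (nat_lit 4) (nat_lit 13) (nat_lit 4) (nat_lit 470) (nat_lit 376) (nat_lit 174))) (XT.nd (nat_lit 78) (nat_lit 0) (nat_lit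 0) (XT.lf (nat_lit 0) (nat_lit 76657927487) (nat_lit 76) (nat_lit 290991668903) (nat_lit 76) (nat_lit 183123226793) (nat_lit 12) (nat_lit 4) (nat_lit 13) (nat_lit 5) (nat_lit 13) (nat_lit 4) (nat_lit 471) (nat_lit 376) (nat_lit 173)) (XT.lf (nat_lit 0) (nat_lit 233515701823) (nat_lit 76) (nat_lit 224398408991) (nat_lit 76) (nat_lit 116529710273) (nat_lit 12) (nat_lit 4) (nat_lit 13) (nat_lit 5) (nat_lit 13) (nat_lit 4) (nat_lit 472) (nat_lit 376) (nat_lit 172))))))))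
noncomputable def xc181 : XT := (XT.nd (nat_lit 47268) (nat_lit 0) (nat_lit 2736) (XT.nd (nat_lit 46176) (nat_lit 0) (nat_lit 6004) (XT.nd (nat_lit 45630) (nat_lit 0) (nat_lit 8208) (XT.nd (nat_lit 234) (nat_lit 0) (nat_lit 0) (XT.nd (nat_lit 78) (nat_lit 152) (nat_lit 0) (XT.lf (nat_lit 0) (nat_lit 398215654255) (nat_lit 76) (nat_lit 154475837849) (nat_lit 76) (nat_lit 46606894743) (nat_lit 12) (nat_lit 4) (nat_lit 13) (nat_lit 5) (nat_lit 13) (nat_lit 4) (nat_lit 473) (nat_lit 376) (nat_lit 171)) (XT.nd (nat_lit 78) (nat_lit 76) (nat_lit 0) (XT.lf (nat_lit 0) (nat_lit 25953560763) (nat_lit 152) (nat_lit 54664376291) (nat_lit 76) (nat_lit 544756830655) (nat_lit 11) (nat_lit 5) (nat_lit 13) (nat_lit 5) (nat_lit 12) (nat_lit 4) (nat_lit 474) (nat_lit 376) (nat_lit 170)) (XT.lf (nat_lit 0) (nat_lit 101560773886) (nat_lit 76) (nat_lit 600285337) (nat_lit 152) (nat_lit 550476440160) (nat_lit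 10) (nat_lit 5) (nat_lit 11) (nat_lit 5) (nat_lit 12) (nat_lit 4) (nat_lit 475) (nat_lit 376) (nat_lit 169)))) (XT.nd (nat_lit 78) (nat_lit 0) (nat_lit 0) (XT.lf (nat_lit 0) (nat_lit 184421939285) (nat_lit 152) (nat_lit 415040299357) (nat_lit 0) (nat_lit 81688978681) (nat_lit 10) (nat_lit 5) (nat_lit 12) (nat_lit 4) (nat_lit 10) (nat_lit 4) (nat_lit 476) (nat_lit 376) (nat_lit 168)) (XT.nd (nat_lit 78) (nat_lit 0) (nat_lit 0) (XT.lf (nat_lit 0) (nat_lit 270805389664) (nat_lit 152) (nat_lit 272212517619) (nat_lit 0) (nat_lit 168072237575) (nat_lit 10) (nat_lit 5) (nat_lit 12) (nat_lit 4) (nat_lit 10) (nat_lit 4) (nat_lit 477) (nat_lit 376) (nat_lit 167)) (XT.lf (nat_lit 0) (nat_lit 361507713105) (nat_lit 152) (nat_lit 122243942000) (nat_lit 0) (nat_lit 258774378650) (nat_lit 10) (nat_lit 5) (nat_lit 12) (nat_lit 4) (nat_lit 10) (nat_lit 4) (nat_lit 478) (nat_lit 376) (nat_lit 166))))) (XT.nd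 (nat_lit 234) (nat_lit 0) (nat_lit 76) (XT.nd (nat_lit 78) (nat_lit 0) (nat_lit 0) (XT.lf (nat_lit 0) (nat_lit 2747534619) (nat_lit 836) (nat_lit 4827354079) (nat_lit 836) (nat_lit 4827354079) (nat_lit 118) (nat_lit 3) (nat_lit 129) (nat_lit 3) (nat_lit 129) (nat_lit 5) (nat_lit 377) (nat_lit 377) (nat_lit 266)) (XT.nd (nat_lit 78) (nat_lit 0) (nat_lit 76) (XT.lf (nat_lit 76) (nat_lit 2476394893) (nat_lit 0) (nat_lit 3299075479) (nat_lit 836) (nat_lit 19641919021) (nat_lit 119) (nat_lit 5) (nat_lit 118) (nat_lit 3) (nat_lit 129) (nat_lit 5) (nat_lit 378) (nat_lit 377) (nat_lit 265)) (XT.lf (nat_lit 0) (nat_lit 6372156736) (nat_lit 760) (nat_lit 10652980888) (nat_lit 836) (nat_lit 9020691193) (nat_lit 119) (nat_lit 5) (nat_lit 129) (nat_lit 5) (nat_lit 130) (nat_lit 5) (nat_lit 379) (nat_lit 377) (nat_lit 264)))) (XT.nd (nat_lit 156) (nat_lit 0) (nat_lit 76) (XT.nd (nat_lit 78) (nat_lit 0)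 (nat_lit 76) (XT.lf (nat_lit 76) (nat_lit 2263988981) (nat_lit 0) (nat_lit 4817748934) (nat_lit 836) (nat_lit 19619802754) (nat_lit 120) (nat_lit 5) (nat_lit 119) (nat_lit 5) (nat_lit 130) (nat_lit 5) (nat_lit 380) (nat_lit 377) (nat_lit 263)) (XT.lf (nat_lit 0) (nat_lit 8128983295) (nat_lit 760) (nat_lit 11316330648) (nat_lit 836) (nat_lit 7929618228) (nat_lit 120) (nat_lit 5) (nat_lit 130) (nat_lit 5) (nat_lit 131) (nat_lit 5) (nat_lit 381) (nat_lit 377) (nat_lit 262))) (XT.nd (nat_lit 78) (nat_lit 0) (nat_lit 76) (XT.lf (nat_lit 76) (nat_lit 2456689128) (nat_lit 0) (nat_lit 6883438624) (nat_lit 836) (nat_lit 18736291810) (nat_lit 121) (nat_lit 5) (nat_lit 120) (nat_lit 5) (nat_lit 131) (nat_lit 5) (nat_lit 382) (nat_lit 377) (nat_lit 261)) (XT.lf (nat_lit 0) (nat_lit 10899525950) (nat_lit 760) (nat_lit 11597924294) (nat_lit 836) (nat_lit 6301149261) (nat_lit 121) (nat_lit 5) (nat_lit 131)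 (nat_lit 5) (nat_lit 132) (nat_lit 5) (nat_lit 383) (nat_lit 377) (nat_lit 260)))))) (XT.nd (nat_lit 546) (nat_lit 1444) (nat_lit 0) (XT.nd (nat_lit 234) (nat_lit 988) (nat_lit 0) (XT.nd (nat_lit 78) (nat_lit 0) (nat_lit 76) (XT.lf (nat_lit 76) (nat_lit 3107632240) (nat_lit 0) (nat_lit 9585333066) (nat_lit 836) (nat_lit 16856122439) (nat_lit 122) (nat_lit 5) (nat_lit 121) (nat_lit 5) (nat_lit 132) (nat_lit 5) (nat_lit 384) (nat_lit 377) (nat_lit 259)) (XT.nd (nat_lit 78) (nat_lit 0) (nat_lit 0) (XT.lf (nat_lit 0) (nat_lit 14832652217) (nat_lit 760) (nat_lit 11445572232) (nat_lit 836) (nat_lit 4046049895) (nat_lit 122) (nat_lit 5) (nat_lit 132) (nat_lit 5) (nat_lit 133) (nat_lit 5) (nat_lit 385) (nat_lit 377) (nat_lit 258)) (XT.lf (nat_lit 76) (nat_lit 4275848234) (nat_lit 0) (nat_lit 13022530814) (nat_lit 836) (nat_lit 13828891042) (nat_lit 123) (nat_lit 5) (nat_lit 122) (nat_lit 5) (nat_lit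 133) (nat_lit 5) (nat_lit 386) (nat_lit 377) (nat_lit 257)))) (XT.nd (nat_lit 156) (nat_lit 380) (nat_lit 0) (XT.nd (nat_lit 78) (nat_lit 760) (nat_lit 0) (XT.lf (nat_lit 0) (nat_lit 20093736655) (nat_lit 760) (nat_lit 10801343482) (nat_lit 76) (nat_lit 1065020739) (nat_lit 123) (nat_lit 5) (nat_lit 133) (nat_lit 5) (nat_lit 124) (nat_lit 5) (nat_lit 387) (nat_lit 377) (nat_lit 256)) (XT.lf (nat_lit 0) (nat_lit 6026686375) (nat_lit 760) (nat_lit 17305317375) (nat_lit 836) (nat_lit 9487414726) (nat_lit 113) (nat_lit 5) (nat_lit 123) (nat_lit 5) (nat_lit 124) (nat_lit 5) (nat_lit 388) (nat_lit 377) (nat_lit 255))) (XT.nd (nat_lit 78) (nat_lit 380) (nat_lit 0) (XT.lf (nat_lit 0) (nat_lit 24067219925) (nat_lit 760) (nat_lit 2843604693) (nat_lit 836) (nat_lit 6801947559) (nat_lit 113) (nat_lit 5) (nat_lit 123) (nat_lit 5) (nat_lit 124) (nat_lit 5) (nat_lit 389) (nat_lit 377) (nat_lit 254)) (XT.lf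 (nat_lit 0) (nat_lit 8432268695) (nat_lit 380) (nat_lit 22556574105) (nat_lit 456) (nat_lit 3645940087) (nat_lit 108) (nat_lit 5) (nat_lit 113) (nat_lit 5) (nat_lit 114) (nat_lit 5) (nat_lit 390) (nat_lit 377) (nat_lit 253))))) (XT.nd (nat_lit 234) (nat_lit 988) (nat_lit 0) (XT.nd (nat_lit 78) (nat_lit 456) (nat_lit 0) (XT.lf (nat_lit 0) (nat_lit 27696835398) (nat_lit 380) (nat_lit 7779201313) (nat_lit 456) (nat_lit 116595715) (nat_lit 108) (nat_lit 5) (nat_lit 113) (nat_lit 5) (nat_lit 114) (nat_lit 5) (nat_lit 391) (nat_lit 377) (nat_lit 252)) (XT.nd (nat_lit 78) (nat_lit 0) (nat_lit 0) (XT.lf (nat_lit 0) (nat_lit 3776932045) (nat_lit 456) (nat_lit 25072440906) (nat_lit 76) (nat_lit 7731071775) (nat_lit 102) (nat_lit 5) (nat_lit 108) (nat_lit 5) (nat_lit 103) (nat_lit 5) (nat_lit 392) (nat_lit 377) (nat_lit 251)) (XT.lf (nat_lit 0) (nat_lit 8120962000) (nat_lit 456) (nat_lit 5590402075)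 (nat_lit 76) (nat_lit 23893202546) (nat_lit 102) (nat_lit 5) (nat_lit 108) (nat_lit 5) (nat_lit 103) (nat_lit 5) (nat_lit 393) (nat_lit 377) (nat_lit 250)))) (XT.nd (nat_lit 156) (nat_lit 608) (nat_lit 0) (XT.nd (nat_lit 78) (nat_lit 0) (nat_lit 0) (XT.lf (nat_lit 0) (nat_lit 12956401542) (nat_lit 456) (nat_lit 23352701641) (nat_lit 76) (nat_lit 2357082695) (nat_lit 97) (nat_lit 5) (nat_lit 103) (nat_lit 5) (nat_lit 98) (nat_lit 5) (nat_lit 394) (nat_lit 377) (nat_lit 249)) (XT.lf (nat_lit 0) (nat_lit 18351204608) (nat_lit 456) (nat_lit 2549678167) (nat_lit 76) (nat_lit 18864125341) (nat_lit 97) (nat_lit 5) (nat_lit 103) (nat_lit 5) (nat_lit 98) (nat_lit 5) (nat_lit 395) (nat_lit 377) (nat_lit 248))) (XT.nd (nat_lit 78) (nat_lit 304) (nat_lit 0) (XT.lf (nat_lit 0) (nat_lit 19927640325) (nat_lit 304) (nat_lit 4395983198) (nat_lit 380) (nat_lit 16579755675) (nat_lit 93) (nat_lit 5) (nat_lit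 97) (nat_lit 5) (nat_lit 98) (nat_lit 5) (nat_lit 396) (nat_lit 377) (nat_lit 247)) (XT.lf (nat_lit 0) (nat_lit 1357890633) (nat_lit 304) (nat_lit 29500640430) (nat_lit 380) (nat_lit 11226945836) (nat_lit 89) (nat_lit 5) (nat_lit 93) (nat_lit 5) (nat_lit 94) (nat_lit 5) (nat_lit 397) (nat_lit 377) (nat_lit 246))))))) (XT.nd (nat_lit 1014) (nat_lit 1444) (nat_lit 0) (XT.nd (nat_lit 468) (nat_lit 988) (nat_lit 0) (XT.nd (nat_lit 234) (nat_lit 532) (nat_lit 0) (XT.nd (nat_lit 78) (nat_lit 304) (nat_lit 0) (XT.lf (nat_lit 0) (nat_lit 25458286466) (nat_lit 304) (nat_lit 12684968256) (nat_lit 380) (nat_lit 5162272599) (nat_lit 89) (nat_lit 5) (nat_lit 93) (nat_lit 5) (nat_lit 94) (nat_lit 5) (nat_lit 398) (nat_lit 377) (nat_lit 245)) (XT.nd (nat_lit 78) (nat_lit 0) (nat_lit 0) (XT.lf (nat_lit 0) (nat_lit 1342890475) (nat_lit 304) (nat_lit 38302190782) (nat_lit 76) (nat_lit 4931766892) (nat_lit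 85) (nat_lit 5) (nat_lit 89) (nat_lit 5) (nat_lit 86) (nat_lit 5) (nat_lit 399) (nat_lit 377) (nat_lit 244)) (XT.lf (nat_lit 0) (nat_lit 8512087978) (nat_lit 304) (nat_lit 13975585795) (nat_lit 76) (nat_lit 23394217940) (nat_lit 85) (nat_lit 5) (nat_lit 89) (nat_lit 5) (nat_lit 86) (nat_lit 5) (nat_lit 400) (nat_lit 377) (nat_lit 243)))) (XT.nd (nat_lit 78) (nat_lit 228) (nat_lit 0) (XT.lf (nat_lit 0) (nat_lit 11946180785) (nat_lit 304) (nat_lit 4277321341) (nat_lit 380) (nat_lit 31019498623) (nat_lit 81) (nat_lit 5) (nat_lit 85) (nat_lit 5) (nat_lit 86) (nat_lit 5) (nat_lit 401) (nat_lit 377) (nat_lit 242)) (XT.nd (nat_lit 78) (nat_lit 228) (nat_lit 0) (XT.lf (nat_lit 0) (nat_lit 24790108073) (nat_lit 380) (nat_lit 9250311096) (nat_lit 76) (nat_lit 14608266091) (nat_lit 81) (nat_lit 5) (nat_lit 86) (nat_lit 5) (nat_lit 82) (nat_lit 5) (nat_lit 402) (nat_lit 377) (nat_lit 241)) (XT.lf (nat_lit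 0) (nat_lit 18620974424) (nat_lit 228) (nat_lit 15522352021) (nat_lit 304) (nat_lit 15963414474) (nat_lit 78) (nat_lit 5) (nat_lit 81) (nat_lit 5) (nat_lit 82) (nat_lit 5) (nat_lit 403) (nat_lit 377) (nat_lit 240))))) (XT.nd (nat_lit 234) (nat_lit 456) (nat_lit 0) (XT.nd (nat_lit 78) (nat_lit 532) (nat_lit 0) (XT.lf (nat_lit 0) (nat_lit 44182152421) (nat_lit 304) (nat_lit 3490161203) (nat_lit 76) (nat_lit 3954489382) (nat_lit 78) (nat_lit 5) (nat_lit 82) (nat_lit 5) (nat_lit 79) (nat_lit 5) (nat_lit 404) (nat_lit 377) (nat_lit 239)) (XT.nd (nat_lit 78) (nat_lit 228) (nat_lit 0) (XT.lf (nat_lit 0) (nat_lit 2128698766) (nat_lit 304) (nat_lit 26728443445) (nat_lit 76) (nat_lit 24330722958) (nat_lit 74) (nat_lit 5) (nat_lit 78) (nat_lit 5) (nat_lit 75) (nat_lit 5) (nat_lit 405) (nat_lit 377) (nat_lit 238)) (XT.lf (nat_lit 0) (nat_lit 3179032165) (nat_lit 228) (nat_lit 8858840382) (nat_lit 304)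 (nat_lit 42777639265) (nat_lit 71) (nat_lit 5) (nat_lit 74) (nat_lit 5) (nat_lit 75) (nat_lit 5) (nat_lit 406) (nat_lit 377) (nat_lit 237)))) (XT.nd (nat_lit 156) (nat_lit 228) (nat_lit 0) (XT.nd (nat_lit 78) (nat_lit 228) (nat_lit 0) (XT.lf (nat_lit 0) (nat_lit 23089796480) (nat_lit 304) (nat_lit 21192405862) (nat_lit 76) (nat_lit 12209974677) (nat_lit 71) (nat_lit 5) (nat_lit 75) (nat_lit 5) (nat_lit 72) (nat_lit 5) (nat_lit 407) (nat_lit 377) (nat_lit 236)) (XT.lf (nat_lit 0) (nat_lit 10976749778) (nat_lit 228) (nat_lit 24031963938) (nat_lit 304) (nat_lit 23228242682) (nat_lit 68) (nat_lit 5) (nat_lit 71) (nat_lit 5) (nat_lit 72) (nat_lit 5) (nat_lit 408) (nat_lit 377) (nat_lit 235))) (XT.nd (nat_lit 78) (nat_lit 228) (nat_lit 0) (XT.lf (nat_lit 0) (nat_lit 45486948120) (nat_lit 228) (nat_lit 2393380401) (nat_lit 304) (nat_lit 12170809370) (nat_lit 68) (nat_lit 5) (nat_lit 71) (nat_lit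 5) (nat_lit 72) (nat_lit 5) (nat_lit 409) (nat_lit 377) (nat_lit 234)) (XT.lf (nat_lit 0) (nat_lit 96691845) (nat_lit 228) (nat_lit 41837003881) (nat_lit 76) (nat_lit 19990808118) (nat_lit 65) (nat_lit 5) (nat_lit 68) (nat_lit 5) (nat_lit 66) (nat_lit 5) (nat_lit 410) (nat_lit 377) (nat_lit 233)))))) (XT.nd (nat_lit 546) (nat_lit 684) (nat_lit 0) (XT.nd (nat_lit 234) (nat_lit 380) (nat_lit 0) (XT.nd (nat_lit 78) (nat_lit 380) (nat_lit 0) (XT.lf (nat_lit 0) (nat_lit 12856432326) (nat_lit 228) (nat_lit 7147719272) (nat_lit 76) (nat_lit 43863016892) (nat_lit 65) (nat_lit 5) (nat_lit 68) (nat_lit 5) (nat_lit 66) (nat_lit 5) (nat_lit 411) (nat_lit 377) (nat_lit 232)) (XT.nd (nat_lit 78) (nat_lit 152) (nat_lit 0) (XT.lf (nat_lit 0) (nat_lit 26779259746) (nat_lit 304) (nat_lit 35697406493) (nat_lit 76) (nat_lit 3404045735) (nat_lit 62) (nat_lit 5) (nat_lit 66) (nat_lit 5) (nat_lit 63) (nat_lit 5)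 (nat_lit 412) (nat_lit 377) (nat_lit 231)) (XT.lf (nat_lit 0) (nat_lit 1350449395) (nat_lit 152) (nat_lit 40517915960) (nat_lit 228) (nat_lit 26103061010) (nat_lit 60) (nat_lit 5) (nat_lit 62) (nat_lit 5) (nat_lit 63) (nat_lit 5) (nat_lit 413) (nat_lit 377) (nat_lit 230)))) (XT.nd (nat_lit 156) (nat_lit 152) (nat_lit 0) (XT.nd (nat_lit 78) (nat_lit 228) (nat_lit 0) (XT.lf (nat_lit 0) (nat_lit 41487073813) (nat_lit 152) (nat_lit 16827531577) (nat_lit 228) (nat_lit 11821937672) (nat_lit 60) (nat_lit 5) (nat_lit 62) (nat_lit 5) (nat_lit 63) (nat_lit 5) (nat_lit 414) (nat_lit 377) (nat_lit 229)) (XT.lf (nat_lit 0) (nat_lit 3379386793) (nat_lit 228) (nat_lit 60990449320) (nat_lit 76) (nat_lit 8022217389) (nat_lit 57) (nat_lit 5) (nat_lit 60) (nat_lit 5) (nat_lit 58) (nat_lit 5) (nat_lit 415) (nat_lit 377) (nat_lit 228))) (XT.nd (nat_lit 78) (nat_lit 152) (nat_lit 0) (XT.lf (nat_lit 0) (nat_lit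 19710702056) (nat_lit 228) (nat_lit 20766724464) (nat_lit 76) (nat_lit 34234862342) (nat_lit 57) (nat_lit 5) (nat_lit 60) (nat_lit 5) (nat_lit 58) (nat_lit 5) (nat_lit 416) (nat_lit 377) (nat_lit 227)) (XT.lf (nat_lit 0) (nat_lit 22175165277) (nat_lit 152) (nat_lit 15027930877) (nat_lit 228) (nat_lit 39928214632) (nat_lit 55) (nat_lit 5) (nat_lit 57) (nat_lit 5) (nat_lit 58) (nat_lit 5) (nat_lit 417) (nat_lit 377) (nat_lit 226))))) (XT.nd (nat_lit 234) (nat_lit 456) (nat_lit 0) (XT.nd (nat_lit 78) (nat_lit 228) (nat_lit 0) (XT.lf (nat_lit 0) (nat_lit 56108465450) (nat_lit 228) (nat_lit 11859705722) (nat_lit 76) (nat_lit 11676195286) (nat_lit 55) (nat_lit 5) (nat_lit 58) (nat_lit 5) (nat_lit 56) (nat_lit 5) (nat_lit 418) (nat_lit 377) (nat_lit 225)) (XT.nd (nat_lit 78) (nat_lit 76) (nat_lit 0) (XT.lf (nat_lit 0) (nat_lit 34238383665) (nat_lit 152) (nat_lit 42500035001) (nat_lit 228) (nat_lit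 5505690881) (nat_lit 53) (nat_lit 5) (nat_lit 55) (nat_lit 5) (nat_lit 56) (nat_lit 5) (nat_lit 419) (nat_lit 377) (nat_lit 224)) (XT.lf (nat_lit 0) (nat_lit 13198863661) (nat_lit 228) (nat_lit 2126253290) (nat_lit 76) (nat_lit 69628114775) (nat_lit 52) (nat_lit 5) (nat_lit 55) (nat_lit 5) (nat_lit 53) (nat_lit 5) (nat_lit 420) (nat_lit 377) (nat_lit 223)))) (XT.nd (nat_lit 156) (nat_lit 152) (nat_lit 0) (XT.nd (nat_lit 78) (nat_lit 152) (nat_lit 0) (XT.lf (nat_lit 0) (nat_lit 33613139526) (nat_lit 228) (nat_lit 40502292839) (nat_lit 76) (nat_lit 13629889094) (nat_lit 50) (nat_lit 5) (nat_lit 53) (nat_lit 5) (nat_lit 51) (nat_lit 5) (nat_lit 421) (nat_lit 377) (nat_lit 222)) (XT.lf (nat_lit 0) (nat_lit 8496956111) (nat_lit 152) (nat_lit 46970166629) (nat_lit 228) (nat_lit 35188943595) (nat_lit 48) (nat_lit 5) (nat_lit 50) (nat_lit 5) (nat_lit 51) (nat_lit 5) (nat_lit 422) (nat_lit 377) (nat_lit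 221))) (XT.nd (nat_lit 78) (nat_lit 152) (nat_lit 0) (XT.lf (nat_lit 0) (nat_lit 61349800956) (nat_lit 152) (nat_lit 17748463577) (nat_lit 228) (nat_lit 14579861269) (nat_lit 48) (nat_lit 5) (nat_lit 50) (nat_lit 5) (nat_lit 51) (nat_lit 5) (nat_lit 423) (nat_lit 377) (nat_lit 220)) (XT.lf (nat_lit 0) (nat_lit 7361957160) (nat_lit 152) (nat_lit 76500100899) (nat_lit 76) (nat_lit 12957307623) (nat_lit 46) (nat_lit 5) (nat_lit 48) (nat_lit 5) (nat_lit 47) (nat_lit 5) (nat_lit 424) (nat_lit 377) (nat_lit 219))))))))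
noncomputable def xc182 : XT := (XT.nd (nat_lit 2106) (nat_lit 988) (nat_lit 0) (XT.nd (nat_lit 1014) (nat_lit 684) (nat_lit 0) (XT.nd (nat_lit 468) (nat_lit 608) (nat_lit 0) (XT.nd (nat_lit 234) (nat_lit 304) (nat_lit 0) (XT.nd (nat_lit 78) (nat_lit 152) (nat_lit 0) (XT.lf (nat_lit 0) (nat_lit 30756911570) (nat_lit 152) (nat_lit 23910097057) (nat_lit 76) (nat_lit 45396407299) (nat_lit 46) (nat_lit 5) (nat_lit 48) (nat_lit 5) (nat_lit 47) (nat_lit 5) (nat_lit 425) (nat_lit 377) (nat_lit 218)) (XT.nd (nat_lit 78) (nat_lit 0) (nat_lit 0) (XT.lf (nat_lit 0) (nat_lit 32342220244) (nat_lit 152) (nat_lit 23483007502) (nat_lit 228) (nat_lit 47619260495) (nat_lit 44) (nat_lit 5) (nat_lit 46) (nat_lit 5) (nat_lit 47) (nat_lit 5) (nat_lit 426) (nat_lit 377) (nat_lit 217)) (XT.lf (nat_lit 0) (nat_lit 82701778232) (nat_lit 228) (nat_lit 14890677824) (nat_lit 76) (nat_lit 9374417442) (nat_lit 44) (nat_lit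 5) (nat_lit 47) (nat_lit 5) (nat_lit 45) (nat_lit 4) (nat_lit 427) (nat_lit 377) (nat_lit 216)))) (XT.nd (nat_lit 78) (nat_lit 152) (nat_lit 0) (XT.lf (nat_lit 0) (nat_lit 1355673304) (nat_lit 152) (nat_lit 65442113307) (nat_lit 76) (nat_lit 43812035501) (nat_lit 42) (nat_lit 5) (nat_lit 44) (nat_lit 5) (nat_lit 43) (nat_lit 5) (nat_lit 428) (nat_lit 377) (nat_lit 215)) (XT.nd (nat_lit 78) (nat_lit 152) (nat_lit 0) (XT.lf (nat_lit 0) (nat_lit 27697071004) (nat_lit 152) (nat_lit 6080492195) (nat_lit 76) (nat_lit 80624712901) (nat_lit 42) (nat_lit 5) (nat_lit 44) (nat_lit 5) (nat_lit 43) (nat_lit 5) (nat_lit 429) (nat_lit 377) (nat_lit 214)) (XT.lf (nat_lit 0) (nat_lit 56290361712) (nat_lit 228) (nat_lit 60261009574) (nat_lit 76) (nat_lit 1786240551) (nat_lit 40) (nat_lit 5) (nat_lit 43) (nat_lit 5) (nat_lit 41) (nat_lit 4) (nat_lit 430) (nat_lit 377) (nat_lit 213))))) (XT.nd (nat_lit 234)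 (nat_lit 304) (nat_lit 0) (XT.nd (nat_lit 78) (nat_lit 228) (nat_lit 0) (XT.lf (nat_lit 0) (nat_lit 2717496116) (nat_lit 76) (nat_lit 84295454953) (nat_lit 152) (nat_lit 35421781779) (nat_lit 39) (nat_lit 5) (nat_lit 40) (nat_lit 5) (nat_lit 41) (nat_lit 4) (nat_lit 431) (nat_lit 377) (nat_lit 212)) (XT.nd (nat_lit 78) (nat_lit 228) (nat_lit 0) (XT.lf (nat_lit 0) (nat_lit 70934939030) (nat_lit 76) (nat_lit 49356115433) (nat_lit 152) (nat_lit 6394686408) (nat_lit 39) (nat_lit 5) (nat_lit 40) (nat_lit 5) (nat_lit 41) (nat_lit 4) (nat_lit 432) (nat_lit 377) (nat_lit 211)) (XT.lf (nat_lit 0) (nat_lit 11400785051) (nat_lit 152) (nat_lit 12089018359) (nat_lit 228) (nat_lit 107631851773) (nat_lit 36) (nat_lit 5) (nat_lit 38) (nat_lit 5) (nat_lit 39) (nat_lit 5) (nat_lit 433) (nat_lit 377) (nat_lit 210)))) (XT.nd (nat_lit 156) (nat_lit 228) (nat_lit 0) (XT.nd (nat_lit 78) (nat_lit 76) (nat_lit 0)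 (XT.lf (nat_lit 0) (nat_lit 56034332104) (nat_lit 228) (nat_lit 52431224390) (nat_lit 76) (nat_lit 27239531444) (nat_lit 36) (nat_lit 5) (nat_lit 39) (nat_lit 5) (nat_lit 37) (nat_lit 4) (nat_lit 434) (nat_lit 377) (nat_lit 209)) (XT.lf (nat_lit 0) (nat_lit 18618675841) (nat_lit 76) (nat_lit 72075215316) (nat_lit 152) (nat_lit 49799411130) (nat_lit 35) (nat_lit 5) (nat_lit 36) (nat_lit 5) (nat_lit 37) (nat_lit 4) (nat_lit 435) (nat_lit 377) (nat_lit 208))) (XT.nd (nat_lit 78) (nat_lit 228) (nat_lit 0) (XT.lf (nat_lit 0) (nat_lit 95039435359) (nat_lit 76) (nat_lit 32933895204) (nat_lit 152) (nat_lit 17503251817) (nat_lit 35) (nat_lit 5) (nat_lit 36) (nat_lit 5) (nat_lit 37) (nat_lit 4) (nat_lit 436) (nat_lit 377) (nat_lit 207)) (XT.lf (nat_lit 0) (nat_lit 16411803237) (nat_lit 228) (nat_lit 125696645246) (nat_lit 76) (nat_lit 8561307748) (nat_lit 32) (nat_lit 5) (nat_lit 35) (nat_lit 5) (nat_lit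 33) (nat_lit 4) (nat_lit 437) (nat_lit 377) (nat_lit 206)))))) (XT.nd (nat_lit 546) (nat_lit 380) (nat_lit 0) (XT.nd (nat_lit 234) (nat_lit 228) (nat_lit 0) (XT.nd (nat_lit 78) (nat_lit 76) (nat_lit 0) (XT.lf (nat_lit 0) (nat_lit 52841461137) (nat_lit 228) (nat_lit 51017653064) (nat_lit 76) (nat_lit 52178774067) (nat_lit 32) (nat_lit 5) (nat_lit 35) (nat_lit 5) (nat_lit 33) (nat_lit 4) (nat_lit 438) (nat_lit 377) (nat_lit 205)) (XT.nd (nat_lit 78) (nat_lit 0) (nat_lit 0) (XT.lf (nat_lit 0) (nat_lit 28299253450) (nat_lit 76) (nat_lit 63234220859) (nat_lit 152) (nat_lit 70118909098) (nat_lit 31) (nat_lit 5) (nat_lit 32) (nat_lit 5) (nat_lit 33) (nat_lit 4) (nat_lit 439) (nat_lit 377) (nat_lit 204)) (XT.lf (nat_lit 0) (nat_lit 113351463726) (nat_lit 76) (nat_lit 19671692942) (nat_lit 152) (nat_lit 34481293323) (nat_lit 31) (nat_lit 5) (nat_lit 32) (nat_lit 5) (nat_lit 33) (nat_lit 4) (nat_lit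 440) (nat_lit 377) (nat_lit 203)))) (XT.nd (nat_lit 156) (nat_lit 76) (nat_lit 0) (XT.nd (nat_lit 78) (nat_lit 0) (nat_lit 0) (XT.lf (nat_lit 0) (nat_lit 3725748709) (nat_lit 152) (nat_lit 144121803697) (nat_lit 76) (nat_lit 25755194607) (nat_lit 29) (nat_lit 5) (nat_lit 31) (nat_lit 5) (nat_lit 30) (nat_lit 4) (nat_lit 441) (nat_lit 377) (nat_lit 202)) (XT.lf (nat_lit 0) (nat_lit 43938068367) (nat_lit 152) (nat_lit 61687963848) (nat_lit 76) (nat_lit 74288977260) (nat_lit 29) (nat_lit 5) (nat_lit 31) (nat_lit 5) (nat_lit 30) (nat_lit 4) (nat_lit 442) (nat_lit 377) (nat_lit 201))) (XT.nd (nat_lit 78) (nat_lit 0) (nat_lit 0) (XT.lf (nat_lit 0) (nat_lit 25688119010) (nat_lit 76) (nat_lit 60873086384) (nat_lit 152) (nat_lit 99961669690) (nat_lit 28) (nat_lit 5) (nat_lit 29) (nat_lit 5) (nat_lit 30) (nat_lit 4) (nat_lit 443) (nat_lit 377) (nat_lit 200)) (XT.lf (nat_lit 0) (nat_lit 119573069881)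 (nat_lit 76) (nat_lit 12786298794) (nat_lit 152) (nat_lit 61049571919) (nat_lit 28) (nat_lit 5) (nat_lit 29) (nat_lit 5) (nat_lit 30) (nat_lit 4) (nat_lit 444) (nat_lit 377) (nat_lit 199))))) (XT.nd (nat_lit 234) (nat_lit 152) (nat_lit 0) (XT.nd (nat_lit 78) (nat_lit 152) (nat_lit 0) (XT.lf (nat_lit 0) (nat_lit 17482266866) (nat_lit 76) (nat_lit 163825981393) (nat_lit 76) (nat_lit 19288020799) (nat_lit 27) (nat_lit 4) (nat_lit 28) (nat_lit 5) (nat_lit 28) (nat_lit 4) (nat_lit 445) (nat_lit 377) (nat_lit 198)) (XT.nd (nat_lit 78) (nat_lit 76) (nat_lit 0) (XT.lf (nat_lit 0) (nat_lit 25255224512) (nat_lit 152) (nat_lit 92765859385) (nat_lit 76) (nat_lit 90028719275) (nat_lit 26) (nat_lit 5) (nat_lit 28) (nat_lit 5) (nat_lit 27) (nat_lit 4) (nat_lit 446) (nat_lit 377) (nat_lit 197)) (XT.lf (nat_lit 0) (nat_lit 1840931299) (nat_lit 76) (nat_lit 69564462440) (nat_lit 152) (nat_lit 144453412192)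 (nat_lit 25) (nat_lit 5) (nat_lit 26) (nat_lit 5) (nat_lit 27) (nat_lit 4) (nat_lit 447) (nat_lit 377) (nat_lit 196)))) (XT.nd (nat_lit 156) (nat_lit 152) (nat_lit 0) (XT.nd (nat_lit 78) (nat_lit 0) (nat_lit 0) (XT.lf (nat_lit 0) (nat_lit 104397223112) (nat_lit 76) (nat_lit 17036120747) (nat_lit 152) (nat_lit 102546401417) (nat_lit 25) (nat_lit 5) (nat_lit 26) (nat_lit 5) (nat_lit 27) (nat_lit 4) (nat_lit 448) (nat_lit 377) (nat_lit 195)) (XT.lf (nat_lit 0) (nat_lit 174557093901) (nat_lit 152) (nat_lit 21021956906) (nat_lit 0) (nat_lit 36897960727) (nat_lit 25) (nat_lit 5) (nat_lit 27) (nat_lit 4) (nat_lit 25) (nat_lit 4) (nat_lit 449) (nat_lit 377) (nat_lit 194))) (XT.nd (nat_lit 78) (nat_lit 76) (nat_lit 0) (XT.lf (nat_lit 0) (nat_lit 84903447876) (nat_lit 76) (nat_lit 147037743712) (nat_lit 76) (nat_lit 9377741574) (nat_lit 24) (nat_lit 4) (nat_lit 25) (nat_lit 5) (nat_lit 25) (nat_lit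 4) (nat_lit 450) (nat_lit 377) (nat_lit 193)) (XT.lf (nat_lit 0) (nat_lit 40621507557) (nat_lit 152) (nat_lit 54386739228) (nat_lit 76) (nat_lit 155544178447) (nat_lit 23) (nat_lit 5) (nat_lit 25) (nat_lit 5) (nat_lit 24) (nat_lit 4) (nat_lit 451) (nat_lit 377) (nat_lit 192))))))) (XT.nd (nat_lit 1014) (nat_lit 456) (nat_lit 0) (XT.nd (nat_lit 468) (nat_lit 228) (nat_lit 0) (XT.nd (nat_lit 234) (nat_lit 152) (nat_lit 0) (XT.nd (nat_lit 78) (nat_lit 76) (nat_lit 0) (XT.lf (nat_lit 0) (nat_lit 54327235692) (nat_lit 76) (nat_lit 39325863619) (nat_lit 152) (nat_lit 166544429287) (nat_lit 22) (nat_lit 5) (nat_lit 23) (nat_lit 5) (nat_lit 24) (nat_lit 4) (nat_lit 452) (nat_lit 377) (nat_lit 191)) (XT.nd (nat_lit 78) (nat_lit 76) (nat_lit 0) (XT.lf (nat_lit 0) (nat_lit 150570610687) (nat_lit 152) (nat_lit 100228966468) (nat_lit 0) (nat_lit 19463593028) (nat_lit 22) (nat_lit 5) (nat_lit 24) (nat_lit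 4) (nat_lit 22) (nat_lit 4) (nat_lit 453) (nat_lit 377) (nat_lit 190)) (XT.lf (nat_lit 0) (nat_lit 10380762263) (nat_lit 76) (nat_lit 200759361911) (nat_lit 76) (nat_lit 69651663397) (nat_lit 21) (nat_lit 4) (nat_lit 22) (nat_lit 5) (nat_lit 22) (nat_lit 4) (nat_lit 454) (nat_lit 377) (nat_lit 189)))) (XT.nd (nat_lit 78) (nat_lit 152) (nat_lit 0) (XT.lf (nat_lit 0) (nat_lit 129999493652) (nat_lit 76) (nat_lit 146435424465) (nat_lit 76) (nat_lit 15327077518) (nat_lit 21) (nat_lit 4) (nat_lit 22) (nat_lit 5) (nat_lit 22) (nat_lit 4) (nat_lit 455) (nat_lit 377) (nat_lit 188)) (XT.nd (nat_lit 78) (nat_lit 76) (nat_lit 0) (XT.lf (nat_lit 0) (nat_lit 40378036120) (nat_lit 152) (nat_lit 48333990456) (nat_lit 76) (nat_lit 214536154224) (nat_lit 20) (nat_lit 5) (nat_lit 22) (nat_lit 5) (nat_lit 21) (nat_lit 4) (nat_lit 456) (nat_lit 377) (nat_lit 187)) (XT.lf (nat_lit 0) (nat_lit 72845066206) (nat_lit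 76) (nat_lit 26644991773) (nat_lit 152) (nat_lit 215749216964) (nat_lit 19) (nat_lit 5) (nat_lit 20) (nat_lit 5) (nat_lit 21) (nat_lit 4) (nat_lit 457) (nat_lit 377) (nat_lit 186))))) (XT.nd (nat_lit 234) (nat_lit 152) (nat_lit 0) (XT.nd (nat_lit 78) (nat_lit 76) (nat_lit 0) (XT.lf (nat_lit 0) (nat_lit 162990577890) (nat_lit 152) (nat_lit 126643897294) (nat_lit 0) (nat_lit 38123803800) (nat_lit 19) (nat_lit 5) (nat_lit 21) (nat_lit 4) (nat_lit 19) (nat_lit 4) (nat_lit 458) (nat_lit 377) (nat_lit 185)) (XT.nd (nat_lit 78) (nat_lit 76) (nat_lit 0) (XT.lf (nat_lit 0) (nat_lit 230102383183) (nat_lit 152) (nat_lit 5543936086) (nat_lit 0) (nat_lit 105235101028) (nat_lit 19) (nat_lit 5) (nat_lit 21) (nat_lit 4) (nat_lit 19) (nat_lit 4) (nat_lit 459) (nat_lit 377) (nat_lit 184)) (XT.lf (nat_lit 0) (nat_lit 125630987296) (nat_lit 76) (nat_lit 176899725372) (nat_lit 76) (nat_lit 52031959346) (nat_lit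 18) (nat_lit 4) (nat_lit 19) (nat_lit 5) (nat_lit 19) (nat_lit 4) (nat_lit 460) (nat_lit 377) (nat_lit 183)))) (XT.nd (nat_lit 156) (nat_lit 0) (nat_lit 0) (XT.nd (nat_lit 78) (nat_lit 76) (nat_lit 0) (XT.lf (nat_lit 0) (nat_lit 9438444201) (nat_lit 152) (nat_lit 105519416243) (nat_lit 76) (nat_lit 253957845233) (nat_lit 17) (nat_lit 5) (nat_lit 19) (nat_lit 5) (nat_lit 18) (nat_lit 4) (nat_lit 461) (nat_lit 377) (nat_lit 182)) (XT.lf (nat_lit 0) (nat_lit 23976929564) (nat_lit 76) (nat_lit 48630677902) (nat_lit 152) (nat_lit 311317441712) (nat_lit 16) (nat_lit 5) (nat_lit 17) (nat_lit 5) (nat_lit 18) (nat_lit 4) (nat_lit 462) (nat_lit 377) (nat_lit 181))) (XT.nd (nat_lit 78) (nat_lit 0) (nat_lit 0) (XT.lf (nat_lit 0) (nat_lit 141079125280) (nat_lit 152) (nat_lit 236342351388) (nat_lit 0) (nat_lit 22156188396) (nat_lit 16) (nat_lit 5) (nat_lit 18) (nat_lit 4) (nat_lit 16) (nat_lit 4) (nat_lit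 463) (nat_lit 377) (nat_lit 180)) (XT.lf (nat_lit 0) (nat_lit 213770975472) (nat_lit 152) (nat_lit 107354439014) (nat_lit 0) (nat_lit 94847659462) (nat_lit 16) (nat_lit 5) (nat_lit 18) (nat_lit 4) (nat_lit 16) (nat_lit 4) (nat_lit 464) (nat_lit 377) (nat_lit 179)))))) (XT.nd (nat_lit 546) (nat_lit 228) (nat_lit 0) (XT.nd (nat_lit 234) (nat_lit 152) (nat_lit 0) (XT.nd (nat_lit 78) (nat_lit 0) (nat_lit 0) (XT.lf (nat_lit 0) (nat_lit 29010510258) (nat_lit 76) (nat_lit 261539397816) (nat_lit 76) (nat_lit 142615720734) (nat_lit 15) (nat_lit 4) (nat_lit 16) (nat_lit 5) (nat_lit 16) (nat_lit 4) (nat_lit 465) (nat_lit 377) (nat_lit 178)) (XT.nd (nat_lit 78) (nat_lit 0) (nat_lit 0) (XT.lf (nat_lit 0) (nat_lit 175919948614) (nat_lit 76) (nat_lit 197065500350) (nat_lit 76) (nat_lit 78141479389) (nat_lit 15) (nat_lit 4) (nat_lit 16) (nat_lit 5) (nat_lit 16) (nat_lit 4) (nat_lit 466) (nat_lit 377) (nat_lit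 177)) (XT.lf (nat_lit 0) (nat_lit 330174037848) (nat_lit 76) (nat_lit 129368312179) (nat_lit 76) (nat_lit 10443963716) (nat_lit 15) (nat_lit 4) (nat_lit 16) (nat_lit 5) (nat_lit 16) (nat_lit 4) (nat_lit 467) (nat_lit 377) (nat_lit 176)))) (XT.nd (nat_lit 156) (nat_lit 0) (nat_lit 0) (XT.nd (nat_lit 78) (nat_lit 0) (nat_lit 0) (XT.lf (nat_lit 0) (nat_lit 1451075516) (nat_lit 76) (nat_lit 57268795648) (nat_lit 152) (nat_lit 431020347880) (nat_lit 13) (nat_lit 5) (nat_lit 14) (nat_lit 5) (nat_lit 15) (nat_lit 4) (nat_lit 468) (nat_lit 377) (nat_lit 175)) (XT.lf (nat_lit 0) (nat_lit 133684947189) (nat_lit 152) (nat_lit 356230527089) (nat_lit 0) (nat_lit 20423082973) (nat_lit 13) (nat_lit 5) (nat_lit 15) (nat_lit 4) (nat_lit 13) (nat_lit 4) (nat_lit 469) (nat_lit 377) (nat_lit 174))) (XT.nd (nat_lit 78) (nat_lit 0) (nat_lit 0) (XT.lf (nat_lit 0) (nat_lit 213336726326) (nat_lit 152) (nat_lit 218508570926)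 (nat_lit 0) (nat_lit 100074592672) (nat_lit 13) (nat_lit 5) (nat_lit 15) (nat_lit 4) (nat_lit 13) (nat_lit 4) (nat_lit 470) (nat_lit 377) (nat_lit 173)) (XT.lf (nat_lit 0) (nat_lit 296970729272) (nat_lit 152) (nat_lit 73901239224) (nat_lit 0) (nat_lit 183708339010) (nat_lit 13) (nat_lit 5) (nat_lit 15) (nat_lit 4) (nat_lit 13) (nat_lit 4) (nat_lit 471) (nat_lit 377) (nat_lit 172))))) (XT.nd (nat_lit 234) (nat_lit 152) (nat_lit 0) (XT.nd (nat_lit 78) (nat_lit 0) (nat_lit 0) (XT.lf (nat_lit 0) (nat_lit 80512679751) (nat_lit 76) (nat_lit 305530433421) (nat_lit 76) (nat_lit 192267798772) (nat_lit 12) (nat_lit 4) (nat_lit 13) (nat_lit 5) (nat_lit 13) (nat_lit 4) (nat_lit 472) (nat_lit 377) (nat_lit 171)) (XT.nd (nat_lit 78) (nat_lit 0) (nat_lit 0) (XT.lf (nat_lit 0) (nat_lit 245212302046) (nat_lit 76) (nat_lit 235608025701) (nat_lit 76) (nat_lit 122345158301) (nat_lit 12) (nat_lit 4) (nat_lit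 13) (nat_lit 5) (nat_lit 13) (nat_lit 4) (nat_lit 473) (nat_lit 377) (nat_lit 170)) (XT.lf (nat_lit 0) (nat_lit 418146260903) (nat_lit 76) (nat_lit 162189816655) (nat_lit 76) (nat_lit 48926727589) (nat_lit 12) (nat_lit 4) (nat_lit 13) (nat_lit 5) (nat_lit 13) (nat_lit 4) (nat_lit 474) (nat_lit 377) (nat_lit 169)))) (XT.nd (nat_lit 156) (nat_lit 0) (nat_lit 0) (XT.nd (nat_lit 78) (nat_lit 76) (nat_lit 0) (XT.lf (nat_lit 0) (nat_lit 27260929701) (nat_lit 152) (nat_lit 57378394289) (nat_lit 76) (nat_lit 572003697106) (nat_lit 11) (nat_lit 5) (nat_lit 13) (nat_lit 5) (nat_lit 12) (nat_lit 4) (nat_lit 475) (nat_lit 377) (nat_lit 168)) (XT.lf (nat_lit 0) (nat_lit 106657703707) (nat_lit 76) (nat_lit 620932850) (nat_lit 152) (nat_lit 577990261146) (nat_lit 10) (nat_lit 5) (nat_lit 11) (nat_lit 5) (nat_lit 12) (nat_lit 4) (nat_lit 476) (nat_lit 377) (nat_lit 167))) (XT.nd (nat_lit 78) (nat_lit 0)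 (nat_lit 0) (XT.lf (nat_lit 0) (nat_lit 193652246358) (nat_lit 152) (nat_lit 435774008101) (nat_lit 0) (nat_lit 85782062814) (nat_lit 10) (nat_lit 5) (nat_lit 12) (nat_lit 4) (nat_lit 10) (nat_lit 4) (nat_lit 477) (nat_lit 377) (nat_lit 166)) (XT.lf (nat_lit 0) (nat_lit 284354430679) (nat_lit 152) (nat_lit 285805709001) (nat_lit 0) (nat_lit 176484073453) (nat_lit 10) (nat_lit 5) (nat_lit 12) (nat_lit 4) (nat_lit 10) (nat_lit 4) (nat_lit 478) (nat_lit 377) (nat_lit 165))))))))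
noncomputable def xc183 : XT := (XT.nd (nat_lit 2106) (nat_lit 2964) (nat_lit 0) (XT.nd (nat_lit 1014) (nat_lit 2660) (nat_lit 0) (XT.nd (nat_lit 468) (nat_lit 380) (nat_lit 0) (XT.nd (nat_lit 234) (nat_lit 0) (nat_lit 76) (XT.nd (nat_lit 78) (nat_lit 0) (nat_lit 0) (XT.lf (nat_lit 0) (nat_lit 2987642922) (nat_lit 836) (nat_lit 5014759613) (nat_lit 836) (nat_lit 5014759613) (nat_lit 118) (nat_lit 3) (nat_lit 129) (nat_lit 3) (nat_lit 129) (nat_lit 5) (nat_lit 378) (nat_lit 378) (nat_lit 264)) (XT.nd (nat_lit 78) (nat_lit 0) (nat_lit 76) (XT.lf (nat_lit 76) (nat_lit 2706398262) (nat_lit 0) (nat_lit 3555182637) (nat_lit 836) (nat_lit 20416704085) (nat_lit 119) (nat_lit 5) (nat_lit 118) (nat_lit 3) (nat_lit 129) (nat_lit 5) (nat_lit 379) (nat_lit 378) (nat_lit 263)) (XT.lf (nat_lit 0) (nat_lit 6877349191) (nat_lit 760) (nat_lit 11073648350) (nat_lit 836) (nat_lit 9387691556) (nat_lit 119) (nat_lit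 5) (nat_lit 129) (nat_lit 5) (nat_lit 130) (nat_lit 5) (nat_lit 380) (nat_lit 378) (nat_lit 262)))) (XT.nd (nat_lit 78) (nat_lit 0) (nat_lit 76) (XT.lf (nat_lit 76) (nat_lit 2487363859) (nat_lit 0) (nat_lit 5127880736) (nat_lit 836) (nat_lit 20412305042) (nat_lit 120) (nat_lit 5) (nat_lit 119) (nat_lit 5) (nat_lit 130) (nat_lit 5) (nat_lit 381) (nat_lit 378) (nat_lit 261)) (XT.nd (nat_lit 78) (nat_lit 0) (nat_lit 0) (XT.lf (nat_lit 0) (nat_lit 8705278827) (nat_lit 760) (nat_lit 11767552330) (nat_lit 836) (nat_lit 8262262851) (nat_lit 120) (nat_lit 5) (nat_lit 130) (nat_lit 5) (nat_lit 131) (nat_lit 5) (nat_lit 382) (nat_lit 378) (nat_lit 260)) (XT.lf (nat_lit 76) (nat_lit 2692270132) (nat_lit 0) (nat_lit 7278382743) (nat_lit 836) (nat_lit 19501323678) (nat_lit 121) (nat_lit 5) (nat_lit 120) (nat_lit 5) (nat_lit 131) (nat_lit 5) (nat_lit 383) (nat_lit 378) (nat_lit 259))))) (XT.nd (nat_lit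 234) (nat_lit 608) (nat_lit 0) (XT.nd (nat_lit 78) (nat_lit 0) (nat_lit 0) (XT.lf (nat_lit 0) (nat_lit 11599479427) (nat_lit 760) (nat_lit 12061817432) (nat_lit 836) (nat_lit 6569399904) (nat_lit 121) (nat_lit 5) (nat_lit 131) (nat_lit 5) (nat_lit 132) (nat_lit 5) (nat_lit 384) (nat_lit 378) (nat_lit 258)) (XT.nd (nat_lit 78) (nat_lit 0) (nat_lit 76) (XT.lf (nat_lit 76) (nat_lit 3377145912) (nat_lit 0) (nat_lit 10099846894) (nat_lit 836) (nat_lit 17542000499) (nat_lit 122) (nat_lit 5) (nat_lit 121) (nat_lit 5) (nat_lit 132) (nat_lit 5) (nat_lit 385) (nat_lit 378) (nat_lit 257)) (XT.lf (nat_lit 0) (nat_lit 15716026663) (nat_lit 760) (nat_lit 11901440182) (nat_lit 836) (nat_lit 4215858061) (nat_lit 122) (nat_lit 5) (nat_lit 132) (nat_lit 5) (nat_lit 133) (nat_lit 5) (nat_lit 386) (nat_lit 378) (nat_lit 256)))) (XT.nd (nat_lit 156) (nat_lit 684) (nat_lit 0) (XT.nd (nat_lit 78) (nat_lit 0) (nat_lit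 76) (XT.lf (nat_lit 76) (nat_lit 4604173715) (nat_lit 0) (nat_lit 13695904692) (nat_lit 836) (nat_lit 14376643727) (nat_lit 123) (nat_lit 5) (nat_lit 122) (nat_lit 5) (nat_lit 133) (nat_lit 5) (nat_lit 387) (nat_lit 378) (nat_lit 255)) (XT.lf (nat_lit 0) (nat_lit 21228359739) (nat_lit 760) (nat_lit 11225418395) (nat_lit 76) (nat_lit 1097761982) (nat_lit 123) (nat_lit 5) (nat_lit 133) (nat_lit 5) (nat_lit 124) (nat_lit 5) (nat_lit 388) (nat_lit 378) (nat_lit 254))) (XT.nd (nat_lit 78) (nat_lit 0) (nat_lit 0) (XT.lf (nat_lit 0) (nat_lit 6442142112) (nat_lit 760) (nat_lit 18181992391) (nat_lit 836) (nat_lit 9829912662) (nat_lit 113) (nat_lit 5) (nat_lit 123) (nat_lit 5) (nat_lit 124) (nat_lit 5) (nat_lit 389) (nat_lit 378) (nat_lit 253)) (XT.lf (nat_lit 0) (nat_lit 25379267986) (nat_lit 760) (nat_lit 2996650783) (nat_lit 836) (nat_lit 7016451795) (nat_lit 113) (nat_lit 5) (nat_lit 123) (nat_lit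 5) (nat_lit 124) (nat_lit 5) (nat_lit 390) (nat_lit 378) (nat_lit 252)))))) (XT.nd (nat_lit 546) (nat_lit 1140) (nat_lit 0) (XT.nd (nat_lit 234) (nat_lit 684) (nat_lit 0) (XT.nd (nat_lit 78) (nat_lit 456) (nat_lit 0) (XT.lf (nat_lit 0) (nat_lit 8966925887) (nat_lit 380) (nat_lit 23686822339) (nat_lit 456) (nat_lit 3706941045) (nat_lit 108) (nat_lit 5) (nat_lit 113) (nat_lit 5) (nat_lit 114) (nat_lit 5) (nat_lit 391) (nat_lit 378) (nat_lit 251)) (XT.nd (nat_lit 78) (nat_lit 456) (nat_lit 0) (XT.lf (nat_lit 0) (nat_lit 29189337889) (nat_lit 380) (nat_lit 8170465691) (nat_lit 456) (nat_lit 6905457) (nat_lit 108) (nat_lit 5) (nat_lit 113) (nat_lit 5) (nat_lit 114) (nat_lit 5) (nat_lit 392) (nat_lit 378) (nat_lit 250)) (XT.lf (nat_lit 0) (nat_lit 4074009790) (nat_lit 456) (nat_lit 26211007791) (nat_lit 76) (nat_lit 8118986342) (nat_lit 102) (nat_lit 5) (nat_lit 108) (nat_lit 5) (nat_lit 103) (nat_lit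 5) (nat_lit 393) (nat_lit 378) (nat_lit 249)))) (XT.nd (nat_lit 156) (nat_lit 304) (nat_lit 0) (XT.nd (nat_lit 78) (nat_lit 380) (nat_lit 0) (XT.lf (nat_lit 0) (nat_lit 8630087379) (nat_lit 456) (nat_lit 5760345835) (nat_lit 76) (nat_lit 25089158843) (nat_lit 102) (nat_lit 5) (nat_lit 108) (nat_lit 5) (nat_lit 103) (nat_lit 5) (nat_lit 394) (nat_lit 378) (nat_lit 248)) (XT.lf (nat_lit 0) (nat_lit 13704197887) (nat_lit 456) (nat_lit 24407612673) (nat_lit 76) (nat_lit 2482639103) (nat_lit 97) (nat_lit 5) (nat_lit 103) (nat_lit 5) (nat_lit 98) (nat_lit 5) (nat_lit 395) (nat_lit 378) (nat_lit 247))) (XT.nd (nat_lit 78) (nat_lit 304) (nat_lit 0) (XT.lf (nat_lit 0) (nat_lit 19363980332) (nat_lit 456) (nat_lit 2569805837) (nat_lit 76) (nat_lit 19814667107) (nat_lit 97) (nat_lit 5) (nat_lit 103) (nat_lit 5) (nat_lit 98) (nat_lit 5) (nat_lit 396) (nat_lit 378) (nat_lit 246)) (XT.lf (nat_lit 0) (nat_lit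 21029647028) (nat_lit 304) (nat_lit 4602488191) (nat_lit 380) (nat_lit 17311754059) (nat_lit 93) (nat_lit 5) (nat_lit 97) (nat_lit 5) (nat_lit 98) (nat_lit 5) (nat_lit 397) (nat_lit 378) (nat_lit 245))))) (XT.nd (nat_lit 234) (nat_lit 532) (nat_lit 0) (XT.nd (nat_lit 78) (nat_lit 304) (nat_lit 0) (XT.lf (nat_lit 0) (nat_lit 1534085752) (nat_lit 304) (nat_lit 30957194242) (nat_lit 380) (nat_lit 11693939292) (nat_lit 89) (nat_lit 5) (nat_lit 93) (nat_lit 5) (nat_lit 94) (nat_lit 5) (nat_lit 398) (nat_lit 378) (nat_lit 244)) (XT.nd (nat_lit 78) (nat_lit 304) (nat_lit 0) (XT.lf (nat_lit 0) (nat_lit 26834344207) (nat_lit 304) (nat_lit 13301618375) (nat_lit 380) (nat_lit 5330525433) (nat_lit 89) (nat_lit 5) (nat_lit 93) (nat_lit 5) (nat_lit 94) (nat_lit 5) (nat_lit 399) (nat_lit 378) (nat_lit 243)) (XT.lf (nat_lit 0) (nat_lit 1494816973) (nat_lit 304) (nat_lit 40109006650) (nat_lit 76) (nat_lit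 5197592990) (nat_lit 85) (nat_lit 5) (nat_lit 89) (nat_lit 5) (nat_lit 86) (nat_lit 5) (nat_lit 400) (nat_lit 378) (nat_lit 242)))) (XT.nd (nat_lit 156) (nat_lit 228) (nat_lit 0) (XT.nd (nat_lit 78) (nat_lit 304) (nat_lit 0) (XT.lf (nat_lit 0) (nat_lit 9018437113) (nat_lit 304) (nat_lit 14571228254) (nat_lit 76) (nat_lit 24582250508) (nat_lit 85) (nat_lit 5) (nat_lit 89) (nat_lit 5) (nat_lit 86) (nat_lit 5) (nat_lit 401) (nat_lit 378) (nat_lit 241)) (XT.lf (nat_lit 0) (nat_lit 12644963157) (nat_lit 304) (nat_lit 4468198107) (nat_lit 380) (nat_lit 32488033715) (nat_lit 81) (nat_lit 5) (nat_lit 85) (nat_lit 5) (nat_lit 86) (nat_lit 5) (nat_lit 402) (nat_lit 378) (nat_lit 240))) (XT.nd (nat_lit 78) (nat_lit 228) (nat_lit 0) (XT.lf (nat_lit 0) (nat_lit 26104702010) (nat_lit 380) (nat_lit 9612759782) (nat_lit 76) (nat_lit 15359873204) (nat_lit 81) (nat_lit 5) (nat_lit 86) (nat_lit 5) (nat_lit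 82) (nat_lit 5) (nat_lit 403) (nat_lit 378) (nat_lit 239)) (XT.lf (nat_lit 0) (nat_lit 19650476032) (nat_lit 228) (nat_lit 16273066749) (nat_lit 304) (nat_lit 16684854016) (nat_lit 78) (nat_lit 5) (nat_lit 81) (nat_lit 5) (nat_lit 82) (nat_lit 5) (nat_lit 404) (nat_lit 378) (nat_lit 238))))))) (XT.nd (nat_lit 1092) (nat_lit 1216) (nat_lit 0) (XT.nd (nat_lit 546) (nat_lit 760) (nat_lit 0) (XT.nd (nat_lit 234) (nat_lit 456) (nat_lit 0) (XT.nd (nat_lit 78) (nat_lit 532) (nat_lit 0) (XT.lf (nat_lit 0) (nat_lit 46461209208) (nat_lit 304) (nat_lit 3567776458) (nat_lit 76) (nat_lit 4175632729) (nat_lit 78) (nat_lit 5) (nat_lit 82) (nat_lit 5) (nat_lit 79) (nat_lit 5) (nat_lit 405) (nat_lit 378) (nat_lit 237)) (XT.nd (nat_lit 78) (nat_lit 228) (nat_lit 0) (XT.lf (nat_lit 0) (nat_lit 2304381998) (nat_lit 304) (nat_lit 27967221175) (nat_lit 76) (nat_lit 25572168076) (nat_lit 74) (nat_lit 5) (nat_lit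 78) (nat_lit 5) (nat_lit 75) (nat_lit 5) (nat_lit 406) (nat_lit 378) (nat_lit 236)) (XT.lf (nat_lit 0) (nat_lit 3434053306) (nat_lit 228) (nat_lit 9273163540) (nat_lit 304) (nat_lit 44845674440) (nat_lit 71) (nat_lit 5) (nat_lit 74) (nat_lit 5) (nat_lit 75) (nat_lit 5) (nat_lit 407) (nat_lit 378) (nat_lit 235)))) (XT.nd (nat_lit 156) (nat_lit 228) (nat_lit 0) (XT.nd (nat_lit 78) (nat_lit 228) (nat_lit 0) (XT.lf (nat_lit 0) (nat_lit 24308950582) (nat_lit 304) (nat_lit 22157722508) (nat_lit 76) (nat_lit 12846857105) (nat_lit 71) (nat_lit 5) (nat_lit 75) (nat_lit 5) (nat_lit 72) (nat_lit 5) (nat_lit 408) (nat_lit 378) (nat_lit 234)) (XT.lf (nat_lit 0) (nat_lit 11618369888) (nat_lit 228) (nat_lit 25203813137) (nat_lit 304) (nat_lit 24323448121) (nat_lit 68) (nat_lit 5) (nat_lit 71) (nat_lit 5) (nat_lit 72) (nat_lit 5) (nat_lit 409) (nat_lit 378) (nat_lit 233))) (XT.nd (nat_lit 78) (nat_lit 228)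 (nat_lit 0) (XT.lf (nat_lit 0) (nat_lit 47849659927) (nat_lit 228) (nat_lit 2484717042) (nat_lit 304) (nat_lit 12716295843) (nat_lit 68) (nat_lit 5) (nat_lit 71) (nat_lit 5) (nat_lit 72) (nat_lit 5) (nat_lit 410) (nat_lit 378) (nat_lit 232)) (XT.lf (nat_lit 0) (nat_lit 161503922) (nat_lit 228) (nat_lit 43837375281) (nat_lit 76) (nat_lit 21018832479) (nat_lit 65) (nat_lit 5) (nat_lit 68) (nat_lit 5) (nat_lit 66) (nat_lit 5) (nat_lit 411) (nat_lit 378) (nat_lit 231))))) (XT.nd (nat_lit 234) (nat_lit 380) (nat_lit 0) (XT.nd (nat_lit 78) (nat_lit 380) (nat_lit 0) (XT.lf (nat_lit 0) (nat_lit 13556375357) (nat_lit 228) (nat_lit 7417982575) (nat_lit 76) (nat_lit 46083295313) (nat_lit 65) (nat_lit 5) (nat_lit 68) (nat_lit 5) (nat_lit 66) (nat_lit 5) (nat_lit 412) (nat_lit 378) (nat_lit 230)) (XT.nd (nat_lit 78) (nat_lit 152) (nat_lit 0) (XT.lf (nat_lit 0) (nat_lit 28174430408) (nat_lit 304) (nat_lit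 37394223657) (nat_lit 76) (nat_lit 3603266364) (nat_lit 62) (nat_lit 5) (nat_lit 66) (nat_lit 5) (nat_lit 63) (nat_lit 5) (nat_lit 413) (nat_lit 378) (nat_lit 229)) (XT.lf (nat_lit 0) (nat_lit 1504604814) (nat_lit 152) (nat_lit 42512062510) (nat_lit 228) (nat_lit 27350570210) (nat_lit 60) (nat_lit 5) (nat_lit 62) (nat_lit 5) (nat_lit 63) (nat_lit 5) (nat_lit 414) (nat_lit 378) (nat_lit 228)))) (XT.nd (nat_lit 156) (nat_lit 152) (nat_lit 0) (XT.nd (nat_lit 78) (nat_lit 228) (nat_lit 0) (XT.lf (nat_lit 0) (nat_lit 43643935074) (nat_lit 152) (nat_lit 17638670777) (nat_lit 228) (nat_lit 12358135651) (nat_lit 60) (nat_lit 5) (nat_lit 62) (nat_lit 5) (nat_lit 63) (nat_lit 5) (nat_lit 415) (nat_lit 378) (nat_lit 227)) (XT.lf (nat_lit 0) (nat_lit 3600746193) (nat_lit 228) (nat_lit 63954927103) (nat_lit 76) (nat_lit 8453349588) (nat_lit 57) (nat_lit 5) (nat_lit 60) (nat_lit 5) (nat_lit 58) (nat_lit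 5) (nat_lit 416) (nat_lit 378) (nat_lit 226))) (XT.nd (nat_lit 78) (nat_lit 152) (nat_lit 0) (XT.lf (nat_lit 0) (nat_lit 20746132455) (nat_lit 228) (nat_lit 21724065751) (nat_lit 76) (nat_lit 35975197202) (nat_lit 57) (nat_lit 5) (nat_lit 60) (nat_lit 5) (nat_lit 58) (nat_lit 5) (nat_lit 417) (nat_lit 378) (nat_lit 225)) (XT.lf (nat_lit 0) (nat_lit 23363612106) (nat_lit 152) (nat_lit 15748402346) (nat_lit 228) (nat_lit 41873411191) (nat_lit 55) (nat_lit 5) (nat_lit 57) (nat_lit 5) (nat_lit 58) (nat_lit 5) (nat_lit 418) (nat_lit 378) (nat_lit 224)))))) (XT.nd (nat_lit 546) (nat_lit 532) (nat_lit 0) (XT.nd (nat_lit 234) (nat_lit 456) (nat_lit 0) (XT.nd (nat_lit 78) (nat_lit 228) (nat_lit 0) (XT.lf (nat_lit 0) (nat_lit 58960789978) (nat_lit 228) (nat_lit 12374922988) (nat_lit 76) (nat_lit 12288514839) (nat_lit 55) (nat_lit 5) (nat_lit 58) (nat_lit 5) (nat_lit 56) (nat_lit 5) (nat_lit 419) (nat_lit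 378) (nat_lit 223)) (XT.nd (nat_lit 78) (nat_lit 76) (nat_lit 0) (XT.lf (nat_lit 0) (nat_lit 36026816545) (nat_lit 152) (nat_lit 44594385510) (nat_lit 228) (nat_lit 5732808502) (nat_lit 53) (nat_lit 5) (nat_lit 55) (nat_lit 5) (nat_lit 56) (nat_lit 5) (nat_lit 420) (nat_lit 378) (nat_lit 222)) (XT.lf (nat_lit 0) (nat_lit 13903211873) (nat_lit 228) (nat_lit 2158217246) (nat_lit 76) (nat_lit 73137233651) (nat_lit 52) (nat_lit 5) (nat_lit 55) (nat_lit 5) (nat_lit 53) (nat_lit 5) (nat_lit 421) (nat_lit 378) (nat_lit 221)))) (XT.nd (nat_lit 156) (nat_lit 152) (nat_lit 0) (XT.nd (nat_lit 78) (nat_lit 152) (nat_lit 0) (XT.lf (nat_lit 0) (nat_lit 35337693041) (nat_lit 228) (nat_lit 42452540482) (nat_lit 76) (nat_lit 14340149382) (nat_lit 50) (nat_lit 5) (nat_lit 53) (nat_lit 5) (nat_lit 51) (nat_lit 5) (nat_lit 422) (nat_lit 378) (nat_lit 220)) (XT.lf (nat_lit 0) (nat_lit 8995463383) (nat_lit 152)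 (nat_lit 49287971752) (nat_lit 228) (nat_lit 36903277371) (nat_lit 48) (nat_lit 5) (nat_lit 50) (nat_lit 5) (nat_lit 51) (nat_lit 5) (nat_lit 423) (nat_lit 378) (nat_lit 219))) (XT.nd (nat_lit 78) (nat_lit 152) (nat_lit 0) (XT.lf (nat_lit 0) (nat_lit 64487442877) (nat_lit 152) (nat_lit 18606645604) (nat_lit 228) (nat_lit 15265889186) (nat_lit 48) (nat_lit 5) (nat_lit 50) (nat_lit 5) (nat_lit 51) (nat_lit 5) (nat_lit 424) (nat_lit 378) (nat_lit 218)) (XT.lf (nat_lit 0) (nat_lit 7771226675) (nat_lit 152) (nat_lit 80253144054) (nat_lit 76) (nat_lit 13633896593) (nat_lit 46) (nat_lit 5) (nat_lit 48) (nat_lit 5) (nat_lit 47) (nat_lit 5) (nat_lit 425) (nat_lit 378) (nat_lit 217))))) (XT.nd (nat_lit 234) (nat_lit 380) (nat_lit 0) (XT.nd (nat_lit 78) (nat_lit 152) (nat_lit 0) (XT.lf (nat_lit 0) (nat_lit 32333968250) (nat_lit 152) (nat_lit 25037066776) (nat_lit 76) (nat_lit 47693583462) (nat_lit 46)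 (nat_lit 5) (nat_lit 48) (nat_lit 5) (nat_lit 47) (nat_lit 5) (nat_lit 426) (nat_lit 378) (nat_lit 216)) (XT.nd (nat_lit 78) (nat_lit 0) (nat_lit 0) (XT.lf (nat_lit 0) (nat_lit 34026760985) (nat_lit 152) (nat_lit 24628124823) (nat_lit 228) (nat_lit 49959899700) (nat_lit 44) (nat_lit 5) (nat_lit 46) (nat_lit 5) (nat_lit 47) (nat_lit 5) (nat_lit 427) (nat_lit 378) (nat_lit 215)) (XT.lf (nat_lit 0) (nat_lit 86873867106) (nat_lit 228) (nat_lit 15569589251) (nat_lit 76) (nat_lit 9869903853) (nat_lit 44) (nat_lit 5) (nat_lit 47) (nat_lit 5) (nat_lit 45) (nat_lit 4) (nat_lit 428) (nat_lit 378) (nat_lit 214)))) (XT.nd (nat_lit 156) (nat_lit 228) (nat_lit 0) (XT.nd (nat_lit 78) (nat_lit 0) (nat_lit 0) (XT.lf (nat_lit 0) (nat_lit 1460303673) (nat_lit 152) (nat_lit 68648430300) (nat_lit 76) (nat_lit 46029730592) (nat_lit 42) (nat_lit 5) (nat_lit 44) (nat_lit 5) (nat_lit 43) (nat_lit 5) (nat_lit 429)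 (nat_lit 378) (nat_lit 213)) (XT.lf (nat_lit 0) (nat_lit 29117016653) (nat_lit 152) (nat_lit 6321860926) (nat_lit 76) (nat_lit 84681751705) (nat_lit 42) (nat_lit 5) (nat_lit 44) (nat_lit 5) (nat_lit 43) (nat_lit 5) (nat_lit 430) (nat_lit 378) (nat_lit 212))) (XT.nd (nat_lit 78) (nat_lit 76) (nat_lit 0) (XT.lf (nat_lit 0) (nat_lit 59139688933) (nat_lit 228) (nat_lit 63211115480) (nat_lit 76) (nat_lit 1901941829) (nat_lit 40) (nat_lit 5) (nat_lit 43) (nat_lit 5) (nat_lit 41) (nat_lit 4) (nat_lit 431) (nat_lit 378) (nat_lit 211)) (XT.lf (nat_lit 0) (nat_lit 2915300259) (nat_lit 76) (nat_lit 88482416812) (nat_lit 152) (nat_lit 37157041041) (nat_lit 39) (nat_lit 5) (nat_lit 40) (nat_lit 5) (nat_lit 41) (nat_lit 4) (nat_lit 432) (nat_lit 378) (nat_lit 210))))))))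
noncomputable def xc184 : XT := (XT.nd (nat_lit 2106) (nat_lit 684) (nat_lit 0) (XT.nd (nat_lit 1014) (nat_lit 684) (nat_lit 0) (XT.nd (nat_lit 468) (nat_lit 304) (nat_lit 0) (XT.nd (nat_lit 234) (nat_lit 304) (nat_lit 0) (XT.nd (nat_lit 78) (nat_lit 228) (nat_lit 0) (XT.lf (nat_lit 0) (nat_lit 74540666303) (nat_lit 76) (nat_lit 51797434644) (nat_lit 152) (nat_lit 6680297083) (nat_lit 39) (nat_lit 5) (nat_lit 40) (nat_lit 5) (nat_lit 41) (nat_lit 4) (nat_lit 433) (nat_lit 378) (nat_lit 209)) (XT.nd (nat_lit 78) (nat_lit 0) (nat_lit 0) (XT.lf (nat_lit 0) (nat_lit 12029932753) (nat_lit 152) (nat_lit 12666742225) (nat_lit 228) (nat_lit 112979439181) (nat_lit 36) (nat_lit 5) (nat_lit 38) (nat_lit 5) (nat_lit 39) (nat_lit 5) (nat_lit 434) (nat_lit 378) (nat_lit 208)) (XT.lf (nat_lit 0) (nat_lit 58867285548) (nat_lit 228) (nat_lit 54995342801) (nat_lit 76) (nat_lit 28626147654) (nat_lit 36) (nat_lit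 5) (nat_lit 39) (nat_lit 5) (nat_lit 37) (nat_lit 4) (nat_lit 435) (nat_lit 378) (nat_lit 207)))) (XT.nd (nat_lit 78) (nat_lit 228) (nat_lit 0) (XT.lf (nat_lit 0) (nat_lit 19606125944) (nat_lit 76) (nat_lit 75653091519) (nat_lit 152) (nat_lit 52257214075) (nat_lit 35) (nat_lit 5) (nat_lit 36) (nat_lit 5) (nat_lit 37) (nat_lit 4) (nat_lit 436) (nat_lit 378) (nat_lit 206)) (XT.nd (nat_lit 78) (nat_lit 228) (nat_lit 0) (XT.lf (nat_lit 0) (nat_lit 99845232185) (nat_lit 76) (nat_lit 34555938000) (nat_lit 152) (nat_lit 18347778587) (nat_lit 35) (nat_lit 5) (nat_lit 36) (nat_lit 5) (nat_lit 37) (nat_lit 4) (nat_lit 437) (nat_lit 378) (nat_lit 205)) (XT.lf (nat_lit 0) (nat_lit 17261866281) (nat_lit 228) (nat_lit 131926481940) (nat_lit 76) (nat_lit 9013418484) (nat_lit 32) (nat_lit 5) (nat_lit 35) (nat_lit 5) (nat_lit 33) (nat_lit 4) (nat_lit 438) (nat_lit 378) (nat_lit 204))))) (XT.nd (nat_lit 234)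 (nat_lit 228) (nat_lit 0) (XT.nd (nat_lit 78) (nat_lit 76) (nat_lit 0) (XT.lf (nat_lit 0) (nat_lit 55511603605) (nat_lit 228) (nat_lit 53516158985) (nat_lit 76) (nat_lit 54810613102) (nat_lit 32) (nat_lit 5) (nat_lit 35) (nat_lit 5) (nat_lit 33) (nat_lit 4) (nat_lit 439) (nat_lit 378) (nat_lit 203)) (XT.nd (nat_lit 78) (nat_lit 0) (nat_lit 0) (XT.lf (nat_lit 0) (nat_lit 29765748069) (nat_lit 76) (nat_lit 66371937287) (nat_lit 152) (nat_lit 73595937005) (nat_lit 31) (nat_lit 5) (nat_lit 32) (nat_lit 5) (nat_lit 33) (nat_lit 4) (nat_lit 440) (nat_lit 378) (nat_lit 202)) (XT.lf (nat_lit 0) (nat_lit 119068114956) (nat_lit 76) (nat_lit 20632425575) (nat_lit 152) (nat_lit 36177817467) (nat_lit 31) (nat_lit 5) (nat_lit 32) (nat_lit 5) (nat_lit 33) (nat_lit 4) (nat_lit 441) (nat_lit 378) (nat_lit 201)))) (XT.nd (nat_lit 156) (nat_lit 76) (nat_lit 0) (XT.nd (nat_lit 78) (nat_lit 0) (nat_lit 0) (XT.lf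 (nat_lit 0) (nat_lit 3938552281) (nat_lit 152) (nat_lit 151277785522) (nat_lit 76) (nat_lit 27065217860) (nat_lit 29) (nat_lit 5) (nat_lit 31) (nat_lit 5) (nat_lit 30) (nat_lit 4) (nat_lit 442) (nat_lit 378) (nat_lit 200)) (XT.lf (nat_lit 0) (nat_lit 46160225249) (nat_lit 152) (nat_lit 64724639792) (nat_lit 76) (nat_lit 78024629478) (nat_lit 29) (nat_lit 5) (nat_lit 31) (nat_lit 5) (nat_lit 30) (nat_lit 4) (nat_lit 443) (nat_lit 378) (nat_lit 199))) (XT.nd (nat_lit 78) (nat_lit 0) (nat_lit 0) (XT.lf (nat_lit 0) (nat_lit 27019477495) (nat_lit 76) (nat_lit 63894572148) (nat_lit 152) (nat_lit 104933727373) (nat_lit 28) (nat_lit 5) (nat_lit 29) (nat_lit 5) (nat_lit 30) (nat_lit 4) (nat_lit 444) (nat_lit 378) (nat_lit 198)) (XT.lf (nat_lit 0) (nat_lit 125596440075) (nat_lit 76) (nat_lit 13404500823) (nat_lit 152) (nat_lit 64077264037) (nat_lit 28) (nat_lit 5) (nat_lit 29) (nat_lit 5) (nat_lit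 30) (nat_lit 4) (nat_lit 445) (nat_lit 378) (nat_lit 197)))))) (XT.nd (nat_lit 546) (nat_lit 304) (nat_lit 0) (XT.nd (nat_lit 234) (nat_lit 152) (nat_lit 0) (XT.nd (nat_lit 78) (nat_lit 152) (nat_lit 0) (XT.lf (nat_lit 0) (nat_lit 18401214971) (nat_lit 76) (nat_lit 171995939432) (nat_lit 76) (nat_lit 20227751041) (nat_lit 27) (nat_lit 4) (nat_lit 28) (nat_lit 5) (nat_lit 28) (nat_lit 4) (nat_lit 446) (nat_lit 378) (nat_lit 196)) (XT.nd (nat_lit 78) (nat_lit 76) (nat_lit 0) (XT.lf (nat_lit 0) (nat_lit 26540729717) (nat_lit 152) (nat_lit 97360698403) (nat_lit 76) (nat_lit 94549725852) (nat_lit 26) (nat_lit 5) (nat_lit 28) (nat_lit 5) (nat_lit 27) (nat_lit 4) (nat_lit 447) (nat_lit 378) (nat_lit 195)) (XT.lf (nat_lit 0) (nat_lit 1975730944) (nat_lit 76) (nat_lit 73022260909) (nat_lit 152) (nat_lit 151652635896) (nat_lit 25) (nat_lit 5) (nat_lit 26) (nat_lit 5) (nat_lit 27) (nat_lit 4) (nat_lit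 448) (nat_lit 378) (nat_lit 194)))) (XT.nd (nat_lit 156) (nat_lit 152) (nat_lit 0) (XT.nd (nat_lit 78) (nat_lit 0) (nat_lit 0) (XT.lf (nat_lit 0) (nat_lit 109657801487) (nat_lit 76) (nat_lit 17868474734) (nat_lit 152) (nat_lit 107651391101) (nat_lit 25) (nat_lit 5) (nat_lit 26) (nat_lit 5) (nat_lit 27) (nat_lit 4) (nat_lit 449) (nat_lit 378) (nat_lit 193)) (XT.lf (nat_lit 0) (nat_lit 183305490378) (nat_lit 152) (nat_lit 22033551193) (nat_lit 0) (nat_lit 38760791585) (nat_lit 25) (nat_lit 5) (nat_lit 27) (nat_lit 4) (nat_lit 25) (nat_lit 4) (nat_lit 450) (nat_lit 378) (nat_lit 192))) (XT.nd (nat_lit 78) (nat_lit 76) (nat_lit 0) (XT.lf (nat_lit 0) (nat_lit 89187486673) (nat_lit 76) (nat_lit 154370934909) (nat_lit 76) (nat_lit 9825447941) (nat_lit 24) (nat_lit 4) (nat_lit 25) (nat_lit 5) (nat_lit 25) (nat_lit 4) (nat_lit 451) (nat_lit 378) (nat_lit 191)) (XT.lf (nat_lit 0) (nat_lit 42672109409)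 (nat_lit 152) (nat_lit 57068413322) (nat_lit 76) (nat_lit 163338545828) (nat_lit 23) (nat_lit 5) (nat_lit 25) (nat_lit 5) (nat_lit 24) (nat_lit 4) (nat_lit 452) (nat_lit 378) (nat_lit 190))))) (XT.nd (nat_lit 234) (nat_lit 152) (nat_lit 0) (XT.nd (nat_lit 78) (nat_lit 76) (nat_lit 0) (XT.lf (nat_lit 0) (nat_lit 57080652879) (nat_lit 76) (nat_lit 41274276578) (nat_lit 152) (nat_lit 174851515277) (nat_lit 22) (nat_lit 5) (nat_lit 23) (nat_lit 5) (nat_lit 24) (nat_lit 4) (nat_lit 453) (nat_lit 378) (nat_lit 189)) (XT.nd (nat_lit 78) (nat_lit 76) (nat_lit 0) (XT.lf (nat_lit 0) (nat_lit 158117669164) (nat_lit 152) (nat_lit 105204475234) (nat_lit 0) (nat_lit 20453256435) (nat_lit 22) (nat_lit 5) (nat_lit 24) (nat_lit 4) (nat_lit 22) (nat_lit 4) (nat_lit 454) (nat_lit 378) (nat_lit 188)) (XT.lf (nat_lit 0) (nat_lit 10935160263) (nat_lit 76) (nat_lit 210780167847) (nat_lit 76) (nat_lit 73115137561)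 (nat_lit 21) (nat_lit 4) (nat_lit 22) (nat_lit 5) (nat_lit 22) (nat_lit 4) (nat_lit 455) (nat_lit 378) (nat_lit 187)))) (XT.nd (nat_lit 156) (nat_lit 76) (nat_lit 0) (XT.nd (nat_lit 78) (nat_lit 76) (nat_lit 0) (XT.lf (nat_lit 0) (nat_lit 136533144417) (nat_lit 76) (nat_lit 153740850775) (nat_lit 76) (nat_lit 16075232341) (nat_lit 21) (nat_lit 4) (nat_lit 22) (nat_lit 5) (nat_lit 22) (nat_lit 4) (nat_lit 456) (nat_lit 378) (nat_lit 186)) (XT.lf (nat_lit 0) (nat_lit 42413715611) (nat_lit 152) (nat_lit 50718061571) (nat_lit 76) (nat_lit 225277972571) (nat_lit 20) (nat_lit 5) (nat_lit 22) (nat_lit 5) (nat_lit 21) (nat_lit 4) (nat_lit 457) (nat_lit 378) (nat_lit 185))) (XT.nd (nat_lit 78) (nat_lit 0) (nat_lit 0) (XT.lf (nat_lit 0) (nat_lit 76519421660) (nat_lit 76) (nat_lit 27961619171) (nat_lit 152) (nat_lit 226519372717) (nat_lit 19) (nat_lit 5) (nat_lit 20) (nat_lit 5) (nat_lit 21) (nat_lit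 4) (nat_lit 458) (nat_lit 378) (nat_lit 184)) (XT.lf (nat_lit 0) (nat_lit 171156034269) (nat_lit 152) (nat_lit 132944965130) (nat_lit 0) (nat_lit 40044396070) (nat_lit 19) (nat_lit 5) (nat_lit 21) (nat_lit 4) (nat_lit 19) (nat_lit 4) (nat_lit 459) (nat_lit 378) (nat_lit 183))))))) (XT.nd (nat_lit 1014) (nat_lit 228) (nat_lit 0) (XT.nd (nat_lit 468) (nat_lit 228) (nat_lit 0) (XT.nd (nat_lit 234) (nat_lit 76) (nat_lit 0) (XT.nd (nat_lit 78) (nat_lit 152) (nat_lit 0) (XT.lf (nat_lit 0) (nat_lit 241622671375) (nat_lit 152) (nat_lit 5791488101) (nat_lit 0) (nat_lit 110510572346) (nat_lit 19) (nat_lit 5) (nat_lit 21) (nat_lit 4) (nat_lit 19) (nat_lit 4) (nat_lit 460) (nat_lit 378) (nat_lit 182)) (XT.nd (nat_lit 78) (nat_lit 76) (nat_lit 0) (XT.lf (nat_lit 0) (nat_lit 131941703309) (nat_lit 76) (nat_lit 185730447064) (nat_lit 76) (nat_lit 54617909149) (nat_lit 18) (nat_lit 4) (nat_lit 19) (nat_lit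 5) (nat_lit 19) (nat_lit 4) (nat_lit 461) (nat_lit 378) (nat_lit 181)) (XT.lf (nat_lit 0) (nat_lit 9924792435) (nat_lit 152) (nat_lit 110767131409) (nat_lit 76) (nat_lit 266668844919) (nat_lit 17) (nat_lit 5) (nat_lit 19) (nat_lit 5) (nat_lit 18) (nat_lit 4) (nat_lit 462) (nat_lit 378) (nat_lit 180)))) (XT.nd (nat_lit 78) (nat_lit 0) (nat_lit 0) (XT.lf (nat_lit 0) (nat_lit 25203575952) (nat_lit 76) (nat_lit 51048584991) (nat_lit 152) (nat_lit 326868431184) (nat_lit 16) (nat_lit 5) (nat_lit 17) (nat_lit 5) (nat_lit 18) (nat_lit 4) (nat_lit 463) (nat_lit 378) (nat_lit 179)) (XT.nd (nat_lit 78) (nat_lit 0) (nat_lit 0) (XT.lf (nat_lit 0) (nat_lit 148146782360) (nat_lit 152) (nat_lit 248132519751) (nat_lit 0) (nat_lit 23276560352) (nat_lit 16) (nat_lit 5) (nat_lit 18) (nat_lit 4) (nat_lit 16) (nat_lit 4) (nat_lit 464) (nat_lit 378) (nat_lit 178)) (XT.lf (nat_lit 0) (nat_lit 224472572643) (nat_lit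 152) (nat_lit 112696495053) (nat_lit 0) (nat_lit 99602006756) (nat_lit 16) (nat_lit 5) (nat_lit 18) (nat_lit 4) (nat_lit 16) (nat_lit 4) (nat_lit 465) (nat_lit 378) (nat_lit 177))))) (XT.nd (nat_lit 234) (nat_lit 152) (nat_lit 0) (XT.nd (nat_lit 78) (nat_lit 0) (nat_lit 0) (XT.lf (nat_lit 0) (nat_lit 30486287716) (nat_lit 76) (nat_lit 274603937060) (nat_lit 76) (nat_lit 149733043669) (nat_lit 15) (nat_lit 4) (nat_lit 16) (nat_lit 5) (nat_lit 16) (nat_lit 4) (nat_lit 466) (nat_lit 378) (nat_lit 176)) (XT.nd (nat_lit 78) (nat_lit 0) (nat_lit 0) (XT.lf (nat_lit 0) (nat_lit 184739995516) (nat_lit 76) (nat_lit 206906936656) (nat_lit 76) (nat_lit 82035731358) (nat_lit 15) (nat_lit 4) (nat_lit 16) (nat_lit 5) (nat_lit 16) (nat_lit 4) (nat_lit 467) (nat_lit 378) (nat_lit 175)) (XT.lf (nat_lit 0) (nat_lit 346705643999) (nat_lit 76) (nat_lit 135825452825) (nat_lit 76) (nat_lit 10953950472) (nat_lit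 15) (nat_lit 4) (nat_lit 16) (nat_lit 5) (nat_lit 16) (nat_lit 4) (nat_lit 468) (nat_lit 378) (nat_lit 174)))) (XT.nd (nat_lit 156) (nat_lit 0) (nat_lit 0) (XT.nd (nat_lit 78) (nat_lit 0) (nat_lit 0) (XT.lf (nat_lit 0) (nat_lit 1546549293) (nat_lit 76) (nat_lit 60120930978) (nat_lit 152) (nat_lit 452559168341) (nat_lit 13) (nat_lit 5) (nat_lit 14) (nat_lit 5) (nat_lit 15) (nat_lit 4) (nat_lit 469) (nat_lit 378) (nat_lit 173)) (XT.lf (nat_lit 0) (nat_lit 140380425065) (nat_lit 152) (nat_lit 374019839261) (nat_lit 0) (nat_lit 21454658684) (nat_lit 13) (nat_lit 5) (nat_lit 15) (nat_lit 4) (nat_lit 13) (nat_lit 4) (nat_lit 470) (nat_lit 378) (nat_lit 172))) (XT.nd (nat_lit 78) (nat_lit 0) (nat_lit 0) (XT.lf (nat_lit 0) (nat_lit 224014258372) (nat_lit 152) (nat_lit 229412843108) (nat_lit 0) (nat_lit 105088247603) (nat_lit 13) (nat_lit 5) (nat_lit 15) (nat_lit 4) (nat_lit 13) (nat_lit 4) (nat_lit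 471) (nat_lit 378) (nat_lit 171)) (XT.lf (nat_lit 0) (nat_lit 311829452145) (nat_lit 152) (nat_lit 77576152267) (nat_lit 0) (nat_lit 192903208625) (nat_lit 13) (nat_lit 5) (nat_lit 15) (nat_lit 4) (nat_lit 13) (nat_lit 4) (nat_lit 472) (nat_lit 378) (nat_lit 170)))))) (XT.nd (nat_lit 45864) (nat_lit 0) (nat_lit 8208) (XT.nd (nat_lit 234) (nat_lit 152) (nat_lit 0) (XT.nd (nat_lit 78) (nat_lit 0) (nat_lit 0) (XT.lf (nat_lit 0) (nat_lit 84558137674) (nat_lit 76) (nat_lit 320797142006) (nat_lit 76) (nat_lit 201870676819) (nat_lit 12) (nat_lit 4) (nat_lit 13) (nat_lit 5) (nat_lit 13) (nat_lit 4) (nat_lit 473) (nat_lit 378) (nat_lit 169)) (XT.nd (nat_lit 78) (nat_lit 0) (nat_lit 0) (XT.lf (nat_lit 0) (nat_lit 257491797087) (nat_lit 76) (nat_lit 247379081189) (nat_lit 76) (nat_lit 128452404891) (nat_lit 12) (nat_lit 4) (nat_lit 13) (nat_lit 5) (nat_lit 13) (nat_lit 4) (nat_lit 474) (nat_lit 378)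 (nat_lit 168)) (XT.lf (nat_lit 0) (nat_lit 439071554842) (nat_lit 76) (nat_lit 170290406730) (nat_lit 76) (nat_lit 51363529373) (nat_lit 12) (nat_lit 4) (nat_lit 13) (nat_lit 5) (nat_lit 13) (nat_lit 4) (nat_lit 475) (nat_lit 378) (nat_lit 167)))) (XT.nd (nat_lit 156) (nat_lit 0) (nat_lit 0) (XT.nd (nat_lit 78) (nat_lit 76) (nat_lit 0) (XT.lf (nat_lit 0) (nat_lit 28632766119) (nat_lit 152) (nat_lit 60229898296) (nat_lit 76) (nat_lit 600612067828) (nat_lit 11) (nat_lit 5) (nat_lit 13) (nat_lit 5) (nat_lit 12) (nat_lit 4) (nat_lit 476) (nat_lit 378) (nat_lit 166)) (XT.lf (nat_lit 0) (nat_lit 112007723700) (nat_lit 76) (nat_lit 643483571) (nat_lit 152) (nat_lit 606880702981) (nat_lit 10) (nat_lit 5) (nat_lit 11) (nat_lit 5) (nat_lit 12) (nat_lit 4) (nat_lit 477) (nat_lit 378) (nat_lit 165))) (XT.nd (nat_lit 45396) (nat_lit 0) (nat_lit 8208) (XT.lf (nat_lit 0) (nat_lit 203343212515) (nat_lit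 152) (nat_lit 457546104221) (nat_lit 0) (nat_lit 90078998335) (nat_lit 10) (nat_lit 5) (nat_lit 12) (nat_lit 4) (nat_lit 10) (nat_lit 4) (nat_lit 478) (nat_lit 378) (nat_lit 164)) (XT.lf (nat_lit 0) (nat_lit 3230205632) (nat_lit 836) (nat_lit 5216552314) (nat_lit 836) (nat_lit 5216552314) (nat_lit 118) (nat_lit 3) (nat_lit 129) (nat_lit 3) (nat_lit 129) (nat_lit 5) (nat_lit 379) (nat_lit 379) (nat_lit 262))))) (XT.nd (nat_lit 234) (nat_lit 0) (nat_lit 152) (XT.nd (nat_lit 78) (nat_lit 0) (nat_lit 76) (XT.lf (nat_lit 76) (nat_lit 2938029854) (nat_lit 0) (nat_lit 3815620575) (nat_lit 836) (nat_lit 21249502203) (nat_lit 119) (nat_lit 5) (nat_lit 118) (nat_lit 3) (nat_lit 129) (nat_lit 5) (nat_lit 380) (nat_lit 379) (nat_lit 261)) (XT.nd (nat_lit 78) (nat_lit 0) (nat_lit 0) (XT.lf (nat_lit 0) (nat_lit 7390454400) (nat_lit 760) (nat_lit 11525760170) (nat_lit 836) (nat_lit 9780854641) (nat_lit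 119) (nat_lit 5) (nat_lit 129) (nat_lit 5) (nat_lit 130) (nat_lit 5) (nat_lit 381) (nat_lit 379) (nat_lit 260)) (XT.lf (nat_lit 76) (nat_lit 2711664414) (nat_lit 0) (nat_lit 5447081444) (nat_lit 836) (nat_lit 21261956258) (nat_lit 120) (nat_lit 5) (nat_lit 119) (nat_lit 5) (nat_lit 130) (nat_lit 5) (nat_lit 382) (nat_lit 379) (nat_lit 259)))) (XT.nd (nat_lit 156) (nat_lit 0) (nat_lit 76) (XT.nd (nat_lit 78) (nat_lit 0) (nat_lit 0) (XT.lf (nat_lit 0) (nat_lit 9294598430) (nat_lit 760) (nat_lit 12251989038) (nat_lit 836) (nat_lit 8617474597) (nat_lit 120) (nat_lit 5) (nat_lit 130) (nat_lit 5) (nat_lit 131) (nat_lit 5) (nat_lit 383) (nat_lit 379) (nat_lit 258)) (XT.lf (nat_lit 76) (nat_lit 2929148080) (nat_lit 0) (nat_lit 7688353751) (nat_lit 836) (nat_lit 20320577869) (nat_lit 121) (nat_lit 5) (nat_lit 120) (nat_lit 5) (nat_lit 131) (nat_lit 5) (nat_lit 384) (nat_lit 379) (nat_lit 257))) (XT.nd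 (nat_lit 78) (nat_lit 0) (nat_lit 0) (XT.lf (nat_lit 0) (nat_lit 12320022268) (nat_lit 760) (nat_lit 12559690093) (nat_lit 836) (nat_lit 6855414734) (nat_lit 121) (nat_lit 5) (nat_lit 131) (nat_lit 5) (nat_lit 132) (nat_lit 5) (nat_lit 385) (nat_lit 379) (nat_lit 256)) (XT.lf (nat_lit 76) (nat_lit 3649524350) (nat_lit 0) (nat_lit 10636809465) (nat_lit 836) (nat_lit 18276762145) (nat_lit 122) (nat_lit 5) (nat_lit 121) (nat_lit 5) (nat_lit 132) (nat_lit 5) (nat_lit 386) (nat_lit 379) (nat_lit 255))))))))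
noncomputable def xc185 : XT := (XT.nd (nat_lit 2106) (nat_lit 2508) (nat_lit 0) (XT.nd (nat_lit 1014) (nat_lit 1824) (nat_lit 0) (XT.nd (nat_lit 468) (nat_lit 1444) (nat_lit 0) (XT.nd (nat_lit 234) (nat_lit 1064) (nat_lit 0) (XT.nd (nat_lit 78) (nat_lit 0) (nat_lit 0) (XT.lf (nat_lit 0) (nat_lit 16630392020) (nat_lit 760) (nat_lit 12390924290) (nat_lit 836) (nat_lit 4397177650) (nat_lit 122) (nat_lit 5) (nat_lit 132) (nat_lit 5) (nat_lit 133) (nat_lit 5) (nat_lit 387) (nat_lit 379) (nat_lit 254)) (XT.nd (nat_lit 78) (nat_lit 0) (nat_lit 76) (XT.lf (nat_lit 76) (nat_lit 4938267272) (nat_lit 0) (nat_lit 14400878917) (nat_lit 836) (nat_lit 14965143153) (nat_lit 123) (nat_lit 5) (nat_lit 122) (nat_lit 5) (nat_lit 133) (nat_lit 5) (nat_lit 388) (nat_lit 379) (nat_lit 253)) (XT.lf (nat_lit 0) (nat_lit 22407633736) (nat_lit 760) (nat_lit 11681480915) (nat_lit 76) (nat_lit 1134047094) (nat_lit 123)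 (nat_lit 5) (nat_lit 133) (nat_lit 5) (nat_lit 124) (nat_lit 5) (nat_lit 389) (nat_lit 379) (nat_lit 252)))) (XT.nd (nat_lit 78) (nat_lit 380) (nat_lit 0) (XT.lf (nat_lit 0) (nat_lit 6867760707) (nat_lit 760) (nat_lit 19101440444) (nat_lit 836) (nat_lit 10201795779) (nat_lit 113) (nat_lit 5) (nat_lit 123) (nat_lit 5) (nat_lit 124) (nat_lit 5) (nat_lit 390) (nat_lit 379) (nat_lit 251)) (XT.nd (nat_lit 78) (nat_lit 380) (nat_lit 0) (XT.lf (nat_lit 0) (nat_lit 26746813757) (nat_lit 760) (nat_lit 3156338973) (nat_lit 836) (nat_lit 7253357702) (nat_lit 113) (nat_lit 5) (nat_lit 123) (nat_lit 5) (nat_lit 124) (nat_lit 5) (nat_lit 391) (nat_lit 379) (nat_lit 250)) (XT.lf (nat_lit 0) (nat_lit 9517806202) (nat_lit 380) (nat_lit 24873358039) (nat_lit 456) (nat_lit 3782269007) (nat_lit 108) (nat_lit 5) (nat_lit 113) (nat_lit 5) (nat_lit 114) (nat_lit 5) (nat_lit 392) (nat_lit 379) (nat_lit 249)))))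 (XT.nd (nat_lit 234) (nat_lit 988) (nat_lit 0) (XT.nd (nat_lit 78) (nat_lit 380) (nat_lit 0) (XT.lf (nat_lit 0) (nat_lit 94407806) (nat_lit 456) (nat_lit 8485072406) (nat_lit 76) (nat_lit 30650449582) (nat_lit 107) (nat_lit 5) (nat_lit 113) (nat_lit 5) (nat_lit 108) (nat_lit 5) (nat_lit 393) (nat_lit 379) (nat_lit 248)) (XT.nd (nat_lit 78) (nat_lit 0) (nat_lit 0) (XT.lf (nat_lit 0) (nat_lit 4375879117) (nat_lit 456) (nat_lit 27417199759) (nat_lit 76) (nat_lit 8526170107) (nat_lit 102) (nat_lit 5) (nat_lit 108) (nat_lit 5) (nat_lit 103) (nat_lit 5) (nat_lit 394) (nat_lit 379) (nat_lit 247)) (XT.lf (nat_lit 0) (nat_lit 9155085878) (nat_lit 456) (nat_lit 5948974154) (nat_lit 76) (nat_lit 26344792449) (nat_lit 102) (nat_lit 5) (nat_lit 108) (nat_lit 5) (nat_lit 103) (nat_lit 5) (nat_lit 395) (nat_lit 379) (nat_lit 246)))) (XT.nd (nat_lit 156) (nat_lit 608) (nat_lit 0) (XT.nd (nat_lit 78) (nat_lit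 0) (nat_lit 0) (XT.lf (nat_lit 0) (nat_lit 14480089204) (nat_lit 456) (nat_lit 25525749270) (nat_lit 76) (nat_lit 2613757247) (nat_lit 97) (nat_lit 5) (nat_lit 103) (nat_lit 5) (nat_lit 98) (nat_lit 5) (nat_lit 396) (nat_lit 379) (nat_lit 245)) (XT.lf (nat_lit 0) (nat_lit 20418542607) (nat_lit 456) (nat_lit 2600920856) (nat_lit 76) (nat_lit 20812053975) (nat_lit 97) (nat_lit 5) (nat_lit 103) (nat_lit 5) (nat_lit 98) (nat_lit 5) (nat_lit 397) (nat_lit 379) (nat_lit 244))) (XT.nd (nat_lit 78) (nat_lit 304) (nat_lit 0) (XT.lf (nat_lit 0) (nat_lit 22176934083) (nat_lit 304) (nat_lit 4820554400) (nat_lit 380) (nat_lit 18089369518) (nat_lit 93) (nat_lit 5) (nat_lit 97) (nat_lit 5) (nat_lit 98) (nat_lit 5) (nat_lit 398) (nat_lit 379) (nat_lit 243)) (XT.lf (nat_lit 0) (nat_lit 1709021865) (nat_lit 304) (nat_lit 32488293675) (nat_lit 380) (nat_lit 12193054546) (nat_lit 89) (nat_lit 5) (nat_lit 93)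 (nat_lit 5) (nat_lit 94) (nat_lit 5) (nat_lit 399) (nat_lit 379) (nat_lit 242)))))) (XT.nd (nat_lit 546) (nat_lit 988) (nat_lit 0) (XT.nd (nat_lit 234) (nat_lit 532) (nat_lit 0) (XT.nd (nat_lit 78) (nat_lit 304) (nat_lit 0) (XT.lf (nat_lit 0) (nat_lit 28269615537) (nat_lit 304) (nat_lit 13950737123) (nat_lit 380) (nat_lit 5515545314) (nat_lit 89) (nat_lit 5) (nat_lit 93) (nat_lit 5) (nat_lit 94) (nat_lit 5) (nat_lit 400) (nat_lit 379) (nat_lit 241)) (XT.nd (nat_lit 78) (nat_lit 0) (nat_lit 0) (XT.lf (nat_lit 0) (nat_lit 1646457570) (nat_lit 304) (nat_lit 42016231430) (nat_lit 76) (nat_lit 5474921850) (nat_lit 85) (nat_lit 5) (nat_lit 89) (nat_lit 5) (nat_lit 86) (nat_lit 5) (nat_lit 401) (nat_lit 379) (nat_lit 240)) (XT.lf (nat_lit 0) (nat_lit 9542596825) (nat_lit 304) (nat_lit 15206241522) (nat_lit 76) (nat_lit 25827981329) (nat_lit 85) (nat_lit 5) (nat_lit 89) (nat_lit 5) (nat_lit 86) (nat_lit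 5) (nat_lit 402) (nat_lit 379) (nat_lit 239)))) (XT.nd (nat_lit 156) (nat_lit 228) (nat_lit 0) (XT.nd (nat_lit 78) (nat_lit 0) (nat_lit 0) (XT.lf (nat_lit 0) (nat_lit 13369250619) (nat_lit 304) (nat_lit 4670756040) (nat_lit 380) (nat_lit 34037660036) (nat_lit 81) (nat_lit 5) (nat_lit 85) (nat_lit 5) (nat_lit 86) (nat_lit 5) (nat_lit 403) (nat_lit 379) (nat_lit 238)) (XT.lf (nat_lit 0) (nat_lit 27478044624) (nat_lit 380) (nat_lit 10002634171) (nat_lit 76) (nat_lit 16147090274) (nat_lit 81) (nat_lit 5) (nat_lit 86) (nat_lit 5) (nat_lit 82) (nat_lit 5) (nat_lit 404) (nat_lit 379) (nat_lit 237))) (XT.nd (nat_lit 78) (nat_lit 0) (nat_lit 0) (XT.lf (nat_lit 0) (nat_lit 20722299504) (nat_lit 228) (nat_lit 17063678932) (nat_lit 304) (nat_lit 17449499273) (nat_lit 78) (nat_lit 5) (nat_lit 81) (nat_lit 5) (nat_lit 82) (nat_lit 5) (nat_lit 405) (nat_lit 379) (nat_lit 236)) (XT.lf (nat_lit 0) (nat_lit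 48847715624) (nat_lit 304) (nat_lit 3658280651) (nat_lit 76) (nat_lit 4405655979) (nat_lit 78) (nat_lit 5) (nat_lit 82) (nat_lit 5) (nat_lit 79) (nat_lit 5) (nat_lit 406) (nat_lit 379) (nat_lit 235))))) (XT.nd (nat_lit 234) (nat_lit 456) (nat_lit 0) (XT.nd (nat_lit 78) (nat_lit 228) (nat_lit 0) (XT.lf (nat_lit 0) (nat_lit 2482411341) (nat_lit 304) (nat_lit 29277015846) (nat_lit 76) (nat_lit 26873369651) (nat_lit 74) (nat_lit 5) (nat_lit 78) (nat_lit 5) (nat_lit 75) (nat_lit 5) (nat_lit 407) (nat_lit 379) (nat_lit 234)) (XT.nd (nat_lit 78) (nat_lit 0) (nat_lit 0) (XT.lf (nat_lit 0) (nat_lit 3692893869) (nat_lit 228) (nat_lit 9710863565) (nat_lit 304) (nat_lit 47023698036) (nat_lit 71) (nat_lit 5) (nat_lit 74) (nat_lit 5) (nat_lit 75) (nat_lit 5) (nat_lit 408) (nat_lit 379) (nat_lit 233)) (XT.lf (nat_lit 0) (nat_lit 25583050516) (nat_lit 304) (nat_lit 23180072445) (nat_lit 76) (nat_lit 13513130750)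 (nat_lit 71) (nat_lit 5) (nat_lit 75) (nat_lit 5) (nat_lit 72) (nat_lit 5) (nat_lit 409) (nat_lit 379) (nat_lit 232)))) (XT.nd (nat_lit 156) (nat_lit 228) (nat_lit 0) (XT.nd (nat_lit 78) (nat_lit 0) (nat_lit 0) (XT.lf (nat_lit 0) (nat_lit 12283444954) (nat_lit 228) (nat_lit 26437020576) (nat_lit 304) (nat_lit 25479569102) (nat_lit 68) (nat_lit 5) (nat_lit 71) (nat_lit 5) (nat_lit 72) (nat_lit 5) (nat_lit 410) (nat_lit 379) (nat_lit 231)) (XT.lf (nat_lit 0) (nat_lit 50322292039) (nat_lit 228) (nat_lit 2583254591) (nat_lit 304) (nat_lit 13294918802) (nat_lit 68) (nat_lit 5) (nat_lit 71) (nat_lit 5) (nat_lit 72) (nat_lit 5) (nat_lit 411) (nat_lit 379) (nat_lit 230))) (XT.nd (nat_lit 78) (nat_lit 0) (nat_lit 0) (XT.lf (nat_lit 0) (nat_lit 223980465) (nat_lit 228) (nat_lit 45946270083) (nat_lit 76) (nat_lit 22095609889) (nat_lit 65) (nat_lit 5) (nat_lit 68) (nat_lit 5) (nat_lit 66) (nat_lit 5)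 (nat_lit 412) (nat_lit 379) (nat_lit 229)) (XT.lf (nat_lit 0) (nat_lit 14286004931) (nat_lit 228) (nat_lit 7709858883) (nat_lit 76) (nat_lit 48412065590) (nat_lit 65) (nat_lit 5) (nat_lit 68) (nat_lit 5) (nat_lit 66) (nat_lit 5) (nat_lit 413) (nat_lit 379) (nat_lit 228))))))) (XT.nd (nat_lit 1014) (nat_lit 1064) (nat_lit 0) (XT.nd (nat_lit 468) (nat_lit 684) (nat_lit 0) (XT.nd (nat_lit 234) (nat_lit 380) (nat_lit 0) (XT.nd (nat_lit 78) (nat_lit 152) (nat_lit 0) (XT.lf (nat_lit 0) (nat_lit 29634133946) (nat_lit 304) (nat_lit 39184068026) (nat_lit 76) (nat_lit 3809750173) (nat_lit 62) (nat_lit 5) (nat_lit 66) (nat_lit 5) (nat_lit 63) (nat_lit 5) (nat_lit 414) (nat_lit 379) (nat_lit 227)) (XT.nd (nat_lit 78) (nat_lit 0) (nat_lit 0) (XT.lf (nat_lit 0) (nat_lit 1658413693) (nat_lit 152) (nat_lit 44608868133) (nat_lit 228) (nat_lit 28665814050) (nat_lit 60) (nat_lit 5) (nat_lit 62) (nat_lit 5)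 (nat_lit 63) (nat_lit 5) (nat_lit 415) (nat_lit 379) (nat_lit 226)) (XT.lf (nat_lit 0) (nat_lit 45900968626) (nat_lit 152) (nat_lit 18493178123) (nat_lit 228) (nat_lit 12926247509) (nat_lit 60) (nat_lit 5) (nat_lit 62) (nat_lit 5) (nat_lit 63) (nat_lit 5) (nat_lit 416) (nat_lit 379) (nat_lit 225)))) (XT.nd (nat_lit 78) (nat_lit 152) (nat_lit 0) (XT.lf (nat_lit 0) (nat_lit 3828302832) (nat_lit 228) (nat_lit 67075535425) (nat_lit 76) (nat_lit 8903247298) (nat_lit 57) (nat_lit 5) (nat_lit 60) (nat_lit 5) (nat_lit 58) (nat_lit 5) (nat_lit 417) (nat_lit 379) (nat_lit 224)) (XT.nd (nat_lit 78) (nat_lit 152) (nat_lit 0) (XT.lf (nat_lit 0) (nat_lit 21828695581) (nat_lit 228) (nat_lit 22736804245) (nat_lit 76) (nat_lit 37799890615) (nat_lit 57) (nat_lit 5) (nat_lit 60) (nat_lit 5) (nat_lit 58) (nat_lit 5) (nat_lit 418) (nat_lit 379) (nat_lit 223)) (XT.lf (nat_lit 0) (nat_lit 24604072590) (nat_lit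 152) (nat_lit 16507772509) (nat_lit 228) (nat_lit 43920628985) (nat_lit 55) (nat_lit 5) (nat_lit 57) (nat_lit 5) (nat_lit 58) (nat_lit 5) (nat_lit 419) (nat_lit 379) (nat_lit 222))))) (XT.nd (nat_lit 234) (nat_lit 456) (nat_lit 0) (XT.nd (nat_lit 78) (nat_lit 228) (nat_lit 0) (XT.lf (nat_lit 0) (nat_lit 61951370298) (nat_lit 228) (nat_lit 12923131251) (nat_lit 76) (nat_lit 12928799801) (nat_lit 55) (nat_lit 5) (nat_lit 58) (nat_lit 5) (nat_lit 56) (nat_lit 5) (nat_lit 420) (nat_lit 379) (nat_lit 221)) (XT.nd (nat_lit 78) (nat_lit 76) (nat_lit 0) (XT.lf (nat_lit 0) (nat_lit 37897557550) (nat_lit 152) (nat_lit 46796303206) (nat_lit 228) (nat_lit 5975760108) (nat_lit 53) (nat_lit 5) (nat_lit 55) (nat_lit 5) (nat_lit 56) (nat_lit 5) (nat_lit 421) (nat_lit 379) (nat_lit 220)) (XT.lf (nat_lit 0) (nat_lit 14638649138) (nat_lit 228) (nat_lit 2198691639) (nat_lit 76) (nat_lit 76819231967) (nat_lit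 52) (nat_lit 5) (nat_lit 55) (nat_lit 5) (nat_lit 53) (nat_lit 5) (nat_lit 422) (nat_lit 379) (nat_lit 219)))) (XT.nd (nat_lit 156) (nat_lit 152) (nat_lit 0) (XT.nd (nat_lit 78) (nat_lit 152) (nat_lit 0) (XT.lf (nat_lit 0) (nat_lit 37144393147) (nat_lit 228) (nat_lit 44507260931) (nat_lit 76) (nat_lit 15083248310) (nat_lit 50) (nat_lit 5) (nat_lit 53) (nat_lit 5) (nat_lit 51) (nat_lit 5) (nat_lit 423) (nat_lit 379) (nat_lit 218)) (XT.lf (nat_lit 0) (nat_lit 9512047859) (nat_lit 152) (nat_lit 51724521624) (nat_lit 228) (nat_lit 38707522053) (nat_lit 48) (nat_lit 5) (nat_lit 50) (nat_lit 5) (nat_lit 51) (nat_lit 5) (nat_lit 424) (nat_lit 379) (nat_lit 217))) (XT.nd (nat_lit 78) (nat_lit 152) (nat_lit 0) (XT.lf (nat_lit 0) (nat_lit 67775444838) (nat_lit 152) (nat_lit 19510455299) (nat_lit 228) (nat_lit 15990212991) (nat_lit 48) (nat_lit 5) (nat_lit 50) (nat_lit 5) (nat_lit 51) (nat_lit 5) (nat_lit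 425) (nat_lit 379) (nat_lit 216)) (XT.lf (nat_lit 0) (nat_lit 8197131915) (nat_lit 152) (nat_lit 84200529700) (nat_lit 76) (nat_lit 14341644564) (nat_lit 46) (nat_lit 5) (nat_lit 48) (nat_lit 5) (nat_lit 47) (nat_lit 5) (nat_lit 426) (nat_lit 379) (nat_lit 215)))))) (XT.nd (nat_lit 546) (nat_lit 532) (nat_lit 0) (XT.nd (nat_lit 234) (nat_lit 380) (nat_lit 0) (XT.nd (nat_lit 78) (nat_lit 152) (nat_lit 0) (XT.lf (nat_lit 0) (nat_lit 33986232288) (nat_lit 152) (nat_lit 26226756729) (nat_lit 76) (nat_lit 50103075151) (nat_lit 46) (nat_lit 5) (nat_lit 48) (nat_lit 5) (nat_lit 47) (nat_lit 5) (nat_lit 427) (nat_lit 379) (nat_lit 214)) (XT.nd (nat_lit 78) (nat_lit 0) (nat_lit 0) (XT.lf (nat_lit 0) (nat_lit 35789259786) (nat_lit 152) (nat_lit 25833197227) (nat_lit 228) (nat_lit 52421319792) (nat_lit 44) (nat_lit 5) (nat_lit 46) (nat_lit 5) (nat_lit 47) (nat_lit 5) (nat_lit 428) (nat_lit 379) (nat_lit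 213)) (XT.lf (nat_lit 0) (nat_lit 91251120518) (nat_lit 228) (nat_lit 16288547204) (nat_lit 76) (nat_lit 10387676178) (nat_lit 44) (nat_lit 5) (nat_lit 47) (nat_lit 5) (nat_lit 45) (nat_lit 4) (nat_lit 429) (nat_lit 379) (nat_lit 212)))) (XT.nd (nat_lit 156) (nat_lit 228) (nat_lit 0) (XT.nd (nat_lit 78) (nat_lit 0) (nat_lit 0) (XT.lf (nat_lit 0) (nat_lit 1566739903) (nat_lit 152) (nat_lit 72021179549) (nat_lit 76) (nat_lit 48355791559) (nat_lit 42) (nat_lit 5) (nat_lit 44) (nat_lit 5) (nat_lit 43) (nat_lit 5) (nat_lit 430) (nat_lit 379) (nat_lit 211)) (XT.lf (nat_lit 0) (nat_lit 30604697053) (nat_lit 152) (nat_lit 6581123243) (nat_lit 76) (nat_lit 88939243516) (nat_lit 42) (nat_lit 5) (nat_lit 44) (nat_lit 5) (nat_lit 43) (nat_lit 5) (nat_lit 431) (nat_lit 379) (nat_lit 210))) (XT.nd (nat_lit 78) (nat_lit 76) (nat_lit 0) (XT.lf (nat_lit 0) (nat_lit 62128246291) (nat_lit 228) (nat_lit 66314578672)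 (nat_lit 76) (nat_lit 2020974748) (nat_lit 40) (nat_lit 5) (nat_lit 43) (nat_lit 5) (nat_lit 41) (nat_lit 4) (nat_lit 432) (nat_lit 379) (nat_lit 209)) (XT.lf (nat_lit 0) (nat_lit 3117237006) (nat_lit 76) (nat_lit 92881312357) (nat_lit 152) (nat_lit 38982394383) (nat_lit 39) (nat_lit 5) (nat_lit 40) (nat_lit 5) (nat_lit 41) (nat_lit 4) (nat_lit 433) (nat_lit 379) (nat_lit 208))))) (XT.nd (nat_lit 234) (nat_lit 304) (nat_lit 0) (XT.nd (nat_lit 78) (nat_lit 228) (nat_lit 0) (XT.lf (nat_lit 0) (nat_lit 78321196507) (nat_lit 76) (nat_lit 54363282284) (nat_lit 152) (nat_lit 6983360785) (nat_lit 39) (nat_lit 5) (nat_lit 40) (nat_lit 5) (nat_lit 41) (nat_lit 4) (nat_lit 434) (nat_lit 379) (nat_lit 207)) (XT.nd (nat_lit 78) (nat_lit 0) (nat_lit 0) (XT.lf (nat_lit 0) (nat_lit 12685042497) (nat_lit 152) (nat_lit 13275837111) (nat_lit 228) (nat_lit 118597567440) (nat_lit 36) (nat_lit 5) (nat_lit 38)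 (nat_lit 5) (nat_lit 39) (nat_lit 5) (nat_lit 435) (nat_lit 379) (nat_lit 206)) (XT.lf (nat_lit 0) (nat_lit 61838982559) (nat_lit 228) (nat_lit 57693007620) (nat_lit 76) (nat_lit 30079803915) (nat_lit 36) (nat_lit 5) (nat_lit 39) (nat_lit 5) (nat_lit 37) (nat_lit 4) (nat_lit 436) (nat_lit 379) (nat_lit 205)))) (XT.nd (nat_lit 156) (nat_lit 228) (nat_lit 0) (XT.nd (nat_lit 78) (nat_lit 0) (nat_lit 0) (XT.lf (nat_lit 0) (nat_lit 20637694202) (nat_lit 76) (nat_lit 79412268033) (nat_lit 152) (nat_lit 54840897807) (nat_lit 35) (nat_lit 5) (nat_lit 36) (nat_lit 5) (nat_lit 37) (nat_lit 4) (nat_lit 437) (nat_lit 379) (nat_lit 204)) (XT.lf (nat_lit 0) (nat_lit 104886314709) (nat_lit 76) (nat_lit 36261374841) (nat_lit 152) (nat_lit 19237379924) (nat_lit 35) (nat_lit 5) (nat_lit 36) (nat_lit 5) (nat_lit 37) (nat_lit 4) (nat_lit 438) (nat_lit 379) (nat_lit 203))) (XT.nd (nat_lit 78) (nat_lit 0) (nat_lit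 0) (XT.lf (nat_lit 0) (nat_lit 18151692368) (nat_lit 228) (nat_lit 138472923436) (nat_lit 76) (nat_lit 9485899249) (nat_lit 32) (nat_lit 5) (nat_lit 35) (nat_lit 5) (nat_lit 33) (nat_lit 4) (nat_lit 439) (nat_lit 379) (nat_lit 202)) (XT.lf (nat_lit 0) (nat_lit 58312643569) (nat_lit 228) (nat_lit 56144459695) (nat_lit 76) (nat_lit 57571915034) (nat_lit 32) (nat_lit 5) (nat_lit 35) (nat_lit 5) (nat_lit 33) (nat_lit 4) (nat_lit 440) (nat_lit 379) (nat_lit 201))))))))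
noncomputable def xc186 : XT := (XT.nd (nat_lit 2106) (nat_lit 380) (nat_lit 0) (XT.nd (nat_lit 1014) (nat_lit 608) (nat_lit 0) (XT.nd (nat_lit 468) (nat_lit 380) (nat_lit 0) (XT.nd (nat_lit 234) (nat_lit 76) (nat_lit 0) (XT.nd (nat_lit 78) (nat_lit 152) (nat_lit 0) (XT.lf (nat_lit 0) (nat_lit 31300776466) (nat_lit 76) (nat_lit 69668770328) (nat_lit 152) (nat_lit 77249504787) (nat_lit 31) (nat_lit 5) (nat_lit 32) (nat_lit 5) (nat_lit 33) (nat_lit 4) (nat_lit 441) (nat_lit 379) (nat_lit 200)) (XT.nd (nat_lit 78) (nat_lit 152) (nat_lit 0) (XT.lf (nat_lit 0) (nat_lit 125066035936) (nat_lit 76) (nat_lit 21643319404) (nat_lit 152) (nat_lit 37961728276) (nat_lit 31) (nat_lit 5) (nat_lit 32) (nat_lit 5) (nat_lit 33) (nat_lit 4) (nat_lit 442) (nat_lit 379) (nat_lit 199)) (XT.lf (nat_lit 0) (nat_lit 4159530813) (nat_lit 152) (nat_lit 158796225038) (nat_lit 76) (nat_lit 28438672424) (nat_lit 29) (nat_lit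 5) (nat_lit 31) (nat_lit 5) (nat_lit 30) (nat_lit 4) (nat_lit 443) (nat_lit 379) (nat_lit 198)))) (XT.nd (nat_lit 78) (nat_lit 76) (nat_lit 0) (XT.lf (nat_lit 0) (nat_lit 48491142148) (nat_lit 152) (nat_lit 67917586296) (nat_lit 76) (nat_lit 81945093020) (nat_lit 29) (nat_lit 5) (nat_lit 31) (nat_lit 5) (nat_lit 30) (nat_lit 4) (nat_lit 444) (nat_lit 379) (nat_lit 197)) (XT.nd (nat_lit 78) (nat_lit 0) (nat_lit 0) (XT.lf (nat_lit 0) (nat_lit 28413038702) (nat_lit 76) (nat_lit 67069193221) (nat_lit 152) (nat_lit 110156807571) (nat_lit 28) (nat_lit 5) (nat_lit 29) (nat_lit 5) (nat_lit 30) (nat_lit 4) (nat_lit 445) (nat_lit 379) (nat_lit 196)) (XT.lf (nat_lit 0) (nat_lit 131916821443) (nat_lit 76) (nat_lit 14055575832) (nat_lit 152) (nat_lit 67258645172) (nat_lit 28) (nat_lit 5) (nat_lit 29) (nat_lit 5) (nat_lit 30) (nat_lit 4) (nat_lit 446) (nat_lit 379) (nat_lit 195))))) (XT.nd (nat_lit 234)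 (nat_lit 152) (nat_lit 0) (XT.nd (nat_lit 78) (nat_lit 152) (nat_lit 0) (XT.lf (nat_lit 0) (nat_lit 19361942169) (nat_lit 76) (nat_lit 180576379459) (nat_lit 76) (nat_lit 21216761452) (nat_lit 27) (nat_lit 4) (nat_lit 28) (nat_lit 5) (nat_lit 28) (nat_lit 4) (nat_lit 447) (nat_lit 379) (nat_lit 194)) (XT.nd (nat_lit 78) (nat_lit 76) (nat_lit 0) (XT.lf (nat_lit 0) (nat_lit 27888395662) (nat_lit 152) (nat_lit 102189319309) (nat_lit 76) (nat_lit 99294963267) (nat_lit 26) (nat_lit 5) (nat_lit 28) (nat_lit 5) (nat_lit 27) (nat_lit 4) (nat_lit 448) (nat_lit 379) (nat_lit 193)) (XT.lf (nat_lit 0) (nat_lit 2113295796) (nat_lit 76) (nat_lit 76654848193) (nat_lit 152) (nat_lit 159214000655) (nat_lit 25) (nat_lit 5) (nat_lit 26) (nat_lit 5) (nat_lit 27) (nat_lit 4) (nat_lit 449) (nat_lit 379) (nat_lit 192)))) (XT.nd (nat_lit 156) (nat_lit 152) (nat_lit 0) (XT.nd (nat_lit 78) (nat_lit 0) (nat_lit 0)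 (XT.lf (nat_lit 0) (nat_lit 115177623280) (nat_lit 76) (nat_lit 18744254888) (nat_lit 152) (nat_lit 113013706337) (nat_lit 25) (nat_lit 5) (nat_lit 26) (nat_lit 5) (nat_lit 27) (nat_lit 4) (nat_lit 450) (nat_lit 379) (nat_lit 191)) (XT.lf (nat_lit 0) (nat_lit 192489396898) (nat_lit 152) (nat_lit 23099397862) (nat_lit 0) (nat_lit 40715096763) (nat_lit 25) (nat_lit 5) (nat_lit 27) (nat_lit 4) (nat_lit 25) (nat_lit 4) (nat_lit 451) (nat_lit 379) (nat_lit 190))) (XT.nd (nat_lit 78) (nat_lit 76) (nat_lit 0) (XT.lf (nat_lit 0) (nat_lit 93682113981) (nat_lit 76) (nat_lit 162072523841) (nat_lit 76) (nat_lit 10297508808) (nat_lit 24) (nat_lit 4) (nat_lit 25) (nat_lit 5) (nat_lit 25) (nat_lit 4) (nat_lit 452) (nat_lit 379) (nat_lit 189)) (XT.lf (nat_lit 0) (nat_lit 44823425966) (nat_lit 152) (nat_lit 59887672658) (nat_lit 76) (nat_lit 171521036347) (nat_lit 23) (nat_lit 5) (nat_lit 25) (nat_lit 5)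 (nat_lit 24) (nat_lit 4) (nat_lit 453) (nat_lit 379) (nat_lit 188)))))) (XT.nd (nat_lit 546) (nat_lit 304) (nat_lit 0) (XT.nd (nat_lit 234) (nat_lit 152) (nat_lit 0) (XT.nd (nat_lit 78) (nat_lit 76) (nat_lit 0) (XT.lf (nat_lit 0) (nat_lit 59968295864) (nat_lit 76) (nat_lit 43321772519) (nat_lit 152) (nat_lit 183575827573) (nat_lit 22) (nat_lit 5) (nat_lit 23) (nat_lit 5) (nat_lit 24) (nat_lit 4) (nat_lit 454) (nat_lit 379) (nat_lit 187)) (XT.nd (nat_lit 78) (nat_lit 76) (nat_lit 0) (XT.lf (nat_lit 0) (nat_lit 166040358013) (nat_lit 152) (nat_lit 110432100758) (nat_lit 0) (nat_lit 21490870509) (nat_lit 22) (nat_lit 5) (nat_lit 24) (nat_lit 4) (nat_lit 22) (nat_lit 4) (nat_lit 455) (nat_lit 379) (nat_lit 186)) (XT.lf (nat_lit 0) (nat_lit 11513990736) (nat_lit 76) (nat_lit 221303609654) (nat_lit 76) (nat_lit 76753562008) (nat_lit 21) (nat_lit 4) (nat_lit 22) (nat_lit 5) (nat_lit 22) (nat_lit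 4) (nat_lit 456) (nat_lit 379) (nat_lit 185)))) (XT.nd (nat_lit 156) (nat_lit 76) (nat_lit 0) (XT.nd (nat_lit 78) (nat_lit 76) (nat_lit 0) (XT.lf (nat_lit 0) (nat_lit 143390346838) (nat_lit 76) (nat_lit 161413067995) (nat_lit 76) (nat_lit 16862486880) (nat_lit 21) (nat_lit 4) (nat_lit 22) (nat_lit 5) (nat_lit 22) (nat_lit 4) (nat_lit 457) (nat_lit 379) (nat_lit 184)) (XT.lf (nat_lit 0) (nat_lit 44549619247) (nat_lit 152) (nat_lit 53224369721) (nat_lit 76) (nat_lit 236555486289) (nat_lit 20) (nat_lit 5) (nat_lit 22) (nat_lit 5) (nat_lit 21) (nat_lit 4) (nat_lit 458) (nat_lit 379) (nat_lit 183))) (XT.nd (nat_lit 78) (nat_lit 0) (nat_lit 0) (XT.lf (nat_lit 0) (nat_lit 80374510333) (nat_lit 76) (nat_lit 29345530341) (nat_lit 152) (nat_lit 237829645122) (nat_lit 19) (nat_lit 5) (nat_lit 20) (nat_lit 5) (nat_lit 21) (nat_lit 4) (nat_lit 459) (nat_lit 379) (nat_lit 182)) (XT.lf (nat_lit 0) (nat_lit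 179728282680) (nat_lit 152) (nat_lit 139563980254) (nat_lit 0) (nat_lit 42059678984) (nat_lit 19) (nat_lit 5) (nat_lit 21) (nat_lit 4) (nat_lit 19) (nat_lit 4) (nat_lit 460) (nat_lit 379) (nat_lit 181))))) (XT.nd (nat_lit 234) (nat_lit 152) (nat_lit 0) (XT.nd (nat_lit 78) (nat_lit 152) (nat_lit 0) (XT.lf (nat_lit 0) (nat_lit 253717563703) (nat_lit 152) (nat_lit 6054173808) (nat_lit 0) (nat_lit 116048542021) (nat_lit 19) (nat_lit 5) (nat_lit 21) (nat_lit 4) (nat_lit 19) (nat_lit 4) (nat_lit 461) (nat_lit 379) (nat_lit 180)) (XT.nd (nat_lit 78) (nat_lit 76) (nat_lit 0) (XT.lf (nat_lit 0) (nat_lit 138565243483) (nat_lit 76) (nat_lit 195004031025) (nat_lit 76) (nat_lit 57334611261) (nat_lit 18) (nat_lit 4) (nat_lit 19) (nat_lit 5) (nat_lit 19) (nat_lit 4) (nat_lit 462) (nat_lit 379) (nat_lit 179)) (XT.lf (nat_lit 0) (nat_lit 10434116885) (nat_lit 152) (nat_lit 116279859275) (nat_lit 76) (nat_lit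 280014175985) (nat_lit 17) (nat_lit 5) (nat_lit 19) (nat_lit 5) (nat_lit 18) (nat_lit 4) (nat_lit 463) (nat_lit 379) (nat_lit 178)))) (XT.nd (nat_lit 156) (nat_lit 76) (nat_lit 0) (XT.nd (nat_lit 78) (nat_lit 0) (nat_lit 0) (XT.lf (nat_lit 0) (nat_lit 26488970088) (nat_lit 76) (nat_lit 53588654326) (nat_lit 152) (nat_lit 343198353773) (nat_lit 16) (nat_lit 5) (nat_lit 17) (nat_lit 5) (nat_lit 18) (nat_lit 4) (nat_lit 464) (nat_lit 379) (nat_lit 177)) (XT.lf (nat_lit 0) (nat_lit 155566548523) (nat_lit 152) (nat_lit 260514702013) (nat_lit 0) (nat_lit 24451782960) (nat_lit 16) (nat_lit 5) (nat_lit 18) (nat_lit 4) (nat_lit 16) (nat_lit 4) (nat_lit 465) (nat_lit 379) (nat_lit 176))) (XT.nd (nat_lit 78) (nat_lit 76) (nat_lit 0) (XT.lf (nat_lit 0) (nat_lit 235708036555) (nat_lit 152) (nat_lit 118308040067) (nat_lit 0) (nat_lit 104592959084) (nat_lit 16) (nat_lit 5) (nat_lit 18) (nat_lit 4) (nat_lit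 16) (nat_lit 4) (nat_lit 466) (nat_lit 379) (nat_lit 175)) (XT.lf (nat_lit 0) (nat_lit 32033506361) (nat_lit 76) (nat_lit 288322858949) (nat_lit 76) (nat_lit 157207484423) (nat_lit 15) (nat_lit 4) (nat_lit 16) (nat_lit 5) (nat_lit 16) (nat_lit 4) (nat_lit 467) (nat_lit 379) (nat_lit 174))))))) (XT.nd (nat_lit 46410) (nat_lit 0) (nat_lit 6992) (XT.nd (nat_lit 468) (nat_lit 228) (nat_lit 0) (XT.nd (nat_lit 234) (nat_lit 0) (nat_lit 0) (XT.nd (nat_lit 78) (nat_lit 152) (nat_lit 0) (XT.lf (nat_lit 0) (nat_lit 193998808871) (nat_lit 76) (nat_lit 217241545428) (nat_lit 76) (nat_lit 86125887993) (nat_lit 15) (nat_lit 4) (nat_lit 16) (nat_lit 5) (nat_lit 16) (nat_lit 4) (nat_lit 468) (nat_lit 379) (nat_lit 173)) (XT.nd (nat_lit 78) (nat_lit 152) (nat_lit 0) (XT.lf (nat_lit 0) (nat_lit 364061701037) (nat_lit 76) (nat_lit 142606498742) (nat_lit 76) (nat_lit 11490571869) (nat_lit 15) (nat_lit 4) (nat_lit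 16) (nat_lit 5) (nat_lit 16) (nat_lit 4) (nat_lit 469) (nat_lit 379) (nat_lit 172)) (XT.lf (nat_lit 0) (nat_lit 1644665874) (nat_lit 76) (nat_lit 63116724055) (nat_lit 152) (nat_lit 475176063781) (nat_lit 13) (nat_lit 5) (nat_lit 14) (nat_lit 5) (nat_lit 15) (nat_lit 4) (nat_lit 470) (nat_lit 379) (nat_lit 171)))) (XT.nd (nat_lit 78) (nat_lit 0) (nat_lit 0) (XT.lf (nat_lit 0) (nat_lit 147409632728) (nat_lit 152) (nat_lit 392700682306) (nat_lit 0) (nat_lit 22536844281) (nat_lit 13) (nat_lit 5) (nat_lit 15) (nat_lit 4) (nat_lit 13) (nat_lit 4) (nat_lit 471) (nat_lit 379) (nat_lit 170)) (XT.nd (nat_lit 78) (nat_lit 0) (nat_lit 0) (XT.lf (nat_lit 0) (nat_lit 235224672633) (nat_lit 152) (nat_lit 240864295818) (nat_lit 0) (nat_lit 110351662519) (nat_lit 13) (nat_lit 5) (nat_lit 15) (nat_lit 4) (nat_lit 13) (nat_lit 4) (nat_lit 472) (nat_lit 379) (nat_lit 169)) (XT.lf (nat_lit 0) (nat_lit 327430164125)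 (nat_lit 152) (nat_lit 81436684218) (nat_lit 0) (nat_lit 202556942900) (nat_lit 13) (nat_lit 5) (nat_lit 15) (nat_lit 4) (nat_lit 13) (nat_lit 4) (nat_lit 473) (nat_lit 379) (nat_lit 168))))) (XT.nd (nat_lit 234) (nat_lit 152) (nat_lit 0) (XT.nd (nat_lit 78) (nat_lit 0) (nat_lit 0) (XT.lf (nat_lit 0) (nat_lit 88804025451) (nat_lit 76) (nat_lit 336828098348) (nat_lit 76) (nat_lit 211954676065) (nat_lit 12) (nat_lit 4) (nat_lit 13) (nat_lit 5) (nat_lit 13) (nat_lit 4) (nat_lit 474) (nat_lit 379) (nat_lit 167)) (XT.nd (nat_lit 78) (nat_lit 0) (nat_lit 0) (XT.lf (nat_lit 0) (nat_lit 270383511602) (nat_lit 76) (nat_lit 259739558336) (nat_lit 76) (nat_lit 134865944568) (nat_lit 12) (nat_lit 4) (nat_lit 13) (nat_lit 5) (nat_lit 13) (nat_lit 4) (nat_lit 475) (nat_lit 379) (nat_lit 166)) (XT.lf (nat_lit 0) (nat_lit 461041441785) (nat_lit 76) (nat_lit 178796853816) (nat_lit 76) (nat_lit 53923057682)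 (nat_lit 12) (nat_lit 4) (nat_lit 13) (nat_lit 5) (nat_lit 13) (nat_lit 4) (nat_lit 476) (nat_lit 379) (nat_lit 165)))) (XT.nd (nat_lit 45552) (nat_lit 0) (nat_lit 8208) (XT.nd (nat_lit 78) (nat_lit 76) (nat_lit 0) (XT.lf (nat_lit 0) (nat_lit 30072377152) (nat_lit 152) (nat_lit 63225596652) (nat_lit 76) (nat_lit 630650096042) (nat_lit 11) (nat_lit 5) (nat_lit 13) (nat_lit 5) (nat_lit 12) (nat_lit 4) (nat_lit 477) (nat_lit 379) (nat_lit 164)) (XT.lf (nat_lit 0) (nat_lit 117623651662) (nat_lit 76) (nat_lit 667951698) (nat_lit 152) (nat_lit 637216510264) (nat_lit 10) (nat_lit 5) (nat_lit 11) (nat_lit 5) (nat_lit 12) (nat_lit 4) (nat_lit 478) (nat_lit 379) (nat_lit 163))) (XT.nd (nat_lit 78) (nat_lit 0) (nat_lit 0) (XT.lf (nat_lit 0) (nat_lit 3476233433) (nat_lit 836) (nat_lit 5432985119) (nat_lit 836) (nat_lit 5432985119) (nat_lit 118) (nat_lit 3) (nat_lit 129) (nat_lit 3) (nat_lit 129) (nat_lit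 5) (nat_lit 380) (nat_lit 380) (nat_lit 260)) (XT.lf (nat_lit 76) (nat_lit 3172288877) (nat_lit 0) (nat_lit 4081393719) (nat_lit 836) (nat_lit 22141422134) (nat_lit 119) (nat_lit 5) (nat_lit 118) (nat_lit 3) (nat_lit 129) (nat_lit 5) (nat_lit 381) (nat_lit 380) (nat_lit 259)))))) (XT.nd (nat_lit 546) (nat_lit 1292) (nat_lit 0) (XT.nd (nat_lit 234) (nat_lit 0) (nat_lit 76) (XT.nd (nat_lit 78) (nat_lit 0) (nat_lit 0) (XT.lf (nat_lit 0) (nat_lit 7913480747) (nat_lit 760) (nat_lit 12009920653) (nat_lit 836) (nat_lit 10200762231) (nat_lit 119) (nat_lit 5) (nat_lit 129) (nat_lit 5) (nat_lit 130) (nat_lit 5) (nat_lit 382) (nat_lit 380) (nat_lit 258)) (XT.nd (nat_lit 78) (nat_lit 0) (nat_lit 76) (XT.lf (nat_lit 76) (nat_lit 2937889232) (nat_lit 0) (nat_lit 5776403018) (nat_lit 836) (nat_lit 22169984650) (nat_lit 120) (nat_lit 5) (nat_lit 119) (nat_lit 5) (nat_lit 130) (nat_lit 5) (nat_lit 383) (nat_lit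 380) (nat_lit 257)) (XT.lf (nat_lit 0) (nat_lit 9899061377) (nat_lit 760) (nat_lit 12770311023) (nat_lit 836) (nat_lit 8995830055) (nat_lit 120) (nat_lit 5) (nat_lit 130) (nat_lit 5) (nat_lit 131) (nat_lit 5) (nat_lit 384) (nat_lit 380) (nat_lit 256)))) (XT.nd (nat_lit 156) (nat_lit 0) (nat_lit 76) (XT.nd (nat_lit 78) (nat_lit 0) (nat_lit 76) (XT.lf (nat_lit 76) (nat_lit 3168362347) (nat_lit 0) (nat_lit 8114541843) (nat_lit 836) (nat_lit 21195280691) (nat_lit 121) (nat_lit 5) (nat_lit 120) (nat_lit 5) (nat_lit 131) (nat_lit 5) (nat_lit 385) (nat_lit 380) (nat_lit 255)) (XT.lf (nat_lit 0) (nat_lit 13063523490) (nat_lit 760) (nat_lit 13092238579) (nat_lit 836) (nat_lit 7159677385) (nat_lit 121) (nat_lit 5) (nat_lit 131) (nat_lit 5) (nat_lit 132) (nat_lit 5) (nat_lit 386) (nat_lit 380) (nat_lit 254))) (XT.nd (nat_lit 78) (nat_lit 0) (nat_lit 76) (XT.lf (nat_lit 76) (nat_lit 3925897296) (nat_lit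 0) (nat_lit 11197647877) (nat_lit 836) (nat_lit 19061495148) (nat_lit 122) (nat_lit 5) (nat_lit 121) (nat_lit 5) (nat_lit 132) (nat_lit 5) (nat_lit 387) (nat_lit 380) (nat_lit 253)) (XT.lf (nat_lit 0) (nat_lit 17578522980) (nat_lit 760) (nat_lit 12914699165) (nat_lit 836) (nat_lit 4590303368) (nat_lit 122) (nat_lit 5) (nat_lit 132) (nat_lit 5) (nat_lit 133) (nat_lit 5) (nat_lit 388) (nat_lit 380) (nat_lit 252))))) (XT.nd (nat_lit 234) (nat_lit 836) (nat_lit 0) (XT.nd (nat_lit 78) (nat_lit 684) (nat_lit 0) (XT.lf (nat_lit 76) (nat_lit 5279407275) (nat_lit 0) (nat_lit 15139225802) (nat_lit 836) (nat_lit 15595184656) (nat_lit 123) (nat_lit 5) (nat_lit 122) (nat_lit 5) (nat_lit 133) (nat_lit 5) (nat_lit 389) (nat_lit 380) (nat_lit 251)) (XT.nd (nat_lit 78) (nat_lit 760) (nat_lit 0) (XT.lf (nat_lit 0) (nat_lit 23634914298) (nat_lit 760) (nat_lit 12170127841) (nat_lit 76) (nat_lit 1173875991) (nat_lit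 123) (nat_lit 5) (nat_lit 133) (nat_lit 5) (nat_lit 124) (nat_lit 5) (nat_lit 390) (nat_lit 380) (nat_lit 250)) (XT.lf (nat_lit 0) (nat_lit 7305036716) (nat_lit 760) (nat_lit 20065898800) (nat_lit 836) (nat_lit 10603393490) (nat_lit 113) (nat_lit 5) (nat_lit 123) (nat_lit 5) (nat_lit 124) (nat_lit 5) (nat_lit 391) (nat_lit 380) (nat_lit 249)))) (XT.nd (nat_lit 156) (nat_lit 456) (nat_lit 0) (XT.nd (nat_lit 78) (nat_lit 380) (nat_lit 0) (XT.lf (nat_lit 0) (nat_lit 28173571562) (nat_lit 760) (nat_lit 3323095287) (nat_lit 836) (nat_lit 7512699798) (nat_lit 113) (nat_lit 5) (nat_lit 123) (nat_lit 5) (nat_lit 124) (nat_lit 5) (nat_lit 392) (nat_lit 380) (nat_lit 248)) (XT.lf (nat_lit 0) (nat_lit 10086697891) (nat_lit 380) (nat_lit 26119016492) (nat_lit 456) (nat_lit 3871591900) (nat_lit 108) (nat_lit 5) (nat_lit 113) (nat_lit 5) (nat_lit 114) (nat_lit 5) (nat_lit 393) (nat_lit 380) (nat_lit 247)))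 (XT.nd (nat_lit 78) (nat_lit 380) (nat_lit 0) (XT.lf (nat_lit 0) (nat_lit 191124993) (nat_lit 456) (nat_lit 8817666983) (nat_lit 76) (nat_lit 32177989996) (nat_lit 107) (nat_lit 5) (nat_lit 113) (nat_lit 5) (nat_lit 108) (nat_lit 5) (nat_lit 394) (nat_lit 380) (nat_lit 246)) (XT.lf (nat_lit 0) (nat_lit 4683715102) (nat_lit 456) (nat_lit 28693403581) (nat_lit 76) (nat_lit 8953598293) (nat_lit 102) (nat_lit 5) (nat_lit 108) (nat_lit 5) (nat_lit 103) (nat_lit 5) (nat_lit 395) (nat_lit 380) (nat_lit 245))))))))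
noncomputable def xc187 : XT := (XT.nd (nat_lit 2106) (nat_lit 2128) (nat_lit 0) (XT.nd (nat_lit 1014) (nat_lit 1596) (nat_lit 0) (XT.nd (nat_lit 468) (nat_lit 1140) (nat_lit 0) (XT.nd (nat_lit 234) (nat_lit 608) (nat_lit 0) (XT.nd (nat_lit 78) (nat_lit 380) (nat_lit 0) (XT.lf (nat_lit 0) (nat_lit 9697642105) (nat_lit 456) (nat_lit 6156274133) (nat_lit 76) (nat_lit 27663098434) (nat_lit 102) (nat_lit 5) (nat_lit 108) (nat_lit 5) (nat_lit 103) (nat_lit 5) (nat_lit 396) (nat_lit 380) (nat_lit 244)) (XT.nd (nat_lit 78) (nat_lit 0) (nat_lit 0) (XT.lf (nat_lit 0) (nat_lit 15286344387) (nat_lit 456) (nat_lit 26709298378) (nat_lit 76) (nat_lit 2750781789) (nat_lit 97) (nat_lit 5) (nat_lit 103) (nat_lit 5) (nat_lit 98) (nat_lit 5) (nat_lit 397) (nat_lit 380) (nat_lit 243)) (XT.lf (nat_lit 0) (nat_lit 21517803760) (nat_lit 456) (nat_lit 2642644655) (nat_lit 76) (nat_lit 21858691607) (nat_lit 97) (nat_lit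 5) (nat_lit 103) (nat_lit 5) (nat_lit 98) (nat_lit 5) (nat_lit 398) (nat_lit 380) (nat_lit 242)))) (XT.nd (nat_lit 78) (nat_lit 304) (nat_lit 0) (XT.lf (nat_lit 0) (nat_lit 23372678478) (nat_lit 304) (nat_lit 5050644976) (nat_lit 380) (nat_lit 18914044575) (nat_lit 93) (nat_lit 5) (nat_lit 97) (nat_lit 5) (nat_lit 98) (nat_lit 5) (nat_lit 399) (nat_lit 380) (nat_lit 241)) (XT.nd (nat_lit 78) (nat_lit 0) (nat_lit 0) (XT.lf (nat_lit 0) (nat_lit 1883572120) (nat_lit 304) (nat_lit 34097506290) (nat_lit 380) (nat_lit 12725082140) (nat_lit 89) (nat_lit 5) (nat_lit 93) (nat_lit 5) (nat_lit 94) (nat_lit 5) (nat_lit 400) (nat_lit 380) (nat_lit 240)) (XT.lf (nat_lit 0) (nat_lit 29767952658) (nat_lit 304) (nat_lit 14633795819) (nat_lit 380) (nat_lit 5717393881) (nat_lit 89) (nat_lit 5) (nat_lit 93) (nat_lit 5) (nat_lit 94) (nat_lit 5) (nat_lit 401) (nat_lit 380) (nat_lit 239))))) (XT.nd (nat_lit 234)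 (nat_lit 532) (nat_lit 0) (XT.nd (nat_lit 78) (nat_lit 304) (nat_lit 0) (XT.lf (nat_lit 0) (nat_lit 1798530788) (nat_lit 304) (nat_lit 44027949531) (nat_lit 76) (nat_lit 5764494891) (nat_lit 85) (nat_lit 5) (nat_lit 89) (nat_lit 5) (nat_lit 86) (nat_lit 5) (nat_lit 402) (nat_lit 380) (nat_lit 238)) (XT.nd (nat_lit 78) (nat_lit 304) (nat_lit 0) (XT.lf (nat_lit 0) (nat_lit 10086155561) (nat_lit 304) (nat_lit 15881702673) (nat_lit 76) (nat_lit 27134453679) (nat_lit 85) (nat_lit 5) (nat_lit 89) (nat_lit 5) (nat_lit 86) (nat_lit 5) (nat_lit 403) (nat_lit 380) (nat_lit 237)) (XT.lf (nat_lit 0) (nat_lit 14121195512) (nat_lit 304) (nat_lit 4885380487) (nat_lit 380) (nat_lit 35671719578) (nat_lit 81) (nat_lit 5) (nat_lit 85) (nat_lit 5) (nat_lit 86) (nat_lit 5) (nat_lit 404) (nat_lit 380) (nat_lit 236)))) (XT.nd (nat_lit 156) (nat_lit 304) (nat_lit 0) (XT.nd (nat_lit 78) (nat_lit 228) (nat_lit 0)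 (XT.lf (nat_lit 0) (nat_lit 28913722377) (nat_lit 380) (nat_lit 10420440619) (nat_lit 76) (nat_lit 16971880986) (nat_lit 81) (nat_lit 5) (nat_lit 86) (nat_lit 5) (nat_lit 82) (nat_lit 5) (nat_lit 405) (nat_lit 380) (nat_lit 235)) (XT.lf (nat_lit 0) (nat_lit 21839411913) (nat_lit 228) (nat_lit 17895963873) (nat_lit 304) (nat_lit 18258847304) (nat_lit 78) (nat_lit 5) (nat_lit 81) (nat_lit 5) (nat_lit 82) (nat_lit 5) (nat_lit 406) (nat_lit 380) (nat_lit 234))) (XT.nd (nat_lit 78) (nat_lit 304) (nat_lit 0) (XT.lf (nat_lit 0) (nat_lit 51347648757) (nat_lit 304) (nat_lit 3761480734) (nat_lit 76) (nat_lit 4645205547) (nat_lit 78) (nat_lit 5) (nat_lit 82) (nat_lit 5) (nat_lit 79) (nat_lit 5) (nat_lit 407) (nat_lit 380) (nat_lit 233)) (XT.lf (nat_lit 0) (nat_lit 2663502651) (nat_lit 304) (nat_lit 30660534314) (nat_lit 76) (nat_lit 28237530805) (nat_lit 74) (nat_lit 5) (nat_lit 78) (nat_lit 5) (nat_lit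 75) (nat_lit 5) (nat_lit 408) (nat_lit 380) (nat_lit 232)))))) (XT.nd (nat_lit 546) (nat_lit 684) (nat_lit 0) (XT.nd (nat_lit 234) (nat_lit 456) (nat_lit 0) (XT.nd (nat_lit 78) (nat_lit 228) (nat_lit 0) (XT.lf (nat_lit 0) (nat_lit 3956575204) (nat_lit 228) (nat_lit 10172861935) (nat_lit 304) (nat_lit 49316597110) (nat_lit 71) (nat_lit 5) (nat_lit 74) (nat_lit 5) (nat_lit 75) (nat_lit 5) (nat_lit 409) (nat_lit 380) (nat_lit 231)) (XT.nd (nat_lit 78) (nat_lit 228) (nat_lit 0) (XT.lf (nat_lit 0) (nat_lit 26915402503) (nat_lit 304) (nat_lit 24261492224) (nat_lit 76) (nat_lit 14210493218) (nat_lit 71) (nat_lit 5) (nat_lit 75) (nat_lit 5) (nat_lit 72) (nat_lit 5) (nat_lit 410) (nat_lit 380) (nat_lit 230)) (XT.lf (nat_lit 0) (nat_lit 12973949693) (nat_lit 228) (nat_lit 27734397030) (nat_lit 304) (nat_lit 26699079145) (nat_lit 68) (nat_lit 5) (nat_lit 71) (nat_lit 5) (nat_lit 72) (nat_lit 5) (nat_lit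 411) (nat_lit 380) (nat_lit 229)))) (XT.nd (nat_lit 156) (nat_lit 228) (nat_lit 0) (XT.nd (nat_lit 78) (nat_lit 228) (nat_lit 0) (XT.lf (nat_lit 0) (nat_lit 52911104252) (nat_lit 228) (nat_lit 2689108202) (nat_lit 304) (nat_lit 13907790064) (nat_lit 68) (nat_lit 5) (nat_lit 71) (nat_lit 5) (nat_lit 72) (nat_lit 5) (nat_lit 412) (nat_lit 380) (nat_lit 228)) (XT.lf (nat_lit 0) (nat_lit 284523114) (nat_lit 228) (nat_lit 48168323758) (nat_lit 76) (nat_lit 23223824204) (nat_lit 65) (nat_lit 5) (nat_lit 68) (nat_lit 5) (nat_lit 66) (nat_lit 5) (nat_lit 413) (nat_lit 380) (nat_lit 227))) (XT.nd (nat_lit 78) (nat_lit 228) (nat_lit 0) (XT.lf (nat_lit 0) (nat_lit 15047299107) (nat_lit 228) (nat_lit 8023675799) (nat_lit 76) (nat_lit 50854986794) (nat_lit 65) (nat_lit 5) (nat_lit 68) (nat_lit 5) (nat_lit 66) (nat_lit 5) (nat_lit 414) (nat_lit 380) (nat_lit 226)) (XT.lf (nat_lit 0) (nat_lit 31162082836)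 (nat_lit 304) (nat_lit 41070829874) (nat_lit 76) (nat_lit 4024111144) (nat_lit 62) (nat_lit 5) (nat_lit 66) (nat_lit 5) (nat_lit 63) (nat_lit 5) (nat_lit 415) (nat_lit 380) (nat_lit 225))))) (XT.nd (nat_lit 234) (nat_lit 304) (nat_lit 0) (XT.nd (nat_lit 78) (nat_lit 228) (nat_lit 0) (XT.lf (nat_lit 0) (nat_lit 1812607519) (nat_lit 152) (nat_lit 46813191355) (nat_lit 228) (nat_lit 30051681015) (nat_lit 60) (nat_lit 5) (nat_lit 62) (nat_lit 5) (nat_lit 63) (nat_lit 5) (nat_lit 416) (nat_lit 380) (nat_lit 224)) (XT.nd (nat_lit 78) (nat_lit 228) (nat_lit 0) (XT.lf (nat_lit 0) (nat_lit 48263896240) (nat_lit 152) (nat_lit 19392960663) (nat_lit 228) (nat_lit 13527394420) (nat_lit 60) (nat_lit 5) (nat_lit 62) (nat_lit 5) (nat_lit 63) (nat_lit 5) (nat_lit 417) (nat_lit 380) (nat_lit 223)) (XT.lf (nat_lit 0) (nat_lit 4062819406) (nat_lit 228) (nat_lit 70359345725) (nat_lit 76) (nat_lit 9373108285)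 (nat_lit 57) (nat_lit 5) (nat_lit 60) (nat_lit 5) (nat_lit 58) (nat_lit 5) (nat_lit 418) (nat_lit 380) (nat_lit 222)))) (XT.nd (nat_lit 156) (nat_lit 152) (nat_lit 0) (XT.nd (nat_lit 78) (nat_lit 152) (nat_lit 0) (XT.lf (nat_lit 0) (nat_lit 22961179344) (nat_lit 228) (nat_lit 23807009723) (nat_lit 76) (nat_lit 39713407643) (nat_lit 57) (nat_lit 5) (nat_lit 60) (nat_lit 5) (nat_lit 58) (nat_lit 5) (nat_lit 419) (nat_lit 380) (nat_lit 221)) (XT.lf (nat_lit 0) (nat_lit 25899836200) (nat_lit 152) (nat_lit 17307718999) (nat_lit 228) (nat_lit 46074526408) (nat_lit 55) (nat_lit 5) (nat_lit 57) (nat_lit 5) (nat_lit 58) (nat_lit 5) (nat_lit 420) (nat_lit 380) (nat_lit 220))) (XT.nd (nat_lit 78) (nat_lit 152) (nat_lit 0) (XT.lf (nat_lit 0) (nat_lit 65087524592) (nat_lit 228) (nat_lit 13505307872) (nat_lit 76) (nat_lit 13598694866) (nat_lit 55) (nat_lit 5) (nat_lit 58) (nat_lit 5) (nat_lit 56) (nat_lit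 5) (nat_lit 421) (nat_lit 380) (nat_lit 219)) (XT.lf (nat_lit 0) (nat_lit 39855383435) (nat_lit 152) (nat_lit 49110901515) (nat_lit 228) (nat_lit 6234921067) (nat_lit 53) (nat_lit 5) (nat_lit 55) (nat_lit 5) (nat_lit 56) (nat_lit 5) (nat_lit 422) (nat_lit 380) (nat_lit 218))))))) (XT.nd (nat_lit 1092) (nat_lit 836) (nat_lit 0) (XT.nd (nat_lit 546) (nat_lit 608) (nat_lit 0) (XT.nd (nat_lit 234) (nat_lit 304) (nat_lit 0) (XT.nd (nat_lit 78) (nat_lit 304) (nat_lit 0) (XT.lf (nat_lit 0) (nat_lit 15407113722) (nat_lit 228) (nat_lit 2247459355) (nat_lit 76) (nat_lit 80682993232) (nat_lit 52) (nat_lit 5) (nat_lit 55) (nat_lit 5) (nat_lit 53) (nat_lit 5) (nat_lit 423) (nat_lit 380) (nat_lit 217)) (XT.nd (nat_lit 78) (nat_lit 152) (nat_lit 0) (XT.lf (nat_lit 0) (nat_lit 39037726595) (nat_lit 228) (nat_lit 46671030713) (nat_lit 76) (nat_lit 15861076449) (nat_lit 50) (nat_lit 5) (nat_lit 53) (nat_lit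 5) (nat_lit 51) (nat_lit 5) (nat_lit 424) (nat_lit 380) (nat_lit 216)) (XT.lf (nat_lit 0) (nat_lit 10048250078) (nat_lit 152) (nat_lit 54285488099) (nat_lit 228) (nat_lit 40605783247) (nat_lit 48) (nat_lit 5) (nat_lit 50) (nat_lit 5) (nat_lit 51) (nat_lit 5) (nat_lit 425) (nat_lit 380) (nat_lit 215)))) (XT.nd (nat_lit 156) (nat_lit 152) (nat_lit 0) (XT.nd (nat_lit 78) (nat_lit 152) (nat_lit 0) (XT.lf (nat_lit 0) (nat_lit 71221931199) (nat_lit 152) (nat_lit 20461921296) (nat_lit 228) (nat_lit 16754376109) (nat_lit 48) (nat_lit 5) (nat_lit 50) (nat_lit 5) (nat_lit 51) (nat_lit 5) (nat_lit 426) (nat_lit 380) (nat_lit 214)) (XT.lf (nat_lit 0) (nat_lit 8640860535) (nat_lit 152) (nat_lit 88351352960) (nat_lit 76) (nat_lit 15082357760) (nat_lit 46) (nat_lit 5) (nat_lit 48) (nat_lit 5) (nat_lit 47) (nat_lit 5) (nat_lit 427) (nat_lit 380) (nat_lit 213))) (XT.nd (nat_lit 78) (nat_lit 152) (nat_lit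 0) (XT.lf (nat_lit 0) (nat_lit 35717802972) (nat_lit 152) (nat_lit 27481710541) (nat_lit 76) (nat_lit 52630734592) (nat_lit 46) (nat_lit 5) (nat_lit 48) (nat_lit 5) (nat_lit 47) (nat_lit 5) (nat_lit 428) (nat_lit 380) (nat_lit 212)) (XT.lf (nat_lit 0) (nat_lit 37634197379) (nat_lit 152) (nat_lit 27100971522) (nat_lit 228) (nat_lit 55009211275) (nat_lit 44) (nat_lit 5) (nat_lit 46) (nat_lit 5) (nat_lit 47) (nat_lit 5) (nat_lit 429) (nat_lit 380) (nat_lit 211))))) (XT.nd (nat_lit 234) (nat_lit 456) (nat_lit 0) (XT.nd (nat_lit 78) (nat_lit 152) (nat_lit 0) (XT.lf (nat_lit 0) (nat_lit 95844116505) (nat_lit 228) (nat_lit 17048986801) (nat_lit 76) (nat_lit 10929080063) (nat_lit 44) (nat_lit 5) (nat_lit 47) (nat_lit 5) (nat_lit 45) (nat_lit 4) (nat_lit 430) (nat_lit 380) (nat_lit 210)) (XT.nd (nat_lit 78) (nat_lit 0) (nat_lit 0) (XT.lf (nat_lit 0) (nat_lit 1675390773) (nat_lit 152) (nat_lit 75568114023)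 (nat_lit 76) (nat_lit 50795870876) (nat_lit 42) (nat_lit 5) (nat_lit 44) (nat_lit 5) (nat_lit 43) (nat_lit 5) (nat_lit 431) (nat_lit 380) (nat_lit 209)) (XT.lf (nat_lit 0) (nat_lit 32163802263) (nat_lit 152) (nat_lit 6858632259) (nat_lit 76) (nat_lit 93407434015) (nat_lit 42) (nat_lit 5) (nat_lit 44) (nat_lit 5) (nat_lit 43) (nat_lit 5) (nat_lit 432) (nat_lit 380) (nat_lit 208)))) (XT.nd (nat_lit 156) (nat_lit 228) (nat_lit 0) (XT.nd (nat_lit 78) (nat_lit 76) (nat_lit 0) (XT.lf (nat_lit 0) (nat_lit 65263296168) (nat_lit 228) (nat_lit 69578522951) (nat_lit 76) (nat_lit 2143733986) (nat_lit 40) (nat_lit 5) (nat_lit 43) (nat_lit 5) (nat_lit 41) (nat_lit 4) (nat_lit 433) (nat_lit 380) (nat_lit 207)) (XT.lf (nat_lit 0) (nat_lit 3324048276) (nat_lit 76) (nat_lit 97502497888) (nat_lit 152) (nat_lit 40902036815) (nat_lit 39) (nat_lit 5) (nat_lit 40) (nat_lit 5) (nat_lit 41) (nat_lit 4) (nat_lit 434)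 (nat_lit 380) (nat_lit 206))) (XT.nd (nat_lit 78) (nat_lit 228) (nat_lit 0) (XT.lf (nat_lit 0) (nat_lit 82285779589) (nat_lit 76) (nat_lit 57059655840) (nat_lit 152) (nat_lit 7304455217) (nat_lit 39) (nat_lit 5) (nat_lit 40) (nat_lit 5) (nat_lit 41) (nat_lit 4) (nat_lit 435) (nat_lit 380) (nat_lit 205)) (XT.lf (nat_lit 0) (nat_lit 13367923289) (nat_lit 152) (nat_lit 13917640554) (nat_lit 228) (nat_lit 124499469666) (nat_lit 36) (nat_lit 5) (nat_lit 38) (nat_lit 5) (nat_lit 39) (nat_lit 5) (nat_lit 436) (nat_lit 380) (nat_lit 204)))))) (XT.nd (nat_lit 546) (nat_lit 456) (nat_lit 0) (XT.nd (nat_lit 234) (nat_lit 304) (nat_lit 0) (XT.nd (nat_lit 78) (nat_lit 76) (nat_lit 0) (XT.lf (nat_lit 0) (nat_lit 64956630312) (nat_lit 228) (nat_lit 60530399661) (nat_lit 76) (nat_lit 31604065202) (nat_lit 36) (nat_lit 5) (nat_lit 39) (nat_lit 5) (nat_lit 37) (nat_lit 4) (nat_lit 437) (nat_lit 380) (nat_lit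 203)) (XT.nd (nat_lit 78) (nat_lit 0) (nat_lit 0) (XT.lf (nat_lit 0) (nat_lit 21716075021) (nat_lit 76) (nat_lit 83361586141) (nat_lit 152) (nat_lit 57556478324) (nat_lit 35) (nat_lit 5) (nat_lit 36) (nat_lit 5) (nat_lit 37) (nat_lit 4) (nat_lit 438) (nat_lit 380) (nat_lit 202)) (XT.lf (nat_lit 0) (nat_lit 110174912454) (nat_lit 76) (nat_lit 38054162350) (nat_lit 152) (nat_lit 20174044755) (nat_lit 35) (nat_lit 5) (nat_lit 36) (nat_lit 5) (nat_lit 37) (nat_lit 4) (nat_lit 439) (nat_lit 380) (nat_lit 201)))) (XT.nd (nat_lit 156) (nat_lit 76) (nat_lit 0) (XT.nd (nat_lit 78) (nat_lit 0) (nat_lit 0) (XT.lf (nat_lit 0) (nat_lit 19083524399) (nat_lit 228) (nat_lit 145351324617) (nat_lit 76) (nat_lit 9979976379) (nat_lit 32) (nat_lit 5) (nat_lit 35) (nat_lit 5) (nat_lit 33) (nat_lit 4) (nat_lit 440) (nat_lit 380) (nat_lit 200)) (XT.lf (nat_lit 0) (nat_lit 61251368522) (nat_lit 228) (nat_lit 58908592213)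 (nat_lit 76) (nat_lit 60469350945) (nat_lit 32) (nat_lit 5) (nat_lit 35) (nat_lit 5) (nat_lit 33) (nat_lit 4) (nat_lit 441) (nat_lit 380) (nat_lit 199))) (XT.nd (nat_lit 78) (nat_lit 0) (nat_lit 0) (XT.lf (nat_lit 0) (nat_lit 32908210749) (nat_lit 76) (nat_lit 73132468416) (nat_lit 152) (nat_lit 81088189489) (nat_lit 31) (nat_lit 5) (nat_lit 32) (nat_lit 5) (nat_lit 33) (nat_lit 4) (nat_lit 442) (nat_lit 380) (nat_lit 198)) (XT.lf (nat_lit 0) (nat_lit 131359714361) (nat_lit 76) (nat_lit 22706684965) (nat_lit 152) (nat_lit 39837157035) (nat_lit 31) (nat_lit 5) (nat_lit 32) (nat_lit 5) (nat_lit 33) (nat_lit 4) (nat_lit 443) (nat_lit 380) (nat_lit 197))))) (XT.nd (nat_lit 234) (nat_lit 228) (nat_lit 0) (XT.nd (nat_lit 78) (nat_lit 76) (nat_lit 0) (XT.lf (nat_lit 0) (nat_lit 4389322245) (nat_lit 152) (nat_lit 166694812017) (nat_lit 76) (nat_lit 29878922301) (nat_lit 29) (nat_lit 5) (nat_lit 31)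 (nat_lit 5) (nat_lit 30) (nat_lit 4) (nat_lit 444) (nat_lit 380) (nat_lit 196)) (XT.nd (nat_lit 78) (nat_lit 76) (nat_lit 0) (XT.lf (nat_lit 0) (nat_lit 50936475342) (nat_lit 152) (nat_lit 71274204399) (nat_lit 76) (nat_lit 86059791723) (nat_lit 29) (nat_lit 5) (nat_lit 31) (nat_lit 5) (nat_lit 30) (nat_lit 4) (nat_lit 445) (nat_lit 380) (nat_lit 195)) (XT.lf (nat_lit 0) (nat_lit 29872318604) (nat_lit 76) (nat_lit 70404414757) (nat_lit 152) (nat_lit 115643236458) (nat_lit 28) (nat_lit 5) (nat_lit 29) (nat_lit 5) (nat_lit 30) (nat_lit 4) (nat_lit 446) (nat_lit 380) (nat_lit 194)))) (XT.nd (nat_lit 156) (nat_lit 152) (nat_lit 0) (XT.nd (nat_lit 78) (nat_lit 76) (nat_lit 0) (XT.lf (nat_lit 0) (nat_lit 138549451055) (nat_lit 76) (nat_lit 14740984980) (nat_lit 152) (nat_lit 70601185533) (nat_lit 28) (nat_lit 5) (nat_lit 29) (nat_lit 5) (nat_lit 30) (nat_lit 4) (nat_lit 447) (nat_lit 380) (nat_lit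 193)) (XT.lf (nat_lit 0) (nat_lit 20366924947) (nat_lit 76) (nat_lit 189587641113) (nat_lit 76) (nat_lit 22257302799) (nat_lit 27) (nat_lit 4) (nat_lit 28) (nat_lit 5) (nat_lit 28) (nat_lit 4) (nat_lit 448) (nat_lit 380) (nat_lit 192))) (XT.nd (nat_lit 78) (nat_lit 76) (nat_lit 0) (XT.lf (nat_lit 0) (nat_lit 29301526973) (nat_lit 152) (nat_lit 107263035602) (nat_lit 76) (nat_lit 104275812222) (nat_lit 26) (nat_lit 5) (nat_lit 28) (nat_lit 5) (nat_lit 27) (nat_lit 4) (nat_lit 449) (nat_lit 380) (nat_lit 191)) (XT.lf (nat_lit 0) (nat_lit 2254133650) (nat_lit 76) (nat_lit 80470787190) (nat_lit 152) (nat_lit 167155410861) (nat_lit 25) (nat_lit 5) (nat_lit 26) (nat_lit 5) (nat_lit 27) (nat_lit 4) (nat_lit 450) (nat_lit 380) (nat_lit 190))))))))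
noncomputable def xc188 : XT := (XT.nd (nat_lit 2106) (nat_lit 76) (nat_lit 0) (XT.nd (nat_lit 1014) (nat_lit 456) (nat_lit 0) (XT.nd (nat_lit 468) (nat_lit 304) (nat_lit 0) (XT.nd (nat_lit 234) (nat_lit 152) (nat_lit 0) (XT.nd (nat_lit 78) (nat_lit 76) (nat_lit 0) (XT.lf (nat_lit 0) (nat_lit 120970002601) (nat_lit 76) (nat_lit 19665464383) (nat_lit 152) (nat_lit 118646020389) (nat_lit 25) (nat_lit 5) (nat_lit 26) (nat_lit 5) (nat_lit 27) (nat_lit 4) (nat_lit 451) (nat_lit 380) (nat_lit 189)) (XT.nd (nat_lit 78) (nat_lit 76) (nat_lit 0) (XT.lf (nat_lit 0) (nat_lit 202130766517) (nat_lit 152) (nat_lit 24221868080) (nat_lit 0) (nat_lit 42765604978) (nat_lit 25) (nat_lit 5) (nat_lit 27) (nat_lit 4) (nat_lit 25) (nat_lit 4) (nat_lit 452) (nat_lit 380) (nat_lit 188)) (XT.lf (nat_lit 0) (nat_lit 98398195166) (nat_lit 76) (nat_lit 170160768797) (nat_lit 76) (nat_lit 10794958824) (nat_lit 24) (nat_lit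 4) (nat_lit 25) (nat_lit 5) (nat_lit 25) (nat_lit 4) (nat_lit 453) (nat_lit 380) (nat_lit 187)))) (XT.nd (nat_lit 78) (nat_lit 76) (nat_lit 0) (XT.lf (nat_lit 0) (nat_lit 47080661743) (nat_lit 152) (nat_lit 62851070956) (nat_lit 76) (nat_lit 180111204471) (nat_lit 23) (nat_lit 5) (nat_lit 25) (nat_lit 5) (nat_lit 24) (nat_lit 4) (nat_lit 454) (nat_lit 380) (nat_lit 186)) (XT.nd (nat_lit 78) (nat_lit 0) (nat_lit 0) (XT.lf (nat_lit 0) (nat_lit 62997196228) (nat_lit 76) (nat_lit 45473151043) (nat_lit 152) (nat_lit 192738053447) (nat_lit 22) (nat_lit 5) (nat_lit 23) (nat_lit 5) (nat_lit 24) (nat_lit 4) (nat_lit 455) (nat_lit 380) (nat_lit 185)) (XT.lf (nat_lit 0) (nat_lit 174357618899) (nat_lit 152) (nat_lit 115924138234) (nat_lit 0) (nat_lit 22578975260) (nat_lit 22) (nat_lit 5) (nat_lit 24) (nat_lit 4) (nat_lit 22) (nat_lit 4) (nat_lit 456) (nat_lit 380) (nat_lit 184))))) (XT.nd (nat_lit 234)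 (nat_lit 152) (nat_lit 0) (XT.nd (nat_lit 78) (nat_lit 76) (nat_lit 0) (XT.lf (nat_lit 0) (nat_lit 12118780939) (nat_lit 76) (nat_lit 232354670786) (nat_lit 76) (nat_lit 80575519082) (nat_lit 21) (nat_lit 4) (nat_lit 22) (nat_lit 5) (nat_lit 22) (nat_lit 4) (nat_lit 457) (nat_lit 380) (nat_lit 183)) (XT.nd (nat_lit 78) (nat_lit 76) (nat_lit 0) (XT.lf (nat_lit 0) (nat_lit 150587569577) (nat_lit 76) (nat_lit 169470274393) (nat_lit 76) (nat_lit 17690638818) (nat_lit 21) (nat_lit 4) (nat_lit 22) (nat_lit 5) (nat_lit 22) (nat_lit 4) (nat_lit 458) (nat_lit 380) (nat_lit 182)) (XT.lf (nat_lit 0) (nat_lit 46790903253) (nat_lit 152) (nat_lit 55858744735) (nat_lit 76) (nat_lit 248395609891) (nat_lit 20) (nat_lit 5) (nat_lit 22) (nat_lit 5) (nat_lit 21) (nat_lit 4) (nat_lit 459) (nat_lit 380) (nat_lit 181)))) (XT.nd (nat_lit 156) (nat_lit 76) (nat_lit 0) (XT.nd (nat_lit 78) (nat_lit 0) (nat_lit 0) (XT.lf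 (nat_lit 0) (nat_lit 84419646363) (nat_lit 76) (nat_lit 30799954443) (nat_lit 152) (nat_lit 249706890433) (nat_lit 19) (nat_lit 5) (nat_lit 20) (nat_lit 5) (nat_lit 21) (nat_lit 4) (nat_lit 460) (nat_lit 380) (nat_lit 180)) (XT.lf (nat_lit 0) (nat_lit 188727800395) (nat_lit 152) (nat_lit 146516570983) (nat_lit 0) (nat_lit 44174511560) (nat_lit 19) (nat_lit 5) (nat_lit 21) (nat_lit 4) (nat_lit 19) (nat_lit 4) (nat_lit 461) (nat_lit 380) (nat_lit 179))) (XT.nd (nat_lit 78) (nat_lit 76) (nat_lit 0) (XT.lf (nat_lit 0) (nat_lit 266415921489) (nat_lit 152) (nat_lit 6332493657) (nat_lit 0) (nat_lit 121862253528) (nat_lit 19) (nat_lit 5) (nat_lit 21) (nat_lit 4) (nat_lit 19) (nat_lit 4) (nat_lit 462) (nat_lit 380) (nat_lit 178)) (XT.lf (nat_lit 0) (nat_lit 145517501131) (nat_lit 76) (nat_lit 204742497074) (nat_lit 76) (nat_lit 60188468041) (nat_lit 18) (nat_lit 4) (nat_lit 19) (nat_lit 5) (nat_lit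 19) (nat_lit 4) (nat_lit 463) (nat_lit 380) (nat_lit 177)))))) (XT.nd (nat_lit 546) (nat_lit 228) (nat_lit 0) (XT.nd (nat_lit 234) (nat_lit 76) (nat_lit 0) (XT.nd (nat_lit 78) (nat_lit 76) (nat_lit 0) (XT.lf (nat_lit 0) (nat_lit 10967691055) (nat_lit 152) (nat_lit 122070606248) (nat_lit 76) (nat_lit 294025668295) (nat_lit 17) (nat_lit 5) (nat_lit 19) (nat_lit 5) (nat_lit 18) (nat_lit 4) (nat_lit 464) (nat_lit 380) (nat_lit 176)) (XT.nd (nat_lit 78) (nat_lit 0) (nat_lit 0) (XT.lf (nat_lit 0) (nat_lit 27836289648) (nat_lit 76) (nat_lit 56256876236) (nat_lit 152) (nat_lit 360346027498) (nat_lit 16) (nat_lit 5) (nat_lit 17) (nat_lit 5) (nat_lit 18) (nat_lit 4) (nat_lit 465) (nat_lit 380) (nat_lit 175)) (XT.lf (nat_lit 0) (nat_lit 163356147644) (nat_lit 152) (nat_lit 273518265934) (nat_lit 0) (nat_lit 25684707337) (nat_lit 16) (nat_lit 5) (nat_lit 18) (nat_lit 4) (nat_lit 16) (nat_lit 4) (nat_lit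 466) (nat_lit 380) (nat_lit 174)))) (XT.nd (nat_lit 156) (nat_lit 0) (nat_lit 0) (XT.nd (nat_lit 78) (nat_lit 76) (nat_lit 0) (XT.lf (nat_lit 0) (nat_lit 247504173331) (nat_lit 152) (nat_lit 124202326662) (nat_lit 0) (nat_lit 109832450114) (nat_lit 16) (nat_lit 5) (nat_lit 18) (nat_lit 4) (nat_lit 16) (nat_lit 4) (nat_lit 467) (nat_lit 380) (nat_lit 173)) (XT.lf (nat_lit 0) (nat_lit 33655956517) (nat_lit 76) (nat_lit 302728775172) (nat_lit 76) (nat_lit 165056782518) (nat_lit 15) (nat_lit 4) (nat_lit 16) (nat_lit 5) (nat_lit 16) (nat_lit 4) (nat_lit 468) (nat_lit 380) (nat_lit 172))) (XT.nd (nat_lit 78) (nat_lit 0) (nat_lit 0) (XT.lf (nat_lit 0) (nat_lit 203718534875) (nat_lit 76) (nat_lit 228093882963) (nat_lit 76) (nat_lit 90421633700) (nat_lit 15) (nat_lit 4) (nat_lit 16) (nat_lit 5) (nat_lit 16) (nat_lit 4) (nat_lit 469) (nat_lit 380) (nat_lit 171)) (XT.lf (nat_lit 0) (nat_lit 382283629479)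 (nat_lit 76) (nat_lit 149727547739) (nat_lit 76) (nat_lit 12055054089) (nat_lit 15) (nat_lit 4) (nat_lit 16) (nat_lit 5) (nat_lit 16) (nat_lit 4) (nat_lit 470) (nat_lit 380) (nat_lit 170))))) (XT.nd (nat_lit 234) (nat_lit 76) (nat_lit 0) (XT.nd (nat_lit 78) (nat_lit 0) (nat_lit 0) (XT.lf (nat_lit 0) (nat_lit 1745755509) (nat_lit 76) (nat_lit 66263260056) (nat_lit 152) (nat_lit 498924832523) (nat_lit 13) (nat_lit 5) (nat_lit 14) (nat_lit 5) (nat_lit 15) (nat_lit 4) (nat_lit 471) (nat_lit 380) (nat_lit 169)) (XT.nd (nat_lit 78) (nat_lit 0) (nat_lit 0) (XT.lf (nat_lit 0) (nat_lit 154789353738) (nat_lit 152) (nat_lit 412317440759) (nat_lit 0) (nat_lit 23672260340) (nat_lit 13) (nat_lit 5) (nat_lit 15) (nat_lit 4) (nat_lit 13) (nat_lit 4) (nat_lit 472) (nat_lit 380) (nat_lit 168)) (XT.lf (nat_lit 0) (nat_lit 246994705668) (nat_lit 152) (nat_lit 252890105216) (nat_lit 0) (nat_lit 115877411212)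 (nat_lit 13) (nat_lit 5) (nat_lit 15) (nat_lit 4) (nat_lit 13) (nat_lit 4) (nat_lit 473) (nat_lit 380) (nat_lit 167)))) (XT.nd (nat_lit 156) (nat_lit 0) (nat_lit 0) (XT.nd (nat_lit 78) (nat_lit 76) (nat_lit 0) (XT.lf (nat_lit 0) (nat_lit 343810052716) (nat_lit 152) (nat_lit 85491941864) (nat_lit 0) (nat_lit 212692566775) (nat_lit 13) (nat_lit 5) (nat_lit 15) (nat_lit 4) (nat_lit 13) (nat_lit 4) (nat_lit 474) (nat_lit 380) (nat_lit 166)) (XT.lf (nat_lit 0) (nat_lit 93260535925) (nat_lit 76) (nat_lit 353661430016) (nat_lit 76) (nat_lit 222543761709) (nat_lit 12) (nat_lit 4) (nat_lit 13) (nat_lit 5) (nat_lit 13) (nat_lit 4) (nat_lit 475) (nat_lit 380) (nat_lit 165))) (XT.nd (nat_lit 78) (nat_lit 0) (nat_lit 0) (XT.lf (nat_lit 0) (nat_lit 283918219755) (nat_lit 76) (nat_lit 272718847443) (nat_lit 76) (nat_lit 141601005455) (nat_lit 12) (nat_lit 4) (nat_lit 13) (nat_lit 5) (nat_lit 13) (nat_lit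 4) (nat_lit 476) (nat_lit 380) (nat_lit 164)) (XT.lf (nat_lit 0) (nat_lit 484108306801) (nat_lit 76) (nat_lit 187729373831) (nat_lit 76) (nat_lit 56611366431) (nat_lit 12) (nat_lit 4) (nat_lit 13) (nat_lit 5) (nat_lit 13) (nat_lit 4) (nat_lit 477) (nat_lit 380) (nat_lit 163))))))) (XT.nd (nat_lit 46488) (nat_lit 0) (nat_lit 5320) (XT.nd (nat_lit 45942) (nat_lit 0) (nat_lit 7752) (XT.nd (nat_lit 45708) (nat_lit 0) (nat_lit 8208) (XT.nd (nat_lit 45552) (nat_lit 0) (nat_lit 8132) (XT.lf (nat_lit 0) (nat_lit 31583227509) (nat_lit 152) (nat_lit 66372548539) (nat_lit 76) (nat_lit 662189335377) (nat_lit 11) (nat_lit 5) (nat_lit 13) (nat_lit 5) (nat_lit 12) (nat_lit 4) (nat_lit 478) (nat_lit 380) (nat_lit 162)) (XT.nd (nat_lit 78) (nat_lit 0) (nat_lit 0) (XT.lf (nat_lit 0) (nat_lit 3726704985) (nat_lit 836) (nat_lit 5664366973) (nat_lit 836) (nat_lit 5664366973) (nat_lit 118) (nat_lit 3) (nat_lit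 129) (nat_lit 3) (nat_lit 129) (nat_lit 5) (nat_lit 381) (nat_lit 381) (nat_lit 258)) (XT.lf (nat_lit 76) (nat_lit 3410139177) (nat_lit 0) (nat_lit 4353483464) (nat_lit 836) (nat_lit 23093794665) (nat_lit 119) (nat_lit 5) (nat_lit 118) (nat_lit 3) (nat_lit 129) (nat_lit 5) (nat_lit 382) (nat_lit 381) (nat_lit 257)))) (XT.nd (nat_lit 78) (nat_lit 0) (nat_lit 0) (XT.lf (nat_lit 0) (nat_lit 8448387099) (nat_lit 760) (nat_lit 12526854304) (nat_lit 836) (nat_lit 10648092731) (nat_lit 119) (nat_lit 5) (nat_lit 129) (nat_lit 5) (nat_lit 130) (nat_lit 5) (nat_lit 383) (nat_lit 381) (nat_lit 256)) (XT.nd (nat_lit 78) (nat_lit 0) (nat_lit 76) (XT.lf (nat_lit 76) (nat_lit 3166998295) (nat_lit 0) (nat_lit 6116894373) (nat_lit 836) (nat_lit 23137831347) (nat_lit 120) (nat_lit 5) (nat_lit 119) (nat_lit 5) (nat_lit 130) (nat_lit 5) (nat_lit 384) (nat_lit 381) (nat_lit 255)) (XT.lf (nat_lit 0) (nat_lit 10520756420)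 (nat_lit 760) (nat_lit 13323314132) (nat_lit 836) (nat_lit 9397985936) (nat_lit 120) (nat_lit 5) (nat_lit 130) (nat_lit 5) (nat_lit 131) (nat_lit 5) (nat_lit 385) (nat_lit 381) (nat_lit 254))))) (XT.nd (nat_lit 234) (nat_lit 532) (nat_lit 0) (XT.nd (nat_lit 78) (nat_lit 0) (nat_lit 76) (XT.lf (nat_lit 76) (nat_lit 3410913673) (nat_lit 0) (nat_lit 8558155923) (nat_lit 836) (nat_lit 22126857813) (nat_lit 121) (nat_lit 5) (nat_lit 120) (nat_lit 5) (nat_lit 131) (nat_lit 5) (nat_lit 386) (nat_lit 381) (nat_lit 253)) (XT.nd (nat_lit 78) (nat_lit 0) (nat_lit 0) (XT.lf (nat_lit 0) (nat_lit 13832346022) (nat_lit 760) (nat_lit 13660287225) (nat_lit 836) (nat_lit 7482733285) (nat_lit 121) (nat_lit 5) (nat_lit 131) (nat_lit 5) (nat_lit 132) (nat_lit 5) (nat_lit 387) (nat_lit 381) (nat_lit 252)) (XT.lf (nat_lit 76) (nat_lit 4207359261) (nat_lit 0) (nat_lit 11783832255) (nat_lit 836) (nat_lit 19897467769)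 (nat_lit 122) (nat_lit 5) (nat_lit 121) (nat_lit 5) (nat_lit 132) (nat_lit 5) (nat_lit 388) (nat_lit 381) (nat_lit 251)))) (XT.nd (nat_lit 156) (nat_lit 684) (nat_lit 0) (XT.nd (nat_lit 78) (nat_lit 0) (nat_lit 0) (XT.lf (nat_lit 0) (nat_lit 18563219069) (nat_lit 760) (nat_lit 13473566696) (nat_lit 836) (nat_lit 4795570768) (nat_lit 122) (nat_lit 5) (nat_lit 132) (nat_lit 5) (nat_lit 133) (nat_lit 5) (nat_lit 389) (nat_lit 381) (nat_lit 250)) (XT.lf (nat_lit 76) (nat_lit 5628843979) (nat_lit 0) (nat_lit 15912788398) (nat_lit 836) (nat_lit 16267718805) (nat_lit 123) (nat_lit 5) (nat_lit 122) (nat_lit 5) (nat_lit 133) (nat_lit 5) (nat_lit 390) (nat_lit 381) (nat_lit 249))) (XT.nd (nat_lit 78) (nat_lit 760) (nat_lit 0) (XT.lf (nat_lit 0) (nat_lit 24913620444) (nat_lit 760) (nat_lit 12692079022) (nat_lit 76) (nat_lit 1217265067) (nat_lit 123) (nat_lit 5) (nat_lit 133) (nat_lit 5) (nat_lit 124)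 (nat_lit 5) (nat_lit 391) (nat_lit 381) (nat_lit 248)) (XT.lf (nat_lit 0) (nat_lit 7755447711) (nat_lit 760) (nat_lit 21077707422) (nat_lit 836) (nat_lit 11035157651) (nat_lit 113) (nat_lit 5) (nat_lit 123) (nat_lit 5) (nat_lit 124) (nat_lit 5) (nat_lit 392) (nat_lit 381) (nat_lit 247)))))) (XT.nd (nat_lit 546) (nat_lit 1216) (nat_lit 0) (XT.nd (nat_lit 234) (nat_lit 760) (nat_lit 0) (XT.nd (nat_lit 78) (nat_lit 456) (nat_lit 0) (XT.lf (nat_lit 0) (nat_lit 29663354101) (nat_lit 760) (nat_lit 3497358320) (nat_lit 836) (nat_lit 7794615252) (nat_lit 113) (nat_lit 5) (nat_lit 123) (nat_lit 5) (nat_lit 124) (nat_lit 5) (nat_lit 393) (nat_lit 381) (nat_lit 246)) (XT.nd (nat_lit 78) (nat_lit 76) (nat_lit 0) (XT.lf (nat_lit 0) (nat_lit 10675387777) (nat_lit 380) (nat_lit 27426772806) (nat_lit 456) (nat_lit 3974658518) (nat_lit 108) (nat_lit 5) (nat_lit 113) (nat_lit 5) (nat_lit 114) (nat_lit 5) (nat_lit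 394) (nat_lit 381) (nat_lit 245)) (XT.lf (nat_lit 0) (nat_lit 284125050) (nat_lit 456) (nat_lit 9175412878) (nat_lit 76) (nat_lit 33782370616) (nat_lit 107) (nat_lit 5) (nat_lit 113) (nat_lit 5) (nat_lit 108) (nat_lit 5) (nat_lit 395) (nat_lit 381) (nat_lit 244)))) (XT.nd (nat_lit 156) (nat_lit 380) (nat_lit 0) (XT.nd (nat_lit 78) (nat_lit 0) (nat_lit 0) (XT.lf (nat_lit 0) (nat_lit 4998664603) (nat_lit 456) (nat_lit 30042217828) (nat_lit 76) (nat_lit 9402293790) (nat_lit 102) (nat_lit 5) (nat_lit 108) (nat_lit 5) (nat_lit 103) (nat_lit 5) (nat_lit 396) (nat_lit 381) (nat_lit 243)) (XT.lf (nat_lit 0) (nat_lit 10259442063) (nat_lit 456) (nat_lit 6382320285) (nat_lit 76) (nat_lit 29047220578) (nat_lit 102) (nat_lit 5) (nat_lit 108) (nat_lit 5) (nat_lit 103) (nat_lit 5) (nat_lit 397) (nat_lit 381) (nat_lit 242))) (XT.nd (nat_lit 78) (nat_lit 0) (nat_lit 0) (XT.lf (nat_lit 0) (nat_lit 16125265437)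 (nat_lit 456) (nat_lit 27960646875) (nat_lit 76) (nat_lit 2894068434) (nat_lit 97) (nat_lit 5) (nat_lit 103) (nat_lit 5) (nat_lit 98) (nat_lit 5) (nat_lit 398) (nat_lit 381) (nat_lit 241)) (XT.lf (nat_lit 0) (nat_lit 22664745215) (nat_lit 456) (nat_lit 2694666010) (nat_lit 76) (nat_lit 22957100049) (nat_lit 97) (nat_lit 5) (nat_lit 103) (nat_lit 5) (nat_lit 98) (nat_lit 5) (nat_lit 399) (nat_lit 381) (nat_lit 240))))) (XT.nd (nat_lit 234) (nat_lit 608) (nat_lit 0) (XT.nd (nat_lit 78) (nat_lit 304) (nat_lit 0) (XT.lf (nat_lit 0) (nat_lit 24620131169) (nat_lit 304) (nat_lit 5293256913) (nat_lit 380) (nat_lit 19787371820) (nat_lit 93) (nat_lit 5) (nat_lit 97) (nat_lit 5) (nat_lit 98) (nat_lit 5) (nat_lit 400) (nat_lit 381) (nat_lit 239)) (XT.nd (nat_lit 78) (nat_lit 0) (nat_lit 0) (XT.lf (nat_lit 0) (nat_lit 2058566292) (nat_lit 304) (nat_lit 35788592881) (nat_lit 380) (nat_lit 13290927962)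 (nat_lit 89) (nat_lit 5) (nat_lit 93) (nat_lit 5) (nat_lit 94) (nat_lit 5) (nat_lit 401) (nat_lit 381) (nat_lit 238)) (XT.lf (nat_lit 0) (nat_lit 31333317496) (nat_lit 304) (nat_lit 15352353492) (nat_lit 380) (nat_lit 5936208066) (nat_lit 89) (nat_lit 5) (nat_lit 93) (nat_lit 5) (nat_lit 94) (nat_lit 5) (nat_lit 402) (nat_lit 381) (nat_lit 237)))) (XT.nd (nat_lit 156) (nat_lit 304) (nat_lit 0) (XT.nd (nat_lit 78) (nat_lit 0) (nat_lit 0) (XT.lf (nat_lit 0) (nat_lit 1951722942) (nat_lit 304) (nat_lit 46148536602) (nat_lit 76) (nat_lit 6067075144) (nat_lit 85) (nat_lit 5) (nat_lit 89) (nat_lit 5) (nat_lit 86) (nat_lit 5) (nat_lit 403) (nat_lit 381) (nat_lit 236)) (XT.lf (nat_lit 0) (nat_lit 10650716305) (nat_lit 304) (nat_lit 16598825516) (nat_lit 76) (nat_lit 28504848276) (nat_lit 85) (nat_lit 5) (nat_lit 89) (nat_lit 5) (nat_lit 86) (nat_lit 5) (nat_lit 404) (nat_lit 381) (nat_lit 235))) (XT.nd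 (nat_lit 78) (nat_lit 0) (nat_lit 0) (XT.lf (nat_lit 0) (nat_lit 14902976250) (nat_lit 304) (nat_lit 5112494542) (nat_lit 380) (nat_lit 37393787679) (nat_lit 81) (nat_lit 5) (nat_lit 85) (nat_lit 5) (nat_lit 86) (nat_lit 5) (nat_lit 405) (nat_lit 381) (nat_lit 234)) (XT.lf (nat_lit 0) (nat_lit 30415440715) (nat_lit 380) (nat_lit 10866791212) (nat_lit 76) (nat_lit 17836290182) (nat_lit 81) (nat_lit 5) (nat_lit 86) (nat_lit 5) (nat_lit 82) (nat_lit 5) (nat_lit 406) (nat_lit 381) (nat_lit 233))))))))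
noncomputable def xc189 : XT := (XT.nd (nat_lit 2106) (nat_lit 1672) (nat_lit 0) (XT.nd (nat_lit 1014) (nat_lit 1140) (nat_lit 0) (XT.nd (nat_lit 468) (nat_lit 836) (nat_lit 0) (XT.nd (nat_lit 234) (nat_lit 456) (nat_lit 0) (XT.nd (nat_lit 78) (nat_lit 304) (nat_lit 0) (XT.lf (nat_lit 0) (nat_lit 23004849569) (nat_lit 228) (nat_lit 18771806051) (nat_lit 304) (nat_lit 19114531680) (nat_lit 78) (nat_lit 5) (nat_lit 81) (nat_lit 5) (nat_lit 82) (nat_lit 5) (nat_lit 407) (nat_lit 381) (nat_lit 232)) (XT.nd (nat_lit 78) (nat_lit 304) (nat_lit 0) (XT.lf (nat_lit 0) (nat_lit 53967228340) (nat_lit 304) (nat_lit 3877251868) (nat_lit 76) (nat_lit 4894941352) (nat_lit 78) (nat_lit 5) (nat_lit 82) (nat_lit 5) (nat_lit 79) (nat_lit 5) (nat_lit 408) (nat_lit 381) (nat_lit 231)) (XT.lf (nat_lit 0) (nat_lit 2848351926) (nat_lit 304) (nat_lit 32120697244) (nat_lit 76) (nat_lit 29667994803) (nat_lit 74) (nat_lit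 5) (nat_lit 78) (nat_lit 5) (nat_lit 75) (nat_lit 5) (nat_lit 409) (nat_lit 381) (nat_lit 230)))) (XT.nd (nat_lit 78) (nat_lit 228) (nat_lit 0) (XT.lf (nat_lit 0) (nat_lit 4226092528) (nat_lit 228) (nat_lit 10660149197) (nat_lit 304) (nat_lit 51729560001) (nat_lit 71) (nat_lit 5) (nat_lit 74) (nat_lit 5) (nat_lit 75) (nat_lit 5) (nat_lit 410) (nat_lit 381) (nat_lit 229)) (XT.nd (nat_lit 78) (nat_lit 228) (nat_lit 0) (XT.lf (nat_lit 0) (nat_lit 28309426107) (nat_lit 304) (nat_lit 25404196002) (nat_lit 76) (nat_lit 14940705798) (nat_lit 71) (nat_lit 5) (nat_lit 75) (nat_lit 5) (nat_lit 72) (nat_lit 5) (nat_lit 411) (nat_lit 381) (nat_lit 228)) (XT.lf (nat_lit 0) (nat_lit 13691882998) (nat_lit 228) (nat_lit 29098917722) (nat_lit 304) (nat_lit 27984628647) (nat_lit 68) (nat_lit 5) (nat_lit 71) (nat_lit 5) (nat_lit 72) (nat_lit 5) (nat_lit 412) (nat_lit 381) (nat_lit 227))))) (XT.nd (nat_lit 234)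 (nat_lit 608) (nat_lit 0) (XT.nd (nat_lit 78) (nat_lit 228) (nat_lit 0) (XT.lf (nat_lit 0) (nat_lit 55622598341) (nat_lit 228) (nat_lit 2802421555) (nat_lit 304) (nat_lit 14556127704) (nat_lit 68) (nat_lit 5) (nat_lit 71) (nat_lit 5) (nat_lit 72) (nat_lit 5) (nat_lit 413) (nat_lit 381) (nat_lit 226)) (XT.nd (nat_lit 78) (nat_lit 0) (nat_lit 0) (XT.lf (nat_lit 0) (nat_lit 343505392) (nat_lit 228) (nat_lit 50508477062) (nat_lit 76) (nat_lit 24406270580) (nat_lit 65) (nat_lit 5) (nat_lit 68) (nat_lit 5) (nat_lit 66) (nat_lit 5) (nat_lit 414) (nat_lit 381) (nat_lit 225)) (XT.lf (nat_lit 0) (nat_lit 15842288941) (nat_lit 228) (nat_lit 8359847318) (nat_lit 76) (nat_lit 53417979148) (nat_lit 65) (nat_lit 5) (nat_lit 68) (nat_lit 5) (nat_lit 66) (nat_lit 5) (nat_lit 415) (nat_lit 381) (nat_lit 224)))) (XT.nd (nat_lit 156) (nat_lit 228) (nat_lit 0) (XT.nd (nat_lit 78) (nat_lit 152) (nat_lit 0) (XT.lf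 (nat_lit 0) (nat_lit 32762130010) (nat_lit 304) (nat_lit 43058664743) (nat_lit 76) (nat_lit 4246970635) (nat_lit 62) (nat_lit 5) (nat_lit 66) (nat_lit 5) (nat_lit 63) (nat_lit 5) (nat_lit 416) (nat_lit 381) (nat_lit 223)) (XT.lf (nat_lit 0) (nat_lit 1967884735) (nat_lit 152) (nat_lit 49130159146) (nat_lit 228) (nat_lit 31511250337) (nat_lit 60) (nat_lit 5) (nat_lit 62) (nat_lit 5) (nat_lit 63) (nat_lit 5) (nat_lit 417) (nat_lit 381) (nat_lit 222))) (XT.nd (nat_lit 78) (nat_lit 228) (nat_lit 0) (XT.lf (nat_lit 0) (nat_lit 50738659471) (nat_lit 152) (nat_lit 20340045099) (nat_lit 228) (nat_lit 14162797733) (nat_lit 60) (nat_lit 5) (nat_lit 62) (nat_lit 5) (nat_lit 63) (nat_lit 5) (nat_lit 418) (nat_lit 381) (nat_lit 221)) (XT.lf (nat_lit 0) (nat_lit 4305054646) (nat_lit 228) (nat_lit 73813851360) (nat_lit 76) (nat_lit 9864166078) (nat_lit 57) (nat_lit 5) (nat_lit 60) (nat_lit 5) (nat_lit 58)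 (nat_lit 5) (nat_lit 419) (nat_lit 381) (nat_lit 220)))))) (XT.nd (nat_lit 546) (nat_lit 456) (nat_lit 0) (XT.nd (nat_lit 234) (nat_lit 532) (nat_lit 0) (XT.nd (nat_lit 78) (nat_lit 152) (nat_lit 0) (XT.lf (nat_lit 0) (nat_lit 24146470949) (nat_lit 228) (nat_lit 24936920541) (nat_lit 76) (nat_lit 41720413624) (nat_lit 57) (nat_lit 5) (nat_lit 60) (nat_lit 5) (nat_lit 58) (nat_lit 5) (nat_lit 420) (nat_lit 381) (nat_lit 219)) (XT.nd (nat_lit 78) (nat_lit 0) (nat_lit 0) (XT.lf (nat_lit 0) (nat_lit 27254292844) (nat_lit 152) (nat_lit 18150028182) (nat_lit 228) (nat_lit 48340035924) (nat_lit 55) (nat_lit 5) (nat_lit 57) (nat_lit 5) (nat_lit 58) (nat_lit 5) (nat_lit 421) (nat_lit 381) (nat_lit 218)) (XT.lf (nat_lit 0) (nat_lit 68376899260) (nat_lit 228) (nat_lit 14122541572) (nat_lit 76) (nat_lit 14299904053) (nat_lit 55) (nat_lit 5) (nat_lit 58) (nat_lit 5) (nat_lit 56) (nat_lit 5) (nat_lit 422)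 (nat_lit 381) (nat_lit 217)))) (XT.nd (nat_lit 156) (nat_lit 304) (nat_lit 0) (XT.nd (nat_lit 78) (nat_lit 76) (nat_lit 0) (XT.lf (nat_lit 0) (nat_lit 41905248306) (nat_lit 152) (nat_lit 51543574162) (nat_lit 228) (nat_lit 6510724220) (nat_lit 53) (nat_lit 5) (nat_lit 55) (nat_lit 5) (nat_lit 56) (nat_lit 5) (nat_lit 423) (nat_lit 381) (nat_lit 216)) (XT.lf (nat_lit 0) (nat_lit 16210605124) (nat_lit 228) (nat_lit 2304352172) (nat_lit 76) (nat_lit 84737822863) (nat_lit 52) (nat_lit 5) (nat_lit 55) (nat_lit 5) (nat_lit 53) (nat_lit 5) (nat_lit 424) (nat_lit 381) (nat_lit 215))) (XT.nd (nat_lit 78) (nat_lit 152) (nat_lit 0) (XT.lf (nat_lit 0) (nat_lit 41022369197) (nat_lit 228) (nat_lit 48948715341) (nat_lit 76) (nat_lit 16675595779) (nat_lit 50) (nat_lit 5) (nat_lit 53) (nat_lit 5) (nat_lit 51) (nat_lit 5) (nat_lit 425) (nat_lit 381) (nat_lit 214)) (XT.lf (nat_lit 0) (nat_lit 10605628409) (nat_lit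 152) (nat_lit 56976851297) (nat_lit 228) (nat_lit 42602408093) (nat_lit 48) (nat_lit 5) (nat_lit 50) (nat_lit 5) (nat_lit 51) (nat_lit 5) (nat_lit 426) (nat_lit 381) (nat_lit 213))))) (XT.nd (nat_lit 234) (nat_lit 304) (nat_lit 0) (XT.nd (nat_lit 78) (nat_lit 152) (nat_lit 0) (XT.lf (nat_lit 0) (nat_lit 74835376166) (nat_lit 152) (nat_lit 21463197163) (nat_lit 228) (nat_lit 17560033661) (nat_lit 48) (nat_lit 5) (nat_lit 50) (nat_lit 5) (nat_lit 51) (nat_lit 5) (nat_lit 427) (nat_lit 381) (nat_lit 212)) (XT.nd (nat_lit 78) (nat_lit 0) (nat_lit 0) (XT.lf (nat_lit 0) (nat_lit 9103626485) (nat_lit 152) (nat_lit 92715221538) (nat_lit 76) (nat_lit 15857909632) (nat_lit 46) (nat_lit 5) (nat_lit 48) (nat_lit 5) (nat_lit 47) (nat_lit 5) (nat_lit 428) (nat_lit 381) (nat_lit 211)) (XT.lf (nat_lit 0) (nat_lit 37532953049) (nat_lit 152) (nat_lit 28804654096) (nat_lit 76) (nat_lit 55282684640) (nat_lit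 46) (nat_lit 5) (nat_lit 48) (nat_lit 5) (nat_lit 47) (nat_lit 5) (nat_lit 429) (nat_lit 381) (nat_lit 210)))) (XT.nd (nat_lit 156) (nat_lit 152) (nat_lit 0) (XT.nd (nat_lit 78) (nat_lit 0) (nat_lit 0) (XT.lf (nat_lit 0) (nat_lit 39566224350) (nat_lit 152) (nat_lit 28434355186) (nat_lit 228) (nat_lit 57729581584) (nat_lit 44) (nat_lit 5) (nat_lit 46) (nat_lit 5) (nat_lit 47) (nat_lit 5) (nat_lit 430) (nat_lit 381) (nat_lit 209)) (XT.lf (nat_lit 0) (nat_lit 100663932271) (nat_lit 228) (nat_lit 17852467648) (nat_lit 76) (nat_lit 11495506923) (nat_lit 44) (nat_lit 5) (nat_lit 47) (nat_lit 5) (nat_lit 45) (nat_lit 4) (nat_lit 431) (nat_lit 381) (nat_lit 208))) (XT.nd (nat_lit 78) (nat_lit 0) (nat_lit 0) (XT.lf (nat_lit 0) (nat_lit 1786655889) (nat_lit 152) (nat_lit 79297427204) (nat_lit 76) (nat_lit 53355881870) (nat_lit 42) (nat_lit 5) (nat_lit 44) (nat_lit 5) (nat_lit 43) (nat_lit 5) (nat_lit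 432) (nat_lit 381) (nat_lit 207)) (XT.lf (nat_lit 0) (nat_lit 33798178640) (nat_lit 152) (nat_lit 7154809090) (nat_lit 76) (nat_lit 98097060430) (nat_lit 42) (nat_lit 5) (nat_lit 44) (nat_lit 5) (nat_lit 43) (nat_lit 5) (nat_lit 433) (nat_lit 381) (nat_lit 206))))))) (XT.nd (nat_lit 1014) (nat_lit 684) (nat_lit 0) (XT.nd (nat_lit 468) (nat_lit 456) (nat_lit 0) (XT.nd (nat_lit 234) (nat_lit 304) (nat_lit 0) (XT.nd (nat_lit 78) (nat_lit 76) (nat_lit 0) (XT.lf (nat_lit 0) (nat_lit 68552436089) (nat_lit 228) (nat_lit 73010478889) (nat_lit 76) (nat_lit 2270612750) (nat_lit 40) (nat_lit 5) (nat_lit 43) (nat_lit 5) (nat_lit 41) (nat_lit 4) (nat_lit 434) (nat_lit 381) (nat_lit 205)) (XT.nd (nat_lit 78) (nat_lit 0) (nat_lit 0) (XT.lf (nat_lit 0) (nat_lit 3536463314) (nat_lit 76) (nat_lit 102356869869) (nat_lit 152) (nat_lit 42920401887) (nat_lit 39) (nat_lit 5) (nat_lit 40) (nat_lit 5) (nat_lit 41)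 (nat_lit 4) (nat_lit 435) (nat_lit 381) (nat_lit 204)) (XT.lf (nat_lit 0) (nat_lit 86444080592) (nat_lit 76) (nat_lit 59892873952) (nat_lit 152) (nat_lit 7644214388) (nat_lit 39) (nat_lit 5) (nat_lit 40) (nat_lit 5) (nat_lit 41) (nat_lit 4) (nat_lit 436) (nat_lit 381) (nat_lit 203)))) (XT.nd (nat_lit 78) (nat_lit 76) (nat_lit 0) (XT.lf (nat_lit 0) (nat_lit 14080427088) (nat_lit 152) (nat_lit 14593578444) (nat_lit 228) (nat_lit 130699067960) (nat_lit 36) (nat_lit 5) (nat_lit 38) (nat_lit 5) (nat_lit 39) (nat_lit 5) (nat_lit 437) (nat_lit 381) (nat_lit 202)) (XT.nd (nat_lit 78) (nat_lit 76) (nat_lit 0) (XT.lf (nat_lit 0) (nat_lit 68227771238) (nat_lit 228) (nat_lit 63514054936) (nat_lit 76) (nat_lit 33202654940) (nat_lit 36) (nat_lit 5) (nat_lit 39) (nat_lit 5) (nat_lit 37) (nat_lit 4) (nat_lit 438) (nat_lit 381) (nat_lit 201)) (XT.lf (nat_lit 0) (nat_lit 22844052114) (nat_lit 76) (nat_lit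 87510349988) (nat_lit 152) (nat_lit 60410298274) (nat_lit 35) (nat_lit 5) (nat_lit 36) (nat_lit 5) (nat_lit 37) (nat_lit 4) (nat_lit 439) (nat_lit 381) (nat_lit 200))))) (XT.nd (nat_lit 234) (nat_lit 228) (nat_lit 0) (XT.nd (nat_lit 78) (nat_lit 228) (nat_lit 0) (XT.lf (nat_lit 0) (nat_lit 115723823164) (nat_lit 76) (nat_lit 39938474792) (nat_lit 152) (nat_lit 21159886072) (nat_lit 35) (nat_lit 5) (nat_lit 36) (nat_lit 5) (nat_lit 37) (nat_lit 4) (nat_lit 440) (nat_lit 381) (nat_lit 199)) (XT.nd (nat_lit 78) (nat_lit 0) (nat_lit 0) (XT.lf (nat_lit 0) (nat_lit 20059693738) (nat_lit 228) (nat_lit 152577852308) (nat_lit 76) (nat_lit 10496918208) (nat_lit 32) (nat_lit 5) (nat_lit 35) (nat_lit 5) (nat_lit 33) (nat_lit 4) (nat_lit 441) (nat_lit 381) (nat_lit 198)) (XT.lf (nat_lit 0) (nat_lit 64334882775) (nat_lit 228) (nat_lit 61814937500) (nat_lit 76) (nat_lit 63509907073) (nat_lit 32) (nat_lit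 5) (nat_lit 35) (nat_lit 5) (nat_lit 33) (nat_lit 4) (nat_lit 442) (nat_lit 381) (nat_lit 197)))) (XT.nd (nat_lit 156) (nat_lit 152) (nat_lit 0) (XT.nd (nat_lit 78) (nat_lit 0) (nat_lit 0) (XT.lf (nat_lit 0) (nat_lit 34592075218) (nat_lit 76) (nat_lit 76771186685) (nat_lit 152) (nat_lit 85121020244) (nat_lit 31) (nat_lit 5) (nat_lit 32) (nat_lit 5) (nat_lit 33) (nat_lit 4) (nat_lit 443) (nat_lit 381) (nat_lit 196)) (XT.lf (nat_lit 0) (nat_lit 137964322871) (nat_lit 76) (nat_lit 23824966689) (nat_lit 152) (nat_lit 41808463725) (nat_lit 31) (nat_lit 5) (nat_lit 32) (nat_lit 5) (nat_lit 33) (nat_lit 4) (nat_lit 444) (nat_lit 381) (nat_lit 195))) (XT.nd (nat_lit 78) (nat_lit 0) (nat_lit 0) (XT.lf (nat_lit 0) (nat_lit 4628575108) (nat_lit 152) (nat_lit 174992160988) (nat_lit 76) (nat_lit 31389481799) (nat_lit 29) (nat_lit 5) (nat_lit 31) (nat_lit 5) (nat_lit 30) (nat_lit 4) (nat_lit 445) (nat_lit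 381) (nat_lit 194)) (XT.lf (nat_lit 0) (nat_lit 53502143633) (nat_lit 152) (nat_lit 74802303543) (nat_lit 76) (nat_lit 90378603579) (nat_lit 29) (nat_lit 5) (nat_lit 31) (nat_lit 5) (nat_lit 30) (nat_lit 4) (nat_lit 446) (nat_lit 381) (nat_lit 193)))))) (XT.nd (nat_lit 546) (nat_lit 380) (nat_lit 0) (XT.nd (nat_lit 234) (nat_lit 152) (nat_lit 0) (XT.nd (nat_lit 78) (nat_lit 76) (nat_lit 0) (XT.lf (nat_lit 0) (nat_lit 31400971238) (nat_lit 76) (nat_lit 73908092977) (nat_lit 152) (nat_lit 121405977426) (nat_lit 28) (nat_lit 5) (nat_lit 29) (nat_lit 5) (nat_lit 30) (nat_lit 4) (nat_lit 447) (nat_lit 381) (nat_lit 192)) (XT.nd (nat_lit 78) (nat_lit 76) (nat_lit 0) (XT.lf (nat_lit 0) (nat_lit 145510291897) (nat_lit 76) (nat_lit 15462279451) (nat_lit 152) (nat_lit 74112748758) (nat_lit 28) (nat_lit 5) (nat_lit 29) (nat_lit 5) (nat_lit 30) (nat_lit 4) (nat_lit 448) (nat_lit 381) (nat_lit 191)) (XT.lf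 (nat_lit 0) (nat_lit 21418727583) (nat_lit 76) (nat_lit 199051098164) (nat_lit 76) (nat_lit 23351758209) (nat_lit 27) (nat_lit 4) (nat_lit 28) (nat_lit 5) (nat_lit 28) (nat_lit 4) (nat_lit 449) (nat_lit 381) (nat_lit 190)))) (XT.nd (nat_lit 156) (nat_lit 0) (nat_lit 0) (XT.nd (nat_lit 78) (nat_lit 76) (nat_lit 0) (XT.lf (nat_lit 0) (nat_lit 30783575230) (nat_lit 152) (nat_lit 112593761375) (nat_lit 76) (nat_lit 109504206726) (nat_lit 26) (nat_lit 5) (nat_lit 28) (nat_lit 5) (nat_lit 27) (nat_lit 4) (nat_lit 450) (nat_lit 381) (nat_lit 189)) (XT.lf (nat_lit 0) (nat_lit 2398743340) (nat_lit 76) (nat_lit 84479085360) (nat_lit 152) (nat_lit 175495684961) (nat_lit 25) (nat_lit 5) (nat_lit 26) (nat_lit 5) (nat_lit 27) (nat_lit 4) (nat_lit 451) (nat_lit 381) (nat_lit 188))) (XT.nd (nat_lit 78) (nat_lit 0) (nat_lit 0) (XT.lf (nat_lit 0) (nat_lit 127048886547) (nat_lit 76) (nat_lit 20634222183) (nat_lit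 152) (nat_lit 124561658130) (nat_lit 25) (nat_lit 5) (nat_lit 26) (nat_lit 5) (nat_lit 27) (nat_lit 4) (nat_lit 452) (nat_lit 381) (nat_lit 187)) (XT.lf (nat_lit 0) (nat_lit 212252633437) (nat_lit 152) (nat_lit 25403483321) (nat_lit 0) (nat_lit 44917266974) (nat_lit 25) (nat_lit 5) (nat_lit 27) (nat_lit 4) (nat_lit 25) (nat_lit 4) (nat_lit 453) (nat_lit 381) (nat_lit 186))))) (XT.nd (nat_lit 234) (nat_lit 152) (nat_lit 0) (XT.nd (nat_lit 78) (nat_lit 152) (nat_lit 0) (XT.lf (nat_lit 0) (nat_lit 103347107633) (nat_lit 76) (nat_lit 178654856003) (nat_lit 76) (nat_lit 11318901391) (nat_lit 24) (nat_lit 4) (nat_lit 25) (nat_lit 5) (nat_lit 25) (nat_lit 4) (nat_lit 454) (nat_lit 381) (nat_lit 185)) (XT.nd (nat_lit 78) (nat_lit 76) (nat_lit 0) (XT.lf (nat_lit 0) (nat_lit 49449265785) (nat_lit 152) (nat_lit 65965519893) (nat_lit 76) (nat_lit 189129568600) (nat_lit 23) (nat_lit 5) (nat_lit 25) (nat_lit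 5) (nat_lit 24) (nat_lit 4) (nat_lit 455) (nat_lit 381) (nat_lit 184)) (XT.lf (nat_lit 0) (nat_lit 66174707351) (nat_lit 76) (nat_lit 47733466098) (nat_lit 152) (nat_lit 202359930719) (nat_lit 22) (nat_lit 5) (nat_lit 23) (nat_lit 5) (nat_lit 24) (nat_lit 4) (nat_lit 456) (nat_lit 381) (nat_lit 183)))) (XT.nd (nat_lit 156) (nat_lit 76) (nat_lit 0) (XT.nd (nat_lit 78) (nat_lit 76) (nat_lit 0) (XT.lf (nat_lit 0) (nat_lit 183089325680) (nat_lit 152) (nat_lit 121693526494) (nat_lit 0) (nat_lit 23720224455) (nat_lit 22) (nat_lit 5) (nat_lit 24) (nat_lit 4) (nat_lit 22) (nat_lit 4) (nat_lit 457) (nat_lit 381) (nat_lit 182)) (XT.lf (nat_lit 0) (nat_lit 12751106078) (nat_lit 76) (nat_lit 243959597657) (nat_lit 76) (nat_lit 84590035602) (nat_lit 21) (nat_lit 4) (nat_lit 22) (nat_lit 5) (nat_lit 22) (nat_lit 4) (nat_lit 458) (nat_lit 381) (nat_lit 181))) (XT.nd (nat_lit 78) (nat_lit 76) (nat_lit 0)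 (XT.lf (nat_lit 0) (nat_lit 158142077667) (nat_lit 76) (nat_lit 177931591286) (nat_lit 76) (nat_lit 18561590346) (nat_lit 21) (nat_lit 4) (nat_lit 22) (nat_lit 5) (nat_lit 22) (nat_lit 4) (nat_lit 459) (nat_lit 381) (nat_lit 180)) (XT.lf (nat_lit 0) (nat_lit 49142968183) (nat_lit 152) (nat_lit 58627334151) (nat_lit 76) (nat_lit 260826591554) (nat_lit 20) (nat_lit 5) (nat_lit 22) (nat_lit 5) (nat_lit 21) (nat_lit 4) (nat_lit 460) (nat_lit 381) (nat_lit 179))))))))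
noncomputable def xc190 : XT := (XT.nd (nat_lit 47736) (nat_lit 0) (nat_lit 3648) (XT.nd (nat_lit 1014) (nat_lit 76) (nat_lit 0) (XT.nd (nat_lit 468) (nat_lit 228) (nat_lit 0) (XT.nd (nat_lit 234) (nat_lit 228) (nat_lit 0) (XT.nd (nat_lit 78) (nat_lit 0) (nat_lit 0) (XT.lf (nat_lit 0) (nat_lit 88664583795) (nat_lit 76) (nat_lit 32328294645) (nat_lit 152) (nat_lit 262179321627) (nat_lit 19) (nat_lit 5) (nat_lit 20) (nat_lit 5) (nat_lit 21) (nat_lit 4) (nat_lit 461) (nat_lit 381) (nat_lit 178)) (XT.nd (nat_lit 78) (nat_lit 0) (nat_lit 0) (XT.lf (nat_lit 0) (nat_lit 198176075749) (nat_lit 152) (nat_lit 153819172064) (nat_lit 0) (nat_lit 46393984192) (nat_lit 19) (nat_lit 5) (nat_lit 21) (nat_lit 4) (nat_lit 19) (nat_lit 4) (nat_lit 462) (nat_lit 381) (nat_lit 177)) (XT.lf (nat_lit 0) (nat_lit 279748036930) (nat_lit 152) (nat_lit 6626996941) (nat_lit 0) (nat_lit 127965601494) (nat_lit 19) (nat_lit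 5) (nat_lit 21) (nat_lit 4) (nat_lit 19) (nat_lit 4) (nat_lit 463) (nat_lit 381) (nat_lit 176)))) (XT.nd (nat_lit 78) (nat_lit 152) (nat_lit 0) (XT.lf (nat_lit 0) (nat_lit 152815140789) (nat_lit 76) (nat_lit 214968977481) (nat_lit 76) (nat_lit 63186214542) (nat_lit 18) (nat_lit 4) (nat_lit 19) (nat_lit 5) (nat_lit 19) (nat_lit 4) (nat_lit 464) (nat_lit 381) (nat_lit 175)) (XT.nd (nat_lit 78) (nat_lit 76) (nat_lit 0) (XT.lf (nat_lit 0) (nat_lit 11526840528) (nat_lit 152) (nat_lit 128153051762) (nat_lit 76) (nat_lit 308736732671) (nat_lit 17) (nat_lit 5) (nat_lit 19) (nat_lit 5) (nat_lit 18) (nat_lit 4) (nat_lit 465) (nat_lit 381) (nat_lit 174)) (XT.lf (nat_lit 0) (nat_lit 29248848851) (nat_lit 76) (nat_lit 59059551515) (nat_lit 152) (nat_lit 378352223237) (nat_lit 16) (nat_lit 5) (nat_lit 17) (nat_lit 5) (nat_lit 18) (nat_lit 4) (nat_lit 466) (nat_lit 381) (nat_lit 173))))) (XT.nd (nat_lit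 234) (nat_lit 152) (nat_lit 0) (XT.nd (nat_lit 78) (nat_lit 76) (nat_lit 0) (XT.lf (nat_lit 0) (nat_lit 171534178787) (nat_lit 152) (nat_lit 287174069318) (nat_lit 0) (nat_lit 26978317062) (nat_lit 16) (nat_lit 5) (nat_lit 18) (nat_lit 4) (nat_lit 16) (nat_lit 4) (nat_lit 467) (nat_lit 381) (nat_lit 172)) (XT.nd (nat_lit 78) (nat_lit 76) (nat_lit 0) (XT.lf (nat_lit 0) (nat_lit 259889118912) (nat_lit 152) (nat_lit 130393290696) (nat_lit 0) (nat_lit 115333000580) (nat_lit 16) (nat_lit 5) (nat_lit 18) (nat_lit 4) (nat_lit 16) (nat_lit 4) (nat_lit 468) (nat_lit 381) (nat_lit 171)) (XT.lf (nat_lit 0) (nat_lit 35357597733) (nat_lit 76) (nat_lit 317855937991) (nat_lit 76) (nat_lit 173299575270) (nat_lit 15) (nat_lit 4) (nat_lit 16) (nat_lit 5) (nat_lit 16) (nat_lit 4) (nat_lit 469) (nat_lit 381) (nat_lit 170)))) (XT.nd (nat_lit 156) (nat_lit 152) (nat_lit 0) (XT.nd (nat_lit 78) (nat_lit 0) (nat_lit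 0) (XT.lf (nat_lit 0) (nat_lit 213922407705) (nat_lit 76) (nat_lit 239489742882) (nat_lit 76) (nat_lit 94933147411) (nat_lit 15) (nat_lit 4) (nat_lit 16) (nat_lit 5) (nat_lit 16) (nat_lit 4) (nat_lit 470) (nat_lit 381) (nat_lit 169)) (XT.lf (nat_lit 0) (nat_lit 401414902463) (nat_lit 76) (nat_lit 157205511575) (nat_lit 76) (nat_lit 12648694437) (nat_lit 15) (nat_lit 4) (nat_lit 16) (nat_lit 5) (nat_lit 16) (nat_lit 4) (nat_lit 471) (nat_lit 381) (nat_lit 168))) (XT.nd (nat_lit 78) (nat_lit 0) (nat_lit 0) (XT.lf (nat_lit 0) (nat_lit 1850146541) (nat_lit 76) (nat_lit 69567987502) (nat_lit 152) (nat_lit 523861972611) (nat_lit 13) (nat_lit 5) (nat_lit 14) (nat_lit 5) (nat_lit 15) (nat_lit 4) (nat_lit 472) (nat_lit 381) (nat_lit 167)) (XT.lf (nat_lit 0) (nat_lit 162537201809) (nat_lit 152) (nat_lit 432916736232) (nat_lit 0) (nat_lit 24863650087) (nat_lit 13) (nat_lit 5) (nat_lit 15) (nat_lit 4)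 (nat_lit 13) (nat_lit 4) (nat_lit 473) (nat_lit 381) (nat_lit 166)))))) (XT.nd (nat_lit 46176) (nat_lit 0) (nat_lit 8132) (XT.nd (nat_lit 234) (nat_lit 0) (nat_lit 0) (XT.nd (nat_lit 78) (nat_lit 76) (nat_lit 0) (XT.lf (nat_lit 0) (nat_lit 259352422270) (nat_lit 152) (nat_lit 265518823272) (nat_lit 0) (nat_lit 121678688181) (nat_lit 13) (nat_lit 5) (nat_lit 15) (nat_lit 4) (nat_lit 13) (nat_lit 4) (nat_lit 474) (nat_lit 381) (nat_lit 165)) (XT.nd (nat_lit 78) (nat_lit 76) (nat_lit 0) (XT.lf (nat_lit 0) (nat_lit 361008156607) (nat_lit 152) (nat_lit 89751503524) (nat_lit 0) (nat_lit 223334248837) (nat_lit 13) (nat_lit 5) (nat_lit 15) (nat_lit 4) (nat_lit 13) (nat_lit 4) (nat_lit 475) (nat_lit 381) (nat_lit 164)) (XT.lf (nat_lit 0) (nat_lit 97938355647) (nat_lit 76) (nat_lit 371337178840) (nat_lit 76) (nat_lit 233663105659) (nat_lit 12) (nat_lit 4) (nat_lit 13) (nat_lit 5) (nat_lit 13) (nat_lit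 4) (nat_lit 476) (nat_lit 381) (nat_lit 163)))) (XT.nd (nat_lit 45786) (nat_lit 0) (nat_lit 8056) (XT.nd (nat_lit 45708) (nat_lit 0) (nat_lit 8056) (XT.lf (nat_lit 0) (nat_lit 298128219243) (nat_lit 76) (nat_lit 286347815838) (nat_lit 76) (nat_lit 148673585122) (nat_lit 12) (nat_lit 4) (nat_lit 13) (nat_lit 5) (nat_lit 13) (nat_lit 4) (nat_lit 477) (nat_lit 381) (nat_lit 162)) (XT.lf (nat_lit 0) (nat_lit 3982573006) (nat_lit 836) (nat_lit 5911061601) (nat_lit 836) (nat_lit 5911061601) (nat_lit 118) (nat_lit 3) (nat_lit 129) (nat_lit 3) (nat_lit 129) (nat_lit 5) (nat_lit 382) (nat_lit 382) (nat_lit 256))) (XT.nd (nat_lit 78) (nat_lit 0) (nat_lit 76) (XT.lf (nat_lit 76) (nat_lit 3652515393) (nat_lit 0) (nat_lit 4632853835) (nat_lit 836) (nat_lit 24108168230) (nat_lit 119) (nat_lit 5) (nat_lit 118) (nat_lit 3) (nat_lit 129) (nat_lit 5) (nat_lit 383) (nat_lit 382) (nat_lit 255)) (XT.lf (nat_lit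 0) (nat_lit 8997094268) (nat_lit 760) (nat_lit 13077403475) (nat_lit 836) (nat_lit 11123619716) (nat_lit 119) (nat_lit 5) (nat_lit 129) (nat_lit 5) (nat_lit 130) (nat_lit 5) (nat_lit 384) (nat_lit 382) (nat_lit 254))))) (XT.nd (nat_lit 234) (nat_lit 0) (nat_lit 152) (XT.nd (nat_lit 78) (nat_lit 0) (nat_lit 76) (XT.lf (nat_lit 76) (nat_lit 3399919277) (nat_lit 0) (nat_lit 6469606397) (nat_lit 836) (nat_lit 24167146918) (nat_lit 120) (nat_lit 5) (nat_lit 119) (nat_lit 5) (nat_lit 130) (nat_lit 5) (nat_lit 385) (nat_lit 382) (nat_lit 253)) (XT.nd (nat_lit 78) (nat_lit 0) (nat_lit 0) (XT.lf (nat_lit 0) (nat_lit 11161752948) (nat_lit 760) (nat_lit 13911917533) (nat_lit 836) (nat_lit 9824678320) (nat_lit 120) (nat_lit 5) (nat_lit 130) (nat_lit 5) (nat_lit 131) (nat_lit 5) (nat_lit 386) (nat_lit 382) (nat_lit 252)) (XT.lf (nat_lit 76) (nat_lit 3657770657) (nat_lit 0) (nat_lit 9020428335) (nat_lit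 836) (nat_lit 23116931395) (nat_lit 121) (nat_lit 5) (nat_lit 120) (nat_lit 5) (nat_lit 131) (nat_lit 5) (nat_lit 387) (nat_lit 382) (nat_lit 251)))) (XT.nd (nat_lit 156) (nat_lit 0) (nat_lit 76) (XT.nd (nat_lit 78) (nat_lit 0) (nat_lit 0) (XT.lf (nat_lit 0) (nat_lit 14628857978) (nat_lit 760) (nat_lit 14264786138) (nat_lit 836) (nat_lit 7825189251) (nat_lit 121) (nat_lit 5) (nat_lit 131) (nat_lit 5) (nat_lit 132) (nat_lit 5) (nat_lit 388) (nat_lit 382) (nat_lit 250)) (XT.lf (nat_lit 76) (nat_lit 4494976295) (nat_lit 0) (nat_lit 12396880543) (nat_lit 836) (nat_lit 20786126068) (nat_lit 122) (nat_lit 5) (nat_lit 121) (nat_lit 5) (nat_lit 132) (nat_lit 5) (nat_lit 389) (nat_lit 382) (nat_lit 249))) (XT.nd (nat_lit 78) (nat_lit 0) (nat_lit 0) (XT.lf (nat_lit 0) (nat_lit 19587316477) (nat_lit 760) (nat_lit 14068453713) (nat_lit 836) (nat_lit 5013355866) (nat_lit 122) (nat_lit 5) (nat_lit 132)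 (nat_lit 5) (nat_lit 133) (nat_lit 5) (nat_lit 390) (nat_lit 382) (nat_lit 248)) (XT.lf (nat_lit 76) (nat_lit 5987806668) (nat_lit 0) (nat_lit 16723485691) (nat_lit 836) (nat_lit 16983848434) (nat_lit 123) (nat_lit 5) (nat_lit 122) (nat_lit 5) (nat_lit 133) (nat_lit 5) (nat_lit 391) (nat_lit 382) (nat_lit 247))))))) (XT.nd (nat_lit 1014) (nat_lit 1900) (nat_lit 0) (XT.nd (nat_lit 468) (nat_lit 1292) (nat_lit 0) (XT.nd (nat_lit 234) (nat_lit 836) (nat_lit 0) (XT.nd (nat_lit 78) (nat_lit 760) (nat_lit 0) (XT.lf (nat_lit 0) (nat_lit 26247247436) (nat_lit 760) (nat_lit 13248174845) (nat_lit 76) (nat_lit 1264246484) (nat_lit 123) (nat_lit 5) (nat_lit 133) (nat_lit 5) (nat_lit 124) (nat_lit 5) (nat_lit 392) (nat_lit 382) (nat_lit 246)) (XT.nd (nat_lit 78) (nat_lit 0) (nat_lit 0) (XT.lf (nat_lit 0) (nat_lit 8220461964) (nat_lit 760) (nat_lit 22139314954) (nat_lit 836) (nat_lit 11497658832) (nat_lit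 113) (nat_lit 5) (nat_lit 123) (nat_lit 5) (nat_lit 124) (nat_lit 5) (nat_lit 393) (nat_lit 382) (nat_lit 245)) (XT.lf (nat_lit 0) (nat_lit 31220085489) (nat_lit 760) (nat_lit 3679580674) (nat_lit 836) (nat_lit 8099339632) (nat_lit 113) (nat_lit 5) (nat_lit 123) (nat_lit 5) (nat_lit 124) (nat_lit 5) (nat_lit 394) (nat_lit 382) (nat_lit 244)))) (XT.nd (nat_lit 78) (nat_lit 456) (nat_lit 0) (XT.lf (nat_lit 0) (nat_lit 11285669631) (nat_lit 380) (nat_lit 28799749078) (nat_lit 456) (nat_lit 4091293505) (nat_lit 108) (nat_lit 5) (nat_lit 113) (nat_lit 5) (nat_lit 114) (nat_lit 5) (nat_lit 395) (nat_lit 382) (nat_lit 243)) (XT.nd (nat_lit 78) (nat_lit 380) (nat_lit 0) (XT.lf (nat_lit 0) (nat_lit 374017294) (nat_lit 456) (nat_lit 9558775400) (nat_lit 76) (nat_lit 35467390390) (nat_lit 107) (nat_lit 5) (nat_lit 113) (nat_lit 5) (nat_lit 108) (nat_lit 5) (nat_lit 396) (nat_lit 382) (nat_lit 242))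 (XT.lf (nat_lit 0) (nat_lit 5321852931) (nat_lit 456) (nat_lit 31466454858) (nat_lit 76) (nat_lit 9873329643) (nat_lit 102) (nat_lit 5) (nat_lit 108) (nat_lit 5) (nat_lit 103) (nat_lit 5) (nat_lit 397) (nat_lit 382) (nat_lit 241))))) (XT.nd (nat_lit 234) (nat_lit 912) (nat_lit 0) (XT.nd (nat_lit 78) (nat_lit 380) (nat_lit 0) (XT.lf (nat_lit 0) (nat_lit 10842180926) (nat_lit 456) (nat_lit 6627270717) (nat_lit 76) (nat_lit 30500458906) (nat_lit 102) (nat_lit 5) (nat_lit 108) (nat_lit 5) (nat_lit 103) (nat_lit 5) (nat_lit 398) (nat_lit 382) (nat_lit 240)) (XT.nd (nat_lit 78) (nat_lit 0) (nat_lit 0) (XT.lf (nat_lit 0) (nat_lit 16999196582) (nat_lit 456) (nat_lit 29282383145) (nat_lit 76) (nat_lit 3043985057) (nat_lit 97) (nat_lit 5) (nat_lit 103) (nat_lit 5) (nat_lit 98) (nat_lit 5) (nat_lit 399) (nat_lit 382) (nat_lit 239)) (XT.lf (nat_lit 0) (nat_lit 23862428069) (nat_lit 456) (nat_lit 2756736383)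 (nat_lit 76) (nat_lit 24109920006) (nat_lit 97) (nat_lit 5) (nat_lit 103) (nat_lit 5) (nat_lit 98) (nat_lit 5) (nat_lit 400) (nat_lit 382) (nat_lit 238)))) (XT.nd (nat_lit 156) (nat_lit 304) (nat_lit 0) (XT.nd (nat_lit 78) (nat_lit 304) (nat_lit 0) (XT.lf (nat_lit 0) (nat_lit 25922628673) (nat_lit 304) (nat_lit 5548921743) (nat_lit 380) (nat_lit 20711094168) (nat_lit 93) (nat_lit 5) (nat_lit 97) (nat_lit 5) (nat_lit 98) (nat_lit 5) (nat_lit 401) (nat_lit 382) (nat_lit 237)) (XT.lf (nat_lit 0) (nat_lit 2234796708) (nat_lit 304) (nat_lit 37565515746) (nat_lit 380) (nat_lit 13891611970) (nat_lit 89) (nat_lit 5) (nat_lit 93) (nat_lit 5) (nat_lit 94) (nat_lit 5) (nat_lit 402) (nat_lit 382) (nat_lit 236))) (XT.nd (nat_lit 78) (nat_lit 304) (nat_lit 0) (XT.lf (nat_lit 0) (nat_lit 32969794896) (nat_lit 304) (nat_lit 16108059948) (nat_lit 380) (nat_lit 6172197145) (nat_lit 89) (nat_lit 5) (nat_lit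 93) (nat_lit 5) (nat_lit 94) (nat_lit 5) (nat_lit 403) (nat_lit 382) (nat_lit 235)) (XT.lf (nat_lit 0) (nat_lit 2106692866) (nat_lit 304) (nat_lit 48382666013) (nat_lit 76) (nat_lit 6383449770) (nat_lit 85) (nat_lit 5) (nat_lit 89) (nat_lit 5) (nat_lit 86) (nat_lit 5) (nat_lit 404) (nat_lit 382) (nat_lit 234)))))) (XT.nd (nat_lit 546) (nat_lit 836) (nat_lit 0) (XT.nd (nat_lit 234) (nat_lit 760) (nat_lit 0) (XT.nd (nat_lit 78) (nat_lit 304) (nat_lit 0) (XT.lf (nat_lit 0) (nat_lit 11237903337) (nat_lit 304) (nat_lit 17358959726) (nat_lit 76) (nat_lit 29942491517) (nat_lit 85) (nat_lit 5) (nat_lit 89) (nat_lit 5) (nat_lit 86) (nat_lit 5) (nat_lit 405) (nat_lit 382) (nat_lit 233)) (XT.nd (nat_lit 78) (nat_lit 0) (nat_lit 0) (XT.lf (nat_lit 0) (nat_lit 15716806209) (nat_lit 304) (nat_lit 5352559205) (nat_lit 380) (nat_lit 39207678535) (nat_lit 81) (nat_lit 5) (nat_lit 85) (nat_lit 5) (nat_lit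 86) (nat_lit 5) (nat_lit 406) (nat_lit 382) (nat_lit 232)) (XT.lf (nat_lit 0) (nat_lit 31987035626) (nat_lit 380) (nat_lit 11342401577) (nat_lit 76) (nat_lit 18742449495) (nat_lit 81) (nat_lit 5) (nat_lit 86) (nat_lit 5) (nat_lit 82) (nat_lit 5) (nat_lit 407) (nat_lit 382) (nat_lit 231)))) (XT.nd (nat_lit 156) (nat_lit 532) (nat_lit 0) (XT.nd (nat_lit 78) (nat_lit 0) (nat_lit 0) (XT.lf (nat_lit 0) (nat_lit 24221728837) (nat_lit 228) (nat_lit 19693202689) (nat_lit 304) (nat_lit 20018323579) (nat_lit 78) (nat_lit 5) (nat_lit 81) (nat_lit 5) (nat_lit 82) (nat_lit 5) (nat_lit 408) (nat_lit 382) (nat_lit 230)) (XT.lf (nat_lit 0) (nat_lit 56712934105) (nat_lit 304) (nat_lit 4005533597) (nat_lit 76) (nat_lit 5155539239) (nat_lit 78) (nat_lit 5) (nat_lit 82) (nat_lit 5) (nat_lit 79) (nat_lit 5) (nat_lit 409) (nat_lit 382) (nat_lit 229))) (XT.nd (nat_lit 78) (nat_lit 228) (nat_lit 0) (XT.lf (nat_lit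 0) (nat_lit 3037639494) (nat_lit 304) (nat_lit 33660642504) (nat_lit 76) (nat_lit 31168253915) (nat_lit 74) (nat_lit 5) (nat_lit 78) (nat_lit 5) (nat_lit 75) (nat_lit 5) (nat_lit 410) (nat_lit 382) (nat_lit 228)) (XT.lf (nat_lit 0) (nat_lit 4502420795) (nat_lit 228) (nat_lit 11173786285) (nat_lit 304) (nat_lit 54268086106) (nat_lit 71) (nat_lit 5) (nat_lit 74) (nat_lit 5) (nat_lit 75) (nat_lit 5) (nat_lit 411) (nat_lit 382) (nat_lit 227))))) (XT.nd (nat_lit 234) (nat_lit 608) (nat_lit 0) (XT.nd (nat_lit 78) (nat_lit 228) (nat_lit 0) (XT.lf (nat_lit 0) (nat_lit 29768664741) (nat_lit 304) (nat_lit 26610577381) (nat_lit 76) (nat_lit 15705598611) (nat_lit 71) (nat_lit 5) (nat_lit 75) (nat_lit 5) (nat_lit 72) (nat_lit 5) (nat_lit 412) (nat_lit 382) (nat_lit 226)) (XT.nd (nat_lit 78) (nat_lit 0) (nat_lit 0) (XT.lf (nat_lit 0) (nat_lit 14439276078) (nat_lit 228) (nat_lit 30533728315) (nat_lit 304)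 (nat_lit 29339048781) (nat_lit 68) (nat_lit 5) (nat_lit 71) (nat_lit 5) (nat_lit 72) (nat_lit 5) (nat_lit 413) (nat_lit 382) (nat_lit 225)) (XT.lf (nat_lit 0) (nat_lit 58463536763) (nat_lit 228) (nat_lit 2923366163) (nat_lit 304) (nat_lit 15241256663) (nat_lit 68) (nat_lit 5) (nat_lit 71) (nat_lit 5) (nat_lit 72) (nat_lit 5) (nat_lit 414) (nat_lit 382) (nat_lit 224)))) (XT.nd (nat_lit 156) (nat_lit 380) (nat_lit 0) (XT.nd (nat_lit 78) (nat_lit 0) (nat_lit 0) (XT.lf (nat_lit 0) (nat_lit 401275784) (nat_lit 228) (nat_lit 52971984466) (nat_lit 76) (nat_lit 25645863171) (nat_lit 65) (nat_lit 5) (nat_lit 68) (nat_lit 5) (nat_lit 66) (nat_lit 5) (nat_lit 415) (nat_lit 382) (nat_lit 223)) (XT.lf (nat_lit 0) (nat_lit 16673065409) (nat_lit 228) (nat_lit 8718871638) (nat_lit 76) (nat_lit 56107239117) (nat_lit 65) (nat_lit 5) (nat_lit 68) (nat_lit 5) (nat_lit 66) (nat_lit 5) (nat_lit 416) (nat_lit 382)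 (nat_lit 222))) (XT.nd (nat_lit 78) (nat_lit 152) (nat_lit 0) (XT.lf (nat_lit 0) (nat_lit 34438280077) (nat_lit 304) (nat_lit 45152000135) (nat_lit 76) (nat_lit 4478959923) (nat_lit 62) (nat_lit 5) (nat_lit 66) (nat_lit 5) (nat_lit 63) (nat_lit 5) (nat_lit 417) (nat_lit 382) (nat_lit 221)) (XT.lf (nat_lit 0) (nat_lit 2124915562) (nat_lit 152) (nat_lit 51565177963) (nat_lit 228) (nat_lit 33047797228) (nat_lit 60) (nat_lit 5) (nat_lit 62) (nat_lit 5) (nat_lit 63) (nat_lit 5) (nat_lit 418) (nat_lit 382) (nat_lit 220))))))))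
noncomputable def xc191 : XT := (XT.nd (nat_lit 2106) (nat_lit 1368) (nat_lit 0) (XT.nd (nat_lit 1014) (nat_lit 988) (nat_lit 0) (XT.nd (nat_lit 468) (nat_lit 684) (nat_lit 0) (XT.nd (nat_lit 234) (nat_lit 304) (nat_lit 0) (XT.nd (nat_lit 78) (nat_lit 228) (nat_lit 0) (XT.lf (nat_lit 0) (nat_lit 53331436816) (nat_lit 152) (nat_lit 21336581506) (nat_lit 228) (nat_lit 14833779880) (nat_lit 60) (nat_lit 5) (nat_lit 62) (nat_lit 5) (nat_lit 63) (nat_lit 5) (nat_lit 419) (nat_lit 382) (nat_lit 219)) (XT.nd (nat_lit 78) (nat_lit 0) (nat_lit 0) (XT.lf (nat_lit 0) (nat_lit 4555767034) (nat_lit 228) (nat_lit 77446982339) (nat_lit 76) (nat_lit 10377693999) (nat_lit 57) (nat_lit 5) (nat_lit 60) (nat_lit 5) (nat_lit 58) (nat_lit 5) (nat_lit 420) (nat_lit 382) (nat_lit 218)) (XT.lf (nat_lit 0) (nat_lit 25387565597) (nat_lit 228) (nat_lit 26128946008) (nat_lit 76) (nat_lit 43825786322) (nat_lit 57) (nat_lit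 5) (nat_lit 60) (nat_lit 5) (nat_lit 58) (nat_lit 5) (nat_lit 421) (nat_lit 382) (nat_lit 217)))) (XT.nd (nat_lit 78) (nat_lit 152) (nat_lit 0) (XT.lf (nat_lit 0) (nat_lit 28670943845) (nat_lit 152) (nat_lit 19036598284) (nat_lit 228) (nat_lit 50722373952) (nat_lit 55) (nat_lit 5) (nat_lit 57) (nat_lit 5) (nat_lit 58) (nat_lit 5) (nat_lit 422) (nat_lit 382) (nat_lit 216)) (XT.nd (nat_lit 78) (nat_lit 152) (nat_lit 0) (XT.lf (nat_lit 0) (nat_lit 71827488839) (nat_lit 228) (nat_lit 14776032194) (nat_lit 76) (nat_lit 15034195803) (nat_lit 55) (nat_lit 5) (nat_lit 58) (nat_lit 5) (nat_lit 56) (nat_lit 5) (nat_lit 423) (nat_lit 382) (nat_lit 215)) (XT.lf (nat_lit 0) (nat_lit 44052298203) (nat_lit 152) (nat_lit 54100006904) (nat_lit 228) (nat_lit 6803659162) (nat_lit 53) (nat_lit 5) (nat_lit 55) (nat_lit 5) (nat_lit 56) (nat_lit 5) (nat_lit 424) (nat_lit 382) (nat_lit 214))))) (XT.nd (nat_lit 234)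 (nat_lit 304) (nat_lit 0) (XT.nd (nat_lit 78) (nat_lit 304) (nat_lit 0) (XT.lf (nat_lit 0) (nat_lit 17051190452) (nat_lit 228) (nat_lit 2369247648) (nat_lit 76) (nat_lit 88993471349) (nat_lit 52) (nat_lit 5) (nat_lit 55) (nat_lit 5) (nat_lit 53) (nat_lit 5) (nat_lit 425) (nat_lit 382) (nat_lit 213)) (XT.nd (nat_lit 78) (nat_lit 152) (nat_lit 0) (XT.lf (nat_lit 0) (nat_lit 43103198562) (nat_lit 228) (nat_lit 51345478177) (nat_lit 76) (nat_lit 17528845417) (nat_lit 50) (nat_lit 5) (nat_lit 53) (nat_lit 5) (nat_lit 51) (nat_lit 5) (nat_lit 426) (nat_lit 382) (nat_lit 212)) (XT.lf (nat_lit 0) (nat_lit 11185765456) (nat_lit 152) (nat_lit 59804912721) (nat_lit 228) (nat_lit 44701993970) (nat_lit 48) (nat_lit 5) (nat_lit 50) (nat_lit 5) (nat_lit 51) (nat_lit 5) (nat_lit 427) (nat_lit 382) (nat_lit 211)))) (XT.nd (nat_lit 156) (nat_lit 152) (nat_lit 0) (XT.nd (nat_lit 78) (nat_lit 152) (nat_lit 0)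 (XT.lf (nat_lit 0) (nat_lit 78624626524) (nat_lit 152) (nat_lit 22516565459) (nat_lit 228) (nat_lit 18408954841) (nat_lit 48) (nat_lit 5) (nat_lit 50) (nat_lit 5) (nat_lit 51) (nat_lit 5) (nat_lit 428) (nat_lit 382) (nat_lit 210)) (XT.lf (nat_lit 0) (nat_lit 9586674408) (nat_lit 152) (nat_lit 97302275975) (nat_lit 76) (nat_lit 16670246369) (nat_lit 46) (nat_lit 5) (nat_lit 48) (nat_lit 5) (nat_lit 47) (nat_lit 5) (nat_lit 429) (nat_lit 382) (nat_lit 209))) (XT.nd (nat_lit 78) (nat_lit 152) (nat_lit 0) (XT.lf (nat_lit 0) (nat_lit 39436140318) (nat_lit 152) (nat_lit 30198499525) (nat_lit 76) (nat_lit 58065334353) (nat_lit 46) (nat_lit 5) (nat_lit 48) (nat_lit 5) (nat_lit 47) (nat_lit 5) (nat_lit 430) (nat_lit 382) (nat_lit 208)) (XT.lf (nat_lit 0) (nat_lit 41590174661) (nat_lit 152) (nat_lit 29836422230) (nat_lit 228) (nat_lit 60588767915) (nat_lit 44) (nat_lit 5) (nat_lit 46) (nat_lit 5) (nat_lit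 47) (nat_lit 5) (nat_lit 431) (nat_lit 382) (nat_lit 207)))))) (XT.nd (nat_lit 546) (nat_lit 380) (nat_lit 0) (XT.nd (nat_lit 234) (nat_lit 456) (nat_lit 0) (XT.nd (nat_lit 78) (nat_lit 152) (nat_lit 0) (XT.lf (nat_lit 0) (nat_lit 105722171916) (nat_lit 228) (nat_lit 18700675164) (nat_lit 76) (nat_lit 12088398240) (nat_lit 44) (nat_lit 5) (nat_lit 47) (nat_lit 5) (nat_lit 45) (nat_lit 4) (nat_lit 432) (nat_lit 382) (nat_lit 206)) (XT.nd (nat_lit 78) (nat_lit 0) (nat_lit 0) (XT.lf (nat_lit 0) (nat_lit 1900927983) (nat_lit 152) (nat_lit 83217770200) (nat_lit 76) (nat_lit 56042013787) (nat_lit 42) (nat_lit 5) (nat_lit 44) (nat_lit 5) (nat_lit 43) (nat_lit 5) (nat_lit 433) (nat_lit 382) (nat_lit 205)) (XT.lf (nat_lit 0) (nat_lit 35511839286) (nat_lit 152) (nat_lit 7470141580) (nat_lit 76) (nat_lit 103019378045) (nat_lit 42) (nat_lit 5) (nat_lit 44) (nat_lit 5) (nat_lit 43) (nat_lit 5) (nat_lit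 434) (nat_lit 382) (nat_lit 204)))) (XT.nd (nat_lit 156) (nat_lit 228) (nat_lit 0) (XT.nd (nat_lit 78) (nat_lit 76) (nat_lit 0) (XT.lf (nat_lit 0) (nat_lit 72003618087) (nat_lit 228) (nat_lit 76618399470) (nat_lit 76) (nat_lit 2402004671) (nat_lit 40) (nat_lit 5) (nat_lit 43) (nat_lit 5) (nat_lit 41) (nat_lit 4) (nat_lit 435) (nat_lit 382) (nat_lit 203)) (XT.lf (nat_lit 0) (nat_lit 3755202693) (nat_lit 76) (nat_lit 107455889858) (nat_lit 152) (nat_lit 45042170943) (nat_lit 39) (nat_lit 5) (nat_lit 40) (nat_lit 5) (nat_lit 41) (nat_lit 4) (nat_lit 436) (nat_lit 382) (nat_lit 202))) (XT.nd (nat_lit 78) (nat_lit 228) (nat_lit 0) (XT.lf (nat_lit 0) (nat_lit 90806204824) (nat_lit 76) (nat_lit 62869590503) (nat_lit 152) (nat_lit 8003328882) (nat_lit 39) (nat_lit 5) (nat_lit 40) (nat_lit 5) (nat_lit 41) (nat_lit 4) (nat_lit 437) (nat_lit 382) (nat_lit 201)) (XT.lf (nat_lit 0) (nat_lit 14824455368)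 (nat_lit 152) (nat_lit 15305167445) (nat_lit 228) (nat_lit 137211005313) (nat_lit 36) (nat_lit 5) (nat_lit 38) (nat_lit 5) (nat_lit 39) (nat_lit 5) (nat_lit 438) (nat_lit 382) (nat_lit 200))))) (XT.nd (nat_lit 234) (nat_lit 304) (nat_lit 0) (XT.nd (nat_lit 78) (nat_lit 76) (nat_lit 0) (XT.lf (nat_lit 0) (nat_lit 71660302122) (nat_lit 228) (nat_lit 66650878129) (nat_lit 76) (nat_lit 34879464764) (nat_lit 36) (nat_lit 5) (nat_lit 39) (nat_lit 5) (nat_lit 37) (nat_lit 4) (nat_lit 439) (nat_lit 382) (nat_lit 199)) (XT.nd (nat_lit 78) (nat_lit 0) (nat_lit 0) (XT.lf (nat_lit 0) (nat_lit 24024507184) (nat_lit 76) (nat_lit 91868347796) (nat_lit 152) (nat_lit 63409040882) (nat_lit 35) (nat_lit 5) (nat_lit 36) (nat_lit 5) (nat_lit 37) (nat_lit 4) (nat_lit 440) (nat_lit 382) (nat_lit 198)) (XT.lf (nat_lit 0) (nat_lit 121546445240) (nat_lit 76) (nat_lit 41918713112) (nat_lit 152) (nat_lit 22197144847)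 (nat_lit 35) (nat_lit 5) (nat_lit 36) (nat_lit 5) (nat_lit 37) (nat_lit 4) (nat_lit 441) (nat_lit 382) (nat_lit 197)))) (XT.nd (nat_lit 156) (nat_lit 76) (nat_lit 0) (XT.nd (nat_lit 78) (nat_lit 0) (nat_lit 0) (XT.lf (nat_lit 0) (nat_lit 21082626831) (nat_lit 228) (nat_lit 160169521758) (nat_lit 76) (nat_lit 11038038957) (nat_lit 32) (nat_lit 5) (nat_lit 35) (nat_lit 5) (nat_lit 33) (nat_lit 4) (nat_lit 442) (nat_lit 382) (nat_lit 196)) (XT.lf (nat_lit 0) (nat_lit 67570625397) (nat_lit 228) (nat_lit 64870233741) (nat_lit 76) (nat_lit 66700902273) (nat_lit 32) (nat_lit 5) (nat_lit 35) (nat_lit 5) (nat_lit 33) (nat_lit 4) (nat_lit 443) (nat_lit 382) (nat_lit 195))) (XT.nd (nat_lit 78) (nat_lit 0) (nat_lit 0) (XT.lf (nat_lit 0) (nat_lit 36356557828) (nat_lit 76) (nat_lit 80593505520) (nat_lit 152) (nat_lit 89357498722) (nat_lit 31) (nat_lit 5) (nat_lit 32) (nat_lit 5) (nat_lit 33) (nat_lit 4)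 (nat_lit 444) (nat_lit 382) (nat_lit 194)) (XT.lf (nat_lit 0) (nat_lit 144895756966) (nat_lit 76) (nat_lit 25000747880) (nat_lit 152) (nat_lit 43880246403) (nat_lit 31) (nat_lit 5) (nat_lit 32) (nat_lit 5) (nat_lit 33) (nat_lit 4) (nat_lit 445) (nat_lit 382) (nat_lit 193))))))) (XT.nd (nat_lit 1092) (nat_lit 608) (nat_lit 0) (XT.nd (nat_lit 546) (nat_lit 304) (nat_lit 0) (XT.nd (nat_lit 234) (nat_lit 228) (nat_lit 0) (XT.nd (nat_lit 78) (nat_lit 76) (nat_lit 0) (XT.lf (nat_lit 0) (nat_lit 4877951028) (nat_lit 152) (nat_lit 183707853727) (nat_lit 76) (nat_lit 32974024718) (nat_lit 29) (nat_lit 5) (nat_lit 31) (nat_lit 5) (nat_lit 30) (nat_lit 4) (nat_lit 446) (nat_lit 382) (nat_lit 192)) (XT.nd (nat_lit 78) (nat_lit 76) (nat_lit 0) (XT.lf (nat_lit 0) (nat_lit 56194343353) (nat_lit 152) (nat_lit 78510118424) (nat_lit 76) (nat_lit 94911885024) (nat_lit 29) (nat_lit 5) (nat_lit 31) (nat_lit 5)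 (nat_lit 30) (nat_lit 4) (nat_lit 447) (nat_lit 382) (nat_lit 191)) (XT.lf (nat_lit 0) (nat_lit 33002799124) (nat_lit 76) (nat_lit 77588493074) (nat_lit 152) (nat_lit 127458661010) (nat_lit 28) (nat_lit 5) (nat_lit 29) (nat_lit 5) (nat_lit 30) (nat_lit 4) (nat_lit 448) (nat_lit 382) (nat_lit 190)))) (XT.nd (nat_lit 156) (nat_lit 152) (nat_lit 0) (XT.nd (nat_lit 78) (nat_lit 76) (nat_lit 0) (XT.lf (nat_lit 0) (nat_lit 152816072514) (nat_lit 76) (nat_lit 16221103374) (nat_lit 152) (nat_lit 77801609731) (nat_lit 28) (nat_lit 5) (nat_lit 29) (nat_lit 5) (nat_lit 30) (nat_lit 4) (nat_lit 449) (nat_lit 382) (nat_lit 189)) (XT.lf (nat_lit 0) (nat_lit 22520009893) (nat_lit 76) (nat_lit 208989208622) (nat_lit 76) (nat_lit 24502647953) (nat_lit 27) (nat_lit 4) (nat_lit 28) (nat_lit 5) (nat_lit 28) (nat_lit 4) (nat_lit 450) (nat_lit 382) (nat_lit 188))) (XT.nd (nat_lit 78) (nat_lit 76) (nat_lit 0) (XT.lf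 (nat_lit 0) (nat_lit 32338148012) (nat_lit 152) (nat_lit 118194038100) (nat_lit 76) (nat_lit 114992663224) (nat_lit 26) (nat_lit 5) (nat_lit 28) (nat_lit 5) (nat_lit 27) (nat_lit 4) (nat_lit 451) (nat_lit 382) (nat_lit 187)) (XT.lf (nat_lit 0) (nat_lit 2547617475) (nat_lit 76) (nat_lit 88689215419) (nat_lit 152) (nat_lit 184254599420) (nat_lit 25) (nat_lit 5) (nat_lit 26) (nat_lit 5) (nat_lit 27) (nat_lit 4) (nat_lit 452) (nat_lit 382) (nat_lit 186))))) (XT.nd (nat_lit 234) (nat_lit 228) (nat_lit 0) (XT.nd (nat_lit 78) (nat_lit 76) (nat_lit 0) (XT.lf (nat_lit 0) (nat_lit 133428889892) (nat_lit 76) (nat_lit 21652767379) (nat_lit 152) (nat_lit 130774626952) (nat_lit 25) (nat_lit 5) (nat_lit 26) (nat_lit 5) (nat_lit 27) (nat_lit 4) (nat_lit 453) (nat_lit 382) (nat_lit 185)) (XT.nd (nat_lit 78) (nat_lit 76) (nat_lit 0) (XT.lf (nat_lit 0) (nat_lit 222879168595) (nat_lit 152) (nat_lit 26646919924)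 (nat_lit 0) (nat_lit 47175267963) (nat_lit 25) (nat_lit 5) (nat_lit 27) (nat_lit 4) (nat_lit 25) (nat_lit 4) (nat_lit 454) (nat_lit 382) (nat_lit 184)) (XT.lf (nat_lit 0) (nat_lit 108540769327) (nat_lit 76) (nat_lit 187574944622) (nat_lit 76) (nat_lit 11870510521) (nat_lit 24) (nat_lit 4) (nat_lit 25) (nat_lit 5) (nat_lit 25) (nat_lit 4) (nat_lit 455) (nat_lit 382) (nat_lit 183)))) (XT.nd (nat_lit 156) (nat_lit 76) (nat_lit 0) (XT.nd (nat_lit 78) (nat_lit 76) (nat_lit 0) (XT.lf (nat_lit 0) (nat_lit 51934945360) (nat_lit 152) (nat_lit 69238304176) (nat_lit 76) (nat_lit 198597660551) (nat_lit 23) (nat_lit 5) (nat_lit 25) (nat_lit 5) (nat_lit 24) (nat_lit 4) (nat_lit 456) (nat_lit 382) (nat_lit 182)) (XT.lf (nat_lit 0) (nat_lit 69508523273) (nat_lit 76) (nat_lit 50108037365) (nat_lit 152) (nat_lit 212464298774) (nat_lit 22) (nat_lit 5) (nat_lit 23) (nat_lit 5) (nat_lit 24) (nat_lit 4) (nat_lit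 457) (nat_lit 382) (nat_lit 181))) (XT.nd (nat_lit 78) (nat_lit 76) (nat_lit 0) (XT.lf (nat_lit 0) (nat_lit 192256332406) (nat_lit 152) (nat_lit 127753877512) (nat_lit 0) (nat_lit 24917392532) (nat_lit 22) (nat_lit 5) (nat_lit 24) (nat_lit 4) (nat_lit 22) (nat_lit 4) (nat_lit 458) (nat_lit 382) (nat_lit 180)) (XT.lf (nat_lit 0) (nat_lit 13412594345) (nat_lit 76) (nat_lit 256145961515) (nat_lit 76) (nat_lit 88806603655) (nat_lit 21) (nat_lit 4) (nat_lit 22) (nat_lit 5) (nat_lit 22) (nat_lit 4) (nat_lit 459) (nat_lit 382) (nat_lit 179)))))) (XT.nd (nat_lit 546) (nat_lit 304) (nat_lit 0) (XT.nd (nat_lit 234) (nat_lit 152) (nat_lit 0) (XT.nd (nat_lit 78) (nat_lit 152) (nat_lit 0) (XT.lf (nat_lit 0) (nat_lit 166071974849) (nat_lit 76) (nat_lit 186817107970) (nat_lit 76) (nat_lit 19477352028) (nat_lit 21) (nat_lit 4) (nat_lit 22) (nat_lit 5) (nat_lit 22) (nat_lit 4) (nat_lit 460) (nat_lit 382)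 (nat_lit 178)) (XT.nd (nat_lit 78) (nat_lit 76) (nat_lit 0) (XT.lf (nat_lit 0) (nat_lit 51611472390) (nat_lit 152) (nat_lit 61536616667) (nat_lit 76) (nat_lit 273878080921) (nat_lit 20) (nat_lit 5) (nat_lit 22) (nat_lit 5) (nat_lit 21) (nat_lit 4) (nat_lit 461) (nat_lit 382) (nat_lit 177)) (XT.lf (nat_lit 0) (nat_lit 93119540979) (nat_lit 76) (nat_lit 33934135664) (nat_lit 152) (nat_lit 275276574938) (nat_lit 19) (nat_lit 5) (nat_lit 20) (nat_lit 5) (nat_lit 21) (nat_lit 4) (nat_lit 462) (nat_lit 382) (nat_lit 176)))) (XT.nd (nat_lit 156) (nat_lit 152) (nat_lit 0) (XT.nd (nat_lit 78) (nat_lit 0) (nat_lit 0) (XT.lf (nat_lit 0) (nat_lit 208095659885) (nat_lit 152) (nat_lit 161489062669) (nat_lit 0) (nat_lit 48723431296) (nat_lit 19) (nat_lit 5) (nat_lit 21) (nat_lit 4) (nat_lit 19) (nat_lit 4) (nat_lit 463) (nat_lit 382) (nat_lit 175)) (XT.lf (nat_lit 0) (nat_lit 293745705775) (nat_lit 152)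 (nat_lit 6938282028) (nat_lit 0) (nat_lit 134373165278) (nat_lit 19) (nat_lit 5) (nat_lit 21) (nat_lit 4) (nat_lit 19) (nat_lit 4) (nat_lit 464) (nat_lit 382) (nat_lit 174))) (XT.nd (nat_lit 78) (nat_lit 76) (nat_lit 0) (XT.lf (nat_lit 0) (nat_lit 160475638963) (nat_lit 76) (nat_lit 225707771528) (nat_lit 76) (nat_lit 66334933976) (nat_lit 18) (nat_lit 4) (nat_lit 19) (nat_lit 5) (nat_lit 19) (nat_lit 4) (nat_lit 465) (nat_lit 382) (nat_lit 173)) (XT.lf (nat_lit 0) (nat_lit 12112946655) (nat_lit 152) (nat_lit 134541579817) (nat_lit 76) (nat_lit 324182440926) (nat_lit 17) (nat_lit 5) (nat_lit 19) (nat_lit 5) (nat_lit 18) (nat_lit 4) (nat_lit 466) (nat_lit 382) (nat_lit 172))))) (XT.nd (nat_lit 234) (nat_lit 228) (nat_lit 0) (XT.nd (nat_lit 78) (nat_lit 0) (nat_lit 0) (XT.lf (nat_lit 0) (nat_lit 30730107367) (nat_lit 76) (nat_lit 62003305933) (nat_lit 152) (nat_lit 397259761259) (nat_lit 16)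 (nat_lit 5) (nat_lit 17) (nat_lit 5) (nat_lit 18) (nat_lit 4) (nat_lit 467) (nat_lit 382) (nat_lit 171)) (XT.nd (nat_lit 78) (nat_lit 0) (nat_lit 0) (XT.lf (nat_lit 0) (nat_lit 180120160978) (nat_lit 152) (nat_lit 301514532500) (nat_lit 0) (nat_lit 28335735734) (nat_lit 16) (nat_lit 5) (nat_lit 18) (nat_lit 4) (nat_lit 16) (nat_lit 4) (nat_lit 468) (nat_lit 382) (nat_lit 170)) (XT.lf (nat_lit 0) (nat_lit 272892406526) (nat_lit 152) (nat_lit 136895583532) (nat_lit 0) (nat_lit 121107748531) (nat_lit 16) (nat_lit 5) (nat_lit 18) (nat_lit 4) (nat_lit 16) (nat_lit 4) (nat_lit 469) (nat_lit 382) (nat_lit 169)))) (XT.nd (nat_lit 156) (nat_lit 152) (nat_lit 0) (XT.nd (nat_lit 78) (nat_lit 0) (nat_lit 0) (XT.lf (nat_lit 0) (nat_lit 37142569130) (nat_lit 76) (nat_lit 333740321339) (nat_lit 76) (nat_lit 181955441677) (nat_lit 15) (nat_lit 4) (nat_lit 16) (nat_lit 5) (nat_lit 16) (nat_lit 4) (nat_lit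 470) (nat_lit 382) (nat_lit 168)) (XT.lf (nat_lit 0) (nat_lit 224634805719) (nat_lit 76) (nat_lit 251456217120) (nat_lit 76) (nat_lit 99671126346) (nat_lit 15) (nat_lit 4) (nat_lit 16) (nat_lit 5) (nat_lit 16) (nat_lit 4) (nat_lit 471) (nat_lit 382) (nat_lit 167))) (XT.nd (nat_lit 78) (nat_lit 152) (nat_lit 0) (XT.lf (nat_lit 0) (nat_lit 421501150090) (nat_lit 76) (nat_lit 165058155814) (nat_lit 76) (nat_lit 13272863982) (nat_lit 15) (nat_lit 4) (nat_lit 16) (nat_lit 5) (nat_lit 16) (nat_lit 4) (nat_lit 472) (nat_lit 382) (nat_lit 166)) (XT.lf (nat_lit 0) (nat_lit 1958167027) (nat_lit 76) (nat_lit 73038735579) (nat_lit 152) (nat_lit 550046815877) (nat_lit 13) (nat_lit 5) (nat_lit 14) (nat_lit 5) (nat_lit 15) (nat_lit 4) (nat_lit 473) (nat_lit 382) (nat_lit 165))))))))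
noncomputable def xc192 : XT := (XT.nd (nat_lit 47814) (nat_lit 0) (nat_lit 2432) (XT.nd (nat_lit 46722) (nat_lit 0) (nat_lit 5548) (XT.nd (nat_lit 46176) (nat_lit 0) (nat_lit 8132) (XT.nd (nat_lit 234) (nat_lit 76) (nat_lit 0) (XT.nd (nat_lit 78) (nat_lit 0) (nat_lit 0) (XT.lf (nat_lit 0) (nat_lit 170671663155) (nat_lit 152) (nat_lit 454547537611) (nat_lit 0) (nat_lit 26113886314) (nat_lit 13) (nat_lit 5) (nat_lit 15) (nat_lit 4) (nat_lit 13) (nat_lit 4) (nat_lit 474) (nat_lit 382) (nat_lit 164)) (XT.nd (nat_lit 78) (nat_lit 0) (nat_lit 0) (XT.lf (nat_lit 0) (nat_lit 272327282674) (nat_lit 152) (nat_lit 278780444976) (nat_lit 0) (nat_lit 127769340422) (nat_lit 13) (nat_lit 5) (nat_lit 15) (nat_lit 4) (nat_lit 13) (nat_lit 4) (nat_lit 475) (nat_lit 382) (nat_lit 163)) (XT.lf (nat_lit 0) (nat_lit 379065459000) (nat_lit 152) (nat_lit 94225441120) (nat_lit 0) (nat_lit 234507359214) (nat_lit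 13) (nat_lit 5) (nat_lit 15) (nat_lit 4) (nat_lit 13) (nat_lit 4) (nat_lit 476) (nat_lit 382) (nat_lit 162)))) (XT.nd (nat_lit 45786) (nat_lit 0) (nat_lit 8056) (XT.lf (nat_lit 0) (nat_lit 102848691049) (nat_lit 76) (nat_lit 389897395900) (nat_lit 76) (nat_lit 245339146080) (nat_lit 12) (nat_lit 4) (nat_lit 13) (nat_lit 5) (nat_lit 13) (nat_lit 4) (nat_lit 477) (nat_lit 382) (nat_lit 161)) (XT.nd (nat_lit 78) (nat_lit 0) (nat_lit 0) (XT.lf (nat_lit 0) (nat_lit 4244769930) (nat_lit 836) (nat_lit 6173486590) (nat_lit 836) (nat_lit 6173486590) (nat_lit 118) (nat_lit 3) (nat_lit 129) (nat_lit 3) (nat_lit 129) (nat_lit 5) (nat_lit 383) (nat_lit 383) (nat_lit 254)) (XT.lf (nat_lit 76) (nat_lit 3900328697) (nat_lit 0) (nat_lit 4920456798) (nat_lit 836) (nat_lit 25186305740) (nat_lit 119) (nat_lit 5) (nat_lit 118) (nat_lit 3) (nat_lit 129) (nat_lit 5) (nat_lit 384) (nat_lit 383) (nat_lit 253)))))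 (XT.nd (nat_lit 234) (nat_lit 0) (nat_lit 76) (XT.nd (nat_lit 78) (nat_lit 0) (nat_lit 0) (XT.lf (nat_lit 0) (nat_lit 9561495752) (nat_lit 760) (nat_lit 13662526671) (nat_lit 836) (nat_lit 11628210994) (nat_lit 119) (nat_lit 5) (nat_lit 129) (nat_lit 5) (nat_lit 130) (nat_lit 5) (nat_lit 385) (nat_lit 383) (nat_lit 252)) (XT.nd (nat_lit 78) (nat_lit 0) (nat_lit 76) (XT.lf (nat_lit 76) (nat_lit 3637553397) (nat_lit 0) (nat_lit 6835596744) (nat_lit 836) (nat_lit 25259789075) (nat_lit 120) (nat_lit 5) (nat_lit 119) (nat_lit 5) (nat_lit 130) (nat_lit 5) (nat_lit 386) (nat_lit 383) (nat_lit 251)) (XT.lf (nat_lit 0) (nat_lit 11824111531) (nat_lit 760) (nat_lit 14537162112) (nat_lit 836) (nat_lit 10276722292) (nat_lit 120) (nat_lit 5) (nat_lit 130) (nat_lit 5) (nat_lit 131) (nat_lit 5) (nat_lit 387) (nat_lit 383) (nat_lit 250)))) (XT.nd (nat_lit 156) (nat_lit 0) (nat_lit 76) (XT.nd (nat_lit 78)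 (nat_lit 0) (nat_lit 76) (XT.lf (nat_lit 76) (nat_lit 3909875790) (nat_lit 0) (nat_lit 9502619470) (nat_lit 836) (nat_lit 24167318275) (nat_lit 121) (nat_lit 5) (nat_lit 120) (nat_lit 5) (nat_lit 131) (nat_lit 5) (nat_lit 388) (nat_lit 383) (nat_lit 249)) (XT.lf (nat_lit 0) (nat_lit 15455443422) (nat_lit 760) (nat_lit 14906809618) (nat_lit 836) (nat_lit 8187713387) (nat_lit 121) (nat_lit 5) (nat_lit 131) (nat_lit 5) (nat_lit 132) (nat_lit 5) (nat_lit 389) (nat_lit 383) (nat_lit 248))) (XT.nd (nat_lit 78) (nat_lit 0) (nat_lit 76) (XT.lf (nat_lit 76) (nat_lit 4789792294) (nat_lit 0) (nat_lit 13038363278) (nat_lit 836) (nat_lit 21729092154) (nat_lit 122) (nat_lit 5) (nat_lit 121) (nat_lit 5) (nat_lit 132) (nat_lit 5) (nat_lit 390) (nat_lit 383) (nat_lit 247)) (XT.lf (nat_lit 0) (nat_lit 20653699492) (nat_lit 760) (nat_lit 14700410351) (nat_lit 836) (nat_lit 5244074960) (nat_lit 122) (nat_lit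 5) (nat_lit 132) (nat_lit 5) (nat_lit 133) (nat_lit 5) (nat_lit 391) (nat_lit 383) (nat_lit 246)))))) (XT.nd (nat_lit 546) (nat_lit 1292) (nat_lit 0) (XT.nd (nat_lit 234) (nat_lit 836) (nat_lit 0) (XT.nd (nat_lit 78) (nat_lit 684) (nat_lit 0) (XT.lf (nat_lit 76) (nat_lit 6357510371) (nat_lit 0) (nat_lit 17573317911) (nat_lit 836) (nat_lit 17744826513) (nat_lit 123) (nat_lit 5) (nat_lit 122) (nat_lit 5) (nat_lit 133) (nat_lit 5) (nat_lit 392) (nat_lit 383) (nat_lit 245)) (XT.nd (nat_lit 78) (nat_lit 760) (nat_lit 0) (XT.lf (nat_lit 0) (nat_lit 27639379394) (nat_lit 760) (nat_lit 13839374401) (nat_lit 76) (nat_lit 1314867574) (nat_lit 123) (nat_lit 5) (nat_lit 133) (nat_lit 5) (nat_lit 124) (nat_lit 5) (nat_lit 393) (nat_lit 383) (nat_lit 244)) (XT.lf (nat_lit 0) (nat_lit 8701545713) (nat_lit 760) (nat_lit 23253284928) (nat_lit 836) (nat_lit 11991583314) (nat_lit 113) (nat_lit 5) (nat_lit 123)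 (nat_lit 5) (nat_lit 124) (nat_lit 5) (nat_lit 394) (nat_lit 383) (nat_lit 243)))) (XT.nd (nat_lit 156) (nat_lit 456) (nat_lit 0) (XT.nd (nat_lit 78) (nat_lit 380) (nat_lit 0) (XT.lf (nat_lit 0) (nat_lit 32847814193) (nat_lit 760) (nat_lit 3870230400) (nat_lit 836) (nat_lit 8427203319) (nat_lit 113) (nat_lit 5) (nat_lit 123) (nat_lit 5) (nat_lit 124) (nat_lit 5) (nat_lit 395) (nat_lit 383) (nat_lit 242)) (XT.lf (nat_lit 0) (nat_lit 11919352173) (nat_lit 380) (nat_lit 30241221912) (nat_lit 456) (nat_lit 4221392930) (nat_lit 108) (nat_lit 5) (nat_lit 113) (nat_lit 5) (nat_lit 114) (nat_lit 5) (nat_lit 396) (nat_lit 383) (nat_lit 241))) (XT.nd (nat_lit 78) (nat_lit 380) (nat_lit 0) (XT.lf (nat_lit 0) (nat_lit 461367585) (nat_lit 456) (nat_lit 9968316780) (nat_lit 76) (nat_lit 37237042216) (nat_lit 107) (nat_lit 5) (nat_lit 113) (nat_lit 5) (nat_lit 108) (nat_lit 5) (nat_lit 397) (nat_lit 383)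 (nat_lit 240)) (XT.lf (nat_lit 0) (nat_lit 5654390110) (nat_lit 456) (nat_lit 32969143713) (nat_lit 76) (nat_lit 10367831648) (nat_lit 102) (nat_lit 5) (nat_lit 108) (nat_lit 5) (nat_lit 103) (nat_lit 5) (nat_lit 398) (nat_lit 383) (nat_lit 239))))) (XT.nd (nat_lit 234) (nat_lit 912) (nat_lit 0) (XT.nd (nat_lit 78) (nat_lit 380) (nat_lit 0) (XT.lf (nat_lit 0) (nat_lit 11447570480) (nat_lit 456) (nat_lit 6891363883) (nat_lit 76) (nat_lit 32026277587) (nat_lit 102) (nat_lit 5) (nat_lit 108) (nat_lit 5) (nat_lit 103) (nat_lit 5) (nat_lit 399) (nat_lit 383) (nat_lit 238)) (XT.nd (nat_lit 78) (nat_lit 0) (nat_lit 0) (XT.lf (nat_lit 0) (nat_lit 17910533167) (nat_lit 456) (nat_lit 30677299514) (nat_lit 76) (nat_lit 3200912838) (nat_lit 97) (nat_lit 5) (nat_lit 103) (nat_lit 5) (nat_lit 98) (nat_lit 5) (nat_lit 400) (nat_lit 383) (nat_lit 237)) (XT.lf (nat_lit 0) (nat_lit 25114003526) (nat_lit 456)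 (nat_lit 2828665785) (nat_lit 76) (nat_lit 25319919366) (nat_lit 97) (nat_lit 5) (nat_lit 103) (nat_lit 5) (nat_lit 98) (nat_lit 5) (nat_lit 401) (nat_lit 383) (nat_lit 236)))) (XT.nd (nat_lit 156) (nat_lit 304) (nat_lit 0) (XT.nd (nat_lit 78) (nat_lit 304) (nat_lit 0) (XT.lf (nat_lit 0) (nat_lit 27283604501) (nat_lit 304) (nat_lit 5818206365) (nat_lit 380) (nat_lit 21687105798) (nat_lit 93) (nat_lit 5) (nat_lit 97) (nat_lit 5) (nat_lit 98) (nat_lit 5) (nat_lit 402) (nat_lit 383) (nat_lit 235)) (XT.lf (nat_lit 0) (nat_lit 2413023709) (nat_lit 304) (nat_lit 39432447516) (nat_lit 380) (nat_lit 14528267499) (nat_lit 89) (nat_lit 5) (nat_lit 93) (nat_lit 5) (nat_lit 94) (nat_lit 5) (nat_lit 403) (nat_lit 383) (nat_lit 234))) (XT.nd (nat_lit 78) (nat_lit 304) (nat_lit 0) (XT.lf (nat_lit 0) (nat_lit 34681605751) (nat_lit 304) (nat_lit 16902659120) (nat_lit 380) (nat_lit 6425640269) (nat_lit 89)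 (nat_lit 5) (nat_lit 93) (nat_lit 5) (nat_lit 94) (nat_lit 5) (nat_lit 404) (nat_lit 383) (nat_lit 233)) (XT.lf (nat_lit 0) (nat_lit 2264076286) (nat_lit 304) (nat_lit 50735316393) (nat_lit 76) (nat_lit 6714432571) (nat_lit 85) (nat_lit 5) (nat_lit 89) (nat_lit 5) (nat_lit 86) (nat_lit 5) (nat_lit 405) (nat_lit 383) (nat_lit 232))))))) (XT.nd (nat_lit 1014) (nat_lit 1368) (nat_lit 0) (XT.nd (nat_lit 468) (nat_lit 912) (nat_lit 0) (XT.nd (nat_lit 234) (nat_lit 532) (nat_lit 0) (XT.nd (nat_lit 78) (nat_lit 304) (nat_lit 0) (XT.lf (nat_lit 0) (nat_lit 11849368767) (nat_lit 304) (nat_lit 18163590646) (nat_lit 76) (nat_lit 31450864010) (nat_lit 85) (nat_lit 5) (nat_lit 89) (nat_lit 5) (nat_lit 86) (nat_lit 5) (nat_lit 406) (nat_lit 383) (nat_lit 231)) (XT.nd (nat_lit 78) (nat_lit 0) (nat_lit 0) (XT.lf (nat_lit 0) (nat_lit 16564942343) (nat_lit 304) (nat_lit 5606073730) (nat_lit 380) (nat_lit 41117451552)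 (nat_lit 81) (nat_lit 5) (nat_lit 85) (nat_lit 5) (nat_lit 86) (nat_lit 5) (nat_lit 407) (nat_lit 383) (nat_lit 230)) (XT.lf (nat_lit 0) (nat_lit 33632485253) (nat_lit 380) (nat_lit 11848089279) (nat_lit 76) (nat_lit 19692583130) (nat_lit 81) (nat_lit 5) (nat_lit 86) (nat_lit 5) (nat_lit 82) (nat_lit 5) (nat_lit 408) (nat_lit 383) (nat_lit 229)))) (XT.nd (nat_lit 78) (nat_lit 304) (nat_lit 0) (XT.lf (nat_lit 0) (nat_lit 25493256811) (nat_lit 228) (nat_lit 20662267664) (nat_lit 304) (nat_lit 20972133469) (nat_lit 78) (nat_lit 5) (nat_lit 81) (nat_lit 5) (nat_lit 82) (nat_lit 5) (nat_lit 409) (nat_lit 383) (nat_lit 228)) (XT.nd (nat_lit 78) (nat_lit 304) (nat_lit 0) (XT.lf (nat_lit 0) (nat_lit 59591523531) (nat_lit 304) (nat_lit 4146326500) (nat_lit 76) (nat_lit 5427693360) (nat_lit 78) (nat_lit 5) (nat_lit 82) (nat_lit 5) (nat_lit 79) (nat_lit 5) (nat_lit 410) (nat_lit 383) (nat_lit 227))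 (XT.lf (nat_lit 0) (nat_lit 3232033914) (nat_lit 304) (nat_lit 35283729412) (nat_lit 76) (nat_lit 32741958557) (nat_lit 74) (nat_lit 5) (nat_lit 78) (nat_lit 5) (nat_lit 75) (nat_lit 5) (nat_lit 411) (nat_lit 383) (nat_lit 226))))) (XT.nd (nat_lit 234) (nat_lit 456) (nat_lit 0) (XT.nd (nat_lit 78) (nat_lit 228) (nat_lit 0) (XT.lf (nat_lit 0) (nat_lit 4786520194) (nat_lit 228) (nat_lit 11714906100) (nat_lit 304) (nat_lit 56937996629) (nat_lit 71) (nat_lit 5) (nat_lit 74) (nat_lit 5) (nat_lit 75) (nat_lit 5) (nat_lit 412) (nat_lit 383) (nat_lit 225)) (XT.nd (nat_lit 78) (nat_lit 228) (nat_lit 0) (XT.lf (nat_lit 0) (nat_lit 31296796235) (nat_lit 304) (nat_lit 27883211992) (nat_lit 76) (nat_lit 16507075841) (nat_lit 71) (nat_lit 5) (nat_lit 75) (nat_lit 5) (nat_lit 72) (nat_lit 5) (nat_lit 413) (nat_lit 383) (nat_lit 224)) (XT.lf (nat_lit 0) (nat_lit 15218200362) (nat_lit 228) (nat_lit 32042151427)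 (nat_lit 304) (nat_lit 30765356052) (nat_lit 68) (nat_lit 5) (nat_lit 71) (nat_lit 5) (nat_lit 72) (nat_lit 5) (nat_lit 414) (nat_lit 383) (nat_lit 223)))) (XT.nd (nat_lit 156) (nat_lit 228) (nat_lit 0) (XT.nd (nat_lit 78) (nat_lit 228) (nat_lit 0) (XT.lf (nat_lit 0) (nat_lit 61440961677) (nat_lit 228) (nat_lit 3052140849) (nat_lit 304) (nat_lit 15964609813) (nat_lit 68) (nat_lit 5) (nat_lit 71) (nat_lit 5) (nat_lit 72) (nat_lit 5) (nat_lit 415) (nat_lit 383) (nat_lit 222)) (XT.lf (nat_lit 0) (nat_lit 458160547) (nat_lit 228) (nat_lit 55564423646) (nat_lit 76) (nat_lit 26945643007) (nat_lit 65) (nat_lit 5) (nat_lit 68) (nat_lit 5) (nat_lit 66) (nat_lit 5) (nat_lit 416) (nat_lit 383) (nat_lit 221))) (XT.nd (nat_lit 78) (nat_lit 228) (nat_lit 0) (XT.lf (nat_lit 0) (nat_lit 17541786273) (nat_lit 228) (nat_lit 9101329464) (nat_lit 76) (nat_lit 58929255052) (nat_lit 65) (nat_lit 5) (nat_lit 68)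 (nat_lit 5) (nat_lit 66) (nat_lit 5) (nat_lit 417) (nat_lit 383) (nat_lit 220)) (XT.lf (nat_lit 0) (nat_lit 36194700718) (nat_lit 304) (nat_lit 47355543139) (nat_lit 76) (nat_lit 4720722663) (nat_lit 62) (nat_lit 5) (nat_lit 66) (nat_lit 5) (nat_lit 63) (nat_lit 5) (nat_lit 418) (nat_lit 383) (nat_lit 219)))))) (XT.nd (nat_lit 546) (nat_lit 684) (nat_lit 0) (XT.nd (nat_lit 234) (nat_lit 304) (nat_lit 0) (XT.nd (nat_lit 78) (nat_lit 228) (nat_lit 0) (XT.lf (nat_lit 0) (nat_lit 2284346456) (nat_lit 152) (nat_lit 54123945577) (nat_lit 228) (nat_lit 34664798766) (nat_lit 60) (nat_lit 5) (nat_lit 62) (nat_lit 5) (nat_lit 63) (nat_lit 5) (nat_lit 419) (nat_lit 383) (nat_lit 218)) (XT.nd (nat_lit 78) (nat_lit 228) (nat_lit 0) (XT.lf (nat_lit 0) (nat_lit 56048661148) (nat_lit 152) (nat_lit 22384847454) (nat_lit 228) (nat_lit 15541765709) (nat_lit 60) (nat_lit 5) (nat_lit 62) (nat_lit 5) (nat_lit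 63) (nat_lit 5) (nat_lit 420) (nat_lit 383) (nat_lit 217)) (XT.lf (nat_lit 0) (nat_lit 4815718338) (nat_lit 228) (nat_lit 81267121399) (nat_lit 76) (nat_lit 10915009191) (nat_lit 57) (nat_lit 5) (nat_lit 60) (nat_lit 5) (nat_lit 58) (nat_lit 5) (nat_lit 421) (nat_lit 383) (nat_lit 216)))) (XT.nd (nat_lit 156) (nat_lit 152) (nat_lit 0) (XT.nd (nat_lit 78) (nat_lit 152) (nat_lit 0) (XT.lf (nat_lit 0) (nat_lit 26687575260) (nat_lit 228) (nat_lit 27385669444) (nat_lit 76) (nat_lit 46034628487) (nat_lit 57) (nat_lit 5) (nat_lit 60) (nat_lit 5) (nat_lit 58) (nat_lit 5) (nat_lit 422) (nat_lit 383) (nat_lit 215)) (XT.lf (nat_lit 0) (nat_lit 30153412904) (nat_lit 152) (nat_lit 19969442885) (nat_lit 228) (nat_lit 53227051590) (nat_lit 55) (nat_lit 5) (nat_lit 57) (nat_lit 5) (nat_lit 58) (nat_lit 5) (nat_lit 423) (nat_lit 383) (nat_lit 214))) (XT.nd (nat_lit 78) (nat_lit 152) (nat_lit 0) (XT.lf (nat_lit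 0) (nat_lit 75447656584) (nat_lit 228) (nat_lit 15467090986) (nat_lit 76) (nat_lit 15803408131) (nat_lit 55) (nat_lit 5) (nat_lit 58) (nat_lit 5) (nat_lit 56) (nat_lit 5) (nat_lit 424) (nat_lit 383) (nat_lit 213)) (XT.lf (nat_lit 0) (nat_lit 46301885885) (nat_lit 152) (nat_lit 56786190046) (nat_lit 228) (nat_lit 7114271808) (nat_lit 53) (nat_lit 5) (nat_lit 55) (nat_lit 5) (nat_lit 56) (nat_lit 5) (nat_lit 425) (nat_lit 383) (nat_lit 212))))) (XT.nd (nat_lit 234) (nat_lit 304) (nat_lit 0) (XT.nd (nat_lit 78) (nat_lit 304) (nat_lit 0) (XT.lf (nat_lit 0) (nat_lit 17931010811) (nat_lit 228) (nat_lit 2442066373) (nat_lit 76) (nat_lit 93460158379) (nat_lit 52) (nat_lit 5) (nat_lit 55) (nat_lit 5) (nat_lit 53) (nat_lit 5) (nat_lit 426) (nat_lit 383) (nat_lit 211)) (XT.nd (nat_lit 78) (nat_lit 152) (nat_lit 0) (XT.lf (nat_lit 0) (nat_lit 45285307157) (nat_lit 228) (nat_lit 53866790243) (nat_lit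 76) (nat_lit 18422947414) (nat_lit 50) (nat_lit 5) (nat_lit 53) (nat_lit 5) (nat_lit 51) (nat_lit 5) (nat_lit 427) (nat_lit 383) (nat_lit 210)) (XT.lf (nat_lit 0) (nat_lit 11790274252) (nat_lit 152) (nat_lit 62776309251) (nat_lit 228) (nat_lit 46909397952) (nat_lit 48) (nat_lit 5) (nat_lit 50) (nat_lit 5) (nat_lit 51) (nat_lit 5) (nat_lit 428) (nat_lit 383) (nat_lit 209)))) (XT.nd (nat_lit 156) (nat_lit 152) (nat_lit 0) (XT.nd (nat_lit 78) (nat_lit 152) (nat_lit 0) (XT.lf (nat_lit 0) (nat_lit 82598925014) (nat_lit 152) (nat_lit 23624442202) (nat_lit 228) (nat_lit 19303025711) (nat_lit 48) (nat_lit 5) (nat_lit 50) (nat_lit 5) (nat_lit 51) (nat_lit 5) (nat_lit 429) (nat_lit 383) (nat_lit 208)) (XT.lf (nat_lit 0) (nat_lit 10091283954) (nat_lit 152) (nat_lit 102123211415) (nat_lit 76) (nat_lit 17521392479) (nat_lit 46) (nat_lit 5) (nat_lit 48) (nat_lit 5) (nat_lit 47) (nat_lit 5) (nat_lit 430)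 (nat_lit 383) (nat_lit 207))) (XT.nd (nat_lit 78) (nat_lit 152) (nat_lit 0) (XT.lf (nat_lit 0) (nat_lit 41432019549) (nat_lit 152) (nat_lit 31666349874) (nat_lit 76) (nat_lit 60985395158) (nat_lit 46) (nat_lit 5) (nat_lit 48) (nat_lit 5) (nat_lit 47) (nat_lit 5) (nat_lit 431) (nat_lit 383) (nat_lit 206)) (XT.lf (nat_lit 0) (nat_lit 43711079398) (nat_lit 152) (nat_lit 31310419565) (nat_lit 228) (nat_lit 63593450983) (nat_lit 44) (nat_lit 5) (nat_lit 46) (nat_lit 5) (nat_lit 47) (nat_lit 5) (nat_lit 432) (nat_lit 383) (nat_lit 205))))))))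
noncomputable def xc193 : XT := (XT.nd (nat_lit 2106) (nat_lit 684) (nat_lit 0) (XT.nd (nat_lit 1014) (nat_lit 684) (nat_lit 0) (XT.nd (nat_lit 468) (nat_lit 608) (nat_lit 0) (XT.nd (nat_lit 234) (nat_lit 228) (nat_lit 0) (XT.nd (nat_lit 78) (nat_lit 152) (nat_lit 0) (XT.lf (nat_lit 0) (nat_lit 111030995279) (nat_lit 228) (nat_lit 19595422421) (nat_lit 76) (nat_lit 12709249871) (nat_lit 44) (nat_lit 5) (nat_lit 47) (nat_lit 5) (nat_lit 45) (nat_lit 4) (nat_lit 433) (nat_lit 383) (nat_lit 204)) (XT.nd (nat_lit 78) (nat_lit 0) (nat_lit 0) (XT.lf (nat_lit 0) (nat_lit 2018595062) (nat_lit 152) (nat_lit 87338270172) (nat_lit 76) (nat_lit 58860747422) (nat_lit 42) (nat_lit 5) (nat_lit 44) (nat_lit 5) (nat_lit 43) (nat_lit 5) (nat_lit 434) (nat_lit 383) (nat_lit 203)) (XT.lf (nat_lit 0) (nat_lit 37308974755) (nat_lit 152) (nat_lit 7805183384) (nat_lit 76) (nat_lit 108186187848) (nat_lit 42) (nat_lit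 5) (nat_lit 44) (nat_lit 5) (nat_lit 43) (nat_lit 5) (nat_lit 435) (nat_lit 383) (nat_lit 202)))) (XT.nd (nat_lit 78) (nat_lit 76) (nat_lit 0) (XT.lf (nat_lit 0) (nat_lit 75625168781) (nat_lit 228) (nat_lit 80410676936) (nat_lit 76) (nat_lit 2538305615) (nat_lit 40) (nat_lit 5) (nat_lit 43) (nat_lit 5) (nat_lit 41) (nat_lit 4) (nat_lit 436) (nat_lit 383) (nat_lit 201)) (XT.nd (nat_lit 78) (nat_lit 0) (nat_lit 0) (XT.lf (nat_lit 0) (nat_lit 3980982068) (nat_lit 76) (nat_lit 112811610877) (nat_lit 152) (nat_lit 47272283085) (nat_lit 39) (nat_lit 5) (nat_lit 40) (nat_lit 5) (nat_lit 41) (nat_lit 4) (nat_lit 437) (nat_lit 383) (nat_lit 200)) (XT.lf (nat_lit 0) (nat_lit 95382723866) (nat_lit 76) (nat_lit 65996809577) (nat_lit 152) (nat_lit 8382546368) (nat_lit 39) (nat_lit 5) (nat_lit 40) (nat_lit 5) (nat_lit 41) (nat_lit 4) (nat_lit 438) (nat_lit 383) (nat_lit 199))))) (XT.nd (nat_lit 234) (nat_lit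 304) (nat_lit 0) (XT.nd (nat_lit 78) (nat_lit 76) (nat_lit 0) (XT.lf (nat_lit 0) (nat_lit 15601965597) (nat_lit 152) (nat_lit 16054017725) (nat_lit 228) (nat_lit 144050679348) (nat_lit 36) (nat_lit 5) (nat_lit 38) (nat_lit 5) (nat_lit 39) (nat_lit 5) (nat_lit 439) (nat_lit 383) (nat_lit 198)) (XT.nd (nat_lit 78) (nat_lit 76) (nat_lit 0) (XT.lf (nat_lit 0) (nat_lit 75262493937) (nat_lit 228) (nat_lit 69948157134) (nat_lit 76) (nat_lit 36638564603) (nat_lit 36) (nat_lit 5) (nat_lit 39) (nat_lit 5) (nat_lit 37) (nat_lit 4) (nat_lit 440) (nat_lit 383) (nat_lit 197)) (XT.lf (nat_lit 0) (nat_lit 25260428656) (nat_lit 76) (nat_lit 96445874310) (nat_lit 152) (nat_lit 66559744803) (nat_lit 35) (nat_lit 5) (nat_lit 36) (nat_lit 5) (nat_lit 37) (nat_lit 4) (nat_lit 441) (nat_lit 383) (nat_lit 196)))) (XT.nd (nat_lit 156) (nat_lit 76) (nat_lit 0) (XT.nd (nat_lit 78) (nat_lit 228) (nat_lit 0) (XT.lf (nat_lit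 0) (nat_lit 127656811419) (nat_lit 76) (nat_lit 43999514599) (nat_lit 152) (nat_lit 23288194353) (nat_lit 35) (nat_lit 5) (nat_lit 36) (nat_lit 5) (nat_lit 37) (nat_lit 4) (nat_lit 442) (nat_lit 383) (nat_lit 195)) (XT.lf (nat_lit 0) (nat_lit 22154851966) (nat_lit 228) (nat_lit 168144235338) (nat_lit 76) (nat_lit 11604702663) (nat_lit 32) (nat_lit 5) (nat_lit 35) (nat_lit 5) (nat_lit 33) (nat_lit 4) (nat_lit 443) (nat_lit 383) (nat_lit 194))) (XT.nd (nat_lit 78) (nat_lit 76) (nat_lit 0) (XT.lf (nat_lit 0) (nat_lit 70966388850) (nat_lit 228) (nat_lit 68081590658) (nat_lit 76) (nat_lit 70050006204) (nat_lit 32) (nat_lit 5) (nat_lit 35) (nat_lit 5) (nat_lit 33) (nat_lit 4) (nat_lit 444) (nat_lit 383) (nat_lit 193)) (XT.lf (nat_lit 0) (nat_lit 38206021864) (nat_lit 76) (nat_lit 84608450184) (nat_lit 152) (nat_lit 93807620792) (nat_lit 31) (nat_lit 5) (nat_lit 32) (nat_lit 5) (nat_lit 33) (nat_lit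 4) (nat_lit 445) (nat_lit 383) (nat_lit 192)))))) (XT.nd (nat_lit 546) (nat_lit 304) (nat_lit 0) (XT.nd (nat_lit 234) (nat_lit 228) (nat_lit 0) (XT.nd (nat_lit 78) (nat_lit 152) (nat_lit 0) (XT.lf (nat_lit 0) (nat_lit 152170674476) (nat_lit 76) (nat_lit 26236756120) (nat_lit 152) (nat_lit 46057351232) (nat_lit 31) (nat_lit 5) (nat_lit 32) (nat_lit 5) (nat_lit 33) (nat_lit 4) (nat_lit 446) (nat_lit 383) (nat_lit 191)) (XT.nd (nat_lit 78) (nat_lit 0) (nat_lit 0) (XT.lf (nat_lit 0) (nat_lit 5138127188) (nat_lit 152) (nat_lit 192862484226) (nat_lit 76) (nat_lit 34636393825) (nat_lit 29) (nat_lit 5) (nat_lit 31) (nat_lit 5) (nat_lit 30) (nat_lit 4) (nat_lit 447) (nat_lit 383) (nat_lit 190)) (XT.lf (nat_lit 0) (nat_lit 59019563957) (nat_lit 152) (nat_lit 82406327024) (nat_lit 76) (nat_lit 99670496295) (nat_lit 29) (nat_lit 5) (nat_lit 31) (nat_lit 5) (nat_lit 30) (nat_lit 4) (nat_lit 448) (nat_lit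 383) (nat_lit 189)))) (XT.nd (nat_lit 156) (nat_lit 152) (nat_lit 0) (XT.nd (nat_lit 78) (nat_lit 0) (nat_lit 0) (XT.lf (nat_lit 0) (nat_lit 34681763863) (nat_lit 76) (nat_lit 81454308158) (nat_lit 152) (nat_lit 133815616475) (nat_lit 28) (nat_lit 5) (nat_lit 29) (nat_lit 5) (nat_lit 30) (nat_lit 4) (nat_lit 449) (nat_lit 383) (nat_lit 188)) (XT.lf (nat_lit 0) (nat_lit 160484328315) (nat_lit 76) (nat_lit 17019197048) (nat_lit 152) (nat_lit 81676473470) (nat_lit 28) (nat_lit 5) (nat_lit 29) (nat_lit 5) (nat_lit 30) (nat_lit 4) (nat_lit 450) (nat_lit 383) (nat_lit 187))) (XT.nd (nat_lit 78) (nat_lit 76) (nat_lit 0) (XT.lf (nat_lit 0) (nat_lit 23673535042) (nat_lit 76) (nat_lit 219425567512) (nat_lit 76) (nat_lit 25712634621) (nat_lit 27) (nat_lit 4) (nat_lit 28) (nat_lit 5) (nat_lit 28) (nat_lit 4) (nat_lit 451) (nat_lit 383) (nat_lit 186)) (XT.lf (nat_lit 0) (nat_lit 33969018242) (nat_lit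 152) (nat_lit 124077063049) (nat_lit 76) (nat_lit 120754311043) (nat_lit 26) (nat_lit 5) (nat_lit 28) (nat_lit 5) (nat_lit 27) (nat_lit 4) (nat_lit 452) (nat_lit 383) (nat_lit 185))))) (XT.nd (nat_lit 234) (nat_lit 228) (nat_lit 0) (XT.nd (nat_lit 78) (nat_lit 0) (nat_lit 0) (XT.lf (nat_lit 0) (nat_lit 2701245031) (nat_lit 76) (nat_lit 93111137225) (nat_lit 152) (nat_lit 193452935025) (nat_lit 25) (nat_lit 5) (nat_lit 26) (nat_lit 5) (nat_lit 27) (nat_lit 4) (nat_lit 453) (nat_lit 383) (nat_lit 184)) (XT.nd (nat_lit 78) (nat_lit 0) (nat_lit 0) (XT.lf (nat_lit 0) (nat_lit 140125331227) (nat_lit 76) (nat_lit 22723463877) (nat_lit 152) (nat_lit 137299649380) (nat_lit 25) (nat_lit 5) (nat_lit 26) (nat_lit 5) (nat_lit 27) (nat_lit 4) (nat_lit 454) (nat_lit 383) (nat_lit 183)) (XT.lf (nat_lit 0) (nat_lit 234035737897) (nat_lit 152) (nat_lit 27955014163) (nat_lit 0) (nat_lit 49545040558) (nat_lit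 25) (nat_lit 5) (nat_lit 27) (nat_lit 4) (nat_lit 25) (nat_lit 4) (nat_lit 455) (nat_lit 383) (nat_lit 182)))) (XT.nd (nat_lit 156) (nat_lit 76) (nat_lit 0) (XT.nd (nat_lit 78) (nat_lit 76) (nat_lit 0) (XT.lf (nat_lit 0) (nat_lit 113991668394) (nat_lit 76) (nat_lit 196942214138) (nat_lit 76) (nat_lit 12451032927) (nat_lit 24) (nat_lit 4) (nat_lit 25) (nat_lit 5) (nat_lit 25) (nat_lit 4) (nat_lit 456) (nat_lit 383) (nat_lit 181)) (XT.lf (nat_lit 0) (nat_lit 54543680189) (nat_lit 152) (nat_lit 72677097652) (nat_lit 76) (nat_lit 208538077384) (nat_lit 23) (nat_lit 5) (nat_lit 25) (nat_lit 5) (nat_lit 24) (nat_lit 4) (nat_lit 457) (nat_lit 383) (nat_lit 180))) (XT.nd (nat_lit 78) (nat_lit 0) (nat_lit 0) (XT.lf (nat_lit 0) (nat_lit 73006698239) (nat_lit 76) (nat_lit 52602462329) (nat_lit 152) (nat_lit 223075152279) (nat_lit 22) (nat_lit 5) (nat_lit 23) (nat_lit 5) (nat_lit 24) (nat_lit 4) (nat_lit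 458) (nat_lit 383) (nat_lit 179)) (XT.lf (nat_lit 0) (nat_lit 201880523576) (nat_lit 152) (nat_lit 134119507617) (nat_lit 0) (nat_lit 26173381755) (nat_lit 22) (nat_lit 5) (nat_lit 24) (nat_lit 4) (nat_lit 22) (nat_lit 4) (nat_lit 459) (nat_lit 383) (nat_lit 178))))))) (XT.nd (nat_lit 1014) (nat_lit 152) (nat_lit 0) (XT.nd (nat_lit 468) (nat_lit 304) (nat_lit 0) (XT.nd (nat_lit 234) (nat_lit 76) (nat_lit 0) (XT.nd (nat_lit 78) (nat_lit 76) (nat_lit 0) (XT.lf (nat_lit 0) (nat_lit 14104931966) (nat_lit 76) (nat_lit 268942723513) (nat_lit 76) (nat_lit 93235202566) (nat_lit 21) (nat_lit 4) (nat_lit 22) (nat_lit 5) (nat_lit 22) (nat_lit 4) (nat_lit 460) (nat_lit 383) (nat_lit 177)) (XT.nd (nat_lit 78) (nat_lit 76) (nat_lit 0) (XT.lf (nat_lit 0) (nat_lit 174396247785) (nat_lit 76) (nat_lit 196147929009) (nat_lit 76) (nat_lit 20440046989) (nat_lit 21) (nat_lit 4) (nat_lit 22) (nat_lit 5) (nat_lit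 22) (nat_lit 4) (nat_lit 461) (nat_lit 383) (nat_lit 176)) (XT.lf (nat_lit 0) (nat_lit 54202346053) (nat_lit 152) (nat_lit 64593416489) (nat_lit 76) (nat_lit 287581200195) (nat_lit 20) (nat_lit 5) (nat_lit 22) (nat_lit 5) (nat_lit 21) (nat_lit 4) (nat_lit 462) (nat_lit 383) (nat_lit 175)))) (XT.nd (nat_lit 78) (nat_lit 0) (nat_lit 0) (XT.lf (nat_lit 0) (nat_lit 97795225960) (nat_lit 76) (nat_lit 35621251777) (nat_lit 152) (nat_lit 289029779858) (nat_lit 19) (nat_lit 5) (nat_lit 20) (nat_lit 5) (nat_lit 21) (nat_lit 4) (nat_lit 463) (nat_lit 383) (nat_lit 174)) (XT.nd (nat_lit 78) (nat_lit 0) (nat_lit 0) (XT.lf (nat_lit 0) (nat_lit 218510220973) (nat_lit 152) (nat_lit 169544406507) (nat_lit 0) (nat_lit 51168444488) (nat_lit 19) (nat_lit 5) (nat_lit 21) (nat_lit 4) (nat_lit 19) (nat_lit 4) (nat_lit 464) (nat_lit 383) (nat_lit 173)) (XT.lf (nat_lit 0) (nat_lit 308442303534) (nat_lit 152) (nat_lit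 7266996800) (nat_lit 0) (nat_lit 141100244139) (nat_lit 19) (nat_lit 5) (nat_lit 21) (nat_lit 4) (nat_lit 19) (nat_lit 4) (nat_lit 465) (nat_lit 383) (nat_lit 172))))) (XT.nd (nat_lit 234) (nat_lit 76) (nat_lit 0) (XT.nd (nat_lit 78) (nat_lit 152) (nat_lit 0) (XT.lf (nat_lit 0) (nat_lit 168517326703) (nat_lit 76) (nat_lit 236984402892) (nat_lit 76) (nat_lit 69642074060) (nat_lit 18) (nat_lit 4) (nat_lit 19) (nat_lit 5) (nat_lit 19) (nat_lit 4) (nat_lit 466) (nat_lit 383) (nat_lit 171)) (XT.nd (nat_lit 78) (nat_lit 76) (nat_lit 0) (XT.lf (nat_lit 0) (nat_lit 12727450315) (nat_lit 152) (nat_lit 141251312292) (nat_lit 76) (nat_lit 340399609793) (nat_lit 17) (nat_lit 5) (nat_lit 19) (nat_lit 5) (nat_lit 18) (nat_lit 4) (nat_lit 467) (nat_lit 383) (nat_lit 170)) (XT.lf (nat_lit 0) (nat_lit 32283679469) (nat_lit 76) (nat_lit 65095105553) (nat_lit 152) (nat_lit 417113612688) (nat_lit 16) (nat_lit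 5) (nat_lit 17) (nat_lit 5) (nat_lit 18) (nat_lit 4) (nat_lit 468) (nat_lit 383) (nat_lit 169)))) (XT.nd (nat_lit 156) (nat_lit 76) (nat_lit 0) (XT.nd (nat_lit 78) (nat_lit 0) (nat_lit 0) (XT.lf (nat_lit 0) (nat_lit 189134580140) (nat_lit 152) (nat_lit 316573714649) (nat_lit 0) (nat_lit 29760234828) (nat_lit 16) (nat_lit 5) (nat_lit 18) (nat_lit 4) (nat_lit 16) (nat_lit 4) (nat_lit 469) (nat_lit 383) (nat_lit 168)) (XT.lf (nat_lit 0) (nat_lit 286545037436) (nat_lit 152) (nat_lit 143724606065) (nat_lit 0) (nat_lit 127170481012) (nat_lit 16) (nat_lit 5) (nat_lit 18) (nat_lit 4) (nat_lit 16) (nat_lit 4) (nat_lit 470) (nat_lit 383) (nat_lit 167))) (XT.nd (nat_lit 78) (nat_lit 0) (nat_lit 0) (XT.lf (nat_lit 0) (nat_lit 39015200091) (nat_lit 76) (nat_lit 350419706067) (nat_lit 76) (nat_lit 191044948585) (nat_lit 15) (nat_lit 4) (nat_lit 16) (nat_lit 5) (nat_lit 16) (nat_lit 4) (nat_lit 471) (nat_lit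 383) (nat_lit 166)) (XT.lf (nat_lit 0) (nat_lit 235881310294) (nat_lit 76) (nat_lit 264021760034) (nat_lit 76) (nat_lit 104646811067) (nat_lit 15) (nat_lit 4) (nat_lit 16) (nat_lit 5) (nat_lit 16) (nat_lit 4) (nat_lit 472) (nat_lit 383) (nat_lit 165)))))) (XT.nd (nat_lit 46332) (nat_lit 0) (nat_lit 8056) (XT.nd (nat_lit 234) (nat_lit 0) (nat_lit 0) (XT.nd (nat_lit 78) (nat_lit 152) (nat_lit 0) (XT.lf (nat_lit 0) (nat_lit 442590268823) (nat_lit 76) (nat_lit 173304141756) (nat_lit 76) (nat_lit 13929010423) (nat_lit 15) (nat_lit 4) (nat_lit 16) (nat_lit 5) (nat_lit 16) (nat_lit 4) (nat_lit 473) (nat_lit 383) (nat_lit 164)) (XT.nd (nat_lit 78) (nat_lit 0) (nat_lit 0) (XT.lf (nat_lit 0) (nat_lit 2070146271) (nat_lit 76) (nat_lit 76683732404) (nat_lit 152) (nat_lit 577541668812) (nat_lit 13) (nat_lit 5) (nat_lit 14) (nat_lit 5) (nat_lit 15) (nat_lit 4) (nat_lit 474) (nat_lit 383) (nat_lit 163))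 (XT.lf (nat_lit 0) (nat_lit 179212140875) (nat_lit 152) (nat_lit 477261276911) (nat_lit 0) (nat_lit 27425978565) (nat_lit 13) (nat_lit 5) (nat_lit 15) (nat_lit 4) (nat_lit 13) (nat_lit 4) (nat_lit 475) (nat_lit 383) (nat_lit 162)))) (XT.nd (nat_lit 45942) (nat_lit 0) (nat_lit 7980) (XT.nd (nat_lit 78) (nat_lit 0) (nat_lit 0) (XT.lf (nat_lit 0) (nat_lit 285950213058) (nat_lit 152) (nat_lit 292706479053) (nat_lit 0) (nat_lit 134163900714) (nat_lit 13) (nat_lit 5) (nat_lit 15) (nat_lit 4) (nat_lit 13) (nat_lit 4) (nat_lit 476) (nat_lit 383) (nat_lit 161)) (XT.lf (nat_lit 0) (nat_lit 398024985522) (nat_lit 152) (nat_lit 98924343488) (nat_lit 0) (nat_lit 246238530290) (nat_lit 13) (nat_lit 5) (nat_lit 15) (nat_lit 4) (nat_lit 13) (nat_lit 4) (nat_lit 477) (nat_lit 383) (nat_lit 160))) (XT.nd (nat_lit 78) (nat_lit 0) (nat_lit 0) (XT.lf (nat_lit 0) (nat_lit 4514213210) (nat_lit 836) (nat_lit 6452112764)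 (nat_lit 836) (nat_lit 6452112764) (nat_lit 118) (nat_lit 3) (nat_lit 129) (nat_lit 3) (nat_lit 129) (nat_lit 5) (nat_lit 384) (nat_lit 384) (nat_lit 252)) (XT.lf (nat_lit 76) (nat_lit 4154472148) (nat_lit 0) (nat_lit 5217237253) (nat_lit 836) (nat_lit 26330182568) (nat_lit 119) (nat_lit 5) (nat_lit 118) (nat_lit 3) (nat_lit 129) (nat_lit 5) (nat_lit 385) (nat_lit 384) (nat_lit 251))))) (XT.nd (nat_lit 234) (nat_lit 0) (nat_lit 76) (XT.nd (nat_lit 78) (nat_lit 0) (nat_lit 0) (XT.lf (nat_lit 0) (nat_lit 10143467837) (nat_lit 760) (nat_lit 14283297469) (nat_lit 836) (nat_lit 12162828159) (nat_lit 119) (nat_lit 5) (nat_lit 129) (nat_lit 5) (nat_lit 130) (nat_lit 5) (nat_lit 386) (nat_lit 384) (nat_lit 250)) (XT.nd (nat_lit 78) (nat_lit 0) (nat_lit 76) (XT.lf (nat_lit 76) (nat_lit 3880780868) (nat_lit 0) (nat_lit 7215934429) (nat_lit 836) (nat_lit 26417821441) (nat_lit 120) (nat_lit 5) (nat_lit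 119) (nat_lit 5) (nat_lit 130) (nat_lit 5) (nat_lit 387) (nat_lit 384) (nat_lit 249)) (XT.lf (nat_lit 0) (nat_lit 12509893920) (nat_lit 760) (nat_lit 15200209517) (nat_lit 836) (nat_lit 10755011972) (nat_lit 120) (nat_lit 5) (nat_lit 130) (nat_lit 5) (nat_lit 131) (nat_lit 5) (nat_lit 388) (nat_lit 384) (nat_lit 248)))) (XT.nd (nat_lit 156) (nat_lit 0) (nat_lit 76) (XT.nd (nat_lit 78) (nat_lit 0) (nat_lit 76) (XT.lf (nat_lit 76) (nat_lit 4168151075) (nat_lit 0) (nat_lit 10006022298) (nat_lit 836) (nat_lit 25280029141) (nat_lit 121) (nat_lit 5) (nat_lit 120) (nat_lit 5) (nat_lit 131) (nat_lit 5) (nat_lit 389) (nat_lit 384) (nat_lit 247)) (XT.lf (nat_lit 0) (nat_lit 16314512685) (nat_lit 760) (nat_lit 15587555245) (nat_lit 836) (nat_lit 8571035268) (nat_lit 121) (nat_lit 5) (nat_lit 131) (nat_lit 5) (nat_lit 132) (nat_lit 5) (nat_lit 390) (nat_lit 384) (nat_lit 246))) (XT.nd (nat_lit 78) (nat_lit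 0) (nat_lit 76) (XT.lf (nat_lit 76) (nat_lit 5092834910) (nat_lit 0) (nat_lit 13709908388) (nat_lit 836) (nat_lit 22728163345) (nat_lit 122) (nat_lit 5) (nat_lit 121) (nat_lit 5) (nat_lit 132) (nat_lit 5) (nat_lit 391) (nat_lit 384) (nat_lit 245)) (XT.lf (nat_lit 0) (nat_lit 21765311625) (nat_lit 760) (nat_lit 15370609056) (nat_lit 836) (nat_lit 5488184650) (nat_lit 122) (nat_lit 5) (nat_lit 132) (nat_lit 5) (nat_lit 133) (nat_lit 5) (nat_lit 392) (nat_lit 384) (nat_lit 244))))))))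
noncomputable def xc194 : XT := (XT.nd (nat_lit 2106) (nat_lit 2356) (nat_lit 0) (XT.nd (nat_lit 1014) (nat_lit 2052) (nat_lit 0) (XT.nd (nat_lit 468) (nat_lit 1368) (nat_lit 0) (XT.nd (nat_lit 234) (nat_lit 456) (nat_lit 0) (XT.nd (nat_lit 78) (nat_lit 684) (nat_lit 0) (XT.lf (nat_lit 76) (nat_lit 6739162189) (nat_lit 0) (nat_lit 18464371956) (nat_lit 836) (nat_lit 18552054831) (nat_lit 123) (nat_lit 5) (nat_lit 122) (nat_lit 5) (nat_lit 133) (nat_lit 5) (nat_lit 393) (nat_lit 384) (nat_lit 243)) (XT.nd (nat_lit 78) (nat_lit 760) (nat_lit 0) (XT.lf (nat_lit 0) (nat_lit 29093701730) (nat_lit 760) (nat_lit 14466754290) (nat_lit 76) (nat_lit 1369190333) (nat_lit 123) (nat_lit 5) (nat_lit 133) (nat_lit 5) (nat_lit 124) (nat_lit 5) (nat_lit 394) (nat_lit 384) (nat_lit 242)) (XT.lf (nat_lit 0) (nat_lit 9200170074) (nat_lit 760) (nat_lit 24422302215) (nat_lit 836) (nat_lit 12517730771) (nat_lit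 113) (nat_lit 5) (nat_lit 123) (nat_lit 5) (nat_lit 124) (nat_lit 5) (nat_lit 395) (nat_lit 384) (nat_lit 241)))) (XT.nd (nat_lit 78) (nat_lit 456) (nat_lit 0) (XT.lf (nat_lit 0) (nat_lit 34550725927) (nat_lit 760) (nat_lit 4069792435) (nat_lit 836) (nat_lit 8778628524) (nat_lit 113) (nat_lit 5) (nat_lit 123) (nat_lit 5) (nat_lit 124) (nat_lit 5) (nat_lit 396) (nat_lit 384) (nat_lit 240)) (XT.nd (nat_lit 78) (nat_lit 76) (nat_lit 0) (XT.lf (nat_lit 0) (nat_lit 12578266776) (nat_lit 380) (nat_lit 31754630292) (nat_lit 456) (nat_lit 4364920399) (nat_lit 108) (nat_lit 5) (nat_lit 113) (nat_lit 5) (nat_lit 114) (nat_lit 5) (nat_lit 397) (nat_lit 384) (nat_lit 239)) (XT.lf (nat_lit 0) (nat_lit 546703018) (nat_lit 456) (nat_lit 10404694171) (nat_lit 76) (nat_lit 39095522269) (nat_lit 107) (nat_lit 5) (nat_lit 113) (nat_lit 5) (nat_lit 108) (nat_lit 5) (nat_lit 398) (nat_lit 384) (nat_lit 238)))))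 (XT.nd (nat_lit 234) (nat_lit 608) (nat_lit 0) (XT.nd (nat_lit 78) (nat_lit 380) (nat_lit 0) (XT.lf (nat_lit 0) (nat_lit 5997376766) (nat_lit 456) (nat_lit 34553533881) (nat_lit 76) (nat_lit 10886981074) (nat_lit 102) (nat_lit 5) (nat_lit 108) (nat_lit 5) (nat_lit 103) (nat_lit 5) (nat_lit 399) (nat_lit 384) (nat_lit 237)) (XT.nd (nat_lit 78) (nat_lit 380) (nat_lit 0) (XT.lf (nat_lit 0) (nat_lit 12077346290) (nat_lit 456) (nat_lit 7174915869) (nat_lit 76) (nat_lit 33628313222) (nat_lit 102) (nat_lit 5) (nat_lit 108) (nat_lit 5) (nat_lit 103) (nat_lit 5) (nat_lit 400) (nat_lit 384) (nat_lit 236)) (XT.lf (nat_lit 0) (nat_lit 18861730352) (nat_lit 456) (nat_lit 32148395520) (nat_lit 76) (nat_lit 3365247394) (nat_lit 97) (nat_lit 5) (nat_lit 103) (nat_lit 5) (nat_lit 98) (nat_lit 5) (nat_lit 401) (nat_lit 384) (nat_lit 235)))) (XT.nd (nat_lit 156) (nat_lit 304) (nat_lit 0) (XT.nd (nat_lit 78)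 (nat_lit 304) (nat_lit 0) (XT.lf (nat_lit 0) (nat_lit 26422723251) (nat_lit 456) (nat_lit 2910319103) (nat_lit 76) (nat_lit 26590000014) (nat_lit 97) (nat_lit 5) (nat_lit 103) (nat_lit 5) (nat_lit 98) (nat_lit 5) (nat_lit 402) (nat_lit 384) (nat_lit 234)) (XT.lf (nat_lit 0) (nat_lit 28706600504) (nat_lit 304) (nat_lit 6101713994) (nat_lit 380) (nat_lit 22717453761) (nat_lit 93) (nat_lit 5) (nat_lit 97) (nat_lit 5) (nat_lit 98) (nat_lit 5) (nat_lit 403) (nat_lit 384) (nat_lit 233))) (XT.nd (nat_lit 78) (nat_lit 0) (nat_lit 0) (XT.lf (nat_lit 0) (nat_lit 2593980714) (nat_lit 304) (nat_lit 41393780534) (nat_lit 380) (nat_lit 15202141127) (nat_lit 89) (nat_lit 5) (nat_lit 93) (nat_lit 5) (nat_lit 94) (nat_lit 5) (nat_lit 404) (nat_lit 384) (nat_lit 232)) (XT.lf (nat_lit 0) (nat_lit 36473120153) (nat_lit 304) (nat_lit 17737992687) (nat_lit 380) (nat_lit 6696884429) (nat_lit 89) (nat_lit 5) (nat_lit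 93) (nat_lit 5) (nat_lit 94) (nat_lit 5) (nat_lit 405) (nat_lit 384) (nat_lit 231)))))) (XT.nd (nat_lit 546) (nat_lit 912) (nat_lit 0) (XT.nd (nat_lit 234) (nat_lit 532) (nat_lit 0) (XT.nd (nat_lit 78) (nat_lit 304) (nat_lit 0) (XT.lf (nat_lit 0) (nat_lit 2424489876) (nat_lit 304) (nat_lit 53211780245) (nat_lit 76) (nat_lit 7060866501) (nat_lit 85) (nat_lit 5) (nat_lit 89) (nat_lit 5) (nat_lit 86) (nat_lit 5) (nat_lit 406) (nat_lit 384) (nat_lit 230)) (XT.nd (nat_lit 78) (nat_lit 304) (nat_lit 0) (XT.lf (nat_lit 0) (nat_lit 12486798896) (nat_lit 304) (nat_lit 19014339732) (nat_lit 76) (nat_lit 33033609402) (nat_lit 85) (nat_lit 5) (nat_lit 89) (nat_lit 5) (nat_lit 86) (nat_lit 5) (nat_lit 407) (nat_lit 384) (nat_lit 229)) (XT.lf (nat_lit 0) (nat_lit 17449693609) (nat_lit 304) (nat_lit 5873576113) (nat_lit 380) (nat_lit 43127418542) (nat_lit 81) (nat_lit 5) (nat_lit 85) (nat_lit 5) (nat_lit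 86) (nat_lit 5) (nat_lit 408) (nat_lit 384) (nat_lit 228)))) (XT.nd (nat_lit 156) (nat_lit 304) (nat_lit 0) (XT.nd (nat_lit 78) (nat_lit 228) (nat_lit 0) (XT.lf (nat_lit 0) (nat_lit 35355921620) (nat_lit 380) (nat_lit 12384772766) (nat_lit 76) (nat_lit 20689013792) (nat_lit 81) (nat_lit 5) (nat_lit 86) (nat_lit 5) (nat_lit 82) (nat_lit 5) (nat_lit 409) (nat_lit 384) (nat_lit 227)) (XT.lf (nat_lit 0) (nat_lit 26822741903) (nat_lit 228) (nat_lit 21681235777) (nat_lit 304) (nat_lit 21978013349) (nat_lit 78) (nat_lit 5) (nat_lit 81) (nat_lit 5) (nat_lit 82) (nat_lit 5) (nat_lit 410) (nat_lit 384) (nat_lit 226))) (XT.nd (nat_lit 78) (nat_lit 304) (nat_lit 0) (XT.lf (nat_lit 0) (nat_lit 62610050020) (nat_lit 304) (nat_lit 4299689286) (nat_lit 76) (nat_lit 5712118536) (nat_lit 78) (nat_lit 5) (nat_lit 82) (nat_lit 5) (nat_lit 79) (nat_lit 5) (nat_lit 411) (nat_lit 384) (nat_lit 225)) (XT.lf (nat_lit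 0) (nat_lit 3432195650) (nat_lit 304) (nat_lit 36993543803) (nat_lit 76) (nat_lit 34392926732) (nat_lit 74) (nat_lit 5) (nat_lit 78) (nat_lit 5) (nat_lit 75) (nat_lit 5) (nat_lit 412) (nat_lit 384) (nat_lit 224))))) (XT.nd (nat_lit 234) (nat_lit 456) (nat_lit 0) (XT.nd (nat_lit 78) (nat_lit 228) (nat_lit 0) (XT.lf (nat_lit 0) (nat_lit 5079341314) (nat_lit 228) (nat_lit 12284715352) (nat_lit 304) (nat_lit 59745446318) (nat_lit 71) (nat_lit 5) (nat_lit 74) (nat_lit 5) (nat_lit 75) (nat_lit 5) (nat_lit 413) (nat_lit 384) (nat_lit 223)) (XT.nd (nat_lit 78) (nat_lit 228) (nat_lit 0) (XT.lf (nat_lit 0) (nat_lit 32897643536) (nat_lit 304) (nat_lit 29224860792) (nat_lit 76) (nat_lit 17347121062) (nat_lit 71) (nat_lit 5) (nat_lit 75) (nat_lit 5) (nat_lit 72) (nat_lit 5) (nat_lit 414) (nat_lit 384) (nat_lit 222)) (XT.lf (nat_lit 0) (nat_lit 16030775215) (nat_lit 228) (nat_lit 33627693643) (nat_lit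 304) (nat_lit 32266757490) (nat_lit 68) (nat_lit 5) (nat_lit 71) (nat_lit 5) (nat_lit 72) (nat_lit 5) (nat_lit 415) (nat_lit 384) (nat_lit 221)))) (XT.nd (nat_lit 156) (nat_lit 228) (nat_lit 0) (XT.nd (nat_lit 78) (nat_lit 228) (nat_lit 0) (XT.lf (nat_lit 0) (nat_lit 64562214366) (nat_lit 228) (nat_lit 3188971362) (nat_lit 304) (nat_lit 16727729479) (nat_lit 68) (nat_lit 5) (nat_lit 71) (nat_lit 5) (nat_lit 72) (nat_lit 5) (nat_lit 416) (nat_lit 384) (nat_lit 220)) (XT.lf (nat_lit 0) (nat_lit 514466282) (nat_lit 228) (nat_lit 58291706013) (nat_lit 76) (nat_lit 28308786090) (nat_lit 65) (nat_lit 5) (nat_lit 68) (nat_lit 5) (nat_lit 66) (nat_lit 5) (nat_lit 417) (nat_lit 384) (nat_lit 219))) (XT.nd (nat_lit 78) (nat_lit 228) (nat_lit 0) (XT.lf (nat_lit 0) (nat_lit 18450682928) (nat_lit 228) (nat_lit 9507882780) (nat_lit 76) (nat_lit 61890823454) (nat_lit 65) (nat_lit 5) (nat_lit 68) (nat_lit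 5) (nat_lit 66) (nat_lit 5) (nat_lit 418) (nat_lit 384) (nat_lit 218)) (XT.lf (nat_lit 0) (nat_lit 38035734290) (nat_lit 304) (nat_lit 49674289001) (nat_lit 76) (nat_lit 4972917295) (nat_lit 62) (nat_lit 5) (nat_lit 66) (nat_lit 5) (nat_lit 63) (nat_lit 5) (nat_lit 419) (nat_lit 384) (nat_lit 217))))))) (XT.nd (nat_lit 1014) (nat_lit 1140) (nat_lit 0) (XT.nd (nat_lit 468) (nat_lit 684) (nat_lit 0) (XT.nd (nat_lit 234) (nat_lit 152) (nat_lit 0) (XT.nd (nat_lit 78) (nat_lit 228) (nat_lit 0) (XT.lf (nat_lit 0) (nat_lit 2446804246) (nat_lit 152) (nat_lit 56812463687) (nat_lit 228) (nat_lit 36365940452) (nat_lit 60) (nat_lit 5) (nat_lit 62) (nat_lit 5) (nat_lit 63) (nat_lit 5) (nat_lit 420) (nat_lit 384) (nat_lit 216)) (XT.nd (nat_lit 78) (nat_lit 228) (nat_lit 0) (XT.lf (nat_lit 0) (nat_lit 58897037508) (nat_lit 152) (nat_lit 23487252523) (nat_lit 228) (nat_lit 16288284230) (nat_lit 60) (nat_lit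 5) (nat_lit 62) (nat_lit 5) (nat_lit 63) (nat_lit 5) (nat_lit 421) (nat_lit 384) (nat_lit 215)) (XT.lf (nat_lit 0) (nat_lit 5085677001) (nat_lit 228) (nat_lit 85283121407) (nat_lit 76) (nat_lit 11477476651) (nat_lit 57) (nat_lit 5) (nat_lit 60) (nat_lit 5) (nat_lit 58) (nat_lit 5) (nat_lit 422) (nat_lit 384) (nat_lit 214)))) (XT.nd (nat_lit 78) (nat_lit 152) (nat_lit 0) (XT.lf (nat_lit 0) (nat_lit 28049737591) (nat_lit 228) (nat_lit 28709851905) (nat_lit 76) (nat_lit 48352280864) (nat_lit 57) (nat_lit 5) (nat_lit 60) (nat_lit 5) (nat_lit 58) (nat_lit 5) (nat_lit 423) (nat_lit 384) (nat_lit 213)) (XT.nd (nat_lit 78) (nat_lit 0) (nat_lit 0) (XT.lf (nat_lit 0) (nat_lit 31705457124) (nat_lit 152) (nat_lit 20950694790) (nat_lit 228) (nat_lit 55859886201) (nat_lit 55) (nat_lit 5) (nat_lit 57) (nat_lit 5) (nat_lit 58) (nat_lit 5) (nat_lit 424) (nat_lit 384) (nat_lit 212)) (XT.lf (nat_lit 0) (nat_lit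 79246155787) (nat_lit 228) (nat_lit 16197141392) (nat_lit 76) (nat_lit 16609453855) (nat_lit 55) (nat_lit 5) (nat_lit 58) (nat_lit 5) (nat_lit 56) (nat_lit 5) (nat_lit 425) (nat_lit 384) (nat_lit 211))))) (XT.nd (nat_lit 234) (nat_lit 304) (nat_lit 0) (XT.nd (nat_lit 78) (nat_lit 228) (nat_lit 0) (XT.lf (nat_lit 0) (nat_lit 48659585869) (nat_lit 152) (nat_lit 59608431791) (nat_lit 228) (nat_lit 7443164253) (nat_lit 53) (nat_lit 5) (nat_lit 55) (nat_lit 5) (nat_lit 56) (nat_lit 5) (nat_lit 426) (nat_lit 384) (nat_lit 210)) (XT.nd (nat_lit 78) (nat_lit 152) (nat_lit 0) (XT.lf (nat_lit 0) (nat_lit 18852287733) (nat_lit 228) (nat_lit 2522769550) (nat_lit 76) (nat_lit 98148598010) (nat_lit 52) (nat_lit 5) (nat_lit 55) (nat_lit 5) (nat_lit 53) (nat_lit 5) (nat_lit 427) (nat_lit 384) (nat_lit 209)) (XT.lf (nat_lit 0) (nat_lit 47574015750) (nat_lit 228) (nat_lit 56518441009) (nat_lit 76) (nat_lit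 19360112677) (nat_lit 50) (nat_lit 5) (nat_lit 53) (nat_lit 5) (nat_lit 51) (nat_lit 5) (nat_lit 428) (nat_lit 384) (nat_lit 208)))) (XT.nd (nat_lit 156) (nat_lit 152) (nat_lit 0) (XT.nd (nat_lit 78) (nat_lit 0) (nat_lit 0) (XT.lf (nat_lit 0) (nat_lit 12420804312) (nat_lit 152) (nat_lit 65898028018) (nat_lit 228) (nat_lit 49229747019) (nat_lit 48) (nat_lit 5) (nat_lit 50) (nat_lit 5) (nat_lit 51) (nat_lit 5) (nat_lit 429) (nat_lit 384) (nat_lit 207)) (XT.lf (nat_lit 0) (nat_lit 86767934453) (nat_lit 152) (nat_lit 24789381745) (nat_lit 228) (nat_lit 20244252395) (nat_lit 48) (nat_lit 5) (nat_lit 50) (nat_lit 5) (nat_lit 51) (nat_lit 5) (nat_lit 430) (nat_lit 384) (nat_lit 206))) (XT.nd (nat_lit 78) (nat_lit 0) (nat_lit 0) (XT.lf (nat_lit 0) (nat_lit 10618774070) (nat_lit 152) (nat_lit 107189300913) (nat_lit 76) (nat_lit 18413456472) (nat_lit 46) (nat_lit 5) (nat_lit 48) (nat_lit 5) (nat_lit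 47) (nat_lit 5) (nat_lit 431) (nat_lit 384) (nat_lit 205)) (XT.lf (nat_lit 0) (nat_lit 43525454735) (nat_lit 152) (nat_lit 33211504441) (nat_lit 76) (nat_lit 64049897649) (nat_lit 46) (nat_lit 5) (nat_lit 48) (nat_lit 5) (nat_lit 47) (nat_lit 5) (nat_lit 432) (nat_lit 384) (nat_lit 204)))))) (XT.nd (nat_lit 546) (nat_lit 608) (nat_lit 0) (XT.nd (nat_lit 234) (nat_lit 228) (nat_lit 0) (XT.nd (nat_lit 78) (nat_lit 152) (nat_lit 0) (XT.lf (nat_lit 0) (nat_lit 45934180764) (nat_lit 152) (nat_lit 32859773851) (nat_lit 228) (nat_lit 66750669721) (nat_lit 44) (nat_lit 5) (nat_lit 46) (nat_lit 5) (nat_lit 47) (nat_lit 5) (nat_lit 433) (nat_lit 384) (nat_lit 203)) (XT.nd (nat_lit 78) (nat_lit 152) (nat_lit 0) (XT.lf (nat_lit 0) (nat_lit 116603148007) (nat_lit 228) (nat_lit 20538652499) (nat_lit 76) (nat_lit 13359616418) (nat_lit 44) (nat_lit 5) (nat_lit 47) (nat_lit 5) (nat_lit 45) (nat_lit 4) (nat_lit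 434) (nat_lit 384) (nat_lit 202)) (XT.lf (nat_lit 0) (nat_lit 2140042439) (nat_lit 152) (nat_lit 91668550086) (nat_lit 76) (nat_lit 61818871366) (nat_lit 42) (nat_lit 5) (nat_lit 44) (nat_lit 5) (nat_lit 43) (nat_lit 5) (nat_lit 435) (nat_lit 384) (nat_lit 201)))) (XT.nd (nat_lit 156) (nat_lit 76) (nat_lit 0) (XT.nd (nat_lit 78) (nat_lit 152) (nat_lit 0) (XT.lf (nat_lit 0) (nat_lit 39193964087) (nat_lit 152) (nat_lit 8160553415) (nat_lit 76) (nat_lit 113609865405) (nat_lit 42) (nat_lit 5) (nat_lit 44) (nat_lit 5) (nat_lit 43) (nat_lit 5) (nat_lit 436) (nat_lit 384) (nat_lit 200)) (XT.lf (nat_lit 0) (nat_lit 79425810249) (nat_lit 228) (nat_lit 84396160890) (nat_lit 76) (nat_lit 2679915417) (nat_lit 40) (nat_lit 5) (nat_lit 43) (nat_lit 5) (nat_lit 41) (nat_lit 4) (nat_lit 437) (nat_lit 384) (nat_lit 199))) (XT.nd (nat_lit 78) (nat_lit 0) (nat_lit 0) (XT.lf (nat_lit 0) (nat_lit 4214515744)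 (nat_lit 76) (nat_lit 118436705278) (nat_lit 152) (nat_lit 49615945850) (nat_lit 39) (nat_lit 5) (nat_lit 40) (nat_lit 5) (nat_lit 41) (nat_lit 4) (nat_lit 438) (nat_lit 384) (nat_lit 198)) (XT.lf (nat_lit 0) (nat_lit 100184702509) (nat_lit 76) (nat_lit 69281901348) (nat_lit 152) (nat_lit 8782672364) (nat_lit 39) (nat_lit 5) (nat_lit 40) (nat_lit 5) (nat_lit 41) (nat_lit 4) (nat_lit 439) (nat_lit 384) (nat_lit 197))))) (XT.nd (nat_lit 234) (nat_lit 304) (nat_lit 0) (XT.nd (nat_lit 78) (nat_lit 76) (nat_lit 0) (XT.lf (nat_lit 0) (nat_lit 16414977673) (nat_lit 152) (nat_lit 16841835988) (nat_lit 228) (nat_lit 151234277959) (nat_lit 36) (nat_lit 5) (nat_lit 38) (nat_lit 5) (nat_lit 39) (nat_lit 5) (nat_lit 440) (nat_lit 384) (nat_lit 196)) (XT.nd (nat_lit 78) (nat_lit 76) (nat_lit 0) (XT.lf (nat_lit 0) (nat_lit 79043012475) (nat_lit 228) (nat_lit 73413578686) (nat_lit 76) (nat_lit 38484213105)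 (nat_lit 36) (nat_lit 5) (nat_lit 39) (nat_lit 5) (nat_lit 37) (nat_lit 4) (nat_lit 441) (nat_lit 384) (nat_lit 195)) (XT.lf (nat_lit 0) (nat_lit 26554920486) (nat_lit 76) (nat_lit 101253754532) (nat_lit 152) (nat_lit 69869819913) (nat_lit 35) (nat_lit 5) (nat_lit 36) (nat_lit 5) (nat_lit 37) (nat_lit 4) (nat_lit 442) (nat_lit 384) (nat_lit 194)))) (XT.nd (nat_lit 156) (nat_lit 76) (nat_lit 0) (XT.nd (nat_lit 78) (nat_lit 228) (nat_lit 0) (XT.lf (nat_lit 0) (nat_lit 134069623797) (nat_lit 76) (nat_lit 46185763193) (nat_lit 152) (nat_lit 24435544900) (nat_lit 35) (nat_lit 5) (nat_lit 36) (nat_lit 5) (nat_lit 37) (nat_lit 4) (nat_lit 443) (nat_lit 384) (nat_lit 193)) (XT.lf (nat_lit 0) (nat_lit 23279006168) (nat_lit 228) (nat_lit 176520823514) (nat_lit 76) (nat_lit 12198327146) (nat_lit 32) (nat_lit 5) (nat_lit 35) (nat_lit 5) (nat_lit 33) (nat_lit 4) (nat_lit 444) (nat_lit 384) (nat_lit 192)))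 (XT.nd (nat_lit 78) (nat_lit 76) (nat_lit 0) (XT.lf (nat_lit 0) (nat_lit 74530338392) (nat_lit 228) (nat_lit 71456504867) (nat_lit 76) (nat_lit 73565258276) (nat_lit 32) (nat_lit 5) (nat_lit 35) (nat_lit 5) (nat_lit 33) (nat_lit 4) (nat_lit 445) (nat_lit 384) (nat_lit 191)) (XT.lf (nat_lit 0) (nat_lit 40145017873) (nat_lit 76) (nat_lit 88825511594) (nat_lit 152) (nat_lit 98481899459) (nat_lit 31) (nat_lit 5) (nat_lit 32) (nat_lit 5) (nat_lit 33) (nat_lit 4) (nat_lit 446) (nat_lit 384) (nat_lit 190))))))))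
noncomputable def xc195 : XT := (XT.nd (nat_lit 2106) (nat_lit 152) (nat_lit 0) (XT.nd (nat_lit 1014) (nat_lit 532) (nat_lit 0) (XT.nd (nat_lit 468) (nat_lit 380) (nat_lit 0) (XT.nd (nat_lit 234) (nat_lit 152) (nat_lit 0) (XT.nd (nat_lit 78) (nat_lit 152) (nat_lit 0) (XT.lf (nat_lit 0) (nat_lit 159806536691) (nat_lit 76) (nat_lit 27535869069) (nat_lit 152) (nat_lit 48344883200) (nat_lit 31) (nat_lit 5) (nat_lit 32) (nat_lit 5) (nat_lit 33) (nat_lit 4) (nat_lit 447) (nat_lit 384) (nat_lit 189)) (XT.nd (nat_lit 78) (nat_lit 0) (nat_lit 0) (XT.lf (nat_lit 0) (nat_lit 5409798724) (nat_lit 152) (nat_lit 202477706227) (nat_lit 76) (nat_lit 36380610679) (nat_lit 29) (nat_lit 5) (nat_lit 31) (nat_lit 5) (nat_lit 30) (nat_lit 4) (nat_lit 448) (nat_lit 384) (nat_lit 188)) (XT.lf (nat_lit 0) (nat_lit 61984604229) (nat_lit 152) (nat_lit 86500069842) (nat_lit 76) (nat_lit 104665827932) (nat_lit 29) (nat_lit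 5) (nat_lit 31) (nat_lit 5) (nat_lit 30) (nat_lit 4) (nat_lit 449) (nat_lit 384) (nat_lit 187)))) (XT.nd (nat_lit 78) (nat_lit 76) (nat_lit 0) (XT.lf (nat_lit 0) (nat_lit 36441996984) (nat_lit 76) (nat_lit 85514679284) (nat_lit 152) (nat_lit 140491905159) (nat_lit 28) (nat_lit 5) (nat_lit 29) (nat_lit 5) (nat_lit 30) (nat_lit 4) (nat_lit 450) (nat_lit 384) (nat_lit 186)) (XT.nd (nat_lit 78) (nat_lit 76) (nat_lit 0) (XT.lf (nat_lit 0) (nat_lit 168533444662) (nat_lit 76) (nat_lit 17858400442) (nat_lit 152) (nat_lit 85746495105) (nat_lit 28) (nat_lit 5) (nat_lit 29) (nat_lit 5) (nat_lit 30) (nat_lit 4) (nat_lit 451) (nat_lit 384) (nat_lit 185)) (XT.lf (nat_lit 0) (nat_lit 24882177467) (nat_lit 76) (nat_lit 230384962403) (nat_lit 76) (nat_lit 26984528728) (nat_lit 27) (nat_lit 4) (nat_lit 28) (nat_lit 5) (nat_lit 28) (nat_lit 4) (nat_lit 452) (nat_lit 384) (nat_lit 184))))) (XT.nd (nat_lit 234)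 (nat_lit 228) (nat_lit 0) (XT.nd (nat_lit 78) (nat_lit 76) (nat_lit 0) (XT.lf (nat_lit 0) (nat_lit 35680133853) (nat_lit 152) (nat_lit 130256719416) (nat_lit 76) (nat_lit 126802924245) (nat_lit 26) (nat_lit 5) (nat_lit 28) (nat_lit 5) (nat_lit 27) (nat_lit 4) (nat_lit 453) (nat_lit 384) (nat_lit 183)) (XT.nd (nat_lit 78) (nat_lit 0) (nat_lit 0) (XT.lf (nat_lit 0) (nat_lit 2860113798) (nat_lit 76) (nat_lit 97755320876) (nat_lit 152) (nat_lit 203112525662) (nat_lit 25) (nat_lit 5) (nat_lit 26) (nat_lit 5) (nat_lit 27) (nat_lit 4) (nat_lit 454) (nat_lit 384) (nat_lit 182)) (XT.lf (nat_lit 0) (nat_lit 147154270660) (nat_lit 76) (nat_lit 23848805442) (nat_lit 152) (nat_lit 144152197454) (nat_lit 25) (nat_lit 5) (nat_lit 26) (nat_lit 5) (nat_lit 27) (nat_lit 4) (nat_lit 455) (nat_lit 384) (nat_lit 181)))) (XT.nd (nat_lit 156) (nat_lit 152) (nat_lit 0) (XT.nd (nat_lit 78) (nat_lit 76) (nat_lit 0)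 (XT.lf (nat_lit 0) (nat_lit 245748963224) (nat_lit 152) (nat_lit 29330767812) (nat_lit 0) (nat_lit 52032278252) (nat_lit 25) (nat_lit 5) (nat_lit 27) (nat_lit 4) (nat_lit 25) (nat_lit 4) (nat_lit 456) (nat_lit 384) (nat_lit 180)) (XT.lf (nat_lit 0) (nat_lit 119712894081) (nat_lit 76) (nat_lit 206778914218) (nat_lit 76) (nat_lit 13061790360) (nat_lit 24) (nat_lit 4) (nat_lit 25) (nat_lit 5) (nat_lit 25) (nat_lit 4) (nat_lit 457) (nat_lit 384) (nat_lit 179))) (XT.nd (nat_lit 78) (nat_lit 76) (nat_lit 0) (XT.lf (nat_lit 0) (nat_lit 57281737269) (nat_lit 152) (nat_lit 76289980440) (nat_lit 76) (nat_lit 218974535725) (nat_lit 23) (nat_lit 5) (nat_lit 25) (nat_lit 5) (nat_lit 24) (nat_lit 4) (nat_lit 458) (nat_lit 384) (nat_lit 178)) (XT.lf (nat_lit 0) (nat_lit 76677666985) (nat_lit 76) (nat_lit 55222629069) (nat_lit 152) (nat_lit 234217697707) (nat_lit 22) (nat_lit 5) (nat_lit 23) (nat_lit 5)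 (nat_lit 24) (nat_lit 4) (nat_lit 459) (nat_lit 384) (nat_lit 177)))))) (XT.nd (nat_lit 546) (nat_lit 304) (nat_lit 0) (XT.nd (nat_lit 234) (nat_lit 152) (nat_lit 0) (XT.nd (nat_lit 78) (nat_lit 76) (nat_lit 0) (XT.lf (nat_lit 0) (nat_lit 211984866807) (nat_lit 152) (nat_lit 140805470508) (nat_lit 0) (nat_lit 27491229614) (nat_lit 22) (nat_lit 5) (nat_lit 24) (nat_lit 4) (nat_lit 22) (nat_lit 4) (nat_lit 460) (nat_lit 384) (nat_lit 176)) (XT.nd (nat_lit 78) (nat_lit 0) (nat_lit 0) (XT.lf (nat_lit 0) (nat_lit 14829868272) (nat_lit 76) (nat_lit 282380303156) (nat_lit 76) (nat_lit 97886322085) (nat_lit 21) (nat_lit 4) (nat_lit 22) (nat_lit 5) (nat_lit 22) (nat_lit 4) (nat_lit 461) (nat_lit 384) (nat_lit 175)) (XT.lf (nat_lit 0) (nat_lit 183134812277) (nat_lit 76) (nat_lit 205946223999) (nat_lit 76) (nat_lit 21451915425) (nat_lit 21) (nat_lit 4) (nat_lit 22) (nat_lit 5) (nat_lit 22) (nat_lit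 4) (nat_lit 462) (nat_lit 384) (nat_lit 174)))) (XT.nd (nat_lit 156) (nat_lit 0) (nat_lit 0) (XT.nd (nat_lit 78) (nat_lit 76) (nat_lit 0) (XT.lf (nat_lit 0) (nat_lit 56921805798) (nat_lit 152) (nat_lit 67804918594) (nat_lit 76) (nat_lit 301968618689) (nat_lit 20) (nat_lit 5) (nat_lit 22) (nat_lit 5) (nat_lit 21) (nat_lit 4) (nat_lit 463) (nat_lit 384) (nat_lit 173)) (XT.lf (nat_lit 0) (nat_lit 102702862933) (nat_lit 76) (nat_lit 37393615345) (nat_lit 152) (nat_lit 303471632726) (nat_lit 19) (nat_lit 5) (nat_lit 20) (nat_lit 5) (nat_lit 21) (nat_lit 4) (nat_lit 464) (nat_lit 384) (nat_lit 172))) (XT.nd (nat_lit 78) (nat_lit 0) (nat_lit 0) (XT.lf (nat_lit 0) (nat_lit 229444601041) (nat_lit 152) (nat_lit 178004294138) (nat_lit 0) (nat_lit 53734886329) (nat_lit 19) (nat_lit 5) (nat_lit 21) (nat_lit 4) (nat_lit 19) (nat_lit 4) (nat_lit 465) (nat_lit 384) (nat_lit 171)) (XT.lf (nat_lit 0) (nat_lit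 323872865395) (nat_lit 152) (nat_lit 7613839312) (nat_lit 0) (nat_lit 148162894077) (nat_lit 19) (nat_lit 5) (nat_lit 21) (nat_lit 4) (nat_lit 19) (nat_lit 4) (nat_lit 466) (nat_lit 384) (nat_lit 170))))) (XT.nd (nat_lit 234) (nat_lit 76) (nat_lit 0) (XT.nd (nat_lit 78) (nat_lit 152) (nat_lit 0) (XT.lf (nat_lit 0) (nat_lit 176959434119) (nat_lit 76) (nat_lit 248825679986) (nat_lit 76) (nat_lit 73115464280) (nat_lit 18) (nat_lit 4) (nat_lit 19) (nat_lit 5) (nat_lit 19) (nat_lit 4) (nat_lit 467) (nat_lit 384) (nat_lit 169)) (XT.nd (nat_lit 78) (nat_lit 76) (nat_lit 0) (XT.lf (nat_lit 0) (nat_lit 13371855781) (nat_lit 152) (nat_lit 148298144105) (nat_lit 76) (nat_lit 357426888988) (nat_lit 17) (nat_lit 5) (nat_lit 19) (nat_lit 5) (nat_lit 18) (nat_lit 4) (nat_lit 468) (nat_lit 384) (nat_lit 168)) (XT.lf (nat_lit 0) (nat_lit 33913343473) (nat_lit 76) (nat_lit 68342272915) (nat_lit 152) (nat_lit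 437961006126) (nat_lit 16) (nat_lit 5) (nat_lit 17) (nat_lit 5) (nat_lit 18) (nat_lit 4) (nat_lit 469) (nat_lit 384) (nat_lit 167)))) (XT.nd (nat_lit 156) (nat_lit 76) (nat_lit 0) (XT.nd (nat_lit 78) (nat_lit 0) (nat_lit 0) (XT.lf (nat_lit 0) (nat_lit 198598938274) (nat_lit 152) (nat_lit 332387394055) (nat_lit 0) (nat_lit 31255241859) (nat_lit 16) (nat_lit 5) (nat_lit 18) (nat_lit 4) (nat_lit 16) (nat_lit 4) (nat_lit 470) (nat_lit 384) (nat_lit 166)) (XT.lf (nat_lit 0) (nat_lit 300879555143) (nat_lit 152) (nat_lit 150896544629) (nat_lit 0) (nat_lit 133535667244) (nat_lit 16) (nat_lit 5) (nat_lit 18) (nat_lit 4) (nat_lit 16) (nat_lit 4) (nat_lit 471) (nat_lit 384) (nat_lit 165))) (XT.nd (nat_lit 78) (nat_lit 0) (nat_lit 0) (XT.lf (nat_lit 0) (nat_lit 40980021323) (nat_lit 76) (nat_lit 367933769521) (nat_lit 76) (nat_lit 200589699256) (nat_lit 15) (nat_lit 4) (nat_lit 16) (nat_lit 5) (nat_lit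 16) (nat_lit 4) (nat_lit 472) (nat_lit 384) (nat_lit 164)) (XT.lf (nat_lit 0) (nat_lit 247688767455) (nat_lit 76) (nat_lit 277216255798) (nat_lit 76) (nat_lit 109872011851) (nat_lit 15) (nat_lit 4) (nat_lit 16) (nat_lit 5) (nat_lit 16) (nat_lit 4) (nat_lit 473) (nat_lit 384) (nat_lit 163))))))) (XT.nd (nat_lit 46878) (nat_lit 0) (nat_lit 5472) (XT.nd (nat_lit 46332) (nat_lit 0) (nat_lit 8056) (XT.nd (nat_lit 234) (nat_lit 0) (nat_lit 0) (XT.nd (nat_lit 78) (nat_lit 152) (nat_lit 0) (XT.lf (nat_lit 0) (nat_lit 464732536212) (nat_lit 76) (nat_lit 181963070522) (nat_lit 76) (nat_lit 14618661163) (nat_lit 15) (nat_lit 4) (nat_lit 16) (nat_lit 5) (nat_lit 16) (nat_lit 4) (nat_lit 474) (nat_lit 384) (nat_lit 162)) (XT.nd (nat_lit 78) (nat_lit 0) (nat_lit 0) (XT.lf (nat_lit 0) (nat_lit 2186416298) (nat_lit 76) (nat_lit 80511624282) (nat_lit 152) (nat_lit 606411960545) (nat_lit 13) (nat_lit 5) (nat_lit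 14) (nat_lit 5) (nat_lit 15) (nat_lit 4) (nat_lit 475) (nat_lit 384) (nat_lit 161)) (XT.lf (nat_lit 0) (nat_lit 188179001491) (nat_lit 152) (nat_lit 501111971069) (nat_lit 0) (nat_lit 28803080608) (nat_lit 13) (nat_lit 5) (nat_lit 15) (nat_lit 4) (nat_lit 13) (nat_lit 4) (nat_lit 476) (nat_lit 384) (nat_lit 160)))) (XT.nd (nat_lit 45942) (nat_lit 0) (nat_lit 7980) (XT.lf (nat_lit 0) (nat_lit 300253679493) (nat_lit 152) (nat_lit 307330022350) (nat_lit 0) (nat_lit 140877622527) (nat_lit 13) (nat_lit 5) (nat_lit 15) (nat_lit 4) (nat_lit 13) (nat_lit 4) (nat_lit 477) (nat_lit 384) (nat_lit 159)) (XT.nd (nat_lit 78) (nat_lit 0) (nat_lit 0) (XT.lf (nat_lit 0) (nat_lit 4791810296) (nat_lit 836) (nat_lit 6747463839) (nat_lit 836) (nat_lit 6747463839) (nat_lit 118) (nat_lit 3) (nat_lit 129) (nat_lit 3) (nat_lit 129) (nat_lit 5) (nat_lit 385) (nat_lit 385) (nat_lit 250)) (XT.lf (nat_lit 76) (nat_lit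 4415825701) (nat_lit 0) (nat_lit 5524137768) (nat_lit 836) (nat_lit 27541985612) (nat_lit 119) (nat_lit 5) (nat_lit 118) (nat_lit 3) (nat_lit 129) (nat_lit 5) (nat_lit 386) (nat_lit 385) (nat_lit 249))))) (XT.nd (nat_lit 234) (nat_lit 0) (nat_lit 76) (XT.nd (nat_lit 78) (nat_lit 0) (nat_lit 0) (XT.lf (nat_lit 0) (nat_lit 10744879140) (nat_lit 760) (nat_lit 14940904033) (nat_lit 836) (nat_lit 12728526587) (nat_lit 119) (nat_lit 5) (nat_lit 129) (nat_lit 5) (nat_lit 130) (nat_lit 5) (nat_lit 387) (nat_lit 385) (nat_lit 248)) (XT.nd (nat_lit 78) (nat_lit 0) (nat_lit 76) (XT.lf (nat_lit 76) (nat_lit 4130465990) (nat_lit 0) (nat_lit 7611704255) (nat_lit 836) (nat_lit 27643513341) (nat_lit 120) (nat_lit 5) (nat_lit 119) (nat_lit 5) (nat_lit 130) (nat_lit 5) (nat_lit 388) (nat_lit 385) (nat_lit 247)) (XT.lf (nat_lit 0) (nat_lit 13221172573) (nat_lit 760) (nat_lit 15902341806) (nat_lit 836) (nat_lit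 11260520907) (nat_lit 120) (nat_lit 5) (nat_lit 130) (nat_lit 5) (nat_lit 131) (nat_lit 5) (nat_lit 389) (nat_lit 385) (nat_lit 246)))) (XT.nd (nat_lit 156) (nat_lit 0) (nat_lit 76) (XT.nd (nat_lit 78) (nat_lit 0) (nat_lit 76) (XT.lf (nat_lit 76) (nat_lit 4433503297) (nat_lit 0) (nat_lit 10531966817) (nat_lit 836) (nat_lit 26457268650) (nat_lit 121) (nat_lit 5) (nat_lit 120) (nat_lit 5) (nat_lit 131) (nat_lit 5) (nat_lit 390) (nat_lit 385) (nat_lit 245)) (XT.lf (nat_lit 0) (nat_lit 17208512326) (nat_lit 760) (nat_lit 16308343570) (nat_lit 836) (nat_lit 8975946407) (nat_lit 121) (nat_lit 5) (nat_lit 131) (nat_lit 5) (nat_lit 132) (nat_lit 5) (nat_lit 391) (nat_lit 385) (nat_lit 244))) (XT.nd (nat_lit 78) (nat_lit 0) (nat_lit 76) (XT.lf (nat_lit 76) (nat_lit 5405121102) (nat_lit 0) (nat_lit 14413206026) (nat_lit 836) (nat_lit 23785312178) (nat_lit 122) (nat_lit 5) (nat_lit 121) (nat_lit 5)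 (nat_lit 132) (nat_lit 5) (nat_lit 392) (nat_lit 385) (nat_lit 243)) (XT.lf (nat_lit 0) (nat_lit 22925166465) (nat_lit 760) (nat_lit 16080344215) (nat_lit 836) (nat_lit 5746182038) (nat_lit 122) (nat_lit 5) (nat_lit 132) (nat_lit 5) (nat_lit 133) (nat_lit 5) (nat_lit 393) (nat_lit 385) (nat_lit 242)))))) (XT.nd (nat_lit 546) (nat_lit 1292) (nat_lit 0) (XT.nd (nat_lit 234) (nat_lit 836) (nat_lit 0) (XT.nd (nat_lit 78) (nat_lit 684) (nat_lit 0) (XT.lf (nat_lit 76) (nat_lit 7133967281) (nat_lit 0) (nat_lit 19398826971) (nat_lit 836) (nat_lit 19407083415) (nat_lit 123) (nat_lit 5) (nat_lit 122) (nat_lit 5) (nat_lit 133) (nat_lit 5) (nat_lit 394) (nat_lit 385) (nat_lit 241)) (XT.nd (nat_lit 78) (nat_lit 760) (nat_lit 0) (XT.lf (nat_lit 0) (nat_lit 30614013453) (nat_lit 760) (nat_lit 15131508031) (nat_lit 76) (nat_lit 1427291010) (nat_lit 123) (nat_lit 5) (nat_lit 133) (nat_lit 5) (nat_lit 124)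 (nat_lit 5) (nat_lit 395) (nat_lit 385) (nat_lit 240)) (XT.lf (nat_lit 0) (nat_lit 9717817649) (nat_lit 760) (nat_lit 25649179721) (nat_lit 836) (nat_lit 13077012585) (nat_lit 113) (nat_lit 5) (nat_lit 123) (nat_lit 5) (nat_lit 124) (nat_lit 5) (nat_lit 396) (nat_lit 385) (nat_lit 239)))) (XT.nd (nat_lit 156) (nat_lit 456) (nat_lit 0) (XT.nd (nat_lit 78) (nat_lit 380) (nat_lit 0) (XT.lf (nat_lit 0) (nat_lit 36333156577) (nat_lit 760) (nat_lit 4278770052) (nat_lit 836) (nat_lit 9154126879) (nat_lit 113) (nat_lit 5) (nat_lit 123) (nat_lit 5) (nat_lit 124) (nat_lit 5) (nat_lit 397) (nat_lit 385) (nat_lit 238)) (XT.lf (nat_lit 0) (nat_lit 13264274894) (nat_lit 380) (nat_lit 33343583832) (nat_lit 456) (nat_lit 4521903673) (nat_lit 108) (nat_lit 5) (nat_lit 113) (nat_lit 5) (nat_lit 114) (nat_lit 5) (nat_lit 398) (nat_lit 385) (nat_lit 237))) (XT.nd (nat_lit 78) (nat_lit 380) (nat_lit 0) (XT.lf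 (nat_lit 0) (nat_lit 630516221) (nat_lit 456) (nat_lit 10868658178) (nat_lit 76) (nat_lit 41047239827) (nat_lit 107) (nat_lit 5) (nat_lit 113) (nat_lit 5) (nat_lit 108) (nat_lit 5) (nat_lit 399) (nat_lit 385) (nat_lit 236)) (XT.lf (nat_lit 0) (nat_lit 6351909686) (nat_lit 456) (nat_lit 36223099900) (nat_lit 76) (nat_lit 11432017515) (nat_lit 102) (nat_lit 5) (nat_lit 108) (nat_lit 5) (nat_lit 103) (nat_lit 5) (nat_lit 400) (nat_lit 385) (nat_lit 235))))) (XT.nd (nat_lit 234) (nat_lit 912) (nat_lit 0) (XT.nd (nat_lit 78) (nat_lit 380) (nat_lit 0) (XT.lf (nat_lit 0) (nat_lit 12733274634) (nat_lit 456) (nat_lit 7478318163) (nat_lit 76) (nat_lit 35310383537) (nat_lit 102) (nat_lit 5) (nat_lit 108) (nat_lit 5) (nat_lit 103) (nat_lit 5) (nat_lit 401) (nat_lit 385) (nat_lit 234)) (XT.nd (nat_lit 78) (nat_lit 0) (nat_lit 0) (XT.lf (nat_lit 0) (nat_lit 19855311678) (nat_lit 456) (nat_lit 33698881991)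 (nat_lit 76) (nat_lit 3537399935) (nat_lit 97) (nat_lit 5) (nat_lit 103) (nat_lit 5) (nat_lit 98) (nat_lit 5) (nat_lit 402) (nat_lit 385) (nat_lit 233)) (XT.lf (nat_lit 0) (nat_lit 27791949708) (nat_lit 456) (nat_lit 3001612863) (nat_lit 76) (nat_lit 27923204940) (nat_lit 97) (nat_lit 5) (nat_lit 103) (nat_lit 5) (nat_lit 98) (nat_lit 5) (nat_lit 403) (nat_lit 385) (nat_lit 232)))) (XT.nd (nat_lit 156) (nat_lit 304) (nat_lit 0) (XT.nd (nat_lit 78) (nat_lit 304) (nat_lit 0) (XT.lf (nat_lit 0) (nat_lit 30195278173) (nat_lit 304) (nat_lit 6400085236) (nat_lit 380) (nat_lit 23804340212) (nat_lit 93) (nat_lit 5) (nat_lit 97) (nat_lit 5) (nat_lit 98) (nat_lit 5) (nat_lit 404) (nat_lit 385) (nat_lit 231)) (XT.lf (nat_lit 0) (nat_lit 2778378906) (nat_lit 304) (nat_lit 43454136810) (nat_lit 380) (nat_lit 15914593085) (nat_lit 89) (nat_lit 5) (nat_lit 93) (nat_lit 5) (nat_lit 94) (nat_lit 5) (nat_lit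 405) (nat_lit 385) (nat_lit 230))) (XT.nd (nat_lit 78) (nat_lit 304) (nat_lit 0) (XT.lf (nat_lit 0) (nat_lit 38348870595) (nat_lit 304) (nat_lit 18616003987) (nat_lit 380) (nat_lit 6986342843) (nat_lit 89) (nat_lit 5) (nat_lit 93) (nat_lit 5) (nat_lit 94) (nat_lit 5) (nat_lit 406) (nat_lit 385) (nat_lit 229)) (XT.lf (nat_lit 0) (nat_lit 2588535027) (nat_lit 304) (nat_lit 55817673594) (nat_lit 76) (nat_lit 7423626199) (nat_lit 85) (nat_lit 5) (nat_lit 89) (nat_lit 5) (nat_lit 86) (nat_lit 5) (nat_lit 407) (nat_lit 385) (nat_lit 228))))))))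
noncomputable def xc196 : XT := (XT.nd (nat_lit 2106) (nat_lit 1672) (nat_lit 0) (XT.nd (nat_lit 1014) (nat_lit 1368) (nat_lit 0) (XT.nd (nat_lit 468) (nat_lit 912) (nat_lit 0) (XT.nd (nat_lit 234) (nat_lit 532) (nat_lit 0) (XT.nd (nat_lit 78) (nat_lit 304) (nat_lit 0) (XT.lf (nat_lit 0) (nat_lit 13151920420) (nat_lit 304) (nat_lit 19912965611) (nat_lit 76) (nat_lit 34694543561) (nat_lit 85) (nat_lit 5) (nat_lit 89) (nat_lit 5) (nat_lit 86) (nat_lit 5) (nat_lit 408) (nat_lit 385) (nat_lit 227)) (XT.nd (nat_lit 78) (nat_lit 0) (nat_lit 0) (XT.lf (nat_lit 0) (nat_lit 18373429218) (nat_lit 304) (nat_lit 6155643760) (nat_lit 380) (nat_lit 45242151748) (nat_lit 81) (nat_lit 5) (nat_lit 85) (nat_lit 5) (nat_lit 86) (nat_lit 5) (nat_lit 409) (nat_lit 385) (nat_lit 226)) (XT.lf (nat_lit 0) (nat_lit 37161642513) (nat_lit 380) (nat_lit 12953470836) (nat_lit 76) (nat_lit 21734168796) (nat_lit 81) (nat_lit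 5) (nat_lit 86) (nat_lit 5) (nat_lit 82) (nat_lit 5) (nat_lit 410) (nat_lit 385) (nat_lit 225)))) (XT.nd (nat_lit 78) (nat_lit 304) (nat_lit 0) (XT.lf (nat_lit 0) (nat_lit 28213604397) (nat_lit 228) (nat_lit 22752467388) (nat_lit 304) (nat_lit 23038159556) (nat_lit 78) (nat_lit 5) (nat_lit 81) (nat_lit 5) (nat_lit 82) (nat_lit 5) (nat_lit 411) (nat_lit 385) (nat_lit 224)) (XT.nd (nat_lit 78) (nat_lit 304) (nat_lit 0) (XT.lf (nat_lit 0) (nat_lit 65775881603) (nat_lit 304) (nat_lit 4465736300) (nat_lit 76) (nat_lit 6009552588) (nat_lit 78) (nat_lit 5) (nat_lit 82) (nat_lit 5) (nat_lit 79) (nat_lit 5) (nat_lit 412) (nat_lit 385) (nat_lit 223)) (XT.lf (nat_lit 0) (nat_lit 3638780527) (nat_lit 304) (nat_lit 38793903914) (nat_lit 76) (nat_lit 36125153792) (nat_lit 74) (nat_lit 5) (nat_lit 78) (nat_lit 5) (nat_lit 75) (nat_lit 5) (nat_lit 413) (nat_lit 385) (nat_lit 222))))) (XT.nd (nat_lit 234)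 (nat_lit 456) (nat_lit 0) (XT.nd (nat_lit 78) (nat_lit 228) (nat_lit 0) (XT.lf (nat_lit 0) (nat_lit 5381830022) (nat_lit 228) (nat_lit 12884496650) (nat_lit 304) (nat_lit 62696936191) (nat_lit 71) (nat_lit 5) (nat_lit 74) (nat_lit 5) (nat_lit 75) (nat_lit 5) (nat_lit 414) (nat_lit 385) (nat_lit 221)) (XT.nd (nat_lit 78) (nat_lit 228) (nat_lit 0) (XT.lf (nat_lit 0) (nat_lit 34575185567) (nat_lit 304) (nat_lit 30638474082) (nat_lit 76) (nat_lit 18227802674) (nat_lit 71) (nat_lit 5) (nat_lit 75) (nat_lit 5) (nat_lit 72) (nat_lit 5) (nat_lit 415) (nat_lit 385) (nat_lit 220)) (XT.lf (nat_lit 0) (nat_lit 16879175504) (nat_lit 228) (nat_lit 35294053059) (nat_lit 304) (nat_lit 33846656484) (nat_lit 68) (nat_lit 5) (nat_lit 71) (nat_lit 5) (nat_lit 72) (nat_lit 5) (nat_lit 416) (nat_lit 385) (nat_lit 219)))) (XT.nd (nat_lit 156) (nat_lit 228) (nat_lit 0) (XT.nd (nat_lit 78) (nat_lit 228) (nat_lit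 0) (XT.lf (nat_lit 0) (nat_lit 67834955111) (nat_lit 228) (nat_lit 3334110154) (nat_lit 304) (nat_lit 17532269401) (nat_lit 68) (nat_lit 5) (nat_lit 71) (nat_lit 5) (nat_lit 72) (nat_lit 5) (nat_lit 417) (nat_lit 385) (nat_lit 218)) (XT.lf (nat_lit 0) (nat_lit 570482302) (nat_lit 228) (nat_lit 61160088307) (nat_lit 76) (nat_lit 29738611727) (nat_lit 65) (nat_lit 5) (nat_lit 68) (nat_lit 5) (nat_lit 66) (nat_lit 5) (nat_lit 418) (nat_lit 385) (nat_lit 217))) (XT.nd (nat_lit 78) (nat_lit 228) (nat_lit 0) (XT.lf (nat_lit 0) (nat_lit 19402067270) (nat_lit 228) (nat_lit 9939274055) (nat_lit 76) (nat_lit 64999065896) (nat_lit 65) (nat_lit 5) (nat_lit 68) (nat_lit 5) (nat_lit 66) (nat_lit 5) (nat_lit 419) (nat_lit 385) (nat_lit 216)) (XT.lf (nat_lit 0) (nat_lit 39965909699) (nat_lit 304) (nat_lit 52113530621) (nat_lit 76) (nat_lit 5236219395) (nat_lit 62) (nat_lit 5) (nat_lit 66) (nat_lit 5) (nat_lit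 63) (nat_lit 5) (nat_lit 420) (nat_lit 385) (nat_lit 215)))))) (XT.nd (nat_lit 546) (nat_lit 684) (nat_lit 0) (XT.nd (nat_lit 234) (nat_lit 304) (nat_lit 0) (XT.nd (nat_lit 78) (nat_lit 228) (nat_lit 0) (XT.lf (nat_lit 0) (nat_lit 2612899985) (nat_lit 152) (nat_lit 59637051344) (nat_lit 228) (nat_lit 38155123414) (nat_lit 60) (nat_lit 5) (nat_lit 62) (nat_lit 5) (nat_lit 63) (nat_lit 5) (nat_lit 421) (nat_lit 385) (nat_lit 214)) (XT.nd (nat_lit 78) (nat_lit 228) (nat_lit 0) (XT.lf (nat_lit 0) (nat_lit 61883561313) (nat_lit 152) (nat_lit 24646343218) (nat_lit 228) (nat_lit 17074970765) (nat_lit 60) (nat_lit 5) (nat_lit 62) (nat_lit 5) (nat_lit 63) (nat_lit 5) (nat_lit 422) (nat_lit 385) (nat_lit 213)) (XT.lf (nat_lit 0) (nat_lit 5366421392) (nat_lit 228) (nat_lit 89504324134) (nat_lit 76) (nat_lit 12066513295) (nat_lit 57) (nat_lit 5) (nat_lit 60) (nat_lit 5) (nat_lit 58) (nat_lit 5) (nat_lit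 423) (nat_lit 385) (nat_lit 212)))) (XT.nd (nat_lit 156) (nat_lit 152) (nat_lit 0) (XT.nd (nat_lit 78) (nat_lit 152) (nat_lit 0) (XT.lf (nat_lit 0) (nat_lit 29477424985) (nat_lit 228) (nat_lit 30104436554) (nat_lit 76) (nat_lit 50784335680) (nat_lit 57) (nat_lit 5) (nat_lit 60) (nat_lit 5) (nat_lit 58) (nat_lit 5) (nat_lit 424) (nat_lit 385) (nat_lit 211)) (XT.lf (nat_lit 0) (nat_lit 33330978121) (nat_lit 152) (nat_lit 21982610266) (nat_lit 228) (nat_lit 58627013874) (nat_lit 55) (nat_lit 5) (nat_lit 57) (nat_lit 5) (nat_lit 58) (nat_lit 5) (nat_lit 425) (nat_lit 385) (nat_lit 210))) (XT.nd (nat_lit 78) (nat_lit 152) (nat_lit 0) (XT.lf (nat_lit 0) (nat_lit 83232151897) (nat_lit 228) (nat_lit 16967720327) (nat_lit 76) (nat_lit 17454325929) (nat_lit 55) (nat_lit 5) (nat_lit 58) (nat_lit 5) (nat_lit 56) (nat_lit 5) (nat_lit 426) (nat_lit 385) (nat_lit 209)) (XT.lf (nat_lit 0) (nat_lit 51131209779)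 (nat_lit 152) (nat_lit 62573372420) (nat_lit 228) (nat_lit 7790994897) (nat_lit 53) (nat_lit 5) (nat_lit 55) (nat_lit 5) (nat_lit 56) (nat_lit 5) (nat_lit 427) (nat_lit 385) (nat_lit 208))))) (XT.nd (nat_lit 234) (nat_lit 304) (nat_lit 0) (XT.nd (nat_lit 78) (nat_lit 304) (nat_lit 0) (XT.lf (nat_lit 0) (nat_lit 19817329677) (nat_lit 228) (nat_lit 2611356877) (nat_lit 76) (nat_lit 103070024928) (nat_lit 52) (nat_lit 5) (nat_lit 55) (nat_lit 5) (nat_lit 53) (nat_lit 5) (nat_lit 428) (nat_lit 385) (nat_lit 207)) (XT.nd (nat_lit 78) (nat_lit 152) (nat_lit 0) (XT.lf (nat_lit 0) (nat_lit 49974887272) (nat_lit 228) (nat_lit 59306550137) (nat_lit 76) (nat_lit 20342647012) (nat_lit 50) (nat_lit 5) (nat_lit 53) (nat_lit 5) (nat_lit 51) (nat_lit 5) (nat_lit 429) (nat_lit 385) (nat_lit 206)) (XT.lf (nat_lit 0) (nat_lit 13079047563) (nat_lit 152) (nat_lit 69177422212) (nat_lit 228) (nat_lit 51668449035)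 (nat_lit 48) (nat_lit 5) (nat_lit 50) (nat_lit 5) (nat_lit 51) (nat_lit 5) (nat_lit 430) (nat_lit 385) (nat_lit 205)))) (XT.nd (nat_lit 156) (nat_lit 152) (nat_lit 0) (XT.nd (nat_lit 78) (nat_lit 152) (nat_lit 0) (XT.lf (nat_lit 0) (nat_lit 91141762638) (nat_lit 152) (nat_lit 26014082064) (nat_lit 228) (nat_lit 21234764697) (nat_lit 48) (nat_lit 5) (nat_lit 50) (nat_lit 5) (nat_lit 51) (nat_lit 5) (nat_lit 431) (nat_lit 385) (nat_lit 204)) (XT.lf (nat_lit 0) (nat_lit 11170507258) (nat_lit 152) (nat_lit 112512420314) (nat_lit 76) (nat_lit 19348636660) (nat_lit 46) (nat_lit 5) (nat_lit 48) (nat_lit 5) (nat_lit 47) (nat_lit 5) (nat_lit 432) (nat_lit 385) (nat_lit 203))) (XT.nd (nat_lit 78) (nat_lit 152) (nat_lit 0) (XT.lf (nat_lit 0) (nat_lit 45721531743) (nat_lit 152) (nat_lit 34837464764) (nat_lit 76) (nat_lit 67266209068) (nat_lit 46) (nat_lit 5) (nat_lit 48) (nat_lit 5) (nat_lit 47) (nat_lit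 5) (nat_lit 433) (nat_lit 385) (nat_lit 202)) (XT.lf (nat_lit 0) (nat_lit 48264946397) (nat_lit 152) (nat_lit 34488098878) (nat_lit 228) (nat_lit 70067836938) (nat_lit 44) (nat_lit 5) (nat_lit 46) (nat_lit 5) (nat_lit 47) (nat_lit 5) (nat_lit 434) (nat_lit 385) (nat_lit 201))))))) (XT.nd (nat_lit 1014) (nat_lit 684) (nat_lit 0) (XT.nd (nat_lit 468) (nat_lit 608) (nat_lit 0) (XT.nd (nat_lit 234) (nat_lit 228) (nat_lit 0) (XT.nd (nat_lit 78) (nat_lit 152) (nat_lit 0) (XT.lf (nat_lit 0) (nat_lit 122451992902) (nat_lit 228) (nat_lit 21532441320) (nat_lit 76) (nat_lit 14041115655) (nat_lit 44) (nat_lit 5) (nat_lit 47) (nat_lit 5) (nat_lit 45) (nat_lit 4) (nat_lit 435) (nat_lit 385) (nat_lit 200)) (XT.nd (nat_lit 78) (nat_lit 0) (nat_lit 0) (XT.lf (nat_lit 0) (nat_lit 2265654650) (nat_lit 152) (nat_lit 96218749840) (nat_lit 76) (nat_lit 64923498900) (nat_lit 42) (nat_lit 5) (nat_lit 44) (nat_lit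 5) (nat_lit 43) (nat_lit 5) (nat_lit 436) (nat_lit 385) (nat_lit 199)) (XT.lf (nat_lit 0) (nat_lit 41171386185) (nat_lit 152) (nat_lit 8536935610) (nat_lit 76) (nat_lit 119303391024) (nat_lit 42) (nat_lit 5) (nat_lit 44) (nat_lit 5) (nat_lit 43) (nat_lit 5) (nat_lit 437) (nat_lit 385) (nat_lit 198)))) (XT.nd (nat_lit 78) (nat_lit 76) (nat_lit 0) (XT.lf (nat_lit 0) (nat_lit 83414681740) (nat_lit 228) (nat_lit 88584177649) (nat_lit 76) (nat_lit 2827239553) (nat_lit 40) (nat_lit 5) (nat_lit 43) (nat_lit 5) (nat_lit 41) (nat_lit 4) (nat_lit 438) (nat_lit 385) (nat_lit 197)) (XT.nd (nat_lit 78) (nat_lit 0) (nat_lit 0) (XT.lf (nat_lit 0) (nat_lit 4456520054) (nat_lit 76) (nat_lit 124344494153) (nat_lit 152) (nat_lit 52078646645) (nat_lit 39) (nat_lit 5) (nat_lit 40) (nat_lit 5) (nat_lit 41) (nat_lit 4) (nat_lit 439) (nat_lit 385) (nat_lit 196)) (XT.lf (nat_lit 0) (nat_lit 105223726705) (nat_lit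 76) (nat_lit 72732618902) (nat_lit 152) (nat_lit 9204571222) (nat_lit 39) (nat_lit 5) (nat_lit 40) (nat_lit 5) (nat_lit 41) (nat_lit 4) (nat_lit 440) (nat_lit 385) (nat_lit 195))))) (XT.nd (nat_lit 234) (nat_lit 304) (nat_lit 0) (XT.nd (nat_lit 78) (nat_lit 76) (nat_lit 0) (XT.lf (nat_lit 0) (nat_lit 17265580340) (nat_lit 152) (nat_lit 17670428810) (nat_lit 228) (nat_lit 158778816930) (nat_lit 36) (nat_lit 5) (nat_lit 38) (nat_lit 5) (nat_lit 39) (nat_lit 5) (nat_lit 441) (nat_lit 385) (nat_lit 194)) (XT.nd (nat_lit 78) (nat_lit 76) (nat_lit 0) (XT.lf (nat_lit 0) (nat_lit 83010939825) (nat_lit 228) (nat_lit 77055245098) (nat_lit 76) (nat_lit 40420868452) (nat_lit 36) (nat_lit 5) (nat_lit 39) (nat_lit 5) (nat_lit 37) (nat_lit 4) (nat_lit 442) (nat_lit 385) (nat_lit 193)) (XT.lf (nat_lit 0) (nat_lit 27911211088) (nat_lit 76) (nat_lit 106303368795) (nat_lit 152) (nat_lit 73347064079) (nat_lit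 35) (nat_lit 5) (nat_lit 36) (nat_lit 5) (nat_lit 37) (nat_lit 4) (nat_lit 443) (nat_lit 385) (nat_lit 192)))) (XT.nd (nat_lit 156) (nat_lit 76) (nat_lit 0) (XT.nd (nat_lit 78) (nat_lit 228) (nat_lit 0) (XT.lf (nat_lit 0) (nat_lit 140800290299) (nat_lit 76) (nat_lit 48482600435) (nat_lit 152) (nat_lit 25641848974) (nat_lit 35) (nat_lit 5) (nat_lit 36) (nat_lit 5) (nat_lit 37) (nat_lit 4) (nat_lit 444) (nat_lit 385) (nat_lit 191)) (XT.lf (nat_lit 0) (nat_lit 24457842284) (nat_lit 228) (nat_lit 185319088191) (nat_lit 76) (nat_lit 12820388038) (nat_lit 32) (nat_lit 5) (nat_lit 35) (nat_lit 5) (nat_lit 33) (nat_lit 4) (nat_lit 445) (nat_lit 385) (nat_lit 190))) (XT.nd (nat_lit 78) (nat_lit 76) (nat_lit 0) (XT.lf (nat_lit 0) (nat_lit 78271032271) (nat_lit 228) (nat_lit 75002876301) (nat_lit 76) (nat_lit 77255087414) (nat_lit 32) (nat_lit 5) (nat_lit 35) (nat_lit 5) (nat_lit 33) (nat_lit 4) (nat_lit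 446) (nat_lit 385) (nat_lit 189)) (XT.lf (nat_lit 0) (nat_lit 42178295901) (nat_lit 76) (nat_lit 93254668262) (nat_lit 152) (nat_lit 103391389106) (nat_lit 31) (nat_lit 5) (nat_lit 32) (nat_lit 5) (nat_lit 33) (nat_lit 4) (nat_lit 447) (nat_lit 385) (nat_lit 188)))))) (XT.nd (nat_lit 546) (nat_lit 304) (nat_lit 0) (XT.nd (nat_lit 234) (nat_lit 228) (nat_lit 0) (XT.nd (nat_lit 78) (nat_lit 152) (nat_lit 0) (XT.lf (nat_lit 0) (nat_lit 167821651272) (nat_lit 76) (nat_lit 28901120703) (nat_lit 152) (nat_lit 50748217525) (nat_lit 31) (nat_lit 5) (nat_lit 32) (nat_lit 5) (nat_lit 33) (nat_lit 4) (nat_lit 448) (nat_lit 385) (nat_lit 187)) (XT.nd (nat_lit 78) (nat_lit 0) (nat_lit 0) (XT.lf (nat_lit 0) (nat_lit 5693681112) (nat_lit 152) (nat_lit 212576283412) (nat_lit 76) (nat_lit 38210885805) (nat_lit 29) (nat_lit 5) (nat_lit 31) (nat_lit 5) (nat_lit 30) (nat_lit 4) (nat_lit 449) (nat_lit 385) (nat_lit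 186)) (XT.lf (nat_lit 0) (nat_lit 65096589155) (nat_lit 152) (nat_lit 90800970356) (nat_lit 76) (nat_lit 109909828463) (nat_lit 29) (nat_lit 5) (nat_lit 31) (nat_lit 5) (nat_lit 30) (nat_lit 4) (nat_lit 450) (nat_lit 385) (nat_lit 185)))) (XT.nd (nat_lit 156) (nat_lit 152) (nat_lit 0) (XT.nd (nat_lit 78) (nat_lit 0) (nat_lit 0) (XT.lf (nat_lit 0) (nat_lit 38287811054) (nat_lit 76) (nat_lit 89779216621) (nat_lit 152) (nat_lit 147503355618) (nat_lit 28) (nat_lit 5) (nat_lit 29) (nat_lit 5) (nat_lit 30) (nat_lit 4) (nat_lit 451) (nat_lit 385) (nat_lit 184)) (XT.lf (nat_lit 0) (nat_lit 176982701867) (nat_lit 76) (nat_lit 18740657009) (nat_lit 152) (nat_lit 90021301005) (nat_lit 28) (nat_lit 5) (nat_lit 29) (nat_lit 5) (nat_lit 30) (nat_lit 4) (nat_lit 452) (nat_lit 385) (nat_lit 183))) (XT.nd (nat_lit 78) (nat_lit 76) (nat_lit 0) (XT.lf (nat_lit 0) (nat_lit 26148930941) (nat_lit 76) (nat_lit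 241893431852) (nat_lit 76) (nat_lit 28321294736) (nat_lit 27) (nat_lit 4) (nat_lit 28) (nat_lit 5) (nat_lit 28) (nat_lit 4) (nat_lit 453) (nat_lit 385) (nat_lit 182)) (XT.lf (nat_lit 0) (nat_lit 37475627801) (nat_lit 152) (nat_lit 136747608188) (nat_lit 76) (nat_lit 133152954947) (nat_lit 26) (nat_lit 5) (nat_lit 28) (nat_lit 5) (nat_lit 27) (nat_lit 4) (nat_lit 454) (nat_lit 385) (nat_lit 181))))) (XT.nd (nat_lit 234) (nat_lit 228) (nat_lit 0) (XT.nd (nat_lit 78) (nat_lit 0) (nat_lit 0) (XT.lf (nat_lit 0) (nat_lit 3024712698) (nat_lit 76) (nat_lit 102632771082) (nat_lit 152) (nat_lit 213256309664) (nat_lit 25) (nat_lit 5) (nat_lit 26) (nat_lit 5) (nat_lit 27) (nat_lit 4) (nat_lit 455) (nat_lit 385) (nat_lit 180)) (XT.nd (nat_lit 78) (nat_lit 0) (nat_lit 0) (XT.lf (nat_lit 0) (nat_lit 154532549155) (nat_lit 76) (nat_lit 25031421107) (nat_lit 152) (nat_lit 151348528964) (nat_lit 25) (nat_lit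 5) (nat_lit 26) (nat_lit 5) (nat_lit 27) (nat_lit 4) (nat_lit 456) (nat_lit 385) (nat_lit 179)) (XT.lf (nat_lit 0) (nat_lit 258046786381) (nat_lit 152) (nat_lit 30777354222) (nat_lit 0) (nat_lit 54642949458) (nat_lit 25) (nat_lit 5) (nat_lit 27) (nat_lit 4) (nat_lit 25) (nat_lit 4) (nat_lit 457) (nat_lit 385) (nat_lit 178)))) (XT.nd (nat_lit 156) (nat_lit 76) (nat_lit 0) (XT.nd (nat_lit 78) (nat_lit 76) (nat_lit 0) (XT.lf (nat_lit 0) (nat_lit 125718168960) (nat_lit 76) (nat_lit 217108417185) (nat_lit 76) (nat_lit 13704182180) (nat_lit 24) (nat_lit 4) (nat_lit 25) (nat_lit 5) (nat_lit 25) (nat_lit 4) (nat_lit 458) (nat_lit 385) (nat_lit 177)) (XT.lf (nat_lit 0) (nat_lit 60155686329) (nat_lit 152) (nat_lit 80085457155) (nat_lit 76) (nat_lit 229931928698) (nat_lit 23) (nat_lit 5) (nat_lit 25) (nat_lit 5) (nat_lit 24) (nat_lit 4) (nat_lit 459) (nat_lit 385) (nat_lit 176))) (XT.nd (nat_lit 78)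 (nat_lit 0) (nat_lit 0) (XT.lf (nat_lit 0) (nat_lit 80530265830) (nat_lit 76) (nat_lit 57974729795) (nat_lit 152) (nat_lit 245918412810) (nat_lit 22) (nat_lit 5) (nat_lit 23) (nat_lit 5) (nat_lit 24) (nat_lit 4) (nat_lit 460) (nat_lit 385) (nat_lit 175)) (XT.lf (nat_lit 0) (nat_lit 222593468017) (nat_lit 152) (nat_lit 147827592115) (nat_lit 0) (nat_lit 28874116511) (nat_lit 22) (nat_lit 5) (nat_lit 24) (nat_lit 4) (nat_lit 22) (nat_lit 4) (nat_lit 461) (nat_lit 385) (nat_lit 174))))))))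
noncomputable def xc197 : XT := (XT.nd (nat_lit 48048) (nat_lit 0) (nat_lit 3572) (XT.nd (nat_lit 1014) (nat_lit 152) (nat_lit 0) (XT.nd (nat_lit 468) (nat_lit 304) (nat_lit 0) (XT.nd (nat_lit 234) (nat_lit 76) (nat_lit 0) (XT.nd (nat_lit 78) (nat_lit 76) (nat_lit 0) (XT.lf (nat_lit 0) (nat_lit 15589220832) (nat_lit 76) (nat_lit 296490650257) (nat_lit 76) (nat_lit 102770986843) (nat_lit 21) (nat_lit 4) (nat_lit 22) (nat_lit 5) (nat_lit 22) (nat_lit 4) (nat_lit 462) (nat_lit 385) (nat_lit 173)) (XT.nd (nat_lit 78) (nat_lit 76) (nat_lit 0) (XT.lf (nat_lit 0) (nat_lit 192308561601) (nat_lit 76) (nat_lit 216235279907) (nat_lit 76) (nat_lit 22515319438) (nat_lit 21) (nat_lit 4) (nat_lit 22) (nat_lit 5) (nat_lit 22) (nat_lit 4) (nat_lit 463) (nat_lit 385) (nat_lit 172)) (XT.lf (nat_lit 0) (nat_lit 59776369959) (nat_lit 152) (nat_lit 71178684961) (nat_lit 76) (nat_lit 317074631015) (nat_lit 20)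 (nat_lit 5) (nat_lit 22) (nat_lit 5) (nat_lit 21) (nat_lit 4) (nat_lit 464) (nat_lit 385) (nat_lit 171)))) (XT.nd (nat_lit 78) (nat_lit 0) (nat_lit 0) (XT.lf (nat_lit 0) (nat_lit 107854219843) (nat_lit 76) (nat_lit 39255405844) (nat_lit 152) (nat_lit 318636474114) (nat_lit 19) (nat_lit 5) (nat_lit 20) (nat_lit 5) (nat_lit 21) (nat_lit 4) (nat_lit 465) (nat_lit 385) (nat_lit 170)) (XT.nd (nat_lit 78) (nat_lit 0) (nat_lit 0) (XT.lf (nat_lit 0) (nat_lit 240924875555) (nat_lit 152) (nat_lit 186888787580) (nat_lit 0) (nat_lit 56428904675) (nat_lit 19) (nat_lit 5) (nat_lit 21) (nat_lit 4) (nat_lit 19) (nat_lit 4) (nat_lit 466) (nat_lit 385) (nat_lit 169)) (XT.lf (nat_lit 0) (nat_lit 340074170057) (nat_lit 152) (nat_lit 7979558645) (nat_lit 0) (nat_lit 155577966427) (nat_lit 19) (nat_lit 5) (nat_lit 21) (nat_lit 4) (nat_lit 19) (nat_lit 4) (nat_lit 467) (nat_lit 385) (nat_lit 168))))) (XT.nd (nat_lit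 234) (nat_lit 76) (nat_lit 0) (XT.nd (nat_lit 78) (nat_lit 152) (nat_lit 0) (XT.lf (nat_lit 0) (nat_lit 185822136964) (nat_lit 76) (nat_lit 261259759405) (nat_lit 76) (nat_lit 76763334108) (nat_lit 18) (nat_lit 4) (nat_lit 19) (nat_lit 5) (nat_lit 19) (nat_lit 4) (nat_lit 468) (nat_lit 385) (nat_lit 167)) (XT.nd (nat_lit 78) (nat_lit 76) (nat_lit 0) (XT.lf (nat_lit 0) (nat_lit 14047734692) (nat_lit 152) (nat_lit 155698780289) (nat_lit 76) (nat_lit 375304853577) (nat_lit 17) (nat_lit 5) (nat_lit 19) (nat_lit 5) (nat_lit 18) (nat_lit 4) (nat_lit 469) (nat_lit 385) (nat_lit 166)) (XT.lf (nat_lit 0) (nat_lit 35623051490) (nat_lit 76) (nat_lit 71752504098) (nat_lit 152) (nat_lit 459851539700) (nat_lit 16) (nat_lit 5) (nat_lit 17) (nat_lit 5) (nat_lit 18) (nat_lit 4) (nat_lit 470) (nat_lit 385) (nat_lit 165)))) (XT.nd (nat_lit 156) (nat_lit 76) (nat_lit 0) (XT.nd (nat_lit 78) (nat_lit 0) (nat_lit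 0) (XT.lf (nat_lit 0) (nat_lit 208535805031) (nat_lit 152) (nat_lit 348993152577) (nat_lit 0) (nat_lit 32824348886) (nat_lit 16) (nat_lit 5) (nat_lit 18) (nat_lit 4) (nat_lit 16) (nat_lit 4) (nat_lit 471) (nat_lit 385) (nat_lit 164)) (XT.lf (nat_lit 0) (nat_lit 315930123228) (nat_lit 152) (nat_lit 158428408831) (nat_lit 0) (nat_lit 140218493401) (nat_lit 16) (nat_lit 5) (nat_lit 18) (nat_lit 4) (nat_lit 16) (nat_lit 4) (nat_lit 472) (nat_lit 385) (nat_lit 163))) (XT.nd (nat_lit 78) (nat_lit 0) (nat_lit 0) (XT.lf (nat_lit 0) (nat_lit 43041776337) (nat_lit 76) (nat_lit 386324179675) (nat_lit 76) (nat_lit 210612384437) (nat_lit 15) (nat_lit 4) (nat_lit 16) (nat_lit 5) (nat_lit 16) (nat_lit 4) (nat_lit 473) (nat_lit 385) (nat_lit 162)) (XT.lf (nat_lit 0) (nat_lit 260085352445) (nat_lit 76) (nat_lit 291071089234) (nat_lit 76) (nat_lit 115359136462) (nat_lit 15) (nat_lit 4) (nat_lit 16) (nat_lit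 5) (nat_lit 16) (nat_lit 4) (nat_lit 474) (nat_lit 385) (nat_lit 161)))))) (XT.nd (nat_lit 46488) (nat_lit 0) (nat_lit 8132) (XT.nd (nat_lit 46176) (nat_lit 0) (nat_lit 7980) (XT.nd (nat_lit 78) (nat_lit 152) (nat_lit 0) (XT.lf (nat_lit 0) (nat_lit 487980731230) (nat_lit 76) (nat_lit 191055529425) (nat_lit 76) (nat_lit 15343426620) (nat_lit 15) (nat_lit 4) (nat_lit 16) (nat_lit 5) (nat_lit 16) (nat_lit 4) (nat_lit 475) (nat_lit 385) (nat_lit 160)) (XT.nd (nat_lit 78) (nat_lit 0) (nat_lit 0) (XT.lf (nat_lit 0) (nat_lit 2307313271) (nat_lit 76) (nat_lit 84531495980) (nat_lit 152) (nat_lit 636726398292) (nat_lit 13) (nat_lit 5) (nat_lit 14) (nat_lit 5) (nat_lit 15) (nat_lit 4) (nat_lit 476) (nat_lit 385) (nat_lit 159)) (XT.lf (nat_lit 0) (nat_lit 197593623739) (nat_lit 152) (nat_lit 526156349951) (nat_lit 0) (nat_lit 30248498236) (nat_lit 13) (nat_lit 5) (nat_lit 15) (nat_lit 4) (nat_lit 13)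 (nat_lit 4) (nat_lit 477) (nat_lit 385) (nat_lit 158)))) (XT.nd (nat_lit 156) (nat_lit 0) (nat_lit 76) (XT.nd (nat_lit 78) (nat_lit 0) (nat_lit 0) (XT.lf (nat_lit 0) (nat_lit 5078463327) (nat_lit 836) (nat_lit 7060116339) (nat_lit 836) (nat_lit 7060116339) (nat_lit 118) (nat_lit 3) (nat_lit 129) (nat_lit 3) (nat_lit 129) (nat_lit 5) (nat_lit 386) (nat_lit 386) (nat_lit 248)) (XT.lf (nat_lit 76) (nat_lit 4685260928) (nat_lit 0) (nat_lit 5842103072) (nat_lit 836) (nat_lit 28824113386) (nat_lit 119) (nat_lit 5) (nat_lit 118) (nat_lit 3) (nat_lit 129) (nat_lit 5) (nat_lit 387) (nat_lit 386) (nat_lit 247))) (XT.nd (nat_lit 78) (nat_lit 0) (nat_lit 0) (XT.lf (nat_lit 0) (nat_lit 11367599661) (nat_lit 760) (nat_lit 15636649181) (nat_lit 836) (nat_lit 13326455883) (nat_lit 119) (nat_lit 5) (nat_lit 129) (nat_lit 5) (nat_lit 130) (nat_lit 5) (nat_lit 388) (nat_lit 386) (nat_lit 246)) (XT.lf (nat_lit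 76) (nat_lit 4387461923) (nat_lit 0) (nat_lit 8024011105) (nat_lit 836) (nat_lit 28939340552) (nat_lit 120) (nat_lit 5) (nat_lit 119) (nat_lit 5) (nat_lit 130) (nat_lit 5) (nat_lit 389) (nat_lit 386) (nat_lit 245))))) (XT.nd (nat_lit 234) (nat_lit 0) (nat_lit 76) (XT.nd (nat_lit 78) (nat_lit 0) (nat_lit 0) (XT.lf (nat_lit 0) (nat_lit 13960039780) (nat_lit 760) (nat_lit 16644961675) (nat_lit 836) (nat_lit 11794302813) (nat_lit 120) (nat_lit 5) (nat_lit 130) (nat_lit 5) (nat_lit 131) (nat_lit 5) (nat_lit 390) (nat_lit 386) (nat_lit 244)) (XT.nd (nat_lit 78) (nat_lit 0) (nat_lit 76) (XT.lf (nat_lit 76) (nat_lit 4706828953) (nat_lit 0) (nat_lit 11081824483) (nat_lit 836) (nat_lit 27701436438) (nat_lit 121) (nat_lit 5) (nat_lit 120) (nat_lit 5) (nat_lit 131) (nat_lit 5) (nat_lit 391) (nat_lit 386) (nat_lit 243)) (XT.lf (nat_lit 0) (nat_lit 18139934774) (nat_lit 760) (nat_lit 17070618402) (nat_lit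 836) (nat_lit 9403300984) (nat_lit 121) (nat_lit 5) (nat_lit 131) (nat_lit 5) (nat_lit 132) (nat_lit 5) (nat_lit 392) (nat_lit 386) (nat_lit 242)))) (XT.nd (nat_lit 156) (nat_lit 0) (nat_lit 76) (XT.nd (nat_lit 78) (nat_lit 0) (nat_lit 76) (XT.lf (nat_lit 76) (nat_lit 5727662369) (nat_lit 0) (nat_lit 15150013464) (nat_lit 836) (nat_lit 24902687233) (nat_lit 122) (nat_lit 5) (nat_lit 121) (nat_lit 5) (nat_lit 132) (nat_lit 5) (nat_lit 393) (nat_lit 386) (nat_lit 241)) (XT.lf (nat_lit 0) (nat_lit 24136358356) (nat_lit 760) (nat_lit 16831032360) (nat_lit 836) (nat_lit 6018605114) (nat_lit 122) (nat_lit 5) (nat_lit 132) (nat_lit 5) (nat_lit 133) (nat_lit 5) (nat_lit 394) (nat_lit 386) (nat_lit 240))) (XT.nd (nat_lit 78) (nat_lit 0) (nat_lit 76) (XT.lf (nat_lit 76) (nat_lit 7543134564) (nat_lit 0) (nat_lit 20378960080) (nat_lit 836) (nat_lit 20311610685) (nat_lit 123) (nat_lit 5) (nat_lit 122)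 (nat_lit 5) (nat_lit 133) (nat_lit 5) (nat_lit 395) (nat_lit 386) (nat_lit 239)) (XT.lf (nat_lit 0) (nat_lit 32204239420) (nat_lit 760) (nat_lit 15834946042) (nat_lit 76) (nat_lit 1489259788) (nat_lit 123) (nat_lit 5) (nat_lit 133) (nat_lit 5) (nat_lit 124) (nat_lit 5) (nat_lit 396) (nat_lit 386) (nat_lit 238))))))) (XT.nd (nat_lit 1014) (nat_lit 1900) (nat_lit 0) (XT.nd (nat_lit 468) (nat_lit 1292) (nat_lit 0) (XT.nd (nat_lit 234) (nat_lit 456) (nat_lit 0) (XT.nd (nat_lit 78) (nat_lit 380) (nat_lit 0) (XT.lf (nat_lit 0) (nat_lit 10255988868) (nat_lit 760) (nat_lit 26936865369) (nat_lit 836) (nat_lit 13670450765) (nat_lit 113) (nat_lit 5) (nat_lit 123) (nat_lit 5) (nat_lit 124) (nat_lit 5) (nat_lit 397) (nat_lit 386) (nat_lit 237)) (XT.nd (nat_lit 78) (nat_lit 380) (nat_lit 0) (XT.lf (nat_lit 0) (nat_lit 38199605203) (nat_lit 760) (nat_lit 4497686328) (nat_lit 836) (nat_lit 9554297558) (nat_lit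 113) (nat_lit 5) (nat_lit 123) (nat_lit 5) (nat_lit 124) (nat_lit 5) (nat_lit 398) (nat_lit 386) (nat_lit 236)) (XT.lf (nat_lit 0) (nat_lit 13979275286) (nat_lit 380) (nat_lit 35011871438) (nat_lit 456) (nat_lit 4692431741) (nat_lit 108) (nat_lit 5) (nat_lit 113) (nat_lit 5) (nat_lit 114) (nat_lit 5) (nat_lit 399) (nat_lit 386) (nat_lit 235)))) (XT.nd (nat_lit 78) (nat_lit 380) (nat_lit 0) (XT.lf (nat_lit 0) (nat_lit 713269291) (nat_lit 456) (nat_lit 11361051902) (nat_lit 76) (nat_lit 43096827618) (nat_lit 107) (nat_lit 5) (nat_lit 113) (nat_lit 5) (nat_lit 108) (nat_lit 5) (nat_lit 400) (nat_lit 386) (nat_lit 234)) (XT.nd (nat_lit 78) (nat_lit 0) (nat_lit 0) (XT.lf (nat_lit 0) (nat_lit 6719087104) (nat_lit 456) (nat_lit 37981546801) (nat_lit 76) (nat_lit 12004241870) (nat_lit 102) (nat_lit 5) (nat_lit 108) (nat_lit 5) (nat_lit 103) (nat_lit 5) (nat_lit 401) (nat_lit 386) (nat_lit 233)) (XT.lf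 (nat_lit 0) (nat_lit 13417159255) (nat_lit 456) (nat_lit 7802035886) (nat_lit 76) (nat_lit 37076496504) (nat_lit 102) (nat_lit 5) (nat_lit 108) (nat_lit 5) (nat_lit 103) (nat_lit 5) (nat_lit 402) (nat_lit 386) (nat_lit 232))))) (XT.nd (nat_lit 234) (nat_lit 608) (nat_lit 0) (XT.nd (nat_lit 78) (nat_lit 304) (nat_lit 0) (XT.lf (nat_lit 0) (nat_lit 20893877542) (nat_lit 456) (nat_lit 35332185904) (nat_lit 76) (nat_lit 3717798432) (nat_lit 97) (nat_lit 5) (nat_lit 103) (nat_lit 5) (nat_lit 98) (nat_lit 5) (nat_lit 403) (nat_lit 386) (nat_lit 231)) (XT.nd (nat_lit 78) (nat_lit 304) (nat_lit 0) (XT.lf (nat_lit 0) (nat_lit 29225166508) (nat_lit 456) (nat_lit 3102512376) (nat_lit 76) (nat_lit 29322725664) (nat_lit 97) (nat_lit 5) (nat_lit 103) (nat_lit 5) (nat_lit 98) (nat_lit 5) (nat_lit 404) (nat_lit 386) (nat_lit 230)) (XT.lf (nat_lit 0) (nat_lit 31753429967) (nat_lit 304) (nat_lit 6713999287)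 (nat_lit 380) (nat_lit 24950125261) (nat_lit 93) (nat_lit 5) (nat_lit 97) (nat_lit 5) (nat_lit 98) (nat_lit 5) (nat_lit 405) (nat_lit 386) (nat_lit 229)))) (XT.nd (nat_lit 156) (nat_lit 304) (nat_lit 0) (XT.nd (nat_lit 78) (nat_lit 0) (nat_lit 0) (XT.lf (nat_lit 0) (nat_lit 2966911599) (nat_lit 304) (nat_lit 45618378570) (nat_lit 380) (nat_lit 16667098160) (nat_lit 89) (nat_lit 5) (nat_lit 93) (nat_lit 5) (nat_lit 94) (nat_lit 5) (nat_lit 406) (nat_lit 386) (nat_lit 228)) (XT.lf (nat_lit 0) (nat_lit 40313565312) (nat_lit 304) (nat_lit 19538742206) (nat_lit 380) (nat_lit 7294493719) (nat_lit 89) (nat_lit 5) (nat_lit 93) (nat_lit 5) (nat_lit 94) (nat_lit 5) (nat_lit 407) (nat_lit 386) (nat_lit 227))) (XT.nd (nat_lit 78) (nat_lit 0) (nat_lit 0) (XT.lf (nat_lit 0) (nat_lit 2756801378) (nat_lit 304) (nat_lit 58558946695) (nat_lit 76) (nat_lit 7803620546) (nat_lit 85) (nat_lit 5) (nat_lit 89) (nat_lit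 5) (nat_lit 86) (nat_lit 5) (nat_lit 408) (nat_lit 386) (nat_lit 226)) (XT.lf (nat_lit 0) (nat_lit 13846506535) (nat_lit 304) (nat_lit 20861365721) (nat_lit 76) (nat_lit 36437664107) (nat_lit 85) (nat_lit 5) (nat_lit 89) (nat_lit 5) (nat_lit 86) (nat_lit 5) (nat_lit 409) (nat_lit 386) (nat_lit 225)))))) (XT.nd (nat_lit 546) (nat_lit 836) (nat_lit 0) (XT.nd (nat_lit 234) (nat_lit 532) (nat_lit 0) (XT.nd (nat_lit 78) (nat_lit 228) (nat_lit 0) (XT.lf (nat_lit 0) (nat_lit 19338586781) (nat_lit 304) (nat_lit 6452894285) (nat_lit 380) (nat_lit 47466492695) (nat_lit 81) (nat_lit 5) (nat_lit 85) (nat_lit 5) (nat_lit 86) (nat_lit 5) (nat_lit 410) (nat_lit 386) (nat_lit 224)) (XT.nd (nat_lit 78) (nat_lit 228) (nat_lit 0) (XT.lf (nat_lit 0) (nat_lit 39054123561) (nat_lit 380) (nat_lit 13555302592) (nat_lit 76) (nat_lit 22830586363) (nat_lit 81) (nat_lit 5) (nat_lit 86) (nat_lit 5) (nat_lit 82) (nat_lit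 5) (nat_lit 411) (nat_lit 386) (nat_lit 223)) (XT.lf (nat_lit 0) (nat_lit 29669387018) (nat_lit 228) (nat_lit 23878453409) (nat_lit 304) (nat_lit 24154916095) (nat_lit 78) (nat_lit 5) (nat_lit 81) (nat_lit 5) (nat_lit 82) (nat_lit 5) (nat_lit 412) (nat_lit 386) (nat_lit 222)))) (XT.nd (nat_lit 156) (nat_lit 228) (nat_lit 0) (XT.nd (nat_lit 78) (nat_lit 304) (nat_lit 0) (XT.lf (nat_lit 0) (nat_lit 69096720202) (nat_lit 304) (nat_lit 4644635405) (nat_lit 76) (nat_lit 6320758676) (nat_lit 78) (nat_lit 5) (nat_lit 82) (nat_lit 5) (nat_lit 79) (nat_lit 5) (nat_lit 413) (nat_lit 386) (nat_lit 221)) (XT.lf (nat_lit 0) (nat_lit 3852442994) (nat_lit 304) (nat_lit 40688867066) (nat_lit 76) (nat_lit 37942822567) (nat_lit 74) (nat_lit 5) (nat_lit 78) (nat_lit 5) (nat_lit 75) (nat_lit 5) (nat_lit 414) (nat_lit 386) (nat_lit 220))) (XT.nd (nat_lit 78) (nat_lit 0) (nat_lit 0) (XT.lf (nat_lit 0) (nat_lit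 5694932083) (nat_lit 228) (nat_lit 13515610852) (nat_lit 304) (nat_lit 65799327271) (nat_lit 71) (nat_lit 5) (nat_lit 74) (nat_lit 5) (nat_lit 75) (nat_lit 5) (nat_lit 415) (nat_lit 386) (nat_lit 219)) (XT.lf (nat_lit 0) (nat_lit 36333568296) (nat_lit 304) (nat_lit 32127196198) (nat_lit 76) (nat_lit 19151279482) (nat_lit 71) (nat_lit 5) (nat_lit 75) (nat_lit 5) (nat_lit 72) (nat_lit 5) (nat_lit 416) (nat_lit 386) (nat_lit 218))))) (XT.nd (nat_lit 234) (nat_lit 380) (nat_lit 0) (XT.nd (nat_lit 78) (nat_lit 228) (nat_lit 0) (XT.lf (nat_lit 0) (nat_lit 17765639067) (nat_lit 228) (nat_lit 37045127354) (nat_lit 304) (nat_lit 35508659258) (nat_lit 68) (nat_lit 5) (nat_lit 71) (nat_lit 5) (nat_lit 72) (nat_lit 5) (nat_lit 417) (nat_lit 386) (nat_lit 217)) (XT.nd (nat_lit 78) (nat_lit 228) (nat_lit 0) (XT.lf (nat_lit 0) (nat_lit 71267183617) (nat_lit 228) (nat_lit 3487836272) (nat_lit 304) (nat_lit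 18379997109) (nat_lit 68) (nat_lit 5) (nat_lit 71) (nat_lit 5) (nat_lit 72) (nat_lit 5) (nat_lit 418) (nat_lit 386) (nat_lit 216)) (XT.lf (nat_lit 0) (nat_lit 626482794) (nat_lit 228) (nat_lit 64176185233) (nat_lit 76) (nat_lit 31238591141) (nat_lit 65) (nat_lit 5) (nat_lit 68) (nat_lit 5) (nat_lit 66) (nat_lit 5) (nat_lit 419) (nat_lit 386) (nat_lit 215)))) (XT.nd (nat_lit 156) (nat_lit 152) (nat_lit 0) (XT.nd (nat_lit 78) (nat_lit 228) (nat_lit 0) (XT.lf (nat_lit 0) (nat_lit 20398338612) (nat_lit 228) (nat_lit 10396325864) (nat_lit 76) (nat_lit 68261446646) (nat_lit 65) (nat_lit 5) (nat_lit 68) (nat_lit 5) (nat_lit 66) (nat_lit 5) (nat_lit 420) (nat_lit 386) (nat_lit 214)) (XT.lf (nat_lit 0) (nat_lit 41989954568) (nat_lit 304) (nat_lit 54678868985) (nat_lit 76) (nat_lit 5511324001) (nat_lit 62) (nat_lit 5) (nat_lit 66) (nat_lit 5) (nat_lit 63) (nat_lit 5) (nat_lit 421) (nat_lit 386) (nat_lit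 213))) (XT.nd (nat_lit 78) (nat_lit 0) (nat_lit 0) (XT.lf (nat_lit 0) (nat_lit 2783232536) (nat_lit 152) (nat_lit 62604359215) (nat_lit 228) (nat_lit 40036472273) (nat_lit 60) (nat_lit 5) (nat_lit 62) (nat_lit 5) (nat_lit 63) (nat_lit 5) (nat_lit 422) (nat_lit 386) (nat_lit 212)) (XT.lf (nat_lit 0) (nat_lit 65015537048) (nat_lit 152) (nat_lit 25864808287) (nat_lit 228) (nat_lit 17903569482) (nat_lit 60) (nat_lit 5) (nat_lit 62) (nat_lit 5) (nat_lit 63) (nat_lit 5) (nat_lit 423) (nat_lit 386) (nat_lit 211))))))))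
noncomputable def xc198 : XT := (XT.nd (nat_lit 2106) (nat_lit 1216) (nat_lit 0) (XT.nd (nat_lit 1014) (nat_lit 1140) (nat_lit 0) (XT.nd (nat_lit 468) (nat_lit 608) (nat_lit 0) (XT.nd (nat_lit 234) (nat_lit 228) (nat_lit 0) (XT.nd (nat_lit 78) (nat_lit 152) (nat_lit 0) (XT.lf (nat_lit 0) (nat_lit 5658742952) (nat_lit 228) (nat_lit 93940580392) (nat_lit 76) (nat_lit 12683592076) (nat_lit 57) (nat_lit 5) (nat_lit 60) (nat_lit 5) (nat_lit 58) (nat_lit 5) (nat_lit 424) (nat_lit 386) (nat_lit 210)) (XT.nd (nat_lit 78) (nat_lit 152) (nat_lit 0) (XT.lf (nat_lit 0) (nat_lit 30974153844) (nat_lit 228) (nat_lit 31572553668) (nat_lit 76) (nat_lit 53336650670) (nat_lit 57) (nat_lit 5) (nat_lit 60) (nat_lit 5) (nat_lit 58) (nat_lit 5) (nat_lit 425) (nat_lit 386) (nat_lit 209)) (XT.lf (nat_lit 0) (nat_lit 35034033277) (nat_lit 152) (nat_lit 23067573646) (nat_lit 228) (nat_lit 61534902765) (nat_lit 55)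 (nat_lit 5) (nat_lit 57) (nat_lit 5) (nat_lit 58) (nat_lit 5) (nat_lit 426) (nat_lit 386) (nat_lit 208)))) (XT.nd (nat_lit 78) (nat_lit 228) (nat_lit 0) (XT.lf (nat_lit 0) (nat_lit 87415245498) (nat_lit 228) (nat_lit 17780479917) (nat_lit 76) (nat_lit 18340102889) (nat_lit 55) (nat_lit 5) (nat_lit 58) (nat_lit 5) (nat_lit 56) (nat_lit 5) (nat_lit 427) (nat_lit 386) (nat_lit 207)) (XT.nd (nat_lit 78) (nat_lit 76) (nat_lit 0) (XT.lf (nat_lit 0) (nat_lit 53722822074) (nat_lit 152) (nat_lit 65687999355) (nat_lit 228) (nat_lit 8158478819) (nat_lit 53) (nat_lit 5) (nat_lit 55) (nat_lit 5) (nat_lit 56) (nat_lit 5) (nat_lit 428) (nat_lit 386) (nat_lit 206)) (XT.lf (nat_lit 0) (nat_lit 20828538616) (nat_lit 228) (nat_lit 2707864721) (nat_lit 76) (nat_lit 108236221882) (nat_lit 52) (nat_lit 5) (nat_lit 55) (nat_lit 5) (nat_lit 53) (nat_lit 5) (nat_lit 429) (nat_lit 386) (nat_lit 205))))) (XT.nd (nat_lit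 234) (nat_lit 304) (nat_lit 0) (XT.nd (nat_lit 78) (nat_lit 152) (nat_lit 0) (XT.lf (nat_lit 0) (nat_lit 52493741146) (nat_lit 228) (nat_lit 62237580210) (nat_lit 76) (nat_lit 21372957323) (nat_lit 50) (nat_lit 5) (nat_lit 53) (nat_lit 5) (nat_lit 51) (nat_lit 5) (nat_lit 430) (nat_lit 386) (nat_lit 204)) (XT.nd (nat_lit 78) (nat_lit 0) (nat_lit 0) (XT.lf (nat_lit 0) (nat_lit 13766744192) (nat_lit 152) (nat_lit 72622227828) (nat_lit 228) (nat_lit 54231204517) (nat_lit 48) (nat_lit 5) (nat_lit 50) (nat_lit 5) (nat_lit 51) (nat_lit 5) (nat_lit 431) (nat_lit 386) (nat_lit 203)) (XT.lf (nat_lit 0) (nat_lit 95730988151) (nat_lit 152) (nat_lit 27301390459) (nat_lit 228) (nat_lit 22276820103) (nat_lit 48) (nat_lit 5) (nat_lit 50) (nat_lit 5) (nat_lit 51) (nat_lit 5) (nat_lit 432) (nat_lit 386) (nat_lit 202)))) (XT.nd (nat_lit 156) (nat_lit 152) (nat_lit 0) (XT.nd (nat_lit 78) (nat_lit 0) (nat_lit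 0) (XT.lf (nat_lit 0) (nat_lit 11747893831) (nat_lit 152) (nat_lit 118105074758) (nat_lit 76) (nat_lit 20329227100) (nat_lit 46) (nat_lit 5) (nat_lit 48) (nat_lit 5) (nat_lit 47) (nat_lit 5) (nat_lit 433) (nat_lit 386) (nat_lit 201)) (XT.lf (nat_lit 0) (nat_lit 48025571387) (nat_lit 152) (nat_lit 36547941267) (nat_lit 76) (nat_lit 70642051528) (nat_lit 46) (nat_lit 5) (nat_lit 48) (nat_lit 5) (nat_lit 47) (nat_lit 5) (nat_lit 434) (nat_lit 386) (nat_lit 200))) (XT.nd (nat_lit 78) (nat_lit 0) (nat_lit 0) (XT.lf (nat_lit 0) (nat_lit 50709084052) (nat_lit 152) (nat_lit 36199203445) (nat_lit 228) (nat_lit 73552755978) (nat_lit 44) (nat_lit 5) (nat_lit 46) (nat_lit 5) (nat_lit 47) (nat_lit 5) (nat_lit 435) (nat_lit 386) (nat_lit 199)) (XT.lf (nat_lit 0) (nat_lit 128591542657) (nat_lit 228) (nat_lit 22579000979) (nat_lit 76) (nat_lit 14755433039) (nat_lit 44) (nat_lit 5) (nat_lit 47) (nat_lit 5)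 (nat_lit 45) (nat_lit 4) (nat_lit 436) (nat_lit 386) (nat_lit 198)))))) (XT.nd (nat_lit 546) (nat_lit 532) (nat_lit 0) (XT.nd (nat_lit 234) (nat_lit 304) (nat_lit 0) (XT.nd (nat_lit 78) (nat_lit 152) (nat_lit 0) (XT.lf (nat_lit 0) (nat_lit 2395817282) (nat_lit 152) (nat_lit 100999548783) (nat_lit 76) (nat_lit 68182085606) (nat_lit 42) (nat_lit 5) (nat_lit 44) (nat_lit 5) (nat_lit 43) (nat_lit 5) (nat_lit 437) (nat_lit 386) (nat_lit 197)) (XT.nd (nat_lit 78) (nat_lit 152) (nat_lit 0) (XT.lf (nat_lit 0) (nat_lit 43246031590) (nat_lit 152) (nat_lit 8935079010) (nat_lit 76) (nat_lit 125280381300) (nat_lit 42) (nat_lit 5) (nat_lit 44) (nat_lit 5) (nat_lit 43) (nat_lit 5) (nat_lit 438) (nat_lit 386) (nat_lit 196)) (XT.lf (nat_lit 0) (nat_lit 87601362293) (nat_lit 228) (nat_lit 92984550897) (nat_lit 76) (nat_lit 2980690750) (nat_lit 40) (nat_lit 5) (nat_lit 43) (nat_lit 5) (nat_lit 41) (nat_lit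 4) (nat_lit 439) (nat_lit 386) (nat_lit 195)))) (XT.nd (nat_lit 156) (nat_lit 228) (nat_lit 0) (XT.nd (nat_lit 78) (nat_lit 0) (nat_lit 0) (XT.lf (nat_lit 0) (nat_lit 4707716600) (nat_lit 76) (nat_lit 130548978372) (nat_lit 152) (nat_lit 54666164921) (nat_lit 39) (nat_lit 5) (nat_lit 40) (nat_lit 5) (nat_lit 41) (nat_lit 4) (nat_lit 440) (nat_lit 386) (nat_lit 194)) (XT.lf (nat_lit 0) (nat_lit 110511932605) (nat_lit 76) (nat_lit 76357116049) (nat_lit 152) (nat_lit 9649167348) (nat_lit 39) (nat_lit 5) (nat_lit 40) (nat_lit 5) (nat_lit 41) (nat_lit 4) (nat_lit 441) (nat_lit 386) (nat_lit 193))) (XT.nd (nat_lit 78) (nat_lit 0) (nat_lit 0) (XT.lf (nat_lit 0) (nat_lit 18155937619) (nat_lit 152) (nat_lit 18541706280) (nat_lit 228) (nat_lit 166702179612) (nat_lit 36) (nat_lit 5) (nat_lit 38) (nat_lit 5) (nat_lit 39) (nat_lit 5) (nat_lit 442) (nat_lit 386) (nat_lit 192)) (XT.lf (nat_lit 0) (nat_lit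 87175796772) (nat_lit 228) (nat_lit 80881692141) (nat_lit 76) (nat_lit 42453199577) (nat_lit 36) (nat_lit 5) (nat_lit 39) (nat_lit 5) (nat_lit 37) (nat_lit 4) (nat_lit 443) (nat_lit 386) (nat_lit 191))))) (XT.nd (nat_lit 234) (nat_lit 228) (nat_lit 0) (XT.nd (nat_lit 78) (nat_lit 228) (nat_lit 0) (XT.lf (nat_lit 0) (nat_lit 29332662416) (nat_lit 76) (nat_lit 111606679219) (nat_lit 152) (nat_lit 76999680930) (nat_lit 35) (nat_lit 5) (nat_lit 36) (nat_lit 5) (nat_lit 37) (nat_lit 4) (nat_lit 444) (nat_lit 386) (nat_lit 190)) (XT.nd (nat_lit 78) (nat_lit 228) (nat_lit 0) (XT.lf (nat_lit 0) (nat_lit 147864962693) (nat_lit 76) (nat_lit 50895437107) (nat_lit 152) (nat_lit 26909906800) (nat_lit 35) (nat_lit 5) (nat_lit 36) (nat_lit 5) (nat_lit 37) (nat_lit 4) (nat_lit 445) (nat_lit 386) (nat_lit 189)) (XT.lf (nat_lit 0) (nat_lit 25694236265) (nat_lit 228) (nat_lit 194559848497) (nat_lit 76) (nat_lit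 13472422892) (nat_lit 32) (nat_lit 5) (nat_lit 35) (nat_lit 5) (nat_lit 33) (nat_lit 4) (nat_lit 446) (nat_lit 386) (nat_lit 188)))) (XT.nd (nat_lit 156) (nat_lit 152) (nat_lit 0) (XT.nd (nat_lit 78) (nat_lit 76) (nat_lit 0) (XT.lf (nat_lit 0) (nat_lit 82197442806) (nat_lit 228) (nat_lit 78729025732) (nat_lit 76) (nat_lit 81128332691) (nat_lit 32) (nat_lit 5) (nat_lit 35) (nat_lit 5) (nat_lit 33) (nat_lit 4) (nat_lit 447) (nat_lit 386) (nat_lit 187)) (XT.lf (nat_lit 0) (nat_lit 44310818074) (nat_lit 76) (nat_lit 97906409466) (nat_lit 152) (nat_lit 108547711099) (nat_lit 31) (nat_lit 5) (nat_lit 32) (nat_lit 5) (nat_lit 33) (nat_lit 4) (nat_lit 448) (nat_lit 386) (nat_lit 186))) (XT.nd (nat_lit 78) (nat_lit 152) (nat_lit 0) (XT.lf (nat_lit 0) (nat_lit 176235217053) (nat_lit 76) (nat_lit 30335707967) (nat_lit 152) (nat_lit 53273011772) (nat_lit 31) (nat_lit 5) (nat_lit 32) (nat_lit 5) (nat_lit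 33) (nat_lit 4) (nat_lit 449) (nat_lit 386) (nat_lit 185)) (XT.lf (nat_lit 0) (nat_lit 5990512515) (nat_lit 152) (nat_lit 223182142365) (nat_lit 76) (nat_lit 40131629271) (nat_lit 29) (nat_lit 5) (nat_lit 31) (nat_lit 5) (nat_lit 30) (nat_lit 4) (nat_lit 450) (nat_lit 386) (nat_lit 184))))))) (XT.nd (nat_lit 1014) (nat_lit 608) (nat_lit 0) (XT.nd (nat_lit 468) (nat_lit 304) (nat_lit 0) (XT.nd (nat_lit 234) (nat_lit 228) (nat_lit 0) (XT.nd (nat_lit 78) (nat_lit 76) (nat_lit 0) (XT.lf (nat_lit 0) (nat_lit 68362987516) (nat_lit 152) (nat_lit 95319156762) (nat_lit 76) (nat_lit 115415033388) (nat_lit 29) (nat_lit 5) (nat_lit 31) (nat_lit 5) (nat_lit 30) (nat_lit 4) (nat_lit 451) (nat_lit 386) (nat_lit 183)) (XT.nd (nat_lit 78) (nat_lit 0) (nat_lit 0) (XT.lf (nat_lit 0) (nat_lit 40223711104) (nat_lit 76) (nat_lit 94258021782) (nat_lit 152) (nat_lit 154866600679) (nat_lit 28) (nat_lit 5) (nat_lit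 29) (nat_lit 5) (nat_lit 30) (nat_lit 4) (nat_lit 452) (nat_lit 386) (nat_lit 182)) (XT.lf (nat_lit 0) (nat_lit 185852322196) (nat_lit 76) (nat_lit 19668017792) (nat_lit 152) (nat_lit 94511011083) (nat_lit 28) (nat_lit 5) (nat_lit 29) (nat_lit 5) (nat_lit 30) (nat_lit 4) (nat_lit 453) (nat_lit 386) (nat_lit 181)))) (XT.nd (nat_lit 78) (nat_lit 152) (nat_lit 0) (XT.lf (nat_lit 0) (nat_lit 27476916809) (nat_lit 76) (nat_lit 253978326873) (nat_lit 76) (nat_lit 29726057496) (nat_lit 27) (nat_lit 4) (nat_lit 28) (nat_lit 5) (nat_lit 28) (nat_lit 4) (nat_lit 454) (nat_lit 386) (nat_lit 180)) (XT.nd (nat_lit 78) (nat_lit 76) (nat_lit 0) (XT.lf (nat_lit 0) (nat_lit 39359828470) (nat_lit 152) (nat_lit 143565081842) (nat_lit 76) (nat_lit 139819568217) (nat_lit 26) (nat_lit 5) (nat_lit 28) (nat_lit 5) (nat_lit 27) (nat_lit 4) (nat_lit 455) (nat_lit 386) (nat_lit 179)) (XT.lf (nat_lit 0) (nat_lit 3195534012)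 (nat_lit 76) (nat_lit 107755052868) (nat_lit 152) (nat_lit 223908383849) (nat_lit 25) (nat_lit 5) (nat_lit 26) (nat_lit 5) (nat_lit 27) (nat_lit 4) (nat_lit 456) (nat_lit 386) (nat_lit 178))))) (XT.nd (nat_lit 234) (nat_lit 228) (nat_lit 0) (XT.nd (nat_lit 78) (nat_lit 76) (nat_lit 0) (XT.lf (nat_lit 0) (nat_lit 162277829640) (nat_lit 76) (nat_lit 26274080954) (nat_lit 152) (nat_lit 158905725604) (nat_lit 25) (nat_lit 5) (nat_lit 26) (nat_lit 5) (nat_lit 27) (nat_lit 4) (nat_lit 457) (nat_lit 386) (nat_lit 177)) (XT.nd (nat_lit 78) (nat_lit 76) (nat_lit 0) (XT.lf (nat_lit 0) (nat_lit 270958536127) (nat_lit 152) (nat_lit 32298124898) (nat_lit 0) (nat_lit 57383312163) (nat_lit 25) (nat_lit 5) (nat_lit 27) (nat_lit 4) (nat_lit 25) (nat_lit 4) (nat_lit 458) (nat_lit 386) (nat_lit 176)) (XT.lf (nat_lit 0) (nat_lit 132021882556) (nat_lit 76) (nat_lit 227955273196) (nat_lit 76) (nat_lit 14379688160)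 (nat_lit 24) (nat_lit 4) (nat_lit 25) (nat_lit 5) (nat_lit 25) (nat_lit 4) (nat_lit 459) (nat_lit 386) (nat_lit 175)))) (XT.nd (nat_lit 156) (nat_lit 76) (nat_lit 0) (XT.nd (nat_lit 78) (nat_lit 76) (nat_lit 0) (XT.lf (nat_lit 0) (nat_lit 63172415948) (nat_lit 152) (nat_lit 84072476219) (nat_lit 76) (nat_lit 241436385621) (nat_lit 23) (nat_lit 5) (nat_lit 25) (nat_lit 5) (nat_lit 24) (nat_lit 4) (nat_lit 460) (nat_lit 386) (nat_lit 174)) (XT.lf (nat_lit 0) (nat_lit 84573754628) (nat_lit 76) (nat_lit 60865275149) (nat_lit 152) (nat_lit 258205109158) (nat_lit 22) (nat_lit 5) (nat_lit 23) (nat_lit 5) (nat_lit 24) (nat_lit 4) (nat_lit 461) (nat_lit 386) (nat_lit 173))) (XT.nd (nat_lit 78) (nat_lit 76) (nat_lit 0) (XT.lf (nat_lit 0) (nat_lit 233731629283) (nat_lit 152) (nat_lit 155202507395) (nat_lit 0) (nat_lit 30325373735) (nat_lit 22) (nat_lit 5) (nat_lit 24) (nat_lit 4) (nat_lit 22) (nat_lit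 4) (nat_lit 462) (nat_lit 386) (nat_lit 172)) (XT.lf (nat_lit 0) (nat_lit 16384880645) (nat_lit 76) (nat_lit 311307320587) (nat_lit 76) (nat_lit 107900782129) (nat_lit 21) (nat_lit 4) (nat_lit 22) (nat_lit 5) (nat_lit 22) (nat_lit 4) (nat_lit 463) (nat_lit 386) (nat_lit 171)))))) (XT.nd (nat_lit 546) (nat_lit 304) (nat_lit 0) (XT.nd (nat_lit 234) (nat_lit 152) (nat_lit 0) (XT.nd (nat_lit 78) (nat_lit 152) (nat_lit 0) (XT.lf (nat_lit 0) (nat_lit 201939417083) (nat_lit 76) (nat_lit 227039556109) (nat_lit 76) (nat_lit 23632748214) (nat_lit 21) (nat_lit 4) (nat_lit 22) (nat_lit 5) (nat_lit 22) (nat_lit 4) (nat_lit 464) (nat_lit 386) (nat_lit 170)) (XT.nd (nat_lit 78) (nat_lit 76) (nat_lit 0) (XT.lf (nat_lit 0) (nat_lit 62772874508) (nat_lit 152) (nat_lit 74722671759) (nat_lit 76) (nat_lit 332935239111) (nat_lit 20) (nat_lit 5) (nat_lit 22) (nat_lit 5) (nat_lit 21) (nat_lit 4) (nat_lit 465) (nat_lit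 386) (nat_lit 169)) (XT.lf (nat_lit 0) (nat_lit 113261637197) (nat_lit 76) (nat_lit 41211019430) (nat_lit 152) (nat_lit 334560370156) (nat_lit 19) (nat_lit 5) (nat_lit 20) (nat_lit 5) (nat_lit 21) (nat_lit 4) (nat_lit 466) (nat_lit 386) (nat_lit 168)))) (XT.nd (nat_lit 156) (nat_lit 152) (nat_lit 0) (XT.nd (nat_lit 78) (nat_lit 0) (nat_lit 0) (XT.lf (nat_lit 0) (nat_lit 252978415897) (nat_lit 152) (nat_lit 196218967308) (nat_lit 0) (nat_lit 59256947667) (nat_lit 19) (nat_lit 5) (nat_lit 21) (nat_lit 4) (nat_lit 19) (nat_lit 4) (nat_lit 467) (nat_lit 386) (nat_lit 167)) (XT.lf (nat_lit 0) (nat_lit 357084827669) (nat_lit 152) (nat_lit 8364955958) (nat_lit 0) (nat_lit 163363148328) (nat_lit 19) (nat_lit 5) (nat_lit 21) (nat_lit 4) (nat_lit 19) (nat_lit 4) (nat_lit 468) (nat_lit 386) (nat_lit 166))) (XT.nd (nat_lit 78) (nat_lit 76) (nat_lit 0) (XT.lf (nat_lit 0) (nat_lit 195126605390) (nat_lit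 76) (nat_lit 274316212608) (nat_lit 76) (nat_lit 80594332209) (nat_lit 18) (nat_lit 4) (nat_lit 19) (nat_lit 5) (nat_lit 19) (nat_lit 4) (nat_lit 469) (nat_lit 386) (nat_lit 165)) (XT.lf (nat_lit 0) (nat_lit 14756730154) (nat_lit 152) (nat_lit 163470775066) (nat_lit 76) (nat_lit 394076100918) (nat_lit 17) (nat_lit 5) (nat_lit 19) (nat_lit 5) (nat_lit 18) (nat_lit 4) (nat_lit 470) (nat_lit 386) (nat_lit 164))))) (XT.nd (nat_lit 234) (nat_lit 228) (nat_lit 0) (XT.nd (nat_lit 78) (nat_lit 0) (nat_lit 0) (XT.lf (nat_lit 0) (nat_lit 37416939524) (nat_lit 76) (nat_lit 75333886707) (nat_lit 152) (nat_lit 482837298788) (nat_lit 16) (nat_lit 5) (nat_lit 17) (nat_lit 5) (nat_lit 18) (nat_lit 4) (nat_lit 471) (nat_lit 386) (nat_lit 163)) (XT.nd (nat_lit 78) (nat_lit 0) (nat_lit 0) (XT.lf (nat_lit 0) (nat_lit 218968871785) (nat_lit 152) (nat_lit 366430464464) (nat_lit 0) (nat_lit 34471321373) (nat_lit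 16) (nat_lit 5) (nat_lit 18) (nat_lit 4) (nat_lit 16) (nat_lit 4) (nat_lit 472) (nat_lit 386) (nat_lit 162)) (XT.lf (nat_lit 0) (nat_lit 331732607010) (nat_lit 152) (nat_lit 166338071423) (nat_lit 0) (nat_lit 147234899064) (nat_lit 16) (nat_lit 5) (nat_lit 18) (nat_lit 4) (nat_lit 16) (nat_lit 4) (nat_lit 473) (nat_lit 386) (nat_lit 161)))) (XT.nd (nat_lit 156) (nat_lit 152) (nat_lit 0) (XT.nd (nat_lit 78) (nat_lit 0) (nat_lit 0) (XT.lf (nat_lit 0) (nat_lit 45205433361) (nat_lit 76) (nat_lit 405634694037) (nat_lit 76) (nat_lit 221136836058) (nat_lit 15) (nat_lit 4) (nat_lit 16) (nat_lit 5) (nat_lit 16) (nat_lit 4) (nat_lit 474) (nat_lit 386) (nat_lit 160)) (XT.lf (nat_lit 0) (nat_lit 273100637407) (nat_lit 76) (nat_lit 305619220246) (nat_lit 76) (nat_lit 121121219378) (nat_lit 15) (nat_lit 4) (nat_lit 16) (nat_lit 5) (nat_lit 16) (nat_lit 4) (nat_lit 475) (nat_lit 386) (nat_lit 159))) (XT.nd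 (nat_lit 78) (nat_lit 152) (nat_lit 0) (XT.lf (nat_lit 0) (nat_lit 512390260496) (nat_lit 76) (nat_lit 200603140706) (nat_lit 76) (nat_lit 16105003754) (nat_lit 15) (nat_lit 4) (nat_lit 16) (nat_lit 5) (nat_lit 16) (nat_lit 4) (nat_lit 476) (nat_lit 386) (nat_lit 158)) (XT.lf (nat_lit 0) (nat_lit 2433178851) (nat_lit 76) (nat_lit 88752892079) (nat_lit 152) (nat_lit 668557130651) (nat_lit 13) (nat_lit 5) (nat_lit 14) (nat_lit 5) (nat_lit 15) (nat_lit 4) (nat_lit 477) (nat_lit 386) (nat_lit 157))))))))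
noncomputable def xc199 : XT := (XT.nd (nat_lit 2106) (nat_lit 2964) (nat_lit 0) (XT.nd (nat_lit 1014) (nat_lit 2660) (nat_lit 0) (XT.nd (nat_lit 468) (nat_lit 380) (nat_lit 0) (XT.nd (nat_lit 234) (nat_lit 0) (nat_lit 76) (XT.nd (nat_lit 78) (nat_lit 0) (nat_lit 0) (XT.lf (nat_lit 0) (nat_lit 5375073584) (nat_lit 836) (nat_lit 7390699760) (nat_lit 836) (nat_lit 7390699760) (nat_lit 118) (nat_lit 3) (nat_lit 129) (nat_lit 3) (nat_lit 129) (nat_lit 5) (nat_lit 387) (nat_lit 387) (nat_lit 246)) (XT.nd (nat_lit 78) (nat_lit 0) (nat_lit 76) (XT.lf (nat_lit 76) (nat_lit 4963645464) (nat_lit 0) (nat_lit 6172084340) (nat_lit 836) (nat_lit 30179177100) (nat_lit 119) (nat_lit 5) (nat_lit 118) (nat_lit 3) (nat_lit 129) (nat_lit 5) (nat_lit 388) (nat_lit 387) (nat_lit 245)) (XT.lf (nat_lit 0) (nat_lit 12013509406) (nat_lit 760) (nat_lit 16371950980) (nat_lit 836) (nat_lit 13957860733) (nat_lit 119)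 (nat_lit 5) (nat_lit 129) (nat_lit 5) (nat_lit 130) (nat_lit 5) (nat_lit 389) (nat_lit 387) (nat_lit 244)))) (XT.nd (nat_lit 78) (nat_lit 0) (nat_lit 76) (XT.lf (nat_lit 76) (nat_lit 4652615185) (nat_lit 0) (nat_lit 8453984120) (nat_lit 836) (nat_lit 30307986985) (nat_lit 120) (nat_lit 5) (nat_lit 119) (nat_lit 5) (nat_lit 130) (nat_lit 5) (nat_lit 390) (nat_lit 387) (nat_lit 243)) (XT.nd (nat_lit 78) (nat_lit 0) (nat_lit 0) (XT.lf (nat_lit 0) (nat_lit 14728616442) (nat_lit 760) (nat_lit 17429593231) (nat_lit 836) (nat_lit 12357492657) (nat_lit 120) (nat_lit 5) (nat_lit 130) (nat_lit 5) (nat_lit 131) (nat_lit 5) (nat_lit 391) (nat_lit 387) (nat_lit 242)) (XT.lf (nat_lit 76) (nat_lit 4989018920) (nat_lit 0) (nat_lit 11657012599) (nat_lit 836) (nat_lit 29015128990) (nat_lit 121) (nat_lit 5) (nat_lit 120) (nat_lit 5) (nat_lit 131) (nat_lit 5) (nat_lit 392) (nat_lit 387) (nat_lit 241))))) (XT.nd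 (nat_lit 234) (nat_lit 608) (nat_lit 0) (XT.nd (nat_lit 78) (nat_lit 0) (nat_lit 0) (XT.lf (nat_lit 0) (nat_lit 19111327731) (nat_lit 760) (nat_lit 17875947648) (nat_lit 836) (nat_lit 9854016832) (nat_lit 121) (nat_lit 5) (nat_lit 131) (nat_lit 5) (nat_lit 132) (nat_lit 5) (nat_lit 393) (nat_lit 387) (nat_lit 240)) (XT.nd (nat_lit 78) (nat_lit 0) (nat_lit 76) (XT.lf (nat_lit 76) (nat_lit 6061469715) (nat_lit 0) (nat_lit 15922160067) (nat_lit 836) (nat_lit 26082614744) (nat_lit 122) (nat_lit 5) (nat_lit 121) (nat_lit 5) (nat_lit 132) (nat_lit 5) (nat_lit 394) (nat_lit 387) (nat_lit 239)) (XT.lf (nat_lit 0) (nat_lit 25402072935) (nat_lit 760) (nat_lit 17624212944) (nat_lit 836) (nat_lit 6306033305) (nat_lit 122) (nat_lit 5) (nat_lit 132) (nat_lit 5) (nat_lit 133) (nat_lit 5) (nat_lit 395) (nat_lit 387) (nat_lit 238)))) (XT.nd (nat_lit 156) (nat_lit 684) (nat_lit 0) (XT.nd (nat_lit 78) (nat_lit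 0) (nat_lit 76) (XT.lf (nat_lit 76) (nat_lit 7967882149) (nat_lit 0) (nat_lit 21407152313) (nat_lit 836) (nat_lit 21267484281) (nat_lit 123) (nat_lit 5) (nat_lit 122) (nat_lit 5) (nat_lit 133) (nat_lit 5) (nat_lit 396) (nat_lit 387) (nat_lit 237)) (XT.lf (nat_lit 0) (nat_lit 33868442587) (nat_lit 760) (nat_lit 16578496164) (nat_lit 76) (nat_lit 1555200534) (nat_lit 123) (nat_lit 5) (nat_lit 133) (nat_lit 5) (nat_lit 124) (nat_lit 5) (nat_lit 397) (nat_lit 387) (nat_lit 236))) (XT.nd (nat_lit 78) (nat_lit 0) (nat_lit 0) (XT.lf (nat_lit 0) (nat_lit 10816208118) (nat_lit 760) (nat_lit 28288449374) (nat_lit 836) (nat_lit 14299177431) (nat_lit 113) (nat_lit 5) (nat_lit 123) (nat_lit 5) (nat_lit 124) (nat_lit 5) (nat_lit 398) (nat_lit 387) (nat_lit 235)) (XT.lf (nat_lit 0) (nat_lit 40154747183) (nat_lit 760) (nat_lit 4727085632) (nat_lit 836) (nat_lit 9979825891) (nat_lit 113) (nat_lit 5) (nat_lit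 123) (nat_lit 5) (nat_lit 124) (nat_lit 5) (nat_lit 399) (nat_lit 387) (nat_lit 234)))))) (XT.nd (nat_lit 546) (nat_lit 1140) (nat_lit 0) (XT.nd (nat_lit 234) (nat_lit 684) (nat_lit 0) (XT.nd (nat_lit 78) (nat_lit 456) (nat_lit 0) (XT.lf (nat_lit 0) (nat_lit 14725211067) (nat_lit 380) (nat_lit 36763470373) (nat_lit 456) (nat_lit 4876652315) (nat_lit 108) (nat_lit 5) (nat_lit 113) (nat_lit 5) (nat_lit 114) (nat_lit 5) (nat_lit 400) (nat_lit 387) (nat_lit 233)) (XT.nd (nat_lit 78) (nat_lit 380) (nat_lit 0) (XT.lf (nat_lit 0) (nat_lit 795397390) (nat_lit 456) (nat_lit 11882810451) (nat_lit 76) (nat_lit 45249152717) (nat_lit 107) (nat_lit 5) (nat_lit 113) (nat_lit 5) (nat_lit 108) (nat_lit 5) (nat_lit 401) (nat_lit 387) (nat_lit 232)) (XT.lf (nat_lit 0) (nat_lit 7100013735) (nat_lit 456) (nat_lit 39832816345) (nat_lit 76) (nat_lit 12605019479) (nat_lit 102) (nat_lit 5) (nat_lit 108) (nat_lit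 5) (nat_lit 103) (nat_lit 5) (nat_lit 402) (nat_lit 387) (nat_lit 231)))) (XT.nd (nat_lit 156) (nat_lit 304) (nat_lit 0) (XT.nd (nat_lit 78) (nat_lit 380) (nat_lit 0) (XT.lf (nat_lit 0) (nat_lit 14130847957) (nat_lit 456) (nat_lit 8146606447) (nat_lit 76) (nat_lit 38930859915) (nat_lit 102) (nat_lit 5) (nat_lit 108) (nat_lit 5) (nat_lit 103) (nat_lit 5) (nat_lit 403) (nat_lit 387) (nat_lit 230)) (XT.lf (nat_lit 0) (nat_lit 21980113624) (nat_lit 456) (nat_lit 37051956028) (nat_lit 76) (nat_lit 3906888807) (nat_lit 97) (nat_lit 5) (nat_lit 103) (nat_lit 5) (nat_lit 98) (nat_lit 5) (nat_lit 404) (nat_lit 387) (nat_lit 229))) (XT.nd (nat_lit 78) (nat_lit 304) (nat_lit 0) (XT.lf (nat_lit 0) (nat_lit 30725988837) (nat_lit 456) (nat_lit 3213029261) (nat_lit 76) (nat_lit 30791909998) (nat_lit 97) (nat_lit 5) (nat_lit 103) (nat_lit 5) (nat_lit 98) (nat_lit 5) (nat_lit 405) (nat_lit 387) (nat_lit 228))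 (XT.lf (nat_lit 0) (nat_lit 33384990704) (nat_lit 304) (nat_lit 7044175250) (nat_lit 380) (nat_lit 26157330425) (nat_lit 93) (nat_lit 5) (nat_lit 97) (nat_lit 5) (nat_lit 98) (nat_lit 5) (nat_lit 406) (nat_lit 387) (nat_lit 227))))) (XT.nd (nat_lit 234) (nat_lit 532) (nat_lit 0) (XT.nd (nat_lit 78) (nat_lit 304) (nat_lit 0) (XT.lf (nat_lit 0) (nat_lit 3160258310) (nat_lit 304) (nat_lit 47891619421) (nat_lit 380) (nat_lit 17461247101) (nat_lit 89) (nat_lit 5) (nat_lit 93) (nat_lit 5) (nat_lit 94) (nat_lit 5) (nat_lit 407) (nat_lit 387) (nat_lit 226)) (XT.nd (nat_lit 78) (nat_lit 304) (nat_lit 0) (XT.lf (nat_lit 0) (nat_lit 42372101798) (nat_lit 304) (nat_lit 20508366861) (nat_lit 380) (nat_lit 7621879388) (nat_lit 89) (nat_lit 5) (nat_lit 93) (nat_lit 5) (nat_lit 94) (nat_lit 5) (nat_lit 408) (nat_lit 387) (nat_lit 225)) (XT.lf (nat_lit 0) (nat_lit 2929870108) (nat_lit 304) (nat_lit 61441895773)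 (nat_lit 76) (nat_lit 8201795257) (nat_lit 85) (nat_lit 5) (nat_lit 89) (nat_lit 5) (nat_lit 86) (nat_lit 5) (nat_lit 409) (nat_lit 387) (nat_lit 224)))) (XT.nd (nat_lit 156) (nat_lit 228) (nat_lit 0) (XT.nd (nat_lit 78) (nat_lit 304) (nat_lit 0) (XT.lf (nat_lit 0) (nat_lit 14572382968) (nat_lit 304) (nat_lit 21861578524) (nat_lit 76) (nat_lit 38267160345) (nat_lit 85) (nat_lit 5) (nat_lit 89) (nat_lit 5) (nat_lit 86) (nat_lit 5) (nat_lit 410) (nat_lit 387) (nat_lit 223)) (XT.lf (nat_lit 0) (nat_lit 20347680386) (nat_lit 304) (nat_lit 6765986470) (nat_lit 380) (nat_lit 49805561874) (nat_lit 81) (nat_lit 5) (nat_lit 85) (nat_lit 5) (nat_lit 86) (nat_lit 5) (nat_lit 411) (nat_lit 387) (nat_lit 222))) (XT.nd (nat_lit 78) (nat_lit 228) (nat_lit 0) (XT.lf (nat_lit 0) (nat_lit 41038030575) (nat_lit 380) (nat_lit 14191487871) (nat_lit 76) (nat_lit 23980922147) (nat_lit 81) (nat_lit 5) (nat_lit 86)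 (nat_lit 5) (nat_lit 82) (nat_lit 5) (nat_lit 412) (nat_lit 387) (nat_lit 221)) (XT.lf (nat_lit 0) (nat_lit 31193765578) (nat_lit 228) (nat_lit 25061820661) (nat_lit 304) (nat_lit 25330778509) (nat_lit 78) (nat_lit 5) (nat_lit 81) (nat_lit 5) (nat_lit 82) (nat_lit 5) (nat_lit 413) (nat_lit 387) (nat_lit 220))))))) (XT.nd (nat_lit 1092) (nat_lit 1216) (nat_lit 0) (XT.nd (nat_lit 546) (nat_lit 760) (nat_lit 0) (XT.nd (nat_lit 234) (nat_lit 456) (nat_lit 0) (XT.nd (nat_lit 78) (nat_lit 532) (nat_lit 0) (XT.lf (nat_lit 0) (nat_lit 72580621535) (nat_lit 304) (nat_lit 4836606213) (nat_lit 76) (nat_lit 6646527637) (nat_lit 78) (nat_lit 5) (nat_lit 82) (nat_lit 5) (nat_lit 79) (nat_lit 5) (nat_lit 414) (nat_lit 387) (nat_lit 219)) (XT.nd (nat_lit 78) (nat_lit 228) (nat_lit 0) (XT.lf (nat_lit 0) (nat_lit 4073839240) (nat_lit 304) (nat_lit 42682737137) (nat_lit 76) (nat_lit 39850313888) (nat_lit 74)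 (nat_lit 5) (nat_lit 78) (nat_lit 5) (nat_lit 75) (nat_lit 5) (nat_lit 415) (nat_lit 387) (nat_lit 218)) (XT.lf (nat_lit 0) (nat_lit 6019597562) (nat_lit 228) (nat_lit 14179499667) (nat_lit 304) (nat_lit 69059855330) (nat_lit 71) (nat_lit 5) (nat_lit 74) (nat_lit 5) (nat_lit 75) (nat_lit 5) (nat_lit 416) (nat_lit 387) (nat_lit 217)))) (XT.nd (nat_lit 156) (nat_lit 228) (nat_lit 0) (XT.nd (nat_lit 78) (nat_lit 228) (nat_lit 0) (XT.lf (nat_lit 0) (nat_lit 38177116053) (nat_lit 304) (nat_lit 33694370895) (nat_lit 76) (nat_lit 20119806426) (nat_lit 71) (nat_lit 5) (nat_lit 75) (nat_lit 5) (nat_lit 72) (nat_lit 5) (nat_lit 417) (nat_lit 387) (nat_lit 216)) (XT.lf (nat_lit 0) (nat_lit 18692474115) (nat_lit 228) (nat_lit 38885022398) (nat_lit 304) (nat_lit 37256581972) (nat_lit 68) (nat_lit 5) (nat_lit 71) (nat_lit 5) (nat_lit 72) (nat_lit 5) (nat_lit 418) (nat_lit 387) (nat_lit 215))) (XT.nd (nat_lit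 78) (nat_lit 228) (nat_lit 0) (XT.lf (nat_lit 0) (nat_lit 74867260031) (nat_lit 228) (nat_lit 3650455397) (nat_lit 304) (nat_lit 19272796727) (nat_lit 68) (nat_lit 5) (nat_lit 71) (nat_lit 5) (nat_lit 72) (nat_lit 5) (nat_lit 419) (nat_lit 387) (nat_lit 214)) (XT.lf (nat_lit 0) (nat_lit 682728817) (nat_lit 228) (nat_lit 67346983167) (nat_lit 76) (nat_lit 32812356370) (nat_lit 65) (nat_lit 5) (nat_lit 68) (nat_lit 5) (nat_lit 66) (nat_lit 5) (nat_lit 420) (nat_lit 387) (nat_lit 213))))) (XT.nd (nat_lit 234) (nat_lit 380) (nat_lit 0) (XT.nd (nat_lit 78) (nat_lit 380) (nat_lit 0) (XT.lf (nat_lit 0) (nat_lit 21441990670) (nat_lit 228) (nat_lit 10879940892) (nat_lit 76) (nat_lit 71685791046) (nat_lit 65) (nat_lit 5) (nat_lit 68) (nat_lit 5) (nat_lit 66) (nat_lit 5) (nat_lit 421) (nat_lit 387) (nat_lit 212)) (XT.nd (nat_lit 78) (nat_lit 152) (nat_lit 0) (XT.lf (nat_lit 0) (nat_lit 44112807746)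 (nat_lit 304) (nat_lit 57376224527) (nat_lit 76) (nat_lit 5798947922) (nat_lit 62) (nat_lit 5) (nat_lit 66) (nat_lit 5) (nat_lit 63) (nat_lit 5) (nat_lit 422) (nat_lit 387) (nat_lit 211)) (XT.lf (nat_lit 0) (nat_lit 2958391943) (nat_lit 152) (nat_lit 65721384708) (nat_lit 228) (nat_lit 42014343676) (nat_lit 60) (nat_lit 5) (nat_lit 62) (nat_lit 5) (nat_lit 63) (nat_lit 5) (nat_lit 423) (nat_lit 387) (nat_lit 210)))) (XT.nd (nat_lit 156) (nat_lit 152) (nat_lit 0) (XT.nd (nat_lit 78) (nat_lit 228) (nat_lit 0) (XT.lf (nat_lit 0) (nat_lit 68300597500) (nat_lit 152) (nat_lit 27145484446) (nat_lit 228) (nat_lit 18775936328) (nat_lit 60) (nat_lit 5) (nat_lit 62) (nat_lit 5) (nat_lit 63) (nat_lit 5) (nat_lit 424) (nat_lit 387) (nat_lit 209)) (XT.lf (nat_lit 0) (nat_lit 5963449252) (nat_lit 228) (nat_lit 98602271589) (nat_lit 76) (nat_lit 13330246163) (nat_lit 57) (nat_lit 5) (nat_lit 60) (nat_lit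 5) (nat_lit 58) (nat_lit 5) (nat_lit 425) (nat_lit 387) (nat_lit 208))) (XT.nd (nat_lit 78) (nat_lit 152) (nat_lit 0) (XT.lf (nat_lit 0) (nat_lit 32543594062) (nat_lit 228) (nat_lit 33117526283) (nat_lit 76) (nat_lit 56015363663) (nat_lit 57) (nat_lit 5) (nat_lit 60) (nat_lit 5) (nat_lit 58) (nat_lit 5) (nat_lit 426) (nat_lit 387) (nat_lit 207)) (XT.lf (nat_lit 0) (nat_lit 36818847186) (nat_lit 152) (nat_lit 24208102321) (nat_lit 228) (nat_lit 64590367356) (nat_lit 55) (nat_lit 5) (nat_lit 57) (nat_lit 5) (nat_lit 58) (nat_lit 5) (nat_lit 427) (nat_lit 387) (nat_lit 206)))))) (XT.nd (nat_lit 546) (nat_lit 532) (nat_lit 0) (XT.nd (nat_lit 234) (nat_lit 456) (nat_lit 0) (XT.nd (nat_lit 78) (nat_lit 228) (nat_lit 0) (XT.lf (nat_lit 0) (nat_lit 91805496213) (nat_lit 228) (nat_lit 18637189695) (nat_lit 76) (nat_lit 19268954440) (nat_lit 55) (nat_lit 5) (nat_lit 58) (nat_lit 5) (nat_lit 56) (nat_lit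 5) (nat_lit 428) (nat_lit 387) (nat_lit 205)) (XT.nd (nat_lit 78) (nat_lit 76) (nat_lit 0) (XT.lf (nat_lit 0) (nat_lit 56440756199) (nat_lit 152) (nat_lit 68959663099) (nat_lit 228) (nat_lit 8546388409) (nat_lit 53) (nat_lit 5) (nat_lit 55) (nat_lit 5) (nat_lit 56) (nat_lit 5) (nat_lit 429) (nat_lit 387) (nat_lit 204)) (XT.lf (nat_lit 0) (nat_lit 21888416754) (nat_lit 228) (nat_lit 2812364534) (nat_lit 76) (nat_lit 113659548357) (nat_lit 52) (nat_lit 5) (nat_lit 55) (nat_lit 5) (nat_lit 53) (nat_lit 5) (nat_lit 430) (nat_lit 387) (nat_lit 203)))) (XT.nd (nat_lit 156) (nat_lit 152) (nat_lit 0) (XT.nd (nat_lit 78) (nat_lit 152) (nat_lit 0) (XT.lf (nat_lit 0) (nat_lit 55136668121) (nat_lit 228) (nat_lit 65318350436) (nat_lit 76) (nat_lit 22453557987) (nat_lit 50) (nat_lit 5) (nat_lit 53) (nat_lit 5) (nat_lit 51) (nat_lit 5) (nat_lit 431) (nat_lit 387) (nat_lit 202)) (XT.lf (nat_lit 0) (nat_lit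 14485688431) (nat_lit 152) (nat_lit 76240581402) (nat_lit 228) (nat_lit 56924019192) (nat_lit 48) (nat_lit 5) (nat_lit 50) (nat_lit 5) (nat_lit 51) (nat_lit 5) (nat_lit 432) (nat_lit 387) (nat_lit 201))) (XT.nd (nat_lit 78) (nat_lit 152) (nat_lit 0) (XT.lf (nat_lit 0) (nat_lit 100546687111) (nat_lit 152) (nat_lit 28654309679) (nat_lit 228) (nat_lit 23372808202) (nat_lit 48) (nat_lit 5) (nat_lit 50) (nat_lit 5) (nat_lit 51) (nat_lit 5) (nat_lit 433) (nat_lit 387) (nat_lit 200)) (XT.lf (nat_lit 0) (nat_lit 12352396197) (nat_lit 152) (nat_lit 123980426844) (nat_lit 76) (nat_lit 21357623699) (nat_lit 46) (nat_lit 5) (nat_lit 48) (nat_lit 5) (nat_lit 47) (nat_lit 5) (nat_lit 434) (nat_lit 387) (nat_lit 199))))) (XT.nd (nat_lit 234) (nat_lit 380) (nat_lit 0) (XT.nd (nat_lit 78) (nat_lit 152) (nat_lit 0) (XT.lf (nat_lit 0) (nat_lit 50443142979) (nat_lit 152) (nat_lit 38346860567) (nat_lit 76) (nat_lit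 74185521004) (nat_lit 46) (nat_lit 5) (nat_lit 48) (nat_lit 5) (nat_lit 47) (nat_lit 5) (nat_lit 435) (nat_lit 387) (nat_lit 198)) (XT.nd (nat_lit 78) (nat_lit 0) (nat_lit 0) (XT.lf (nat_lit 0) (nat_lit 53272556700) (nat_lit 152) (nat_lit 37997099784) (nat_lit 228) (nat_lit 77213638397) (nat_lit 44) (nat_lit 5) (nat_lit 46) (nat_lit 5) (nat_lit 47) (nat_lit 5) (nat_lit 436) (nat_lit 387) (nat_lit 197)) (XT.lf (nat_lit 0) (nat_lit 135036494038) (nat_lit 228) (nat_lit 23680683539) (nat_lit 76) (nat_lit 15504326326) (nat_lit 44) (nat_lit 5) (nat_lit 47) (nat_lit 5) (nat_lit 45) (nat_lit 4) (nat_lit 437) (nat_lit 387) (nat_lit 196)))) (XT.nd (nat_lit 156) (nat_lit 228) (nat_lit 0) (XT.nd (nat_lit 78) (nat_lit 0) (nat_lit 0) (XT.lf (nat_lit 0) (nat_lit 2530918713) (nat_lit 152) (nat_lit 106022189670) (nat_lit 76) (nat_lit 71602447719) (nat_lit 42) (nat_lit 5) (nat_lit 44) (nat_lit 5) (nat_lit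 43) (nat_lit 5) (nat_lit 438) (nat_lit 387) (nat_lit 195)) (XT.lf (nat_lit 0) (nat_lit 45422914661) (nat_lit 152) (nat_lit 9355798149) (nat_lit 76) (nat_lit 131555122110) (nat_lit 42) (nat_lit 5) (nat_lit 44) (nat_lit 5) (nat_lit 43) (nat_lit 5) (nat_lit 439) (nat_lit 387) (nat_lit 194))) (XT.nd (nat_lit 78) (nat_lit 76) (nat_lit 0) (XT.lf (nat_lit 0) (nat_lit 91995894323) (nat_lit 228) (nat_lit 97607623673) (nat_lit 76) (nat_lit 3140690566) (nat_lit 40) (nat_lit 5) (nat_lit 43) (nat_lit 5) (nat_lit 41) (nat_lit 4) (nat_lit 440) (nat_lit 387) (nat_lit 193)) (XT.lf (nat_lit 0) (nat_lit 4968835349) (nat_lit 76) (nat_lit 137064871292) (nat_lit 152) (nat_lit 57384585133) (nat_lit 39) (nat_lit 5) (nat_lit 40) (nat_lit 5) (nat_lit 41) (nat_lit 4) (nat_lit 441) (nat_lit 387) (nat_lit 192))))))))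
noncomputable def xc200 : XT := (XT.nd (nat_lit 2106) (nat_lit 304) (nat_lit 0) (XT.nd (nat_lit 1014) (nat_lit 684) (nat_lit 0) (XT.nd (nat_lit 468) (nat_lit 304) (nat_lit 0) (XT.nd (nat_lit 234) (nat_lit 304) (nat_lit 0) (XT.nd (nat_lit 78) (nat_lit 228) (nat_lit 0) (XT.lf (nat_lit 0) (nat_lit 116062036776) (nat_lit 76) (nat_lit 80163966138) (nat_lit 152) (nat_lit 10117446636) (nat_lit 39) (nat_lit 5) (nat_lit 40) (nat_lit 5) (nat_lit 41) (nat_lit 4) (nat_lit 442) (nat_lit 387) (nat_lit 191)) (XT.nd (nat_lit 78) (nat_lit 0) (nat_lit 0) (XT.lf (nat_lit 0) (nat_lit 19088295281) (nat_lit 152) (nat_lit 19457685951) (nat_lit 228) (nat_lit 175023158737) (nat_lit 36) (nat_lit 5) (nat_lit 38) (nat_lit 5) (nat_lit 39) (nat_lit 5) (nat_lit 443) (nat_lit 387) (nat_lit 190)) (XT.lf (nat_lit 0) (nat_lit 91547566162) (nat_lit 228) (nat_lit 84901908074) (nat_lit 76) (nat_lit 44586097835) (nat_lit 36) (nat_lit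 5) (nat_lit 39) (nat_lit 5) (nat_lit 37) (nat_lit 4) (nat_lit 444) (nat_lit 387) (nat_lit 189)))) (XT.nd (nat_lit 78) (nat_lit 228) (nat_lit 0) (XT.lf (nat_lit 0) (nat_lit 30822779232) (nat_lit 76) (nat_lit 117176257609) (nat_lit 152) (nat_lit 80836298670) (nat_lit 35) (nat_lit 5) (nat_lit 36) (nat_lit 5) (nat_lit 37) (nat_lit 4) (nat_lit 445) (nat_lit 387) (nat_lit 188)) (XT.nd (nat_lit 78) (nat_lit 228) (nat_lit 0) (XT.lf (nat_lit 0) (nat_lit 155280576252) (nat_lit 76) (nat_lit 53429965562) (nat_lit 152) (nat_lit 28242672324) (nat_lit 35) (nat_lit 5) (nat_lit 36) (nat_lit 5) (nat_lit 37) (nat_lit 4) (nat_lit 446) (nat_lit 387) (nat_lit 187)) (XT.lf (nat_lit 0) (nat_lit 26991194670) (nat_lit 228) (nat_lit 204264989127) (nat_lit 76) (nat_lit 14156035375) (nat_lit 32) (nat_lit 5) (nat_lit 35) (nat_lit 5) (nat_lit 33) (nat_lit 4) (nat_lit 447) (nat_lit 387) (nat_lit 186))))) (XT.nd (nat_lit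 234) (nat_lit 228) (nat_lit 0) (XT.nd (nat_lit 78) (nat_lit 76) (nat_lit 0) (XT.lf (nat_lit 0) (nat_lit 86318978366) (nat_lit 228) (nat_lit 82643713405) (nat_lit 76) (nat_lit 85194264886) (nat_lit 32) (nat_lit 5) (nat_lit 35) (nat_lit 5) (nat_lit 33) (nat_lit 4) (nat_lit 448) (nat_lit 387) (nat_lit 185)) (XT.nd (nat_lit 78) (nat_lit 0) (nat_lit 0) (XT.lf (nat_lit 0) (nat_lit 46547771566) (nat_lit 76) (nat_lit 102791759681) (nat_lit 152) (nat_lit 113963080816) (nat_lit 31) (nat_lit 5) (nat_lit 32) (nat_lit 5) (nat_lit 33) (nat_lit 4) (nat_lit 449) (nat_lit 387) (nat_lit 184)) (XT.lf (nat_lit 0) (nat_lit 185067370847) (nat_lit 76) (nat_lit 31842997882) (nat_lit 152) (nat_lit 55925218705) (nat_lit 31) (nat_lit 5) (nat_lit 32) (nat_lit 5) (nat_lit 33) (nat_lit 4) (nat_lit 450) (nat_lit 387) (nat_lit 183)))) (XT.nd (nat_lit 156) (nat_lit 76) (nat_lit 0) (XT.nd (nat_lit 78) (nat_lit 0) (nat_lit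 0) (XT.lf (nat_lit 0) (nat_lit 6301056144) (nat_lit 152) (nat_lit 234320428424) (nat_lit 76) (nat_lit 42147461688) (nat_lit 29) (nat_lit 5) (nat_lit 31) (nat_lit 5) (nat_lit 30) (nat_lit 4) (nat_lit 451) (nat_lit 387) (nat_lit 182)) (XT.lf (nat_lit 0) (nat_lit 71791630228) (nat_lit 152) (nat_lit 100065285020) (nat_lit 76) (nat_lit 121194595489) (nat_lit 29) (nat_lit 5) (nat_lit 31) (nat_lit 5) (nat_lit 30) (nat_lit 4) (nat_lit 452) (nat_lit 387) (nat_lit 181))) (XT.nd (nat_lit 78) (nat_lit 0) (nat_lit 0) (XT.lf (nat_lit 0) (nat_lit 42254406407) (nat_lit 76) (nat_lit 98961711378) (nat_lit 152) (nat_lit 162599116454) (nat_lit 28) (nat_lit 5) (nat_lit 29) (nat_lit 5) (nat_lit 30) (nat_lit 4) (nat_lit 453) (nat_lit 387) (nat_lit 180)) (XT.lf (nat_lit 0) (nat_lit 195163519018) (nat_lit 76) (nat_lit 20642645832) (nat_lit 152) (nat_lit 99226262344) (nat_lit 28) (nat_lit 5) (nat_lit 29) (nat_lit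 5) (nat_lit 30) (nat_lit 4) (nat_lit 454) (nat_lit 387) (nat_lit 179)))))) (XT.nd (nat_lit 546) (nat_lit 304) (nat_lit 0) (XT.nd (nat_lit 234) (nat_lit 152) (nat_lit 0) (XT.nd (nat_lit 78) (nat_lit 152) (nat_lit 0) (XT.lf (nat_lit 0) (nat_lit 28869392419) (nat_lit 76) (nat_lit 266668375578) (nat_lit 76) (nat_lit 31202109144) (nat_lit 27) (nat_lit 4) (nat_lit 28) (nat_lit 5) (nat_lit 28) (nat_lit 4) (nat_lit 455) (nat_lit 387) (nat_lit 178)) (XT.nd (nat_lit 78) (nat_lit 76) (nat_lit 0) (XT.lf (nat_lit 0) (nat_lit 41337270487) (nat_lit 152) (nat_lit 150725279921) (nat_lit 76) (nat_lit 146818678622) (nat_lit 26) (nat_lit 5) (nat_lit 28) (nat_lit 5) (nat_lit 27) (nat_lit 4) (nat_lit 456) (nat_lit 387) (nat_lit 177)) (XT.lf (nat_lit 0) (nat_lit 3373075501) (nat_lit 76) (nat_lit 113134318646) (nat_lit 152) (nat_lit 235094060368) (nat_lit 25) (nat_lit 5) (nat_lit 26) (nat_lit 5) (nat_lit 27) (nat_lit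 4) (nat_lit 457) (nat_lit 387) (nat_lit 176)))) (XT.nd (nat_lit 156) (nat_lit 152) (nat_lit 0) (XT.nd (nat_lit 78) (nat_lit 0) (nat_lit 0) (XT.lf (nat_lit 0) (nat_lit 170408639968) (nat_lit 76) (nat_lit 27579702273) (nat_lit 152) (nat_lit 166841733148) (nat_lit 25) (nat_lit 5) (nat_lit 26) (nat_lit 5) (nat_lit 27) (nat_lit 4) (nat_lit 458) (nat_lit 387) (nat_lit 175)) (XT.lf (nat_lit 0) (nat_lit 284514998467) (nat_lit 152) (nat_lit 33896616598) (nat_lit 0) (nat_lit 60259929229) (nat_lit 25) (nat_lit 5) (nat_lit 27) (nat_lit 4) (nat_lit 25) (nat_lit 4) (nat_lit 459) (nat_lit 387) (nat_lit 174))) (XT.nd (nat_lit 78) (nat_lit 76) (nat_lit 0) (XT.lf (nat_lit 0) (nat_lit 138639126477) (nat_lit 76) (nat_lit 239345268286) (nat_lit 76) (nat_lit 15089871545) (nat_lit 24) (nat_lit 4) (nat_lit 25) (nat_lit 5) (nat_lit 25) (nat_lit 4) (nat_lit 460) (nat_lit 387) (nat_lit 173)) (XT.lf (nat_lit 0) (nat_lit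 66339150398) (nat_lit 152) (nat_lit 88260450331) (nat_lit 76) (nat_lit 253515334596) (nat_lit 23) (nat_lit 5) (nat_lit 25) (nat_lit 5) (nat_lit 24) (nat_lit 4) (nat_lit 461) (nat_lit 387) (nat_lit 172))))) (XT.nd (nat_lit 234) (nat_lit 152) (nat_lit 0) (XT.nd (nat_lit 78) (nat_lit 76) (nat_lit 0) (XT.lf (nat_lit 0) (nat_lit 88817839644) (nat_lit 76) (nat_lit 63901109305) (nat_lit 152) (nat_lit 271106997911) (nat_lit 22) (nat_lit 5) (nat_lit 23) (nat_lit 5) (nat_lit 24) (nat_lit 4) (nat_lit 462) (nat_lit 387) (nat_lit 171)) (XT.nd (nat_lit 78) (nat_lit 76) (nat_lit 0) (XT.lf (nat_lit 0) (nat_lit 245425909490) (nat_lit 152) (nat_lit 162947699137) (nat_lit 0) (nat_lit 31848491762) (nat_lit 22) (nat_lit 5) (nat_lit 24) (nat_lit 4) (nat_lit 22) (nat_lit 4) (nat_lit 463) (nat_lit 387) (nat_lit 170)) (XT.lf (nat_lit 0) (nat_lit 17218817440) (nat_lit 76) (nat_lit 326865555384) (nat_lit 76) (nat_lit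 113287881049) (nat_lit 21) (nat_lit 4) (nat_lit 22) (nat_lit 5) (nat_lit 22) (nat_lit 4) (nat_lit 464) (nat_lit 387) (nat_lit 169)))) (XT.nd (nat_lit 156) (nat_lit 76) (nat_lit 0) (XT.nd (nat_lit 78) (nat_lit 76) (nat_lit 0) (XT.lf (nat_lit 0) (nat_lit 212050381045) (nat_lit 76) (nat_lit 238384742265) (nat_lit 76) (nat_lit 24806823542) (nat_lit 21) (nat_lit 4) (nat_lit 22) (nat_lit 5) (nat_lit 22) (nat_lit 4) (nat_lit 465) (nat_lit 387) (nat_lit 168)) (XT.lf (nat_lit 0) (nat_lit 65918489709) (nat_lit 152) (nat_lit 78445247569) (nat_lit 76) (nat_lit 349588238296) (nat_lit 20) (nat_lit 5) (nat_lit 22) (nat_lit 5) (nat_lit 21) (nat_lit 4) (nat_lit 466) (nat_lit 387) (nat_lit 167))) (XT.nd (nat_lit 78) (nat_lit 0) (nat_lit 0) (XT.lf (nat_lit 0) (nat_lit 118938058161) (nat_lit 76) (nat_lit 43265079059) (nat_lit 152) (nat_lit 351281198039) (nat_lit 19) (nat_lit 5) (nat_lit 20) (nat_lit 5) (nat_lit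 21) (nat_lit 4) (nat_lit 467) (nat_lit 387) (nat_lit 166)) (XT.lf (nat_lit 0) (nat_lit 265633954890) (nat_lit 152) (nat_lit 206016981750) (nat_lit 0) (nat_lit 62225779412) (nat_lit 19) (nat_lit 5) (nat_lit 21) (nat_lit 4) (nat_lit 19) (nat_lit 4) (nat_lit 468) (nat_lit 387) (nat_lit 165))))))) (XT.nd (nat_lit 47190) (nat_lit 0) (nat_lit 6232) (XT.nd (nat_lit 468) (nat_lit 76) (nat_lit 0) (XT.nd (nat_lit 234) (nat_lit 76) (nat_lit 0) (XT.nd (nat_lit 78) (nat_lit 152) (nat_lit 0) (XT.lf (nat_lit 0) (nat_lit 374945372099) (nat_lit 152) (nat_lit 8770885733) (nat_lit 0) (nat_lit 171537005136) (nat_lit 19) (nat_lit 5) (nat_lit 21) (nat_lit 4) (nat_lit 19) (nat_lit 4) (nat_lit 469) (nat_lit 387) (nat_lit 164)) (XT.nd (nat_lit 78) (nat_lit 76) (nat_lit 0) (XT.lf (nat_lit 0) (nat_lit 204895055004) (nat_lit 76) (nat_lit 288026096013) (nat_lit 76) (nat_lit 84617546684) (nat_lit 18) (nat_lit 4) (nat_lit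 19) (nat_lit 5) (nat_lit 19) (nat_lit 4) (nat_lit 470) (nat_lit 387) (nat_lit 163)) (XT.lf (nat_lit 0) (nat_lit 15500560973) (nat_lit 152) (nat_lit 171632573015) (nat_lit 76) (nat_lit 413785352369) (nat_lit 17) (nat_lit 5) (nat_lit 19) (nat_lit 5) (nat_lit 18) (nat_lit 4) (nat_lit 471) (nat_lit 387) (nat_lit 162)))) (XT.nd (nat_lit 78) (nat_lit 0) (nat_lit 0) (XT.lf (nat_lit 0) (nat_lit 39299337937) (nat_lit 76) (nat_lit 79094918823) (nat_lit 152) (nat_lit 506972979694) (nat_lit 16) (nat_lit 5) (nat_lit 17) (nat_lit 5) (nat_lit 18) (nat_lit 4) (nat_lit 472) (nat_lit 387) (nat_lit 161)) (XT.nd (nat_lit 78) (nat_lit 0) (nat_lit 0) (XT.lf (nat_lit 0) (nat_lit 229923008346) (nat_lit 152) (nat_lit 384740789735) (nat_lit 0) (nat_lit 36200107435) (nat_lit 16) (nat_lit 5) (nat_lit 18) (nat_lit 4) (nat_lit 16) (nat_lit 4) (nat_lit 473) (nat_lit 387) (nat_lit 160)) (XT.lf (nat_lit 0) (nat_lit 348324659239)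 (nat_lit 152) (nat_lit 174644310277) (nat_lit 0) (nat_lit 154601615439) (nat_lit 16) (nat_lit 5) (nat_lit 18) (nat_lit 4) (nat_lit 16) (nat_lit 4) (nat_lit 474) (nat_lit 387) (nat_lit 159))))) (XT.nd (nat_lit 46410) (nat_lit 0) (nat_lit 7828) (XT.nd (nat_lit 78) (nat_lit 0) (nat_lit 0) (XT.lf (nat_lit 0) (nat_lit 47476197734) (nat_lit 76) (nat_lit 425911263548) (nat_lit 76) (nat_lit 232188083664) (nat_lit 15) (nat_lit 4) (nat_lit 16) (nat_lit 5) (nat_lit 16) (nat_lit 4) (nat_lit 475) (nat_lit 387) (nat_lit 158)) (XT.nd (nat_lit 46254) (nat_lit 0) (nat_lit 7828) (XT.lf (nat_lit 0) (nat_lit 286765662330) (nat_lit 76) (nat_lit 320895262029) (nat_lit 76) (nat_lit 127171952541) (nat_lit 15) (nat_lit 4) (nat_lit 16) (nat_lit 5) (nat_lit 16) (nat_lit 4) (nat_lit 476) (nat_lit 387) (nat_lit 157)) (XT.lf (nat_lit 0) (nat_lit 5682545712) (nat_lit 836) (nat_lit 7739896974) (nat_lit 836) (nat_lit 7739896974)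 (nat_lit 118) (nat_lit 3) (nat_lit 129) (nat_lit 3) (nat_lit 129) (nat_lit 5) (nat_lit 388) (nat_lit 388) (nat_lit 244)))) (XT.nd (nat_lit 156) (nat_lit 0) (nat_lit 76) (XT.nd (nat_lit 78) (nat_lit 0) (nat_lit 76) (XT.lf (nat_lit 76) (nat_lit 5251847229) (nat_lit 0) (nat_lit 6515043309) (nat_lit 836) (nat_lit 31610002662) (nat_lit 119) (nat_lit 5) (nat_lit 118) (nat_lit 3) (nat_lit 129) (nat_lit 5) (nat_lit 389) (nat_lit 388) (nat_lit 243)) (XT.lf (nat_lit 0) (nat_lit 12684506657) (nat_lit 760) (nat_lit 17148343848) (nat_lit 836) (nat_lit 14624082164) (nat_lit 119) (nat_lit 5) (nat_lit 129) (nat_lit 5) (nat_lit 130) (nat_lit 5) (nat_lit 390) (nat_lit 388) (nat_lit 242))) (XT.nd (nat_lit 78) (nat_lit 0) (nat_lit 76) (XT.lf (nat_lit 76) (nat_lit 4926769905) (nat_lit 0) (nat_lit 8902780795) (nat_lit 836) (nat_lit 31752347246) (nat_lit 120) (nat_lit 5) (nat_lit 119) (nat_lit 5) (nat_lit 130)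 (nat_lit 5) (nat_lit 391) (nat_lit 388) (nat_lit 241)) (XT.lf (nat_lit 0) (nat_lit 15529060574) (nat_lit 760) (nat_lit 18257883299) (nat_lit 836) (nat_lit 12951308064) (nat_lit 120) (nat_lit 5) (nat_lit 130) (nat_lit 5) (nat_lit 131) (nat_lit 5) (nat_lit 392) (nat_lit 388) (nat_lit 240)))))) (XT.nd (nat_lit 546) (nat_lit 1216) (nat_lit 0) (XT.nd (nat_lit 234) (nat_lit 532) (nat_lit 0) (XT.nd (nat_lit 78) (nat_lit 0) (nat_lit 76) (XT.lf (nat_lit 76) (nat_lit 5280962854) (nat_lit 0) (nat_lit 12258998733) (nat_lit 836) (nat_lit 30401142338) (nat_lit 121) (nat_lit 5) (nat_lit 120) (nat_lit 5) (nat_lit 131) (nat_lit 5) (nat_lit 393) (nat_lit 388) (nat_lit 239)) (XT.nd (nat_lit 78) (nat_lit 0) (nat_lit 0) (XT.lf (nat_lit 0) (nat_lit 20125303387) (nat_lit 760) (nat_lit 18726024690) (nat_lit 836) (nat_lit 10329076676) (nat_lit 121) (nat_lit 5) (nat_lit 131) (nat_lit 5) (nat_lit 132) (nat_lit 5) (nat_lit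 394) (nat_lit 388) (nat_lit 238)) (XT.lf (nat_lit 76) (nat_lit 6407558374) (nat_lit 0) (nat_lit 16731552360) (nat_lit 836) (nat_lit 27327600945) (nat_lit 122) (nat_lit 5) (nat_lit 121) (nat_lit 5) (nat_lit 132) (nat_lit 5) (nat_lit 395) (nat_lit 388) (nat_lit 237)))) (XT.nd (nat_lit 156) (nat_lit 684) (nat_lit 0) (XT.nd (nat_lit 78) (nat_lit 0) (nat_lit 0) (XT.lf (nat_lit 0) (nat_lit 26725597589) (nat_lit 760) (nat_lit 18461549637) (nat_lit 836) (nat_lit 6609088199) (nat_lit 122) (nat_lit 5) (nat_lit 132) (nat_lit 5) (nat_lit 133) (nat_lit 5) (nat_lit 396) (nat_lit 388) (nat_lit 236)) (XT.lf (nat_lit 76) (nat_lit 8409442566) (nat_lit 0) (nat_lit 22485894715) (nat_lit 836) (nat_lit 22276702541) (nat_lit 123) (nat_lit 5) (nat_lit 122) (nat_lit 5) (nat_lit 133) (nat_lit 5) (nat_lit 397) (nat_lit 388) (nat_lit 235))) (XT.nd (nat_lit 78) (nat_lit 760) (nat_lit 0) (XT.lf (nat_lit 0) (nat_lit 35610836323)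 (nat_lit 760) (nat_lit 17363704709) (nat_lit 76) (nat_lit 1625230636) (nat_lit 123) (nat_lit 5) (nat_lit 133) (nat_lit 5) (nat_lit 124) (nat_lit 5) (nat_lit 398) (nat_lit 388) (nat_lit 234)) (XT.lf (nat_lit 0) (nat_lit 11400029686) (nat_lit 760) (nat_lit 29707171831) (nat_lit 836) (nat_lit 14964434832) (nat_lit 113) (nat_lit 5) (nat_lit 123) (nat_lit 5) (nat_lit 124) (nat_lit 5) (nat_lit 399) (nat_lit 388) (nat_lit 233))))) (XT.nd (nat_lit 234) (nat_lit 760) (nat_lit 0) (XT.nd (nat_lit 78) (nat_lit 456) (nat_lit 0) (XT.lf (nat_lit 0) (nat_lit 42203447554) (nat_lit 760) (nat_lit 4967535140) (nat_lit 836) (nat_lit 10431482451) (nat_lit 113) (nat_lit 5) (nat_lit 123) (nat_lit 5) (nat_lit 124) (nat_lit 5) (nat_lit 400) (nat_lit 388) (nat_lit 232)) (XT.nd (nat_lit 78) (nat_lit 76) (nat_lit 0) (XT.lf (nat_lit 0) (nat_lit 15504076623) (nat_lit 380) (nat_lit 38602555787) (nat_lit 456) (nat_lit 5074769727)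 (nat_lit 108) (nat_lit 5) (nat_lit 113) (nat_lit 5) (nat_lit 114) (nat_lit 5) (nat_lit 401) (nat_lit 388) (nat_lit 231)) (XT.lf (nat_lit 0) (nat_lit 877312052) (nat_lit 456) (nat_lit 12434960910) (nat_lit 76) (nat_lit 47509328012) (nat_lit 107) (nat_lit 5) (nat_lit 113) (nat_lit 5) (nat_lit 108) (nat_lit 5) (nat_lit 402) (nat_lit 388) (nat_lit 230)))) (XT.nd (nat_lit 156) (nat_lit 380) (nat_lit 0) (XT.nd (nat_lit 78) (nat_lit 0) (nat_lit 0) (XT.lf (nat_lit 0) (nat_lit 7495805601) (nat_lit 456) (nat_lit 41781094082) (nat_lit 76) (nat_lit 13235783391) (nat_lit 102) (nat_lit 5) (nat_lit 108) (nat_lit 5) (nat_lit 103) (nat_lit 5) (nat_lit 403) (nat_lit 388) (nat_lit 229)) (XT.lf (nat_lit 0) (nat_lit 14876239097) (nat_lit 456) (nat_lit 8512638598) (nat_lit 76) (nat_lit 40877891423) (nat_lit 102) (nat_lit 5) (nat_lit 108) (nat_lit 5) (nat_lit 103) (nat_lit 5) (nat_lit 404) (nat_lit 388) (nat_lit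 228))) (XT.nd (nat_lit 78) (nat_lit 0) (nat_lit 0) (XT.lf (nat_lit 0) (nat_lit 23116799309) (nat_lit 456) (nat_lit 38862069321) (nat_lit 76) (nat_lit 4105136154) (nat_lit 97) (nat_lit 5) (nat_lit 103) (nat_lit 5) (nat_lit 98) (nat_lit 5) (nat_lit 405) (nat_lit 388) (nat_lit 227)) (XT.lf (nat_lit 0) (nat_lit 32298173997) (nat_lit 456) (nat_lit 3333219287) (nat_lit 76) (nat_lit 32334270170) (nat_lit 97) (nat_lit 5) (nat_lit 103) (nat_lit 5) (nat_lit 98) (nat_lit 5) (nat_lit 406) (nat_lit 388) (nat_lit 226))))))))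
noncomputable def xc201 : XT := (XT.nd (nat_lit 2106) (nat_lit 1748) (nat_lit 0) (XT.nd (nat_lit 1014) (nat_lit 1520) (nat_lit 0) (XT.nd (nat_lit 468) (nat_lit 988) (nat_lit 0) (XT.nd (nat_lit 234) (nat_lit 608) (nat_lit 0) (XT.nd (nat_lit 78) (nat_lit 304) (nat_lit 0) (XT.lf (nat_lit 0) (nat_lit 35094049073) (nat_lit 304) (nat_lit 7391373581) (nat_lit 380) (nat_lit 27428642662) (nat_lit 93) (nat_lit 5) (nat_lit 97) (nat_lit 5) (nat_lit 98) (nat_lit 5) (nat_lit 407) (nat_lit 388) (nat_lit 225)) (XT.nd (nat_lit 78) (nat_lit 0) (nat_lit 0) (XT.lf (nat_lit 0) (nat_lit 3359088578) (nat_lit 304) (nat_lit 50279236150) (nat_lit 380) (nat_lit 18298748488) (nat_lit 89) (nat_lit 5) (nat_lit 93) (nat_lit 5) (nat_lit 94) (nat_lit 5) (nat_lit 408) (nat_lit 388) (nat_lit 224)) (XT.lf (nat_lit 0) (nat_lit 44529580557) (nat_lit 304) (nat_lit 21527152592) (nat_lit 380) (nat_lit 7969105769) (nat_lit 89) (nat_lit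 5) (nat_lit 93) (nat_lit 5) (nat_lit 94) (nat_lit 5) (nat_lit 409) (nat_lit 388) (nat_lit 223)))) (XT.nd (nat_lit 78) (nat_lit 304) (nat_lit 0) (XT.lf (nat_lit 0) (nat_lit 3108317047) (nat_lit 304) (nat_lit 64473175815) (nat_lit 76) (nat_lit 8619135527) (nat_lit 85) (nat_lit 5) (nat_lit 89) (nat_lit 5) (nat_lit 86) (nat_lit 5) (nat_lit 410) (nat_lit 388) (nat_lit 222)) (XT.nd (nat_lit 78) (nat_lit 304) (nat_lit 0) (XT.lf (nat_lit 0) (nat_lit 15331433959) (nat_lit 304) (nat_lit 22915786264) (nat_lit 76) (nat_lit 40187423608) (nat_lit 85) (nat_lit 5) (nat_lit 89) (nat_lit 5) (nat_lit 86) (nat_lit 5) (nat_lit 411) (nat_lit 388) (nat_lit 221)) (XT.lf (nat_lit 0) (nat_lit 21403308637) (nat_lit 304) (nat_lit 7095621368) (nat_lit 380) (nat_lit 52264769260) (nat_lit 81) (nat_lit 5) (nat_lit 85) (nat_lit 5) (nat_lit 86) (nat_lit 5) (nat_lit 412) (nat_lit 388) (nat_lit 220))))) (XT.nd (nat_lit 234)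 (nat_lit 760) (nat_lit 0) (XT.nd (nat_lit 78) (nat_lit 228) (nat_lit 0) (XT.lf (nat_lit 0) (nat_lit 43118232182) (nat_lit 380) (nat_lit 14863348114) (nat_lit 76) (nat_lit 25187955978) (nat_lit 81) (nat_lit 5) (nat_lit 86) (nat_lit 5) (nat_lit 82) (nat_lit 5) (nat_lit 413) (nat_lit 388) (nat_lit 219)) (XT.nd (nat_lit 78) (nat_lit 0) (nat_lit 0) (XT.lf (nat_lit 0) (nat_lit 32790559714) (nat_lit 228) (nat_lit 26305337618) (nat_lit 304) (nat_lit 26568398259) (nat_lit 78) (nat_lit 5) (nat_lit 81) (nat_lit 5) (nat_lit 82) (nat_lit 5) (nat_lit 414) (nat_lit 388) (nat_lit 218)) (XT.lf (nat_lit 0) (nat_lit 76236015717) (nat_lit 304) (nat_lit 5041918645) (nat_lit 76) (nat_lit 6987680348) (nat_lit 78) (nat_lit 5) (nat_lit 82) (nat_lit 5) (nat_lit 79) (nat_lit 5) (nat_lit 415) (nat_lit 388) (nat_lit 217)))) (XT.nd (nat_lit 156) (nat_lit 228) (nat_lit 0) (XT.nd (nat_lit 78) (nat_lit 228) (nat_lit 0) (XT.lf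 (nat_lit 0) (nat_lit 4303630156) (nat_lit 304) (nat_lit 44780072830) (nat_lit 76) (nat_lit 41852217511) (nat_lit 74) (nat_lit 5) (nat_lit 78) (nat_lit 5) (nat_lit 75) (nat_lit 5) (nat_lit 416) (nat_lit 388) (nat_lit 216)) (XT.lf (nat_lit 0) (nat_lit 6356785036) (nat_lit 228) (nat_lit 14877688502) (nat_lit 304) (nat_lit 72486146687) (nat_lit 71) (nat_lit 5) (nat_lit 74) (nat_lit 5) (nat_lit 75) (nat_lit 5) (nat_lit 417) (nat_lit 388) (nat_lit 215))) (XT.nd (nat_lit 78) (nat_lit 228) (nat_lit 0) (XT.lf (nat_lit 0) (nat_lit 40110343142) (nat_lit 304) (nat_lit 35343547387) (nat_lit 76) (nat_lit 21135740484) (nat_lit 71) (nat_lit 5) (nat_lit 75) (nat_lit 5) (nat_lit 72) (nat_lit 5) (nat_lit 418) (nat_lit 388) (nat_lit 214)) (XT.lf (nat_lit 0) (nat_lit 19662066615) (nat_lit 228) (nat_lit 40818061434) (nat_lit 304) (nat_lit 39094458463) (nat_lit 68) (nat_lit 5) (nat_lit 71) (nat_lit 5) (nat_lit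 72) (nat_lit 5) (nat_lit 419) (nat_lit 388) (nat_lit 213)))))) (XT.nd (nat_lit 546) (nat_lit 684) (nat_lit 0) (XT.nd (nat_lit 234) (nat_lit 608) (nat_lit 0) (XT.nd (nat_lit 78) (nat_lit 228) (nat_lit 0) (XT.lf (nat_lit 0) (nat_lit 78643926646) (nat_lit 228) (nat_lit 3822299992) (nat_lit 304) (nat_lit 20212672175) (nat_lit 68) (nat_lit 5) (nat_lit 71) (nat_lit 5) (nat_lit 72) (nat_lit 5) (nat_lit 420) (nat_lit 388) (nat_lit 212)) (XT.nd (nat_lit 78) (nat_lit 0) (nat_lit 0) (XT.lf (nat_lit 0) (nat_lit 739470141) (nat_lit 228) (nat_lit 70679854930) (nat_lit 76) (nat_lit 34463709492) (nat_lit 65) (nat_lit 5) (nat_lit 68) (nat_lit 5) (nat_lit 66) (nat_lit 5) (nat_lit 421) (nat_lit 388) (nat_lit 211)) (XT.lf (nat_lit 0) (nat_lit 22535618663) (nat_lit 228) (nat_lit 11391102322) (nat_lit 76) (nat_lit 75280304697) (nat_lit 65) (nat_lit 5) (nat_lit 68) (nat_lit 5) (nat_lit 66) (nat_lit 5) (nat_lit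 422) (nat_lit 388) (nat_lit 210)))) (XT.nd (nat_lit 156) (nat_lit 228) (nat_lit 0) (XT.nd (nat_lit 78) (nat_lit 152) (nat_lit 0) (XT.lf (nat_lit 0) (nat_lit 46339632215) (nat_lit 304) (nat_lit 60211849443) (nat_lit 76) (nat_lit 6099832026) (nat_lit 62) (nat_lit 5) (nat_lit 66) (nat_lit 5) (nat_lit 63) (nat_lit 5) (nat_lit 423) (nat_lit 388) (nat_lit 209)) (XT.lf (nat_lit 0) (nat_lit 3138962587) (nat_lit 152) (nat_lit 68995487986) (nat_lit 228) (nat_lit 44093335499) (nat_lit 60) (nat_lit 5) (nat_lit 62) (nat_lit 5) (nat_lit 63) (nat_lit 5) (nat_lit 424) (nat_lit 388) (nat_lit 208))) (XT.nd (nat_lit 78) (nat_lit 228) (nat_lit 0) (XT.lf (nat_lit 0) (nat_lit 71746723610) (nat_lit 152) (nat_lit 28491362519) (nat_lit 228) (nat_lit 19694042325) (nat_lit 60) (nat_lit 5) (nat_lit 62) (nat_lit 5) (nat_lit 63) (nat_lit 5) (nat_lit 425) (nat_lit 388) (nat_lit 207)) (XT.lf (nat_lit 0) (nat_lit 6281366977)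 (nat_lit 228) (nat_lit 103500332722) (nat_lit 76) (nat_lit 14008073194) (nat_lit 57) (nat_lit 5) (nat_lit 60) (nat_lit 5) (nat_lit 58) (nat_lit 5) (nat_lit 426) (nat_lit 388) (nat_lit 206))))) (XT.nd (nat_lit 234) (nat_lit 532) (nat_lit 0) (XT.nd (nat_lit 78) (nat_lit 152) (nat_lit 0) (XT.lf (nat_lit 0) (nat_lit 34189578778) (nat_lit 228) (nat_lit 34742876458) (nat_lit 76) (nat_lit 58826907774) (nat_lit 57) (nat_lit 5) (nat_lit 60) (nat_lit 5) (nat_lit 58) (nat_lit 5) (nat_lit 427) (nat_lit 388) (nat_lit 205)) (XT.nd (nat_lit 78) (nat_lit 0) (nat_lit 0) (XT.lf (nat_lit 0) (nat_lit 38689823328) (nat_lit 152) (nat_lit 25406852102) (nat_lit 228) (nat_lit 67800583641) (nat_lit 55) (nat_lit 5) (nat_lit 57) (nat_lit 5) (nat_lit 58) (nat_lit 5) (nat_lit 428) (nat_lit 388) (nat_lit 204)) (XT.lf (nat_lit 0) (nat_lit 96413447614) (nat_lit 228) (nat_lit 19539739231) (nat_lit 76) (nat_lit 20243147202)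 (nat_lit 55) (nat_lit 5) (nat_lit 58) (nat_lit 5) (nat_lit 56) (nat_lit 5) (nat_lit 429) (nat_lit 388) (nat_lit 203)))) (XT.nd (nat_lit 156) (nat_lit 304) (nat_lit 0) (XT.nd (nat_lit 78) (nat_lit 76) (nat_lit 0) (XT.lf (nat_lit 0) (nat_lit 59291631216) (nat_lit 152) (nat_lit 72396094123) (nat_lit 228) (nat_lit 8955554223) (nat_lit 53) (nat_lit 5) (nat_lit 55) (nat_lit 5) (nat_lit 56) (nat_lit 5) (nat_lit 430) (nat_lit 388) (nat_lit 202)) (XT.lf (nat_lit 0) (nat_lit 22999573380) (nat_lit 228) (nat_lit 2924961514) (nat_lit 76) (nat_lit 119352970565) (nat_lit 52) (nat_lit 5) (nat_lit 55) (nat_lit 5) (nat_lit 53) (nat_lit 5) (nat_lit 431) (nat_lit 388) (nat_lit 201))) (XT.nd (nat_lit 78) (nat_lit 152) (nat_lit 0) (XT.lf (nat_lit 0) (nat_lit 57910045671) (nat_lit 228) (nat_lit 68556051373) (nat_lit 76) (nat_lit 23587077426) (nat_lit 50) (nat_lit 5) (nat_lit 53) (nat_lit 5) (nat_lit 51) (nat_lit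 5) (nat_lit 432) (nat_lit 388) (nat_lit 200)) (XT.lf (nat_lit 0) (nat_lit 15237734331) (nat_lit 152) (nat_lit 80041038756) (nat_lit 228) (nat_lit 59753217384) (nat_lit 48) (nat_lit 5) (nat_lit 50) (nat_lit 5) (nat_lit 51) (nat_lit 5) (nat_lit 433) (nat_lit 388) (nat_lit 199))))))) (XT.nd (nat_lit 1014) (nat_lit 760) (nat_lit 0) (XT.nd (nat_lit 468) (nat_lit 532) (nat_lit 0) (XT.nd (nat_lit 234) (nat_lit 304) (nat_lit 0) (XT.nd (nat_lit 78) (nat_lit 152) (nat_lit 0) (XT.lf (nat_lit 0) (nat_lit 105600460970) (nat_lit 152) (nat_lit 30076004481) (nat_lit 228) (nat_lit 24525255501) (nat_lit 48) (nat_lit 5) (nat_lit 50) (nat_lit 5) (nat_lit 51) (nat_lit 5) (nat_lit 434) (nat_lit 388) (nat_lit 198)) (XT.nd (nat_lit 78) (nat_lit 0) (nat_lit 0) (XT.lf (nat_lit 0) (nat_lit 12985533171) (nat_lit 152) (nat_lit 130152326507) (nat_lit 76) (nat_lit 22436330503) (nat_lit 46) (nat_lit 5) (nat_lit 48) (nat_lit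 5) (nat_lit 47) (nat_lit 5) (nat_lit 435) (nat_lit 388) (nat_lit 197)) (XT.lf (nat_lit 0) (nat_lit 52980078380) (nat_lit 152) (nat_lit 40238373424) (nat_lit 76) (nat_lit 77905107167) (nat_lit 46) (nat_lit 5) (nat_lit 48) (nat_lit 5) (nat_lit 47) (nat_lit 5) (nat_lit 436) (nat_lit 388) (nat_lit 196)))) (XT.nd (nat_lit 78) (nat_lit 152) (nat_lit 0) (XT.lf (nat_lit 0) (nat_lit 55961598090) (nat_lit 152) (nat_lit 39886012520) (nat_lit 228) (nat_lit 81059122693) (nat_lit 44) (nat_lit 5) (nat_lit 46) (nat_lit 5) (nat_lit 47) (nat_lit 5) (nat_lit 437) (nat_lit 388) (nat_lit 195)) (XT.nd (nat_lit 78) (nat_lit 152) (nat_lit 0) (XT.lf (nat_lit 0) (nat_lit 141802263637) (nat_lit 228) (nat_lit 24839985299) (nat_lit 76) (nat_lit 16289630292) (nat_lit 44) (nat_lit 5) (nat_lit 47) (nat_lit 5) (nat_lit 45) (nat_lit 4) (nat_lit 438) (nat_lit 388) (nat_lit 194)) (XT.lf (nat_lit 0) (nat_lit 2671351784) (nat_lit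 152) (nat_lit 111298504095) (nat_lit 76) (nat_lit 75192781291) (nat_lit 42) (nat_lit 5) (nat_lit 44) (nat_lit 5) (nat_lit 43) (nat_lit 5) (nat_lit 439) (nat_lit 388) (nat_lit 193))))) (XT.nd (nat_lit 234) (nat_lit 304) (nat_lit 0) (XT.nd (nat_lit 78) (nat_lit 228) (nat_lit 0) (XT.lf (nat_lit 0) (nat_lit 47707286237) (nat_lit 152) (nat_lit 9799973715) (nat_lit 76) (nat_lit 138142603155) (nat_lit 42) (nat_lit 5) (nat_lit 44) (nat_lit 5) (nat_lit 43) (nat_lit 5) (nat_lit 440) (nat_lit 388) (nat_lit 192)) (XT.nd (nat_lit 78) (nat_lit 76) (nat_lit 0) (XT.lf (nat_lit 0) (nat_lit 96608808236) (nat_lit 228) (nat_lit 102464281709) (nat_lit 76) (nat_lit 3307670925) (nat_lit 40) (nat_lit 5) (nat_lit 43) (nat_lit 5) (nat_lit 41) (nat_lit 4) (nat_lit 441) (nat_lit 388) (nat_lit 191)) (XT.lf (nat_lit 0) (nat_lit 5240617632) (nat_lit 76) (nat_lit 143907633225) (nat_lit 152) (nat_lit 60240310505) (nat_lit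 39) (nat_lit 5) (nat_lit 40) (nat_lit 5) (nat_lit 41) (nat_lit 4) (nat_lit 442) (nat_lit 388) (nat_lit 190)))) (XT.nd (nat_lit 156) (nat_lit 76) (nat_lit 0) (XT.nd (nat_lit 78) (nat_lit 228) (nat_lit 0) (XT.lf (nat_lit 0) (nat_lit 121887367678) (nat_lit 76) (nat_lit 84162181939) (nat_lit 152) (nat_lit 10610458125) (nat_lit 39) (nat_lit 5) (nat_lit 40) (nat_lit 5) (nat_lit 41) (nat_lit 4) (nat_lit 443) (nat_lit 388) (nat_lit 189)) (XT.lf (nat_lit 0) (nat_lit 20064987398) (nat_lit 152) (nat_lit 20420497104) (nat_lit 228) (nat_lit 183761500480) (nat_lit 36) (nat_lit 5) (nat_lit 38) (nat_lit 5) (nat_lit 39) (nat_lit 5) (nat_lit 444) (nat_lit 388) (nat_lit 188))) (XT.nd (nat_lit 78) (nat_lit 76) (nat_lit 0) (XT.lf (nat_lit 0) (nat_lit 96136717306) (nat_lit 228) (nat_lit 89125353888) (nat_lit 76) (nat_lit 46824689147) (nat_lit 36) (nat_lit 5) (nat_lit 39) (nat_lit 5) (nat_lit 37) (nat_lit 4) (nat_lit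 445) (nat_lit 388) (nat_lit 187)) (XT.lf (nat_lit 0) (nat_lit 32385218597) (nat_lit 76) (nat_lit 123025314870) (nat_lit 152) (nat_lit 84865989969) (nat_lit 35) (nat_lit 5) (nat_lit 36) (nat_lit 5) (nat_lit 37) (nat_lit 4) (nat_lit 446) (nat_lit 388) (nat_lit 186)))))) (XT.nd (nat_lit 546) (nat_lit 304) (nat_lit 0) (XT.nd (nat_lit 234) (nat_lit 228) (nat_lit 0) (XT.nd (nat_lit 78) (nat_lit 228) (nat_lit 0) (XT.lf (nat_lit 0) (nat_lit 163064891163) (nat_lit 76) (nat_lit 56092172774) (nat_lit 152) (nat_lit 29643259622) (nat_lit 35) (nat_lit 5) (nat_lit 36) (nat_lit 5) (nat_lit 37) (nat_lit 4) (nat_lit 447) (nat_lit 388) (nat_lit 185)) (XT.nd (nat_lit 78) (nat_lit 0) (nat_lit 0) (XT.lf (nat_lit 0) (nat_lit 28351862423) (nat_lit 228) (nat_lit 214457511332) (nat_lit 76) (nat_lit 14872899583) (nat_lit 32) (nat_lit 5) (nat_lit 35) (nat_lit 5) (nat_lit 33) (nat_lit 4) (nat_lit 448) (nat_lit 388) (nat_lit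 184)) (XT.lf (nat_lit 0) (nat_lit 90645506351) (nat_lit 228) (nat_lit 86756158836) (nat_lit 76) (nat_lit 89462609025) (nat_lit 32) (nat_lit 5) (nat_lit 35) (nat_lit 5) (nat_lit 33) (nat_lit 4) (nat_lit 449) (nat_lit 388) (nat_lit 183)))) (XT.nd (nat_lit 156) (nat_lit 152) (nat_lit 0) (XT.nd (nat_lit 78) (nat_lit 0) (nat_lit 0) (XT.lf (nat_lit 0) (nat_lit 48894581992) (nat_lit 76) (nat_lit 107922304347) (nat_lit 152) (nat_lit 119650336137) (nat_lit 31) (nat_lit 5) (nat_lit 32) (nat_lit 5) (nat_lit 33) (nat_lit 4) (nat_lit 450) (nat_lit 388) (nat_lit 182)) (XT.lf (nat_lit 0) (nat_lit 194339236388) (nat_lit 76) (nat_lit 33426535092) (nat_lit 152) (nat_lit 58711099907) (nat_lit 31) (nat_lit 5) (nat_lit 32) (nat_lit 5) (nat_lit 33) (nat_lit 4) (nat_lit 451) (nat_lit 388) (nat_lit 181))) (XT.nd (nat_lit 78) (nat_lit 0) (nat_lit 0) (XT.lf (nat_lit 0) (nat_lit 6626102604) (nat_lit 152) (nat_lit 246017564532)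 (nat_lit 76) (nat_lit 44263225660) (nat_lit 29) (nat_lit 5) (nat_lit 31) (nat_lit 5) (nat_lit 30) (nat_lit 4) (nat_lit 452) (nat_lit 388) (nat_lit 180)) (XT.lf (nat_lit 0) (nat_lit 75390729504) (nat_lit 152) (nat_lit 105050563258) (nat_lit 76) (nat_lit 127262316585) (nat_lit 29) (nat_lit 5) (nat_lit 31) (nat_lit 5) (nat_lit 30) (nat_lit 4) (nat_lit 453) (nat_lit 388) (nat_lit 179))))) (XT.nd (nat_lit 234) (nat_lit 152) (nat_lit 0) (XT.nd (nat_lit 78) (nat_lit 76) (nat_lit 0) (XT.lf (nat_lit 0) (nat_lit 44384822644) (nat_lit 76) (nat_lit 103901441851) (nat_lit 152) (nat_lit 170719263426) (nat_lit 28) (nat_lit 5) (nat_lit 29) (nat_lit 5) (nat_lit 30) (nat_lit 4) (nat_lit 454) (nat_lit 388) (nat_lit 178)) (XT.nd (nat_lit 78) (nat_lit 76) (nat_lit 0) (XT.lf (nat_lit 0) (nat_lit 204938548222) (nat_lit 76) (nat_lit 21666820889) (nat_lit 152) (nat_lit 104178233698) (nat_lit 28) (nat_lit 5) (nat_lit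 29) (nat_lit 5) (nat_lit 30) (nat_lit 4) (nat_lit 455) (nat_lit 388) (nat_lit 177)) (XT.lf (nat_lit 0) (nat_lit 30329759790) (nat_lit 76) (nat_lit 279993751147) (nat_lit 76) (nat_lit 32752916437) (nat_lit 27) (nat_lit 4) (nat_lit 28) (nat_lit 5) (nat_lit 28) (nat_lit 4) (nat_lit 456) (nat_lit 388) (nat_lit 176)))) (XT.nd (nat_lit 156) (nat_lit 0) (nat_lit 0) (XT.nd (nat_lit 78) (nat_lit 76) (nat_lit 0) (XT.lf (nat_lit 0) (nat_lit 43412705978) (nat_lit 152) (nat_lit 158245166580) (nat_lit 76) (nat_lit 154166988512) (nat_lit 26) (nat_lit 5) (nat_lit 28) (nat_lit 5) (nat_lit 27) (nat_lit 4) (nat_lit 457) (nat_lit 388) (nat_lit 175)) (XT.lf (nat_lit 0) (nat_lit 3557842462) (nat_lit 76) (nat_lit 118783336742) (nat_lit 152) (nat_lit 246839926494) (nat_lit 25) (nat_lit 5) (nat_lit 26) (nat_lit 5) (nat_lit 27) (nat_lit 4) (nat_lit 458) (nat_lit 388) (nat_lit 174))) (XT.nd (nat_lit 78) (nat_lit 0)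 (nat_lit 0) (XT.lf (nat_lit 0) (nat_lit 178944417858) (nat_lit 76) (nat_lit 28951356114) (nat_lit 152) (nat_lit 175175403717) (nat_lit 25) (nat_lit 5) (nat_lit 26) (nat_lit 5) (nat_lit 27) (nat_lit 4) (nat_lit 459) (nat_lit 388) (nat_lit 173)) (XT.lf (nat_lit 0) (nat_lit 298748490372) (nat_lit 152) (nat_lit 35576558953) (nat_lit 0) (nat_lit 63279684383) (nat_lit 25) (nat_lit 5) (nat_lit 27) (nat_lit 4) (nat_lit 25) (nat_lit 4) (nat_lit 460) (nat_lit 388) (nat_lit 172))))))))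
noncomputable def xc202 : XT := (XT.nd (nat_lit 48360) (nat_lit 0) (nat_lit 3420) (XT.nd (nat_lit 1014) (nat_lit 76) (nat_lit 0) (XT.nd (nat_lit 468) (nat_lit 380) (nat_lit 0) (XT.nd (nat_lit 234) (nat_lit 76) (nat_lit 0) (XT.nd (nat_lit 78) (nat_lit 152) (nat_lit 0) (XT.lf (nat_lit 0) (nat_lit 145585731139) (nat_lit 76) (nat_lit 251305485379) (nat_lit 76) (nat_lit 15836382334) (nat_lit 24) (nat_lit 4) (nat_lit 25) (nat_lit 5) (nat_lit 25) (nat_lit 4) (nat_lit 461) (nat_lit 388) (nat_lit 171)) (XT.nd (nat_lit 78) (nat_lit 76) (nat_lit 0) (XT.lf (nat_lit 0) (nat_lit 69663467241) (nat_lit 152) (nat_lit 92659278109) (nat_lit 76) (nat_lit 266197568169) (nat_lit 23) (nat_lit 5) (nat_lit 25) (nat_lit 5) (nat_lit 24) (nat_lit 4) (nat_lit 462) (nat_lit 388) (nat_lit 170)) (XT.lf (nat_lit 0) (nat_lit 93272697418) (nat_lit 76) (nat_lit 67089425903) (nat_lit 152) (nat_lit 284654758958) (nat_lit 22)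 (nat_lit 5) (nat_lit 23) (nat_lit 5) (nat_lit 24) (nat_lit 4) (nat_lit 463) (nat_lit 388) (nat_lit 169)))) (XT.nd (nat_lit 78) (nat_lit 76) (nat_lit 0) (XT.lf (nat_lit 0) (nat_lit 257704187951) (nat_lit 152) (nat_lit 171081538852) (nat_lit 0) (nat_lit 33447128904) (nat_lit 22) (nat_lit 5) (nat_lit 24) (nat_lit 4) (nat_lit 22) (nat_lit 4) (nat_lit 464) (nat_lit 388) (nat_lit 168)) (XT.nd (nat_lit 78) (nat_lit 0) (nat_lit 0) (XT.lf (nat_lit 0) (nat_lit 18093085082) (nat_lit 76) (nat_lit 343202364916) (nat_lit 76) (nat_lit 118945073119) (nat_lit 21) (nat_lit 4) (nat_lit 22) (nat_lit 5) (nat_lit 22) (nat_lit 4) (nat_lit 465) (nat_lit 388) (nat_lit 167)) (XT.lf (nat_lit 0) (nat_lit 222665592259) (nat_lit 76) (nat_lit 250297819152) (nat_lit 76) (nat_lit 26040305688) (nat_lit 21) (nat_lit 4) (nat_lit 22) (nat_lit 5) (nat_lit 22) (nat_lit 4) (nat_lit 466) (nat_lit 388) (nat_lit 166))))) (XT.nd (nat_lit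 234) (nat_lit 228) (nat_lit 0) (XT.nd (nat_lit 78) (nat_lit 76) (nat_lit 0) (XT.lf (nat_lit 0) (nat_lit 69220737527) (nat_lit 152) (nat_lit 82355212644) (nat_lit 76) (nat_lit 367073307562) (nat_lit 20) (nat_lit 5) (nat_lit 22) (nat_lit 5) (nat_lit 21) (nat_lit 4) (nat_lit 467) (nat_lit 388) (nat_lit 165)) (XT.nd (nat_lit 78) (nat_lit 0) (nat_lit 0) (XT.lf (nat_lit 0) (nat_lit 124897060029) (nat_lit 76) (nat_lit 45422445172) (nat_lit 152) (nat_lit 368838735833) (nat_lit 19) (nat_lit 5) (nat_lit 20) (nat_lit 5) (nat_lit 21) (nat_lit 4) (nat_lit 468) (nat_lit 388) (nat_lit 164)) (XT.lf (nat_lit 0) (nat_lit 278921655536) (nat_lit 152) (nat_lit 216306099388) (nat_lit 0) (nat_lit 65342496375) (nat_lit 19) (nat_lit 5) (nat_lit 21) (nat_lit 4) (nat_lit 19) (nat_lit 4) (nat_lit 469) (nat_lit 388) (nat_lit 163)))) (XT.nd (nat_lit 156) (nat_lit 152) (nat_lit 0) (XT.nd (nat_lit 78) (nat_lit 76) (nat_lit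 0) (XT.lf (nat_lit 0) (nat_lit 393698357753) (nat_lit 152) (nat_lit 9198257210) (nat_lit 0) (nat_lit 180119024910) (nat_lit 19) (nat_lit 5) (nat_lit 21) (nat_lit 4) (nat_lit 19) (nat_lit 4) (nat_lit 470) (nat_lit 388) (nat_lit 162)) (XT.lf (nat_lit 0) (nat_lit 215150800357) (nat_lit 76) (nat_lit 302422024644) (nat_lit 76) (nat_lit 88842526390) (nat_lit 18) (nat_lit 4) (nat_lit 19) (nat_lit 5) (nat_lit 19) (nat_lit 4) (nat_lit 471) (nat_lit 388) (nat_lit 161))) (XT.nd (nat_lit 78) (nat_lit 76) (nat_lit 0) (XT.lf (nat_lit 0) (nat_lit 16281026038) (nat_lit 152) (nat_lit 180203552409) (nat_lit 76) (nat_lit 434479560038) (nat_lit 17) (nat_lit 5) (nat_lit 19) (nat_lit 5) (nat_lit 18) (nat_lit 4) (nat_lit 472) (nat_lit 388) (nat_lit 160)) (XT.lf (nat_lit 0) (nat_lit 41274782327) (nat_lit 76) (nat_lit 83044528964) (nat_lit 152) (nat_lit 532316019578) (nat_lit 16) (nat_lit 5) (nat_lit 17) (nat_lit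 5) (nat_lit 18) (nat_lit 4) (nat_lit 473) (nat_lit 388) (nat_lit 159)))))) (XT.nd (nat_lit 46800) (nat_lit 0) (nat_lit 7980) (XT.nd (nat_lit 46488) (nat_lit 0) (nat_lit 7828) (XT.nd (nat_lit 78) (nat_lit 76) (nat_lit 0) (XT.lf (nat_lit 0) (nat_lit 241424322457) (nat_lit 152) (nat_lit 403967672349) (nat_lit 0) (nat_lit 38014847495) (nat_lit 16) (nat_lit 5) (nat_lit 18) (nat_lit 4) (nat_lit 16) (nat_lit 4) (nat_lit 474) (nat_lit 388) (nat_lit 158)) (XT.nd (nat_lit 78) (nat_lit 76) (nat_lit 0) (XT.lf (nat_lit 0) (nat_lit 365745810004) (nat_lit 152) (nat_lit 183366852579) (nat_lit 0) (nat_lit 162336205437) (nat_lit 16) (nat_lit 5) (nat_lit 18) (nat_lit 4) (nat_lit 16) (nat_lit 4) (nat_lit 475) (nat_lit 388) (nat_lit 157)) (XT.lf (nat_lit 0) (nat_lit 49859524814) (nat_lit 76) (nat_lit 447202141745) (nat_lit 76) (nat_lit 243792413746) (nat_lit 15) (nat_lit 4) (nat_lit 16) (nat_lit 5) (nat_lit 16)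 (nat_lit 4) (nat_lit 476) (nat_lit 388) (nat_lit 156)))) (XT.nd (nat_lit 156) (nat_lit 0) (nat_lit 76) (XT.nd (nat_lit 78) (nat_lit 0) (nat_lit 0) (XT.lf (nat_lit 0) (nat_lit 6001791773) (nat_lit 836) (nat_lit 8108444862) (nat_lit 836) (nat_lit 8108444862) (nat_lit 118) (nat_lit 3) (nat_lit 129) (nat_lit 3) (nat_lit 129) (nat_lit 5) (nat_lit 389) (nat_lit 389) (nat_lit 242)) (XT.lf (nat_lit 76) (nat_lit 5550738449) (nat_lit 0) (nat_lit 6871956247) (nat_lit 836) (nat_lit 33119633596) (nat_lit 119) (nat_lit 5) (nat_lit 118) (nat_lit 3) (nat_lit 129) (nat_lit 5) (nat_lit 390) (nat_lit 389) (nat_lit 241))) (XT.nd (nat_lit 78) (nat_lit 0) (nat_lit 0) (XT.lf (nat_lit 0) (nat_lit 13382515918) (nat_lit 760) (nat_lit 17967480150) (nat_lit 836) (nat_lit 15326559193) (nat_lit 119) (nat_lit 5) (nat_lit 129) (nat_lit 5) (nat_lit 130) (nat_lit 5) (nat_lit 391) (nat_lit 389) (nat_lit 240)) (XT.lf (nat_lit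 76) (nat_lit 5210771856) (nat_lit 0) (nat_lit 9371591009) (nat_lit 836) (nat_lit 33275530061) (nat_lit 120) (nat_lit 5) (nat_lit 119) (nat_lit 5) (nat_lit 130) (nat_lit 5) (nat_lit 392) (nat_lit 389) (nat_lit 239))))) (XT.nd (nat_lit 234) (nat_lit 0) (nat_lit 76) (XT.nd (nat_lit 78) (nat_lit 0) (nat_lit 0) (XT.lf (nat_lit 0) (nat_lit 16363575561) (nat_lit 760) (nat_lit 19131603229) (nat_lit 836) (nat_lit 13577051041) (nat_lit 120) (nat_lit 5) (nat_lit 130) (nat_lit 5) (nat_lit 131) (nat_lit 5) (nat_lit 393) (nat_lit 389) (nat_lit 238)) (XT.nd (nat_lit 78) (nat_lit 0) (nat_lit 76) (XT.lf (nat_lit 76) (nat_lit 5583553389) (nat_lit 0) (nat_lit 12889305135) (nat_lit 836) (nat_lit 31862475554) (nat_lit 121) (nat_lit 5) (nat_lit 120) (nat_lit 5) (nat_lit 131) (nat_lit 5) (nat_lit 394) (nat_lit 389) (nat_lit 237)) (XT.lf (nat_lit 0) (nat_lit 21184547485) (nat_lit 760) (nat_lit 19622670288) (nat_lit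 836) (nat_lit 10829529605) (nat_lit 121) (nat_lit 5) (nat_lit 131) (nat_lit 5) (nat_lit 132) (nat_lit 5) (nat_lit 395) (nat_lit 389) (nat_lit 236)))) (XT.nd (nat_lit 156) (nat_lit 0) (nat_lit 76) (XT.nd (nat_lit 78) (nat_lit 0) (nat_lit 76) (XT.lf (nat_lit 76) (nat_lit 6766952323) (nat_lit 0) (nat_lit 17580179220) (nat_lit 836) (nat_lit 28640335154) (nat_lit 122) (nat_lit 5) (nat_lit 121) (nat_lit 5) (nat_lit 132) (nat_lit 5) (nat_lit 396) (nat_lit 389) (nat_lit 235)) (XT.lf (nat_lit 0) (nat_lit 28110331897) (nat_lit 760) (nat_lit 19344832150) (nat_lit 836) (nat_lit 6928434427) (nat_lit 122) (nat_lit 5) (nat_lit 132) (nat_lit 5) (nat_lit 133) (nat_lit 5) (nat_lit 397) (nat_lit 389) (nat_lit 234))) (XT.nd (nat_lit 78) (nat_lit 0) (nat_lit 76) (XT.lf (nat_lit 76) (nat_lit 8869067809) (nat_lit 0) (nat_lit 23617794701) (nat_lit 836) (nat_lit 23341416622) (nat_lit 123) (nat_lit 5) (nat_lit 122)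 (nat_lit 5) (nat_lit 133) (nat_lit 5) (nat_lit 398) (nat_lit 389) (nat_lit 233)) (XT.lf (nat_lit 0) (nat_lit 37435796829) (nat_lit 760) (nat_lit 18192238005) (nat_lit 76) (nat_lit 1699480897) (nat_lit 123) (nat_lit 5) (nat_lit 133) (nat_lit 5) (nat_lit 124) (nat_lit 5) (nat_lit 399) (nat_lit 389) (nat_lit 232))))))) (XT.nd (nat_lit 1014) (nat_lit 1900) (nat_lit 0) (XT.nd (nat_lit 468) (nat_lit 1292) (nat_lit 0) (XT.nd (nat_lit 234) (nat_lit 456) (nat_lit 0) (XT.nd (nat_lit 78) (nat_lit 380) (nat_lit 0) (XT.lf (nat_lit 0) (nat_lit 12009043562) (nat_lit 760) (nat_lit 31196430638) (nat_lit 836) (nat_lit 15667575874) (nat_lit 113) (nat_lit 5) (nat_lit 123) (nat_lit 5) (nat_lit 124) (nat_lit 5) (nat_lit 400) (nat_lit 389) (nat_lit 231)) (XT.nd (nat_lit 78) (nat_lit 380) (nat_lit 0) (XT.lf (nat_lit 0) (nat_lit 44350774591) (nat_lit 760) (nat_lit 5219626388) (nat_lit 836) (nat_lit 10910122574) (nat_lit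 113) (nat_lit 5) (nat_lit 123) (nat_lit 5) (nat_lit 124) (nat_lit 5) (nat_lit 401) (nat_lit 389) (nat_lit 230)) (XT.lf (nat_lit 0) (nat_lit 16317924448) (nat_lit 380) (nat_lit 40533510691) (nat_lit 456) (nat_lit 5287043175) (nat_lit 108) (nat_lit 5) (nat_lit 113) (nat_lit 5) (nat_lit 114) (nat_lit 5) (nat_lit 402) (nat_lit 389) (nat_lit 229)))) (XT.nd (nat_lit 78) (nat_lit 380) (nat_lit 0) (XT.lf (nat_lit 0) (nat_lit 959404223) (nat_lit 456) (nat_lit 13018622730) (nat_lit 76) (nat_lit 49882724261) (nat_lit 107) (nat_lit 5) (nat_lit 113) (nat_lit 5) (nat_lit 108) (nat_lit 5) (nat_lit 403) (nat_lit 389) (nat_lit 228)) (XT.nd (nat_lit 78) (nat_lit 0) (nat_lit 0) (XT.lf (nat_lit 0) (nat_lit 7907594683) (nat_lit 456) (nat_lit 43830817195) (nat_lit 76) (nat_lit 13898037811) (nat_lit 102) (nat_lit 5) (nat_lit 108) (nat_lit 5) (nat_lit 103) (nat_lit 5) (nat_lit 404) (nat_lit 389) (nat_lit 227)) (XT.lf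 (nat_lit 0) (nat_lit 15655288006) (nat_lit 456) (nat_lit 8900811869) (nat_lit 76) (nat_lit 42922229090) (nat_lit 102) (nat_lit 5) (nat_lit 108) (nat_lit 5) (nat_lit 103) (nat_lit 5) (nat_lit 405) (nat_lit 389) (nat_lit 226))))) (XT.nd (nat_lit 234) (nat_lit 608) (nat_lit 0) (XT.nd (nat_lit 78) (nat_lit 304) (nat_lit 0) (XT.lf (nat_lit 0) (nat_lit 24306816149) (nat_lit 456) (nat_lit 40766638085) (nat_lit 76) (nat_lit 4313025983) (nat_lit 97) (nat_lit 5) (nat_lit 103) (nat_lit 5) (nat_lit 98) (nat_lit 5) (nat_lit 406) (nat_lit 389) (nat_lit 225)) (XT.nd (nat_lit 78) (nat_lit 304) (nat_lit 0) (XT.lf (nat_lit 0) (nat_lit 33945632101) (nat_lit 456) (nat_lit 3463180535) (nat_lit 76) (nat_lit 33953491318) (nat_lit 97) (nat_lit 5) (nat_lit 103) (nat_lit 5) (nat_lit 98) (nat_lit 5) (nat_lit 407) (nat_lit 389) (nat_lit 224)) (XT.lf (nat_lit 0) (nat_lit 36884859312) (nat_lit 304) (nat_lit 7756397651)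 (nat_lit 380) (nat_lit 28766918981) (nat_lit 93) (nat_lit 5) (nat_lit 97) (nat_lit 5) (nat_lit 98) (nat_lit 5) (nat_lit 408) (nat_lit 389) (nat_lit 223)))) (XT.nd (nat_lit 156) (nat_lit 304) (nat_lit 0) (XT.nd (nat_lit 78) (nat_lit 0) (nat_lit 0) (XT.lf (nat_lit 0) (nat_lit 3564065549) (nat_lit 304) (nat_lit 52786881184) (nat_lit 380) (nat_lit 19181431066) (nat_lit 89) (nat_lit 5) (nat_lit 93) (nat_lit 5) (nat_lit 94) (nat_lit 5) (nat_lit 409) (nat_lit 389) (nat_lit 222)) (XT.lf (nat_lit 0) (nat_lit 46791319149) (nat_lit 304) (nat_lit 22597494248) (nat_lit 380) (nat_lit 8336842156) (nat_lit 89) (nat_lit 5) (nat_lit 93) (nat_lit 5) (nat_lit 94) (nat_lit 5) (nat_lit 410) (nat_lit 389) (nat_lit 221))) (XT.nd (nat_lit 78) (nat_lit 0) (nat_lit 0) (XT.lf (nat_lit 0) (nat_lit 3292715606) (nat_lit 304) (nat_lit 67659814429) (nat_lit 76) (nat_lit 9056668728) (nat_lit 85) (nat_lit 5) (nat_lit 89) (nat_lit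 5) (nat_lit 86) (nat_lit 5) (nat_lit 411) (nat_lit 389) (nat_lit 220)) (XT.lf (nat_lit 0) (nat_lit 16125608234) (nat_lit 304) (nat_lit 24026318265) (nat_lit 76) (nat_lit 42203058049) (nat_lit 85) (nat_lit 5) (nat_lit 89) (nat_lit 5) (nat_lit 86) (nat_lit 5) (nat_lit 412) (nat_lit 389) (nat_lit 219)))))) (XT.nd (nat_lit 546) (nat_lit 836) (nat_lit 0) (XT.nd (nat_lit 234) (nat_lit 532) (nat_lit 0) (XT.nd (nat_lit 78) (nat_lit 228) (nat_lit 0) (XT.lf (nat_lit 0) (nat_lit 22508162715) (nat_lit 304) (nat_lit 7442543547) (nat_lit 380) (nat_lit 54849825674) (nat_lit 81) (nat_lit 5) (nat_lit 85) (nat_lit 5) (nat_lit 86) (nat_lit 5) (nat_lit 413) (nat_lit 389) (nat_lit 218)) (XT.nd (nat_lit 78) (nat_lit 228) (nat_lit 0) (XT.lf (nat_lit 0) (nat_lit 45299812797) (nat_lit 380) (nat_lit 15572307673) (nat_lit 76) (nat_lit 26454598877) (nat_lit 81) (nat_lit 5) (nat_lit 86) (nat_lit 5) (nat_lit 82) (nat_lit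 5) (nat_lit 414) (nat_lit 389) (nat_lit 217)) (XT.lf (nat_lit 0) (nat_lit 34463743807) (nat_lit 228) (nat_lit 27611920530) (nat_lit 304) (nat_lit 27870587627) (nat_lit 78) (nat_lit 5) (nat_lit 81) (nat_lit 5) (nat_lit 82) (nat_lit 5) (nat_lit 415) (nat_lit 389) (nat_lit 216)))) (XT.nd (nat_lit 156) (nat_lit 228) (nat_lit 0) (XT.nd (nat_lit 78) (nat_lit 304) (nat_lit 0) (XT.lf (nat_lit 0) (nat_lit 80071728616) (nat_lit 304) (nat_lit 5260891785) (nat_lit 76) (nat_lit 7345070106) (nat_lit 78) (nat_lit 5) (nat_lit 82) (nat_lit 5) (nat_lit 79) (nat_lit 5) (nat_lit 416) (nat_lit 389) (nat_lit 215)) (XT.lf (nat_lit 0) (nat_lit 4542484184) (nat_lit 304) (nat_lit 46985696731) (nat_lit 76) (nat_lit 43953343515) (nat_lit 74) (nat_lit 5) (nat_lit 78) (nat_lit 5) (nat_lit 75) (nat_lit 5) (nat_lit 417) (nat_lit 389) (nat_lit 214))) (XT.nd (nat_lit 78) (nat_lit 0) (nat_lit 0) (XT.lf (nat_lit 0) (nat_lit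 6707465645) (nat_lit 228) (nat_lit 15611789573) (nat_lit 304) (nat_lit 76086235056) (nat_lit 71) (nat_lit 5) (nat_lit 74) (nat_lit 5) (nat_lit 75) (nat_lit 5) (nat_lit 418) (nat_lit 389) (nat_lit 213)) (XT.lf (nat_lit 0) (nat_lit 42137965774) (nat_lit 304) (nat_lit 37078487067) (nat_lit 76) (nat_lit 22201546771) (nat_lit 71) (nat_lit 5) (nat_lit 75) (nat_lit 5) (nat_lit 72) (nat_lit 5) (nat_lit 419) (nat_lit 389) (nat_lit 212))))) (XT.nd (nat_lit 234) (nat_lit 380) (nat_lit 0) (XT.nd (nat_lit 78) (nat_lit 228) (nat_lit 0) (XT.lf (nat_lit 0) (nat_lit 20676887673) (nat_lit 228) (nat_lit 42848794814) (nat_lit 304) (nat_lit 41026548636) (nat_lit 68) (nat_lit 5) (nat_lit 71) (nat_lit 5) (nat_lit 72) (nat_lit 5) (nat_lit 420) (nat_lit 389) (nat_lit 211)) (XT.nd (nat_lit 78) (nat_lit 228) (nat_lit 0) (XT.lf (nat_lit 0) (nat_lit 82606330337) (nat_lit 228) (nat_lit 4003729571) (nat_lit 304) (nat_lit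 21201750783) (nat_lit 68) (nat_lit 5) (nat_lit 71) (nat_lit 5) (nat_lit 72) (nat_lit 5) (nat_lit 421) (nat_lit 389) (nat_lit 210)) (XT.lf (nat_lit 0) (nat_lit 796946944) (nat_lit 228) (nat_lit 74182575663) (nat_lit 76) (nat_lit 36196632203) (nat_lit 65) (nat_lit 5) (nat_lit 68) (nat_lit 5) (nat_lit 66) (nat_lit 5) (nat_lit 422) (nat_lit 389) (nat_lit 209)))) (XT.nd (nat_lit 156) (nat_lit 152) (nat_lit 0) (XT.nd (nat_lit 78) (nat_lit 228) (nat_lit 0) (XT.lf (nat_lit 0) (nat_lit 23681926545) (nat_lit 228) (nat_lit 11930874568) (nat_lit 76) (nat_lit 79053593490) (nat_lit 65) (nat_lit 5) (nat_lit 68) (nat_lit 5) (nat_lit 66) (nat_lit 5) (nat_lit 423) (nat_lit 389) (nat_lit 208)) (XT.lf (nat_lit 0) (nat_lit 48675828412) (nat_lit 304) (nat_lit 63192340953) (nat_lit 76) (nat_lit 6414743544) (nat_lit 62) (nat_lit 5) (nat_lit 66) (nat_lit 5) (nat_lit 63) (nat_lit 5) (nat_lit 424) (nat_lit 389) (nat_lit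 207))) (XT.nd (nat_lit 78) (nat_lit 0) (nat_lit 0) (XT.lf (nat_lit 0) (nat_lit 3325526179) (nat_lit 152) (nat_lit 72434408909) (nat_lit 228) (nat_lit 46278296732) (nat_lit 60) (nat_lit 5) (nat_lit 62) (nat_lit 5) (nat_lit 63) (nat_lit 5) (nat_lit 425) (nat_lit 389) (nat_lit 206)) (XT.lf (nat_lit 0) (nat_lit 75362264993) (nat_lit 152) (nat_lit 29905594001) (nat_lit 228) (nat_lit 20659977257) (nat_lit 60) (nat_lit 5) (nat_lit 62) (nat_lit 5) (nat_lit 63) (nat_lit 5) (nat_lit 426) (nat_lit 389) (nat_lit 205))))))))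
noncomputable def xc203 : XT := (XT.nd (nat_lit 2106) (nat_lit 988) (nat_lit 0) (XT.nd (nat_lit 1014) (nat_lit 1140) (nat_lit 0) (XT.nd (nat_lit 468) (nat_lit 608) (nat_lit 0) (XT.nd (nat_lit 234) (nat_lit 228) (nat_lit 0) (XT.nd (nat_lit 78) (nat_lit 152) (nat_lit 0) (XT.lf (nat_lit 0) (nat_lit 6613344862) (nat_lit 228) (nat_lit 108646276845) (nat_lit 76) (nat_lit 14718739642) (nat_lit 57) (nat_lit 5) (nat_lit 60) (nat_lit 5) (nat_lit 58) (nat_lit 5) (nat_lit 427) (nat_lit 389) (nat_lit 204)) (XT.nd (nat_lit 78) (nat_lit 152) (nat_lit 0) (XT.lf (nat_lit 0) (nat_lit 35916114417) (nat_lit 228) (nat_lit 36452332172) (nat_lit 76) (nat_lit 61778027246) (nat_lit 57) (nat_lit 5) (nat_lit 60) (nat_lit 5) (nat_lit 58) (nat_lit 5) (nat_lit 428) (nat_lit 389) (nat_lit 203)) (XT.lf (nat_lit 0) (nat_lit 40651556020) (nat_lit 152) (nat_lit 26666622974) (nat_lit 228) (nat_lit 71173105264) (nat_lit 55)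 (nat_lit 5) (nat_lit 57) (nat_lit 5) (nat_lit 58) (nat_lit 5) (nat_lit 429) (nat_lit 389) (nat_lit 202)))) (XT.nd (nat_lit 78) (nat_lit 228) (nat_lit 0) (XT.lf (nat_lit 0) (nat_lit 101250153182) (nat_lit 228) (nat_lit 20490141205) (nat_lit 76) (nat_lit 21265050630) (nat_lit 55) (nat_lit 5) (nat_lit 58) (nat_lit 5) (nat_lit 56) (nat_lit 5) (nat_lit 430) (nat_lit 389) (nat_lit 201)) (XT.nd (nat_lit 78) (nat_lit 76) (nat_lit 0) (XT.lf (nat_lit 0) (nat_lit 62282368975) (nat_lit 152) (nat_lit 76005420707) (nat_lit 228) (nat_lit 9386866078) (nat_lit 53) (nat_lit 5) (nat_lit 55) (nat_lit 5) (nat_lit 56) (nat_lit 5) (nat_lit 431) (nat_lit 389) (nat_lit 200)) (XT.lf (nat_lit 0) (nat_lit 24164731902) (nat_lit 228) (nat_lit 3045793494) (nat_lit 76) (nat_lit 125330092826) (nat_lit 52) (nat_lit 5) (nat_lit 55) (nat_lit 5) (nat_lit 53) (nat_lit 5) (nat_lit 432) (nat_lit 389) (nat_lit 199))))) (XT.nd (nat_lit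 234) (nat_lit 304) (nat_lit 0) (XT.nd (nat_lit 78) (nat_lit 152) (nat_lit 0) (XT.lf (nat_lit 0) (nat_lit 60820553980) (nat_lit 228) (nat_lit 71958260668) (nat_lit 76) (nat_lit 24776264894) (nat_lit 50) (nat_lit 5) (nat_lit 53) (nat_lit 5) (nat_lit 51) (nat_lit 5) (nat_lit 433) (nat_lit 389) (nat_lit 198)) (XT.nd (nat_lit 78) (nat_lit 0) (nat_lit 0) (XT.lf (nat_lit 0) (nat_lit 16024801526) (nat_lit 152) (nat_lit 84032594806) (nat_lit 228) (nat_lit 62725456242) (nat_lit 48) (nat_lit 5) (nat_lit 50) (nat_lit 5) (nat_lit 51) (nat_lit 5) (nat_lit 434) (nat_lit 389) (nat_lit 197)) (XT.lf (nat_lit 0) (nat_lit 110904465427) (nat_lit 152) (nat_lit 31569808621) (nat_lit 228) (nat_lit 25736830646) (nat_lit 48) (nat_lit 5) (nat_lit 50) (nat_lit 5) (nat_lit 51) (nat_lit 5) (nat_lit 435) (nat_lit 389) (nat_lit 196)))) (XT.nd (nat_lit 156) (nat_lit 152) (nat_lit 0) (XT.nd (nat_lit 78) (nat_lit 0) (nat_lit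 0) (XT.lf (nat_lit 0) (nat_lit 13648884355) (nat_lit 152) (nat_lit 136635342670) (nat_lit 76) (nat_lit 23567966183) (nat_lit 46) (nat_lit 5) (nat_lit 48) (nat_lit 5) (nat_lit 47) (nat_lit 5) (nat_lit 436) (nat_lit 389) (nat_lit 195)) (XT.lf (nat_lit 0) (nat_lit 55642486609) (nat_lit 152) (nat_lit 42226863369) (nat_lit 76) (nat_lit 81809714102) (nat_lit 46) (nat_lit 5) (nat_lit 48) (nat_lit 5) (nat_lit 47) (nat_lit 5) (nat_lit 437) (nat_lit 389) (nat_lit 194))) (XT.nd (nat_lit 78) (nat_lit 0) (nat_lit 0) (XT.lf (nat_lit 0) (nat_lit 58782728839) (nat_lit 152) (nat_lit 41870388200) (nat_lit 228) (nat_lit 85098294136) (nat_lit 44) (nat_lit 5) (nat_lit 46) (nat_lit 5) (nat_lit 47) (nat_lit 5) (nat_lit 438) (nat_lit 389) (nat_lit 193)) (XT.lf (nat_lit 0) (nat_lit 148905025251) (nat_lit 228) (nat_lit 26059551533) (nat_lit 76) (nat_lit 17113261603) (nat_lit 44) (nat_lit 5) (nat_lit 47) (nat_lit 5)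 (nat_lit 45) (nat_lit 4) (nat_lit 439) (nat_lit 389) (nat_lit 192)))))) (XT.nd (nat_lit 546) (nat_lit 532) (nat_lit 0) (XT.nd (nat_lit 234) (nat_lit 304) (nat_lit 0) (XT.nd (nat_lit 78) (nat_lit 152) (nat_lit 0) (XT.lf (nat_lit 0) (nat_lit 2817515414) (nat_lit 152) (nat_lit 116840939450) (nat_lit 76) (nat_lit 78961682202) (nat_lit 42) (nat_lit 5) (nat_lit 44) (nat_lit 5) (nat_lit 43) (nat_lit 5) (nat_lit 440) (nat_lit 389) (nat_lit 191)) (XT.nd (nat_lit 78) (nat_lit 152) (nat_lit 0) (XT.lf (nat_lit 0) (nat_lit 50104646778) (nat_lit 152) (nat_lit 10268553496) (nat_lit 76) (nat_lit 145058554119) (nat_lit 42) (nat_lit 5) (nat_lit 44) (nat_lit 5) (nat_lit 43) (nat_lit 5) (nat_lit 441) (nat_lit 389) (nat_lit 190)) (XT.lf (nat_lit 0) (nat_lit 101451148146) (nat_lit 228) (nat_lit 107565978201) (nat_lit 76) (nat_lit 3482075633) (nat_lit 40) (nat_lit 5) (nat_lit 43) (nat_lit 5) (nat_lit 41) (nat_lit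 4) (nat_lit 442) (nat_lit 389) (nat_lit 189)))) (XT.nd (nat_lit 156) (nat_lit 228) (nat_lit 0) (XT.nd (nat_lit 78) (nat_lit 0) (nat_lit 0) (XT.lf (nat_lit 0) (nat_lit 5523819049) (nat_lit 76) (nat_lit 151093507737) (nat_lit 152) (nat_lit 63240077608) (nat_lit 39) (nat_lit 5) (nat_lit 40) (nat_lit 5) (nat_lit 41) (nat_lit 4) (nat_lit 443) (nat_lit 389) (nat_lit 188)) (XT.lf (nat_lit 0) (nat_lit 128001898477) (nat_lit 76) (nat_lit 88361236608) (nat_lit 152) (nat_lit 11129315868) (nat_lit 39) (nat_lit 5) (nat_lit 40) (nat_lit 5) (nat_lit 41) (nat_lit 4) (nat_lit 444) (nat_lit 389) (nat_lit 187))) (XT.nd (nat_lit 78) (nat_lit 0) (nat_lit 0) (XT.lf (nat_lit 0) (nat_lit 21088442984) (nat_lit 152) (nat_lit 21432385320) (nat_lit 228) (nat_lit 192937950837) (nat_lit 36) (nat_lit 5) (nat_lit 38) (nat_lit 5) (nat_lit 39) (nat_lit 5) (nat_lit 445) (nat_lit 389) (nat_lit 186)) (XT.lf (nat_lit 0) (nat_lit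 100954231481) (nat_lit 228) (nat_lit 93561984766) (nat_lit 76) (nat_lit 49174346661) (nat_lit 36) (nat_lit 5) (nat_lit 39) (nat_lit 5) (nat_lit 37) (nat_lit 4) (nat_lit 446) (nat_lit 389) (nat_lit 185))))) (XT.nd (nat_lit 234) (nat_lit 228) (nat_lit 0) (XT.nd (nat_lit 78) (nat_lit 228) (nat_lit 0) (XT.lf (nat_lit 0) (nat_lit 34023799620) (nat_lit 76) (nat_lit 129167731979) (nat_lit 152) (nat_lit 89098292973) (nat_lit 35) (nat_lit 5) (nat_lit 36) (nat_lit 5) (nat_lit 37) (nat_lit 4) (nat_lit 447) (nat_lit 389) (nat_lit 184)) (XT.nd (nat_lit 78) (nat_lit 228) (nat_lit 0) (XT.lf (nat_lit 0) (nat_lit 171236535810) (nat_lit 76) (nat_lit 58888354142) (nat_lit 152) (nat_lit 31114949751) (nat_lit 35) (nat_lit 5) (nat_lit 36) (nat_lit 5) (nat_lit 37) (nat_lit 4) (nat_lit 448) (nat_lit 389) (nat_lit 183)) (XT.lf (nat_lit 0) (nat_lit 29779530845) (nat_lit 228) (nat_lit 225161586671) (nat_lit 76) (nat_lit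 15624764462) (nat_lit 32) (nat_lit 5) (nat_lit 35) (nat_lit 5) (nat_lit 33) (nat_lit 4) (nat_lit 449) (nat_lit 389) (nat_lit 182)))) (XT.nd (nat_lit 156) (nat_lit 152) (nat_lit 0) (XT.nd (nat_lit 78) (nat_lit 76) (nat_lit 0) (XT.lf (nat_lit 0) (nat_lit 95187377193) (nat_lit 228) (nat_lit 91076061799) (nat_lit 76) (nat_lit 93943567952) (nat_lit 32) (nat_lit 5) (nat_lit 35) (nat_lit 5) (nat_lit 33) (nat_lit 4) (nat_lit 450) (nat_lit 389) (nat_lit 181)) (XT.lf (nat_lit 0) (nat_lit 51356927281) (nat_lit 76) (nat_lit 113310217008) (nat_lit 152) (nat_lit 125622967484) (nat_lit 31) (nat_lit 5) (nat_lit 32) (nat_lit 5) (nat_lit 33) (nat_lit 4) (nat_lit 451) (nat_lit 389) (nat_lit 180))) (XT.nd (nat_lit 78) (nat_lit 152) (nat_lit 0) (XT.lf (nat_lit 0) (nat_lit 204072975530) (nat_lit 76) (nat_lit 35090049888) (nat_lit 152) (nat_lit 61637240179) (nat_lit 31) (nat_lit 5) (nat_lit 32) (nat_lit 5) (nat_lit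 33) (nat_lit 4) (nat_lit 452) (nat_lit 389) (nat_lit 179)) (XT.lf (nat_lit 0) (nat_lit 6966472272) (nat_lit 152) (nat_lit 258301313222) (nat_lit 76) (nat_lit 46483997726) (nat_lit 29) (nat_lit 5) (nat_lit 31) (nat_lit 5) (nat_lit 30) (nat_lit 4) (nat_lit 453) (nat_lit 389) (nat_lit 178))))))) (XT.nd (nat_lit 1092) (nat_lit 380) (nat_lit 0) (XT.nd (nat_lit 546) (nat_lit 304) (nat_lit 0) (XT.nd (nat_lit 234) (nat_lit 228) (nat_lit 0) (XT.nd (nat_lit 78) (nat_lit 76) (nat_lit 0) (XT.lf (nat_lit 0) (nat_lit 79168898873) (nat_lit 152) (nat_lit 110286777577) (nat_lit 76) (nat_lit 133632680779) (nat_lit 29) (nat_lit 5) (nat_lit 31) (nat_lit 5) (nat_lit 30) (nat_lit 4) (nat_lit 454) (nat_lit 389) (nat_lit 177)) (XT.nd (nat_lit 78) (nat_lit 0) (nat_lit 0) (XT.lf (nat_lit 0) (nat_lit 46620114494) (nat_lit 76) (nat_lit 109088935626) (nat_lit 152) (nat_lit 179246329680) (nat_lit 28) (nat_lit 5) (nat_lit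 29) (nat_lit 5) (nat_lit 30) (nat_lit 4) (nat_lit 455) (nat_lit 389) (nat_lit 176)) (XT.lf (nat_lit 0) (nat_lit 215200762032) (nat_lit 76) (nat_lit 22742944488) (nat_lit 152) (nat_lit 109378672128) (nat_lit 28) (nat_lit 5) (nat_lit 29) (nat_lit 5) (nat_lit 30) (nat_lit 4) (nat_lit 456) (nat_lit 389) (nat_lit 175)))) (XT.nd (nat_lit 156) (nat_lit 76) (nat_lit 0) (XT.nd (nat_lit 78) (nat_lit 76) (nat_lit 0) (XT.lf (nat_lit 0) (nat_lit 31861574536) (nat_lit 76) (nat_lit 293986143275) (nat_lit 76) (nat_lit 34382128550) (nat_lit 27) (nat_lit 4) (nat_lit 28) (nat_lit 5) (nat_lit 28) (nat_lit 4) (nat_lit 457) (nat_lit 389) (nat_lit 174)) (XT.lf (nat_lit 0) (nat_lit 45591116303) (nat_lit 152) (nat_lit 166142570181) (nat_lit 76) (nat_lit 161882028149) (nat_lit 26) (nat_lit 5) (nat_lit 28) (nat_lit 5) (nat_lit 27) (nat_lit 4) (nat_lit 458) (nat_lit 389) (nat_lit 173))) (XT.nd (nat_lit 78) (nat_lit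 0) (nat_lit 0) (XT.lf (nat_lit 0) (nat_lit 3750349720) (nat_lit 76) (nat_lit 124715521414) (nat_lit 152) (nat_lit 259173907497) (nat_lit 25) (nat_lit 5) (nat_lit 26) (nat_lit 5) (nat_lit 27) (nat_lit 4) (nat_lit 459) (nat_lit 389) (nat_lit 172)) (XT.lf (nat_lit 0) (nat_lit 187905557928) (nat_lit 76) (nat_lit 30392274239) (nat_lit 152) (nat_lit 183926540263) (nat_lit 25) (nat_lit 5) (nat_lit 26) (nat_lit 5) (nat_lit 27) (nat_lit 4) (nat_lit 460) (nat_lit 389) (nat_lit 171))))) (XT.nd (nat_lit 234) (nat_lit 152) (nat_lit 0) (XT.nd (nat_lit 78) (nat_lit 152) (nat_lit 0) (XT.lf (nat_lit 0) (nat_lit 313692937096) (nat_lit 152) (nat_lit 37341882615) (nat_lit 0) (nat_lit 66449798935) (nat_lit 25) (nat_lit 5) (nat_lit 27) (nat_lit 4) (nat_lit 25) (nat_lit 4) (nat_lit 461) (nat_lit 389) (nat_lit 170)) (XT.nd (nat_lit 78) (nat_lit 76) (nat_lit 0) (XT.lf (nat_lit 0) (nat_lit 152878304172) (nat_lit 76)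 (nat_lit 263864368427) (nat_lit 76) (nat_lit 16620960827) (nat_lit 24) (nat_lit 4) (nat_lit 25) (nat_lit 5) (nat_lit 25) (nat_lit 4) (nat_lit 462) (nat_lit 389) (nat_lit 169)) (XT.lf (nat_lit 0) (nat_lit 73153315725) (nat_lit 152) (nat_lit 97279366968) (nat_lit 76) (nat_lit 279513312194) (nat_lit 23) (nat_lit 5) (nat_lit 25) (nat_lit 5) (nat_lit 24) (nat_lit 4) (nat_lit 463) (nat_lit 389) (nat_lit 168)))) (XT.nd (nat_lit 156) (nat_lit 76) (nat_lit 0) (XT.nd (nat_lit 78) (nat_lit 0) (nat_lit 0) (XT.lf (nat_lit 0) (nat_lit 97948999673) (nat_lit 76) (nat_lit 70437784847) (nat_lit 152) (nat_lit 298880613597) (nat_lit 22) (nat_lit 5) (nat_lit 23) (nat_lit 5) (nat_lit 24) (nat_lit 4) (nat_lit 464) (nat_lit 389) (nat_lit 167)) (XT.lf (nat_lit 0) (nat_lit 270595731124) (nat_lit 152) (nat_lit 179623329862) (nat_lit 0) (nat_lit 35125120319) (nat_lit 22) (nat_lit 5) (nat_lit 24) (nat_lit 4) (nat_lit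 22) (nat_lit 4) (nat_lit 465) (nat_lit 389) (nat_lit 166))) (XT.nd (nat_lit 78) (nat_lit 0) (nat_lit 0) (XT.lf (nat_lit 0) (nat_lit 19009827109) (nat_lit 76) (nat_lit 360356616280) (nat_lit 76) (nat_lit 124885794363) (nat_lit 21) (nat_lit 4) (nat_lit 22) (nat_lit 5) (nat_lit 22) (nat_lit 4) (nat_lit 466) (nat_lit 389) (nat_lit 165)) (XT.lf (nat_lit 0) (nat_lit 233810384036) (nat_lit 76) (nat_lit 262807122603) (nat_lit 76) (nat_lit 27336099628) (nat_lit 21) (nat_lit 4) (nat_lit 22) (nat_lit 5) (nat_lit 22) (nat_lit 4) (nat_lit 467) (nat_lit 389) (nat_lit 164)))))) (XT.nd (nat_lit 546) (nat_lit 0) (nat_lit 0) (XT.nd (nat_lit 234) (nat_lit 228) (nat_lit 0) (XT.nd (nat_lit 78) (nat_lit 76) (nat_lit 0) (XT.lf (nat_lit 0) (nat_lit 72687509853) (nat_lit 152) (nat_lit 86461819259) (nat_lit 76) (nat_lit 385432104324) (nat_lit 20) (nat_lit 5) (nat_lit 22) (nat_lit 5) (nat_lit 21) (nat_lit 4) (nat_lit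 468) (nat_lit 389) (nat_lit 163)) (XT.nd (nat_lit 78) (nat_lit 0) (nat_lit 0) (XT.lf (nat_lit 0) (nat_lit 131152887144) (nat_lit 76) (nat_lit 47688226986) (nat_lit 152) (nat_lit 387274756880) (nat_lit 19) (nat_lit 5) (nat_lit 20) (nat_lit 5) (nat_lit 21) (nat_lit 4) (nat_lit 469) (nat_lit 389) (nat_lit 162)) (XT.lf (nat_lit 0) (nat_lit 292873183121) (nat_lit 152) (nat_lit 227110763587) (nat_lit 0) (nat_lit 68614544543) (nat_lit 19) (nat_lit 5) (nat_lit 21) (nat_lit 4) (nat_lit 19) (nat_lit 4) (nat_lit 470) (nat_lit 389) (nat_lit 161)))) (XT.nd (nat_lit 156) (nat_lit 152) (nat_lit 0) (XT.nd (nat_lit 78) (nat_lit 76) (nat_lit 0) (XT.lf (nat_lit 0) (nat_lit 413388461172) (nat_lit 152) (nat_lit 9648036004) (nat_lit 0) (nat_lit 189129665059) (nat_lit 19) (nat_lit 5) (nat_lit 21) (nat_lit 4) (nat_lit 19) (nat_lit 4) (nat_lit 471) (nat_lit 389) (nat_lit 160)) (XT.lf (nat_lit 0) (nat_lit 225918310989)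 (nat_lit 76) (nat_lit 317538249533) (nat_lit 76) (nat_lit 93279303387) (nat_lit 18) (nat_lit 4) (nat_lit 19) (nat_lit 5) (nat_lit 19) (nat_lit 4) (nat_lit 472) (nat_lit 389) (nat_lit 159))) (XT.nd (nat_lit 78) (nat_lit 76) (nat_lit 0) (XT.lf (nat_lit 0) (nat_lit 17100008874) (nat_lit 152) (nat_lit 189204070841) (nat_lit 76) (nat_lit 456208018812) (nat_lit 17) (nat_lit 5) (nat_lit 19) (nat_lit 5) (nat_lit 18) (nat_lit 4) (nat_lit 473) (nat_lit 389) (nat_lit 158)) (XT.lf (nat_lit 0) (nat_lit 43348024840) (nat_lit 76) (nat_lit 87192097091) (nat_lit 152) (nat_lit 558926732937) (nat_lit 16) (nat_lit 5) (nat_lit 17) (nat_lit 5) (nat_lit 18) (nat_lit 4) (nat_lit 474) (nat_lit 389) (nat_lit 157))))) (XT.nd (nat_lit 46566) (nat_lit 0) (nat_lit 7752) (XT.nd (nat_lit 78) (nat_lit 0) (nat_lit 0) (XT.lf (nat_lit 0) (nat_lit 253500222202) (nat_lit 152) (nat_lit 424156843383) (nat_lit 0) (nat_lit 39919884371)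 (nat_lit 16) (nat_lit 5) (nat_lit 18) (nat_lit 4) (nat_lit 16) (nat_lit 4) (nat_lit 475) (nat_lit 389) (nat_lit 156)) (XT.nd (nat_lit 46410) (nat_lit 0) (nat_lit 7752) (XT.lf (nat_lit 0) (nat_lit 384037561097) (nat_lit 152) (nat_lit 192526421320) (nat_lit 0) (nat_lit 170457105711) (nat_lit 16) (nat_lit 5) (nat_lit 18) (nat_lit 4) (nat_lit 16) (nat_lit 4) (nat_lit 476) (nat_lit 389) (nat_lit 155)) (XT.lf (nat_lit 0) (nat_lit 6333735125) (nat_lit 836) (nat_lit 8497135167) (nat_lit 836) (nat_lit 8497135167) (nat_lit 118) (nat_lit 3) (nat_lit 129) (nat_lit 3) (nat_lit 129) (nat_lit 5) (nat_lit 390) (nat_lit 390) (nat_lit 240)))) (XT.nd (nat_lit 156) (nat_lit 0) (nat_lit 76) (XT.nd (nat_lit 78) (nat_lit 0) (nat_lit 76) (XT.lf (nat_lit 76) (nat_lit 5861199506) (nat_lit 0) (nat_lit 7243817798) (nat_lit 836) (nat_lit 34711334822) (nat_lit 119) (nat_lit 5) (nat_lit 118) (nat_lit 3) (nat_lit 129) (nat_lit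 5) (nat_lit 391) (nat_lit 390) (nat_lit 239)) (XT.lf (nat_lit 0) (nat_lit 14109495616) (nat_lit 760) (nat_lit 18831132262) (nat_lit 836) (nat_lit 16066830845) (nat_lit 119) (nat_lit 5) (nat_lit 129) (nat_lit 5) (nat_lit 130) (nat_lit 5) (nat_lit 392) (nat_lit 390) (nat_lit 238))) (XT.nd (nat_lit 78) (nat_lit 0) (nat_lit 76) (XT.lf (nat_lit 76) (nat_lit 5505472314) (nat_lit 0) (nat_lit 9861641012) (nat_lit 836) (nat_lit 34880862530) (nat_lit 120) (nat_lit 5) (nat_lit 119) (nat_lit 5) (nat_lit 130) (nat_lit 5) (nat_lit 393) (nat_lit 390) (nat_lit 237)) (XT.lf (nat_lit 0) (nat_lit 17234418248) (nat_lit 760) (nat_lit 20052651204) (nat_lit 836) (nat_lit 14236110008) (nat_lit 120) (nat_lit 5) (nat_lit 130) (nat_lit 5) (nat_lit 131) (nat_lit 5) (nat_lit 394) (nat_lit 390) (nat_lit 236))))))))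
noncomputable def xc204 : XT := (XT.nd (nat_lit 2106) (nat_lit 2508) (nat_lit 0) (XT.nd (nat_lit 1014) (nat_lit 2204) (nat_lit 0) (XT.nd (nat_lit 468) (nat_lit 1748) (nat_lit 0) (XT.nd (nat_lit 234) (nat_lit 0) (nat_lit 152) (XT.nd (nat_lit 78) (nat_lit 0) (nat_lit 76) (XT.lf (nat_lit 76) (nat_lit 5897690145) (nat_lit 0) (nat_lit 13549513218) (nat_lit 836) (nat_lit 33402335022) (nat_lit 121) (nat_lit 5) (nat_lit 120) (nat_lit 5) (nat_lit 131) (nat_lit 5) (nat_lit 395) (nat_lit 390) (nat_lit 235)) (XT.nd (nat_lit 78) (nat_lit 0) (nat_lit 0) (XT.lf (nat_lit 0) (nat_lit 22291828309) (nat_lit 760) (nat_lit 20567834971) (nat_lit 836) (nat_lit 11356492792) (nat_lit 121) (nat_lit 5) (nat_lit 131) (nat_lit 5) (nat_lit 132) (nat_lit 5) (nat_lit 396) (nat_lit 390) (nat_lit 234)) (XT.lf (nat_lit 76) (nat_lit 7140688628) (nat_lit 0) (nat_lit 18470117199) (nat_lit 836) (nat_lit 30023693556) (nat_lit 122)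 (nat_lit 5) (nat_lit 121) (nat_lit 5) (nat_lit 132) (nat_lit 5) (nat_lit 397) (nat_lit 390) (nat_lit 233)))) (XT.nd (nat_lit 78) (nat_lit 0) (nat_lit 0) (XT.lf (nat_lit 0) (nat_lit 29559798086) (nat_lit 760) (nat_lit 20275978547) (nat_lit 836) (nat_lit 7264780700) (nat_lit 122) (nat_lit 5) (nat_lit 132) (nat_lit 5) (nat_lit 133) (nat_lit 5) (nat_lit 398) (nat_lit 390) (nat_lit 232)) (XT.nd (nat_lit 78) (nat_lit 0) (nat_lit 76) (XT.lf (nat_lit 76) (nat_lit 9348034229) (nat_lit 0) (nat_lit 24805582621) (nat_lit 836) (nat_lit 24463933216) (nat_lit 123) (nat_lit 5) (nat_lit 122) (nat_lit 5) (nat_lit 133) (nat_lit 5) (nat_lit 399) (nat_lit 390) (nat_lit 231)) (XT.lf (nat_lit 0) (nat_lit 39347875733) (nat_lit 760) (nat_lit 19065884427) (nat_lit 76) (nat_lit 1778095513) (nat_lit 123) (nat_lit 5) (nat_lit 133) (nat_lit 5) (nat_lit 124) (nat_lit 5) (nat_lit 400) (nat_lit 390) (nat_lit 230))))) (XT.nd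 (nat_lit 234) (nat_lit 836) (nat_lit 0) (XT.nd (nat_lit 78) (nat_lit 380) (nat_lit 0) (XT.lf (nat_lit 0) (nat_lit 12644881130) (nat_lit 760) (nat_lit 32759789781) (nat_lit 836) (nat_lit 16410065144) (nat_lit 113) (nat_lit 5) (nat_lit 123) (nat_lit 5) (nat_lit 124) (nat_lit 5) (nat_lit 401) (nat_lit 390) (nat_lit 229)) (XT.nd (nat_lit 78) (nat_lit 380) (nat_lit 0) (XT.lf (nat_lit 0) (nat_lit 46602013691) (nat_lit 760) (nat_lit 5483976860) (nat_lit 836) (nat_lit 11416686299) (nat_lit 113) (nat_lit 5) (nat_lit 123) (nat_lit 5) (nat_lit 124) (nat_lit 5) (nat_lit 402) (nat_lit 390) (nat_lit 228)) (XT.lf (nat_lit 0) (nat_lit 17168871912) (nat_lit 380) (nat_lit 42560936444) (nat_lit 456) (nat_lit 5513785322) (nat_lit 108) (nat_lit 5) (nat_lit 113) (nat_lit 5) (nat_lit 114) (nat_lit 5) (nat_lit 403) (nat_lit 390) (nat_lit 227)))) (XT.nd (nat_lit 156) (nat_lit 380) (nat_lit 0) (XT.nd (nat_lit 78)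 (nat_lit 380) (nat_lit 0) (XT.lf (nat_lit 0) (nat_lit 1042047060) (nat_lit 456) (nat_lit 13635008537) (nat_lit 76) (nat_lit 52374982787) (nat_lit 107) (nat_lit 5) (nat_lit 113) (nat_lit 5) (nat_lit 108) (nat_lit 5) (nat_lit 404) (nat_lit 390) (nat_lit 226)) (XT.lf (nat_lit 0) (nat_lit 8336533422) (nat_lit 456) (nat_lit 45986683141) (nat_lit 76) (nat_lit 14593361697) (nat_lit 102) (nat_lit 5) (nat_lit 108) (nat_lit 5) (nat_lit 103) (nat_lit 5) (nat_lit 405) (nat_lit 390) (nat_lit 225))) (XT.nd (nat_lit 78) (nat_lit 380) (nat_lit 0) (XT.lf (nat_lit 0) (nat_lit 16470013363) (nat_lit 456) (nat_lit 9311876354) (nat_lit 76) (nat_lit 45068742445) (nat_lit 102) (nat_lit 5) (nat_lit 108) (nat_lit 5) (nat_lit 103) (nat_lit 5) (nat_lit 406) (nat_lit 390) (nat_lit 224)) (XT.lf (nat_lit 0) (nat_lit 25553156388) (nat_lit 456) (nat_lit 42770017878) (nat_lit 76) (nat_lit 4531065510) (nat_lit 97) (nat_lit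 5) (nat_lit 103) (nat_lit 5) (nat_lit 98) (nat_lit 5) (nat_lit 407) (nat_lit 390) (nat_lit 223)))))) (XT.nd (nat_lit 546) (nat_lit 988) (nat_lit 0) (XT.nd (nat_lit 234) (nat_lit 608) (nat_lit 0) (XT.nd (nat_lit 78) (nat_lit 608) (nat_lit 0) (XT.lf (nat_lit 0) (nat_lit 35672436975) (nat_lit 456) (nat_lit 3603051837) (nat_lit 76) (nat_lit 35653440387) (nat_lit 97) (nat_lit 5) (nat_lit 103) (nat_lit 5) (nat_lit 98) (nat_lit 5) (nat_lit 408) (nat_lit 390) (nat_lit 222)) (XT.nd (nat_lit 78) (nat_lit 304) (nat_lit 0) (XT.lf (nat_lit 0) (nat_lit 38761853103) (nat_lit 304) (nat_lit 8140095439) (nat_lit 380) (nat_lit 30175191630) (nat_lit 93) (nat_lit 5) (nat_lit 97) (nat_lit 5) (nat_lit 98) (nat_lit 5) (nat_lit 409) (nat_lit 390) (nat_lit 221)) (XT.lf (nat_lit 0) (nat_lit 3775849363) (nat_lit 304) (nat_lit 55420495744) (nat_lit 380) (nat_lit 20111246522) (nat_lit 89) (nat_lit 5) (nat_lit 93) (nat_lit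 5) (nat_lit 94) (nat_lit 5) (nat_lit 410) (nat_lit 390) (nat_lit 220)))) (XT.nd (nat_lit 156) (nat_lit 304) (nat_lit 0) (XT.nd (nat_lit 78) (nat_lit 304) (nat_lit 0) (XT.lf (nat_lit 0) (nat_lit 49162866570) (nat_lit 304) (nat_lit 23721912294) (nat_lit 380) (nat_lit 8725821315) (nat_lit 89) (nat_lit 5) (nat_lit 93) (nat_lit 5) (nat_lit 94) (nat_lit 5) (nat_lit 411) (nat_lit 390) (nat_lit 219)) (XT.lf (nat_lit 0) (nat_lit 3483639556) (nat_lit 304) (nat_lit 71009226758) (nat_lit 76) (nat_lit 9515467174) (nat_lit 85) (nat_lit 5) (nat_lit 89) (nat_lit 5) (nat_lit 86) (nat_lit 5) (nat_lit 412) (nat_lit 390) (nat_lit 218))) (XT.nd (nat_lit 78) (nat_lit 304) (nat_lit 0) (XT.lf (nat_lit 0) (nat_lit 16956924998) (nat_lit 304) (nat_lit 25195654757) (nat_lit 76) (nat_lit 44318891913) (nat_lit 85) (nat_lit 5) (nat_lit 89) (nat_lit 5) (nat_lit 86) (nat_lit 5) (nat_lit 413) (nat_lit 390) (nat_lit 217))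 (XT.lf (nat_lit 0) (nat_lit 23665034475) (nat_lit 304) (nat_lit 7807542480) (nat_lit 380) (nat_lit 57566755009) (nat_lit 81) (nat_lit 5) (nat_lit 85) (nat_lit 5) (nat_lit 86) (nat_lit 5) (nat_lit 414) (nat_lit 390) (nat_lit 216))))) (XT.nd (nat_lit 234) (nat_lit 760) (nat_lit 0) (XT.nd (nat_lit 78) (nat_lit 228) (nat_lit 0) (XT.lf (nat_lit 0) (nat_lit 47588085981) (nat_lit 380) (nat_lit 16319895532) (nat_lit 76) (nat_lit 27783900341) (nat_lit 81) (nat_lit 5) (nat_lit 86) (nat_lit 5) (nat_lit 82) (nat_lit 5) (nat_lit 415) (nat_lit 390) (nat_lit 215)) (XT.nd (nat_lit 78) (nat_lit 0) (nat_lit 0) (XT.lf (nat_lit 0) (nat_lit 36217458078) (nat_lit 228) (nat_lit 28984639941) (nat_lit 304) (nat_lit 29240325131) (nat_lit 78) (nat_lit 5) (nat_lit 81) (nat_lit 5) (nat_lit 82) (nat_lit 5) (nat_lit 416) (nat_lit 390) (nat_lit 214)) (XT.lf (nat_lit 0) (nat_lit 84097004039) (nat_lit 304) (nat_lit 5493893024)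 (nat_lit 76) (nat_lit 7719585054) (nat_lit 78) (nat_lit 5) (nat_lit 82) (nat_lit 5) (nat_lit 79) (nat_lit 5) (nat_lit 417) (nat_lit 390) (nat_lit 213)))) (XT.nd (nat_lit 156) (nat_lit 228) (nat_lit 0) (XT.nd (nat_lit 78) (nat_lit 228) (nat_lit 0) (XT.lf (nat_lit 0) (nat_lit 4791080067) (nat_lit 304) (nat_lit 49304705160) (nat_lit 76) (nat_lit 46158734163) (nat_lit 74) (nat_lit 5) (nat_lit 78) (nat_lit 5) (nat_lit 75) (nat_lit 5) (nat_lit 418) (nat_lit 390) (nat_lit 212)) (XT.lf (nat_lit 0) (nat_lit 7072627006) (nat_lit 228) (nat_lit 16383505261) (nat_lit 304) (nat_lit 79868579493) (nat_lit 71) (nat_lit 5) (nat_lit 74) (nat_lit 5) (nat_lit 75) (nat_lit 5) (nat_lit 419) (nat_lit 390) (nat_lit 211))) (XT.nd (nat_lit 78) (nat_lit 228) (nat_lit 0) (XT.lf (nat_lit 0) (nat_lit 44264914380) (nat_lit 304) (nat_lit 38903170885) (nat_lit 76) (nat_lit 23319804847) (nat_lit 71) (nat_lit 5) (nat_lit 75)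 (nat_lit 5) (nat_lit 72) (nat_lit 5) (nat_lit 420) (nat_lit 390) (nat_lit 210)) (XT.lf (nat_lit 0) (nat_lit 21739500970) (nat_lit 228) (nat_lit 44982010346) (nat_lit 304) (nat_lit 43057347496) (nat_lit 68) (nat_lit 5) (nat_lit 71) (nat_lit 5) (nat_lit 72) (nat_lit 5) (nat_lit 421) (nat_lit 390) (nat_lit 209))))))) (XT.nd (nat_lit 1014) (nat_lit 1140) (nat_lit 0) (XT.nd (nat_lit 468) (nat_lit 760) (nat_lit 0) (XT.nd (nat_lit 234) (nat_lit 380) (nat_lit 0) (XT.nd (nat_lit 78) (nat_lit 228) (nat_lit 0) (XT.lf (nat_lit 0) (nat_lit 86764045819) (nat_lit 228) (nat_lit 4195131088) (nat_lit 304) (nat_lit 22242287302) (nat_lit 68) (nat_lit 5) (nat_lit 71) (nat_lit 5) (nat_lit 72) (nat_lit 5) (nat_lit 422) (nat_lit 390) (nat_lit 208)) (XT.nd (nat_lit 78) (nat_lit 0) (nat_lit 0) (XT.lf (nat_lit 0) (nat_lit 855391385) (nat_lit 228) (nat_lit 77863339808) (nat_lit 76) (nat_lit 38015295773) (nat_lit 65)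 (nat_lit 5) (nat_lit 68) (nat_lit 5) (nat_lit 66) (nat_lit 5) (nat_lit 423) (nat_lit 390) (nat_lit 207)) (XT.lf (nat_lit 0) (nat_lit 24883734390) (nat_lit 228) (nat_lit 12500404355) (nat_lit 76) (nat_lit 83014684556) (nat_lit 65) (nat_lit 5) (nat_lit 68) (nat_lit 5) (nat_lit 66) (nat_lit 5) (nat_lit 424) (nat_lit 390) (nat_lit 206)))) (XT.nd (nat_lit 78) (nat_lit 152) (nat_lit 0) (XT.lf (nat_lit 0) (nat_lit 51127048028) (nat_lit 304) (nat_lit 66324655541) (nat_lit 76) (nat_lit 6744478378) (nat_lit 62) (nat_lit 5) (nat_lit 66) (nat_lit 5) (nat_lit 63) (nat_lit 5) (nat_lit 425) (nat_lit 390) (nat_lit 205)) (XT.nd (nat_lit 78) (nat_lit 0) (nat_lit 0) (XT.lf (nat_lit 0) (nat_lit 3518664585) (nat_lit 152) (nat_lit 76046284932) (nat_lit 228) (nat_lit 48574338060) (nat_lit 60) (nat_lit 5) (nat_lit 62) (nat_lit 5) (nat_lit 63) (nat_lit 5) (nat_lit 426) (nat_lit 390) (nat_lit 204)) (XT.lf (nat_lit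 0) (nat_lit 79155961193) (nat_lit 152) (nat_lit 31391498060) (nat_lit 228) (nat_lit 21675953732) (nat_lit 60) (nat_lit 5) (nat_lit 62) (nat_lit 5) (nat_lit 63) (nat_lit 5) (nat_lit 427) (nat_lit 390) (nat_lit 203))))) (XT.nd (nat_lit 234) (nat_lit 380) (nat_lit 0) (XT.nd (nat_lit 78) (nat_lit 152) (nat_lit 0) (XT.lf (nat_lit 0) (nat_lit 6960256581) (nat_lit 228) (nat_lit 114052221060) (nat_lit 76) (nat_lit 15463985275) (nat_lit 57) (nat_lit 5) (nat_lit 60) (nat_lit 5) (nat_lit 58) (nat_lit 5) (nat_lit 428) (nat_lit 390) (nat_lit 202)) (XT.nd (nat_lit 78) (nat_lit 152) (nat_lit 0) (XT.lf (nat_lit 0) (nat_lit 37727391068) (nat_lit 228) (nat_lit 38249834851) (nat_lit 76) (nat_lit 64875793990) (nat_lit 57) (nat_lit 5) (nat_lit 60) (nat_lit 5) (nat_lit 58) (nat_lit 5) (nat_lit 429) (nat_lit 390) (nat_lit 201)) (XT.lf (nat_lit 0) (nat_lit 42708842688) (nat_lit 152) (nat_lit 27990365250) (nat_lit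 228) (nat_lit 74715880656) (nat_lit 55) (nat_lit 5) (nat_lit 57) (nat_lit 5) (nat_lit 58) (nat_lit 5) (nat_lit 430) (nat_lit 390) (nat_lit 200)))) (XT.nd (nat_lit 156) (nat_lit 228) (nat_lit 0) (XT.nd (nat_lit 78) (nat_lit 152) (nat_lit 0) (XT.lf (nat_lit 0) (nat_lit 106327203416) (nat_lit 228) (nat_lit 21490534898) (nat_lit 76) (nat_lit 22337143132) (nat_lit 55) (nat_lit 5) (nat_lit 58) (nat_lit 5) (nat_lit 56) (nat_lit 5) (nat_lit 431) (nat_lit 390) (nat_lit 199)) (XT.lf (nat_lit 0) (nat_lit 65420211865) (nat_lit 152) (nat_lit 79796187776) (nat_lit 228) (nat_lit 9841274364) (nat_lit 53) (nat_lit 5) (nat_lit 55) (nat_lit 5) (nat_lit 56) (nat_lit 5) (nat_lit 432) (nat_lit 390) (nat_lit 198))) (XT.nd (nat_lit 78) (nat_lit 152) (nat_lit 0) (XT.lf (nat_lit 0) (nat_lit 25386737072) (nat_lit 228) (nat_lit 3175030020) (nat_lit 76) (nat_lit 131605190422) (nat_lit 52) (nat_lit 5) (nat_lit 55) (nat_lit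 5) (nat_lit 53) (nat_lit 5) (nat_lit 433) (nat_lit 390) (nat_lit 197)) (XT.lf (nat_lit 0) (nat_lit 63875192587) (nat_lit 228) (nat_lit 75532959848) (nat_lit 76) (nat_lit 26023997501) (nat_lit 50) (nat_lit 5) (nat_lit 53) (nat_lit 5) (nat_lit 51) (nat_lit 5) (nat_lit 434) (nat_lit 390) (nat_lit 196)))))) (XT.nd (nat_lit 546) (nat_lit 532) (nat_lit 0) (XT.nd (nat_lit 234) (nat_lit 304) (nat_lit 0) (XT.nd (nat_lit 78) (nat_lit 152) (nat_lit 0) (XT.lf (nat_lit 0) (nat_lit 16848881040) (nat_lit 152) (nat_lit 88224704466) (nat_lit 228) (nat_lit 65847740835) (nat_lit 48) (nat_lit 5) (nat_lit 50) (nat_lit 5) (nat_lit 51) (nat_lit 5) (nat_lit 435) (nat_lit 390) (nat_lit 195)) (XT.nd (nat_lit 78) (nat_lit 152) (nat_lit 0) (XT.lf (nat_lit 0) (nat_lit 116471440543) (nat_lit 152) (nat_lit 33139232310) (nat_lit 228) (nat_lit 27010350065) (nat_lit 48) (nat_lit 5) (nat_lit 50) (nat_lit 5) (nat_lit 51) (nat_lit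 5) (nat_lit 436) (nat_lit 390) (nat_lit 194)) (XT.lf (nat_lit 0) (nat_lit 14344094582) (nat_lit 152) (nat_lit 143444796730) (nat_lit 76) (nat_lit 24755270755) (nat_lit 46) (nat_lit 5) (nat_lit 48) (nat_lit 5) (nat_lit 47) (nat_lit 5) (nat_lit 437) (nat_lit 390) (nat_lit 193)))) (XT.nd (nat_lit 156) (nat_lit 152) (nat_lit 0) (XT.nd (nat_lit 78) (nat_lit 152) (nat_lit 0) (XT.lf (nat_lit 0) (nat_lit 58436769044) (nat_lit 152) (nat_lit 44316955992) (nat_lit 76) (nat_lit 85908681962) (nat_lit 46) (nat_lit 5) (nat_lit 48) (nat_lit 5) (nat_lit 47) (nat_lit 5) (nat_lit 438) (nat_lit 390) (nat_lit 192)) (XT.lf (nat_lit 0) (nat_lit 61742773076) (nat_lit 152) (nat_lit 43954905391) (nat_lit 228) (nat_lit 89340705720) (nat_lit 44) (nat_lit 5) (nat_lit 46) (nat_lit 5) (nat_lit 47) (nat_lit 5) (nat_lit 439) (nat_lit 390) (nat_lit 191))) (XT.nd (nat_lit 78) (nat_lit 152) (nat_lit 0) (XT.lf (nat_lit 0) (nat_lit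 156361749015) (nat_lit 228) (nat_lit 27342181690) (nat_lit 76) (nat_lit 17977223818) (nat_lit 44) (nat_lit 5) (nat_lit 47) (nat_lit 5) (nat_lit 45) (nat_lit 4) (nat_lit 440) (nat_lit 390) (nat_lit 190)) (XT.lf (nat_lit 0) (nat_lit 2969816165) (nat_lit 152) (nat_lit 122662587466) (nat_lit 76) (nat_lit 82918167081) (nat_lit 42) (nat_lit 5) (nat_lit 44) (nat_lit 5) (nat_lit 43) (nat_lit 5) (nat_lit 441) (nat_lit 390) (nat_lit 189))))) (XT.nd (nat_lit 234) (nat_lit 304) (nat_lit 0) (XT.nd (nat_lit 78) (nat_lit 228) (nat_lit 0) (XT.lf (nat_lit 0) (nat_lit 52620760051) (nat_lit 152) (nat_lit 10762553594) (nat_lit 76) (nat_lit 152319482557) (nat_lit 42) (nat_lit 5) (nat_lit 44) (nat_lit 5) (nat_lit 43) (nat_lit 5) (nat_lit 442) (nat_lit 390) (nat_lit 188)) (XT.nd (nat_lit 78) (nat_lit 76) (nat_lit 0) (XT.lf (nat_lit 0) (nat_lit 106534498749) (nat_lit 228) (nat_lit 112924760019) (nat_lit 76) (nat_lit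 3664361874) (nat_lit 40) (nat_lit 5) (nat_lit 43) (nat_lit 5) (nat_lit 41) (nat_lit 4) (nat_lit 443) (nat_lit 390) (nat_lit 187)) (XT.lf (nat_lit 0) (nat_lit 5819212302) (nat_lit 76) (nat_lit 158639559860) (nat_lit 152) (nat_lit 66390971809) (nat_lit 39) (nat_lit 5) (nat_lit 40) (nat_lit 5) (nat_lit 41) (nat_lit 4) (nat_lit 444) (nat_lit 390) (nat_lit 186)))) (XT.nd (nat_lit 156) (nat_lit 76) (nat_lit 0) (XT.nd (nat_lit 78) (nat_lit 228) (nat_lit 0) (XT.lf (nat_lit 0) (nat_lit 134420281306) (nat_lit 76) (nat_lit 92771085806) (nat_lit 152) (nat_lit 11675201014) (nat_lit 39) (nat_lit 5) (nat_lit 40) (nat_lit 5) (nat_lit 41) (nat_lit 4) (nat_lit 445) (nat_lit 390) (nat_lit 185)) (XT.lf (nat_lit 0) (nat_lit 22161192767) (nat_lit 152) (nat_lit 22495717384) (nat_lit 228) (nat_lit 202574304464) (nat_lit 36) (nat_lit 5) (nat_lit 38) (nat_lit 5) (nat_lit 39) (nat_lit 5) (nat_lit 446) (nat_lit 390)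 (nat_lit 184))) (XT.nd (nat_lit 78) (nat_lit 76) (nat_lit 0) (XT.lf (nat_lit 0) (nat_lit 106011628596) (nat_lit 228) (nat_lit 98222272832) (nat_lit 76) (nat_lit 51640703956) (nat_lit 36) (nat_lit 5) (nat_lit 39) (nat_lit 5) (nat_lit 37) (nat_lit 4) (nat_lit 447) (nat_lit 390) (nat_lit 183)) (XT.lf (nat_lit 0) (nat_lit 35742513496) (nat_lit 76) (nat_lit 135618092605) (nat_lit 152) (nat_lit 93543233478) (nat_lit 35) (nat_lit 5) (nat_lit 36) (nat_lit 5) (nat_lit 37) (nat_lit 4) (nat_lit 448) (nat_lit 390) (nat_lit 182))))))))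
noncomputable def xc205 : XT := (XT.nd (nat_lit 2106) (nat_lit 0) (nat_lit 0) (XT.nd (nat_lit 1014) (nat_lit 684) (nat_lit 0) (XT.nd (nat_lit 468) (nat_lit 304) (nat_lit 0) (XT.nd (nat_lit 234) (nat_lit 228) (nat_lit 0) (XT.nd (nat_lit 78) (nat_lit 228) (nat_lit 0) (XT.lf (nat_lit 0) (nat_lit 179815052024) (nat_lit 76) (nat_lit 61825128066) (nat_lit 152) (nat_lit 32661198054) (nat_lit 35) (nat_lit 5) (nat_lit 36) (nat_lit 5) (nat_lit 37) (nat_lit 4) (nat_lit 449) (nat_lit 390) (nat_lit 181)) (XT.nd (nat_lit 78) (nat_lit 0) (nat_lit 0) (XT.lf (nat_lit 0) (nat_lit 31277645982) (nat_lit 228) (nat_lit 236402613643) (nat_lit 76) (nat_lit 16413458376) (nat_lit 32) (nat_lit 5) (nat_lit 35) (nat_lit 5) (nat_lit 33) (nat_lit 4) (nat_lit 450) (nat_lit 390) (nat_lit 180)) (XT.lf (nat_lit 0) (nat_lit 99955449476) (nat_lit 228) (nat_lit 95613624545) (nat_lit 76) (nat_lit 98647847008) (nat_lit 32) (nat_lit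 5) (nat_lit 35) (nat_lit 5) (nat_lit 33) (nat_lit 4) (nat_lit 451) (nat_lit 390) (nat_lit 179)))) (XT.nd (nat_lit 78) (nat_lit 152) (nat_lit 0) (XT.lf (nat_lit 0) (nat_lit 53940752048) (nat_lit 76) (nat_lit 118968287899) (nat_lit 152) (nat_lit 131895149455) (nat_lit 31) (nat_lit 5) (nat_lit 32) (nat_lit 5) (nat_lit 33) (nat_lit 4) (nat_lit 452) (nat_lit 390) (nat_lit 178)) (XT.nd (nat_lit 78) (nat_lit 152) (nat_lit 0) (XT.lf (nat_lit 0) (nat_lit 214291841833) (nat_lit 76) (nat_lit 36837466706) (nat_lit 152) (nat_lit 64710562756) (nat_lit 31) (nat_lit 5) (nat_lit 32) (nat_lit 5) (nat_lit 33) (nat_lit 4) (nat_lit 453) (nat_lit 390) (nat_lit 177)) (XT.lf (nat_lit 0) (nat_lit 7323017689) (nat_lit 152) (nat_lit 271200841888) (nat_lit 76) (nat_lit 48815100816) (nat_lit 29) (nat_lit 5) (nat_lit 31) (nat_lit 5) (nat_lit 30) (nat_lit 4) (nat_lit 454) (nat_lit 390) (nat_lit 176))))) (XT.nd (nat_lit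 234) (nat_lit 228) (nat_lit 0) (XT.nd (nat_lit 78) (nat_lit 76) (nat_lit 0) (XT.lf (nat_lit 0) (nat_lit 83135174105) (nat_lit 152) (nat_lit 115786319318) (nat_lit 76) (nat_lit 140320889298) (nat_lit 29) (nat_lit 5) (nat_lit 31) (nat_lit 5) (nat_lit 30) (nat_lit 4) (nat_lit 455) (nat_lit 390) (nat_lit 175)) (XT.nd (nat_lit 78) (nat_lit 0) (nat_lit 0) (XT.lf (nat_lit 0) (nat_lit 48965678693) (nat_lit 76) (nat_lit 114536508649) (nat_lit 152) (nat_lit 188200576398) (nat_lit 28) (nat_lit 5) (nat_lit 29) (nat_lit 5) (nat_lit 30) (nat_lit 4) (nat_lit 456) (nat_lit 390) (nat_lit 174)) (XT.lf (nat_lit 0) (nat_lit 225974665347) (nat_lit 76) (nat_lit 23873545277) (nat_lit 152) (nat_lit 114839920243) (nat_lit 28) (nat_lit 5) (nat_lit 29) (nat_lit 5) (nat_lit 30) (nat_lit 4) (nat_lit 457) (nat_lit 390) (nat_lit 173)))) (XT.nd (nat_lit 156) (nat_lit 76) (nat_lit 0) (XT.nd (nat_lit 78) (nat_lit 76) (nat_lit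 0) (XT.lf (nat_lit 0) (nat_lit 33468555084) (nat_lit 76) (nat_lit 308678833270) (nat_lit 76) (nat_lit 36093585355) (nat_lit 27) (nat_lit 4) (nat_lit 28) (nat_lit 5) (nat_lit 28) (nat_lit 4) (nat_lit 458) (nat_lit 390) (nat_lit 172)) (XT.lf (nat_lit 0) (nat_lit 47877724296) (nat_lit 152) (nat_lit 174436225015) (nat_lit 76) (nat_lit 169982197775) (nat_lit 26) (nat_lit 5) (nat_lit 28) (nat_lit 5) (nat_lit 27) (nat_lit 4) (nat_lit 459) (nat_lit 390) (nat_lit 171))) (XT.nd (nat_lit 78) (nat_lit 0) (nat_lit 0) (XT.lf (nat_lit 0) (nat_lit 3951123565) (nat_lit 76) (nat_lit 130944964456) (nat_lit 152) (nat_lit 272125332739) (nat_lit 25) (nat_lit 5) (nat_lit 26) (nat_lit 5) (nat_lit 27) (nat_lit 4) (nat_lit 460) (nat_lit 390) (nat_lit 170)) (XT.lf (nat_lit 0) (nat_lit 197313460927) (nat_lit 76) (nat_lit 31905856494) (nat_lit 152) (nat_lit 193115943340) (nat_lit 25) (nat_lit 5) (nat_lit 26) (nat_lit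 5) (nat_lit 27) (nat_lit 4) (nat_lit 461) (nat_lit 390) (nat_lit 169)))))) (XT.nd (nat_lit 546) (nat_lit 380) (nat_lit 0) (XT.nd (nat_lit 234) (nat_lit 152) (nat_lit 0) (XT.nd (nat_lit 78) (nat_lit 152) (nat_lit 0) (XT.lf (nat_lit 0) (nat_lit 329383953298) (nat_lit 152) (nat_lit 39196727960) (nat_lit 0) (nat_lit 69777849274) (nat_lit 25) (nat_lit 5) (nat_lit 27) (nat_lit 4) (nat_lit 25) (nat_lit 4) (nat_lit 462) (nat_lit 390) (nat_lit 168)) (XT.nd (nat_lit 78) (nat_lit 76) (nat_lit 0) (XT.lf (nat_lit 0) (nat_lit 160534270605) (nat_lit 76) (nat_lit 277051789822) (nat_lit 76) (nat_lit 17445441410) (nat_lit 24) (nat_lit 4) (nat_lit 25) (nat_lit 5) (nat_lit 25) (nat_lit 4) (nat_lit 463) (nat_lit 390) (nat_lit 167)) (XT.lf (nat_lit 0) (nat_lit 76817036044) (nat_lit 152) (nat_lit 102131657270) (nat_lit 76) (nat_lit 293494298091) (nat_lit 23) (nat_lit 5) (nat_lit 25) (nat_lit 5) (nat_lit 24) (nat_lit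 4) (nat_lit 464) (nat_lit 390) (nat_lit 166)))) (XT.nd (nat_lit 156) (nat_lit 76) (nat_lit 0) (XT.nd (nat_lit 78) (nat_lit 0) (nat_lit 0) (XT.lf (nat_lit 0) (nat_lit 102857939348) (nat_lit 76) (nat_lit 73954130006) (nat_lit 152) (nat_lit 313818400912) (nat_lit 22) (nat_lit 5) (nat_lit 23) (nat_lit 5) (nat_lit 24) (nat_lit 4) (nat_lit 465) (nat_lit 390) (nat_lit 165)) (XT.lf (nat_lit 0) (nat_lit 284131262601) (nat_lit 152) (nat_lit 188593352652) (nat_lit 0) (nat_lit 36886487419) (nat_lit 22) (nat_lit 5) (nat_lit 24) (nat_lit 4) (nat_lit 22) (nat_lit 4) (nat_lit 466) (nat_lit 390) (nat_lit 164))) (XT.nd (nat_lit 78) (nat_lit 0) (nat_lit 0) (XT.lf (nat_lit 0) (nat_lit 19971282431) (nat_lit 76) (nat_lit 378369125659) (nat_lit 76) (nat_lit 131124158992) (nat_lit 21) (nat_lit 4) (nat_lit 22) (nat_lit 5) (nat_lit 22) (nat_lit 4) (nat_lit 467) (nat_lit 390) (nat_lit 163)) (XT.lf (nat_lit 0) (nat_lit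 245511345110) (nat_lit 76) (nat_lit 275942410700) (nat_lit 76) (nat_lit 28697261667) (nat_lit 21) (nat_lit 4) (nat_lit 22) (nat_lit 5) (nat_lit 22) (nat_lit 4) (nat_lit 468) (nat_lit 390) (nat_lit 162))))) (XT.nd (nat_lit 234) (nat_lit 228) (nat_lit 0) (XT.nd (nat_lit 78) (nat_lit 76) (nat_lit 0) (XT.lf (nat_lit 0) (nat_lit 76327087568) (nat_lit 152) (nat_lit 90774793200) (nat_lit 76) (nat_lit 404708363857) (nat_lit 20) (nat_lit 5) (nat_lit 22) (nat_lit 5) (nat_lit 21) (nat_lit 4) (nat_lit 469) (nat_lit 390) (nat_lit 161)) (XT.nd (nat_lit 78) (nat_lit 0) (nat_lit 0) (XT.lf (nat_lit 0) (nat_lit 137720485346) (nat_lit 76) (nat_lit 50067794396) (nat_lit 152) (nat_lit 406633128969) (nat_lit 19) (nat_lit 5) (nat_lit 20) (nat_lit 5) (nat_lit 21) (nat_lit 4) (nat_lit 470) (nat_lit 390) (nat_lit 160)) (XT.lf (nat_lit 0) (nat_lit 307521780879) (nat_lit 152) (nat_lit 238456650273) (nat_lit 0) (nat_lit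 72049737393) (nat_lit 19) (nat_lit 5) (nat_lit 21) (nat_lit 4) (nat_lit 19) (nat_lit 4) (nat_lit 471) (nat_lit 390) (nat_lit 159)))) (XT.nd (nat_lit 156) (nat_lit 152) (nat_lit 0) (XT.nd (nat_lit 78) (nat_lit 76) (nat_lit 0) (XT.lf (nat_lit 0) (nat_lit 434062587661) (nat_lit 152) (nat_lit 10121245906) (nat_lit 0) (nat_lit 198590401286) (nat_lit 19) (nat_lit 5) (nat_lit 21) (nat_lit 4) (nat_lit 19) (nat_lit 4) (nat_lit 472) (nat_lit 390) (nat_lit 158)) (XT.lf (nat_lit 0) (nat_lit 237223270180) (nat_lit 76) (nat_lit 333410739022) (nat_lit 76) (nat_lit 97938416563) (nat_lit 18) (nat_lit 4) (nat_lit 19) (nat_lit 5) (nat_lit 19) (nat_lit 4) (nat_lit 473) (nat_lit 390) (nat_lit 157))) (XT.nd (nat_lit 78) (nat_lit 76) (nat_lit 0) (XT.lf (nat_lit 0) (nat_lit 17959482365) (nat_lit 152) (nat_lit 198655513214) (nat_lit 76) (nat_lit 479022483944) (nat_lit 17) (nat_lit 5) (nat_lit 19) (nat_lit 5) (nat_lit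 18) (nat_lit 4) (nat_lit 474) (nat_lit 390) (nat_lit 156)) (XT.lf (nat_lit 0) (nat_lit 45524045942) (nat_lit 76) (nat_lit 91547476710) (nat_lit 152) (nat_lit 586868454963) (nat_lit 16) (nat_lit 5) (nat_lit 17) (nat_lit 5) (nat_lit 18) (nat_lit 4) (nat_lit 475) (nat_lit 390) (nat_lit 155))))))) (XT.nd (nat_lit 47424) (nat_lit 0) (nat_lit 4940) (XT.nd (nat_lit 46878) (nat_lit 0) (nat_lit 7372) (XT.nd (nat_lit 46644) (nat_lit 0) (nat_lit 7828) (XT.nd (nat_lit 46488) (nat_lit 0) (nat_lit 7752) (XT.lf (nat_lit 0) (nat_lit 266179481496) (nat_lit 152) (nat_lit 445356329468) (nat_lit 0) (nat_lit 41919773828) (nat_lit 16) (nat_lit 5) (nat_lit 18) (nat_lit 4) (nat_lit 16) (nat_lit 4) (nat_lit 476) (nat_lit 390) (nat_lit 154)) (XT.nd (nat_lit 78) (nat_lit 0) (nat_lit 0) (XT.lf (nat_lit 0) (nat_lit 6679314184) (nat_lit 836) (nat_lit 8906815565) (nat_lit 836) (nat_lit 8906815565) (nat_lit 118) (nat_lit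 3) (nat_lit 129) (nat_lit 3) (nat_lit 129) (nat_lit 5) (nat_lit 391) (nat_lit 391) (nat_lit 238)) (XT.lf (nat_lit 76) (nat_lit 6184122642) (nat_lit 0) (nat_lit 7631644733) (nat_lit 836) (nat_lit 36388597297) (nat_lit 119) (nat_lit 5) (nat_lit 118) (nat_lit 3) (nat_lit 129) (nat_lit 5) (nat_lit 392) (nat_lit 391) (nat_lit 237)))) (XT.nd (nat_lit 78) (nat_lit 0) (nat_lit 0) (XT.lf (nat_lit 0) (nat_lit 14867445592) (nat_lit 760) (nat_lit 19741195093) (nat_lit 836) (nat_lit 16846538548) (nat_lit 119) (nat_lit 5) (nat_lit 129) (nat_lit 5) (nat_lit 130) (nat_lit 5) (nat_lit 393) (nat_lit 391) (nat_lit 236)) (XT.nd (nat_lit 78) (nat_lit 0) (nat_lit 76) (XT.lf (nat_lit 76) (nat_lit 5811731748) (nat_lit 0) (nat_lit 10374197396) (nat_lit 836) (nat_lit 36571895195) (nat_lit 120) (nat_lit 5) (nat_lit 119) (nat_lit 5) (nat_lit 130) (nat_lit 5) (nat_lit 394) (nat_lit 391) (nat_lit 235)) (XT.lf (nat_lit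 0) (nat_lit 18143906877) (nat_lit 760) (nat_lit 21023055024) (nat_lit 836) (nat_lit 14929962144) (nat_lit 120) (nat_lit 5) (nat_lit 130) (nat_lit 5) (nat_lit 131) (nat_lit 5) (nat_lit 395) (nat_lit 391) (nat_lit 234))))) (XT.nd (nat_lit 234) (nat_lit 532) (nat_lit 0) (XT.nd (nat_lit 78) (nat_lit 0) (nat_lit 76) (XT.lf (nat_lit 76) (nat_lit 6224283574) (nat_lit 0) (nat_lit 14241268086) (nat_lit 836) (nat_lit 35024139474) (nat_lit 121) (nat_lit 5) (nat_lit 120) (nat_lit 5) (nat_lit 131) (nat_lit 5) (nat_lit 396) (nat_lit 391) (nat_lit 233)) (XT.nd (nat_lit 78) (nat_lit 0) (nat_lit 0) (XT.lf (nat_lit 0) (nat_lit 23450005621) (nat_lit 760) (nat_lit 21563601928) (nat_lit 836) (nat_lit 11911153448) (nat_lit 121) (nat_lit 5) (nat_lit 131) (nat_lit 5) (nat_lit 132) (nat_lit 5) (nat_lit 397) (nat_lit 391) (nat_lit 232)) (XT.lf (nat_lit 76) (nat_lit 7529821644) (nat_lit 0) (nat_lit 19403536000) (nat_lit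 836) (nat_lit 31480743670) (nat_lit 122) (nat_lit 5) (nat_lit 121) (nat_lit 5) (nat_lit 132) (nat_lit 5) (nat_lit 398) (nat_lit 391) (nat_lit 231)))) (XT.nd (nat_lit 156) (nat_lit 684) (nat_lit 0) (XT.nd (nat_lit 78) (nat_lit 0) (nat_lit 0) (XT.lf (nat_lit 0) (nat_lit 31077651569) (nat_lit 760) (nat_lit 21257038054) (nat_lit 836) (nat_lit 7618881006) (nat_lit 122) (nat_lit 5) (nat_lit 132) (nat_lit 5) (nat_lit 133) (nat_lit 5) (nat_lit 399) (nat_lit 391) (nat_lit 230)) (XT.lf (nat_lit 76) (nat_lit 9847647306) (nat_lit 0) (nat_lit 26052118609) (nat_lit 836) (nat_lit 25646717871) (nat_lit 123) (nat_lit 5) (nat_lit 122) (nat_lit 5) (nat_lit 133) (nat_lit 5) (nat_lit 400) (nat_lit 391) (nat_lit 229))) (XT.nd (nat_lit 78) (nat_lit 760) (nat_lit 0) (XT.lf (nat_lit 0) (nat_lit 41351812886) (nat_lit 760) (nat_lit 19986556900) (nat_lit 76) (nat_lit 1861232099) (nat_lit 123) (nat_lit 5) (nat_lit 133)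 (nat_lit 5) (nat_lit 124) (nat_lit 5) (nat_lit 401) (nat_lit 391) (nat_lit 228)) (XT.lf (nat_lit 0) (nat_lit 13309220778) (nat_lit 760) (nat_lit 34400987987) (nat_lit 836) (nat_lit 17193480399) (nat_lit 113) (nat_lit 5) (nat_lit 123) (nat_lit 5) (nat_lit 124) (nat_lit 5) (nat_lit 402) (nat_lit 391) (nat_lit 227)))))) (XT.nd (nat_lit 546) (nat_lit 1216) (nat_lit 0) (XT.nd (nat_lit 234) (nat_lit 760) (nat_lit 0) (XT.nd (nat_lit 78) (nat_lit 456) (nat_lit 0) (XT.lf (nat_lit 0) (nat_lit 48962681606) (nat_lit 760) (nat_lit 5761231625) (nat_lit 836) (nat_lit 11952198707) (nat_lit 113) (nat_lit 5) (nat_lit 123) (nat_lit 5) (nat_lit 124) (nat_lit 5) (nat_lit 403) (nat_lit 391) (nat_lit 226)) (XT.nd (nat_lit 78) (nat_lit 76) (nat_lit 0) (XT.lf (nat_lit 0) (nat_lit 18059108018) (nat_lit 380) (nat_lit 44689663736) (nat_lit 456) (nat_lit 5755361199) (nat_lit 108) (nat_lit 5) (nat_lit 113) (nat_lit 5)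 (nat_lit 114) (nat_lit 5) (nat_lit 404) (nat_lit 391) (nat_lit 225)) (XT.lf (nat_lit 0) (nat_lit 1125598506) (nat_lit 456) (nat_lit 14285425332) (nat_lit 76) (nat_lit 54992028808) (nat_lit 107) (nat_lit 5) (nat_lit 113) (nat_lit 5) (nat_lit 108) (nat_lit 5) (nat_lit 405) (nat_lit 391) (nat_lit 224)))) (XT.nd (nat_lit 156) (nat_lit 380) (nat_lit 0) (XT.nd (nat_lit 78) (nat_lit 0) (nat_lit 0) (XT.lf (nat_lit 0) (nat_lit 8783799099) (nat_lit 456) (nat_lit 48253659101) (nat_lit 76) (nat_lit 15323412545) (nat_lit 102) (nat_lit 5) (nat_lit 108) (nat_lit 5) (nat_lit 103) (nat_lit 5) (nat_lit 406) (nat_lit 391) (nat_lit 223)) (XT.lf (nat_lit 0) (nat_lit 17322503561) (nat_lit 456) (nat_lit 9746652841) (nat_lit 76) (nat_lit 47322544103) (nat_lit 102) (nat_lit 5) (nat_lit 108) (nat_lit 5) (nat_lit 103) (nat_lit 5) (nat_lit 407) (nat_lit 391) (nat_lit 222))) (XT.nd (nat_lit 78) (nat_lit 0) (nat_lit 0)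 (XT.lf (nat_lit 0) (nat_lit 26858931607) (nat_lit 456) (nat_lit 44876816178) (nat_lit 76) (nat_lit 4759784978) (nat_lit 97) (nat_lit 5) (nat_lit 103) (nat_lit 5) (nat_lit 98) (nat_lit 5) (nat_lit 408) (nat_lit 391) (nat_lit 221)) (XT.lf (nat_lit 0) (nat_lit 37482837299) (nat_lit 456) (nat_lit 3753011482) (nat_lit 76) (nat_lit 37438175447) (nat_lit 97) (nat_lit 5) (nat_lit 103) (nat_lit 5) (nat_lit 98) (nat_lit 5) (nat_lit 409) (nat_lit 391) (nat_lit 220))))) (XT.nd (nat_lit 234) (nat_lit 608) (nat_lit 0) (XT.nd (nat_lit 78) (nat_lit 304) (nat_lit 0) (XT.lf (nat_lit 0) (nat_lit 40729651723) (nat_lit 304) (nat_lit 8543361350) (nat_lit 380) (nat_lit 31656673841) (nat_lit 93) (nat_lit 5) (nat_lit 97) (nat_lit 5) (nat_lit 98) (nat_lit 5) (nat_lit 410) (nat_lit 391) (nat_lit 219)) (XT.nd (nat_lit 78) (nat_lit 0) (nat_lit 0) (XT.lf (nat_lit 0) (nat_lit 3995100368) (nat_lit 304) (nat_lit 58186323706)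 (nat_lit 380) (nat_lit 21090272706) (nat_lit 89) (nat_lit 5) (nat_lit 93) (nat_lit 5) (nat_lit 94) (nat_lit 5) (nat_lit 411) (nat_lit 391) (nat_lit 218)) (XT.lf (nat_lit 0) (nat_lit 51650018029) (nat_lit 304) (nat_lit 24903058551) (nat_lit 380) (nat_lit 9136839864) (nat_lit 89) (nat_lit 5) (nat_lit 93) (nat_lit 5) (nat_lit 94) (nat_lit 5) (nat_lit 412) (nat_lit 391) (nat_lit 217)))) (XT.nd (nat_lit 156) (nat_lit 304) (nat_lit 0) (XT.nd (nat_lit 78) (nat_lit 0) (nat_lit 0) (XT.lf (nat_lit 0) (nat_lit 3681665678) (nat_lit 304) (nat_lit 74529231504) (nat_lit 76) (nat_lit 9996650973) (nat_lit 85) (nat_lit 5) (nat_lit 89) (nat_lit 5) (nat_lit 86) (nat_lit 5) (nat_lit 413) (nat_lit 391) (nat_lit 216)) (XT.lf (nat_lit 0) (nat_lit 17827479957) (nat_lit 304) (nat_lit 26426431217) (nat_lit 76) (nat_lit 46539989309) (nat_lit 85) (nat_lit 5) (nat_lit 89) (nat_lit 5) (nat_lit 86) (nat_lit 5) (nat_lit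 414) (nat_lit 391) (nat_lit 215))) (XT.nd (nat_lit 78) (nat_lit 0) (nat_lit 0) (XT.lf (nat_lit 0) (nat_lit 24876824633) (nat_lit 304) (nat_lit 8191454077) (nat_lit 380) (nat_lit 60421907319) (nat_lit 81) (nat_lit 5) (nat_lit 85) (nat_lit 5) (nat_lit 86) (nat_lit 5) (nat_lit 415) (nat_lit 391) (nat_lit 214)) (XT.lf (nat_lit 0) (nat_lit 49988608234) (nat_lit 380) (nat_lit 17107747429) (nat_lit 76) (nat_lit 29179055921) (nat_lit 81) (nat_lit 5) (nat_lit 86) (nat_lit 5) (nat_lit 82) (nat_lit 5) (nat_lit 416) (nat_lit 391) (nat_lit 213))))))))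
noncomputable def xc206 : XT := (XT.nd (nat_lit 2106) (nat_lit 1672) (nat_lit 0) (XT.nd (nat_lit 1014) (nat_lit 1140) (nat_lit 0) (XT.nd (nat_lit 468) (nat_lit 836) (nat_lit 0) (XT.nd (nat_lit 234) (nat_lit 456) (nat_lit 0) (XT.nd (nat_lit 78) (nat_lit 304) (nat_lit 0) (XT.lf (nat_lit 0) (nat_lit 38056019944) (nat_lit 228) (nat_lit 30426727616) (nat_lit 304) (nat_lit 30680761454) (nat_lit 78) (nat_lit 5) (nat_lit 81) (nat_lit 5) (nat_lit 82) (nat_lit 5) (nat_lit 417) (nat_lit 391) (nat_lit 212)) (XT.nd (nat_lit 78) (nat_lit 304) (nat_lit 0) (XT.lf (nat_lit 0) (nat_lit 88321526796) (nat_lit 304) (nat_lit 5741337472) (nat_lit 76) (nat_lit 8112150649) (nat_lit 78) (nat_lit 5) (nat_lit 82) (nat_lit 5) (nat_lit 79) (nat_lit 5) (nat_lit 418) (nat_lit 391) (nat_lit 211)) (XT.lf (nat_lit 0) (nat_lit 5050109511) (nat_lit 304) (nat_lit 51742478823) (nat_lit 76) (nat_lit 48473676289) (nat_lit 74) (nat_lit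 5) (nat_lit 78) (nat_lit 5) (nat_lit 75) (nat_lit 5) (nat_lit 419) (nat_lit 391) (nat_lit 210)))) (XT.nd (nat_lit 78) (nat_lit 228) (nat_lit 0) (XT.lf (nat_lit 0) (nat_lit 7453277022) (nat_lit 228) (nat_lit 17194631735) (nat_lit 304) (nat_lit 83842083465) (nat_lit 71) (nat_lit 5) (nat_lit 74) (nat_lit 5) (nat_lit 75) (nat_lit 5) (nat_lit 420) (nat_lit 391) (nat_lit 209)) (XT.nd (nat_lit 78) (nat_lit 228) (nat_lit 0) (XT.lf (nat_lit 0) (nat_lit 46496346328) (nat_lit 304) (nat_lit 40821807403) (nat_lit 76) (nat_lit 24493215259) (nat_lit 71) (nat_lit 5) (nat_lit 75) (nat_lit 5) (nat_lit 72) (nat_lit 5) (nat_lit 421) (nat_lit 391) (nat_lit 208)) (XT.lf (nat_lit 0) (nat_lit 22852570270) (nat_lit 228) (nat_lit 47222744233) (nat_lit 304) (nat_lit 45191594851) (nat_lit 68) (nat_lit 5) (nat_lit 71) (nat_lit 5) (nat_lit 72) (nat_lit 5) (nat_lit 422) (nat_lit 391) (nat_lit 207))))) (XT.nd (nat_lit 234)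 (nat_lit 608) (nat_lit 0) (XT.nd (nat_lit 78) (nat_lit 228) (nat_lit 0) (XT.lf (nat_lit 0) (nat_lit 91127099779) (nat_lit 228) (nat_lit 4396919423) (nat_lit 304) (nat_lit 23336668315) (nat_lit 68) (nat_lit 5) (nat_lit 71) (nat_lit 5) (nat_lit 72) (nat_lit 5) (nat_lit 423) (nat_lit 391) (nat_lit 206)) (XT.nd (nat_lit 78) (nat_lit 0) (nat_lit 0) (XT.lf (nat_lit 0) (nat_lit 915029066) (nat_lit 228) (nat_lit 81730779235) (nat_lit 76) (nat_lit 39924071410) (nat_lit 65) (nat_lit 5) (nat_lit 68) (nat_lit 5) (nat_lit 66) (nat_lit 5) (nat_lit 424) (nat_lit 391) (nat_lit 205)) (XT.lf (nat_lit 0) (nat_lit 26143985978) (nat_lit 228) (nat_lit 13100922132) (nat_lit 76) (nat_lit 87173048163) (nat_lit 65) (nat_lit 5) (nat_lit 68) (nat_lit 5) (nat_lit 66) (nat_lit 5) (nat_lit 425) (nat_lit 391) (nat_lit 204)))) (XT.nd (nat_lit 156) (nat_lit 228) (nat_lit 0) (XT.nd (nat_lit 78) (nat_lit 152) (nat_lit 0) (XT.lf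 (nat_lit 0) (nat_lit 53699208317) (nat_lit 304) (nat_lit 69616124182) (nat_lit 76) (nat_lit 7089863436) (nat_lit 62) (nat_lit 5) (nat_lit 66) (nat_lit 5) (nat_lit 63) (nat_lit 5) (nat_lit 426) (nat_lit 391) (nat_lit 203)) (XT.lf (nat_lit 0) (nat_lit 3718962529) (nat_lit 152) (nat_lit 79839669997) (nat_lit 228) (nat_lit 50986843165) (nat_lit 60) (nat_lit 5) (nat_lit 62) (nat_lit 5) (nat_lit 63) (nat_lit 5) (nat_lit 427) (nat_lit 391) (nat_lit 202))) (XT.nd (nat_lit 78) (nat_lit 228) (nat_lit 0) (XT.lf (nat_lit 0) (nat_lit 83136963742) (nat_lit 152) (nat_lit 32952568981) (nat_lit 228) (nat_lit 22744311610) (nat_lit 60) (nat_lit 5) (nat_lit 62) (nat_lit 5) (nat_lit 63) (nat_lit 5) (nat_lit 428) (nat_lit 391) (nat_lit 201)) (XT.lf (nat_lit 0) (nat_lit 7323003630) (nat_lit 228) (nat_lit 119730914084) (nat_lit 76) (nat_lit 16245627759) (nat_lit 57) (nat_lit 5) (nat_lit 60) (nat_lit 5) (nat_lit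 58) (nat_lit 5) (nat_lit 429) (nat_lit 391) (nat_lit 200)))))) (XT.nd (nat_lit 546) (nat_lit 456) (nat_lit 0) (XT.nd (nat_lit 234) (nat_lit 532) (nat_lit 0) (XT.nd (nat_lit 78) (nat_lit 152) (nat_lit 0) (XT.lf (nat_lit 0) (nat_lit 39627793211) (nat_lit 228) (nat_lit 40139547518) (nat_lit 76) (nat_lit 68127624852) (nat_lit 57) (nat_lit 5) (nat_lit 60) (nat_lit 5) (nat_lit 58) (nat_lit 5) (nat_lit 430) (nat_lit 391) (nat_lit 199)) (XT.nd (nat_lit 78) (nat_lit 0) (nat_lit 0) (XT.lf (nat_lit 0) (nat_lit 44866696493) (nat_lit 152) (nat_lit 29381186121) (nat_lit 228) (nat_lit 78437271177) (nat_lit 55) (nat_lit 5) (nat_lit 57) (nat_lit 5) (nat_lit 58) (nat_lit 5) (nat_lit 431) (nat_lit 391) (nat_lit 198)) (XT.lf (nat_lit 0) (nat_lit 111656754130) (nat_lit 228) (nat_lit 22543190108) (nat_lit 76) (nat_lit 23462018403) (nat_lit 55) (nat_lit 5) (nat_lit 58) (nat_lit 5) (nat_lit 56) (nat_lit 5) (nat_lit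 432) (nat_lit 391) (nat_lit 197)))) (XT.nd (nat_lit 156) (nat_lit 304) (nat_lit 0) (XT.nd (nat_lit 78) (nat_lit 76) (nat_lit 0) (XT.lf (nat_lit 0) (nat_lit 68712741227) (nat_lit 152) (nat_lit 83777376787) (nat_lit 228) (nat_lit 10319791582) (nat_lit 53) (nat_lit 5) (nat_lit 55) (nat_lit 5) (nat_lit 56) (nat_lit 5) (nat_lit 433) (nat_lit 391) (nat_lit 196)) (XT.lf (nat_lit 0) (nat_lit 26668562429) (nat_lit 228) (nat_lit 3312871636) (nat_lit 76) (nat_lit 138193244006) (nat_lit 52) (nat_lit 5) (nat_lit 55) (nat_lit 5) (nat_lit 53) (nat_lit 5) (nat_lit 434) (nat_lit 391) (nat_lit 195))) (XT.nd (nat_lit 78) (nat_lit 152) (nat_lit 0) (XT.lf (nat_lit 0) (nat_lit 67081297711) (nat_lit 228) (nat_lit 79288552190) (nat_lit 76) (nat_lit 27333287500) (nat_lit 50) (nat_lit 5) (nat_lit 53) (nat_lit 5) (nat_lit 51) (nat_lit 5) (nat_lit 435) (nat_lit 391) (nat_lit 194)) (XT.lf (nat_lit 0) (nat_lit 17712041134)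 (nat_lit 152) (nat_lit 92627304697) (nat_lit 228) (nat_lit 69127440150) (nat_lit 48) (nat_lit 5) (nat_lit 50) (nat_lit 5) (nat_lit 51) (nat_lit 5) (nat_lit 436) (nat_lit 391) (nat_lit 193))))) (XT.nd (nat_lit 234) (nat_lit 304) (nat_lit 0) (XT.nd (nat_lit 78) (nat_lit 152) (nat_lit 0) (XT.lf (nat_lit 0) (nat_lit 122314742134) (nat_lit 152) (nat_lit 34787970122) (nat_lit 228) (nat_lit 28348784019) (nat_lit 48) (nat_lit 5) (nat_lit 50) (nat_lit 5) (nat_lit 51) (nat_lit 5) (nat_lit 437) (nat_lit 391) (nat_lit 192)) (XT.nd (nat_lit 78) (nat_lit 0) (nat_lit 0) (XT.lf (nat_lit 0) (nat_lit 15072878458) (nat_lit 152) (nat_lit 150596797952) (nat_lit 76) (nat_lit 26001112536) (nat_lit 46) (nat_lit 5) (nat_lit 48) (nat_lit 5) (nat_lit 47) (nat_lit 5) (nat_lit 438) (nat_lit 391) (nat_lit 191)) (XT.lf (nat_lit 0) (nat_lit 61369635255) (nat_lit 152) (nat_lit 46513528920) (nat_lit 76) (nat_lit 90211809625)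 (nat_lit 46) (nat_lit 5) (nat_lit 48) (nat_lit 5) (nat_lit 47) (nat_lit 5) (nat_lit 439) (nat_lit 391) (nat_lit 190)))) (XT.nd (nat_lit 156) (nat_lit 152) (nat_lit 0) (XT.nd (nat_lit 78) (nat_lit 0) (nat_lit 0) (XT.lf (nat_lit 0) (nat_lit 64848875716) (nat_lit 152) (nat_lit 46144485383) (nat_lit 228) (nat_lit 93796400305) (nat_lit 44) (nat_lit 5) (nat_lit 46) (nat_lit 5) (nat_lit 47) (nat_lit 5) (nat_lit 440) (nat_lit 391) (nat_lit 189)) (XT.lf (nat_lit 0) (nat_lit 164190242362) (nat_lit 228) (nat_lit 28690835064) (nat_lit 76) (nat_lit 18883612569) (nat_lit 44) (nat_lit 5) (nat_lit 47) (nat_lit 5) (nat_lit 45) (nat_lit 4) (nat_lit 441) (nat_lit 391) (nat_lit 188))) (XT.nd (nat_lit 78) (nat_lit 0) (nat_lit 0) (XT.lf (nat_lit 0) (nat_lit 3128669767) (nat_lit 152) (nat_lit 128777214385) (nat_lit 76) (nat_lit 87071695179) (nat_lit 42) (nat_lit 5) (nat_lit 44) (nat_lit 5) (nat_lit 43) (nat_lit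 5) (nat_lit 442) (nat_lit 391) (nat_lit 187)) (XT.lf (nat_lit 0) (nat_lit 55261667381) (nat_lit 152) (nat_lit 11283059888) (nat_lit 76) (nat_lit 159942713584) (nat_lit 42) (nat_lit 5) (nat_lit 44) (nat_lit 5) (nat_lit 43) (nat_lit 5) (nat_lit 443) (nat_lit 391) (nat_lit 186))))))) (XT.nd (nat_lit 1014) (nat_lit 684) (nat_lit 0) (XT.nd (nat_lit 468) (nat_lit 456) (nat_lit 0) (XT.nd (nat_lit 234) (nat_lit 304) (nat_lit 0) (XT.nd (nat_lit 78) (nat_lit 76) (nat_lit 0) (XT.lf (nat_lit 0) (nat_lit 111871013434) (nat_lit 228) (nat_lit 118553295442) (nat_lit 76) (nat_lit 3855001700) (nat_lit 40) (nat_lit 5) (nat_lit 43) (nat_lit 5) (nat_lit 41) (nat_lit 4) (nat_lit 444) (nat_lit 391) (nat_lit 185)) (XT.nd (nat_lit 78) (nat_lit 0) (nat_lit 0) (XT.lf (nat_lit 0) (nat_lit 6127589969) (nat_lit 76) (nat_lit 166563716298) (nat_lit 152) (nat_lit 69700443593) (nat_lit 39) (nat_lit 5) (nat_lit 40) (nat_lit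 5) (nat_lit 41) (nat_lit 4) (nat_lit 445) (nat_lit 391) (nat_lit 184)) (XT.lf (nat_lit 0) (nat_lit 141157883040) (nat_lit 76) (nat_lit 97402190997) (nat_lit 152) (nat_lit 12249364105) (nat_lit 39) (nat_lit 5) (nat_lit 40) (nat_lit 5) (nat_lit 41) (nat_lit 4) (nat_lit 446) (nat_lit 391) (nat_lit 183)))) (XT.nd (nat_lit 78) (nat_lit 76) (nat_lit 0) (XT.lf (nat_lit 0) (nat_lit 23285876109) (nat_lit 152) (nat_lit 23612986517) (nat_lit 228) (nat_lit 212693456045) (nat_lit 36) (nat_lit 5) (nat_lit 38) (nat_lit 5) (nat_lit 39) (nat_lit 5) (nat_lit 447) (nat_lit 391) (nat_lit 182)) (XT.nd (nat_lit 78) (nat_lit 76) (nat_lit 0) (XT.lf (nat_lit 0) (nat_lit 111320995098) (nat_lit 228) (nat_lit 103117231216) (nat_lit 76) (nat_lit 54229668823) (nat_lit 36) (nat_lit 5) (nat_lit 39) (nat_lit 5) (nat_lit 37) (nat_lit 4) (nat_lit 448) (nat_lit 391) (nat_lit 181)) (XT.lf (nat_lit 0) (nat_lit 37545533860) (nat_lit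 76) (nat_lit 142391717442) (nat_lit 152) (nat_lit 98211348309) (nat_lit 35) (nat_lit 5) (nat_lit 36) (nat_lit 5) (nat_lit 37) (nat_lit 4) (nat_lit 449) (nat_lit 391) (nat_lit 180))))) (XT.nd (nat_lit 234) (nat_lit 228) (nat_lit 0) (XT.nd (nat_lit 78) (nat_lit 228) (nat_lit 0) (XT.lf (nat_lit 0) (nat_lit 188820942424) (nat_lit 76) (nat_lit 64909451332) (nat_lit 152) (nat_lit 34285641916) (nat_lit 35) (nat_lit 5) (nat_lit 36) (nat_lit 5) (nat_lit 37) (nat_lit 4) (nat_lit 450) (nat_lit 391) (nat_lit 179)) (XT.nd (nat_lit 78) (nat_lit 0) (nat_lit 0) (XT.lf (nat_lit 0) (nat_lit 32849817256) (nat_lit 228) (nat_lit 248207277331) (nat_lit 76) (nat_lit 17240893826) (nat_lit 32) (nat_lit 5) (nat_lit 35) (nat_lit 5) (nat_lit 33) (nat_lit 4) (nat_lit 451) (nat_lit 391) (nat_lit 178)) (XT.lf (nat_lit 0) (nat_lit 104961116212) (nat_lit 228) (nat_lit 100379575301) (nat_lit 76) (nat_lit 103586679864) (nat_lit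 32) (nat_lit 5) (nat_lit 35) (nat_lit 5) (nat_lit 33) (nat_lit 4) (nat_lit 452) (nat_lit 391) (nat_lit 177)))) (XT.nd (nat_lit 156) (nat_lit 152) (nat_lit 0) (XT.nd (nat_lit 78) (nat_lit 0) (nat_lit 0) (XT.lf (nat_lit 0) (nat_lit 56652282533) (nat_lit 76) (nat_lit 124909954031) (nat_lit 152) (nat_lit 138481774135) (nat_lit 31) (nat_lit 5) (nat_lit 32) (nat_lit 5) (nat_lit 33) (nat_lit 4) (nat_lit 453) (nat_lit 391) (nat_lit 176)) (XT.lf (nat_lit 0) (nat_lit 225020236669) (nat_lit 76) (nat_lit 38672913125) (nat_lit 152) (nat_lit 67938345377) (nat_lit 31) (nat_lit 5) (nat_lit 32) (nat_lit 5) (nat_lit 33) (nat_lit 4) (nat_lit 454) (nat_lit 391) (nat_lit 175))) (XT.nd (nat_lit 78) (nat_lit 0) (nat_lit 0) (XT.lf (nat_lit 0) (nat_lit 7696625992) (nat_lit 152) (nat_lit 284746791470) (nat_lit 76) (nat_lit 51262117267) (nat_lit 29) (nat_lit 5) (nat_lit 31) (nat_lit 5) (nat_lit 30) (nat_lit 4) (nat_lit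 455) (nat_lit 391) (nat_lit 174)) (XT.lf (nat_lit 0) (nat_lit 87299035113) (nat_lit 152) (nat_lit 121562213843) (nat_lit 76) (nat_lit 147342897010) (nat_lit 29) (nat_lit 5) (nat_lit 31) (nat_lit 5) (nat_lit 30) (nat_lit 4) (nat_lit 456) (nat_lit 391) (nat_lit 173)))))) (XT.nd (nat_lit 546) (nat_lit 380) (nat_lit 0) (XT.nd (nat_lit 234) (nat_lit 152) (nat_lit 0) (XT.nd (nat_lit 78) (nat_lit 76) (nat_lit 0) (XT.lf (nat_lit 0) (nat_lit 51427167593) (nat_lit 76) (nat_lit 120257099381) (nat_lit 152) (nat_lit 197603285702) (nat_lit 28) (nat_lit 5) (nat_lit 29) (nat_lit 5) (nat_lit 30) (nat_lit 4) (nat_lit 457) (nat_lit 391) (nat_lit 172)) (XT.nd (nat_lit 78) (nat_lit 76) (nat_lit 0) (XT.lf (nat_lit 0) (nat_lit 237285974772) (nat_lit 76) (nat_lit 25061284730) (nat_lit 152) (nat_lit 120574945288) (nat_lit 28) (nat_lit 5) (nat_lit 29) (nat_lit 5) (nat_lit 30) (nat_lit 4) (nat_lit 458) (nat_lit 391)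 (nat_lit 171)) (XT.lf (nat_lit 0) (nat_lit 35154592199) (nat_lit 76) (nat_lit 324106772967) (nat_lit 76) (nat_lit 37891326190) (nat_lit 27) (nat_lit 4) (nat_lit 28) (nat_lit 5) (nat_lit 28) (nat_lit 4) (nat_lit 459) (nat_lit 391) (nat_lit 170)))) (XT.nd (nat_lit 156) (nat_lit 0) (nat_lit 0) (XT.nd (nat_lit 78) (nat_lit 76) (nat_lit 0) (XT.lf (nat_lit 0) (nat_lit 50278007044) (nat_lit 152) (nat_lit 183145815244) (nat_lit 76) (nat_lit 178486811718) (nat_lit 26) (nat_lit 5) (nat_lit 28) (nat_lit 5) (nat_lit 27) (nat_lit 4) (nat_lit 460) (nat_lit 391) (nat_lit 169)) (XT.lf (nat_lit 0) (nat_lit 4160703651) (nat_lit 76) (nat_lit 137486468434) (nat_lit 152) (nat_lit 285725005151) (nat_lit 25) (nat_lit 5) (nat_lit 26) (nat_lit 5) (nat_lit 27) (nat_lit 4) (nat_lit 461) (nat_lit 391) (nat_lit 168))) (XT.nd (nat_lit 78) (nat_lit 0) (nat_lit 0) (XT.lf (nat_lit 0) (nat_lit 207190585314) (nat_lit 76) (nat_lit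 33495678610) (nat_lit 152) (nat_lit 202765460293) (nat_lit 25) (nat_lit 5) (nat_lit 26) (nat_lit 5) (nat_lit 27) (nat_lit 4) (nat_lit 462) (nat_lit 391) (nat_lit 167)) (XT.lf (nat_lit 0) (nat_lit 345858928149) (nat_lit 152) (nat_lit 41145454348) (nat_lit 0) (nat_lit 73271785178) (nat_lit 25) (nat_lit 5) (nat_lit 27) (nat_lit 4) (nat_lit 25) (nat_lit 4) (nat_lit 463) (nat_lit 391) (nat_lit 166))))) (XT.nd (nat_lit 234) (nat_lit 152) (nat_lit 0) (XT.nd (nat_lit 78) (nat_lit 152) (nat_lit 0) (XT.lf (nat_lit 0) (nat_lit 168571914951) (nat_lit 76) (nat_lit 290899121239) (nat_lit 76) (nat_lit 18311756601) (nat_lit 24) (nat_lit 4) (nat_lit 25) (nat_lit 5) (nat_lit 25) (nat_lit 4) (nat_lit 464) (nat_lit 391) (nat_lit 165)) (XT.nd (nat_lit 78) (nat_lit 76) (nat_lit 0) (XT.lf (nat_lit 0) (nat_lit 80663379486) (nat_lit 152) (nat_lit 107227647801) (nat_lit 76) (nat_lit 308173838653) (nat_lit 23) (nat_lit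 5) (nat_lit 25) (nat_lit 5) (nat_lit 24) (nat_lit 4) (nat_lit 465) (nat_lit 391) (nat_lit 164)) (XT.lf (nat_lit 0) (nat_lit 108011257804) (nat_lit 76) (nat_lit 77646807860) (nat_lit 152) (nat_lit 329503658043) (nat_lit 22) (nat_lit 5) (nat_lit 23) (nat_lit 5) (nat_lit 24) (nat_lit 4) (nat_lit 466) (nat_lit 391) (nat_lit 163)))) (XT.nd (nat_lit 156) (nat_lit 76) (nat_lit 0) (XT.nd (nat_lit 78) (nat_lit 76) (nat_lit 0) (XT.lf (nat_lit 0) (nat_lit 298343036543) (nat_lit 152) (nat_lit 198012912617) (nat_lit 0) (nat_lit 38735447693) (nat_lit 22) (nat_lit 5) (nat_lit 24) (nat_lit 4) (nat_lit 22) (nat_lit 4) (nat_lit 467) (nat_lit 391) (nat_lit 162)) (XT.lf (nat_lit 0) (nat_lit 20979791193) (nat_lit 76) (nat_lit 397282755243) (nat_lit 76) (nat_lit 137674992711) (nat_lit 21) (nat_lit 4) (nat_lit 22) (nat_lit 5) (nat_lit 22) (nat_lit 4) (nat_lit 468) (nat_lit 391) (nat_lit 161))) (XT.nd (nat_lit 78)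 (nat_lit 76) (nat_lit 0) (XT.lf (nat_lit 0) (nat_lit 257796383452) (nat_lit 76) (nat_lit 289734934379) (nat_lit 76) (nat_lit 30127006436) (nat_lit 21) (nat_lit 4) (nat_lit 22) (nat_lit 5) (nat_lit 22) (nat_lit 4) (nat_lit 469) (nat_lit 391) (nat_lit 160)) (XT.lf (nat_lit 0) (nat_lit 80148160515) (nat_lit 152) (nat_lit 95304356422) (nat_lit 76) (nat_lit 424948003652) (nat_lit 20) (nat_lit 5) (nat_lit 22) (nat_lit 5) (nat_lit 21) (nat_lit 4) (nat_lit 470) (nat_lit 391) (nat_lit 159))))))))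
noncomputable def xc207 : XT := (XT.nd (nat_lit 48594) (nat_lit 0) (nat_lit 2280) (XT.nd (nat_lit 47502) (nat_lit 0) (nat_lit 5548) (XT.nd (nat_lit 46956) (nat_lit 0) (nat_lit 7752) (XT.nd (nat_lit 234) (nat_lit 228) (nat_lit 0) (XT.nd (nat_lit 78) (nat_lit 0) (nat_lit 0) (XT.lf (nat_lit 0) (nat_lit 144615538044) (nat_lit 76) (nat_lit 52566790519) (nat_lit 152) (nat_lit 426959918520) (nat_lit 19) (nat_lit 5) (nat_lit 20) (nat_lit 5) (nat_lit 21) (nat_lit 4) (nat_lit 471) (nat_lit 391) (nat_lit 158)) (XT.nd (nat_lit 78) (nat_lit 0) (nat_lit 0) (XT.lf (nat_lit 0) (nat_lit 322902349381) (nat_lit 152) (nat_lit 250370728599) (nat_lit 0) (nat_lit 75656274714) (nat_lit 19) (nat_lit 5) (nat_lit 21) (nat_lit 4) (nat_lit 19) (nat_lit 4) (nat_lit 472) (nat_lit 391) (nat_lit 157)) (XT.lf (nat_lit 0) (nat_lit 455769983194) (nat_lit 152) (nat_lit 10618970879) (nat_lit 0) (nat_lit 208523778923) (nat_lit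 19) (nat_lit 5) (nat_lit 21) (nat_lit 4) (nat_lit 19) (nat_lit 4) (nat_lit 473) (nat_lit 391) (nat_lit 156)))) (XT.nd (nat_lit 78) (nat_lit 152) (nat_lit 0) (XT.lf (nat_lit 0) (nat_lit 249092636539) (nat_lit 76) (nat_lit 350077264193) (nat_lit 76) (nat_lit 102830936490) (nat_lit 18) (nat_lit 4) (nat_lit 19) (nat_lit 5) (nat_lit 19) (nat_lit 4) (nat_lit 474) (nat_lit 391) (nat_lit 155)) (XT.nd (nat_lit 78) (nat_lit 76) (nat_lit 0) (XT.lf (nat_lit 0) (nat_lit 18861513669) (nat_lit 152) (nat_lit 208580342236) (nat_lit 76) (nat_lit 502977294483) (nat_lit 17) (nat_lit 5) (nat_lit 19) (nat_lit 5) (nat_lit 18) (nat_lit 4) (nat_lit 475) (nat_lit 391) (nat_lit 154)) (XT.lf (nat_lit 0) (nat_lit 47808066706) (nat_lit 76) (nat_lit 96121018133) (nat_lit 152) (nat_lit 616207692113) (nat_lit 16) (nat_lit 5) (nat_lit 17) (nat_lit 5) (nat_lit 18) (nat_lit 4) (nat_lit 476) (nat_lit 391) (nat_lit 153))))) (XT.nd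 (nat_lit 234) (nat_lit 0) (nat_lit 76) (XT.nd (nat_lit 78) (nat_lit 0) (nat_lit 0) (XT.lf (nat_lit 0) (nat_lit 7039486064) (nat_lit 836) (nat_lit 9338390937) (nat_lit 836) (nat_lit 9338390937) (nat_lit 118) (nat_lit 3) (nat_lit 129) (nat_lit 3) (nat_lit 129) (nat_lit 5) (nat_lit 392) (nat_lit 392) (nat_lit 236)) (XT.nd (nat_lit 78) (nat_lit 0) (nat_lit 76) (XT.lf (nat_lit 76) (nat_lit 6520415541) (nat_lit 0) (nat_lit 8036479618) (nat_lit 836) (nat_lit 38155143474) (nat_lit 119) (nat_lit 5) (nat_lit 118) (nat_lit 3) (nat_lit 129) (nat_lit 5) (nat_lit 393) (nat_lit 392) (nat_lit 235)) (XT.lf (nat_lit 0) (nat_lit 15658414421) (nat_lit 760) (nat_lit 20699689058) (nat_lit 836) (nat_lit 17667428887) (nat_lit 119) (nat_lit 5) (nat_lit 129) (nat_lit 5) (nat_lit 130) (nat_lit 5) (nat_lit 394) (nat_lit 392) (nat_lit 234)))) (XT.nd (nat_lit 156) (nat_lit 0) (nat_lit 76) (XT.nd (nat_lit 78) (nat_lit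 0) (nat_lit 76) (XT.lf (nat_lit 76) (nat_lit 6130423386) (nat_lit 0) (nat_lit 10910571060) (nat_lit 836) (nat_lit 38352407904) (nat_lit 120) (nat_lit 5) (nat_lit 119) (nat_lit 5) (nat_lit 130) (nat_lit 5) (nat_lit 395) (nat_lit 392) (nat_lit 233)) (XT.lf (nat_lit 0) (nat_lit 19094428948) (nat_lit 760) (nat_lit 22044975358) (nat_lit 836) (nat_lit 15660176020) (nat_lit 120) (nat_lit 5) (nat_lit 130) (nat_lit 5) (nat_lit 131) (nat_lit 5) (nat_lit 396) (nat_lit 392) (nat_lit 232))) (XT.nd (nat_lit 78) (nat_lit 0) (nat_lit 76) (XT.lf (nat_lit 76) (nat_lit 6564258679) (nat_lit 0) (nat_lit 14966283153) (nat_lit 836) (nat_lit 36731525768) (nat_lit 121) (nat_lit 5) (nat_lit 120) (nat_lit 5) (nat_lit 131) (nat_lit 5) (nat_lit 397) (nat_lit 392) (nat_lit 231)) (XT.lf (nat_lit 0) (nat_lit 24662039594) (nat_lit 760) (nat_lit 22612190378) (nat_lit 836) (nat_lit 12494770998) (nat_lit 121) (nat_lit 5) (nat_lit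 131) (nat_lit 5) (nat_lit 132) (nat_lit 5) (nat_lit 398) (nat_lit 392) (nat_lit 230)))))) (XT.nd (nat_lit 546) (nat_lit 1444) (nat_lit 0) (XT.nd (nat_lit 234) (nat_lit 988) (nat_lit 0) (XT.nd (nat_lit 78) (nat_lit 0) (nat_lit 76) (XT.lf (nat_lit 76) (nat_lit 7935427089) (nat_lit 0) (nat_lit 20382704130) (nat_lit 836) (nat_lit 33014749504) (nat_lit 122) (nat_lit 5) (nat_lit 121) (nat_lit 5) (nat_lit 132) (nat_lit 5) (nat_lit 399) (nat_lit 392) (nat_lit 229)) (XT.nd (nat_lit 78) (nat_lit 0) (nat_lit 0) (XT.lf (nat_lit 0) (nat_lit 32667691588) (nat_lit 760) (nat_lit 22290194338) (nat_lit 836) (nat_lit 7991535960) (nat_lit 122) (nat_lit 5) (nat_lit 132) (nat_lit 5) (nat_lit 133) (nat_lit 5) (nat_lit 400) (nat_lit 392) (nat_lit 228)) (XT.lf (nat_lit 76) (nat_lit 10369246328) (nat_lit 0) (nat_lit 27360399694) (nat_lit 836) (nat_lit 26892398883) (nat_lit 123) (nat_lit 5) (nat_lit 122) (nat_lit 5)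 (nat_lit 133) (nat_lit 5) (nat_lit 401) (nat_lit 392) (nat_lit 227)))) (XT.nd (nat_lit 156) (nat_lit 380) (nat_lit 0) (XT.nd (nat_lit 78) (nat_lit 760) (nat_lit 0) (XT.lf (nat_lit 0) (nat_lit 43452549441) (nat_lit 760) (nat_lit 20956295857) (nat_lit 76) (nat_lit 1949061787) (nat_lit 123) (nat_lit 5) (nat_lit 133) (nat_lit 5) (nat_lit 124) (nat_lit 5) (nat_lit 402) (nat_lit 392) (nat_lit 226)) (XT.lf (nat_lit 0) (nat_lit 14003793464) (nat_lit 760) (nat_lit 36123947787) (nat_lit 836) (nat_lit 18019514506) (nat_lit 113) (nat_lit 5) (nat_lit 123) (nat_lit 5) (nat_lit 124) (nat_lit 5) (nat_lit 403) (nat_lit 392) (nat_lit 225))) (XT.nd (nat_lit 78) (nat_lit 380) (nat_lit 0) (XT.lf (nat_lit 0) (nat_lit 51438541064) (nat_lit 760) (nat_lit 6052065016) (nat_lit 836) (nat_lit 12517770631) (nat_lit 113) (nat_lit 5) (nat_lit 123) (nat_lit 5) (nat_lit 124) (nat_lit 5) (nat_lit 404) (nat_lit 392) (nat_lit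 224)) (XT.lf (nat_lit 0) (nat_lit 18990900162) (nat_lit 380) (nat_lit 46924764129) (nat_lit 456) (nat_lit 6012187410) (nat_lit 108) (nat_lit 5) (nat_lit 113) (nat_lit 5) (nat_lit 114) (nat_lit 5) (nat_lit 405) (nat_lit 392) (nat_lit 223))))) (XT.nd (nat_lit 234) (nat_lit 988) (nat_lit 0) (XT.nd (nat_lit 78) (nat_lit 380) (nat_lit 0) (XT.lf (nat_lit 0) (nat_lit 1210403686) (nat_lit 456) (nat_lit 14971276070) (nat_lit 76) (nat_lit 57740085469) (nat_lit 107) (nat_lit 5) (nat_lit 113) (nat_lit 5) (nat_lit 108) (nat_lit 5) (nat_lit 406) (nat_lit 392) (nat_lit 222)) (XT.nd (nat_lit 78) (nat_lit 0) (nat_lit 0) (XT.lf (nat_lit 0) (nat_lit 9250598130) (nat_lit 456) (nat_lit 50636992216) (nat_lit 76) (nat_lit 16089930349) (nat_lit 102) (nat_lit 5) (nat_lit 108) (nat_lit 5) (nat_lit 103) (nat_lit 5) (nat_lit 407) (nat_lit 392) (nat_lit 221)) (XT.lf (nat_lit 0) (nat_lit 18214923097) (nat_lit 456) (nat_lit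 10206033255) (nat_lit 76) (nat_lit 49689001953) (nat_lit 102) (nat_lit 5) (nat_lit 108) (nat_lit 5) (nat_lit 103) (nat_lit 5) (nat_lit 408) (nat_lit 392) (nat_lit 220)))) (XT.nd (nat_lit 156) (nat_lit 608) (nat_lit 0) (XT.nd (nat_lit 78) (nat_lit 0) (nat_lit 0) (XT.lf (nat_lit 0) (nat_lit 28227381497) (nat_lit 456) (nat_lit 47091901799) (nat_lit 76) (nat_lit 4999739028) (nat_lit 97) (nat_lit 5) (nat_lit 103) (nat_lit 5) (nat_lit 98) (nat_lit 5) (nat_lit 409) (nat_lit 392) (nat_lit 219)) (XT.lf (nat_lit 0) (nat_lit 39381268031) (nat_lit 456) (nat_lit 3913276162) (nat_lit 76) (nat_lit 39311955458) (nat_lit 97) (nat_lit 5) (nat_lit 103) (nat_lit 5) (nat_lit 98) (nat_lit 5) (nat_lit 410) (nat_lit 392) (nat_lit 218))) (XT.nd (nat_lit 78) (nat_lit 304) (nat_lit 0) (XT.lf (nat_lit 0) (nat_lit 42793078494) (nat_lit 304) (nat_lit 8967138160) (nat_lit 380) (nat_lit 33214766154) (nat_lit 93) (nat_lit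 5) (nat_lit 97) (nat_lit 5) (nat_lit 98) (nat_lit 5) (nat_lit 411) (nat_lit 392) (nat_lit 217)) (XT.lf (nat_lit 0) (nat_lit 4222482177) (nat_lit 304) (nat_lit 61090926218) (nat_lit 380) (nat_lit 22120717279) (nat_lit 89) (nat_lit 5) (nat_lit 93) (nat_lit 5) (nat_lit 94) (nat_lit 5) (nat_lit 412) (nat_lit 392) (nat_lit 216))))))) (XT.nd (nat_lit 1092) (nat_lit 1444) (nat_lit 0) (XT.nd (nat_lit 546) (nat_lit 988) (nat_lit 0) (XT.nd (nat_lit 234) (nat_lit 532) (nat_lit 0) (XT.nd (nat_lit 78) (nat_lit 304) (nat_lit 0) (XT.lf (nat_lit 0) (nat_lit 54258830160) (nat_lit 304) (nat_lit 26143722266) (nat_lit 380) (nat_lit 9570758940) (nat_lit 89) (nat_lit 5) (nat_lit 93) (nat_lit 5) (nat_lit 94) (nat_lit 5) (nat_lit 413) (nat_lit 392) (nat_lit 215)) (XT.nd (nat_lit 78) (nat_lit 0) (nat_lit 0) (XT.lf (nat_lit 0) (nat_lit 3887376304) (nat_lit 304) (nat_lit 78228068053) (nat_lit 76) (nat_lit 10501390951)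 (nat_lit 85) (nat_lit 5) (nat_lit 89) (nat_lit 5) (nat_lit 86) (nat_lit 5) (nat_lit 414) (nat_lit 392) (nat_lit 214)) (XT.lf (nat_lit 0) (nat_lit 18739451423) (nat_lit 304) (nat_lit 27721443229) (nat_lit 76) (nat_lit 48871662516) (nat_lit 85) (nat_lit 5) (nat_lit 89) (nat_lit 5) (nat_lit 86) (nat_lit 5) (nat_lit 415) (nat_lit 392) (nat_lit 213)))) (XT.nd (nat_lit 156) (nat_lit 228) (nat_lit 0) (XT.nd (nat_lit 78) (nat_lit 0) (nat_lit 0) (XT.lf (nat_lit 0) (nat_lit 26146551066) (nat_lit 304) (nat_lit 8595162356) (nat_lit 380) (nat_lit 63421972806) (nat_lit 81) (nat_lit 5) (nat_lit 85) (nat_lit 5) (nat_lit 86) (nat_lit 5) (nat_lit 416) (nat_lit 392) (nat_lit 212)) (XT.lf (nat_lit 0) (nat_lit 52507193253) (nat_lit 380) (nat_lit 17937608379) (nat_lit 76) (nat_lit 30643415123) (nat_lit 81) (nat_lit 5) (nat_lit 86) (nat_lit 5) (nat_lit 82) (nat_lit 5) (nat_lit 417) (nat_lit 392) (nat_lit 211)))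 (XT.nd (nat_lit 78) (nat_lit 0) (nat_lit 0) (XT.lf (nat_lit 0) (nat_lit 39983935646) (nat_lit 228) (nat_lit 31941583885) (nat_lit 304) (nat_lit 32195225890) (nat_lit 78) (nat_lit 5) (nat_lit 81) (nat_lit 5) (nat_lit 82) (nat_lit 5) (nat_lit 418) (nat_lit 392) (nat_lit 210)) (XT.lf (nat_lit 0) (nat_lit 92755446723) (nat_lit 304) (nat_lit 6003687608) (nat_lit 76) (nat_lit 8523732189) (nat_lit 78) (nat_lit 5) (nat_lit 82) (nat_lit 5) (nat_lit 79) (nat_lit 5) (nat_lit 419) (nat_lit 392) (nat_lit 209))))) (XT.nd (nat_lit 234) (nat_lit 456) (nat_lit 0) (XT.nd (nat_lit 78) (nat_lit 228) (nat_lit 0) (XT.lf (nat_lit 0) (nat_lit 5320279786) (nat_lit 304) (nat_lit 54304694288) (nat_lit 76) (nat_lit 50903714223) (nat_lit 74) (nat_lit 5) (nat_lit 78) (nat_lit 5) (nat_lit 75) (nat_lit 5) (nat_lit 420) (nat_lit 392) (nat_lit 208)) (XT.nd (nat_lit 78) (nat_lit 0) (nat_lit 0) (XT.lf (nat_lit 0) (nat_lit 7850447600)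 (nat_lit 228) (nat_lit 18047062832) (nat_lit 304) (nat_lit 88016115074) (nat_lit 71) (nat_lit 5) (nat_lit 74) (nat_lit 5) (nat_lit 75) (nat_lit 5) (nat_lit 421) (nat_lit 392) (nat_lit 207)) (XT.lf (nat_lit 0) (nat_lit 48837659090) (nat_lit 304) (nat_lit 42838841513) (nat_lit 76) (nat_lit 25724606335) (nat_lit 71) (nat_lit 5) (nat_lit 75) (nat_lit 5) (nat_lit 72) (nat_lit 5) (nat_lit 422) (nat_lit 392) (nat_lit 206)))) (XT.nd (nat_lit 156) (nat_lit 228) (nat_lit 0) (XT.nd (nat_lit 78) (nat_lit 0) (nat_lit 0) (XT.lf (nat_lit 0) (nat_lit 24018867040) (nat_lit 228) (nat_lit 49576292664) (nat_lit 304) (nat_lit 47434285687) (nat_lit 68) (nat_lit 5) (nat_lit 71) (nat_lit 5) (nat_lit 72) (nat_lit 5) (nat_lit 423) (nat_lit 392) (nat_lit 205)) (XT.lf (nat_lit 0) (nat_lit 95705995964) (nat_lit 228) (nat_lit 4609537985) (nat_lit 304) (nat_lit 24487417058) (nat_lit 68) (nat_lit 5) (nat_lit 71) (nat_lit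 5) (nat_lit 72) (nat_lit 5) (nat_lit 424) (nat_lit 392) (nat_lit 204))) (XT.nd (nat_lit 78) (nat_lit 0) (nat_lit 0) (XT.lf (nat_lit 0) (nat_lit 976080394) (nat_lit 228) (nat_lit 85793982539) (nat_lit 76) (nat_lit 41927541057) (nat_lit 65) (nat_lit 5) (nat_lit 68) (nat_lit 5) (nat_lit 66) (nat_lit 5) (nat_lit 425) (nat_lit 392) (nat_lit 203)) (XT.lf (nat_lit 0) (nat_lit 27465756586) (nat_lit 228) (nat_lit 13733743802) (nat_lit 76) (nat_lit 91538620643) (nat_lit 65) (nat_lit 5) (nat_lit 68) (nat_lit 5) (nat_lit 66) (nat_lit 5) (nat_lit 426) (nat_lit 392) (nat_lit 202)))))) (XT.nd (nat_lit 546) (nat_lit 684) (nat_lit 0) (XT.nd (nat_lit 234) (nat_lit 380) (nat_lit 0) (XT.nd (nat_lit 78) (nat_lit 152) (nat_lit 0) (XT.lf (nat_lit 0) (nat_lit 56398506953) (nat_lit 304) (nat_lit 73074468590) (nat_lit 76) (nat_lit 7451759003) (nat_lit 62) (nat_lit 5) (nat_lit 66) (nat_lit 5) (nat_lit 63) (nat_lit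 5) (nat_lit 427) (nat_lit 392) (nat_lit 201)) (XT.nd (nat_lit 78) (nat_lit 0) (nat_lit 0) (XT.lf (nat_lit 0) (nat_lit 3927010169) (nat_lit 152) (nat_lit 83823554466) (nat_lit 228) (nat_lit 53521480744) (nat_lit 60) (nat_lit 5) (nat_lit 62) (nat_lit 5) (nat_lit 63) (nat_lit 5) (nat_lit 428) (nat_lit 392) (nat_lit 200)) (XT.lf (nat_lit 0) (nat_lit 87314859086) (nat_lit 152) (nat_lit 34592484067) (nat_lit 228) (nat_lit 23867522829) (nat_lit 60) (nat_lit 5) (nat_lit 62) (nat_lit 5) (nat_lit 63) (nat_lit 5) (nat_lit 429) (nat_lit 392) (nat_lit 199)))) (XT.nd (nat_lit 156) (nat_lit 152) (nat_lit 0) (XT.nd (nat_lit 78) (nat_lit 0) (nat_lit 0) (XT.lf (nat_lit 0) (nat_lit 7702518182) (nat_lit 228) (nat_lit 125695765431) (nat_lit 76) (nat_lit 17065567397) (nat_lit 57) (nat_lit 5) (nat_lit 60) (nat_lit 5) (nat_lit 58) (nat_lit 5) (nat_lit 430) (nat_lit 392) (nat_lit 198)) (XT.lf (nat_lit 0) (nat_lit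 41621910844) (nat_lit 228) (nat_lit 42125863601) (nat_lit 76) (nat_lit 71541299666) (nat_lit 57) (nat_lit 5) (nat_lit 60) (nat_lit 5) (nat_lit 58) (nat_lit 5) (nat_lit 431) (nat_lit 392) (nat_lit 197))) (XT.nd (nat_lit 78) (nat_lit 0) (nat_lit 0) (XT.lf (nat_lit 0) (nat_lit 47130359364) (nat_lit 152) (nat_lit 30842356638) (nat_lit 228) (nat_lit 82346070326) (nat_lit 55) (nat_lit 5) (nat_lit 57) (nat_lit 5) (nat_lit 58) (nat_lit 5) (nat_lit 432) (nat_lit 392) (nat_lit 196)) (XT.lf (nat_lit 0) (nat_lit 117251556049) (nat_lit 228) (nat_lit 23650511486) (nat_lit 76) (nat_lit 24642391989) (nat_lit 55) (nat_lit 5) (nat_lit 58) (nat_lit 5) (nat_lit 56) (nat_lit 5) (nat_lit 433) (nat_lit 392) (nat_lit 195))))) (XT.nd (nat_lit 234) (nat_lit 304) (nat_lit 0) (XT.nd (nat_lit 78) (nat_lit 228) (nat_lit 0) (XT.lf (nat_lit 0) (nat_lit 72167896445) (nat_lit 152) (nat_lit 87958426690) (nat_lit 228) (nat_lit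 10823494085) (nat_lit 53) (nat_lit 5) (nat_lit 55) (nat_lit 5) (nat_lit 56) (nat_lit 5) (nat_lit 434) (nat_lit 392) (nat_lit 194)) (XT.nd (nat_lit 78) (nat_lit 152) (nat_lit 0) (XT.lf (nat_lit 0) (nat_lit 28013317991) (nat_lit 228) (nat_lit 3459549335) (nat_lit 76) (nat_lit 145109975652) (nat_lit 52) (nat_lit 5) (nat_lit 55) (nat_lit 5) (nat_lit 53) (nat_lit 5) (nat_lit 435) (nat_lit 392) (nat_lit 193)) (XT.lf (nat_lit 0) (nat_lit 70446560325) (nat_lit 228) (nat_lit 83233881705) (nat_lit 76) (nat_lit 28707289856) (nat_lit 50) (nat_lit 5) (nat_lit 53) (nat_lit 5) (nat_lit 51) (nat_lit 5) (nat_lit 436) (nat_lit 392) (nat_lit 192)))) (XT.nd (nat_lit 156) (nat_lit 152) (nat_lit 0) (XT.nd (nat_lit 78) (nat_lit 0) (nat_lit 0) (XT.lf (nat_lit 0) (nat_lit 18616433252) (nat_lit 152) (nat_lit 97250837738) (nat_lit 228) (nat_lit 72572304016) (nat_lit 48) (nat_lit 5) (nat_lit 50) (nat_lit 5) (nat_lit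 51) (nat_lit 5) (nat_lit 437) (nat_lit 392) (nat_lit 191)) (XT.lf (nat_lit 0) (nat_lit 128448374537) (nat_lit 152) (nat_lit 36519909397) (nat_lit 228) (nat_lit 29755263085) (nat_lit 48) (nat_lit 5) (nat_lit 50) (nat_lit 5) (nat_lit 51) (nat_lit 5) (nat_lit 438) (nat_lit 392) (nat_lit 190))) (XT.nd (nat_lit 78) (nat_lit 0) (nat_lit 0) (XT.lf (nat_lit 0) (nat_lit 15837025009) (nat_lit 152) (nat_lit 158108280829) (nat_lit 76) (nat_lit 27308495368) (nat_lit 46) (nat_lit 5) (nat_lit 48) (nat_lit 5) (nat_lit 47) (nat_lit 5) (nat_lit 439) (nat_lit 392) (nat_lit 189)) (XT.lf (nat_lit 0) (nat_lit 64448119520) (nat_lit 152) (nat_lit 48821722490) (nat_lit 76) (nat_lit 94729378397) (nat_lit 46) (nat_lit 5) (nat_lit 48) (nat_lit 5) (nat_lit 47) (nat_lit 5) (nat_lit 440) (nat_lit 392) (nat_lit 188))))))))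
noncomputable def xc208 : XT := (XT.nd (nat_lit 2106) (nat_lit 304) (nat_lit 0) (XT.nd (nat_lit 1014) (nat_lit 760) (nat_lit 0) (XT.nd (nat_lit 468) (nat_lit 532) (nat_lit 0) (XT.nd (nat_lit 234) (nat_lit 228) (nat_lit 0) (XT.nd (nat_lit 78) (nat_lit 152) (nat_lit 0) (XT.lf (nat_lit 0) (nat_lit 68108520396) (nat_lit 152) (nat_lit 48444303504) (nat_lit 228) (nat_lit 98475933971) (nat_lit 44) (nat_lit 5) (nat_lit 46) (nat_lit 5) (nat_lit 47) (nat_lit 5) (nat_lit 441) (nat_lit 392) (nat_lit 187)) (XT.nd (nat_lit 78) (nat_lit 152) (nat_lit 0) (XT.lf (nat_lit 0) (nat_lit 172409192935) (nat_lit 228) (nat_lit 30108636944) (nat_lit 76) (nat_lit 19834620916) (nat_lit 44) (nat_lit 5) (nat_lit 47) (nat_lit 5) (nat_lit 45) (nat_lit 4) (nat_lit 442) (nat_lit 392) (nat_lit 186)) (XT.lf (nat_lit 0) (nat_lit 3294502615) (nat_lit 152) (nat_lit 135199292832) (nat_lit 76) (nat_lit 91432191271) (nat_lit 42)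 (nat_lit 5) (nat_lit 44) (nat_lit 5) (nat_lit 43) (nat_lit 5) (nat_lit 443) (nat_lit 392) (nat_lit 185)))) (XT.nd (nat_lit 78) (nat_lit 228) (nat_lit 0) (XT.lf (nat_lit 0) (nat_lit 58033702521) (nat_lit 152) (nat_lit 11831229766) (nat_lit 76) (nat_lit 167946431485) (nat_lit 42) (nat_lit 5) (nat_lit 44) (nat_lit 5) (nat_lit 43) (nat_lit 5) (nat_lit 444) (nat_lit 392) (nat_lit 184)) (XT.nd (nat_lit 78) (nat_lit 76) (nat_lit 0) (XT.lf (nat_lit 0) (nat_lit 117473443694) (nat_lit 228) (nat_lit 124464903454) (nat_lit 76) (nat_lit 4054483515) (nat_lit 40) (nat_lit 5) (nat_lit 43) (nat_lit 5) (nat_lit 41) (nat_lit 4) (nat_lit 445) (nat_lit 392) (nat_lit 183)) (XT.lf (nat_lit 0) (nat_lit 6449767248) (nat_lit 76) (nat_lit 174884807732) (nat_lit 152) (nat_lit 73176325811) (nat_lit 39) (nat_lit 5) (nat_lit 40) (nat_lit 5) (nat_lit 41) (nat_lit 4) (nat_lit 446) (nat_lit 392) (nat_lit 182))))) (XT.nd (nat_lit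 234) (nat_lit 304) (nat_lit 0) (XT.nd (nat_lit 78) (nat_lit 228) (nat_lit 0) (XT.lf (nat_lit 0) (nat_lit 148230822696) (nat_lit 76) (nat_lit 102265543993) (nat_lit 152) (nat_lit 12853127586) (nat_lit 39) (nat_lit 5) (nat_lit 40) (nat_lit 5) (nat_lit 41) (nat_lit 4) (nat_lit 447) (nat_lit 392) (nat_lit 181)) (XT.nd (nat_lit 78) (nat_lit 0) (nat_lit 0) (XT.lf (nat_lit 0) (nat_lit 24465248103) (nat_lit 152) (nat_lit 24786817942) (nat_lit 228) (nat_lit 223319454342) (nat_lit 36) (nat_lit 5) (nat_lit 38) (nat_lit 5) (nat_lit 39) (nat_lit 5) (nat_lit 448) (nat_lit 392) (nat_lit 180)) (XT.lf (nat_lit 0) (nat_lit 116895013172) (nat_lit 228) (nat_lit 108258439482) (nat_lit 76) (nat_lit 56947437679) (nat_lit 36) (nat_lit 5) (nat_lit 39) (nat_lit 5) (nat_lit 37) (nat_lit 4) (nat_lit 449) (nat_lit 392) (nat_lit 179)))) (XT.nd (nat_lit 156) (nat_lit 228) (nat_lit 0) (XT.nd (nat_lit 78) (nat_lit 0) (nat_lit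 0) (XT.lf (nat_lit 0) (nat_lit 39437227504) (nat_lit 76) (nat_lit 149504700327) (nat_lit 152) (nat_lit 103113709972) (nat_lit 35) (nat_lit 5) (nat_lit 36) (nat_lit 5) (nat_lit 37) (nat_lit 4) (nat_lit 450) (nat_lit 392) (nat_lit 178)) (XT.lf (nat_lit 0) (nat_lit 198275719976) (nat_lit 76) (nat_lit 68148635339) (nat_lit 152) (nat_lit 35992109009) (nat_lit 35) (nat_lit 5) (nat_lit 36) (nat_lit 5) (nat_lit 37) (nat_lit 4) (nat_lit 451) (nat_lit 392) (nat_lit 177))) (XT.nd (nat_lit 78) (nat_lit 0) (nat_lit 0) (XT.lf (nat_lit 0) (nat_lit 34499826464) (nat_lit 228) (nat_lit 260603612178) (nat_lit 76) (nat_lit 18109072333) (nat_lit 32) (nat_lit 5) (nat_lit 35) (nat_lit 5) (nat_lit 33) (nat_lit 4) (nat_lit 452) (nat_lit 392) (nat_lit 176)) (XT.lf (nat_lit 0) (nat_lit 110216332351) (nat_lit 228) (nat_lit 105385193096) (nat_lit 76) (nat_lit 108771855587) (nat_lit 32) (nat_lit 5) (nat_lit 35) (nat_lit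 5) (nat_lit 33) (nat_lit 4) (nat_lit 453) (nat_lit 392) (nat_lit 175)))))) (XT.nd (nat_lit 546) (nat_lit 380) (nat_lit 0) (XT.nd (nat_lit 234) (nat_lit 152) (nat_lit 0) (XT.nd (nat_lit 78) (nat_lit 152) (nat_lit 0) (XT.lf (nat_lit 0) (nat_lit 59498042131) (nat_lit 76) (nat_lit 131149330859) (nat_lit 152) (nat_lit 145398486160) (nat_lit 31) (nat_lit 5) (nat_lit 32) (nat_lit 5) (nat_lit 33) (nat_lit 4) (nat_lit 454) (nat_lit 392) (nat_lit 174)) (XT.nd (nat_lit 78) (nat_lit 152) (nat_lit 0) (XT.lf (nat_lit 0) (nat_lit 236283768000) (nat_lit 76) (nat_lit 40600729377) (nat_lit 152) (nat_lit 71328237234) (nat_lit 31) (nat_lit 5) (nat_lit 32) (nat_lit 5) (nat_lit 33) (nat_lit 4) (nat_lit 455) (nat_lit 392) (nat_lit 173)) (XT.lf (nat_lit 0) (nat_lit 8088221389) (nat_lit 152) (nat_lit 298971348720) (nat_lit 76) (nat_lit 53830902413) (nat_lit 29) (nat_lit 5) (nat_lit 31) (nat_lit 5) (nat_lit 30) (nat_lit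 4) (nat_lit 456) (nat_lit 392) (nat_lit 172)))) (XT.nd (nat_lit 156) (nat_lit 76) (nat_lit 0) (XT.nd (nat_lit 78) (nat_lit 76) (nat_lit 0) (XT.lf (nat_lit 0) (nat_lit 91670428867) (nat_lit 152) (nat_lit 127628150894) (nat_lit 76) (nat_lit 154715450701) (nat_lit 29) (nat_lit 5) (nat_lit 31) (nat_lit 5) (nat_lit 30) (nat_lit 4) (nat_lit 457) (nat_lit 392) (nat_lit 171)) (XT.lf (nat_lit 0) (nat_lit 54010503265) (nat_lit 76) (nat_lit 126264299293) (nat_lit 152) (nat_lit 207476810970) (nat_lit 28) (nat_lit 5) (nat_lit 29) (nat_lit 5) (nat_lit 30) (nat_lit 4) (nat_lit 458) (nat_lit 392) (nat_lit 170))) (XT.nd (nat_lit 78) (nat_lit 76) (nat_lit 0) (XT.lf (nat_lit 0) (nat_lit 249161680456) (nat_lit 76) (nat_lit 26308963197) (nat_lit 152) (nat_lit 126597369680) (nat_lit 28) (nat_lit 5) (nat_lit 29) (nat_lit 5) (nat_lit 30) (nat_lit 4) (nat_lit 459) (nat_lit 392) (nat_lit 169)) (XT.lf (nat_lit 0) (nat_lit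 36923758872) (nat_lit 76) (nat_lit 340306667654) (nat_lit 76) (nat_lit 39779599135) (nat_lit 27) (nat_lit 4) (nat_lit 28) (nat_lit 5) (nat_lit 28) (nat_lit 4) (nat_lit 460) (nat_lit 392) (nat_lit 168))))) (XT.nd (nat_lit 234) (nat_lit 228) (nat_lit 0) (XT.nd (nat_lit 78) (nat_lit 76) (nat_lit 0) (XT.lf (nat_lit 0) (nat_lit 52797709241) (nat_lit 152) (nat_lit 192292021180) (nat_lit 76) (nat_lit 187416144642) (nat_lit 26) (nat_lit 5) (nat_lit 28) (nat_lit 5) (nat_lit 27) (nat_lit 4) (nat_lit 461) (nat_lit 392) (nat_lit 167)) (XT.nd (nat_lit 78) (nat_lit 0) (nat_lit 0) (XT.lf (nat_lit 0) (nat_lit 4379644872) (nat_lit 76) (nat_lit 144355581657) (nat_lit 152) (nat_lit 300005274252) (nat_lit 25) (nat_lit 5) (nat_lit 26) (nat_lit 5) (nat_lit 27) (nat_lit 4) (nat_lit 462) (nat_lit 392) (nat_lit 166)) (XT.lf (nat_lit 0) (nat_lit 217560501284) (nat_lit 76) (nat_lit 35165500446) (nat_lit 152) (nat_lit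 212898036968) (nat_lit 25) (nat_lit 5) (nat_lit 26) (nat_lit 5) (nat_lit 27) (nat_lit 4) (nat_lit 463) (nat_lit 392) (nat_lit 165)))) (XT.nd (nat_lit 156) (nat_lit 152) (nat_lit 0) (XT.nd (nat_lit 78) (nat_lit 76) (nat_lit 0) (XT.lf (nat_lit 0) (nat_lit 363157114634) (nat_lit 152) (nat_lit 43192649959) (nat_lit 0) (nat_lit 76939948985) (nat_lit 25) (nat_lit 5) (nat_lit 27) (nat_lit 4) (nat_lit 25) (nat_lit 4) (nat_lit 464) (nat_lit 392) (nat_lit 164)) (XT.lf (nat_lit 0) (nat_lit 177010425271) (nat_lit 76) (nat_lit 305439308074) (nat_lit 76) (nat_lit 19221941366) (nat_lit 24) (nat_lit 4) (nat_lit 25) (nat_lit 5) (nat_lit 25) (nat_lit 4) (nat_lit 465) (nat_lit 392) (nat_lit 163))) (XT.nd (nat_lit 78) (nat_lit 76) (nat_lit 0) (XT.lf (nat_lit 0) (nat_lit 84701529540) (nat_lit 152) (nat_lit 112579422634) (nat_lit 76) (nat_lit 323586907600) (nat_lit 23) (nat_lit 5) (nat_lit 25) (nat_lit 5) (nat_lit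 24) (nat_lit 4) (nat_lit 466) (nat_lit 392) (nat_lit 162)) (XT.lf (nat_lit 0) (nat_lit 113421273291) (nat_lit 76) (nat_lit 81524587122) (nat_lit 152) (nat_lit 345973704513) (nat_lit 22) (nat_lit 5) (nat_lit 23) (nat_lit 5) (nat_lit 24) (nat_lit 4) (nat_lit 467) (nat_lit 392) (nat_lit 161))))))) (XT.nd (nat_lit 47658) (nat_lit 0) (nat_lit 6004) (XT.nd (nat_lit 468) (nat_lit 76) (nat_lit 0) (XT.nd (nat_lit 234) (nat_lit 152) (nat_lit 0) (XT.nd (nat_lit 78) (nat_lit 76) (nat_lit 0) (XT.lf (nat_lit 0) (nat_lit 313264914731) (nat_lit 152) (nat_lit 207904390295) (nat_lit 0) (nat_lit 40676424979) (nat_lit 22) (nat_lit 5) (nat_lit 24) (nat_lit 4) (nat_lit 22) (nat_lit 4) (nat_lit 468) (nat_lit 392) (nat_lit 160)) (XT.nd (nat_lit 78) (nat_lit 0) (nat_lit 0) (XT.lf (nat_lit 0) (nat_lit 22037800835) (nat_lit 76) (nat_lit 417142515048) (nat_lit 76) (nat_lit 144553867761) (nat_lit 21) (nat_lit 4) (nat_lit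 22) (nat_lit 5) (nat_lit 22) (nat_lit 4) (nat_lit 469) (nat_lit 392) (nat_lit 159)) (XT.lf (nat_lit 0) (nat_lit 270694793179) (nat_lit 76) (nat_lit 304217511615) (nat_lit 76) (nat_lit 31628714295) (nat_lit 21) (nat_lit 4) (nat_lit 22) (nat_lit 5) (nat_lit 22) (nat_lit 4) (nat_lit 470) (nat_lit 392) (nat_lit 158)))) (XT.nd (nat_lit 78) (nat_lit 76) (nat_lit 0) (XT.lf (nat_lit 0) (nat_lit 84159848421) (nat_lit 152) (nat_lit 100061250944) (nat_lit 76) (nat_lit 446199232953) (nat_lit 20) (nat_lit 5) (nat_lit 22) (nat_lit 5) (nat_lit 21) (nat_lit 4) (nat_lit 471) (nat_lit 392) (nat_lit 157)) (XT.nd (nat_lit 78) (nat_lit 0) (nat_lit 0) (XT.lf (nat_lit 0) (nat_lit 151854503999) (nat_lit 76) (nat_lit 55191144923) (nat_lit 152) (nat_lit 448303500026) (nat_lit 19) (nat_lit 5) (nat_lit 20) (nat_lit 5) (nat_lit 21) (nat_lit 4) (nat_lit 472) (nat_lit 392) (nat_lit 156)) (XT.lf (nat_lit 0) (nat_lit 339051529850)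 (nat_lit 152) (nat_lit 262881324722) (nat_lit 0) (nat_lit 79442762329) (nat_lit 19) (nat_lit 5) (nat_lit 21) (nat_lit 4) (nat_lit 19) (nat_lit 4) (nat_lit 473) (nat_lit 392) (nat_lit 155))))) (XT.nd (nat_lit 46878) (nat_lit 0) (nat_lit 7600) (XT.nd (nat_lit 78) (nat_lit 76) (nat_lit 0) (XT.lf (nat_lit 0) (nat_lit 478562351878) (nat_lit 152) (nat_lit 11142357226) (nat_lit 0) (nat_lit 218953466802) (nat_lit 19) (nat_lit 5) (nat_lit 21) (nat_lit 4) (nat_lit 19) (nat_lit 4) (nat_lit 474) (nat_lit 392) (nat_lit 154)) (XT.nd (nat_lit 46722) (nat_lit 0) (nat_lit 7600) (XT.lf (nat_lit 0) (nat_lit 261554708592) (nat_lit 76) (nat_lit 367577488600) (nat_lit 76) (nat_lit 107968491567) (nat_lit 18) (nat_lit 4) (nat_lit 19) (nat_lit 5) (nat_lit 19) (nat_lit 4) (nat_lit 475) (nat_lit 392) (nat_lit 153)) (XT.lf (nat_lit 0) (nat_lit 7415230136) (nat_lit 836) (nat_lit 9792824855) (nat_lit 836) (nat_lit 9792824855)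 (nat_lit 118) (nat_lit 3) (nat_lit 129) (nat_lit 3) (nat_lit 129) (nat_lit 5) (nat_lit 393) (nat_lit 393) (nat_lit 234)))) (XT.nd (nat_lit 156) (nat_lit 0) (nat_lit 76) (XT.nd (nat_lit 78) (nat_lit 0) (nat_lit 76) (XT.lf (nat_lit 76) (nat_lit 6871004815) (nat_lit 0) (nat_lit 8459394436) (nat_lit 836) (nat_lit 40014933583) (nat_lit 119) (nat_lit 5) (nat_lit 118) (nat_lit 3) (nat_lit 129) (nat_lit 5) (nat_lit 394) (nat_lit 393) (nat_lit 233)) (XT.lf (nat_lit 0) (nat_lit 16484506615) (nat_lit 760) (nat_lit 21708763498) (nat_lit 836) (nat_lit 18531356713) (nat_lit 119) (nat_lit 5) (nat_lit 129) (nat_lit 5) (nat_lit 130) (nat_lit 5) (nat_lit 395) (nat_lit 393) (nat_lit 232))) (XT.nd (nat_lit 78) (nat_lit 0) (nat_lit 76) (XT.lf (nat_lit 76) (nat_lit 6462436665) (nat_lit 0) (nat_lit 11472121195) (nat_lit 836) (nat_lit 40226416461) (nat_lit 120) (nat_lit 5) (nat_lit 119) (nat_lit 5) (nat_lit 130)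 (nat_lit 5) (nat_lit 396) (nat_lit 393) (nat_lit 231)) (XT.lf (nat_lit 0) (nat_lit 20088449015) (nat_lit 760) (nat_lit 23120709462) (nat_lit 836) (nat_lit 16428414543) (nat_lit 120) (nat_lit 5) (nat_lit 130) (nat_lit 5) (nat_lit 131) (nat_lit 5) (nat_lit 397) (nat_lit 393) (nat_lit 230)))))) (XT.nd (nat_lit 546) (nat_lit 1216) (nat_lit 0) (XT.nd (nat_lit 234) (nat_lit 532) (nat_lit 0) (XT.nd (nat_lit 78) (nat_lit 0) (nat_lit 76) (XT.lf (nat_lit 76) (nat_lit 6918558621) (nat_lit 0) (nat_lit 15726344850) (nat_lit 836) (nat_lit 38528355408) (nat_lit 121) (nat_lit 5) (nat_lit 120) (nat_lit 5) (nat_lit 131) (nat_lit 5) (nat_lit 398) (nat_lit 393) (nat_lit 229)) (XT.nd (nat_lit 78) (nat_lit 0) (nat_lit 0) (XT.lf (nat_lit 0) (nat_lit 25930999798) (nat_lit 760) (nat_lit 23715959401) (nat_lit 836) (nat_lit 13108679506) (nat_lit 121) (nat_lit 5) (nat_lit 131) (nat_lit 5) (nat_lit 132) (nat_lit 5) (nat_lit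 399) (nat_lit 393) (nat_lit 228)) (XT.lf (nat_lit 76) (nat_lit 8358606028) (nat_lit 0) (nat_lit 21409994738) (nat_lit 836) (nat_lit 34629177364) (nat_lit 122) (nat_lit 5) (nat_lit 121) (nat_lit 5) (nat_lit 132) (nat_lit 5) (nat_lit 400) (nat_lit 393) (nat_lit 227)))) (XT.nd (nat_lit 156) (nat_lit 684) (nat_lit 0) (XT.nd (nat_lit 78) (nat_lit 0) (nat_lit 0) (XT.lf (nat_lit 0) (nat_lit 34333872031) (nat_lit 760) (nat_lit 23377769253) (nat_lit 836) (nat_lit 8383594303) (nat_lit 122) (nat_lit 5) (nat_lit 132) (nat_lit 5) (nat_lit 133) (nat_lit 5) (nat_lit 401) (nat_lit 393) (nat_lit 226)) (XT.lf (nat_lit 76) (nat_lit 10914209014) (nat_lit 0) (nat_lit 28733567211) (nat_lit 836) (nat_lit 28203771769) (nat_lit 123) (nat_lit 5) (nat_lit 122) (nat_lit 5) (nat_lit 133) (nat_lit 5) (nat_lit 402) (nat_lit 393) (nat_lit 225))) (XT.nd (nat_lit 78) (nat_lit 760) (nat_lit 0) (XT.lf (nat_lit 0) (nat_lit 45655241232)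 (nat_lit 760) (nat_lit 21977272657) (nat_lit 76) (nat_lit 2041769372) (nat_lit 123) (nat_lit 5) (nat_lit 133) (nat_lit 5) (nat_lit 124) (nat_lit 5) (nat_lit 403) (nat_lit 393) (nat_lit 224)) (XT.lf (nat_lit 0) (nat_lit 14730388260) (nat_lit 760) (nat_lit 37932784996) (nat_lit 836) (nat_lit 18889977840) (nat_lit 113) (nat_lit 5) (nat_lit 123) (nat_lit 5) (nat_lit 124) (nat_lit 5) (nat_lit 404) (nat_lit 393) (nat_lit 223))))) (XT.nd (nat_lit 234) (nat_lit 760) (nat_lit 0) (XT.nd (nat_lit 78) (nat_lit 456) (nat_lit 0) (XT.lf (nat_lit 0) (nat_lit 54035615853) (nat_lit 760) (nat_lit 6357182381) (nat_lit 836) (nat_lit 13114599741) (nat_lit 113) (nat_lit 5) (nat_lit 123) (nat_lit 5) (nat_lit 124) (nat_lit 5) (nat_lit 405) (nat_lit 393) (nat_lit 222)) (XT.nd (nat_lit 78) (nat_lit 76) (nat_lit 0) (XT.lf (nat_lit 0) (nat_lit 19966600946) (nat_lit 380) (nat_lit 49271562160) (nat_lit 456) (nat_lit 6284731610)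 (nat_lit 108) (nat_lit 5) (nat_lit 113) (nat_lit 5) (nat_lit 114) (nat_lit 5) (nat_lit 406) (nat_lit 393) (nat_lit 221)) (XT.lf (nat_lit 0) (nat_lit 1296797117) (nat_lit 456) (nat_lit 15694061617) (nat_lit 76) (nat_lit 60625688583) (nat_lit 107) (nat_lit 5) (nat_lit 113) (nat_lit 5) (nat_lit 108) (nat_lit 5) (nat_lit 407) (nat_lit 393) (nat_lit 220)))) (XT.nd (nat_lit 156) (nat_lit 380) (nat_lit 0) (XT.nd (nat_lit 78) (nat_lit 0) (nat_lit 0) (XT.lf (nat_lit 0) (nat_lit 9738170282) (nat_lit 456) (nat_lit 53142220658) (nat_lit 76) (nat_lit 16894741766) (nat_lit 102) (nat_lit 5) (nat_lit 108) (nat_lit 5) (nat_lit 103) (nat_lit 5) (nat_lit 408) (nat_lit 393) (nat_lit 219)) (XT.lf (nat_lit 0) (nat_lit 19149519010) (nat_lit 456) (nat_lit 10690981423) (nat_lit 76) (nat_lit 52173751955) (nat_lit 102) (nat_lit 5) (nat_lit 108) (nat_lit 5) (nat_lit 103) (nat_lit 5) (nat_lit 409) (nat_lit 393) (nat_lit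 218))) (XT.nd (nat_lit 78) (nat_lit 0) (nat_lit 0) (XT.lf (nat_lit 0) (nat_lit 29661882826) (nat_lit 456) (nat_lit 49420415085) (nat_lit 76) (nat_lit 5251508112) (nat_lit 97) (nat_lit 5) (nat_lit 103) (nat_lit 5) (nat_lit 98) (nat_lit 5) (nat_lit 410) (nat_lit 393) (nat_lit 217)) (XT.lf (nat_lit 0) (nat_lit 41372362150) (nat_lit 456) (nat_lit 4084100158) (nat_lit 76) (nat_lit 41279250500) (nat_lit 97) (nat_lit 5) (nat_lit 103) (nat_lit 5) (nat_lit 98) (nat_lit 5) (nat_lit 411) (nat_lit 393) (nat_lit 216))))))))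
noncomputable def xc209 : XT := (XT.nd (nat_lit 2106) (nat_lit 1748) (nat_lit 0) (XT.nd (nat_lit 1014) (nat_lit 1520) (nat_lit 0) (XT.nd (nat_lit 468) (nat_lit 988) (nat_lit 0) (XT.nd (nat_lit 234) (nat_lit 608) (nat_lit 0) (XT.nd (nat_lit 78) (nat_lit 304) (nat_lit 0) (XT.lf (nat_lit 0) (nat_lit 44957171589) (nat_lit 304) (nat_lit 9412419098) (nat_lit 380) (nat_lit 34853063302) (nat_lit 93) (nat_lit 5) (nat_lit 97) (nat_lit 5) (nat_lit 98) (nat_lit 5) (nat_lit 412) (nat_lit 393) (nat_lit 215)) (XT.nd (nat_lit 78) (nat_lit 0) (nat_lit 0) (XT.lf (nat_lit 0) (nat_lit 4458664600) (nat_lit 304) (nat_lit 64141197088) (nat_lit 380) (nat_lit 23204921793) (nat_lit 89) (nat_lit 5) (nat_lit 93) (nat_lit 5) (nat_lit 94) (nat_lit 5) (nat_lit 413) (nat_lit 393) (nat_lit 214)) (XT.lf (nat_lit 0) (nat_lit 56995636728) (nat_lit 304) (nat_lit 27446836531) (nat_lit 380) (nat_lit 10028505125) (nat_lit 89) (nat_lit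 5) (nat_lit 93) (nat_lit 5) (nat_lit 94) (nat_lit 5) (nat_lit 414) (nat_lit 393) (nat_lit 213)))) (XT.nd (nat_lit 78) (nat_lit 304) (nat_lit 0) (XT.lf (nat_lit 0) (nat_lit 4101361756) (nat_lit 304) (nat_lit 82114414742) (nat_lit 76) (nat_lit 11030911681) (nat_lit 85) (nat_lit 5) (nat_lit 89) (nat_lit 5) (nat_lit 86) (nat_lit 5) (nat_lit 415) (nat_lit 393) (nat_lit 212)) (XT.nd (nat_lit 78) (nat_lit 304) (nat_lit 0) (XT.lf (nat_lit 0) (nat_lit 19695106506) (nat_lit 304) (nat_lit 29083651854) (nat_lit 76) (nat_lit 51319484863) (nat_lit 85) (nat_lit 5) (nat_lit 89) (nat_lit 5) (nat_lit 86) (nat_lit 5) (nat_lit 416) (nat_lit 393) (nat_lit 211)) (XT.lf (nat_lit 0) (nat_lit 27477357260) (nat_lit 304) (nat_lit 9019601268) (nat_lit 380) (nat_lit 66573996727) (nat_lit 81) (nat_lit 5) (nat_lit 85) (nat_lit 5) (nat_lit 86) (nat_lit 5) (nat_lit 417) (nat_lit 393) (nat_lit 210))))) (XT.nd (nat_lit 234)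 (nat_lit 760) (nat_lit 0) (XT.nd (nat_lit 78) (nat_lit 228) (nat_lit 0) (XT.lf (nat_lit 0) (nat_lit 55149926709) (nat_lit 380) (nat_lit 18811335581) (nat_lit 76) (nat_lit 32180489648) (nat_lit 81) (nat_lit 5) (nat_lit 86) (nat_lit 5) (nat_lit 82) (nat_lit 5) (nat_lit 418) (nat_lit 393) (nat_lit 209)) (XT.nd (nat_lit 78) (nat_lit 0) (nat_lit 0) (XT.lf (nat_lit 0) (nat_lit 42005912207) (nat_lit 228) (nat_lit 33532785428) (nat_lit 304) (nat_lit 33787233320) (nat_lit 78) (nat_lit 5) (nat_lit 81) (nat_lit 5) (nat_lit 82) (nat_lit 5) (nat_lit 419) (nat_lit 393) (nat_lit 208)) (XT.lf (nat_lit 0) (nat_lit 97409403718) (nat_lit 304) (nat_lit 6281453178) (nat_lit 76) (nat_lit 8955337399) (nat_lit 78) (nat_lit 5) (nat_lit 82) (nat_lit 5) (nat_lit 79) (nat_lit 5) (nat_lit 420) (nat_lit 393) (nat_lit 207)))) (XT.nd (nat_lit 156) (nat_lit 228) (nat_lit 0) (XT.nd (nat_lit 78) (nat_lit 228) (nat_lit 0) (XT.lf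 (nat_lit 0) (nat_lit 5602316269) (nat_lit 304) (nat_lit 56997336281) (nat_lit 76) (nat_lit 53454663308) (nat_lit 74) (nat_lit 5) (nat_lit 78) (nat_lit 5) (nat_lit 75) (nat_lit 5) (nat_lit 421) (nat_lit 393) (nat_lit 206)) (XT.lf (nat_lit 0) (nat_lit 8265198303) (nat_lit 228) (nat_lit 18942794214) (nat_lit 304) (nat_lit 92400528478) (nat_lit 71) (nat_lit 5) (nat_lit 74) (nat_lit 5) (nat_lit 75) (nat_lit 5) (nat_lit 422) (nat_lit 393) (nat_lit 205))) (XT.nd (nat_lit 78) (nat_lit 228) (nat_lit 0) (XT.lf (nat_lit 0) (nat_lit 51294503900) (nat_lit 304) (nat_lit 44958963851) (nat_lit 76) (nat_lit 27016941243) (nat_lit 71) (nat_lit 5) (nat_lit 75) (nat_lit 5) (nat_lit 72) (nat_lit 5) (nat_lit 423) (nat_lit 393) (nat_lit 204)) (XT.lf (nat_lit 0) (nat_lit 25241278198) (nat_lit 228) (nat_lit 52048224050) (nat_lit 304) (nat_lit 49790681235) (nat_lit 68) (nat_lit 5) (nat_lit 71) (nat_lit 5) (nat_lit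 72) (nat_lit 5) (nat_lit 424) (nat_lit 393) (nat_lit 203)))))) (XT.nd (nat_lit 546) (nat_lit 684) (nat_lit 0) (XT.nd (nat_lit 234) (nat_lit 608) (nat_lit 0) (XT.nd (nat_lit 78) (nat_lit 228) (nat_lit 0) (XT.lf (nat_lit 0) (nat_lit 100511741292) (nat_lit 228) (nat_lit 4833459411) (nat_lit 304) (nat_lit 25697198638) (nat_lit 68) (nat_lit 5) (nat_lit 71) (nat_lit 5) (nat_lit 72) (nat_lit 5) (nat_lit 425) (nat_lit 393) (nat_lit 202)) (XT.nd (nat_lit 78) (nat_lit 0) (nat_lit 0) (XT.lf (nat_lit 0) (nat_lit 1038761851) (nat_lit 228) (nat_lit 90062515536) (nat_lit 76) (nat_lit 44030508654) (nat_lit 65) (nat_lit 5) (nat_lit 68) (nat_lit 5) (nat_lit 66) (nat_lit 5) (nat_lit 426) (nat_lit 393) (nat_lit 201)) (XT.lf (nat_lit 0) (nat_lit 28852261022) (nat_lit 228) (nat_lit 14400272774) (nat_lit 76) (nat_lit 96121828385) (nat_lit 65) (nat_lit 5) (nat_lit 68) (nat_lit 5) (nat_lit 66) (nat_lit 5) (nat_lit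 427) (nat_lit 393) (nat_lit 200)))) (XT.nd (nat_lit 156) (nat_lit 228) (nat_lit 0) (XT.nd (nat_lit 78) (nat_lit 152) (nat_lit 0) (XT.lf (nat_lit 0) (nat_lit 59231437489) (nat_lit 304) (nat_lit 76707818504) (nat_lit 76) (nat_lit 7831061143) (nat_lit 62) (nat_lit 5) (nat_lit 66) (nat_lit 5) (nat_lit 63) (nat_lit 5) (nat_lit 428) (nat_lit 393) (nat_lit 199)) (XT.lf (nat_lit 0) (nat_lit 4143405588) (nat_lit 152) (nat_lit 88007386129) (nat_lit 228) (nat_lit 56184217294) (nat_lit 60) (nat_lit 5) (nat_lit 62) (nat_lit 5) (nat_lit 63) (nat_lit 5) (nat_lit 429) (nat_lit 393) (nat_lit 198))) (XT.nd (nat_lit 78) (nat_lit 228) (nat_lit 0) (XT.lf (nat_lit 0) (nat_lit 91699692431) (nat_lit 152) (nat_lit 36315112023) (nat_lit 228) (nat_lit 25048196602) (nat_lit 60) (nat_lit 5) (nat_lit 62) (nat_lit 5) (nat_lit 63) (nat_lit 5) (nat_lit 430) (nat_lit 393) (nat_lit 197)) (XT.lf (nat_lit 0) (nat_lit 8099765970)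 (nat_lit 228) (nat_lit 131960876281) (nat_lit 76) (nat_lit 17925792026) (nat_lit 57) (nat_lit 5) (nat_lit 60) (nat_lit 5) (nat_lit 58) (nat_lit 5) (nat_lit 431) (nat_lit 393) (nat_lit 196))))) (XT.nd (nat_lit 234) (nat_lit 532) (nat_lit 0) (XT.nd (nat_lit 78) (nat_lit 152) (nat_lit 0) (XT.lf (nat_lit 0) (nat_lit 43714551033) (nat_lit 228) (nat_lit 44213416380) (nat_lit 76) (nat_lit 75124980134) (nat_lit 57) (nat_lit 5) (nat_lit 60) (nat_lit 5) (nat_lit 58) (nat_lit 5) (nat_lit 432) (nat_lit 393) (nat_lit 195)) (XT.nd (nat_lit 78) (nat_lit 0) (nat_lit 0) (XT.lf (nat_lit 0) (nat_lit 49505315469) (nat_lit 152) (nat_lit 32377319105) (nat_lit 228) (nat_lit 86451524038) (nat_lit 55) (nat_lit 5) (nat_lit 57) (nat_lit 5) (nat_lit 58) (nat_lit 5) (nat_lit 433) (nat_lit 393) (nat_lit 194)) (XT.lf (nat_lit 0) (nat_lit 123124985744) (nat_lit 228) (nat_lit 24815043295) (nat_lit 76) (nat_lit 25881108111)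 (nat_lit 55) (nat_lit 5) (nat_lit 58) (nat_lit 5) (nat_lit 56) (nat_lit 5) (nat_lit 434) (nat_lit 393) (nat_lit 193)))) (XT.nd (nat_lit 156) (nat_lit 304) (nat_lit 0) (XT.nd (nat_lit 78) (nat_lit 76) (nat_lit 0) (XT.lf (nat_lit 0) (nat_lit 75793994812) (nat_lit 152) (nat_lit 92349256018) (nat_lit 228) (nat_lit 11353524050) (nat_lit 53) (nat_lit 5) (nat_lit 55) (nat_lit 5) (nat_lit 56) (nat_lit 5) (nat_lit 435) (nat_lit 393) (nat_lit 192)) (XT.lf (nat_lit 0) (nat_lit 29424258213) (nat_lit 228) (nat_lit 3615324188) (nat_lit 76) (nat_lit 152371886629) (nat_lit 52) (nat_lit 5) (nat_lit 55) (nat_lit 5) (nat_lit 53) (nat_lit 5) (nat_lit 436) (nat_lit 393) (nat_lit 191))) (XT.nd (nat_lit 78) (nat_lit 152) (nat_lit 0) (XT.lf (nat_lit 0) (nat_lit 73979045010) (nat_lit 228) (nat_lit 87378253255) (nat_lit 76) (nat_lit 30149310114) (nat_lit 50) (nat_lit 5) (nat_lit 53) (nat_lit 5) (nat_lit 51) (nat_lit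 5) (nat_lit 437) (nat_lit 393) (nat_lit 190)) (XT.lf (nat_lit 0) (nat_lit 19564298054) (nat_lit 152) (nat_lit 102106275595) (nat_lit 228) (nat_lit 76190480992) (nat_lit 48) (nat_lit 5) (nat_lit 50) (nat_lit 5) (nat_lit 51) (nat_lit 5) (nat_lit 438) (nat_lit 393) (nat_lit 189))))))) (XT.nd (nat_lit 1014) (nat_lit 760) (nat_lit 0) (XT.nd (nat_lit 468) (nat_lit 532) (nat_lit 0) (XT.nd (nat_lit 234) (nat_lit 304) (nat_lit 0) (XT.nd (nat_lit 78) (nat_lit 152) (nat_lit 0) (XT.lf (nat_lit 0) (nat_lit 134887024826) (nat_lit 152) (nat_lit 38339139124) (nat_lit 228) (nat_lit 31233085073) (nat_lit 48) (nat_lit 5) (nat_lit 50) (nat_lit 5) (nat_lit 51) (nat_lit 5) (nat_lit 439) (nat_lit 393) (nat_lit 188)) (XT.nd (nat_lit 78) (nat_lit 0) (nat_lit 0) (XT.lf (nat_lit 0) (nat_lit 16638402452) (nat_lit 152) (nat_lit 165997044512) (nat_lit 76) (nat_lit 28680566127) (nat_lit 46) (nat_lit 5) (nat_lit 48) (nat_lit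 5) (nat_lit 47) (nat_lit 5) (nat_lit 440) (nat_lit 393) (nat_lit 187)) (XT.lf (nat_lit 0) (nat_lit 67679598061) (nat_lit 152) (nat_lit 51246951130) (nat_lit 76) (nat_lit 99472176831) (nat_lit 46) (nat_lit 5) (nat_lit 48) (nat_lit 5) (nat_lit 47) (nat_lit 5) (nat_lit 441) (nat_lit 393) (nat_lit 186)))) (XT.nd (nat_lit 78) (nat_lit 152) (nat_lit 0) (XT.lf (nat_lit 0) (nat_lit 71529548135) (nat_lit 152) (nat_lit 50859801085) (nat_lit 228) (nat_lit 103390400647) (nat_lit 44) (nat_lit 5) (nat_lit 46) (nat_lit 5) (nat_lit 47) (nat_lit 5) (nat_lit 442) (nat_lit 393) (nat_lit 185)) (XT.nd (nat_lit 78) (nat_lit 152) (nat_lit 0) (XT.lf (nat_lit 0) (nat_lit 181038213539) (nat_lit 228) (nat_lit 31598885233) (nat_lit 76) (nat_lit 20832544904) (nat_lit 44) (nat_lit 5) (nat_lit 47) (nat_lit 5) (nat_lit 45) (nat_lit 4) (nat_lit 443) (nat_lit 393) (nat_lit 184)) (XT.lf (nat_lit 0) (nat_lit 3467753243) (nat_lit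 152) (nat_lit 141944035459) (nat_lit 76) (nat_lit 96010069617) (nat_lit 42) (nat_lit 5) (nat_lit 44) (nat_lit 5) (nat_lit 43) (nat_lit 5) (nat_lit 444) (nat_lit 393) (nat_lit 183))))) (XT.nd (nat_lit 234) (nat_lit 304) (nat_lit 0) (XT.nd (nat_lit 78) (nat_lit 228) (nat_lit 0) (XT.lf (nat_lit 0) (nat_lit 60943507168) (nat_lit 152) (nat_lit 12408294097) (nat_lit 76) (nat_lit 176349723328) (nat_lit 42) (nat_lit 5) (nat_lit 44) (nat_lit 5) (nat_lit 43) (nat_lit 5) (nat_lit 445) (nat_lit 393) (nat_lit 182)) (XT.nd (nat_lit 78) (nat_lit 76) (nat_lit 0) (XT.lf (nat_lit 0) (nat_lit 123355169928) (nat_lit 228) (nat_lit 130673584673) (nat_lit 76) (nat_lit 4263313568) (nat_lit 40) (nat_lit 5) (nat_lit 43) (nat_lit 5) (nat_lit 41) (nat_lit 4) (nat_lit 446) (nat_lit 393) (nat_lit 181)) (XT.lf (nat_lit 0) (nat_lit 6786584662) (nat_lit 76) (nat_lit 183622613307) (nat_lit 152) (nat_lit 76826851888) (nat_lit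 39) (nat_lit 5) (nat_lit 40) (nat_lit 5) (nat_lit 41) (nat_lit 4) (nat_lit 447) (nat_lit 393) (nat_lit 180)))) (XT.nd (nat_lit 156) (nat_lit 76) (nat_lit 0) (XT.nd (nat_lit 78) (nat_lit 228) (nat_lit 0) (XT.lf (nat_lit 0) (nat_lit 155656010547) (nat_lit 76) (nat_lit 107372692800) (nat_lit 152) (nat_lit 13487888523) (nat_lit 39) (nat_lit 5) (nat_lit 40) (nat_lit 5) (nat_lit 41) (nat_lit 4) (nat_lit 448) (nat_lit 393) (nat_lit 179)) (XT.lf (nat_lit 0) (nat_lit 25702186871) (nat_lit 152) (nat_lit 26019974802) (nat_lit 228) (nat_lit 234477559027) (nat_lit 36) (nat_lit 5) (nat_lit 38) (nat_lit 5) (nat_lit 39) (nat_lit 5) (nat_lit 449) (nat_lit 393) (nat_lit 178))) (XT.nd (nat_lit 78) (nat_lit 76) (nat_lit 0) (XT.lf (nat_lit 0) (nat_lit 122746991330) (nat_lit 228) (nat_lit 113658070486) (nat_lit 76) (nat_lit 59800510620) (nat_lit 36) (nat_lit 5) (nat_lit 39) (nat_lit 5) (nat_lit 37) (nat_lit 4)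 (nat_lit 450) (nat_lit 393) (nat_lit 177)) (XT.lf (nat_lit 0) (nat_lit 41422165479) (nat_lit 76) (nat_lit 156973946239) (nat_lit 152) (nat_lit 108261952611) (nat_lit 35) (nat_lit 5) (nat_lit 36) (nat_lit 5) (nat_lit 37) (nat_lit 4) (nat_lit 451) (nat_lit 393) (nat_lit 176)))))) (XT.nd (nat_lit 546) (nat_lit 304) (nat_lit 0) (XT.nd (nat_lit 234) (nat_lit 228) (nat_lit 0) (XT.nd (nat_lit 78) (nat_lit 228) (nat_lit 0) (XT.lf (nat_lit 0) (nat_lit 208201959879) (nat_lit 76) (nat_lit 71550363198) (nat_lit 152) (nat_lit 37784626022) (nat_lit 35) (nat_lit 5) (nat_lit 36) (nat_lit 5) (nat_lit 37) (nat_lit 4) (nat_lit 452) (nat_lit 393) (nat_lit 175)) (XT.nd (nat_lit 78) (nat_lit 0) (nat_lit 0) (XT.lf (nat_lit 0) (nat_lit 36231637147) (nat_lit 228) (nat_lit 273621068053) (nat_lit 76) (nat_lit 19020089501) (nat_lit 32) (nat_lit 5) (nat_lit 35) (nat_lit 5) (nat_lit 33) (nat_lit 4) (nat_lit 453) (nat_lit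 393) (nat_lit 174)) (XT.lf (nat_lit 0) (nat_lit 115733643597) (nat_lit 228) (nat_lit 110642333956) (nat_lit 76) (nat_lit 114215746986) (nat_lit 32) (nat_lit 5) (nat_lit 35) (nat_lit 5) (nat_lit 33) (nat_lit 4) (nat_lit 454) (nat_lit 393) (nat_lit 173)))) (XT.nd (nat_lit 156) (nat_lit 152) (nat_lit 0) (XT.nd (nat_lit 78) (nat_lit 0) (nat_lit 0) (XT.lf (nat_lit 0) (nat_lit 62484867567) (nat_lit 76) (nat_lit 137701245589) (nat_lit 152) (nat_lit 152661719599) (nat_lit 31) (nat_lit 5) (nat_lit 32) (nat_lit 5) (nat_lit 33) (nat_lit 4) (nat_lit 455) (nat_lit 393) (nat_lit 172)) (XT.lf (nat_lit 0) (nat_lit 248109311952) (nat_lit 76) (nat_lit 42625478406) (nat_lit 152) (nat_lit 74888276840) (nat_lit 31) (nat_lit 5) (nat_lit 32) (nat_lit 5) (nat_lit 33) (nat_lit 4) (nat_lit 456) (nat_lit 393) (nat_lit 171))) (XT.nd (nat_lit 78) (nat_lit 0) (nat_lit 0) (XT.lf (nat_lit 0) (nat_lit 8498767695) (nat_lit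 152) (nat_lit 313908322211) (nat_lit 76) (nat_lit 56527598811) (nat_lit 29) (nat_lit 5) (nat_lit 31) (nat_lit 5) (nat_lit 30) (nat_lit 4) (nat_lit 457) (nat_lit 393) (nat_lit 170)) (XT.lf (nat_lit 0) (nat_lit 96259793392) (nat_lit 152) (nat_lit 133998516586) (nat_lit 76) (nat_lit 162456129214) (nat_lit 29) (nat_lit 5) (nat_lit 31) (nat_lit 5) (nat_lit 30) (nat_lit 4) (nat_lit 458) (nat_lit 393) (nat_lit 169))))) (XT.nd (nat_lit 234) (nat_lit 152) (nat_lit 0) (XT.nd (nat_lit 78) (nat_lit 76) (nat_lit 0) (XT.lf (nat_lit 0) (nat_lit 56721892186) (nat_lit 76) (nat_lit 132572384953) (nat_lit 152) (nat_lit 217844629735) (nat_lit 28) (nat_lit 5) (nat_lit 29) (nat_lit 5) (nat_lit 30) (nat_lit 4) (nat_lit 459) (nat_lit 393) (nat_lit 168)) (XT.nd (nat_lit 78) (nat_lit 76) (nat_lit 0) (XT.lf (nat_lit 0) (nat_lit 261630110914) (nat_lit 76) (nat_lit 27619526306) (nat_lit 152) (nat_lit 132921503131) (nat_lit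 28) (nat_lit 5) (nat_lit 29) (nat_lit 5) (nat_lit 30) (nat_lit 4) (nat_lit 460) (nat_lit 393) (nat_lit 167)) (XT.lf (nat_lit 0) (nat_lit 38780320568) (nat_lit 76) (nat_lit 357317063204) (nat_lit 76) (nat_lit 41762870826) (nat_lit 27) (nat_lit 4) (nat_lit 28) (nat_lit 5) (nat_lit 28) (nat_lit 4) (nat_lit 461) (nat_lit 393) (nat_lit 166)))) (XT.nd (nat_lit 156) (nat_lit 0) (nat_lit 0) (XT.nd (nat_lit 78) (nat_lit 76) (nat_lit 0) (XT.lf (nat_lit 0) (nat_lit 55442857147) (nat_lit 152) (nat_lit 201896567975) (nat_lit 76) (nat_lit 196791480073) (nat_lit 26) (nat_lit 5) (nat_lit 28) (nat_lit 5) (nat_lit 27) (nat_lit 4) (nat_lit 462) (nat_lit 393) (nat_lit 165)) (XT.lf (nat_lit 0) (nat_lit 4608519214) (nat_lit 76) (nat_lit 151568634936) (nat_lit 152) (nat_lit 315000112879) (nat_lit 25) (nat_lit 5) (nat_lit 26) (nat_lit 5) (nat_lit 27) (nat_lit 4) (nat_lit 463) (nat_lit 393) (nat_lit 164))) (XT.nd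 (nat_lit 78) (nat_lit 0) (nat_lit 0) (XT.lf (nat_lit 0) (nat_lit 228447947394) (nat_lit 76) (nat_lit 36919274703) (nat_lit 152) (nat_lit 223537772068) (nat_lit 25) (nat_lit 5) (nat_lit 26) (nat_lit 5) (nat_lit 27) (nat_lit 4) (nat_lit 464) (nat_lit 393) (nat_lit 163)) (XT.lf (nat_lit 0) (nat_lit 381319723271) (nat_lit 152) (nat_lit 45343142225) (nat_lit 0) (nat_lit 80791095685) (nat_lit 25) (nat_lit 5) (nat_lit 27) (nat_lit 4) (nat_lit 25) (nat_lit 4) (nat_lit 465) (nat_lit 393) (nat_lit 162))))))))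
noncomputable def xc210 : XT := (XT.nd (nat_lit 48828) (nat_lit 0) (nat_lit 2508) (XT.nd (nat_lit 47736) (nat_lit 0) (nat_lit 6308) (XT.nd (nat_lit 468) (nat_lit 152) (nat_lit 0) (XT.nd (nat_lit 234) (nat_lit 76) (nat_lit 0) (XT.nd (nat_lit 78) (nat_lit 152) (nat_lit 0) (XT.lf (nat_lit 0) (nat_lit 185869939344) (nat_lit 76) (nat_lit 320706947647) (nat_lit 76) (nat_lit 20178137695) (nat_lit 24) (nat_lit 4) (nat_lit 25) (nat_lit 5) (nat_lit 25) (nat_lit 4) (nat_lit 466) (nat_lit 393) (nat_lit 161)) (XT.nd (nat_lit 78) (nat_lit 76) (nat_lit 0) (XT.lf (nat_lit 0) (nat_lit 88941124003) (nat_lit 152) (nat_lit 118199679427) (nat_lit 76) (nat_lit 339770223060) (nat_lit 23) (nat_lit 5) (nat_lit 25) (nat_lit 5) (nat_lit 24) (nat_lit 4) (nat_lit 467) (nat_lit 393) (nat_lit 160)) (XT.lf (nat_lit 0) (nat_lit 119100910740) (nat_lit 76) (nat_lit 85596679398) (nat_lit 152) (nat_lit 363267730845) (nat_lit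 22) (nat_lit 5) (nat_lit 23) (nat_lit 5) (nat_lit 24) (nat_lit 4) (nat_lit 468) (nat_lit 393) (nat_lit 159)))) (XT.nd (nat_lit 78) (nat_lit 76) (nat_lit 0) (XT.lf (nat_lit 0) (nat_lit 328932447416) (nat_lit 152) (nat_lit 218291294207) (nat_lit 0) (nat_lit 42714060197) (nat_lit 22) (nat_lit 5) (nat_lit 24) (nat_lit 4) (nat_lit 22) (nat_lit 4) (nat_lit 469) (nat_lit 393) (nat_lit 158)) (XT.nd (nat_lit 78) (nat_lit 0) (nat_lit 0) (XT.lf (nat_lit 0) (nat_lit 23147872357) (nat_lit 76) (nat_lit 437995669864) (nat_lit 76) (nat_lit 151777139756) (nat_lit 21) (nat_lit 4) (nat_lit 22) (nat_lit 5) (nat_lit 22) (nat_lit 4) (nat_lit 470) (nat_lit 393) (nat_lit 157)) (XT.lf (nat_lit 0) (nat_lit 284237324724) (nat_lit 76) (nat_lit 319424605351) (nat_lit 76) (nat_lit 33205939159) (nat_lit 21) (nat_lit 4) (nat_lit 22) (nat_lit 5) (nat_lit 22) (nat_lit 4) (nat_lit 471) (nat_lit 393) (nat_lit 156))))) (XT.nd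 (nat_lit 234) (nat_lit 0) (nat_lit 0) (XT.nd (nat_lit 78) (nat_lit 76) (nat_lit 0) (XT.lf (nat_lit 0) (nat_lit 88371722820) (nat_lit 152) (nat_lit 105056764013) (nat_lit 76) (nat_lit 468512667723) (nat_lit 20) (nat_lit 5) (nat_lit 22) (nat_lit 5) (nat_lit 21) (nat_lit 4) (nat_lit 472) (nat_lit 393) (nat_lit 155)) (XT.nd (nat_lit 78) (nat_lit 0) (nat_lit 0) (XT.lf (nat_lit 0) (nat_lit 159454656911) (nat_lit 76) (nat_lit 57947087547) (nat_lit 152) (nat_lit 470714671019) (nat_lit 19) (nat_lit 5) (nat_lit 20) (nat_lit 5) (nat_lit 21) (nat_lit 4) (nat_lit 473) (nat_lit 393) (nat_lit 154)) (XT.lf (nat_lit 0) (nat_lit 356007791603) (nat_lit 152) (nat_lit 276018188865) (nat_lit 0) (nat_lit 83418232762) (nat_lit 19) (nat_lit 5) (nat_lit 21) (nat_lit 4) (nat_lit 19) (nat_lit 4) (nat_lit 474) (nat_lit 393) (nat_lit 153)))) (XT.nd (nat_lit 46878) (nat_lit 0) (nat_lit 7524) (XT.nd (nat_lit 46800) (nat_lit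 0) (nat_lit 7524) (XT.lf (nat_lit 0) (nat_lit 502493979244) (nat_lit 152) (nat_lit 11692615951) (nat_lit 0) (nat_lit 229904313777) (nat_lit 19) (nat_lit 5) (nat_lit 21) (nat_lit 4) (nat_lit 19) (nat_lit 4) (nat_lit 475) (nat_lit 393) (nat_lit 152)) (XT.lf (nat_lit 0) (nat_lit 7807551524) (nat_lit 836) (nat_lit 10271141264) (nat_lit 836) (nat_lit 10271141264) (nat_lit 118) (nat_lit 3) (nat_lit 129) (nat_lit 3) (nat_lit 129) (nat_lit 5) (nat_lit 394) (nat_lit 394) (nat_lit 232))) (XT.nd (nat_lit 78) (nat_lit 0) (nat_lit 76) (XT.lf (nat_lit 76) (nat_lit 7236839406) (nat_lit 0) (nat_lit 8901494170) (nat_lit 836) (nat_lit 41972172721) (nat_lit 119) (nat_lit 5) (nat_lit 118) (nat_lit 3) (nat_lit 129) (nat_lit 5) (nat_lit 395) (nat_lit 394) (nat_lit 231)) (XT.lf (nat_lit 0) (nat_lit 17347889744) (nat_lit 760) (nat_lit 22770700527) (nat_lit 836) (nat_lit 19440288614) (nat_lit 119) (nat_lit 5) (nat_lit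 129) (nat_lit 5) (nat_lit 130) (nat_lit 5) (nat_lit 396) (nat_lit 394) (nat_lit 230)))))) (XT.nd (nat_lit 546) (nat_lit 1292) (nat_lit 0) (XT.nd (nat_lit 234) (nat_lit 0) (nat_lit 152) (XT.nd (nat_lit 78) (nat_lit 0) (nat_lit 76) (XT.lf (nat_lit 76) (nat_lit 6808680593) (nat_lit 0) (nat_lit 12060259302) (nat_lit 836) (nat_lit 42198180062) (nat_lit 120) (nat_lit 5) (nat_lit 119) (nat_lit 5) (nat_lit 130) (nat_lit 5) (nat_lit 397) (nat_lit 394) (nat_lit 229)) (XT.nd (nat_lit 78) (nat_lit 0) (nat_lit 0) (XT.lf (nat_lit 0) (nat_lit 21128516472) (nat_lit 760) (nat_lit 24252695353) (nat_lit 836) (nat_lit 17236438193) (nat_lit 120) (nat_lit 5) (nat_lit 130) (nat_lit 5) (nat_lit 131) (nat_lit 5) (nat_lit 398) (nat_lit 394) (nat_lit 228)) (XT.lf (nat_lit 76) (nat_lit 7288148238) (nat_lit 0) (nat_lit 16523317457) (nat_lit 836) (nat_lit 40418721797) (nat_lit 121) (nat_lit 5) (nat_lit 120) (nat_lit 5)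 (nat_lit 131) (nat_lit 5) (nat_lit 399) (nat_lit 394) (nat_lit 227)))) (XT.nd (nat_lit 156) (nat_lit 0) (nat_lit 76) (XT.nd (nat_lit 78) (nat_lit 0) (nat_lit 0) (XT.lf (nat_lit 0) (nat_lit 27260074255) (nat_lit 760) (nat_lit 24877412250) (nat_lit 836) (nat_lit 13754290313) (nat_lit 121) (nat_lit 5) (nat_lit 131) (nat_lit 5) (nat_lit 132) (nat_lit 5) (nat_lit 400) (nat_lit 394) (nat_lit 226)) (XT.lf (nat_lit 76) (nat_lit 8800488787) (nat_lit 0) (nat_lit 22487891665) (nat_lit 836) (nat_lit 36327702342) (nat_lit 122) (nat_lit 5) (nat_lit 121) (nat_lit 5) (nat_lit 132) (nat_lit 5) (nat_lit 401) (nat_lit 394) (nat_lit 225))) (XT.nd (nat_lit 78) (nat_lit 0) (nat_lit 0) (XT.lf (nat_lit 0) (nat_lit 36080312449) (nat_lit 760) (nat_lit 24522227057) (nat_lit 836) (nat_lit 8795954558) (nat_lit 122) (nat_lit 5) (nat_lit 132) (nat_lit 5) (nat_lit 133) (nat_lit 5) (nat_lit 402) (nat_lit 394) (nat_lit 224))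 (XT.lf (nat_lit 76) (nat_lit 11483956081) (nat_lit 0) (nat_lit 30174914535) (nat_lit 836) (nat_lit 29583804297) (nat_lit 123) (nat_lit 5) (nat_lit 122) (nat_lit 5) (nat_lit 133) (nat_lit 5) (nat_lit 403) (nat_lit 394) (nat_lit 223))))) (XT.nd (nat_lit 234) (nat_lit 836) (nat_lit 0) (XT.nd (nat_lit 78) (nat_lit 760) (nat_lit 0) (XT.lf (nat_lit 0) (nat_lit 47965272516) (nat_lit 760) (nat_lit 23051793438) (nat_lit 76) (nat_lit 2139553529) (nat_lit 123) (nat_lit 5) (nat_lit 133) (nat_lit 5) (nat_lit 124) (nat_lit 5) (nat_lit 404) (nat_lit 394) (nat_lit 222)) (XT.nd (nat_lit 78) (nat_lit 0) (nat_lit 0) (XT.lf (nat_lit 0) (nat_lit 15490857897) (nat_lit 760) (nat_lit 39831818640) (nat_lit 836) (nat_lit 19806801093) (nat_lit 113) (nat_lit 5) (nat_lit 123) (nat_lit 5) (nat_lit 124) (nat_lit 5) (nat_lit 405) (nat_lit 394) (nat_lit 221)) (XT.lf (nat_lit 0) (nat_lit 56760206384) (nat_lit 760) (nat_lit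 6677321875) (nat_lit 836) (nat_lit 13743971977) (nat_lit 113) (nat_lit 5) (nat_lit 123) (nat_lit 5) (nat_lit 124) (nat_lit 5) (nat_lit 406) (nat_lit 394) (nat_lit 220)))) (XT.nd (nat_lit 156) (nat_lit 380) (nat_lit 0) (XT.nd (nat_lit 78) (nat_lit 76) (nat_lit 0) (XT.lf (nat_lit 0) (nat_lit 20988655053) (nat_lit 380) (nat_lit 51735648045) (nat_lit 456) (nat_lit 6573512255) (nat_lit 108) (nat_lit 5) (nat_lit 113) (nat_lit 5) (nat_lit 114) (nat_lit 5) (nat_lit 407) (nat_lit 394) (nat_lit 219)) (XT.lf (nat_lit 0) (nat_lit 1385104770) (nat_lit 456) (nat_lit 16455383059) (nat_lit 76) (nat_lit 63655702119) (nat_lit 107) (nat_lit 5) (nat_lit 113) (nat_lit 5) (nat_lit 108) (nat_lit 5) (nat_lit 408) (nat_lit 394) (nat_lit 218))) (XT.nd (nat_lit 78) (nat_lit 0) (nat_lit 0) (XT.lf (nat_lit 0) (nat_lit 10247792852) (nat_lit 456) (nat_lit 55775185505) (nat_lit 76) (nat_lit 17739764477) (nat_lit 102) (nat_lit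 5) (nat_lit 108) (nat_lit 5) (nat_lit 103) (nat_lit 5) (nat_lit 409) (nat_lit 394) (nat_lit 217)) (XT.lf (nat_lit 0) (nat_lit 20128627394) (nat_lit 456) (nat_lit 11202534127) (nat_lit 76) (nat_lit 54782711575) (nat_lit 102) (nat_lit 5) (nat_lit 108) (nat_lit 5) (nat_lit 103) (nat_lit 5) (nat_lit 410) (nat_lit 394) (nat_lit 216))))))) (XT.nd (nat_lit 1014) (nat_lit 1444) (nat_lit 0) (XT.nd (nat_lit 468) (nat_lit 1064) (nat_lit 0) (XT.nd (nat_lit 234) (nat_lit 608) (nat_lit 0) (XT.nd (nat_lit 78) (nat_lit 304) (nat_lit 0) (XT.lf (nat_lit 0) (nat_lit 31165958603) (nat_lit 456) (nat_lit 51867778875) (nat_lit 76) (nat_lit 5515699964) (nat_lit 97) (nat_lit 5) (nat_lit 103) (nat_lit 5) (nat_lit 98) (nat_lit 5) (nat_lit 411) (nat_lit 394) (nat_lit 215)) (XT.nd (nat_lit 78) (nat_lit 304) (nat_lit 0) (XT.lf (nat_lit 0) (nat_lit 43460962768) (nat_lit 456) (nat_lit 4265774724) (nat_lit 76) (nat_lit 43344752498)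 (nat_lit 97) (nat_lit 5) (nat_lit 103) (nat_lit 5) (nat_lit 98) (nat_lit 5) (nat_lit 412) (nat_lit 394) (nat_lit 214)) (XT.lf (nat_lit 0) (nat_lit 47227197217) (nat_lit 304) (nat_lit 9880250057) (nat_lit 380) (nat_lit 36575361674) (nat_lit 93) (nat_lit 5) (nat_lit 97) (nat_lit 5) (nat_lit 98) (nat_lit 5) (nat_lit 413) (nat_lit 394) (nat_lit 213)))) (XT.nd (nat_lit 78) (nat_lit 304) (nat_lit 0) (XT.lf (nat_lit 0) (nat_lit 4704326459) (nat_lit 304) (nat_lit 67344378992) (nat_lit 380) (nat_lit 24345366205) (nat_lit 89) (nat_lit 5) (nat_lit 93) (nat_lit 5) (nat_lit 94) (nat_lit 5) (nat_lit 414) (nat_lit 394) (nat_lit 212)) (XT.nd (nat_lit 78) (nat_lit 304) (nat_lit 0) (XT.lf (nat_lit 0) (nat_lit 59867064878) (nat_lit 304) (nat_lit 28815485071) (nat_lit 380) (nat_lit 10511071641) (nat_lit 89) (nat_lit 5) (nat_lit 93) (nat_lit 5) (nat_lit 94) (nat_lit 5) (nat_lit 415) (nat_lit 394) (nat_lit 211))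 (XT.lf (nat_lit 0) (nat_lit 4324222712) (nat_lit 304) (nat_lit 86197408301) (nat_lit 76) (nat_lit 11586494618) (nat_lit 85) (nat_lit 5) (nat_lit 89) (nat_lit 5) (nat_lit 86) (nat_lit 5) (nat_lit 416) (nat_lit 394) (nat_lit 210))))) (XT.nd (nat_lit 234) (nat_lit 760) (nat_lit 0) (XT.nd (nat_lit 78) (nat_lit 304) (nat_lit 0) (XT.lf (nat_lit 0) (nat_lit 20696807419) (nat_lit 304) (nat_lit 30516189516) (nat_lit 76) (nat_lit 53889304205) (nat_lit 85) (nat_lit 5) (nat_lit 89) (nat_lit 5) (nat_lit 86) (nat_lit 5) (nat_lit 417) (nat_lit 394) (nat_lit 209)) (XT.nd (nat_lit 78) (nat_lit 0) (nat_lit 0) (XT.lf (nat_lit 0) (nat_lit 28872520943) (nat_lit 304) (nat_lit 9465756656) (nat_lit 380) (nat_lit 69885395230) (nat_lit 81) (nat_lit 5) (nat_lit 85) (nat_lit 5) (nat_lit 86) (nat_lit 5) (nat_lit 418) (nat_lit 394) (nat_lit 208)) (XT.lf (nat_lit 0) (nat_lit 57923181587) (nat_lit 380) (nat_lit 19730901710)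 (nat_lit 76) (nat_lit 33793961994) (nat_lit 81) (nat_lit 5) (nat_lit 86) (nat_lit 5) (nat_lit 82) (nat_lit 5) (nat_lit 419) (nat_lit 394) (nat_lit 207)))) (XT.nd (nat_lit 156) (nat_lit 532) (nat_lit 0) (XT.nd (nat_lit 78) (nat_lit 0) (nat_lit 0) (XT.lf (nat_lit 0) (nat_lit 44126869747) (nat_lit 228) (nat_lit 35204093495) (nat_lit 304) (nat_lit 35460491707) (nat_lit 78) (nat_lit 5) (nat_lit 81) (nat_lit 5) (nat_lit 82) (nat_lit 5) (nat_lit 420) (nat_lit 394) (nat_lit 206)) (XT.lf (nat_lit 0) (nat_lit 102294553868) (nat_lit 304) (nat_lit 6575191316) (nat_lit 76) (nat_lit 9408019099) (nat_lit 78) (nat_lit 5) (nat_lit 82) (nat_lit 5) (nat_lit 79) (nat_lit 5) (nat_lit 421) (nat_lit 394) (nat_lit 205))) (XT.nd (nat_lit 78) (nat_lit 228) (nat_lit 0) (XT.lf (nat_lit 0) (nat_lit 5896964956) (nat_lit 304) (nat_lit 59826710830) (nat_lit 76) (nat_lit 56132624024) (nat_lit 74) (nat_lit 5) (nat_lit 78)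 (nat_lit 5) (nat_lit 75) (nat_lit 5) (nat_lit 422) (nat_lit 394) (nat_lit 204)) (XT.lf (nat_lit 0) (nat_lit 8698619963) (nat_lit 228) (nat_lit 19883927794) (nat_lit 304) (nat_lit 97005686558) (nat_lit 71) (nat_lit 5) (nat_lit 74) (nat_lit 5) (nat_lit 75) (nat_lit 5) (nat_lit 423) (nat_lit 394) (nat_lit 203)))))) (XT.nd (nat_lit 546) (nat_lit 608) (nat_lit 0) (XT.nd (nat_lit 234) (nat_lit 608) (nat_lit 0) (XT.nd (nat_lit 78) (nat_lit 228) (nat_lit 0) (XT.lf (nat_lit 0) (nat_lit 53872799939) (nat_lit 304) (nat_lit 47187120899) (nat_lit 76) (nat_lit 28373325350) (nat_lit 71) (nat_lit 5) (nat_lit 75) (nat_lit 5) (nat_lit 72) (nat_lit 5) (nat_lit 424) (nat_lit 394) (nat_lit 202)) (XT.nd (nat_lit 78) (nat_lit 0) (nat_lit 0) (XT.lf (nat_lit 0) (nat_lit 26522814041) (nat_lit 228) (nat_lit 54644391945) (nat_lit 304) (nat_lit 52266320751) (nat_lit 68) (nat_lit 5) (nat_lit 71) (nat_lit 5) (nat_lit 72)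 (nat_lit 5) (nat_lit 425) (nat_lit 394) (nat_lit 201)) (XT.lf (nat_lit 0) (nat_lit 105555873055) (nat_lit 228) (nat_lit 5069186374) (nat_lit 304) (nat_lit 26968825669) (nat_lit 68) (nat_lit 5) (nat_lit 71) (nat_lit 5) (nat_lit 72) (nat_lit 5) (nat_lit 426) (nat_lit 394) (nat_lit 200)))) (XT.nd (nat_lit 156) (nat_lit 380) (nat_lit 0) (XT.nd (nat_lit 78) (nat_lit 0) (nat_lit 0) (XT.lf (nat_lit 0) (nat_lit 1103287189) (nat_lit 228) (nat_lit 94546443009) (nat_lit 76) (nat_lit 46238011906) (nat_lit 65) (nat_lit 5) (nat_lit 68) (nat_lit 5) (nat_lit 66) (nat_lit 5) (nat_lit 427) (nat_lit 394) (nat_lit 199)) (XT.lf (nat_lit 0) (nat_lit 30306861926) (nat_lit 228) (nat_lit 15102002314) (nat_lit 76) (nat_lit 100933612964) (nat_lit 65) (nat_lit 5) (nat_lit 68) (nat_lit 5) (nat_lit 66) (nat_lit 5) (nat_lit 428) (nat_lit 394) (nat_lit 198))) (XT.nd (nat_lit 78) (nat_lit 152) (nat_lit 0) (XT.lf (nat_lit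 0) (nat_lit 62204805453) (nat_lit 304) (nat_lit 80524730050) (nat_lit 76) (nat_lit 8228704168) (nat_lit 62) (nat_lit 5) (nat_lit 66) (nat_lit 5) (nat_lit 63) (nat_lit 5) (nat_lit 429) (nat_lit 394) (nat_lit 197)) (XT.lf (nat_lit 0) (nat_lit 4368757193) (nat_lit 152) (nat_lit 92401092343) (nat_lit 228) (nat_lit 58981330665) (nat_lit 60) (nat_lit 5) (nat_lit 62) (nat_lit 5) (nat_lit 63) (nat_lit 5) (nat_lit 430) (nat_lit 394) (nat_lit 196))))) (XT.nd (nat_lit 234) (nat_lit 380) (nat_lit 0) (XT.nd (nat_lit 78) (nat_lit 228) (nat_lit 0) (XT.lf (nat_lit 0) (nat_lit 96301992600) (nat_lit 152) (nat_lit 38124521821) (nat_lit 228) (nat_lit 26289085010) (nat_lit 60) (nat_lit 5) (nat_lit 62) (nat_lit 5) (nat_lit 63) (nat_lit 5) (nat_lit 431) (nat_lit 394) (nat_lit 195)) (XT.nd (nat_lit 78) (nat_lit 0) (nat_lit 0) (XT.lf (nat_lit 0) (nat_lit 8515749170) (nat_lit 228) (nat_lit 138541072093) (nat_lit 76)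 (nat_lit 18828382088) (nat_lit 57) (nat_lit 5) (nat_lit 60) (nat_lit 5) (nat_lit 58) (nat_lit 5) (nat_lit 432) (nat_lit 394) (nat_lit 194)) (XT.lf (nat_lit 0) (nat_lit 45910749919) (nat_lit 228) (nat_lit 46407089102) (nat_lit 76) (nat_lit 78887229580) (nat_lit 57) (nat_lit 5) (nat_lit 60) (nat_lit 5) (nat_lit 58) (nat_lit 5) (nat_lit 433) (nat_lit 394) (nat_lit 193)))) (XT.nd (nat_lit 156) (nat_lit 228) (nat_lit 0) (XT.nd (nat_lit 78) (nat_lit 0) (nat_lit 0) (XT.lf (nat_lit 0) (nat_lit 51997305177) (nat_lit 152) (nat_lit 33989694933) (nat_lit 228) (nat_lit 90763352118) (nat_lit 55) (nat_lit 5) (nat_lit 57) (nat_lit 5) (nat_lit 58) (nat_lit 5) (nat_lit 434) (nat_lit 394) (nat_lit 192)) (XT.lf (nat_lit 0) (nat_lit 129291078018) (nat_lit 228) (nat_lit 26039474583) (nat_lit 76) (nat_lit 27181146757) (nat_lit 55) (nat_lit 5) (nat_lit 58) (nat_lit 5) (nat_lit 56) (nat_lit 5) (nat_lit 435) (nat_lit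 394) (nat_lit 191))) (XT.nd (nat_lit 78) (nat_lit 76) (nat_lit 0) (XT.lf (nat_lit 0) (nat_lit 79599752189) (nat_lit 152) (nat_lit 96960286161) (nat_lit 228) (nat_lit 11911091645) (nat_lit 53) (nat_lit 5) (nat_lit 55) (nat_lit 5) (nat_lit 56) (nat_lit 5) (nat_lit 436) (nat_lit 394) (nat_lit 190)) (XT.lf (nat_lit 0) (nat_lit 30904790236) (nat_lit 228) (nat_lit 3780487119) (nat_lit 76) (nat_lit 159996297011) (nat_lit 52) (nat_lit 5) (nat_lit 55) (nat_lit 5) (nat_lit 53) (nat_lit 5) (nat_lit 437) (nat_lit 394) (nat_lit 189))))))))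
noncomputable def xc211 : XT := (XT.nd (nat_lit 2106) (nat_lit 456) (nat_lit 0) (XT.nd (nat_lit 1014) (nat_lit 836) (nat_lit 0) (XT.nd (nat_lit 468) (nat_lit 608) (nat_lit 0) (XT.nd (nat_lit 234) (nat_lit 304) (nat_lit 0) (XT.nd (nat_lit 78) (nat_lit 152) (nat_lit 0) (XT.lf (nat_lit 0) (nat_lit 77687209659) (nat_lit 228) (nat_lit 91731453868) (nat_lit 76) (nat_lit 31662812595) (nat_lit 50) (nat_lit 5) (nat_lit 53) (nat_lit 5) (nat_lit 51) (nat_lit 5) (nat_lit 438) (nat_lit 394) (nat_lit 188)) (XT.nd (nat_lit 78) (nat_lit 0) (nat_lit 0) (XT.lf (nat_lit 0) (nat_lit 20557971587) (nat_lit 152) (nat_lit 107205145810) (nat_lit 228) (nat_lit 79990537265) (nat_lit 48) (nat_lit 5) (nat_lit 50) (nat_lit 5) (nat_lit 51) (nat_lit 5) (nat_lit 439) (nat_lit 394) (nat_lit 187)) (XT.lf (nat_lit 0) (nat_lit 141646098572) (nat_lit 152) (nat_lit 40249959351) (nat_lit 228) (nat_lit 32785722396) (nat_lit 48)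 (nat_lit 5) (nat_lit 50) (nat_lit 5) (nat_lit 51) (nat_lit 5) (nat_lit 440) (nat_lit 394) (nat_lit 186)))) (XT.nd (nat_lit 78) (nat_lit 152) (nat_lit 0) (XT.lf (nat_lit 0) (nat_lit 17478963113) (nat_lit 152) (nat_lit 174281794371) (nat_lit 76) (nat_lit 30120622542) (nat_lit 46) (nat_lit 5) (nat_lit 48) (nat_lit 5) (nat_lit 47) (nat_lit 5) (nat_lit 441) (nat_lit 394) (nat_lit 185)) (XT.nd (nat_lit 78) (nat_lit 152) (nat_lit 0) (XT.lf (nat_lit 0) (nat_lit 71071807048) (nat_lit 152) (nat_lit 53794915481) (nat_lit 76) (nat_lit 104451526730) (nat_lit 46) (nat_lit 5) (nat_lit 48) (nat_lit 5) (nat_lit 47) (nat_lit 5) (nat_lit 442) (nat_lit 394) (nat_lit 184)) (XT.lf (nat_lit 0) (nat_lit 75120176760) (nat_lit 152) (nat_lit 53396698084) (nat_lit 228) (nat_lit 108551458074) (nat_lit 44) (nat_lit 5) (nat_lit 46) (nat_lit 5) (nat_lit 47) (nat_lit 5) (nat_lit 443) (nat_lit 394) (nat_lit 183))))) (XT.nd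 (nat_lit 234) (nat_lit 456) (nat_lit 0) (XT.nd (nat_lit 78) (nat_lit 152) (nat_lit 0) (XT.lf (nat_lit 0) (nat_lit 190097889256) (nat_lit 228) (nat_lit 33165057560) (nat_lit 76) (nat_lit 21879789330) (nat_lit 44) (nat_lit 5) (nat_lit 47) (nat_lit 5) (nat_lit 45) (nat_lit 4) (nat_lit 444) (nat_lit 394) (nat_lit 182)) (XT.nd (nat_lit 78) (nat_lit 0) (nat_lit 0) (XT.lf (nat_lit 0) (nat_lit 3648873781) (nat_lit 152) (nat_lit 149027430415) (nat_lit 76) (nat_lit 100816259068) (nat_lit 42) (nat_lit 5) (nat_lit 44) (nat_lit 5) (nat_lit 43) (nat_lit 5) (nat_lit 445) (nat_lit 394) (nat_lit 181)) (XT.lf (nat_lit 0) (nat_lit 63998047171) (nat_lit 152) (nat_lit 13015559453) (nat_lit 76) (nat_lit 185172624705) (nat_lit 42) (nat_lit 5) (nat_lit 44) (nat_lit 5) (nat_lit 43) (nat_lit 5) (nat_lit 446) (nat_lit 394) (nat_lit 180)))) (XT.nd (nat_lit 156) (nat_lit 228) (nat_lit 0) (XT.nd (nat_lit 78) (nat_lit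 76) (nat_lit 0) (XT.lf (nat_lit 0) (nat_lit 129530233684) (nat_lit 228) (nat_lit 137194053970) (nat_lit 76) (nat_lit 4482017457) (nat_lit 40) (nat_lit 5) (nat_lit 43) (nat_lit 5) (nat_lit 41) (nat_lit 4) (nat_lit 447) (nat_lit 394) (nat_lit 179)) (XT.lf (nat_lit 0) (nat_lit 7138910768) (nat_lit 76) (nat_lit 192797907407) (nat_lit 152) (nat_lit 80660675014) (nat_lit 39) (nat_lit 5) (nat_lit 40) (nat_lit 5) (nat_lit 41) (nat_lit 4) (nat_lit 448) (nat_lit 394) (nat_lit 178))) (XT.nd (nat_lit 78) (nat_lit 228) (nat_lit 0) (XT.lf (nat_lit 0) (nat_lit 163451189049) (nat_lit 76) (nat_lit 112735768807) (nat_lit 152) (nat_lit 14155121551) (nat_lit 39) (nat_lit 5) (nat_lit 40) (nat_lit 5) (nat_lit 41) (nat_lit 4) (nat_lit 449) (nat_lit 394) (nat_lit 177)) (XT.lf (nat_lit 0) (nat_lit 26999701078) (nat_lit 152) (nat_lit 27315364438) (nat_lit 228) (nat_lit 246194300442) (nat_lit 36) (nat_lit 5) (nat_lit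 38) (nat_lit 5) (nat_lit 39) (nat_lit 5) (nat_lit 450) (nat_lit 394) (nat_lit 176)))))) (XT.nd (nat_lit 546) (nat_lit 456) (nat_lit 0) (XT.nd (nat_lit 234) (nat_lit 304) (nat_lit 0) (XT.nd (nat_lit 78) (nat_lit 76) (nat_lit 0) (XT.lf (nat_lit 0) (nat_lit 128890896452) (nat_lit 228) (nat_lit 119328918708) (nat_lit 76) (nat_lit 62795707178) (nat_lit 36) (nat_lit 5) (nat_lit 39) (nat_lit 5) (nat_lit 37) (nat_lit 4) (nat_lit 451) (nat_lit 394) (nat_lit 175)) (XT.nd (nat_lit 78) (nat_lit 0) (nat_lit 0) (XT.lf (nat_lit 0) (nat_lit 43505134615) (nat_lit 76) (nat_lit 164817211257) (nat_lit 152) (nat_lit 113668299348) (nat_lit 35) (nat_lit 5) (nat_lit 36) (nat_lit 5) (nat_lit 37) (nat_lit 4) (nat_lit 452) (nat_lit 394) (nat_lit 174)) (XT.lf (nat_lit 0) (nat_lit 218623353932) (nat_lit 76) (nat_lit 75122707744) (nat_lit 152) (nat_lit 39667427901) (nat_lit 35) (nat_lit 5) (nat_lit 36) (nat_lit 5) (nat_lit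 37) (nat_lit 4) (nat_lit 453) (nat_lit 394) (nat_lit 173)))) (XT.nd (nat_lit 156) (nat_lit 76) (nat_lit 0) (XT.nd (nat_lit 78) (nat_lit 0) (nat_lit 0) (XT.lf (nat_lit 0) (nat_lit 38049404365) (nat_lit 228) (nat_lit 287290579747) (nat_lit 76) (nat_lit 19976140282) (nat_lit 32) (nat_lit 5) (nat_lit 35) (nat_lit 5) (nat_lit 33) (nat_lit 4) (nat_lit 454) (nat_lit 394) (nat_lit 172)) (XT.lf (nat_lit 0) (nat_lit 121526216597) (nat_lit 228) (nat_lit 116163458550) (nat_lit 76) (nat_lit 119931340341) (nat_lit 32) (nat_lit 5) (nat_lit 35) (nat_lit 5) (nat_lit 33) (nat_lit 4) (nat_lit 455) (nat_lit 394) (nat_lit 171))) (XT.nd (nat_lit 78) (nat_lit 0) (nat_lit 0) (XT.lf (nat_lit 0) (nat_lit 65619925758) (nat_lit 76) (nat_lit 144581272210) (nat_lit 152) (nat_lit 160288736764) (nat_lit 31) (nat_lit 5) (nat_lit 32) (nat_lit 5) (nat_lit 33) (nat_lit 4) (nat_lit 456) (nat_lit 394) (nat_lit 170)) (XT.lf (nat_lit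 0) (nat_lit 260525077371) (nat_lit 76) (nat_lit 44751956461) (nat_lit 152) (nat_lit 78626910859) (nat_lit 31) (nat_lit 5) (nat_lit 32) (nat_lit 5) (nat_lit 33) (nat_lit 4) (nat_lit 457) (nat_lit 394) (nat_lit 169))))) (XT.nd (nat_lit 234) (nat_lit 228) (nat_lit 0) (XT.nd (nat_lit 78) (nat_lit 76) (nat_lit 0) (XT.lf (nat_lit 0) (nat_lit 8929270919) (nat_lit 152) (nat_lit 329593222272) (nat_lit 76) (nat_lit 59358651111) (nat_lit 29) (nat_lit 5) (nat_lit 31) (nat_lit 5) (nat_lit 30) (nat_lit 4) (nat_lit 458) (nat_lit 394) (nat_lit 168)) (XT.nd (nat_lit 78) (nat_lit 76) (nat_lit 0) (XT.lf (nat_lit 0) (nat_lit 101078082909) (nat_lit 152) (nat_lit 140688427130) (nat_lit 76) (nat_lit 170583385542) (nat_lit 29) (nat_lit 5) (nat_lit 31) (nat_lit 5) (nat_lit 30) (nat_lit 4) (nat_lit 459) (nat_lit 394) (nat_lit 167)) (XT.lf (nat_lit 0) (nat_lit 59567840544) (nat_lit 76) (nat_lit 139196351771) (nat_lit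 152) (nat_lit 228731399286) (nat_lit 28) (nat_lit 5) (nat_lit 29) (nat_lit 5) (nat_lit 30) (nat_lit 4) (nat_lit 460) (nat_lit 394) (nat_lit 166)))) (XT.nd (nat_lit 156) (nat_lit 152) (nat_lit 0) (XT.nd (nat_lit 78) (nat_lit 76) (nat_lit 0) (XT.lf (nat_lit 0) (nat_lit 274721000982) (nat_lit 76) (nat_lit 28996071736) (nat_lit 152) (nat_lit 139562376445) (nat_lit 28) (nat_lit 5) (nat_lit 29) (nat_lit 5) (nat_lit 30) (nat_lit 4) (nat_lit 461) (nat_lit 394) (nat_lit 165)) (XT.lf (nat_lit 0) (nat_lit 40728745896) (nat_lit 76) (nat_lit 375178437603) (nat_lit 76) (nat_lit 43845836802) (nat_lit 27) (nat_lit 4) (nat_lit 28) (nat_lit 5) (nat_lit 28) (nat_lit 4) (nat_lit 462) (nat_lit 394) (nat_lit 164))) (XT.nd (nat_lit 78) (nat_lit 76) (nat_lit 0) (XT.lf (nat_lit 0) (nat_lit 58219773196) (nat_lit 152) (nat_lit 211982276860) (nat_lit 76) (nat_lit 206635161286) (nat_lit 26) (nat_lit 5) (nat_lit 28) (nat_lit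 5) (nat_lit 27) (nat_lit 4) (nat_lit 463) (nat_lit 394) (nat_lit 163)) (XT.lf (nat_lit 0) (nat_lit 4847917600) (nat_lit 76) (nat_lit 159142780239) (nat_lit 152) (nat_lit 330745197811) (nat_lit 25) (nat_lit 5) (nat_lit 26) (nat_lit 5) (nat_lit 27) (nat_lit 4) (nat_lit 464) (nat_lit 394) (nat_lit 162))))))) (XT.nd (nat_lit 47814) (nat_lit 0) (nat_lit 6308) (XT.nd (nat_lit 468) (nat_lit 228) (nat_lit 0) (XT.nd (nat_lit 234) (nat_lit 152) (nat_lit 0) (XT.nd (nat_lit 78) (nat_lit 76) (nat_lit 0) (XT.lf (nat_lit 0) (nat_lit 239878889931) (nat_lit 76) (nat_lit 38761156111) (nat_lit 152) (nat_lit 234709974279) (nat_lit 25) (nat_lit 5) (nat_lit 26) (nat_lit 5) (nat_lit 27) (nat_lit 4) (nat_lit 465) (nat_lit 394) (nat_lit 161)) (XT.nd (nat_lit 78) (nat_lit 76) (nat_lit 0) (XT.lf (nat_lit 0) (nat_lit 400390020459) (nat_lit 152) (nat_lit 47602008876) (nat_lit 0) (nat_lit 84834413962) (nat_lit 25) (nat_lit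 5) (nat_lit 27) (nat_lit 4) (nat_lit 25) (nat_lit 4) (nat_lit 466) (nat_lit 394) (nat_lit 160)) (XT.lf (nat_lit 0) (nat_lit 195171593054) (nat_lit 76) (nat_lit 336738371374) (nat_lit 76) (nat_lit 21182599465) (nat_lit 24) (nat_lit 4) (nat_lit 25) (nat_lit 5) (nat_lit 25) (nat_lit 4) (nat_lit 467) (nat_lit 394) (nat_lit 159)))) (XT.nd (nat_lit 78) (nat_lit 76) (nat_lit 0) (XT.lf (nat_lit 0) (nat_lit 93392278149) (nat_lit 152) (nat_lit 124101759237) (nat_lit 76) (nat_lit 356762335193) (nat_lit 23) (nat_lit 5) (nat_lit 25) (nat_lit 5) (nat_lit 24) (nat_lit 4) (nat_lit 468) (nat_lit 394) (nat_lit 158)) (XT.nd (nat_lit 78) (nat_lit 0) (nat_lit 0) (XT.lf (nat_lit 0) (nat_lit 125063732952) (nat_lit 76) (nat_lit 89872760915) (nat_lit 152) (nat_lit 381426891632) (nat_lit 22) (nat_lit 5) (nat_lit 23) (nat_lit 5) (nat_lit 24) (nat_lit 4) (nat_lit 469) (nat_lit 394) (nat_lit 157)) (XT.lf (nat_lit 0)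 (nat_lit 345382958175) (nat_lit 152) (nat_lit 229198316420) (nat_lit 0) (nat_lit 44853222589) (nat_lit 22) (nat_lit 5) (nat_lit 24) (nat_lit 4) (nat_lit 22) (nat_lit 4) (nat_lit 470) (nat_lit 394) (nat_lit 156))))) (XT.nd (nat_lit 234) (nat_lit 76) (nat_lit 0) (XT.nd (nat_lit 78) (nat_lit 76) (nat_lit 0) (XT.lf (nat_lit 0) (nat_lit 24312686819) (nat_lit 76) (nat_lit 459891851600) (nat_lit 76) (nat_lit 159361986410) (nat_lit 21) (nat_lit 4) (nat_lit 22) (nat_lit 5) (nat_lit 22) (nat_lit 4) (nat_lit 471) (nat_lit 394) (nat_lit 155)) (XT.nd (nat_lit 78) (nat_lit 76) (nat_lit 0) (XT.lf (nat_lit 0) (nat_lit 298456258431) (nat_lit 76) (nat_lit 335392405374) (nat_lit 76) (nat_lit 34862416752) (nat_lit 21) (nat_lit 4) (nat_lit 22) (nat_lit 5) (nat_lit 22) (nat_lit 4) (nat_lit 472) (nat_lit 394) (nat_lit 154)) (XT.lf (nat_lit 0) (nat_lit 92793830030) (nat_lit 152) (nat_lit 110302754615) (nat_lit 76)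 (nat_lit 491941451334) (nat_lit 20) (nat_lit 5) (nat_lit 22) (nat_lit 5) (nat_lit 21) (nat_lit 4) (nat_lit 473) (nat_lit 394) (nat_lit 153)))) (XT.nd (nat_lit 46956) (nat_lit 0) (nat_lit 7524) (XT.nd (nat_lit 78) (nat_lit 0) (nat_lit 0) (XT.lf (nat_lit 0) (nat_lit 167434126910) (nat_lit 76) (nat_lit 60841163354) (nat_lit 152) (nat_lit 494246772816) (nat_lit 19) (nat_lit 5) (nat_lit 20) (nat_lit 5) (nat_lit 21) (nat_lit 4) (nat_lit 474) (nat_lit 394) (nat_lit 152)) (XT.lf (nat_lit 0) (nat_lit 373811523823) (nat_lit 152) (nat_lit 289812565798) (nat_lit 0) (nat_lit 87592166909) (nat_lit 19) (nat_lit 5) (nat_lit 21) (nat_lit 4) (nat_lit 19) (nat_lit 4) (nat_lit 475) (nat_lit 394) (nat_lit 151))) (XT.nd (nat_lit 78) (nat_lit 0) (nat_lit 0) (XT.lf (nat_lit 0) (nat_lit 8217484549) (nat_lit 836) (nat_lit 10774426369) (nat_lit 836) (nat_lit 10774426369) (nat_lit 118) (nat_lit 3) (nat_lit 129) (nat_lit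 3) (nat_lit 129) (nat_lit 5) (nat_lit 395) (nat_lit 395) (nat_lit 230)) (XT.lf (nat_lit 76) (nat_lit 7618893939) (nat_lit 0) (nat_lit 9363920362) (nat_lit 836) (nat_lit 44031318735) (nat_lit 119) (nat_lit 5) (nat_lit 118) (nat_lit 3) (nat_lit 129) (nat_lit 5) (nat_lit 396) (nat_lit 395) (nat_lit 229)))))) (XT.nd (nat_lit 546) (nat_lit 1292) (nat_lit 0) (XT.nd (nat_lit 234) (nat_lit 0) (nat_lit 76) (XT.nd (nat_lit 78) (nat_lit 0) (nat_lit 0) (XT.lf (nat_lit 0) (nat_lit 18250801509) (nat_lit 760) (nat_lit 23887919322) (nat_lit 836) (nat_lit 20396306732) (nat_lit 119) (nat_lit 5) (nat_lit 129) (nat_lit 5) (nat_lit 130) (nat_lit 5) (nat_lit 397) (nat_lit 395) (nat_lit 228)) (XT.nd (nat_lit 78) (nat_lit 0) (nat_lit 76) (XT.lf (nat_lit 76) (nat_lit 7170087045) (nat_lit 0) (nat_lit 12676453263) (nat_lit 836) (nat_lit 44272209498) (nat_lit 120) (nat_lit 5) (nat_lit 119) (nat_lit 5) (nat_lit 130)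 (nat_lit 5) (nat_lit 398) (nat_lit 395) (nat_lit 227)) (XT.lf (nat_lit 0) (nat_lit 22217273366) (nat_lit 760) (nat_lit 25443516441) (nat_lit 836) (nat_lit 18086108559) (nat_lit 120) (nat_lit 5) (nat_lit 130) (nat_lit 5) (nat_lit 131) (nat_lit 5) (nat_lit 399) (nat_lit 395) (nat_lit 226)))) (XT.nd (nat_lit 156) (nat_lit 0) (nat_lit 76) (XT.nd (nat_lit 78) (nat_lit 0) (nat_lit 76) (XT.lf (nat_lit 76) (nat_lit 7674017496) (nat_lit 0) (nat_lit 17359148059) (nat_lit 836) (nat_lit 42406958221) (nat_lit 121) (nat_lit 5) (nat_lit 120) (nat_lit 5) (nat_lit 131) (nat_lit 5) (nat_lit 400) (nat_lit 395) (nat_lit 225)) (XT.lf (nat_lit 0) (nat_lit 28652578617) (nat_lit 760) (nat_lit 26099201120) (nat_lit 836) (nat_lit 14433094926) (nat_lit 121) (nat_lit 5) (nat_lit 131) (nat_lit 5) (nat_lit 132) (nat_lit 5) (nat_lit 401) (nat_lit 395) (nat_lit 224))) (XT.nd (nat_lit 78) (nat_lit 0) (nat_lit 76) (XT.lf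 (nat_lit 76) (nat_lit 9262238812) (nat_lit 0) (nat_lit 23618995717) (nat_lit 836) (nat_lit 38114215449) (nat_lit 122) (nat_lit 5) (nat_lit 121) (nat_lit 5) (nat_lit 132) (nat_lit 5) (nat_lit 402) (nat_lit 395) (nat_lit 223)) (XT.lf (nat_lit 0) (nat_lit 37911309310) (nat_lit 760) (nat_lit 25726179081) (nat_lit 836) (nat_lit 9229566835) (nat_lit 122) (nat_lit 5) (nat_lit 132) (nat_lit 5) (nat_lit 133) (nat_lit 5) (nat_lit 403) (nat_lit 395) (nat_lit 222))))) (XT.nd (nat_lit 234) (nat_lit 836) (nat_lit 0) (XT.nd (nat_lit 78) (nat_lit 684) (nat_lit 0) (XT.lf (nat_lit 76) (nat_lit 12079955805) (nat_lit 0) (nat_lit 31687895149) (nat_lit 836) (nat_lit 31035642075) (nat_lit 123) (nat_lit 5) (nat_lit 122) (nat_lit 5) (nat_lit 133) (nat_lit 5) (nat_lit 404) (nat_lit 395) (nat_lit 221)) (XT.nd (nat_lit 78) (nat_lit 760) (nat_lit 0) (XT.lf (nat_lit 0) (nat_lit 50388270131) (nat_lit 760) (nat_lit 24182303427)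 (nat_lit 76) (nat_lit 2242627068) (nat_lit 123) (nat_lit 5) (nat_lit 133) (nat_lit 5) (nat_lit 124) (nat_lit 5) (nat_lit 405) (nat_lit 395) (nat_lit 220)) (XT.lf (nat_lit 0) (nat_lit 16287124352) (nat_lit 760) (nat_lit 41825581358) (nat_lit 836) (nat_lit 20772038527) (nat_lit 113) (nat_lit 5) (nat_lit 123) (nat_lit 5) (nat_lit 124) (nat_lit 5) (nat_lit 406) (nat_lit 395) (nat_lit 219)))) (XT.nd (nat_lit 156) (nat_lit 456) (nat_lit 0) (XT.nd (nat_lit 78) (nat_lit 380) (nat_lit 0) (XT.lf (nat_lit 0) (nat_lit 59618905807) (nat_lit 760) (nat_lit 7013256337) (nat_lit 836) (nat_lit 14407263319) (nat_lit 113) (nat_lit 5) (nat_lit 123) (nat_lit 5) (nat_lit 124) (nat_lit 5) (nat_lit 407) (nat_lit 395) (nat_lit 218)) (XT.lf (nat_lit 0) (nat_lit 22059606228) (nat_lit 380) (nat_lit 54322891016) (nat_lit 456) (nat_lit 6879098583) (nat_lit 108) (nat_lit 5) (nat_lit 113) (nat_lit 5) (nat_lit 114) (nat_lit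 5) (nat_lit 408) (nat_lit 395) (nat_lit 217))) (XT.nd (nat_lit 78) (nat_lit 380) (nat_lit 0) (XT.lf (nat_lit 0) (nat_lit 1475645992) (nat_lit 456) (nat_lit 17256944376) (nat_lit 76) (nat_lit 66837334488) (nat_lit 107) (nat_lit 5) (nat_lit 113) (nat_lit 5) (nat_lit 108) (nat_lit 5) (nat_lit 409) (nat_lit 395) (nat_lit 216)) (XT.lf (nat_lit 0) (nat_lit 10780784812) (nat_lit 456) (nat_lit 58542043478) (nat_lit 76) (nat_lit 18627011770) (nat_lit 102) (nat_lit 5) (nat_lit 108) (nat_lit 5) (nat_lit 103) (nat_lit 5) (nat_lit 410) (nat_lit 395) (nat_lit 215))))))))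
noncomputable def xc212 : XT := (XT.nd (nat_lit 2106) (nat_lit 2052) (nat_lit 0) (XT.nd (nat_lit 1014) (nat_lit 1596) (nat_lit 0) (XT.nd (nat_lit 468) (nat_lit 1140) (nat_lit 0) (XT.nd (nat_lit 234) (nat_lit 608) (nat_lit 0) (XT.nd (nat_lit 78) (nat_lit 380) (nat_lit 0) (XT.lf (nat_lit 0) (nat_lit 21154680018) (nat_lit 456) (nat_lit 11741802450) (nat_lit 76) (nat_lit 57522093886) (nat_lit 102) (nat_lit 5) (nat_lit 108) (nat_lit 5) (nat_lit 103) (nat_lit 5) (nat_lit 411) (nat_lit 395) (nat_lit 214)) (XT.nd (nat_lit 78) (nat_lit 0) (nat_lit 0) (XT.lf (nat_lit 0) (nat_lit 32743287496) (nat_lit 456) (nat_lit 54439710255) (nat_lit 76) (nat_lit 5792951127) (nat_lit 97) (nat_lit 5) (nat_lit 103) (nat_lit 5) (nat_lit 98) (nat_lit 5) (nat_lit 412) (nat_lit 395) (nat_lit 213)) (XT.lf (nat_lit 0) (nat_lit 45652135633) (nat_lit 456) (nat_lit 4458627685) (nat_lit 76) (nat_lit 45513386470) (nat_lit 97)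 (nat_lit 5) (nat_lit 103) (nat_lit 5) (nat_lit 98) (nat_lit 5) (nat_lit 413) (nat_lit 395) (nat_lit 212)))) (XT.nd (nat_lit 78) (nat_lit 304) (nat_lit 0) (XT.lf (nat_lit 0) (nat_lit 49608663243) (nat_lit 304) (nat_lit 10371731951) (nat_lit 380) (nat_lit 38385667360) (nat_lit 93) (nat_lit 5) (nat_lit 97) (nat_lit 5) (nat_lit 98) (nat_lit 5) (nat_lit 414) (nat_lit 395) (nat_lit 211)) (XT.nd (nat_lit 78) (nat_lit 0) (nat_lit 0) (XT.lf (nat_lit 0) (nat_lit 4960158319) (nat_lit 304) (nat_lit 70708080526) (nat_lit 380) (nat_lit 25544673810) (nat_lit 89) (nat_lit 5) (nat_lit 93) (nat_lit 5) (nat_lit 94) (nat_lit 5) (nat_lit 415) (nat_lit 395) (nat_lit 210)) (XT.lf (nat_lit 0) (nat_lit 62880051967) (nat_lit 304) (nat_lit 30252909405) (nat_lit 380) (nat_lit 11019519789) (nat_lit 89) (nat_lit 5) (nat_lit 93) (nat_lit 5) (nat_lit 94) (nat_lit 5) (nat_lit 416) (nat_lit 395) (nat_lit 209))))) (XT.nd (nat_lit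 234) (nat_lit 532) (nat_lit 0) (XT.nd (nat_lit 78) (nat_lit 304) (nat_lit 0) (XT.lf (nat_lit 0) (nat_lit 4556572503) (nat_lit 304) (nat_lit 90486664496) (nat_lit 76) (nat_lit 12169481348) (nat_lit 85) (nat_lit 5) (nat_lit 89) (nat_lit 5) (nat_lit 86) (nat_lit 5) (nat_lit 417) (nat_lit 395) (nat_lit 208)) (XT.nd (nat_lit 78) (nat_lit 304) (nat_lit 0) (XT.lf (nat_lit 0) (nat_lit 21747017938) (nat_lit 304) (nat_lit 32022366401) (nat_lit 76) (nat_lit 56587257034) (nat_lit 85) (nat_lit 5) (nat_lit 89) (nat_lit 5) (nat_lit 86) (nat_lit 5) (nat_lit 418) (nat_lit 395) (nat_lit 207)) (XT.lf (nat_lit 0) (nat_lit 30335462926) (nat_lit 304) (nat_lit 9934668365) (nat_lit 380) (nat_lit 73363972172) (nat_lit 81) (nat_lit 5) (nat_lit 85) (nat_lit 5) (nat_lit 86) (nat_lit 5) (nat_lit 419) (nat_lit 395) (nat_lit 206)))) (XT.nd (nat_lit 156) (nat_lit 304) (nat_lit 0) (XT.nd (nat_lit 78) (nat_lit 228) (nat_lit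 0) (XT.lf (nat_lit 0) (nat_lit 60833634129) (nat_lit 380) (nat_lit 20698398587) (nat_lit 76) (nat_lit 35487694437) (nat_lit 81) (nat_lit 5) (nat_lit 86) (nat_lit 5) (nat_lit 82) (nat_lit 5) (nat_lit 420) (nat_lit 395) (nat_lit 205)) (XT.lf (nat_lit 0) (nat_lit 46351954214) (nat_lit 228) (nat_lit 36959462611) (nat_lit 304) (nat_lit 37218910143) (nat_lit 78) (nat_lit 5) (nat_lit 81) (nat_lit 5) (nat_lit 82) (nat_lit 5) (nat_lit 421) (nat_lit 395) (nat_lit 204))) (XT.nd (nat_lit 78) (nat_lit 304) (nat_lit 0) (XT.lf (nat_lit 0) (nat_lit 107422596720) (nat_lit 304) (nat_lit 6885506871) (nat_lit 76) (nat_lit 9882877950) (nat_lit 78) (nat_lit 5) (nat_lit 82) (nat_lit 5) (nat_lit 79) (nat_lit 5) (nat_lit 422) (nat_lit 395) (nat_lit 203)) (XT.lf (nat_lit 0) (nat_lit 6204994949) (nat_lit 304) (nat_lit 62799459283) (nat_lit 76) (nat_lit 58943996767) (nat_lit 74) (nat_lit 5) (nat_lit 78) (nat_lit 5)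 (nat_lit 75) (nat_lit 5) (nat_lit 423) (nat_lit 395) (nat_lit 202)))))) (XT.nd (nat_lit 546) (nat_lit 684) (nat_lit 0) (XT.nd (nat_lit 234) (nat_lit 456) (nat_lit 0) (XT.nd (nat_lit 78) (nat_lit 228) (nat_lit 0) (XT.lf (nat_lit 0) (nat_lit 9151838258) (nat_lit 228) (nat_lit 20872676446) (nat_lit 304) (nat_lit 101842484860) (nat_lit 71) (nat_lit 5) (nat_lit 74) (nat_lit 5) (nat_lit 75) (nat_lit 5) (nat_lit 424) (nat_lit 395) (nat_lit 201)) (XT.nd (nat_lit 78) (nat_lit 228) (nat_lit 0) (XT.lf (nat_lit 0) (nat_lit 56578749091) (nat_lit 304) (nat_lit 49528525792) (nat_lit 76) (nat_lit 29797013881) (nat_lit 71) (nat_lit 5) (nat_lit 75) (nat_lit 5) (nat_lit 72) (nat_lit 5) (nat_lit 425) (nat_lit 395) (nat_lit 200)) (XT.lf (nat_lit 0) (nat_lit 27866616360) (nat_lit 228) (nat_lit 57370948677) (nat_lit 304) (nat_lit 54867034026) (nat_lit 68) (nat_lit 5) (nat_lit 71) (nat_lit 5) (nat_lit 72) (nat_lit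 5) (nat_lit 426) (nat_lit 395) (nat_lit 199)))) (XT.nd (nat_lit 156) (nat_lit 228) (nat_lit 0) (XT.nd (nat_lit 78) (nat_lit 228) (nat_lit 0) (XT.lf (nat_lit 0) (nat_lit 110850487295) (nat_lit 228) (nat_lit 5317252488) (nat_lit 304) (nat_lit 28305264322) (nat_lit 68) (nat_lit 5) (nat_lit 71) (nat_lit 5) (nat_lit 72) (nat_lit 5) (nat_lit 427) (nat_lit 395) (nat_lit 198)) (XT.lf (nat_lit 0) (nat_lit 1169868550) (nat_lit 228) (nat_lit 99256351732) (nat_lit 76) (nat_lit 48555334558) (nat_lit 65) (nat_lit 5) (nat_lit 68) (nat_lit 5) (nat_lit 66) (nat_lit 5) (nat_lit 428) (nat_lit 395) (nat_lit 197))) (XT.nd (nat_lit 78) (nat_lit 228) (nat_lit 0) (XT.lf (nat_lit 0) (nat_lit 31833078357) (nat_lit 228) (nat_lit 15840518213) (nat_lit 76) (nat_lit 105985457477) (nat_lit 65) (nat_lit 5) (nat_lit 68) (nat_lit 5) (nat_lit 66) (nat_lit 5) (nat_lit 429) (nat_lit 395) (nat_lit 196)) (XT.lf (nat_lit 0) (nat_lit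 65325745126) (nat_lit 304) (nat_lit 84534205210) (nat_lit 76) (nat_lit 8645663157) (nat_lit 62) (nat_lit 5) (nat_lit 66) (nat_lit 5) (nat_lit 63) (nat_lit 5) (nat_lit 430) (nat_lit 395) (nat_lit 195))))) (XT.nd (nat_lit 234) (nat_lit 304) (nat_lit 0) (XT.nd (nat_lit 78) (nat_lit 228) (nat_lit 0) (XT.lf (nat_lit 0) (nat_lit 4603686050) (nat_lit 152) (nat_lit 97015103339) (nat_lit 228) (nat_lit 61919424415) (nat_lit 60) (nat_lit 5) (nat_lit 62) (nat_lit 5) (nat_lit 63) (nat_lit 5) (nat_lit 431) (nat_lit 395) (nat_lit 194)) (XT.nd (nat_lit 78) (nat_lit 228) (nat_lit 0) (XT.lf (nat_lit 0) (nat_lit 101132797942) (nat_lit 152) (nat_lit 40024992082) (nat_lit 228) (nat_lit 27593088991) (nat_lit 60) (nat_lit 5) (nat_lit 62) (nat_lit 5) (nat_lit 63) (nat_lit 5) (nat_lit 432) (nat_lit 395) (nat_lit 193)) (XT.lf (nat_lit 0) (nat_lit 8951509328) (nat_lit 228) (nat_lit 145451937034) (nat_lit 76) (nat_lit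 19775515897) (nat_lit 57) (nat_lit 5) (nat_lit 60) (nat_lit 5) (nat_lit 58) (nat_lit 5) (nat_lit 433) (nat_lit 395) (nat_lit 192)))) (XT.nd (nat_lit 156) (nat_lit 152) (nat_lit 0) (XT.nd (nat_lit 78) (nat_lit 152) (nat_lit 0) (XT.lf (nat_lit 0) (nat_lit 48215785224) (nat_lit 228) (nat_lit 48712025782) (nat_lit 76) (nat_lit 82837033634) (nat_lit 57) (nat_lit 5) (nat_lit 60) (nat_lit 5) (nat_lit 58) (nat_lit 5) (nat_lit 434) (nat_lit 395) (nat_lit 191)) (XT.lf (nat_lit 0) (nat_lit 54612339537) (nat_lit 152) (nat_lit 35683292944) (nat_lit 228) (nat_lit 95291770860) (nat_lit 55) (nat_lit 5) (nat_lit 57) (nat_lit 5) (nat_lit 58) (nat_lit 5) (nat_lit 435) (nat_lit 395) (nat_lit 190))) (XT.nd (nat_lit 78) (nat_lit 152) (nat_lit 0) (XT.lf (nat_lit 0) (nat_lit 135764559798) (nat_lit 228) (nat_lit 27326644797) (nat_lit 76) (nat_lit 28545631070) (nat_lit 55) (nat_lit 5) (nat_lit 58) (nat_lit 5) (nat_lit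 56) (nat_lit 5) (nat_lit 436) (nat_lit 395) (nat_lit 189)) (XT.lf (nat_lit 0) (nat_lit 83594304547) (nat_lit 152) (nat_lit 101802465858) (nat_lit 228) (nat_lit 12497477422) (nat_lit 53) (nat_lit 5) (nat_lit 55) (nat_lit 5) (nat_lit 56) (nat_lit 5) (nat_lit 437) (nat_lit 395) (nat_lit 188))))))) (XT.nd (nat_lit 1014) (nat_lit 988) (nat_lit 0) (XT.nd (nat_lit 468) (nat_lit 532) (nat_lit 0) (XT.nd (nat_lit 234) (nat_lit 152) (nat_lit 0) (XT.nd (nat_lit 78) (nat_lit 304) (nat_lit 0) (XT.lf (nat_lit 0) (nat_lit 32458482459) (nat_lit 228) (nat_lit 3955358841) (nat_lit 76) (nat_lit 168001387190) (nat_lit 52) (nat_lit 5) (nat_lit 55) (nat_lit 5) (nat_lit 53) (nat_lit 5) (nat_lit 438) (nat_lit 395) (nat_lit 187)) (XT.nd (nat_lit 78) (nat_lit 152) (nat_lit 0) (XT.lf (nat_lit 0) (nat_lit 81579926058) (nat_lit 228) (nat_lit 96303775269) (nat_lit 76) (nat_lit 33251428940) (nat_lit 50) (nat_lit 5) (nat_lit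 53) (nat_lit 5) (nat_lit 51) (nat_lit 5) (nat_lit 439) (nat_lit 395) (nat_lit 186)) (XT.lf (nat_lit 0) (nat_lit 21599891599) (nat_lit 152) (nat_lit 112559558598) (nat_lit 228) (nat_lit 83981476575) (nat_lit 48) (nat_lit 5) (nat_lit 50) (nat_lit 5) (nat_lit 51) (nat_lit 5) (nat_lit 440) (nat_lit 395) (nat_lit 185)))) (XT.nd (nat_lit 78) (nat_lit 152) (nat_lit 0) (XT.lf (nat_lit 0) (nat_lit 148741757246) (nat_lit 152) (nat_lit 42256891126) (nat_lit 228) (nat_lit 34416829894) (nat_lit 48) (nat_lit 5) (nat_lit 50) (nat_lit 5) (nat_lit 51) (nat_lit 5) (nat_lit 441) (nat_lit 395) (nat_lit 184)) (XT.nd (nat_lit 78) (nat_lit 0) (nat_lit 0) (XT.lf (nat_lit 0) (nat_lit 18360748491) (nat_lit 152) (nat_lit 182982185799) (nat_lit 76) (nat_lit 31632121342) (nat_lit 46) (nat_lit 5) (nat_lit 48) (nat_lit 5) (nat_lit 47) (nat_lit 5) (nat_lit 442) (nat_lit 395) (nat_lit 183)) (XT.lf (nat_lit 0) (nat_lit 74632861421)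 (nat_lit 152) (nat_lit 56471615263) (nat_lit 76) (nat_lit 109679310374) (nat_lit 46) (nat_lit 5) (nat_lit 48) (nat_lit 5) (nat_lit 47) (nat_lit 5) (nat_lit 443) (nat_lit 395) (nat_lit 182))))) (XT.nd (nat_lit 234) (nat_lit 228) (nat_lit 0) (XT.nd (nat_lit 78) (nat_lit 152) (nat_lit 0) (XT.lf (nat_lit 0) (nat_lit 78889021171) (nat_lit 152) (nat_lit 56061006406) (nat_lit 228) (nat_lit 113971355145) (nat_lit 44) (nat_lit 5) (nat_lit 46) (nat_lit 5) (nat_lit 47) (nat_lit 5) (nat_lit 444) (nat_lit 395) (nat_lit 181)) (XT.nd (nat_lit 78) (nat_lit 152) (nat_lit 0) (XT.lf (nat_lit 0) (nat_lit 199609826840) (nat_lit 228) (nat_lit 34810818887) (nat_lit 76) (nat_lit 22978873745) (nat_lit 44) (nat_lit 5) (nat_lit 47) (nat_lit 5) (nat_lit 45) (nat_lit 4) (nat_lit 445) (nat_lit 395) (nat_lit 180)) (XT.lf (nat_lit 0) (nat_lit 3838331417) (nat_lit 152) (nat_lit 156466278746) (nat_lit 76) (nat_lit 105862229364)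 (nat_lit 42) (nat_lit 5) (nat_lit 44) (nat_lit 5) (nat_lit 43) (nat_lit 5) (nat_lit 446) (nat_lit 395) (nat_lit 179)))) (XT.nd (nat_lit 156) (nat_lit 76) (nat_lit 0) (XT.nd (nat_lit 78) (nat_lit 152) (nat_lit 0) (XT.lf (nat_lit 0) (nat_lit 67204629479) (nat_lit 152) (nat_lit 13654410578) (nat_lit 76) (nat_lit 194436167695) (nat_lit 42) (nat_lit 5) (nat_lit 44) (nat_lit 5) (nat_lit 43) (nat_lit 5) (nat_lit 447) (nat_lit 395) (nat_lit 178)) (XT.lf (nat_lit 0) (nat_lit 136013371454) (nat_lit 228) (nat_lit 144041774867) (nat_lit 76) (nat_lit 4711141650) (nat_lit 40) (nat_lit 5) (nat_lit 43) (nat_lit 5) (nat_lit 41) (nat_lit 4) (nat_lit 448) (nat_lit 395) (nat_lit 177))) (XT.nd (nat_lit 78) (nat_lit 0) (nat_lit 0) (XT.lf (nat_lit 0) (nat_lit 7507644853) (nat_lit 76) (nat_lit 202432508842) (nat_lit 152) (nat_lit 84686888385) (nat_lit 39) (nat_lit 5) (nat_lit 40) (nat_lit 5) (nat_lit 41) (nat_lit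 4) (nat_lit 449) (nat_lit 395) (nat_lit 176)) (XT.lf (nat_lit 0) (nat_lit 171634975688) (nat_lit 76) (nat_lit 118367515404) (nat_lit 152) (nat_lit 14856382029) (nat_lit 39) (nat_lit 5) (nat_lit 40) (nat_lit 5) (nat_lit 41) (nat_lit 4) (nat_lit 450) (nat_lit 395) (nat_lit 175)))))) (XT.nd (nat_lit 546) (nat_lit 380) (nat_lit 0) (XT.nd (nat_lit 234) (nat_lit 304) (nat_lit 0) (XT.nd (nat_lit 78) (nat_lit 76) (nat_lit 0) (XT.lf (nat_lit 0) (nat_lit 28360937709) (nat_lit 152) (nat_lit 28676045037) (nat_lit 228) (nat_lit 258497542415) (nat_lit 36) (nat_lit 5) (nat_lit 38) (nat_lit 5) (nat_lit 39) (nat_lit 5) (nat_lit 451) (nat_lit 395) (nat_lit 174)) (XT.nd (nat_lit 78) (nat_lit 76) (nat_lit 0) (XT.lf (nat_lit 0) (nat_lit 135341387357) (nat_lit 228) (nat_lit 125284430129) (nat_lit 76) (nat_lit 65940182810) (nat_lit 36) (nat_lit 5) (nat_lit 39) (nat_lit 5) (nat_lit 37) (nat_lit 4) (nat_lit 452)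 (nat_lit 395) (nat_lit 173)) (XT.lf (nat_lit 0) (nat_lit 45691149497) (nat_lit 76) (nat_lit 173053144569) (nat_lit 152) (nat_lit 119345591056) (nat_lit 35) (nat_lit 5) (nat_lit 36) (nat_lit 5) (nat_lit 37) (nat_lit 4) (nat_lit 453) (nat_lit 395) (nat_lit 172)))) (XT.nd (nat_lit 156) (nat_lit 76) (nat_lit 0) (XT.nd (nat_lit 78) (nat_lit 228) (nat_lit 0) (XT.lf (nat_lit 0) (nat_lit 229564767487) (nat_lit 76) (nat_lit 78874150512) (nat_lit 152) (nat_lit 41644967620) (nat_lit 35) (nat_lit 5) (nat_lit 36) (nat_lit 5) (nat_lit 37) (nat_lit 4) (nat_lit 454) (nat_lit 395) (nat_lit 171)) (XT.lf (nat_lit 0) (nat_lit 39957484888) (nat_lit 228) (nat_lit 301644640064) (nat_lit 76) (nat_lit 20979524443) (nat_lit 32) (nat_lit 5) (nat_lit 35) (nat_lit 5) (nat_lit 33) (nat_lit 4) (nat_lit 455) (nat_lit 395) (nat_lit 170))) (XT.nd (nat_lit 78) (nat_lit 76) (nat_lit 0) (XT.lf (nat_lit 0) (nat_lit 127607870574)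 (nat_lit 228) (nat_lit 121961661315) (nat_lit 76) (nat_lit 125932266546) (nat_lit 32) (nat_lit 5) (nat_lit 35) (nat_lit 5) (nat_lit 33) (nat_lit 4) (nat_lit 456) (nat_lit 395) (nat_lit 169)) (XT.lf (nat_lit 0) (nat_lit 68910731399) (nat_lit 76) (nat_lit 151805768331) (nat_lit 152) (nat_lit 168297669009) (nat_lit 31) (nat_lit 5) (nat_lit 32) (nat_lit 5) (nat_lit 33) (nat_lit 4) (nat_lit 457) (nat_lit 395) (nat_lit 168))))) (XT.nd (nat_lit 234) (nat_lit 228) (nat_lit 0) (XT.nd (nat_lit 78) (nat_lit 152) (nat_lit 0) (XT.lf (nat_lit 0) (nat_lit 273560673480) (nat_lit 76) (nat_lit 46985204294) (nat_lit 152) (nat_lit 82553013931) (nat_lit 31) (nat_lit 5) (nat_lit 32) (nat_lit 5) (nat_lit 33) (nat_lit 4) (nat_lit 458) (nat_lit 395) (nat_lit 167)) (XT.nd (nat_lit 78) (nat_lit 0) (nat_lit 0) (XT.lf (nat_lit 0) (nat_lit 9380781939) (nat_lit 152) (nat_lit 346063345019) (nat_lit 76) (nat_lit 62330821635)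 (nat_lit 29) (nat_lit 5) (nat_lit 31) (nat_lit 5) (nat_lit 30) (nat_lit 4) (nat_lit 459) (nat_lit 395) (nat_lit 166)) (XT.lf (nat_lit 0) (nat_lit 106136794173) (nat_lit 152) (nat_lit 147713764328) (nat_lit 76) (nat_lit 179116590979) (nat_lit 29) (nat_lit 5) (nat_lit 31) (nat_lit 5) (nat_lit 30) (nat_lit 4) (nat_lit 460) (nat_lit 395) (nat_lit 165)))) (XT.nd (nat_lit 156) (nat_lit 152) (nat_lit 0) (XT.nd (nat_lit 78) (nat_lit 0) (nat_lit 0) (XT.lf (nat_lit 0) (nat_lit 62555170212) (nat_lit 76) (nat_lit 146151949469) (nat_lit 152) (nat_lit 240163015114) (nat_lit 28) (nat_lit 5) (nat_lit 29) (nat_lit 5) (nat_lit 30) (nat_lit 4) (nat_lit 461) (nat_lit 395) (nat_lit 164)) (XT.lf (nat_lit 0) (nat_lit 288465563070) (nat_lit 76) (nat_lit 30441856379) (nat_lit 152) (nat_lit 146535777042) (nat_lit 28) (nat_lit 5) (nat_lit 29) (nat_lit 5) (nat_lit 30) (nat_lit 4) (nat_lit 462) (nat_lit 395) (nat_lit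 163))) (XT.nd (nat_lit 78) (nat_lit 76) (nat_lit 0) (XT.lf (nat_lit 0) (nat_lit 42773717703) (nat_lit 76) (nat_lit 393933297116) (nat_lit 76) (nat_lit 46033432437) (nat_lit 27) (nat_lit 4) (nat_lit 28) (nat_lit 5) (nat_lit 28) (nat_lit 4) (nat_lit 463) (nat_lit 395) (nat_lit 162)) (XT.lf (nat_lit 0) (nat_lit 61135091282) (nat_lit 152) (nat_lit 222573119035) (nat_lit 76) (nat_lit 216970644711) (nat_lit 26) (nat_lit 5) (nat_lit 28) (nat_lit 5) (nat_lit 27) (nat_lit 4) (nat_lit 464) (nat_lit 395) (nat_lit 161))))))))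
noncomputable def xc213 : XT := (XT.nd (nat_lit 48984) (nat_lit 0) (nat_lit 2584) (XT.nd (nat_lit 47892) (nat_lit 0) (nat_lit 6308) (XT.nd (nat_lit 468) (nat_lit 228) (nat_lit 0) (XT.nd (nat_lit 234) (nat_lit 228) (nat_lit 0) (XT.nd (nat_lit 78) (nat_lit 0) (nat_lit 0) (XT.lf (nat_lit 0) (nat_lit 5098451734) (nat_lit 76) (nat_lit 167096031321) (nat_lit 152) (nat_lit 347277994470) (nat_lit 25) (nat_lit 5) (nat_lit 26) (nat_lit 5) (nat_lit 27) (nat_lit 4) (nat_lit 465) (nat_lit 395) (nat_lit 160)) (XT.nd (nat_lit 78) (nat_lit 0) (nat_lit 0) (XT.lf (nat_lit 0) (nat_lit 251880585145) (nat_lit 76) (nat_lit 40695511126) (nat_lit 152) (nat_lit 246441222297) (nat_lit 25) (nat_lit 5) (nat_lit 26) (nat_lit 5) (nat_lit 27) (nat_lit 4) (nat_lit 466) (nat_lit 395) (nat_lit 159)) (XT.lf (nat_lit 0) (nat_lit 420413431709) (nat_lit 152) (nat_lit 49974589628) (nat_lit 0) (nat_lit 89079548259) (nat_lit 25)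 (nat_lit 5) (nat_lit 27) (nat_lit 4) (nat_lit 25) (nat_lit 4) (nat_lit 467) (nat_lit 395) (nat_lit 158)))) (XT.nd (nat_lit 78) (nat_lit 152) (nat_lit 0) (XT.lf (nat_lit 0) (nat_lit 204937571113) (nat_lit 76) (nat_lit 353571731072) (nat_lit 76) (nat_lit 22237697588) (nat_lit 24) (nat_lit 4) (nat_lit 25) (nat_lit 5) (nat_lit 25) (nat_lit 4) (nat_lit 468) (nat_lit 395) (nat_lit 157)) (XT.nd (nat_lit 78) (nat_lit 76) (nat_lit 0) (XT.lf (nat_lit 0) (nat_lit 98065609014) (nat_lit 152) (nat_lit 130299677891) (nat_lit 76) (nat_lit 374603718148) (nat_lit 23) (nat_lit 5) (nat_lit 25) (nat_lit 5) (nat_lit 24) (nat_lit 4) (nat_lit 469) (nat_lit 395) (nat_lit 156)) (XT.lf (nat_lit 0) (nat_lit 131323973273) (nat_lit 76) (nat_lit 94362995375) (nat_lit 152) (nat_lit 400494403330) (nat_lit 22) (nat_lit 5) (nat_lit 23) (nat_lit 5) (nat_lit 24) (nat_lit 4) (nat_lit 470) (nat_lit 395) (nat_lit 155))))) (XT.nd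 (nat_lit 234) (nat_lit 152) (nat_lit 0) (XT.nd (nat_lit 78) (nat_lit 76) (nat_lit 0) (XT.lf (nat_lit 0) (nat_lit 362655632967) (nat_lit 152) (nat_lit 240651390974) (nat_lit 0) (nat_lit 47099021481) (nat_lit 22) (nat_lit 5) (nat_lit 24) (nat_lit 4) (nat_lit 22) (nat_lit 4) (nat_lit 471) (nat_lit 395) (nat_lit 154)) (XT.nd (nat_lit 78) (nat_lit 0) (nat_lit 0) (XT.lf (nat_lit 0) (nat_lit 25535052084) (nat_lit 76) (nat_lit 482883177281) (nat_lit 76) (nat_lit 167326448240) (nat_lit 21) (nat_lit 4) (nat_lit 22) (nat_lit 5) (nat_lit 22) (nat_lit 4) (nat_lit 472) (nat_lit 395) (nat_lit 153)) (XT.lf (nat_lit 0) (nat_lit 313385481757) (nat_lit 76) (nat_lit 352158914310) (nat_lit 76) (nat_lit 36602073312) (nat_lit 21) (nat_lit 4) (nat_lit 22) (nat_lit 5) (nat_lit 22) (nat_lit 4) (nat_lit 473) (nat_lit 395) (nat_lit 152)))) (XT.nd (nat_lit 47034) (nat_lit 0) (nat_lit 7524) (XT.nd (nat_lit 78) (nat_lit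 76) (nat_lit 0) (XT.lf (nat_lit 0) (nat_lit 97436715244) (nat_lit 152) (nat_lit 115811681371) (nat_lit 76) (nat_lit 516541381247) (nat_lit 20) (nat_lit 5) (nat_lit 22) (nat_lit 5) (nat_lit 21) (nat_lit 4) (nat_lit 474) (nat_lit 395) (nat_lit 151)) (XT.lf (nat_lit 0) (nat_lit 175811944053) (nat_lit 76) (nat_lit 63880247763) (nat_lit 152) (nat_lit 518955817349) (nat_lit 19) (nat_lit 5) (nat_lit 20) (nat_lit 5) (nat_lit 21) (nat_lit 4) (nat_lit 475) (nat_lit 395) (nat_lit 150))) (XT.nd (nat_lit 78) (nat_lit 0) (nat_lit 0) (XT.lf (nat_lit 0) (nat_lit 8646096144) (nat_lit 836) (nat_lit 11303830719) (nat_lit 836) (nat_lit 11303830719) (nat_lit 118) (nat_lit 3) (nat_lit 129) (nat_lit 3) (nat_lit 129) (nat_lit 5) (nat_lit 396) (nat_lit 396) (nat_lit 228)) (XT.lf (nat_lit 76) (nat_lit 8018172026) (nat_lit 0) (nat_lit 9847854688) (nat_lit 836) (nat_lit 46197090910) (nat_lit 119) (nat_lit 5) (nat_lit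 118) (nat_lit 3) (nat_lit 129) (nat_lit 5) (nat_lit 397) (nat_lit 396) (nat_lit 227)))))) (XT.nd (nat_lit 546) (nat_lit 1292) (nat_lit 0) (XT.nd (nat_lit 234) (nat_lit 0) (nat_lit 76) (XT.nd (nat_lit 78) (nat_lit 0) (nat_lit 0) (XT.lf (nat_lit 0) (nat_lit 19195556803) (nat_lit 760) (nat_lit 25062980837) (nat_lit 836) (nat_lit 21401612941) (nat_lit 119) (nat_lit 5) (nat_lit 129) (nat_lit 5) (nat_lit 130) (nat_lit 5) (nat_lit 398) (nat_lit 396) (nat_lit 226)) (XT.nd (nat_lit 78) (nat_lit 0) (nat_lit 76) (XT.lf (nat_lit 76) (nat_lit 7547614002) (nat_lit 0) (nat_lit 13322231477) (nat_lit 836) (nat_lit 46453276148) (nat_lit 120) (nat_lit 5) (nat_lit 119) (nat_lit 5) (nat_lit 130) (nat_lit 5) (nat_lit 399) (nat_lit 396) (nat_lit 225)) (XT.lf (nat_lit 0) (nat_lit 23357462269) (nat_lit 760) (nat_lit 26695906613) (nat_lit 836) (nat_lit 18979392178) (nat_lit 120) (nat_lit 5) (nat_lit 130) (nat_lit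 5) (nat_lit 131) (nat_lit 5) (nat_lit 400) (nat_lit 396) (nat_lit 224)))) (XT.nd (nat_lit 156) (nat_lit 0) (nat_lit 76) (XT.nd (nat_lit 78) (nat_lit 0) (nat_lit 76) (XT.lf (nat_lit 76) (nat_lit 8077184898) (nat_lit 0) (nat_lit 18235871657) (nat_lit 836) (nat_lit 44497646572) (nat_lit 121) (nat_lit 5) (nat_lit 120) (nat_lit 5) (nat_lit 131) (nat_lit 5) (nat_lit 401) (nat_lit 396) (nat_lit 223)) (XT.lf (nat_lit 0) (nat_lit 30111965507) (nat_lit 760) (nat_lit 27384132384) (nat_lit 836) (nat_lit 15146668128) (nat_lit 121) (nat_lit 5) (nat_lit 131) (nat_lit 5) (nat_lit 132) (nat_lit 5) (nat_lit 402) (nat_lit 396) (nat_lit 222))) (XT.nd (nat_lit 78) (nat_lit 0) (nat_lit 76) (XT.lf (nat_lit 76) (nat_lit 9745056499) (nat_lit 0) (nat_lit 24806031189) (nat_lit 836) (nat_lit 39992831428) (nat_lit 122) (nat_lit 5) (nat_lit 121) (nat_lit 5) (nat_lit 132) (nat_lit 5) (nat_lit 403) (nat_lit 396) (nat_lit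 221)) (XT.lf (nat_lit 0) (nat_lit 39831347554) (nat_lit 760) (nat_lit 26992388872) (nat_lit 836) (nat_lit 9685434790) (nat_lit 122) (nat_lit 5) (nat_lit 132) (nat_lit 5) (nat_lit 133) (nat_lit 5) (nat_lit 404) (nat_lit 396) (nat_lit 220))))) (XT.nd (nat_lit 234) (nat_lit 836) (nat_lit 0) (XT.nd (nat_lit 78) (nat_lit 684) (nat_lit 0) (XT.lf (nat_lit 76) (nat_lit 12703728579) (nat_lit 0) (nat_lit 33276131074) (nat_lit 836) (nat_lit 32562614712) (nat_lit 123) (nat_lit 5) (nat_lit 122) (nat_lit 5) (nat_lit 133) (nat_lit 5) (nat_lit 405) (nat_lit 396) (nat_lit 219)) (XT.nd (nat_lit 78) (nat_lit 760) (nat_lit 0) (XT.lf (nat_lit 0) (nat_lit 52930118095) (nat_lit 760) (nat_lit 25371391674) (nat_lit 76) (nat_lit 2351217253) (nat_lit 123) (nat_lit 5) (nat_lit 133) (nat_lit 5) (nat_lit 124) (nat_lit 5) (nat_lit 406) (nat_lit 396) (nat_lit 218)) (XT.lf (nat_lit 0) (nat_lit 17121184478) (nat_lit 760)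 (nat_lit 43918830300) (nat_lit 836) (nat_lit 21787871637) (nat_lit 113) (nat_lit 5) (nat_lit 123) (nat_lit 5) (nat_lit 124) (nat_lit 5) (nat_lit 407) (nat_lit 396) (nat_lit 217)))) (XT.nd (nat_lit 156) (nat_lit 456) (nat_lit 0) (XT.nd (nat_lit 78) (nat_lit 380) (nat_lit 0) (XT.lf (nat_lit 0) (nat_lit 62618616725) (nat_lit 760) (nat_lit 7365795224) (nat_lit 836) (nat_lit 15105941897) (nat_lit 113) (nat_lit 5) (nat_lit 123) (nat_lit 5) (nat_lit 124) (nat_lit 5) (nat_lit 408) (nat_lit 396) (nat_lit 216)) (XT.lf (nat_lit 0) (nat_lit 23182104382) (nat_lit 380) (nat_lit 57039453316) (nat_lit 456) (nat_lit 7202110850) (nat_lit 108) (nat_lit 5) (nat_lit 113) (nat_lit 5) (nat_lit 114) (nat_lit 5) (nat_lit 409) (nat_lit 396) (nat_lit 215))) (XT.nd (nat_lit 78) (nat_lit 380) (nat_lit 0) (XT.lf (nat_lit 0) (nat_lit 1568735307) (nat_lit 456) (nat_lit 18100555463) (nat_lit 76) (nat_lit 70178155645) (nat_lit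 107) (nat_lit 5) (nat_lit 113) (nat_lit 5) (nat_lit 108) (nat_lit 5) (nat_lit 410) (nat_lit 396) (nat_lit 214)) (XT.lf (nat_lit 0) (nat_lit 11338510962) (nat_lit 456) (nat_lit 61449280526) (nat_lit 76) (nat_lit 19558597342) (nat_lit 102) (nat_lit 5) (nat_lit 108) (nat_lit 5) (nat_lit 103) (nat_lit 5) (nat_lit 411) (nat_lit 396) (nat_lit 213))))))) (XT.nd (nat_lit 1014) (nat_lit 1596) (nat_lit 0) (XT.nd (nat_lit 468) (nat_lit 1140) (nat_lit 0) (XT.nd (nat_lit 234) (nat_lit 608) (nat_lit 0) (XT.nd (nat_lit 78) (nat_lit 380) (nat_lit 0) (XT.lf (nat_lit 0) (nat_lit 22230211076) (nat_lit 456) (nat_lit 12309973405) (nat_lit 76) (nat_lit 60398422374) (nat_lit 102) (nat_lit 5) (nat_lit 108) (nat_lit 5) (nat_lit 103) (nat_lit 5) (nat_lit 412) (nat_lit 396) (nat_lit 212)) (XT.nd (nat_lit 78) (nat_lit 0) (nat_lit 0) (XT.lf (nat_lit 0) (nat_lit 34397713514) (nat_lit 456) (nat_lit 57142233125) (nat_lit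 76) (nat_lit 6083928538) (nat_lit 97) (nat_lit 5) (nat_lit 103) (nat_lit 5) (nat_lit 98) (nat_lit 5) (nat_lit 413) (nat_lit 396) (nat_lit 211)) (XT.lf (nat_lit 0) (nat_lit 47951182075) (nat_lit 456) (nat_lit 4663023218) (nat_lit 76) (nat_lit 47790322322) (nat_lit 97) (nat_lit 5) (nat_lit 103) (nat_lit 5) (nat_lit 98) (nat_lit 5) (nat_lit 414) (nat_lit 396) (nat_lit 210)))) (XT.nd (nat_lit 78) (nat_lit 304) (nat_lit 0) (XT.lf (nat_lit 0) (nat_lit 52107333291) (nat_lit 304) (nat_lit 10888023212) (nat_lit 380) (nat_lit 40288204789) (nat_lit 93) (nat_lit 5) (nat_lit 97) (nat_lit 5) (nat_lit 98) (nat_lit 5) (nat_lit 415) (nat_lit 396) (nat_lit 209)) (XT.nd (nat_lit 78) (nat_lit 0) (nat_lit 0) (XT.lf (nat_lit 0) (nat_lit 5226865134) (nat_lit 304) (nat_lit 74240294152) (nat_lit 380) (nat_lit 26805616611) (nat_lit 89) (nat_lit 5) (nat_lit 93) (nat_lit 5) (nat_lit 94) (nat_lit 5) (nat_lit 416) (nat_lit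 396) (nat_lit 208)) (XT.lf (nat_lit 0) (nat_lit 66041863041) (nat_lit 304) (nat_lit 31762516399) (nat_lit 380) (nat_lit 11554980646) (nat_lit 89) (nat_lit 5) (nat_lit 93) (nat_lit 5) (nat_lit 94) (nat_lit 5) (nat_lit 417) (nat_lit 396) (nat_lit 207))))) (XT.nd (nat_lit 234) (nat_lit 532) (nat_lit 0) (XT.nd (nat_lit 78) (nat_lit 304) (nat_lit 0) (XT.lf (nat_lit 0) (nat_lit 4799039365) (nat_lit 304) (nat_lit 94992300016) (nat_lit 76) (nat_lit 12781276957) (nat_lit 85) (nat_lit 5) (nat_lit 89) (nat_lit 5) (nat_lit 86) (nat_lit 5) (nat_lit 418) (nat_lit 396) (nat_lit 206)) (XT.nd (nat_lit 78) (nat_lit 304) (nat_lit 0) (XT.lf (nat_lit 0) (nat_lit 22848310013) (nat_lit 304) (nat_lit 33605677382) (nat_lit 76) (nat_lit 59419783258) (nat_lit 85) (nat_lit 5) (nat_lit 89) (nat_lit 5) (nat_lit 86) (nat_lit 5) (nat_lit 419) (nat_lit 396) (nat_lit 205)) (XT.lf (nat_lit 0) (nat_lit 31869756195) (nat_lit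 304) (nat_lit 10427432510) (nat_lit 380) (nat_lit 77017936931) (nat_lit 81) (nat_lit 5) (nat_lit 85) (nat_lit 5) (nat_lit 86) (nat_lit 5) (nat_lit 420) (nat_lit 396) (nat_lit 204)))) (XT.nd (nat_lit 156) (nat_lit 304) (nat_lit 0) (XT.nd (nat_lit 78) (nat_lit 228) (nat_lit 0) (XT.lf (nat_lit 0) (nat_lit 63888280428) (nat_lit 380) (nat_lit 21716041229) (nat_lit 76) (nat_lit 37265738427) (nat_lit 81) (nat_lit 5) (nat_lit 86) (nat_lit 5) (nat_lit 82) (nat_lit 5) (nat_lit 421) (nat_lit 396) (nat_lit 203)) (XT.lf (nat_lit 0) (nat_lit 48686550546) (nat_lit 228) (nat_lit 38803049748) (nat_lit 304) (nat_lit 39066607443) (nat_lit 78) (nat_lit 5) (nat_lit 81) (nat_lit 5) (nat_lit 82) (nat_lit 5) (nat_lit 422) (nat_lit 396) (nat_lit 202))) (XT.nd (nat_lit 78) (nat_lit 304) (nat_lit 0) (XT.lf (nat_lit 0) (nat_lit 112805803799) (nat_lit 304) (nat_lit 7213052954) (nat_lit 76) (nat_lit 10381065290) (nat_lit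 78) (nat_lit 5) (nat_lit 82) (nat_lit 5) (nat_lit 79) (nat_lit 5) (nat_lit 423) (nat_lit 396) (nat_lit 201)) (XT.lf (nat_lit 0) (nat_lit 6527200928) (nat_lit 304) (nat_lit 65922573210) (nat_lit 76) (nat_lit 61895497324) (nat_lit 74) (nat_lit 5) (nat_lit 78) (nat_lit 5) (nat_lit 75) (nat_lit 5) (nat_lit 424) (nat_lit 396) (nat_lit 200)))))) (XT.nd (nat_lit 546) (nat_lit 684) (nat_lit 0) (XT.nd (nat_lit 234) (nat_lit 456) (nat_lit 0) (XT.nd (nat_lit 78) (nat_lit 228) (nat_lit 0) (XT.lf (nat_lit 0) (nat_lit 9626017288) (nat_lit 228) (nat_lit 21911369010) (nat_lit 304) (nat_lit 106922376880) (nat_lit 71) (nat_lit 5) (nat_lit 74) (nat_lit 5) (nat_lit 75) (nat_lit 5) (nat_lit 425) (nat_lit 396) (nat_lit 199)) (XT.nd (nat_lit 78) (nat_lit 228) (nat_lit 0) (XT.lf (nat_lit 0) (nat_lit 59418851313) (nat_lit 304) (nat_lit 51988669857) (nat_lit 76) (nat_lit 31291419915) (nat_lit 71) (nat_lit 5) (nat_lit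 75) (nat_lit 5) (nat_lit 72) (nat_lit 5) (nat_lit 426) (nat_lit 396) (nat_lit 198)) (XT.lf (nat_lit 0) (nat_lit 29275966786) (nat_lit 228) (nat_lit 60234359726) (nat_lit 304) (nat_lit 57598954651) (nat_lit 68) (nat_lit 5) (nat_lit 71) (nat_lit 5) (nat_lit 72) (nat_lit 5) (nat_lit 427) (nat_lit 396) (nat_lit 197)))) (XT.nd (nat_lit 156) (nat_lit 228) (nat_lit 0) (XT.nd (nat_lit 78) (nat_lit 228) (nat_lit 0) (XT.lf (nat_lit 0) (nat_lit 116408268429) (nat_lit 228) (nat_lit 5578223317) (nat_lit 304) (nat_lit 29709640798) (nat_lit 68) (nat_lit 5) (nat_lit 71) (nat_lit 5) (nat_lit 72) (nat_lit 5) (nat_lit 428) (nat_lit 396) (nat_lit 196)) (XT.lf (nat_lit 0) (nat_lit 1238717535) (nat_lit 228) (nat_lit 104203374827) (nat_lit 76) (nat_lit 50988019252) (nat_lit 65) (nat_lit 5) (nat_lit 68) (nat_lit 5) (nat_lit 66) (nat_lit 5) (nat_lit 429) (nat_lit 396) (nat_lit 195))) (XT.nd (nat_lit 78) (nat_lit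 228) (nat_lit 0) (XT.lf (nat_lit 0) (nat_lit 33434594711) (nat_lit 228) (nat_lit 16617501750) (nat_lit 76) (nat_lit 111289414128) (nat_lit 65) (nat_lit 5) (nat_lit 68) (nat_lit 5) (nat_lit 66) (nat_lit 5) (nat_lit 430) (nat_lit 396) (nat_lit 194)) (XT.lf (nat_lit 0) (nat_lit 68601737054) (nat_lit 304) (nat_lit 88745712440) (nat_lit 76) (nat_lit 9082956547) (nat_lit 62) (nat_lit 5) (nat_lit 66) (nat_lit 5) (nat_lit 63) (nat_lit 5) (nat_lit 431) (nat_lit 396) (nat_lit 193))))) (XT.nd (nat_lit 234) (nat_lit 304) (nat_lit 0) (XT.nd (nat_lit 78) (nat_lit 228) (nat_lit 0) (XT.lf (nat_lit 0) (nat_lit 4848828174) (nat_lit 152) (nat_lit 101860376763) (nat_lit 228) (nat_lit 65005442998) (nat_lit 60) (nat_lit 5) (nat_lit 62) (nat_lit 5) (nat_lit 63) (nat_lit 5) (nat_lit 432) (nat_lit 396) (nat_lit 192)) (XT.nd (nat_lit 78) (nat_lit 228) (nat_lit 0) (XT.lf (nat_lit 0) (nat_lit 106203683383) (nat_lit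 152) (nat_lit 42021020979) (nat_lit 228) (nat_lit 28963264737) (nat_lit 60) (nat_lit 5) (nat_lit 62) (nat_lit 5) (nat_lit 63) (nat_lit 5) (nat_lit 433) (nat_lit 396) (nat_lit 191)) (XT.lf (nat_lit 0) (nat_lit 9408130326) (nat_lit 228) (nat_lit 152709850291) (nat_lit 76) (nat_lit 20769475097) (nat_lit 57) (nat_lit 5) (nat_lit 60) (nat_lit 5) (nat_lit 58) (nat_lit 5) (nat_lit 434) (nat_lit 396) (nat_lit 190)))) (XT.nd (nat_lit 156) (nat_lit 152) (nat_lit 0) (XT.nd (nat_lit 78) (nat_lit 152) (nat_lit 0) (XT.lf (nat_lit 0) (nat_lit 50635189278) (nat_lit 228) (nat_lit 51133642695) (nat_lit 76) (nat_lit 86983821892) (nat_lit 57) (nat_lit 5) (nat_lit 60) (nat_lit 5) (nat_lit 58) (nat_lit 5) (nat_lit 435) (nat_lit 396) (nat_lit 189)) (XT.lf (nat_lit 0) (nat_lit 57356715335) (nat_lit 152) (nat_lit 37462118147) (nat_lit 228) (nat_lit 100047516896) (nat_lit 55) (nat_lit 5) (nat_lit 57) (nat_lit 5) (nat_lit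 58) (nat_lit 5) (nat_lit 436) (nat_lit 396) (nat_lit 188))) (XT.nd (nat_lit 78) (nat_lit 152) (nat_lit 0) (XT.lf (nat_lit 0) (nat_lit 142560885637) (nat_lit 228) (nat_lit 28679549811) (nat_lit 76) (nat_lit 29977835050) (nat_lit 55) (nat_lit 5) (nat_lit 58) (nat_lit 5) (nat_lit 56) (nat_lit 5) (nat_lit 437) (nat_lit 396) (nat_lit 187)) (XT.lf (nat_lit 0) (nat_lit 87787230432) (nat_lit 152) (nat_lit 106887296987) (nat_lit 228) (nat_lit 13114034917) (nat_lit 53) (nat_lit 5) (nat_lit 55) (nat_lit 5) (nat_lit 56) (nat_lit 5) (nat_lit 438) (nat_lit 396) (nat_lit 186))))))))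
noncomputable def xc214 : XT := (XT.nd (nat_lit 2106) (nat_lit 380) (nat_lit 0) (XT.nd (nat_lit 1014) (nat_lit 988) (nat_lit 0) (XT.nd (nat_lit 468) (nat_lit 532) (nat_lit 0) (XT.nd (nat_lit 234) (nat_lit 152) (nat_lit 0) (XT.nd (nat_lit 78) (nat_lit 304) (nat_lit 0) (XT.lf (nat_lit 0) (nat_lit 34089073439) (nat_lit 228) (nat_lit 4140289928) (nat_lit 76) (nat_lit 176406241428) (nat_lit 52) (nat_lit 5) (nat_lit 55) (nat_lit 5) (nat_lit 53) (nat_lit 5) (nat_lit 439) (nat_lit 396) (nat_lit 185)) (XT.nd (nat_lit 78) (nat_lit 152) (nat_lit 0) (XT.lf (nat_lit 0) (nat_lit 85666501424) (nat_lit 228) (nat_lit 101106037690) (nat_lit 76) (nat_lit 34918967021) (nat_lit 50) (nat_lit 5) (nat_lit 53) (nat_lit 5) (nat_lit 51) (nat_lit 5) (nat_lit 440) (nat_lit 396) (nat_lit 184)) (XT.lf (nat_lit 0) (nat_lit 22692604032) (nat_lit 152) (nat_lit 118182235391) (nat_lit 228) (nat_lit 88172761240) (nat_lit 48)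 (nat_lit 5) (nat_lit 50) (nat_lit 5) (nat_lit 51) (nat_lit 5) (nat_lit 441) (nat_lit 396) (nat_lit 183)))) (XT.nd (nat_lit 78) (nat_lit 152) (nat_lit 0) (XT.lf (nat_lit 0) (nat_lit 156190957349) (nat_lit 152) (nat_lit 44364686980) (nat_lit 228) (nat_lit 36130253138) (nat_lit 48) (nat_lit 5) (nat_lit 50) (nat_lit 5) (nat_lit 51) (nat_lit 5) (nat_lit 442) (nat_lit 396) (nat_lit 182)) (XT.nd (nat_lit 78) (nat_lit 0) (nat_lit 0) (XT.lf (nat_lit 0) (nat_lit 19285894507) (nat_lit 152) (nat_lit 192118870335) (nat_lit 76) (nat_lit 33218686750) (nat_lit 46) (nat_lit 5) (nat_lit 48) (nat_lit 5) (nat_lit 47) (nat_lit 5) (nat_lit 443) (nat_lit 396) (nat_lit 181)) (XT.lf (nat_lit 0) (nat_lit 78371274580) (nat_lit 152) (nat_lit 59283362927) (nat_lit 76) (nat_lit 115167999074) (nat_lit 46) (nat_lit 5) (nat_lit 48) (nat_lit 5) (nat_lit 47) (nat_lit 5) (nat_lit 444) (nat_lit 396) (nat_lit 180))))) (XT.nd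 (nat_lit 234) (nat_lit 228) (nat_lit 0) (XT.nd (nat_lit 78) (nat_lit 152) (nat_lit 0) (XT.lf (nat_lit 0) (nat_lit 82845114472) (nat_lit 152) (nat_lit 58859043955) (nat_lit 228) (nat_lit 119662960696) (nat_lit 44) (nat_lit 5) (nat_lit 46) (nat_lit 5) (nat_lit 47) (nat_lit 5) (nat_lit 445) (nat_lit 396) (nat_lit 179)) (XT.nd (nat_lit 78) (nat_lit 152) (nat_lit 0) (XT.lf (nat_lit 0) (nat_lit 209596706499) (nat_lit 228) (nat_lit 36540029626) (nat_lit 76) (nat_lit 24132438701) (nat_lit 44) (nat_lit 5) (nat_lit 47) (nat_lit 5) (nat_lit 45) (nat_lit 4) (nat_lit 446) (nat_lit 396) (nat_lit 178)) (XT.lf (nat_lit 0) (nat_lit 4036609845) (nat_lit 152) (nat_lit 164278233781) (nat_lit 76) (nat_lit 111160018695) (nat_lit 42) (nat_lit 5) (nat_lit 44) (nat_lit 5) (nat_lit 43) (nat_lit 5) (nat_lit 447) (nat_lit 396) (nat_lit 177)))) (XT.nd (nat_lit 156) (nat_lit 76) (nat_lit 0) (XT.nd (nat_lit 78) (nat_lit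 152) (nat_lit 0) (XT.lf (nat_lit 0) (nat_lit 70570919864) (nat_lit 152) (nat_lit 14326313105) (nat_lit 76) (nat_lit 204162431186) (nat_lit 42) (nat_lit 5) (nat_lit 44) (nat_lit 5) (nat_lit 43) (nat_lit 5) (nat_lit 448) (nat_lit 396) (nat_lit 176)) (XT.lf (nat_lit 0) (nat_lit 142820050083) (nat_lit 228) (nat_lit 151232995764) (nat_lit 76) (nat_lit 4951255033) (nat_lit 40) (nat_lit 5) (nat_lit 43) (nat_lit 5) (nat_lit 41) (nat_lit 4) (nat_lit 449) (nat_lit 396) (nat_lit 175))) (XT.nd (nat_lit 78) (nat_lit 0) (nat_lit 0) (XT.lf (nat_lit 0) (nat_lit 7893719655) (nat_lit 76) (nat_lit 212549332527) (nat_lit 152) (nat_lit 88915046519) (nat_lit 39) (nat_lit 5) (nat_lit 40) (nat_lit 5) (nat_lit 41) (nat_lit 4) (nat_lit 450) (nat_lit 396) (nat_lit 174)) (XT.lf (nat_lit 0) (nat_lit 180226907862) (nat_lit 76) (nat_lit 124281318073) (nat_lit 152) (nat_lit 15593309430) (nat_lit 39) (nat_lit 5) (nat_lit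 40) (nat_lit 5) (nat_lit 41) (nat_lit 4) (nat_lit 451) (nat_lit 396) (nat_lit 173)))))) (XT.nd (nat_lit 546) (nat_lit 380) (nat_lit 0) (XT.nd (nat_lit 234) (nat_lit 304) (nat_lit 0) (XT.nd (nat_lit 78) (nat_lit 76) (nat_lit 0) (XT.lf (nat_lit 0) (nat_lit 29789190107) (nat_lit 152) (nat_lit 30105232665) (nat_lit 228) (nat_lit 271416548289) (nat_lit 36) (nat_lit 5) (nat_lit 38) (nat_lit 5) (nat_lit 39) (nat_lit 5) (nat_lit 452) (nat_lit 396) (nat_lit 172)) (XT.nd (nat_lit 78) (nat_lit 76) (nat_lit 0) (XT.lf (nat_lit 0) (nat_lit 142113849997) (nat_lit 228) (nat_lit 131538733709) (nat_lit 76) (nat_lit 69241446167) (nat_lit 36) (nat_lit 5) (nat_lit 39) (nat_lit 5) (nat_lit 37) (nat_lit 4) (nat_lit 453) (nat_lit 396) (nat_lit 171)) (XT.lf (nat_lit 0) (nat_lit 47985464932) (nat_lit 76) (nat_lit 181701332635) (nat_lit 152) (nat_lit 125307316632) (nat_lit 35) (nat_lit 5) (nat_lit 36) (nat_lit 5) (nat_lit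 37) (nat_lit 4) (nat_lit 454) (nat_lit 396) (nat_lit 170)))) (XT.nd (nat_lit 156) (nat_lit 76) (nat_lit 0) (XT.nd (nat_lit 78) (nat_lit 228) (nat_lit 0) (XT.lf (nat_lit 0) (nat_lit 241052299157) (nat_lit 76) (nat_lit 82813601693) (nat_lit 152) (nat_lit 43721926500) (nat_lit 35) (nat_lit 5) (nat_lit 36) (nat_lit 5) (nat_lit 37) (nat_lit 4) (nat_lit 455) (nat_lit 396) (nat_lit 169)) (XT.lf (nat_lit 0) (nat_lit 41960447844) (nat_lit 228) (nat_lit 316717376674) (nat_lit 76) (nat_lit 22032652273) (nat_lit 32) (nat_lit 5) (nat_lit 35) (nat_lit 5) (nat_lit 33) (nat_lit 4) (nat_lit 456) (nat_lit 396) (nat_lit 168))) (XT.nd (nat_lit 78) (nat_lit 76) (nat_lit 0) (XT.lf (nat_lit 0) (nat_lit 133993110495) (nat_lit 228) (nat_lit 128050701150) (nat_lit 76) (nat_lit 132232833785) (nat_lit 32) (nat_lit 5) (nat_lit 35) (nat_lit 5) (nat_lit 33) (nat_lit 4) (nat_lit 457) (nat_lit 396) (nat_lit 167)) (XT.lf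 (nat_lit 0) (nat_lit 72365165341) (nat_lit 76) (nat_lit 159391913899) (nat_lit 152) (nat_lit 176707559630) (nat_lit 31) (nat_lit 5) (nat_lit 32) (nat_lit 5) (nat_lit 33) (nat_lit 4) (nat_lit 458) (nat_lit 396) (nat_lit 166))))) (XT.nd (nat_lit 234) (nat_lit 228) (nat_lit 0) (XT.nd (nat_lit 78) (nat_lit 152) (nat_lit 0) (XT.lf (nat_lit 0) (nat_lit 287247180843) (nat_lit 76) (nat_lit 49330518939) (nat_lit 152) (nat_lit 86675909552) (nat_lit 31) (nat_lit 5) (nat_lit 32) (nat_lit 5) (nat_lit 33) (nat_lit 4) (nat_lit 459) (nat_lit 396) (nat_lit 165)) (XT.nd (nat_lit 78) (nat_lit 0) (nat_lit 0) (XT.lf (nat_lit 0) (nat_lit 9854399244) (nat_lit 152) (nat_lit 363357860690) (nat_lit 76) (nat_lit 65451206679) (nat_lit 29) (nat_lit 5) (nat_lit 31) (nat_lit 5) (nat_lit 30) (nat_lit 4) (nat_lit 460) (nat_lit 396) (nat_lit 164)) (XT.lf (nat_lit 0) (nat_lit 111447994079) (nat_lit 152) (nat_lit 155091212944)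 (nat_lit 76) (nat_lit 188076081445) (nat_lit 29) (nat_lit 5) (nat_lit 31) (nat_lit 5) (nat_lit 30) (nat_lit 4) (nat_lit 461) (nat_lit 396) (nat_lit 163)))) (XT.nd (nat_lit 156) (nat_lit 152) (nat_lit 0) (XT.nd (nat_lit 78) (nat_lit 0) (nat_lit 0) (XT.lf (nat_lit 0) (nat_lit 65691035425) (nat_lit 76) (nat_lit 153455719377) (nat_lit 152) (nat_lit 252166672322) (nat_lit 28) (nat_lit 5) (nat_lit 29) (nat_lit 5) (nat_lit 30) (nat_lit 4) (nat_lit 462) (nat_lit 396) (nat_lit 162)) (XT.lf (nat_lit 0) (nat_lit 302896561893) (nat_lit 76) (nat_lit 31960303897) (nat_lit 152) (nat_lit 153858286325) (nat_lit 28) (nat_lit 5) (nat_lit 29) (nat_lit 5) (nat_lit 30) (nat_lit 4) (nat_lit 463) (nat_lit 396) (nat_lit 161))) (XT.nd (nat_lit 78) (nat_lit 76) (nat_lit 0) (XT.lf (nat_lit 0) (nat_lit 44920144642) (nat_lit 76) (nat_lit 413626277285) (nat_lit 76) (nat_lit 48330844463) (nat_lit 27) (nat_lit 4) (nat_lit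 28) (nat_lit 5) (nat_lit 28) (nat_lit 4) (nat_lit 464) (nat_lit 396) (nat_lit 160)) (XT.lf (nat_lit 0) (nat_lit 64195772762) (nat_lit 152) (nat_lit 233694272340) (nat_lit 76) (nat_lit 227822555958) (nat_lit 26) (nat_lit 5) (nat_lit 28) (nat_lit 5) (nat_lit 27) (nat_lit 4) (nat_lit 465) (nat_lit 396) (nat_lit 159))))))) (XT.nd (nat_lit 48048) (nat_lit 0) (nat_lit 5776) (XT.nd (nat_lit 468) (nat_lit 76) (nat_lit 0) (XT.nd (nat_lit 234) (nat_lit 228) (nat_lit 0) (XT.nd (nat_lit 78) (nat_lit 0) (nat_lit 0) (XT.lf (nat_lit 0) (nat_lit 5360755957) (nat_lit 76) (nat_lit 175447306419) (nat_lit 152) (nat_lit 364637845912) (nat_lit 25) (nat_lit 5) (nat_lit 26) (nat_lit 5) (nat_lit 27) (nat_lit 4) (nat_lit 466) (nat_lit 396) (nat_lit 158)) (XT.nd (nat_lit 78) (nat_lit 0) (nat_lit 0) (XT.lf (nat_lit 0) (nat_lit 264481644532) (nat_lit 76) (nat_lit 42726928141) (nat_lit 152) (nat_lit 258759427905) (nat_lit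 25) (nat_lit 5) (nat_lit 26) (nat_lit 5) (nat_lit 27) (nat_lit 4) (nat_lit 467) (nat_lit 396) (nat_lit 157)) (XT.lf (nat_lit 0) (nat_lit 441437649986) (nat_lit 152) (nat_lit 52466498527) (nat_lit 0) (nat_lit 93536621906) (nat_lit 25) (nat_lit 5) (nat_lit 27) (nat_lit 4) (nat_lit 25) (nat_lit 4) (nat_lit 468) (nat_lit 396) (nat_lit 156)))) (XT.nd (nat_lit 78) (nat_lit 152) (nat_lit 0) (XT.lf (nat_lit 0) (nat_lit 215191160242) (nat_lit 76) (nat_lit 371247089624) (nat_lit 76) (nat_lit 23345925461) (nat_lit 24) (nat_lit 4) (nat_lit 25) (nat_lit 5) (nat_lit 25) (nat_lit 4) (nat_lit 469) (nat_lit 396) (nat_lit 155)) (XT.nd (nat_lit 78) (nat_lit 76) (nat_lit 0) (XT.lf (nat_lit 0) (nat_lit 102972260855) (nat_lit 152) (nat_lit 136808159012) (nat_lit 76) (nat_lit 393336866590) (nat_lit 23) (nat_lit 5) (nat_lit 25) (nat_lit 5) (nat_lit 24) (nat_lit 4) (nat_lit 470) (nat_lit 396) (nat_lit 154)) (XT.lf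 (nat_lit 0) (nat_lit 137896569827) (nat_lit 76) (nat_lit 99078057991) (nat_lit 152) (nat_lit 420515646957) (nat_lit 22) (nat_lit 5) (nat_lit 23) (nat_lit 5) (nat_lit 24) (nat_lit 4) (nat_lit 471) (nat_lit 396) (nat_lit 153))))) (XT.nd (nat_lit 47268) (nat_lit 0) (nat_lit 7372) (XT.nd (nat_lit 78) (nat_lit 76) (nat_lit 0) (XT.lf (nat_lit 0) (nat_lit 380791613602) (nat_lit 152) (nat_lit 252677755292) (nat_lit 0) (nat_lit 49456818597) (nat_lit 22) (nat_lit 5) (nat_lit 24) (nat_lit 4) (nat_lit 22) (nat_lit 4) (nat_lit 472) (nat_lit 396) (nat_lit 152)) (XT.nd (nat_lit 78) (nat_lit 0) (nat_lit 0) (XT.lf (nat_lit 0) (nat_lit 26817909835) (nat_lit 76) (nat_lit 507024372971) (nat_lit 76) (nat_lit 175689471340) (nat_lit 21) (nat_lit 4) (nat_lit 22) (nat_lit 5) (nat_lit 22) (nat_lit 4) (nat_lit 473) (nat_lit 396) (nat_lit 151)) (XT.lf (nat_lit 0) (nat_lit 329060570270) (nat_lit 76) (nat_lit 369764037955)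 (nat_lit 76) (nat_lit 38429034777) (nat_lit 21) (nat_lit 4) (nat_lit 22) (nat_lit 5) (nat_lit 22) (nat_lit 4) (nat_lit 474) (nat_lit 396) (nat_lit 150)))) (XT.nd (nat_lit 156) (nat_lit 0) (nat_lit 76) (XT.nd (nat_lit 78) (nat_lit 0) (nat_lit 0) (XT.lf (nat_lit 0) (nat_lit 9094489266) (nat_lit 836) (nat_lit 11860571490) (nat_lit 836) (nat_lit 11860571490) (nat_lit 118) (nat_lit 3) (nat_lit 129) (nat_lit 3) (nat_lit 129) (nat_lit 5) (nat_lit 397) (nat_lit 397) (nat_lit 226)) (XT.lf (nat_lit 76) (nat_lit 8435709552) (nat_lit 0) (nat_lit 10354522531) (nat_lit 836) (nat_lit 48474479459) (nat_lit 119) (nat_lit 5) (nat_lit 118) (nat_lit 3) (nat_lit 129) (nat_lit 5) (nat_lit 398) (nat_lit 397) (nat_lit 225))) (XT.nd (nat_lit 78) (nat_lit 0) (nat_lit 0) (XT.lf (nat_lit 0) (nat_lit 20184554795) (nat_lit 760) (nat_lit 26298592962) (nat_lit 836) (nat_lit 22458533382) (nat_lit 119) (nat_lit 5) (nat_lit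 129) (nat_lit 5) (nat_lit 130) (nat_lit 5) (nat_lit 399) (nat_lit 397) (nat_lit 224)) (XT.lf (nat_lit 76) (nat_lit 7942248765) (nat_lit 0) (nat_lit 13999187088) (nat_lit 836) (nat_lit 48746421747) (nat_lit 120) (nat_lit 5) (nat_lit 119) (nat_lit 5) (nat_lit 130) (nat_lit 5) (nat_lit 400) (nat_lit 397) (nat_lit 223)))))) (XT.nd (nat_lit 546) (nat_lit 1748) (nat_lit 0) (XT.nd (nat_lit 234) (nat_lit 0) (nat_lit 76) (XT.nd (nat_lit 78) (nat_lit 0) (nat_lit 0) (XT.lf (nat_lit 0) (nat_lit 24551934235) (nat_lit 760) (nat_lit 28012755775) (nat_lit 836) (nat_lit 19918364682) (nat_lit 120) (nat_lit 5) (nat_lit 130) (nat_lit 5) (nat_lit 131) (nat_lit 5) (nat_lit 401) (nat_lit 397) (nat_lit 222)) (XT.nd (nat_lit 78) (nat_lit 0) (nat_lit 76) (XT.lf (nat_lit 76) (nat_lit 8498700857) (nat_lit 0) (nat_lit 19155616436) (nat_lit 836) (nat_lit 46695626804) (nat_lit 121) (nat_lit 5) (nat_lit 120) (nat_lit 5)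 (nat_lit 131) (nat_lit 5) (nat_lit 402) (nat_lit 397) (nat_lit 221)) (XT.lf (nat_lit 0) (nat_lit 31641834040) (nat_lit 760) (nat_lit 28735172299) (nat_lit 836) (nat_lit 15896671335) (nat_lit 121) (nat_lit 5) (nat_lit 131) (nat_lit 5) (nat_lit 132) (nat_lit 5) (nat_lit 403) (nat_lit 397) (nat_lit 220)))) (XT.nd (nat_lit 156) (nat_lit 0) (nat_lit 76) (XT.nd (nat_lit 78) (nat_lit 0) (nat_lit 76) (XT.lf (nat_lit 76) (nat_lit 10250183017) (nat_lit 0) (nat_lit 26051852645) (nat_lit 836) (nat_lit 41967897223) (nat_lit 122) (nat_lit 5) (nat_lit 121) (nat_lit 5) (nat_lit 132) (nat_lit 5) (nat_lit 404) (nat_lit 397) (nat_lit 219)) (XT.lf (nat_lit 0) (nat_lit 41845112464) (nat_lit 760) (nat_lit 28323777781) (nat_lit 836) (nat_lit 10164617743) (nat_lit 122) (nat_lit 5) (nat_lit 132) (nat_lit 5) (nat_lit 133) (nat_lit 5) (nat_lit 405) (nat_lit 397) (nat_lit 218))) (XT.nd (nat_lit 78) (nat_lit 0) (nat_lit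 76) (XT.lf (nat_lit 76) (nat_lit 13356851501) (nat_lit 0) (nat_lit 34943421680) (nat_lit 836) (nat_lit 34168242531) (nat_lit 123) (nat_lit 5) (nat_lit 122) (nat_lit 5) (nat_lit 133) (nat_lit 5) (nat_lit 406) (nat_lit 397) (nat_lit 217)) (XT.lf (nat_lit 0) (nat_lit 55596972713) (nat_lit 760) (nat_lit 26621796248) (nat_lit 76) (nat_lit 2465566173) (nat_lit 123) (nat_lit 5) (nat_lit 133) (nat_lit 5) (nat_lit 124) (nat_lit 5) (nat_lit 407) (nat_lit 397) (nat_lit 216))))) (XT.nd (nat_lit 234) (nat_lit 836) (nat_lit 0) (XT.nd (nat_lit 78) (nat_lit 380) (nat_lit 0) (XT.lf (nat_lit 0) (nat_lit 17995115729) (nat_lit 760) (nat_lit 46116558549) (nat_lit 836) (nat_lit 22856613231) (nat_lit 113) (nat_lit 5) (nat_lit 123) (nat_lit 5) (nat_lit 124) (nat_lit 5) (nat_lit 408) (nat_lit 397) (nat_lit 215)) (XT.nd (nat_lit 78) (nat_lit 380) (nat_lit 0) (XT.lf (nat_lit 0) (nat_lit 65766568539) (nat_lit 760) (nat_lit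 7735786637) (nat_lit 836) (nat_lit 15841570432) (nat_lit 113) (nat_lit 5) (nat_lit 123) (nat_lit 5) (nat_lit 124) (nat_lit 5) (nat_lit 409) (nat_lit 397) (nat_lit 214)) (XT.lf (nat_lit 0) (nat_lit 24358912860) (nat_lit 380) (nat_lit 59891804893) (nat_lit 456) (nat_lit 7543220781) (nat_lit 108) (nat_lit 5) (nat_lit 113) (nat_lit 5) (nat_lit 114) (nat_lit 5) (nat_lit 410) (nat_lit 397) (nat_lit 213)))) (XT.nd (nat_lit 156) (nat_lit 380) (nat_lit 0) (XT.nd (nat_lit 78) (nat_lit 380) (nat_lit 0) (XT.lf (nat_lit 0) (nat_lit 1664684104) (nat_lit 456) (nat_lit 18988135498) (nat_lit 76) (nat_lit 73686115068) (nat_lit 107) (nat_lit 5) (nat_lit 113) (nat_lit 5) (nat_lit 108) (nat_lit 5) (nat_lit 411) (nat_lit 397) (nat_lit 212)) (XT.lf (nat_lit 0) (nat_lit 11922386087) (nat_lit 456) (nat_lit 64503726297) (nat_lit 76) (nat_lit 20536740345) (nat_lit 102) (nat_lit 5) (nat_lit 108) (nat_lit 5) (nat_lit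 103) (nat_lit 5) (nat_lit 412) (nat_lit 397) (nat_lit 211))) (XT.nd (nat_lit 78) (nat_lit 380) (nat_lit 0) (XT.lf (nat_lit 0) (nat_lit 23357864084) (nat_lit 456) (nat_lit 12908311832) (nat_lit 76) (nat_lit 63418546480) (nat_lit 102) (nat_lit 5) (nat_lit 108) (nat_lit 5) (nat_lit 103) (nat_lit 5) (nat_lit 413) (nat_lit 397) (nat_lit 210)) (XT.lf (nat_lit 0) (nat_lit 36133256010) (nat_lit 456) (nat_lit 59981691590) (nat_lit 76) (nat_lit 6389331182) (nat_lit 97) (nat_lit 5) (nat_lit 103) (nat_lit 5) (nat_lit 98) (nat_lit 5) (nat_lit 414) (nat_lit 397) (nat_lit 209))))))))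
noncomputable def xc215 : XT := (XT.nd (nat_lit 2106) (nat_lit 1900) (nat_lit 0) (XT.nd (nat_lit 1014) (nat_lit 1596) (nat_lit 0) (XT.nd (nat_lit 468) (nat_lit 1064) (nat_lit 0) (XT.nd (nat_lit 234) (nat_lit 304) (nat_lit 0) (XT.nd (nat_lit 78) (nat_lit 608) (nat_lit 0) (XT.lf (nat_lit 0) (nat_lit 50363652436) (nat_lit 456) (nat_lit 4879361816) (nat_lit 76) (nat_lit 50180987217) (nat_lit 97) (nat_lit 5) (nat_lit 103) (nat_lit 5) (nat_lit 98) (nat_lit 5) (nat_lit 415) (nat_lit 397) (nat_lit 208)) (XT.nd (nat_lit 78) (nat_lit 304) (nat_lit 0) (XT.lf (nat_lit 0) (nat_lit 54729241348) (nat_lit 304) (nat_lit 11430342435) (nat_lit 380) (nat_lit 42287425968) (nat_lit 93) (nat_lit 5) (nat_lit 97) (nat_lit 5) (nat_lit 98) (nat_lit 5) (nat_lit 416) (nat_lit 397) (nat_lit 207)) (XT.lf (nat_lit 0) (nat_lit 5505168844) (nat_lit 304) (nat_lit 77949415073) (nat_lit 380) (nat_lit 28131121125) (nat_lit 89)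 (nat_lit 5) (nat_lit 93) (nat_lit 5) (nat_lit 94) (nat_lit 5) (nat_lit 417) (nat_lit 397) (nat_lit 206)))) (XT.nd (nat_lit 78) (nat_lit 304) (nat_lit 0) (XT.lf (nat_lit 0) (nat_lit 69360109005) (nat_lit 304) (nat_lit 33347886232) (nat_lit 380) (nat_lit 12118656996) (nat_lit 89) (nat_lit 5) (nat_lit 93) (nat_lit 5) (nat_lit 94) (nat_lit 5) (nat_lit 418) (nat_lit 397) (nat_lit 205)) (XT.nd (nat_lit 78) (nat_lit 0) (nat_lit 0) (XT.lf (nat_lit 0) (nat_lit 5052268645) (nat_lit 304) (nat_lit 99724955647) (nat_lit 76) (nat_lit 13423353540) (nat_lit 85) (nat_lit 5) (nat_lit 89) (nat_lit 5) (nat_lit 86) (nat_lit 5) (nat_lit 419) (nat_lit 397) (nat_lit 204)) (XT.lf (nat_lit 0) (nat_lit 24003370572) (nat_lit 304) (nat_lit 35269809471) (nat_lit 76) (nat_lit 62393641693) (nat_lit 85) (nat_lit 5) (nat_lit 89) (nat_lit 5) (nat_lit 86) (nat_lit 5) (nat_lit 420) (nat_lit 397) (nat_lit 203))))) (XT.nd (nat_lit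 234) (nat_lit 532) (nat_lit 0) (XT.nd (nat_lit 78) (nat_lit 228) (nat_lit 0) (XT.lf (nat_lit 0) (nat_lit 33479135274) (nat_lit 304) (nat_lit 10945203888) (nat_lit 380) (nat_lit 80855923257) (nat_lit 81) (nat_lit 5) (nat_lit 85) (nat_lit 5) (nat_lit 86) (nat_lit 5) (nat_lit 421) (nat_lit 397) (nat_lit 202)) (XT.nd (nat_lit 78) (nat_lit 228) (nat_lit 0) (XT.lf (nat_lit 0) (nat_lit 67094453716) (nat_lit 380) (nat_lit 22786172282) (nat_lit 76) (nat_lit 39132344413) (nat_lit 81) (nat_lit 5) (nat_lit 86) (nat_lit 5) (nat_lit 82) (nat_lit 5) (nat_lit 422) (nat_lit 397) (nat_lit 201)) (XT.lf (nat_lit 0) (nat_lit 51136296323) (nat_lit 228) (nat_lit 40739224009) (nat_lit 304) (nat_lit 41007921301) (nat_lit 78) (nat_lit 5) (nat_lit 81) (nat_lit 5) (nat_lit 82) (nat_lit 5) (nat_lit 423) (nat_lit 397) (nat_lit 200)))) (XT.nd (nat_lit 156) (nat_lit 228) (nat_lit 0) (XT.nd (nat_lit 78) (nat_lit 304) (nat_lit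 0) (XT.lf (nat_lit 0) (nat_lit 118457048403) (nat_lit 304) (nat_lit 7558531668) (nat_lit 76) (nat_lit 10903786077) (nat_lit 78) (nat_lit 5) (nat_lit 82) (nat_lit 5) (nat_lit 79) (nat_lit 5) (nat_lit 424) (nat_lit 397) (nat_lit 199)) (XT.lf (nat_lit 0) (nat_lit 6864405628) (nat_lit 304) (nat_lit 69203410227) (nat_lit 76) (nat_lit 64994173068) (nat_lit 74) (nat_lit 5) (nat_lit 78) (nat_lit 5) (nat_lit 75) (nat_lit 5) (nat_lit 425) (nat_lit 397) (nat_lit 198))) (XT.nd (nat_lit 78) (nat_lit 0) (nat_lit 0) (XT.lf (nat_lit 0) (nat_lit 10122363156) (nat_lit 228) (nat_lit 23002455593) (nat_lit 304) (nat_lit 112257400736) (nat_lit 71) (nat_lit 5) (nat_lit 74) (nat_lit 5) (nat_lit 75) (nat_lit 5) (nat_lit 426) (nat_lit 397) (nat_lit 197)) (XT.lf (nat_lit 0) (nat_lit 62399920651) (nat_lit 304) (nat_lit 54573334893) (nat_lit 76) (nat_lit 32860122739) (nat_lit 71) (nat_lit 5) (nat_lit 75) (nat_lit 5)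 (nat_lit 72) (nat_lit 5) (nat_lit 427) (nat_lit 397) (nat_lit 196)))))) (XT.nd (nat_lit 546) (nat_lit 760) (nat_lit 0) (XT.nd (nat_lit 234) (nat_lit 380) (nat_lit 0) (XT.nd (nat_lit 78) (nat_lit 228) (nat_lit 0) (XT.lf (nat_lit 0) (nat_lit 30754295381) (nat_lit 228) (nat_lit 63241418860) (nat_lit 304) (nat_lit 60468534060) (nat_lit 68) (nat_lit 5) (nat_lit 71) (nat_lit 5) (nat_lit 72) (nat_lit 5) (nat_lit 428) (nat_lit 397) (nat_lit 195)) (XT.nd (nat_lit 78) (nat_lit 228) (nat_lit 0) (XT.lf (nat_lit 0) (nat_lit 122242520189) (nat_lit 228) (nat_lit 5852697480) (nat_lit 304) (nat_lit 31185248244) (nat_lit 68) (nat_lit 5) (nat_lit 71) (nat_lit 5) (nat_lit 72) (nat_lit 5) (nat_lit 429) (nat_lit 397) (nat_lit 194)) (XT.lf (nat_lit 0) (nat_lit 1310046208) (nat_lit 228) (nat_lit 109399217499) (nat_lit 76) (nat_lit 53541880955) (nat_lit 65) (nat_lit 5) (nat_lit 68) (nat_lit 5) (nat_lit 66) (nat_lit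 5) (nat_lit 430) (nat_lit 397) (nat_lit 193)))) (XT.nd (nat_lit 156) (nat_lit 152) (nat_lit 0) (XT.nd (nat_lit 78) (nat_lit 228) (nat_lit 0) (XT.lf (nat_lit 0) (nat_lit 35115269966) (nat_lit 228) (nat_lit 17434732962) (nat_lit 76) (nat_lit 116858133158) (nat_lit 65) (nat_lit 5) (nat_lit 68) (nat_lit 5) (nat_lit 66) (nat_lit 5) (nat_lit 431) (nat_lit 397) (nat_lit 192)) (XT.lf (nat_lit 0) (nat_lit 72040626331) (nat_lit 304) (nat_lit 93169208464) (nat_lit 76) (nat_lit 9541648802) (nat_lit 62) (nat_lit 5) (nat_lit 66) (nat_lit 5) (nat_lit 63) (nat_lit 5) (nat_lit 432) (nat_lit 397) (nat_lit 191))) (XT.nd (nat_lit 78) (nat_lit 0) (nat_lit 0) (XT.lf (nat_lit 0) (nat_lit 5104836767) (nat_lit 152) (nat_lit 106948423498) (nat_lit 228) (nat_lit 68246687811) (nat_lit 60) (nat_lit 5) (nat_lit 62) (nat_lit 5) (nat_lit 63) (nat_lit 5) (nat_lit 433) (nat_lit 397) (nat_lit 190)) (XT.lf (nat_lit 0) (nat_lit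 111526788681) (nat_lit 152) (nat_lit 44117336692) (nat_lit 228) (nat_lit 30402830511) (nat_lit 60) (nat_lit 5) (nat_lit 62) (nat_lit 5) (nat_lit 63) (nat_lit 5) (nat_lit 434) (nat_lit 397) (nat_lit 189))))) (XT.nd (nat_lit 234) (nat_lit 380) (nat_lit 0) (XT.nd (nat_lit 78) (nat_lit 152) (nat_lit 0) (XT.lf (nat_lit 0) (nat_lit 9886741407) (nat_lit 228) (nat_lit 160332024352) (nat_lit 76) (nat_lit 21812650353) (nat_lit 57) (nat_lit 5) (nat_lit 60) (nat_lit 5) (nat_lit 58) (nat_lit 5) (nat_lit 435) (nat_lit 397) (nat_lit 188)) (XT.nd (nat_lit 78) (nat_lit 152) (nat_lit 0) (XT.lf (nat_lit 0) (nat_lit 53174762613) (nat_lit 228) (nat_lit 53677640589) (nat_lit 76) (nat_lit 91337490607) (nat_lit 57) (nat_lit 5) (nat_lit 60) (nat_lit 5) (nat_lit 58) (nat_lit 5) (nat_lit 436) (nat_lit 397) (nat_lit 187)) (XT.lf (nat_lit 0) (nat_lit 60237030759) (nat_lit 152) (nat_lit 39330381022) (nat_lit 228) (nat_lit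 105041872327) (nat_lit 55) (nat_lit 5) (nat_lit 57) (nat_lit 5) (nat_lit 58) (nat_lit 5) (nat_lit 437) (nat_lit 397) (nat_lit 186)))) (XT.nd (nat_lit 156) (nat_lit 228) (nat_lit 0) (XT.nd (nat_lit 78) (nat_lit 152) (nat_lit 0) (XT.lf (nat_lit 0) (nat_lit 149696274907) (nat_lit 228) (nat_lit 30101348413) (nat_lit 76) (nat_lit 31481191588) (nat_lit 55) (nat_lit 5) (nat_lit 58) (nat_lit 5) (nat_lit 56) (nat_lit 5) (nat_lit 438) (nat_lit 397) (nat_lit 185)) (XT.lf (nat_lit 0) (nat_lit 92188574409) (nat_lit 152) (nat_lit 112226861687) (nat_lit 228) (nat_lit 13762193464) (nat_lit 53) (nat_lit 5) (nat_lit 55) (nat_lit 5) (nat_lit 56) (nat_lit 5) (nat_lit 439) (nat_lit 397) (nat_lit 184))) (XT.nd (nat_lit 78) (nat_lit 152) (nat_lit 0) (XT.lf (nat_lit 0) (nat_lit 35800481177) (nat_lit 228) (nat_lit 4335661018) (nat_lit 76) (nat_lit 185230893526) (nat_lit 52) (nat_lit 5) (nat_lit 55) (nat_lit 5) (nat_lit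 53) (nat_lit 5) (nat_lit 440) (nat_lit 397) (nat_lit 183)) (XT.lf (nat_lit 0) (nat_lit 89956700929) (nat_lit 228) (nat_lit 106149615000) (nat_lit 76) (nat_lit 36669420256) (nat_lit 50) (nat_lit 5) (nat_lit 53) (nat_lit 5) (nat_lit 51) (nat_lit 5) (nat_lit 441) (nat_lit 397) (nat_lit 182))))))) (XT.nd (nat_lit 1092) (nat_lit 760) (nat_lit 0) (XT.nd (nat_lit 546) (nat_lit 532) (nat_lit 0) (XT.nd (nat_lit 234) (nat_lit 304) (nat_lit 0) (XT.nd (nat_lit 78) (nat_lit 152) (nat_lit 0) (XT.lf (nat_lit 0) (nat_lit 23838769701) (nat_lit 152) (nat_lit 124086538873) (nat_lit 228) (nat_lit 92574334301) (nat_lit 48) (nat_lit 5) (nat_lit 50) (nat_lit 5) (nat_lit 51) (nat_lit 5) (nat_lit 442) (nat_lit 397) (nat_lit 181)) (XT.nd (nat_lit 78) (nat_lit 152) (nat_lit 0) (XT.lf (nat_lit 0) (nat_lit 164011491376) (nat_lit 152) (nat_lit 46578342008) (nat_lit 228) (nat_lit 37930037222) (nat_lit 48) (nat_lit 5) (nat_lit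 50) (nat_lit 5) (nat_lit 51) (nat_lit 5) (nat_lit 443) (nat_lit 397) (nat_lit 180)) (XT.lf (nat_lit 0) (nat_lit 20256636935) (nat_lit 152) (nat_lit 201713544233) (nat_lit 76) (nat_lit 34884119356) (nat_lit 46) (nat_lit 5) (nat_lit 48) (nat_lit 5) (nat_lit 47) (nat_lit 5) (nat_lit 444) (nat_lit 397) (nat_lit 179)))) (XT.nd (nat_lit 156) (nat_lit 152) (nat_lit 0) (XT.nd (nat_lit 78) (nat_lit 152) (nat_lit 0) (XT.lf (nat_lit 0) (nat_lit 82295978978) (nat_lit 152) (nat_lit 62236798104) (nat_lit 76) (nat_lit 120930683092) (nat_lit 46) (nat_lit 5) (nat_lit 48) (nat_lit 5) (nat_lit 47) (nat_lit 5) (nat_lit 445) (nat_lit 397) (nat_lit 178)) (XT.lf (nat_lit 0) (nat_lit 86997930052) (nat_lit 152) (nat_lit 61797449420) (nat_lit 228) (nat_lit 125639793804) (nat_lit 44) (nat_lit 5) (nat_lit 46) (nat_lit 5) (nat_lit 47) (nat_lit 5) (nat_lit 446) (nat_lit 397) (nat_lit 177))) (XT.nd (nat_lit 78) (nat_lit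 152) (nat_lit 0) (XT.lf (nat_lit 0) (nat_lit 220082336217) (nat_lit 228) (nat_lit 38356754278) (nat_lit 76) (nat_lit 25343252264) (nat_lit 44) (nat_lit 5) (nat_lit 47) (nat_lit 5) (nat_lit 45) (nat_lit 4) (nat_lit 447) (nat_lit 397) (nat_lit 176)) (XT.lf (nat_lit 0) (nat_lit 4244210728) (nat_lit 152) (nat_lit 172481842611) (nat_lit 76) (nat_lit 116722262588) (nat_lit 42) (nat_lit 5) (nat_lit 44) (nat_lit 5) (nat_lit 43) (nat_lit 5) (nat_lit 448) (nat_lit 397) (nat_lit 175))))) (XT.nd (nat_lit 234) (nat_lit 304) (nat_lit 0) (XT.nd (nat_lit 78) (nat_lit 228) (nat_lit 0) (XT.lf (nat_lit 0) (nat_lit 74104961468) (nat_lit 152) (nat_lit 15032816514) (nat_lit 76) (nat_lit 214374593659) (nat_lit 42) (nat_lit 5) (nat_lit 44) (nat_lit 5) (nat_lit 43) (nat_lit 5) (nat_lit 449) (nat_lit 397) (nat_lit 174)) (XT.nd (nat_lit 78) (nat_lit 76) (nat_lit 0) (XT.lf (nat_lit 0) (nat_lit 149966503884) (nat_lit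 228) (nat_lit 158784788094) (nat_lit 76) (nat_lit 5202950482) (nat_lit 40) (nat_lit 5) (nat_lit 43) (nat_lit 5) (nat_lit 41) (nat_lit 4) (nat_lit 450) (nat_lit 397) (nat_lit 173)) (XT.lf (nat_lit 0) (nat_lit 8298104104) (nat_lit 76) (nat_lit 223172443819) (nat_lit 152) (nat_lit 93355187701) (nat_lit 39) (nat_lit 5) (nat_lit 40) (nat_lit 5) (nat_lit 41) (nat_lit 4) (nat_lit 451) (nat_lit 397) (nat_lit 172)))) (XT.nd (nat_lit 156) (nat_lit 76) (nat_lit 0) (XT.nd (nat_lit 78) (nat_lit 228) (nat_lit 0) (XT.lf (nat_lit 0) (nat_lit 189247489890) (nat_lit 76) (nat_lit 130491236039) (nat_lit 152) (nat_lit 16367630956) (nat_lit 39) (nat_lit 5) (nat_lit 40) (nat_lit 5) (nat_lit 41) (nat_lit 4) (nat_lit 452) (nat_lit 397) (nat_lit 171)) (XT.lf (nat_lit 0) (nat_lit 31287906312) (nat_lit 152) (nat_lit 31606308699) (nat_lit 228) (nat_lit 284982050310) (nat_lit 36) (nat_lit 5) (nat_lit 38) (nat_lit 5) (nat_lit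 39) (nat_lit 5) (nat_lit 453) (nat_lit 397) (nat_lit 170))) (XT.nd (nat_lit 78) (nat_lit 76) (nat_lit 0) (XT.lf (nat_lit 0) (nat_lit 149224434353) (nat_lit 228) (nat_lit 138106674543) (nat_lit 76) (nat_lit 72707377174) (nat_lit 36) (nat_lit 5) (nat_lit 39) (nat_lit 5) (nat_lit 37) (nat_lit 4) (nat_lit 454) (nat_lit 397) (nat_lit 169)) (XT.lf (nat_lit 0) (nat_lit 50393588936) (nat_lit 76) (nat_lit 190782345606) (nat_lit 152) (nat_lit 131567644843) (nat_lit 35) (nat_lit 5) (nat_lit 36) (nat_lit 5) (nat_lit 37) (nat_lit 4) (nat_lit 455) (nat_lit 397) (nat_lit 168)))))) (XT.nd (nat_lit 546) (nat_lit 304) (nat_lit 0) (XT.nd (nat_lit 234) (nat_lit 228) (nat_lit 0) (XT.nd (nat_lit 78) (nat_lit 228) (nat_lit 0) (XT.lf (nat_lit 0) (nat_lit 253113343407) (nat_lit 76) (nat_lit 86950421147) (nat_lit 152) (nat_lit 45903225091) (nat_lit 35) (nat_lit 5) (nat_lit 36) (nat_lit 5) (nat_lit 37) (nat_lit 4)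 (nat_lit 456) (nat_lit 397) (nat_lit 167)) (XT.nd (nat_lit 78) (nat_lit 0) (nat_lit 0) (XT.lf (nat_lit 0) (nat_lit 44063085848) (nat_lit 228) (nat_lit 332544632907) (nat_lit 76) (nat_lit 23138050518) (nat_lit 32) (nat_lit 5) (nat_lit 35) (nat_lit 5) (nat_lit 33) (nat_lit 4) (nat_lit 457) (nat_lit 397) (nat_lit 166)) (XT.lf (nat_lit 0) (nat_lit 140697161840) (nat_lit 228) (nat_lit 134445033730) (nat_lit 76) (nat_lit 138848061789) (nat_lit 32) (nat_lit 5) (nat_lit 35) (nat_lit 5) (nat_lit 33) (nat_lit 4) (nat_lit 458) (nat_lit 397) (nat_lit 165)))) (XT.nd (nat_lit 156) (nat_lit 152) (nat_lit 0) (XT.nd (nat_lit 78) (nat_lit 0) (nat_lit 0) (XT.lf (nat_lit 0) (nat_lit 75991493788) (nat_lit 76) (nat_lit 167357751909) (nat_lit 152) (nat_lit 185538408969) (nat_lit 31) (nat_lit 5) (nat_lit 32) (nat_lit 5) (nat_lit 33) (nat_lit 4) (nat_lit 459) (nat_lit 397) (nat_lit 164)) (XT.lf (nat_lit 0) (nat_lit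 301617225770) (nat_lit 76) (nat_lit 51793466138) (nat_lit 152) (nat_lit 91005392037) (nat_lit 31) (nat_lit 5) (nat_lit 32) (nat_lit 5) (nat_lit 33) (nat_lit 4) (nat_lit 460) (nat_lit 397) (nat_lit 163))) (XT.nd (nat_lit 78) (nat_lit 0) (nat_lit 0) (XT.lf (nat_lit 0) (nat_lit 10351271776) (nat_lit 152) (nat_lit 381517906486) (nat_lit 76) (nat_lit 68727253601) (nat_lit 29) (nat_lit 5) (nat_lit 31) (nat_lit 5) (nat_lit 30) (nat_lit 4) (nat_lit 461) (nat_lit 397) (nat_lit 162)) (XT.lf (nat_lit 0) (nat_lit 117024348611) (nat_lit 152) (nat_lit 162838300032) (nat_lit 76) (nat_lit 197483206076) (nat_lit 29) (nat_lit 5) (nat_lit 31) (nat_lit 5) (nat_lit 30) (nat_lit 4) (nat_lit 462) (nat_lit 397) (nat_lit 161))))) (XT.nd (nat_lit 234) (nat_lit 152) (nat_lit 0) (XT.nd (nat_lit 78) (nat_lit 76) (nat_lit 0) (XT.lf (nat_lit 0) (nat_lit 68982940215) (nat_lit 76) (nat_lit 161125033631) (nat_lit 152) (nat_lit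 264770930158) (nat_lit 28) (nat_lit 5) (nat_lit 29) (nat_lit 5) (nat_lit 30) (nat_lit 4) (nat_lit 463) (nat_lit 397) (nat_lit 160)) (XT.nd (nat_lit 78) (nat_lit 76) (nat_lit 0) (XT.lf (nat_lit 0) (nat_lit 318048392863) (nat_lit 76) (nat_lit 33555012697) (nat_lit 152) (nat_lit 161547318945) (nat_lit 28) (nat_lit 5) (nat_lit 29) (nat_lit 5) (nat_lit 30) (nat_lit 4) (nat_lit 464) (nat_lit 397) (nat_lit 159)) (XT.lf (nat_lit 0) (nat_lit 47173173238) (nat_lit 76) (nat_lit 434304249029) (nat_lit 76) (nat_lit 50743523107) (nat_lit 27) (nat_lit 4) (nat_lit 28) (nat_lit 5) (nat_lit 28) (nat_lit 4) (nat_lit 465) (nat_lit 397) (nat_lit 158)))) (XT.nd (nat_lit 156) (nat_lit 0) (nat_lit 0) (XT.nd (nat_lit 78) (nat_lit 76) (nat_lit 0) (XT.lf (nat_lit 0) (nat_lit 67409123230) (nat_lit 152) (nat_lit 245372180835) (nat_lit 76) (nat_lit 239216748618) (nat_lit 26) (nat_lit 5) (nat_lit 28) (nat_lit 5) (nat_lit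 27) (nat_lit 4) (nat_lit 466) (nat_lit 397) (nat_lit 157)) (XT.lf (nat_lit 0) (nat_lit 5635489117) (nat_lit 76) (nat_lit 184216473130) (nat_lit 152) (nat_lit 382866066296) (nat_lit 25) (nat_lit 5) (nat_lit 26) (nat_lit 5) (nat_lit 27) (nat_lit 4) (nat_lit 467) (nat_lit 397) (nat_lit 156))) (XT.nd (nat_lit 78) (nat_lit 0) (nat_lit 0) (XT.lf (nat_lit 0) (nat_lit 277712103294) (nat_lit 76) (nat_lit 44860228253) (nat_lit 152) (nat_lit 271693902242) (nat_lit 25) (nat_lit 5) (nat_lit 26) (nat_lit 5) (nat_lit 27) (nat_lit 4) (nat_lit 468) (nat_lit 397) (nat_lit 155)) (XT.lf (nat_lit 0) (nat_lit 463512749438) (nat_lit 152) (nat_lit 55083636984) (nat_lit 0) (nat_lit 98216261378) (nat_lit 25) (nat_lit 5) (nat_lit 27) (nat_lit 4) (nat_lit 25) (nat_lit 4) (nat_lit 469) (nat_lit 397) (nat_lit 154))))))))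
noncomputable def xc216 : XT := (XT.nd (nat_lit 49218) (nat_lit 0) (nat_lit 1900) (XT.nd (nat_lit 48126) (nat_lit 0) (nat_lit 5168) (XT.nd (nat_lit 47580) (nat_lit 0) (nat_lit 7372) (XT.nd (nat_lit 234) (nat_lit 76) (nat_lit 0) (XT.nd (nat_lit 78) (nat_lit 152) (nat_lit 0) (XT.lf (nat_lit 0) (nat_lit 225956804941) (nat_lit 76) (nat_lit 389806516213) (nat_lit 76) (nat_lit 24509904721) (nat_lit 24) (nat_lit 4) (nat_lit 25) (nat_lit 5) (nat_lit 25) (nat_lit 4) (nat_lit 470) (nat_lit 397) (nat_lit 153)) (XT.nd (nat_lit 78) (nat_lit 76) (nat_lit 0) (XT.lf (nat_lit 0) (nat_lit 108123931849) (nat_lit 152) (nat_lit 143642668756) (nat_lit 76) (nat_lit 413006397026) (nat_lit 23) (nat_lit 5) (nat_lit 25) (nat_lit 5) (nat_lit 24) (nat_lit 4) (nat_lit 471) (nat_lit 397) (nat_lit 152)) (XT.lf (nat_lit 0) (nat_lit 144797201393) (nat_lit 76) (nat_lit 104029160751) (nat_lit 152) (nat_lit 441538275982) (nat_lit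 22) (nat_lit 5) (nat_lit 23) (nat_lit 5) (nat_lit 24) (nat_lit 4) (nat_lit 472) (nat_lit 397) (nat_lit 151)))) (XT.nd (nat_lit 78) (nat_lit 76) (nat_lit 0) (XT.lf (nat_lit 0) (nat_lit 399834095858) (nat_lit 152) (nat_lit 265306014729) (nat_lit 0) (nat_lit 51932240972) (nat_lit 22) (nat_lit 5) (nat_lit 24) (nat_lit 4) (nat_lit 22) (nat_lit 4) (nat_lit 473) (nat_lit 397) (nat_lit 150)) (XT.nd (nat_lit 47190) (nat_lit 0) (nat_lit 7372) (XT.lf (nat_lit 0) (nat_lit 28164342874) (nat_lit 76) (nat_lit 532372903933) (nat_lit 76) (nat_lit 184470952334) (nat_lit 21) (nat_lit 4) (nat_lit 22) (nat_lit 5) (nat_lit 22) (nat_lit 4) (nat_lit 474) (nat_lit 397) (nat_lit 149)) (XT.lf (nat_lit 0) (nat_lit 9563806306) (nat_lit 836) (nat_lit 12445934971) (nat_lit 836) (nat_lit 12445934971) (nat_lit 118) (nat_lit 3) (nat_lit 129) (nat_lit 3) (nat_lit 129) (nat_lit 5) (nat_lit 398) (nat_lit 398) (nat_lit 224)))))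 (XT.nd (nat_lit 234) (nat_lit 0) (nat_lit 152) (XT.nd (nat_lit 78) (nat_lit 0) (nat_lit 76) (XT.lf (nat_lit 76) (nat_lit 8872577955) (nat_lit 0) (nat_lit 10885196603) (nat_lit 836) (nat_lit 50868755815) (nat_lit 119) (nat_lit 5) (nat_lit 118) (nat_lit 3) (nat_lit 129) (nat_lit 5) (nat_lit 399) (nat_lit 398) (nat_lit 223)) (XT.nd (nat_lit 78) (nat_lit 0) (nat_lit 0) (XT.lf (nat_lit 0) (nat_lit 21220286074) (nat_lit 760) (nat_lit 27597616110) (nat_lit 836) (nat_lit 23569523357) (nat_lit 119) (nat_lit 5) (nat_lit 129) (nat_lit 5) (nat_lit 130) (nat_lit 5) (nat_lit 400) (nat_lit 398) (nat_lit 222)) (XT.lf (nat_lit 76) (nat_lit 8355011147) (nat_lit 0) (nat_lit 14708982305) (nat_lit 836) (nat_lit 51156968949) (nat_lit 120) (nat_lit 5) (nat_lit 119) (nat_lit 5) (nat_lit 130) (nat_lit 5) (nat_lit 401) (nat_lit 398) (nat_lit 221)))) (XT.nd (nat_lit 156) (nat_lit 0) (nat_lit 76) (XT.nd (nat_lit 78)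 (nat_lit 0) (nat_lit 0) (XT.lf (nat_lit 0) (nat_lit 25803656890) (nat_lit 760) (nat_lit 29397115860) (nat_lit 836) (nat_lit 20905215247) (nat_lit 120) (nat_lit 5) (nat_lit 130) (nat_lit 5) (nat_lit 131) (nat_lit 5) (nat_lit 402) (nat_lit 398) (nat_lit 220)) (XT.lf (nat_lit 76) (nat_lit 8939651060) (nat_lit 0) (nat_lit 20120609228) (nat_lit 836) (nat_lit 49006007150) (nat_lit 121) (nat_lit 5) (nat_lit 120) (nat_lit 5) (nat_lit 131) (nat_lit 5) (nat_lit 403) (nat_lit 398) (nat_lit 219))) (XT.nd (nat_lit 78) (nat_lit 0) (nat_lit 0) (XT.lf (nat_lit 0) (nat_lit 33245939581) (nat_lit 760) (nat_lit 30155453178) (nat_lit 836) (nat_lit 16684856195) (nat_lit 121) (nat_lit 5) (nat_lit 131) (nat_lit 5) (nat_lit 132) (nat_lit 5) (nat_lit 404) (nat_lit 398) (nat_lit 218)) (XT.lf (nat_lit 76) (nat_lit 10778904134) (nat_lit 0) (nat_lit 27359451986) (nat_lit 836) (nat_lit 44044001131) (nat_lit 122) (nat_lit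 5) (nat_lit 121) (nat_lit 5) (nat_lit 132) (nat_lit 5) (nat_lit 405) (nat_lit 398) (nat_lit 217)))))) (XT.nd (nat_lit 546) (nat_lit 1368) (nat_lit 0) (XT.nd (nat_lit 234) (nat_lit 1140) (nat_lit 0) (XT.nd (nat_lit 78) (nat_lit 0) (nat_lit 0) (XT.lf (nat_lit 0) (nat_lit 43957501903) (nat_lit 760) (nat_lit 29723431039) (nat_lit 836) (nat_lit 10668232951) (nat_lit 122) (nat_lit 5) (nat_lit 132) (nat_lit 5) (nat_lit 133) (nat_lit 5) (nat_lit 406) (nat_lit 398) (nat_lit 216)) (XT.nd (nat_lit 78) (nat_lit 0) (nat_lit 76) (XT.lf (nat_lit 76) (nat_lit 14040963004) (nat_lit 0) (nat_lit 36693752902) (nat_lit 836) (nat_lit 35856243848) (nat_lit 123) (nat_lit 5) (nat_lit 122) (nat_lit 5) (nat_lit 133) (nat_lit 5) (nat_lit 407) (nat_lit 398) (nat_lit 215)) (XT.lf (nat_lit 0) (nat_lit 58395278232) (nat_lit 760) (nat_lit 27936409860) (nat_lit 76) (nat_lit 2585931154) (nat_lit 123) (nat_lit 5) (nat_lit 133)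 (nat_lit 5) (nat_lit 124) (nat_lit 5) (nat_lit 408) (nat_lit 398) (nat_lit 214)))) (XT.nd (nat_lit 156) (nat_lit 456) (nat_lit 0) (XT.nd (nat_lit 78) (nat_lit 0) (nat_lit 0) (XT.lf (nat_lit 0) (nat_lit 18911081970) (nat_lit 760) (nat_lit 48424007096) (nat_lit 836) (nat_lit 23980711931) (nat_lit 113) (nat_lit 5) (nat_lit 123) (nat_lit 5) (nat_lit 124) (nat_lit 5) (nat_lit 409) (nat_lit 398) (nat_lit 213)) (XT.lf (nat_lit 0) (nat_lit 69070335494) (nat_lit 760) (nat_lit 8124119416) (nat_lit 836) (nat_lit 16615808990) (nat_lit 113) (nat_lit 5) (nat_lit 123) (nat_lit 5) (nat_lit 124) (nat_lit 5) (nat_lit 410) (nat_lit 398) (nat_lit 212))) (XT.nd (nat_lit 78) (nat_lit 76) (nat_lit 0) (XT.lf (nat_lit 0) (nat_lit 25592915881) (nat_lit 380) (nat_lit 62886738821) (nat_lit 456) (nat_lit 7903152241) (nat_lit 108) (nat_lit 5) (nat_lit 113) (nat_lit 5) (nat_lit 114) (nat_lit 5) (nat_lit 411) (nat_lit 398)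 (nat_lit 211)) (XT.lf (nat_lit 0) (nat_lit 1763802239) (nat_lit 456) (nat_lit 19921716659) (nat_lit 76) (nat_lit 77369560631) (nat_lit 107) (nat_lit 5) (nat_lit 113) (nat_lit 5) (nat_lit 108) (nat_lit 5) (nat_lit 412) (nat_lit 398) (nat_lit 210))))) (XT.nd (nat_lit 234) (nat_lit 608) (nat_lit 0) (XT.nd (nat_lit 78) (nat_lit 380) (nat_lit 0) (XT.lf (nat_lit 0) (nat_lit 12533879158) (nat_lit 456) (nat_lit 67712569523) (nat_lit 76) (nat_lit 21563770684) (nat_lit 102) (nat_lit 5) (nat_lit 108) (nat_lit 5) (nat_lit 103) (nat_lit 5) (nat_lit 413) (nat_lit 398) (nat_lit 209)) (XT.nd (nat_lit 78) (nat_lit 380) (nat_lit 0) (XT.lf (nat_lit 0) (nat_lit 24540398971) (nat_lit 456) (nat_lit 13538162577) (nat_lit 76) (nat_lit 66589657919) (nat_lit 102) (nat_lit 5) (nat_lit 108) (nat_lit 5) (nat_lit 103) (nat_lit 5) (nat_lit 414) (nat_lit 398) (nat_lit 208)) (XT.lf (nat_lit 0) (nat_lit 37954120008) (nat_lit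 456) (nat_lit 62964764205) (nat_lit 76) (nat_lit 6709891816) (nat_lit 97) (nat_lit 5) (nat_lit 103) (nat_lit 5) (nat_lit 98) (nat_lit 5) (nat_lit 415) (nat_lit 398) (nat_lit 207)))) (XT.nd (nat_lit 156) (nat_lit 304) (nat_lit 0) (XT.nd (nat_lit 78) (nat_lit 304) (nat_lit 0) (XT.lf (nat_lit 0) (nat_lit 52895360008) (nat_lit 456) (nat_lit 5108080417) (nat_lit 76) (nat_lit 52691078554) (nat_lit 97) (nat_lit 5) (nat_lit 103) (nat_lit 5) (nat_lit 98) (nat_lit 5) (nat_lit 416) (nat_lit 398) (nat_lit 206)) (XT.lf (nat_lit 0) (nat_lit 57480706946) (nat_lit 304) (nat_lit 11999971178) (nat_lit 380) (nat_lit 44388020341) (nat_lit 93) (nat_lit 5) (nat_lit 97) (nat_lit 5) (nat_lit 98) (nat_lit 5) (nat_lit 417) (nat_lit 398) (nat_lit 205))) (XT.nd (nat_lit 78) (nat_lit 0) (nat_lit 0) (XT.lf (nat_lit 0) (nat_lit 5795810917) (nat_lit 304) (nat_lit 81844261077) (nat_lit 380) (nat_lit 29524274626) (nat_lit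 89) (nat_lit 5) (nat_lit 93) (nat_lit 5) (nat_lit 94) (nat_lit 5) (nat_lit 418) (nat_lit 398) (nat_lit 204)) (XT.lf (nat_lit 0) (nat_lit 72842765532) (nat_lit 304) (nat_lit 35012780782) (nat_lit 380) (nat_lit 12711825508) (nat_lit 89) (nat_lit 5) (nat_lit 93) (nat_lit 5) (nat_lit 94) (nat_lit 5) (nat_lit 419) (nat_lit 398) (nat_lit 203))))))) (XT.nd (nat_lit 1014) (nat_lit 1444) (nat_lit 0) (XT.nd (nat_lit 468) (nat_lit 988) (nat_lit 0) (XT.nd (nat_lit 234) (nat_lit 228) (nat_lit 0) (XT.nd (nat_lit 78) (nat_lit 304) (nat_lit 0) (XT.lf (nat_lit 0) (nat_lit 5316924990) (nat_lit 304) (nat_lit 104695820781) (nat_lit 76) (nat_lit 14097253857) (nat_lit 85) (nat_lit 5) (nat_lit 89) (nat_lit 5) (nat_lit 86) (nat_lit 5) (nat_lit 420) (nat_lit 398) (nat_lit 202)) (XT.nd (nat_lit 78) (nat_lit 304) (nat_lit 0) (XT.lf (nat_lit 0) (nat_lit 25215008542) (nat_lit 304) (nat_lit 37018649803) (nat_lit 76) (nat_lit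 65515926291) (nat_lit 85) (nat_lit 5) (nat_lit 89) (nat_lit 5) (nat_lit 86) (nat_lit 5) (nat_lit 421) (nat_lit 398) (nat_lit 201)) (XT.lf (nat_lit 0) (nat_lit 35167505886) (nat_lit 304) (nat_lit 11489198551) (nat_lit 380) (nat_lit 84887009197) (nat_lit 81) (nat_lit 5) (nat_lit 85) (nat_lit 5) (nat_lit 86) (nat_lit 5) (nat_lit 422) (nat_lit 398) (nat_lit 200)))) (XT.nd (nat_lit 78) (nat_lit 228) (nat_lit 0) (XT.lf (nat_lit 0) (nat_lit 70459842404) (nat_lit 380) (nat_lit 23911266830) (nat_lit 76) (nat_lit 41091972122) (nat_lit 81) (nat_lit 5) (nat_lit 86) (nat_lit 5) (nat_lit 82) (nat_lit 5) (nat_lit 423) (nat_lit 398) (nat_lit 199)) (XT.nd (nat_lit 78) (nat_lit 0) (nat_lit 0) (XT.lf (nat_lit 0) (nat_lit 53707095947) (nat_lit 228) (nat_lit 42772576841) (nat_lit 304) (nat_lit 43047418032) (nat_lit 78) (nat_lit 5) (nat_lit 81) (nat_lit 5) (nat_lit 82) (nat_lit 5) (nat_lit 424) (nat_lit 398) (nat_lit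 198)) (XT.lf (nat_lit 0) (nat_lit 124389836800) (nat_lit 304) (nat_lit 7922695047) (nat_lit 76) (nat_lit 11452301931) (nat_lit 78) (nat_lit 5) (nat_lit 82) (nat_lit 5) (nat_lit 79) (nat_lit 5) (nat_lit 425) (nat_lit 398) (nat_lit 197))))) (XT.nd (nat_lit 234) (nat_lit 456) (nat_lit 0) (XT.nd (nat_lit 78) (nat_lit 228) (nat_lit 0) (XT.lf (nat_lit 0) (nat_lit 7217462331) (nat_lit 304) (nat_lit 72649710767) (nat_lit 76) (nat_lit 68247419934) (nat_lit 74) (nat_lit 5) (nat_lit 78) (nat_lit 5) (nat_lit 75) (nat_lit 5) (nat_lit 426) (nat_lit 398) (nat_lit 196)) (XT.nd (nat_lit 78) (nat_lit 0) (nat_lit 0) (XT.lf (nat_lit 0) (nat_lit 10642127576) (nat_lit 228) (nat_lit 24148513187) (nat_lit 304) (nat_lit 117860207293) (nat_lit 71) (nat_lit 5) (nat_lit 74) (nat_lit 5) (nat_lit 75) (nat_lit 5) (nat_lit 427) (nat_lit 398) (nat_lit 195)) (XT.lf (nat_lit 0) (nat_lit 65529101965) (nat_lit 304) (nat_lit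 57288606212) (nat_lit 76) (nat_lit 34506876566) (nat_lit 71) (nat_lit 5) (nat_lit 75) (nat_lit 5) (nat_lit 72) (nat_lit 5) (nat_lit 428) (nat_lit 398) (nat_lit 194)))) (XT.nd (nat_lit 156) (nat_lit 228) (nat_lit 0) (XT.nd (nat_lit 78) (nat_lit 0) (nat_lit 0) (XT.lf (nat_lit 0) (nat_lit 32305189521) (nat_lit 228) (nat_lit 66399264086) (nat_lit 304) (nat_lit 63482556387) (nat_lit 68) (nat_lit 5) (nat_lit 71) (nat_lit 5) (nat_lit 72) (nat_lit 5) (nat_lit 429) (nat_lit 398) (nat_lit 193)) (XT.lf (nat_lit 0) (nat_lit 128367197981) (nat_lit 228) (nat_lit 6141307862) (nat_lit 304) (nat_lit 32735554109) (nat_lit 68) (nat_lit 5) (nat_lit 71) (nat_lit 5) (nat_lit 72) (nat_lit 5) (nat_lit 430) (nat_lit 398) (nat_lit 192))) (XT.nd (nat_lit 78) (nat_lit 0) (nat_lit 0) (XT.lf (nat_lit 0) (nat_lit 1384068061) (nat_lit 228) (nat_lit 114856184206) (nat_lit 76) (nat_lit 56223021026) (nat_lit 65) (nat_lit 5)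 (nat_lit 68) (nat_lit 5) (nat_lit 66) (nat_lit 5) (nat_lit 431) (nat_lit 398) (nat_lit 191)) (XT.lf (nat_lit 0) (nat_lit 36879147315) (nat_lit 228) (nat_lit 18294094212) (nat_lit 76) (nat_lit 122704893171) (nat_lit 65) (nat_lit 5) (nat_lit 68) (nat_lit 5) (nat_lit 66) (nat_lit 5) (nat_lit 432) (nat_lit 398) (nat_lit 190)))))) (XT.nd (nat_lit 546) (nat_lit 684) (nat_lit 0) (XT.nd (nat_lit 234) (nat_lit 380) (nat_lit 0) (XT.nd (nat_lit 78) (nat_lit 152) (nat_lit 0) (XT.lf (nat_lit 0) (nat_lit 75650641705) (nat_lit 304) (nat_lit 97815161316) (nat_lit 76) (nat_lit 10022853173) (nat_lit 62) (nat_lit 5) (nat_lit 66) (nat_lit 5) (nat_lit 63) (nat_lit 5) (nat_lit 433) (nat_lit 398) (nat_lit 189)) (XT.nd (nat_lit 78) (nat_lit 0) (nat_lit 0) (XT.lf (nat_lit 0) (nat_lit 5372384442) (nat_lit 152) (nat_lit 112291334830) (nat_lit 228) (nat_lit 71650834142) (nat_lit 60) (nat_lit 5) (nat_lit 62) (nat_lit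 5) (nat_lit 63) (nat_lit 5) (nat_lit 434) (nat_lit 398) (nat_lit 188)) (XT.lf (nat_lit 0) (nat_lit 117114847959) (nat_lit 152) (nat_lit 46318908438) (nat_lit 228) (nat_lit 31915173884) (nat_lit 60) (nat_lit 5) (nat_lit 62) (nat_lit 5) (nat_lit 63) (nat_lit 5) (nat_lit 435) (nat_lit 398) (nat_lit 187)))) (XT.nd (nat_lit 156) (nat_lit 152) (nat_lit 0) (XT.nd (nat_lit 78) (nat_lit 0) (nat_lit 0) (XT.lf (nat_lit 0) (nat_lit 10388520260) (nat_lit 228) (nat_lit 168336545340) (nat_lit 76) (nat_lit 22907547271) (nat_lit 57) (nat_lit 5) (nat_lit 60) (nat_lit 5) (nat_lit 58) (nat_lit 5) (nat_lit 436) (nat_lit 398) (nat_lit 186)) (XT.lf (nat_lit 0) (nat_lit 55840588155) (nat_lit 228) (nat_lit 56350017637) (nat_lit 76) (nat_lit 95908426471) (nat_lit 57) (nat_lit 5) (nat_lit 60) (nat_lit 5) (nat_lit 58) (nat_lit 5) (nat_lit 437) (nat_lit 398) (nat_lit 185))) (XT.nd (nat_lit 78) (nat_lit 0) (nat_lit 0)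 (XT.lf (nat_lit 0) (nat_lit 63260201713) (nat_lit 152) (nat_lit 41292507300) (nat_lit 228) (nat_lit 110286691191) (nat_lit 55) (nat_lit 5) (nat_lit 57) (nat_lit 5) (nat_lit 58) (nat_lit 5) (nat_lit 438) (nat_lit 398) (nat_lit 184)) (XT.lf (nat_lit 0) (nat_lit 157187750773) (nat_lit 228) (nat_lit 31595369222) (nat_lit 76) (nat_lit 33059300860) (nat_lit 55) (nat_lit 5) (nat_lit 58) (nat_lit 5) (nat_lit 56) (nat_lit 5) (nat_lit 439) (nat_lit 398) (nat_lit 183))))) (XT.nd (nat_lit 234) (nat_lit 304) (nat_lit 0) (XT.nd (nat_lit 78) (nat_lit 228) (nat_lit 0) (XT.lf (nat_lit 0) (nat_lit 96808871570) (nat_lit 152) (nat_lit 117833850895) (nat_lit 228) (nat_lit 14443461234) (nat_lit 53) (nat_lit 5) (nat_lit 55) (nat_lit 5) (nat_lit 56) (nat_lit 5) (nat_lit 440) (nat_lit 398) (nat_lit 182)) (XT.nd (nat_lit 78) (nat_lit 152) (nat_lit 0) (XT.lf (nat_lit 0) (nat_lit 37596812779) (nat_lit 228) (nat_lit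 4541883156) (nat_lit 76) (nat_lit 194496374734) (nat_lit 52) (nat_lit 5) (nat_lit 55) (nat_lit 5) (nat_lit 53) (nat_lit 5) (nat_lit 441) (nat_lit 398) (nat_lit 181)) (XT.lf (nat_lit 0) (nat_lit 94460771289) (nat_lit 228) (nat_lit 111446461217) (nat_lit 76) (nat_lit 38506977331) (nat_lit 50) (nat_lit 5) (nat_lit 53) (nat_lit 5) (nat_lit 51) (nat_lit 5) (nat_lit 442) (nat_lit 398) (nat_lit 180)))) (XT.nd (nat_lit 156) (nat_lit 152) (nat_lit 0) (XT.nd (nat_lit 78) (nat_lit 0) (nat_lit 0) (XT.lf (nat_lit 0) (nat_lit 25041171195) (nat_lit 152) (nat_lit 130286504559) (nat_lit 228) (nat_lit 97196642852) (nat_lit 48) (nat_lit 5) (nat_lit 50) (nat_lit 5) (nat_lit 51) (nat_lit 5) (nat_lit 443) (nat_lit 398) (nat_lit 179)) (XT.lf (nat_lit 0) (nat_lit 172222030716) (nat_lit 152) (nat_lit 48903105529) (nat_lit 228) (nat_lit 39820436070) (nat_lit 48) (nat_lit 5) (nat_lit 50) (nat_lit 5) (nat_lit 51) (nat_lit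 5) (nat_lit 444) (nat_lit 398) (nat_lit 178))) (XT.nd (nat_lit 78) (nat_lit 0) (nat_lit 0) (XT.lf (nat_lit 0) (nat_lit 21275317037) (nat_lit 152) (nat_lit 211788999569) (nat_lit 76) (nat_lit 36632405385) (nat_lit 46) (nat_lit 5) (nat_lit 48) (nat_lit 5) (nat_lit 47) (nat_lit 5) (nat_lit 445) (nat_lit 398) (nat_lit 177)) (XT.lf (nat_lit 0) (nat_lit 86416347694) (nat_lit 152) (nat_lit 65338902889) (nat_lit 76) (nat_lit 126981103020) (nat_lit 46) (nat_lit 5) (nat_lit 48) (nat_lit 5) (nat_lit 47) (nat_lit 5) (nat_lit 446) (nat_lit 398) (nat_lit 176))))))))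
noncomputable def xc217 : XT := (XT.nd (nat_lit 2106) (nat_lit 0) (nat_lit 0) (XT.nd (nat_lit 1014) (nat_lit 760) (nat_lit 0) (XT.nd (nat_lit 468) (nat_lit 532) (nat_lit 0) (XT.nd (nat_lit 234) (nat_lit 228) (nat_lit 0) (XT.nd (nat_lit 78) (nat_lit 152) (nat_lit 0) (XT.lf (nat_lit 0) (nat_lit 91357404657) (nat_lit 152) (nat_lit 64883197871) (nat_lit 228) (nat_lit 131916055670) (nat_lit 44) (nat_lit 5) (nat_lit 46) (nat_lit 5) (nat_lit 47) (nat_lit 5) (nat_lit 447) (nat_lit 398) (nat_lit 175)) (XT.nd (nat_lit 78) (nat_lit 152) (nat_lit 0) (XT.lf (nat_lit 0) (nat_lit 231091708713) (nat_lit 228) (nat_lit 40265270604) (nat_lit 76) (nat_lit 26614216806) (nat_lit 44) (nat_lit 5) (nat_lit 47) (nat_lit 5) (nat_lit 45) (nat_lit 4) (nat_lit 448) (nat_lit 398) (nat_lit 174)) (XT.lf (nat_lit 0) (nat_lit 4461655180) (nat_lit 152) (nat_lit 181096589745) (nat_lit 76) (nat_lit 122562224206) (nat_lit 42)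 (nat_lit 5) (nat_lit 44) (nat_lit 5) (nat_lit 43) (nat_lit 5) (nat_lit 449) (nat_lit 398) (nat_lit 173)))) (XT.nd (nat_lit 78) (nat_lit 228) (nat_lit 0) (XT.lf (nat_lit 0) (nat_lit 77815194222) (nat_lit 152) (nat_lit 15775557343) (nat_lit 76) (nat_lit 225096988569) (nat_lit 42) (nat_lit 5) (nat_lit 44) (nat_lit 5) (nat_lit 43) (nat_lit 5) (nat_lit 450) (nat_lit 398) (nat_lit 172)) (XT.nd (nat_lit 78) (nat_lit 76) (nat_lit 0) (XT.lf (nat_lit 0) (nat_lit 157469773566) (nat_lit 228) (nat_lit 166715086494) (nat_lit 76) (nat_lit 5466846485) (nat_lit 40) (nat_lit 5) (nat_lit 43) (nat_lit 5) (nat_lit 41) (nat_lit 4) (nat_lit 451) (nat_lit 398) (nat_lit 171)) (XT.lf (nat_lit 0) (nat_lit 8721806104) (nat_lit 76) (nat_lit 234327115594) (nat_lit 152) (nat_lit 98017857614) (nat_lit 39) (nat_lit 5) (nat_lit 40) (nat_lit 5) (nat_lit 41) (nat_lit 4) (nat_lit 452) (nat_lit 398) (nat_lit 170))))) (XT.nd (nat_lit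 234) (nat_lit 304) (nat_lit 0) (XT.nd (nat_lit 78) (nat_lit 228) (nat_lit 0) (XT.lf (nat_lit 0) (nat_lit 198718242285) (nat_lit 76) (nat_lit 137012035539) (nat_lit 152) (nat_lit 17181165387) (nat_lit 39) (nat_lit 5) (nat_lit 40) (nat_lit 5) (nat_lit 41) (nat_lit 4) (nat_lit 453) (nat_lit 398) (nat_lit 169)) (XT.nd (nat_lit 78) (nat_lit 0) (nat_lit 0) (XT.lf (nat_lit 0) (nat_lit 32860697728) (nat_lit 152) (nat_lit 33182827671) (nat_lit 228) (nat_lit 299226322536) (nat_lit 36) (nat_lit 5) (nat_lit 38) (nat_lit 5) (nat_lit 39) (nat_lit 5) (nat_lit 454) (nat_lit 398) (nat_lit 168)) (XT.lf (nat_lit 0) (nat_lit 156690093129) (nat_lit 228) (nat_lit 145003848767) (nat_lit 76) (nat_lit 76346245987) (nat_lit 36) (nat_lit 5) (nat_lit 39) (nat_lit 5) (nat_lit 37) (nat_lit 4) (nat_lit 455) (nat_lit 398) (nat_lit 167)))) (XT.nd (nat_lit 156) (nat_lit 228) (nat_lit 0) (XT.nd (nat_lit 78) (nat_lit 0) (nat_lit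 0) (XT.lf (nat_lit 0) (nat_lit 52921296281) (nat_lit 76) (nat_lit 200317786096) (nat_lit 152) (nat_lit 138141457815) (nat_lit 35) (nat_lit 5) (nat_lit 36) (nat_lit 5) (nat_lit 37) (nat_lit 4) (nat_lit 456) (nat_lit 398) (nat_lit 166)) (XT.lf (nat_lit 0) (nat_lit 265776656195) (nat_lit 76) (nat_lit 91294440500) (nat_lit 152) (nat_lit 48194034660) (nat_lit 35) (nat_lit 5) (nat_lit 36) (nat_lit 5) (nat_lit 37) (nat_lit 4) (nat_lit 457) (nat_lit 398) (nat_lit 165))) (XT.nd (nat_lit 78) (nat_lit 0) (nat_lit 0) (XT.lf (nat_lit 0) (nat_lit 46270426636) (nat_lit 228) (nat_lit 349164052669) (nat_lit 76) (nat_lit 24298368581) (nat_lit 32) (nat_lit 5) (nat_lit 35) (nat_lit 5) (nat_lit 33) (nat_lit 4) (nat_lit 458) (nat_lit 398) (nat_lit 164)) (XT.lf (nat_lit 0) (nat_lit 147736007071) (nat_lit 228) (nat_lit 141159845528) (nat_lit 76) (nat_lit 145793717772) (nat_lit 32) (nat_lit 5) (nat_lit 35) (nat_lit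 5) (nat_lit 33) (nat_lit 4) (nat_lit 459) (nat_lit 398) (nat_lit 163)))))) (XT.nd (nat_lit 546) (nat_lit 380) (nat_lit 0) (XT.nd (nat_lit 234) (nat_lit 152) (nat_lit 0) (XT.nd (nat_lit 78) (nat_lit 152) (nat_lit 0) (XT.lf (nat_lit 0) (nat_lit 79798388367) (nat_lit 76) (nat_lit 175722231173) (nat_lit 152) (nat_lit 194811221804) (nat_lit 31) (nat_lit 5) (nat_lit 32) (nat_lit 5) (nat_lit 33) (nat_lit 4) (nat_lit 460) (nat_lit 398) (nat_lit 162)) (XT.nd (nat_lit 78) (nat_lit 152) (nat_lit 0) (XT.lf (nat_lit 0) (nat_lit 316705058382) (nat_lit 76) (nat_lit 54379893415) (nat_lit 152) (nat_lit 95551749626) (nat_lit 31) (nat_lit 5) (nat_lit 32) (nat_lit 5) (nat_lit 33) (nat_lit 4) (nat_lit 461) (nat_lit 398) (nat_lit 161)) (XT.lf (nat_lit 0) (nat_lit 10872601867) (nat_lit 152) (nat_lit 400586684134) (nat_lit 76) (nat_lit 72166778718) (nat_lit 29) (nat_lit 5) (nat_lit 31) (nat_lit 5) (nat_lit 30) (nat_lit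 4) (nat_lit 462) (nat_lit 398) (nat_lit 160)))) (XT.nd (nat_lit 156) (nat_lit 76) (nat_lit 0) (XT.nd (nat_lit 78) (nat_lit 76) (nat_lit 0) (XT.lf (nat_lit 0) (nat_lit 122879153187) (nat_lit 152) (nat_lit 170973436294) (nat_lit 76) (nat_lit 207360378225) (nat_lit 29) (nat_lit 5) (nat_lit 31) (nat_lit 5) (nat_lit 30) (nat_lit 4) (nat_lit 463) (nat_lit 398) (nat_lit 159)) (XT.lf (nat_lit 0) (nat_lit 72438756631) (nat_lit 76) (nat_lit 169178136365) (nat_lit 152) (nat_lit 278005779813) (nat_lit 28) (nat_lit 5) (nat_lit 29) (nat_lit 5) (nat_lit 30) (nat_lit 4) (nat_lit 464) (nat_lit 398) (nat_lit 158))) (XT.nd (nat_lit 78) (nat_lit 76) (nat_lit 0) (XT.lf (nat_lit 0) (nat_lit 333957164320) (nat_lit 76) (nat_lit 35229764334) (nat_lit 152) (nat_lit 169621164080) (nat_lit 28) (nat_lit 5) (nat_lit 29) (nat_lit 5) (nat_lit 30) (nat_lit 4) (nat_lit 465) (nat_lit 398) (nat_lit 157)) (XT.lf (nat_lit 0)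 (nat_lit 49538200484) (nat_lit 76) (nat_lit 456016430079) (nat_lit 76) (nat_lit 53277194882) (nat_lit 27) (nat_lit 4) (nat_lit 28) (nat_lit 5) (nat_lit 28) (nat_lit 4) (nat_lit 466) (nat_lit 398) (nat_lit 156))))) (XT.nd (nat_lit 234) (nat_lit 228) (nat_lit 0) (XT.nd (nat_lit 78) (nat_lit 76) (nat_lit 0) (XT.lf (nat_lit 0) (nat_lit 70782810075) (nat_lit 152) (nat_lit 257634617431) (nat_lit 76) (nat_lit 251180365970) (nat_lit 26) (nat_lit 5) (nat_lit 28) (nat_lit 5) (nat_lit 27) (nat_lit 4) (nat_lit 467) (nat_lit 398) (nat_lit 155)) (XT.nd (nat_lit 78) (nat_lit 0) (nat_lit 0) (XT.lf (nat_lit 0) (nat_lit 5923336463) (nat_lit 76) (nat_lit 193424395553) (nat_lit 152) (nat_lit 402006039079) (nat_lit 25) (nat_lit 5) (nat_lit 26) (nat_lit 5) (nat_lit 27) (nat_lit 4) (nat_lit 468) (nat_lit 398) (nat_lit 154)) (XT.lf (nat_lit 0) (nat_lit 291603492164) (nat_lit 76) (nat_lit 47100476586) (nat_lit 152)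 (nat_lit 285275425419) (nat_lit 25) (nat_lit 5) (nat_lit 26) (nat_lit 5) (nat_lit 27) (nat_lit 4) (nat_lit 469) (nat_lit 398) (nat_lit 153)))) (XT.nd (nat_lit 156) (nat_lit 152) (nat_lit 0) (XT.nd (nat_lit 78) (nat_lit 76) (nat_lit 0) (XT.lf (nat_lit 0) (nat_lit 486691304781) (nat_lit 152) (nat_lit 57832207524) (nat_lit 0) (nat_lit 103129621727) (nat_lit 25) (nat_lit 5) (nat_lit 27) (nat_lit 4) (nat_lit 25) (nat_lit 4) (nat_lit 470) (nat_lit 398) (nat_lit 152)) (XT.lf (nat_lit 0) (nat_lit 237260165993) (nat_lit 76) (nat_lit 409294186340) (nat_lit 76) (nat_lit 25732391328) (nat_lit 24) (nat_lit 4) (nat_lit 25) (nat_lit 5) (nat_lit 25) (nat_lit 4) (nat_lit 471) (nat_lit 398) (nat_lit 151))) (XT.nd (nat_lit 78) (nat_lit 76) (nat_lit 0) (XT.lf (nat_lit 0) (nat_lit 113532902092) (nat_lit 152) (nat_lit 150819452346) (nat_lit 76) (nat_lit 433659154163) (nat_lit 23) (nat_lit 5) (nat_lit 25) (nat_lit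 5) (nat_lit 24) (nat_lit 4) (nat_lit 472) (nat_lit 398) (nat_lit 150)) (XT.lf (nat_lit 0) (nat_lit 152042325022) (nat_lit 76) (nat_lit 109228078981) (nat_lit 152) (nat_lit 463612329624) (nat_lit 22) (nat_lit 5) (nat_lit 23) (nat_lit 5) (nat_lit 24) (nat_lit 4) (nat_lit 473) (nat_lit 398) (nat_lit 149))))))) (XT.nd (nat_lit 48204) (nat_lit 0) (nat_lit 4484) (XT.nd (nat_lit 47658) (nat_lit 0) (nat_lit 6916) (XT.nd (nat_lit 47424) (nat_lit 0) (nat_lit 7372) (XT.nd (nat_lit 47268) (nat_lit 0) (nat_lit 7296) (XT.lf (nat_lit 0) (nat_lit 419828432465) (nat_lit 152) (nat_lit 278566210407) (nat_lit 0) (nat_lit 54531194467) (nat_lit 22) (nat_lit 5) (nat_lit 24) (nat_lit 4) (nat_lit 22) (nat_lit 4) (nat_lit 474) (nat_lit 398) (nat_lit 148)) (XT.nd (nat_lit 78) (nat_lit 0) (nat_lit 0) (XT.lf (nat_lit 0) (nat_lit 10055232518) (nat_lit 836) (nat_lit 13061279254) (nat_lit 836) (nat_lit 13061279254) (nat_lit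 118) (nat_lit 3) (nat_lit 129) (nat_lit 3) (nat_lit 129) (nat_lit 5) (nat_lit 399) (nat_lit 399) (nat_lit 222)) (XT.lf (nat_lit 76) (nat_lit 9329887511) (nat_lit 0) (nat_lit 11441200600) (nat_lit 836) (nat_lit 53385483750) (nat_lit 119) (nat_lit 5) (nat_lit 118) (nat_lit 3) (nat_lit 129) (nat_lit 5) (nat_lit 400) (nat_lit 399) (nat_lit 221)))) (XT.nd (nat_lit 78) (nat_lit 0) (nat_lit 0) (XT.lf (nat_lit 0) (nat_lit 22305339869) (nat_lit 760) (nat_lit 28963069251) (nat_lit 836) (nat_lit 24737172591) (nat_lit 119) (nat_lit 5) (nat_lit 129) (nat_lit 5) (nat_lit 130) (nat_lit 5) (nat_lit 401) (nat_lit 399) (nat_lit 220)) (XT.nd (nat_lit 78) (nat_lit 0) (nat_lit 76) (XT.lf (nat_lit 76) (nat_lit 8786956665) (nat_lit 0) (nat_lit 15453352836) (nat_lit 836) (nat_lit 53690532693) (nat_lit 120) (nat_lit 5) (nat_lit 119) (nat_lit 5) (nat_lit 130) (nat_lit 5) (nat_lit 402) (nat_lit 399) (nat_lit 219))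 (XT.lf (nat_lit 0) (nat_lit 27115722676) (nat_lit 760) (nat_lit 30852207296) (nat_lit 836) (nat_lit 21942251366) (nat_lit 120) (nat_lit 5) (nat_lit 130) (nat_lit 5) (nat_lit 131) (nat_lit 5) (nat_lit 403) (nat_lit 399) (nat_lit 218))))) (XT.nd (nat_lit 234) (nat_lit 532) (nat_lit 0) (XT.nd (nat_lit 78) (nat_lit 0) (nat_lit 76) (XT.lf (nat_lit 76) (nat_lit 9401159836) (nat_lit 0) (nat_lit 21133181159) (nat_lit 836) (nat_lit 51434175087) (nat_lit 121) (nat_lit 5) (nat_lit 120) (nat_lit 5) (nat_lit 131) (nat_lit 5) (nat_lit 404) (nat_lit 399) (nat_lit 217)) (XT.nd (nat_lit 78) (nat_lit 0) (nat_lit 0) (XT.lf (nat_lit 0) (nat_lit 34928203762) (nat_lit 760) (nat_lit 31648280044) (nat_lit 836) (nat_lit 17513068432) (nat_lit 121) (nat_lit 5) (nat_lit 131) (nat_lit 5) (nat_lit 132) (nat_lit 5) (nat_lit 405) (nat_lit 399) (nat_lit 216)) (XT.lf (nat_lit 76) (nat_lit 11332554072) (nat_lit 0) (nat_lit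 28731965818) (nat_lit 836) (nat_lit 46225982635) (nat_lit 122) (nat_lit 5) (nat_lit 121) (nat_lit 5) (nat_lit 132) (nat_lit 5) (nat_lit 406) (nat_lit 399) (nat_lit 215)))) (XT.nd (nat_lit 156) (nat_lit 684) (nat_lit 0) (XT.nd (nat_lit 78) (nat_lit 0) (nat_lit 0) (XT.lf (nat_lit 0) (nat_lit 46173638963) (nat_lit 760) (nat_lit 31194604285) (nat_lit 836) (nat_lit 11197458042) (nat_lit 122) (nat_lit 5) (nat_lit 132) (nat_lit 5) (nat_lit 133) (nat_lit 5) (nat_lit 407) (nat_lit 399) (nat_lit 214)) (XT.lf (nat_lit 76) (nat_lit 14757767552) (nat_lit 0) (nat_lit 38531306886) (nat_lit 836) (nat_lit 37630542834) (nat_lit 123) (nat_lit 5) (nat_lit 122) (nat_lit 5) (nat_lit 133) (nat_lit 5) (nat_lit 408) (nat_lit 399) (nat_lit 213))) (XT.nd (nat_lit 78) (nat_lit 760) (nat_lit 0) (XT.lf (nat_lit 0) (nat_lit 61331783082) (nat_lit 760) (nat_lit 29318285954) (nat_lit 76) (nat_lit 2712585237) (nat_lit 123)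 (nat_lit 5) (nat_lit 133) (nat_lit 5) (nat_lit 124) (nat_lit 5) (nat_lit 409) (nat_lit 399) (nat_lit 212)) (XT.lf (nat_lit 0) (nat_lit 19871339429) (nat_lit 760) (nat_lit 50846677401) (nat_lit 836) (nat_lit 25162757086) (nat_lit 113) (nat_lit 5) (nat_lit 123) (nat_lit 5) (nat_lit 124) (nat_lit 5) (nat_lit 410) (nat_lit 399) (nat_lit 211)))))) (XT.nd (nat_lit 546) (nat_lit 1216) (nat_lit 0) (XT.nd (nat_lit 234) (nat_lit 760) (nat_lit 0) (XT.nd (nat_lit 78) (nat_lit 456) (nat_lit 0) (XT.lf (nat_lit 0) (nat_lit 72537855469) (nat_lit 760) (nat_lit 8531725340) (nat_lit 836) (nat_lit 17430418067) (nat_lit 113) (nat_lit 5) (nat_lit 123) (nat_lit 5) (nat_lit 124) (nat_lit 5) (nat_lit 411) (nat_lit 399) (nat_lit 210)) (XT.nd (nat_lit 78) (nat_lit 76) (nat_lit 0) (XT.lf (nat_lit 0) (nat_lit 26887126190) (nat_lit 380) (nat_lit 66031387493) (nat_lit 456) (nat_lit 8282682116) (nat_lit 108) (nat_lit 5)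 (nat_lit 113) (nat_lit 5) (nat_lit 114) (nat_lit 5) (nat_lit 412) (nat_lit 399) (nat_lit 209)) (XT.lf (nat_lit 0) (nat_lit 1866399542) (nat_lit 456) (nat_lit 20903448194) (nat_lit 76) (nat_lit 81237258444) (nat_lit 107) (nat_lit 5) (nat_lit 113) (nat_lit 5) (nat_lit 108) (nat_lit 5) (nat_lit 413) (nat_lit 399) (nat_lit 208)))) (XT.nd (nat_lit 156) (nat_lit 380) (nat_lit 0) (XT.nd (nat_lit 78) (nat_lit 0) (nat_lit 0) (XT.lf (nat_lit 0) (nat_lit 13174517576) (nat_lit 456) (nat_lit 71083374336) (nat_lit 76) (nat_lit 22642134566) (nat_lit 102) (nat_lit 5) (nat_lit 108) (nat_lit 5) (nat_lit 103) (nat_lit 5) (nat_lit 414) (nat_lit 399) (nat_lit 207)) (XT.lf (nat_lit 0) (nat_lit 25780699357) (nat_lit 456) (nat_lit 14200952931) (nat_lit 76) (nat_lit 69919307813) (nat_lit 102) (nat_lit 5) (nat_lit 108) (nat_lit 5) (nat_lit 103) (nat_lit 5) (nat_lit 415) (nat_lit 399) (nat_lit 206))) (XT.nd (nat_lit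 78) (nat_lit 0) (nat_lit 0) (XT.lf (nat_lit 0) (nat_lit 39864706913) (nat_lit 456) (nat_lit 66098479091) (nat_lit 76) (nat_lit 7046378765) (nat_lit 97) (nat_lit 5) (nat_lit 103) (nat_lit 5) (nat_lit 98) (nat_lit 5) (nat_lit 416) (nat_lit 399) (nat_lit 205)) (XT.lf (nat_lit 0) (nat_lit 55552395536) (nat_lit 456) (nat_lit 5349652701) (nat_lit 76) (nat_lit 55326577584) (nat_lit 97) (nat_lit 5) (nat_lit 103) (nat_lit 5) (nat_lit 98) (nat_lit 5) (nat_lit 417) (nat_lit 399) (nat_lit 204))))) (XT.nd (nat_lit 234) (nat_lit 608) (nat_lit 0) (XT.nd (nat_lit 78) (nat_lit 304) (nat_lit 0) (XT.lf (nat_lit 0) (nat_lit 60368350938) (nat_lit 304) (nat_lit 12598256921) (nat_lit 380) (nat_lit 46594925281) (nat_lit 93) (nat_lit 5) (nat_lit 97) (nat_lit 5) (nat_lit 98) (nat_lit 5) (nat_lit 418) (nat_lit 399) (nat_lit 203)) (XT.nd (nat_lit 78) (nat_lit 0) (nat_lit 0) (XT.lf (nat_lit 0) (nat_lit 6099554870) (nat_lit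 304) (nat_lit 85934093406) (nat_lit 380) (nat_lit 30988331845) (nat_lit 89) (nat_lit 5) (nat_lit 93) (nat_lit 5) (nat_lit 94) (nat_lit 5) (nat_lit 419) (nat_lit 399) (nat_lit 202)) (XT.lf (nat_lit 0) (nat_lit 76498192768) (nat_lit 304) (nat_lit 36761152464) (nat_lit 380) (nat_lit 13335839152) (nat_lit 89) (nat_lit 5) (nat_lit 93) (nat_lit 5) (nat_lit 94) (nat_lit 5) (nat_lit 420) (nat_lit 399) (nat_lit 201)))) (XT.nd (nat_lit 156) (nat_lit 304) (nat_lit 0) (XT.nd (nat_lit 78) (nat_lit 0) (nat_lit 0) (XT.lf (nat_lit 0) (nat_lit 5593694517) (nat_lit 304) (nat_lit 109916659304) (nat_lit 76) (nat_lit 14804595135) (nat_lit 85) (nat_lit 5) (nat_lit 89) (nat_lit 5) (nat_lit 86) (nat_lit 5) (nat_lit 421) (nat_lit 399) (nat_lit 200)) (XT.lf (nat_lit 0) (nat_lit 26486162091) (nat_lit 304) (nat_lit 38856294183) (nat_lit 76) (nat_lit 68794083163) (nat_lit 85) (nat_lit 5) (nat_lit 89) (nat_lit 5) (nat_lit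 86) (nat_lit 5) (nat_lit 422) (nat_lit 399) (nat_lit 199))) (XT.nd (nat_lit 78) (nat_lit 0) (nat_lit 0) (XT.lf (nat_lit 0) (nat_lit 36938954966) (nat_lit 304) (nat_lit 12060696546) (nat_lit 380) (nat_lit 89120738139) (nat_lit 81) (nat_lit 5) (nat_lit 85) (nat_lit 5) (nat_lit 86) (nat_lit 5) (nat_lit 423) (nat_lit 399) (nat_lit 198)) (XT.lf (nat_lit 0) (nat_lit 73992508902) (nat_lit 380) (nat_lit 25093937594) (nat_lit 76) (nat_lit 43149301331) (nat_lit 81) (nat_lit 5) (nat_lit 86) (nat_lit 5) (nat_lit 82) (nat_lit 5) (nat_lit 424) (nat_lit 399) (nat_lit 197))))))))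
noncomputable def xc218 : XT := (XT.nd (nat_lit 2106) (nat_lit 1520) (nat_lit 0) (XT.nd (nat_lit 1014) (nat_lit 1140) (nat_lit 0) (XT.nd (nat_lit 468) (nat_lit 836) (nat_lit 0) (XT.nd (nat_lit 234) (nat_lit 456) (nat_lit 0) (XT.nd (nat_lit 78) (nat_lit 304) (nat_lit 0) (XT.lf (nat_lit 0) (nat_lit 56405135377) (nat_lit 228) (nat_lit 44907932786) (nat_lit 304) (nat_lit 45189902918) (nat_lit 78) (nat_lit 5) (nat_lit 81) (nat_lit 5) (nat_lit 82) (nat_lit 5) (nat_lit 425) (nat_lit 399) (nat_lit 196)) (XT.nd (nat_lit 78) (nat_lit 304) (nat_lit 0) (XT.lf (nat_lit 0) (nat_lit 130618340864) (nat_lit 304) (nat_lit 8306346167) (nat_lit 76) (nat_lit 12027934307) (nat_lit 78) (nat_lit 5) (nat_lit 82) (nat_lit 5) (nat_lit 79) (nat_lit 5) (nat_lit 426) (nat_lit 399) (nat_lit 195)) (XT.lf (nat_lit 0) (nat_lit 7587257371) (nat_lit 304) (nat_lit 76269615833) (nat_lit 76) (nat_lit 71663000193) (nat_lit 74)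 (nat_lit 5) (nat_lit 78) (nat_lit 5) (nat_lit 75) (nat_lit 5) (nat_lit 427) (nat_lit 399) (nat_lit 194)))) (XT.nd (nat_lit 78) (nat_lit 228) (nat_lit 0) (XT.lf (nat_lit 0) (nat_lit 11186611517) (nat_lit 228) (nat_lit 25352251603) (nat_lit 304) (nat_lit 123744089784) (nat_lit 71) (nat_lit 5) (nat_lit 74) (nat_lit 5) (nat_lit 75) (nat_lit 5) (nat_lit 428) (nat_lit 399) (nat_lit 193)) (XT.nd (nat_lit 78) (nat_lit 228) (nat_lit 0) (XT.lf (nat_lit 0) (nat_lit 68813888384) (nat_lit 304) (nat_lit 60140886477) (nat_lit 76) (nat_lit 36235619660) (nat_lit 71) (nat_lit 5) (nat_lit 75) (nat_lit 5) (nat_lit 72) (nat_lit 5) (nat_lit 429) (nat_lit 399) (nat_lit 192)) (XT.lf (nat_lit 0) (nat_lit 33932403075) (nat_lit 228) (nat_lit 69715394441) (nat_lit 304) (nat_lit 66648154161) (nat_lit 68) (nat_lit 5) (nat_lit 71) (nat_lit 5) (nat_lit 72) (nat_lit 5) (nat_lit 430) (nat_lit 399) (nat_lit 191))))) (XT.nd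 (nat_lit 234) (nat_lit 608) (nat_lit 0) (XT.nd (nat_lit 78) (nat_lit 228) (nat_lit 0) (XT.lf (nat_lit 0) (nat_lit 134796942715) (nat_lit 228) (nat_lit 6444722923) (nat_lit 304) (nat_lit 34364207961) (nat_lit 68) (nat_lit 5) (nat_lit 71) (nat_lit 5) (nat_lit 72) (nat_lit 5) (nat_lit 431) (nat_lit 399) (nat_lit 190)) (XT.nd (nat_lit 78) (nat_lit 0) (nat_lit 0) (XT.lf (nat_lit 0) (nat_lit 1460998941) (nat_lit 228) (nat_lit 120587207323) (nat_lit 76) (nat_lit 59037841939) (nat_lit 65) (nat_lit 5) (nat_lit 68) (nat_lit 5) (nat_lit 66) (nat_lit 5) (nat_lit 432) (nat_lit 399) (nat_lit 189)) (XT.lf (nat_lit 0) (nat_lit 38730464182) (nat_lit 228) (nat_lit 19197574072) (nat_lit 76) (nat_lit 128843632937) (nat_lit 65) (nat_lit 5) (nat_lit 68) (nat_lit 5) (nat_lit 66) (nat_lit 5) (nat_lit 433) (nat_lit 399) (nat_lit 188)))) (XT.nd (nat_lit 156) (nat_lit 228) (nat_lit 0) (XT.nd (nat_lit 78) (nat_lit 152)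 (nat_lit 0) (XT.lf (nat_lit 0) (nat_lit 79440415565) (nat_lit 304) (nat_lit 102694574646) (nat_lit 76) (nat_lit 10527734543) (nat_lit 62) (nat_lit 5) (nat_lit 66) (nat_lit 5) (nat_lit 63) (nat_lit 5) (nat_lit 434) (nat_lit 399) (nat_lit 187)) (XT.lf (nat_lit 0) (nat_lit 5652165420) (nat_lit 152) (nat_lit 117901811010) (nat_lit 228) (nat_lit 75225949037) (nat_lit 60) (nat_lit 5) (nat_lit 62) (nat_lit 5) (nat_lit 63) (nat_lit 5) (nat_lit 435) (nat_lit 399) (nat_lit 186))) (XT.nd (nat_lit 78) (nat_lit 228) (nat_lit 0) (XT.lf (nat_lit 0) (nat_lit 122981220601) (nat_lit 152) (nat_lit 48630958087) (nat_lit 228) (nat_lit 33503859425) (nat_lit 60) (nat_lit 5) (nat_lit 62) (nat_lit 5) (nat_lit 63) (nat_lit 5) (nat_lit 436) (nat_lit 399) (nat_lit 185)) (XT.lf (nat_lit 0) (nat_lit 10914696188) (nat_lit 228) (nat_lit 176742415482) (nat_lit 76) (nat_lit 24056792571) (nat_lit 57) (nat_lit 5) (nat_lit 60)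 (nat_lit 5) (nat_lit 58) (nat_lit 5) (nat_lit 437) (nat_lit 399) (nat_lit 184)))))) (XT.nd (nat_lit 546) (nat_lit 456) (nat_lit 0) (XT.nd (nat_lit 234) (nat_lit 532) (nat_lit 0) (XT.nd (nat_lit 78) (nat_lit 152) (nat_lit 0) (XT.lf (nat_lit 0) (nat_lit 58639046053) (nat_lit 228) (nat_lit 59157083162) (nat_lit 76) (nat_lit 100707531544) (nat_lit 57) (nat_lit 5) (nat_lit 60) (nat_lit 5) (nat_lit 58) (nat_lit 5) (nat_lit 438) (nat_lit 399) (nat_lit 183)) (XT.nd (nat_lit 78) (nat_lit 0) (nat_lit 0) (XT.lf (nat_lit 0) (nat_lit 66433478844) (nat_lit 152) (nat_lit 43353148290) (nat_lit 228) (nat_lit 115794427336) (nat_lit 55) (nat_lit 5) (nat_lit 57) (nat_lit 5) (nat_lit 58) (nat_lit 5) (nat_lit 439) (nat_lit 399) (nat_lit 182)) (XT.lf (nat_lit 0) (nat_lit 165053181052) (nat_lit 228) (nat_lit 33165118081) (nat_lit 76) (nat_lit 34715939094) (nat_lit 55) (nat_lit 5) (nat_lit 58) (nat_lit 5) (nat_lit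 56) (nat_lit 5) (nat_lit 440) (nat_lit 399) (nat_lit 181)))) (XT.nd (nat_lit 156) (nat_lit 304) (nat_lit 0) (XT.nd (nat_lit 78) (nat_lit 76) (nat_lit 0) (XT.lf (nat_lit 0) (nat_lit 101659173144) (nat_lit 152) (nat_lit 123721594346) (nat_lit 228) (nat_lit 15159428488) (nat_lit 53) (nat_lit 5) (nat_lit 55) (nat_lit 5) (nat_lit 56) (nat_lit 5) (nat_lit 441) (nat_lit 399) (nat_lit 180)) (XT.lf (nat_lit 0) (nat_lit 39482374545) (nat_lit 228) (nat_lit 4759398254) (nat_lit 76) (nat_lit 204224764020) (nat_lit 52) (nat_lit 5) (nat_lit 55) (nat_lit 5) (nat_lit 53) (nat_lit 5) (nat_lit 442) (nat_lit 399) (nat_lit 179))) (XT.nd (nat_lit 78) (nat_lit 152) (nat_lit 0) (XT.lf (nat_lit 0) (nat_lit 99189465467) (nat_lit 228) (nat_lit 117009138442) (nat_lit 76) (nat_lit 40436032377) (nat_lit 50) (nat_lit 5) (nat_lit 53) (nat_lit 5) (nat_lit 51) (nat_lit 5) (nat_lit 443) (nat_lit 399) (nat_lit 178)) (XT.lf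 (nat_lit 0) (nat_lit 26302720013) (nat_lit 152) (nat_lit 136796873997) (nat_lit 228) (nat_lit 102050662601) (nat_lit 48) (nat_lit 5) (nat_lit 50) (nat_lit 5) (nat_lit 51) (nat_lit 5) (nat_lit 444) (nat_lit 399) (nat_lit 177))))) (XT.nd (nat_lit 234) (nat_lit 304) (nat_lit 0) (XT.nd (nat_lit 78) (nat_lit 152) (nat_lit 0) (XT.lf (nat_lit 0) (nat_lit 180842170592) (nat_lit 152) (nat_lit 51344493387) (nat_lit 228) (nat_lit 41805922260) (nat_lit 48) (nat_lit 5) (nat_lit 50) (nat_lit 5) (nat_lit 51) (nat_lit 5) (nat_lit 445) (nat_lit 399) (nat_lit 176)) (XT.nd (nat_lit 78) (nat_lit 0) (nat_lit 0) (XT.lf (nat_lit 0) (nat_lit 22344387430) (nat_lit 152) (nat_lit 222369178005) (nat_lit 76) (nat_lit 38467726391) (nat_lit 46) (nat_lit 5) (nat_lit 48) (nat_lit 5) (nat_lit 47) (nat_lit 5) (nat_lit 446) (nat_lit 399) (nat_lit 175)) (XT.lf (nat_lit 0) (nat_lit 90742217022) (nat_lit 152) (nat_lit 68597017993)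 (nat_lit 76) (nat_lit 133333682682) (nat_lit 46) (nat_lit 5) (nat_lit 48) (nat_lit 5) (nat_lit 47) (nat_lit 5) (nat_lit 447) (nat_lit 399) (nat_lit 174)))) (XT.nd (nat_lit 156) (nat_lit 152) (nat_lit 0) (XT.nd (nat_lit 78) (nat_lit 0) (nat_lit 0) (XT.lf (nat_lit 0) (nat_lit 95933962510) (nat_lit 152) (nat_lit 68123617157) (nat_lit 228) (nat_lit 138506663147) (nat_lit 44) (nat_lit 5) (nat_lit 46) (nat_lit 5) (nat_lit 47) (nat_lit 5) (nat_lit 448) (nat_lit 399) (nat_lit 173)) (XT.lf (nat_lit 0) (nat_lit 242651061210) (nat_lit 228) (nat_lit 42270079361) (nat_lit 76) (nat_lit 27948376108) (nat_lit 44) (nat_lit 5) (nat_lit 47) (nat_lit 5) (nat_lit 45) (nat_lit 4) (nat_lit 449) (nat_lit 399) (nat_lit 172))) (XT.nd (nat_lit 78) (nat_lit 0) (nat_lit 0) (XT.lf (nat_lit 0) (nat_lit 4689485254) (nat_lit 152) (nat_lit 190142943045) (nat_lit 76) (nat_lit 128693826109) (nat_lit 42) (nat_lit 5) (nat_lit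 44) (nat_lit 5) (nat_lit 43) (nat_lit 5) (nat_lit 450) (nat_lit 399) (nat_lit 171)) (XT.lf (nat_lit 0) (nat_lit 81710475186) (nat_lit 152) (nat_lit 16556262650) (nat_lit 76) (nat_lit 236355162467) (nat_lit 42) (nat_lit 5) (nat_lit 44) (nat_lit 5) (nat_lit 43) (nat_lit 5) (nat_lit 451) (nat_lit 399) (nat_lit 170))))))) (XT.nd (nat_lit 1014) (nat_lit 532) (nat_lit 0) (XT.nd (nat_lit 468) (nat_lit 456) (nat_lit 0) (XT.nd (nat_lit 234) (nat_lit 304) (nat_lit 0) (XT.nd (nat_lit 78) (nat_lit 76) (nat_lit 0) (XT.lf (nat_lit 0) (nat_lit 165347747040) (nat_lit 228) (nat_lit 175042731064) (nat_lit 76) (nat_lit 5743588791) (nat_lit 40) (nat_lit 5) (nat_lit 43) (nat_lit 5) (nat_lit 41) (nat_lit 4) (nat_lit 452) (nat_lit 399) (nat_lit 169)) (XT.nd (nat_lit 78) (nat_lit 0) (nat_lit 0) (XT.lf (nat_lit 0) (nat_lit 9165875361) (nat_lit 76) (nat_lit 246039888229) (nat_lit 152) (nat_lit 102914134193) (nat_lit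 39) (nat_lit 5) (nat_lit 40) (nat_lit 5) (nat_lit 41) (nat_lit 4) (nat_lit 453) (nat_lit 399) (nat_lit 168)) (XT.lf (nat_lit 0) (nat_lit 208661753401) (nat_lit 76) (nat_lit 143859224798) (nat_lit 152) (nat_lit 18035827179) (nat_lit 39) (nat_lit 5) (nat_lit 40) (nat_lit 5) (nat_lit 41) (nat_lit 4) (nat_lit 454) (nat_lit 399) (nat_lit 167)))) (XT.nd (nat_lit 78) (nat_lit 76) (nat_lit 0) (XT.lf (nat_lit 0) (nat_lit 34511348124) (nat_lit 152) (nat_lit 34838525552) (nat_lit 228) (nat_lit 314183257449) (nat_lit 36) (nat_lit 5) (nat_lit 38) (nat_lit 5) (nat_lit 39) (nat_lit 5) (nat_lit 455) (nat_lit 399) (nat_lit 166)) (XT.nd (nat_lit 78) (nat_lit 76) (nat_lit 0) (XT.lf (nat_lit 0) (nat_lit 164528622328) (nat_lit 228) (nat_lit 152246640296) (nat_lit 76) (nat_lit 80166732849) (nat_lit 36) (nat_lit 5) (nat_lit 39) (nat_lit 5) (nat_lit 37) (nat_lit 4) (nat_lit 456) (nat_lit 399) (nat_lit 165)) (XT.lf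 (nat_lit 0) (nat_lit 55574642635) (nat_lit 76) (nat_lit 210330340443) (nat_lit 152) (nat_lit 145044386243) (nat_lit 35) (nat_lit 5) (nat_lit 36) (nat_lit 5) (nat_lit 37) (nat_lit 4) (nat_lit 457) (nat_lit 399) (nat_lit 164))))) (XT.nd (nat_lit 234) (nat_lit 228) (nat_lit 0) (XT.nd (nat_lit 78) (nat_lit 228) (nat_lit 0) (XT.lf (nat_lit 0) (nat_lit 279072423805) (nat_lit 76) (nat_lit 95855986375) (nat_lit 152) (nat_lit 50599789285) (nat_lit 35) (nat_lit 5) (nat_lit 36) (nat_lit 5) (nat_lit 37) (nat_lit 4) (nat_lit 458) (nat_lit 399) (nat_lit 163)) (XT.nd (nat_lit 78) (nat_lit 0) (nat_lit 0) (XT.lf (nat_lit 0) (nat_lit 48587745243) (nat_lit 228) (nat_lit 366615169694) (nat_lit 76) (nat_lit 25516385004) (nat_lit 32) (nat_lit 5) (nat_lit 35) (nat_lit 5) (nat_lit 33) (nat_lit 4) (nat_lit 459) (nat_lit 399) (nat_lit 162)) (XT.lf (nat_lit 0) (nat_lit 155126423877) (nat_lit 228) (nat_lit 148211089606)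 (nat_lit 76) (nat_lit 153086354131) (nat_lit 32) (nat_lit 5) (nat_lit 35) (nat_lit 5) (nat_lit 33) (nat_lit 4) (nat_lit 460) (nat_lit 399) (nat_lit 161)))) (XT.nd (nat_lit 156) (nat_lit 152) (nat_lit 0) (XT.nd (nat_lit 78) (nat_lit 0) (nat_lit 0) (XT.lf (nat_lit 0) (nat_lit 83794947142) (nat_lit 76) (nat_lit 184505251274) (nat_lit 152) (nat_lit 204548057169) (nat_lit 31) (nat_lit 5) (nat_lit 32) (nat_lit 5) (nat_lit 33) (nat_lit 4) (nat_lit 461) (nat_lit 399) (nat_lit 160)) (XT.lf (nat_lit 0) (nat_lit 332546634498) (nat_lit 76) (nat_lit 57095943841) (nat_lit 152) (nat_lit 100325788797) (nat_lit 31) (nat_lit 5) (nat_lit 32) (nat_lit 5) (nat_lit 33) (nat_lit 4) (nat_lit 462) (nat_lit 399) (nat_lit 159))) (XT.nd (nat_lit 78) (nat_lit 0) (nat_lit 0) (XT.lf (nat_lit 0) (nat_lit 11419648290) (nat_lit 152) (nat_lit 420609562399) (nat_lit 76) (nat_lit 75777986078) (nat_lit 29) (nat_lit 5) (nat_lit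 31) (nat_lit 5) (nat_lit 30) (nat_lit 4) (nat_lit 463) (nat_lit 399) (nat_lit 158)) (XT.lf (nat_lit 0) (nat_lit 129026364494) (nat_lit 152) (nat_lit 179515959592) (nat_lit 76) (nat_lit 217731128969) (nat_lit 29) (nat_lit 5) (nat_lit 31) (nat_lit 5) (nat_lit 30) (nat_lit 4) (nat_lit 464) (nat_lit 399) (nat_lit 157)))))) (XT.nd (nat_lit 546) (nat_lit 228) (nat_lit 0) (XT.nd (nat_lit 234) (nat_lit 152) (nat_lit 0) (XT.nd (nat_lit 78) (nat_lit 76) (nat_lit 0) (XT.lf (nat_lit 0) (nat_lit 76066743809) (nat_lit 76) (nat_lit 177634186995) (nat_lit 152) (nat_lit 291902715649) (nat_lit 28) (nat_lit 5) (nat_lit 29) (nat_lit 5) (nat_lit 30) (nat_lit 4) (nat_lit 465) (nat_lit 399) (nat_lit 156)) (XT.nd (nat_lit 78) (nat_lit 76) (nat_lit 0) (XT.lf (nat_lit 0) (nat_lit 350660783819) (nat_lit 76) (nat_lit 36988532372) (nat_lit 152) (nat_lit 178099028804) (nat_lit 28) (nat_lit 5) (nat_lit 29) (nat_lit 5)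 (nat_lit 30) (nat_lit 4) (nat_lit 466) (nat_lit 399) (nat_lit 155)) (XT.lf (nat_lit 0) (nat_lit 52020887002) (nat_lit 76) (nat_lit 478814502013) (nat_lit 76) (nat_lit 55937876049) (nat_lit 27) (nat_lit 4) (nat_lit 28) (nat_lit 5) (nat_lit 28) (nat_lit 4) (nat_lit 467) (nat_lit 399) (nat_lit 154)))) (XT.nd (nat_lit 156) (nat_lit 0) (nat_lit 0) (XT.nd (nat_lit 78) (nat_lit 76) (nat_lit 0) (XT.lf (nat_lit 0) (nat_lit 74324880905) (nat_lit 152) (nat_lit 270510749712) (nat_lit 76) (nat_lit 263741905739) (nat_lit 26) (nat_lit 5) (nat_lit 28) (nat_lit 5) (nat_lit 27) (nat_lit 4) (nat_lit 468) (nat_lit 399) (nat_lit 153)) (XT.lf (nat_lit 0) (nat_lit 6225011577) (nat_lit 76) (nat_lit 203092983826) (nat_lit 152) (nat_lit 422103320143) (nat_lit 25) (nat_lit 5) (nat_lit 26) (nat_lit 5) (nat_lit 27) (nat_lit 4) (nat_lit 469) (nat_lit 399) (nat_lit 152))) (XT.nd (nat_lit 78) (nat_lit 0) (nat_lit 0) (XT.lf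 (nat_lit 0) (nat_lit 306188912763) (nat_lit 76) (nat_lit 49452994220) (nat_lit 152) (nat_lit 299536319651) (nat_lit 25) (nat_lit 5) (nat_lit 26) (nat_lit 5) (nat_lit 27) (nat_lit 4) (nat_lit 470) (nat_lit 399) (nat_lit 151)) (XT.lf (nat_lit 0) (nat_lit 511028516616) (nat_lit 152) (nat_lit 60718728277) (nat_lit 0) (nat_lit 108288413271) (nat_lit 25) (nat_lit 5) (nat_lit 27) (nat_lit 4) (nat_lit 25) (nat_lit 4) (nat_lit 471) (nat_lit 399) (nat_lit 150))))) (XT.nd (nat_lit 47502) (nat_lit 0) (nat_lit 7296) (XT.nd (nat_lit 78) (nat_lit 152) (nat_lit 0) (XT.lf (nat_lit 0) (nat_lit 249128181825) (nat_lit 76) (nat_lit 429756486872) (nat_lit 76) (nat_lit 27016281979) (nat_lit 24) (nat_lit 4) (nat_lit 25) (nat_lit 5) (nat_lit 25) (nat_lit 4) (nat_lit 472) (nat_lit 399) (nat_lit 149)) (XT.nd (nat_lit 78) (nat_lit 76) (nat_lit 0) (XT.lf (nat_lit 0) (nat_lit 119212062981) (nat_lit 152) (nat_lit 158355572494)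 (nat_lit 76) (nat_lit 455344322560) (nat_lit 23) (nat_lit 5) (nat_lit 25) (nat_lit 5) (nat_lit 24) (nat_lit 4) (nat_lit 473) (nat_lit 399) (nat_lit 148)) (XT.lf (nat_lit 0) (nat_lit 159649215477) (nat_lit 76) (nat_lit 114687179249) (nat_lit 152) (nat_lit 486790351858) (nat_lit 22) (nat_lit 5) (nat_lit 23) (nat_lit 5) (nat_lit 24) (nat_lit 4) (nat_lit 474) (nat_lit 399) (nat_lit 147)))) (XT.nd (nat_lit 156) (nat_lit 0) (nat_lit 76) (XT.nd (nat_lit 78) (nat_lit 0) (nat_lit 0) (XT.lf (nat_lit 0) (nat_lit 10569999493) (nat_lit 836) (nat_lit 13708037125) (nat_lit 836) (nat_lit 13708037125) (nat_lit 118) (nat_lit 3) (nat_lit 129) (nat_lit 3) (nat_lit 129) (nat_lit 5) (nat_lit 400) (nat_lit 400) (nat_lit 220)) (XT.lf (nat_lit 76) (nat_lit 9808790647) (nat_lit 0) (nat_lit 12023912936) (nat_lit 836) (nat_lit 56030531311) (nat_lit 119) (nat_lit 5) (nat_lit 118) (nat_lit 3) (nat_lit 129) (nat_lit 5)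 (nat_lit 401) (nat_lit 400) (nat_lit 219))) (XT.nd (nat_lit 78) (nat_lit 0) (nat_lit 0) (XT.lf (nat_lit 0) (nat_lit 23442411390) (nat_lit 760) (nat_lit 30398136396) (nat_lit 836) (nat_lit 25964210872) (nat_lit 119) (nat_lit 5) (nat_lit 129) (nat_lit 5) (nat_lit 130) (nat_lit 5) (nat_lit 402) (nat_lit 400) (nat_lit 218)) (XT.lf (nat_lit 76) (nat_lit 9239179746) (nat_lit 0) (nat_lit 16234112466) (nat_lit 836) (nat_lit 56353032386) (nat_lit 120) (nat_lit 5) (nat_lit 119) (nat_lit 5) (nat_lit 130) (nat_lit 5) (nat_lit 403) (nat_lit 400) (nat_lit 217))))))))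
noncomputable def xc219 : XT := (XT.nd (nat_lit 2106) (nat_lit 2736) (nat_lit 0) (XT.nd (nat_lit 1014) (nat_lit 2356) (nat_lit 0) (XT.nd (nat_lit 468) (nat_lit 1368) (nat_lit 0) (XT.nd (nat_lit 234) (nat_lit 0) (nat_lit 76) (XT.nd (nat_lit 78) (nat_lit 0) (nat_lit 0) (XT.lf (nat_lit 0) (nat_lit 28491357283) (nat_lit 760) (nat_lit 32381425953) (nat_lit 836) (nat_lit 23031903940) (nat_lit 120) (nat_lit 5) (nat_lit 130) (nat_lit 5) (nat_lit 131) (nat_lit 5) (nat_lit 404) (nat_lit 400) (nat_lit 216)) (XT.nd (nat_lit 78) (nat_lit 0) (nat_lit 76) (XT.lf (nat_lit 76) (nat_lit 9884393539) (nat_lit 0) (nat_lit 22195773523) (nat_lit 836) (nat_lit 53985809083) (nat_lit 121) (nat_lit 5) (nat_lit 120) (nat_lit 5) (nat_lit 131) (nat_lit 5) (nat_lit 405) (nat_lit 400) (nat_lit 215)) (XT.lf (nat_lit 0) (nat_lit 36692724790) (nat_lit 760) (nat_lit 33217137772) (nat_lit 836) (nat_lit 18383251947) (nat_lit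 121) (nat_lit 5) (nat_lit 131) (nat_lit 5) (nat_lit 132) (nat_lit 5) (nat_lit 406) (nat_lit 400) (nat_lit 214)))) (XT.nd (nat_lit 78) (nat_lit 0) (nat_lit 76) (XT.lf (nat_lit 76) (nat_lit 11912519401) (nat_lit 0) (nat_lit 30172683141) (nat_lit 836) (nat_lit 48518942944) (nat_lit 122) (nat_lit 5) (nat_lit 121) (nat_lit 5) (nat_lit 132) (nat_lit 5) (nat_lit 407) (nat_lit 400) (nat_lit 213)) (XT.nd (nat_lit 78) (nat_lit 0) (nat_lit 0) (XT.lf (nat_lit 0) (nat_lit 48498885051) (nat_lit 760) (nat_lit 32740730594) (nat_lit 836) (nat_lit 11753533613) (nat_lit 122) (nat_lit 5) (nat_lit 132) (nat_lit 5) (nat_lit 133) (nat_lit 5) (nat_lit 408) (nat_lit 400) (nat_lit 212)) (XT.lf (nat_lit 76) (nat_lit 15509040417) (nat_lit 0) (nat_lit 40460472083) (nat_lit 836) (nat_lit 39495277953) (nat_lit 123) (nat_lit 5) (nat_lit 122) (nat_lit 5) (nat_lit 133) (nat_lit 5) (nat_lit 409) (nat_lit 400) (nat_lit 211)))))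 (XT.nd (nat_lit 234) (nat_lit 836) (nat_lit 0) (XT.nd (nat_lit 78) (nat_lit 760) (nat_lit 0) (XT.lf (nat_lit 0) (nat_lit 64413556759) (nat_lit 760) (nat_lit 30770645242) (nat_lit 76) (nat_lit 2845817697) (nat_lit 123) (nat_lit 5) (nat_lit 133) (nat_lit 5) (nat_lit 124) (nat_lit 5) (nat_lit 410) (nat_lit 400) (nat_lit 210)) (XT.nd (nat_lit 78) (nat_lit 0) (nat_lit 0) (XT.lf (nat_lit 0) (nat_lit 20878242781) (nat_lit 760) (nat_lit 53390344560) (nat_lit 836) (nat_lit 26405484109) (nat_lit 113) (nat_lit 5) (nat_lit 123) (nat_lit 5) (nat_lit 124) (nat_lit 5) (nat_lit 411) (nat_lit 400) (nat_lit 209)) (XT.lf (nat_lit 0) (nat_lit 76177449558) (nat_lit 760) (nat_lit 8959581405) (nat_lit 836) (nat_lit 18287261988) (nat_lit 113) (nat_lit 5) (nat_lit 123) (nat_lit 5) (nat_lit 124) (nat_lit 5) (nat_lit 412) (nat_lit 400) (nat_lit 208)))) (XT.nd (nat_lit 156) (nat_lit 380) (nat_lit 0) (XT.nd (nat_lit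 78) (nat_lit 76) (nat_lit 0) (XT.lf (nat_lit 0) (nat_lit 28244692943) (nat_lit 380) (nat_lit 69333239617) (nat_lit 456) (nat_lit 8682641404) (nat_lit 108) (nat_lit 5) (nat_lit 113) (nat_lit 5) (nat_lit 114) (nat_lit 5) (nat_lit 413) (nat_lit 400) (nat_lit 207)) (XT.lf (nat_lit 0) (nat_lit 1972787267) (nat_lit 456) (nat_lit 21935600832) (nat_lit 76) (nat_lit 85298413685) (nat_lit 107) (nat_lit 5) (nat_lit 113) (nat_lit 5) (nat_lit 108) (nat_lit 5) (nat_lit 414) (nat_lit 400) (nat_lit 206))) (XT.nd (nat_lit 78) (nat_lit 0) (nat_lit 0) (XT.lf (nat_lit 0) (nat_lit 13845891490) (nat_lit 456) (nat_lit 74624097553) (nat_lit 76) (nat_lit 23774400340) (nat_lit 102) (nat_lit 5) (nat_lit 108) (nat_lit 5) (nat_lit 103) (nat_lit 5) (nat_lit 415) (nat_lit 400) (nat_lit 205)) (XT.lf (nat_lit 0) (nat_lit 27081780073) (nat_lit 456) (nat_lit 14898195340) (nat_lit 76) (nat_lit 73415424676) (nat_lit 102) (nat_lit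 5) (nat_lit 108) (nat_lit 5) (nat_lit 103) (nat_lit 5) (nat_lit 416) (nat_lit 400) (nat_lit 204)))))) (XT.nd (nat_lit 546) (nat_lit 1064) (nat_lit 0) (XT.nd (nat_lit 234) (nat_lit 608) (nat_lit 0) (XT.nd (nat_lit 78) (nat_lit 304) (nat_lit 0) (XT.lf (nat_lit 0) (nat_lit 41869625618) (nat_lit 456) (nat_lit 69390229963) (nat_lit 76) (nat_lit 7399597801) (nat_lit 97) (nat_lit 5) (nat_lit 103) (nat_lit 5) (nat_lit 98) (nat_lit 5) (nat_lit 417) (nat_lit 400) (nat_lit 203)) (XT.nd (nat_lit 78) (nat_lit 304) (nat_lit 0) (XT.lf (nat_lit 0) (nat_lit 58341142322) (nat_lit 456) (nat_lit 5604589543) (nat_lit 76) (nat_lit 58093763699) (nat_lit 97) (nat_lit 5) (nat_lit 103) (nat_lit 5) (nat_lit 98) (nat_lit 5) (nat_lit 418) (nat_lit 400) (nat_lit 202)) (XT.lf (nat_lit 0) (nat_lit 63399111926) (nat_lit 304) (nat_lit 13226616193) (nat_lit 380) (nat_lit 48913337234) (nat_lit 93) (nat_lit 5) (nat_lit 97) (nat_lit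 5) (nat_lit 98) (nat_lit 5) (nat_lit 419) (nat_lit 400) (nat_lit 201)))) (XT.nd (nat_lit 156) (nat_lit 304) (nat_lit 0) (XT.nd (nat_lit 78) (nat_lit 0) (nat_lit 0) (XT.lf (nat_lit 0) (nat_lit 6417188764) (nat_lit 304) (nat_lit 90228638688) (nat_lit 380) (nat_lit 32526722122) (nat_lit 89) (nat_lit 5) (nat_lit 93) (nat_lit 5) (nat_lit 94) (nat_lit 5) (nat_lit 420) (nat_lit 400) (nat_lit 200)) (XT.lf (nat_lit 0) (nat_lit 80335155884) (nat_lit 304) (nat_lit 38597153527) (nat_lit 380) (nat_lit 13992129857) (nat_lit 89) (nat_lit 5) (nat_lit 93) (nat_lit 5) (nat_lit 94) (nat_lit 5) (nat_lit 421) (nat_lit 400) (nat_lit 199))) (XT.nd (nat_lit 78) (nat_lit 0) (nat_lit 0) (XT.lf (nat_lit 0) (nat_lit 5883286978) (nat_lit 304) (nat_lit 115399836926) (nat_lit 76) (nat_lit 15547073041) (nat_lit 85) (nat_lit 5) (nat_lit 89) (nat_lit 5) (nat_lit 86) (nat_lit 5) (nat_lit 422) (nat_lit 400) (nat_lit 198)) (XT.lf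 (nat_lit 0) (nat_lit 27819906133) (nat_lit 304) (nat_lit 40787056185) (nat_lit 76) (nat_lit 72235928416) (nat_lit 85) (nat_lit 5) (nat_lit 89) (nat_lit 5) (nat_lit 86) (nat_lit 5) (nat_lit 423) (nat_lit 400) (nat_lit 197))))) (XT.nd (nat_lit 234) (nat_lit 532) (nat_lit 0) (XT.nd (nat_lit 78) (nat_lit 228) (nat_lit 0) (XT.lf (nat_lit 0) (nat_lit 38797761023) (nat_lit 304) (nat_lit 12661044813) (nat_lit 380) (nat_lit 93567141016) (nat_lit 81) (nat_lit 5) (nat_lit 85) (nat_lit 5) (nat_lit 86) (nat_lit 5) (nat_lit 424) (nat_lit 400) (nat_lit 196)) (XT.nd (nat_lit 78) (nat_lit 228) (nat_lit 0) (XT.lf (nat_lit 0) (nat_lit 77700909294) (nat_lit 380) (nat_lit 26336940526) (nat_lit 76) (nat_lit 45309243134) (nat_lit 81) (nat_lit 5) (nat_lit 86) (nat_lit 5) (nat_lit 82) (nat_lit 5) (nat_lit 425) (nat_lit 400) (nat_lit 195)) (XT.lf (nat_lit 0) (nat_lit 59236897482) (nat_lit 228) (nat_lit 47150360812)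 (nat_lit 304) (nat_lit 47440431155) (nat_lit 78) (nat_lit 5) (nat_lit 81) (nat_lit 5) (nat_lit 82) (nat_lit 5) (nat_lit 426) (nat_lit 400) (nat_lit 194)))) (XT.nd (nat_lit 156) (nat_lit 228) (nat_lit 0) (XT.nd (nat_lit 78) (nat_lit 304) (nat_lit 0) (XT.lf (nat_lit 0) (nat_lit 137157432261) (nat_lit 304) (nat_lit 8710340453) (nat_lit 76) (nat_lit 12632067784) (nat_lit 78) (nat_lit 5) (nat_lit 82) (nat_lit 5) (nat_lit 79) (nat_lit 5) (nat_lit 427) (nat_lit 400) (nat_lit 193)) (XT.lf (nat_lit 0) (nat_lit 7974712688) (nat_lit 304) (nat_lit 80071685765) (nat_lit 76) (nat_lit 75249061098) (nat_lit 74) (nat_lit 5) (nat_lit 78) (nat_lit 5) (nat_lit 75) (nat_lit 5) (nat_lit 428) (nat_lit 400) (nat_lit 192))) (XT.nd (nat_lit 78) (nat_lit 0) (nat_lit 0) (XT.lf (nat_lit 0) (nat_lit 11757168907) (nat_lit 228) (nat_lit 26616519745) (nat_lit 304) (nat_lit 129923015023) (nat_lit 71) (nat_lit 5) (nat_lit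 74) (nat_lit 5) (nat_lit 75) (nat_lit 5) (nat_lit 429) (nat_lit 400) (nat_lit 191)) (XT.lf (nat_lit 0) (nat_lit 72262139557) (nat_lit 304) (nat_lit 63136910350) (nat_lit 76) (nat_lit 38050483877) (nat_lit 71) (nat_lit 5) (nat_lit 75) (nat_lit 5) (nat_lit 72) (nat_lit 5) (nat_lit 430) (nat_lit 400) (nat_lit 190))))))) (XT.nd (nat_lit 1092) (nat_lit 1140) (nat_lit 0) (XT.nd (nat_lit 546) (nat_lit 760) (nat_lit 0) (XT.nd (nat_lit 234) (nat_lit 380) (nat_lit 0) (XT.nd (nat_lit 78) (nat_lit 228) (nat_lit 0) (XT.lf (nat_lit 0) (nat_lit 35639865929) (nat_lit 228) (nat_lit 73197687655) (nat_lit 304) (nat_lit 69972824866) (nat_lit 68) (nat_lit 5) (nat_lit 71) (nat_lit 5) (nat_lit 72) (nat_lit 5) (nat_lit 431) (nat_lit 400) (nat_lit 189)) (XT.nd (nat_lit 78) (nat_lit 228) (nat_lit 0) (XT.lf (nat_lit 0) (nat_lit 141547116233) (nat_lit 228) (nat_lit 6763648109) (nat_lit 304) (nat_lit 36075049785) (nat_lit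 68) (nat_lit 5) (nat_lit 71) (nat_lit 5) (nat_lit 72) (nat_lit 5) (nat_lit 432) (nat_lit 400) (nat_lit 188)) (XT.lf (nat_lit 0) (nat_lit 1541057937) (nat_lit 228) (nat_lit 126605877355) (nat_lit 76) (nat_lit 61993062709) (nat_lit 65) (nat_lit 5) (nat_lit 68) (nat_lit 5) (nat_lit 66) (nat_lit 5) (nat_lit 433) (nat_lit 400) (nat_lit 187)))) (XT.nd (nat_lit 156) (nat_lit 152) (nat_lit 0) (XT.nd (nat_lit 78) (nat_lit 228) (nat_lit 0) (XT.lf (nat_lit 0) (nat_lit 40673662676) (nat_lit 228) (nat_lit 20147271505) (nat_lit 76) (nat_lit 135288984748) (nat_lit 65) (nat_lit 5) (nat_lit 68) (nat_lit 5) (nat_lit 66) (nat_lit 5) (nat_lit 434) (nat_lit 400) (nat_lit 186)) (XT.lf (nat_lit 0) (nat_lit 83419004847) (nat_lit 304) (nat_lit 107819013368) (nat_lit 76) (nat_lit 11057512393) (nat_lit 62) (nat_lit 5) (nat_lit 66) (nat_lit 5) (nat_lit 63) (nat_lit 5) (nat_lit 435) (nat_lit 400) (nat_lit 185))) (XT.nd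 (nat_lit 78) (nat_lit 0) (nat_lit 0) (XT.lf (nat_lit 0) (nat_lit 5944897733) (nat_lit 152) (nat_lit 123793191302) (nat_lit 228) (nat_lit 78980510152) (nat_lit 60) (nat_lit 5) (nat_lit 62) (nat_lit 5) (nat_lit 63) (nat_lit 5) (nat_lit 436) (nat_lit 400) (nat_lit 184)) (XT.lf (nat_lit 0) (nat_lit 129139923576) (nat_lit 152) (nat_lit 51058972411) (nat_lit 228) (nat_lit 35172636837) (nat_lit 60) (nat_lit 5) (nat_lit 62) (nat_lit 5) (nat_lit 63) (nat_lit 5) (nat_lit 437) (nat_lit 400) (nat_lit 183))))) (XT.nd (nat_lit 234) (nat_lit 380) (nat_lit 0) (XT.nd (nat_lit 78) (nat_lit 152) (nat_lit 0) (XT.lf (nat_lit 0) (nat_lit 11466553370) (nat_lit 228) (nat_lit 185569597821) (nat_lit 76) (nat_lit 25263140533) (nat_lit 57) (nat_lit 5) (nat_lit 60) (nat_lit 5) (nat_lit 58) (nat_lit 5) (nat_lit 438) (nat_lit 400) (nat_lit 182)) (XT.nd (nat_lit 78) (nat_lit 152) (nat_lit 0) (XT.lf (nat_lit 0) (nat_lit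 61576829187) (nat_lit 228) (nat_lit 62105472144) (nat_lit 76) (nat_lit 105746249391) (nat_lit 57) (nat_lit 5) (nat_lit 60) (nat_lit 5) (nat_lit 58) (nat_lit 5) (nat_lit 439) (nat_lit 400) (nat_lit 181)) (XT.lf (nat_lit 0) (nat_lit 69764465298) (nat_lit 152) (nat_lit 45517191759) (nat_lit 228) (nat_lit 121578163746) (nat_lit 55) (nat_lit 5) (nat_lit 57) (nat_lit 5) (nat_lit 58) (nat_lit 5) (nat_lit 440) (nat_lit 400) (nat_lit 180)))) (XT.nd (nat_lit 156) (nat_lit 228) (nat_lit 0) (XT.nd (nat_lit 78) (nat_lit 152) (nat_lit 0) (XT.lf (nat_lit 0) (nat_lit 173311321048) (nat_lit 228) (nat_lit 34814285910) (nat_lit 76) (nat_lit 36455067740) (nat_lit 55) (nat_lit 5) (nat_lit 58) (nat_lit 5) (nat_lit 56) (nat_lit 5) (nat_lit 441) (nat_lit 400) (nat_lit 179)) (XT.lf (nat_lit 0) (nat_lit 106751073294) (nat_lit 152) (nat_lit 129904092118) (nat_lit 228) (nat_lit 15911771061) (nat_lit 53) (nat_lit 5)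 (nat_lit 55) (nat_lit 5) (nat_lit 56) (nat_lit 5) (nat_lit 442) (nat_lit 400) (nat_lit 178))) (XT.nd (nat_lit 78) (nat_lit 152) (nat_lit 0) (XT.lf (nat_lit 0) (nat_lit 41461682503) (nat_lit 228) (nat_lit 4988679678) (nat_lit 76) (nat_lit 214439240816) (nat_lit 52) (nat_lit 5) (nat_lit 55) (nat_lit 5) (nat_lit 53) (nat_lit 5) (nat_lit 443) (nat_lit 400) (nat_lit 177)) (XT.lf (nat_lit 0) (nat_lit 104154068548) (nat_lit 228) (nat_lit 122850846306) (nat_lit 76) (nat_lit 42461195610) (nat_lit 50) (nat_lit 5) (nat_lit 53) (nat_lit 5) (nat_lit 51) (nat_lit 5) (nat_lit 444) (nat_lit 400) (nat_lit 176)))))) (XT.nd (nat_lit 546) (nat_lit 532) (nat_lit 0) (XT.nd (nat_lit 234) (nat_lit 304) (nat_lit 0) (XT.nd (nat_lit 78) (nat_lit 152) (nat_lit 0) (XT.lf (nat_lit 0) (nat_lit 27626463957) (nat_lit 152) (nat_lit 143633129679) (nat_lit 228) (nat_lit 107147923718) (nat_lit 48) (nat_lit 5) (nat_lit 50) (nat_lit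 5) (nat_lit 51) (nat_lit 5) (nat_lit 445) (nat_lit 400) (nat_lit 175)) (XT.nd (nat_lit 78) (nat_lit 152) (nat_lit 0) (XT.lf (nat_lit 0) (nat_lit 189892477163) (nat_lit 152) (nat_lit 53908300896) (nat_lit 228) (nat_lit 43891197409) (nat_lit 48) (nat_lit 5) (nat_lit 50) (nat_lit 5) (nat_lit 51) (nat_lit 5) (nat_lit 446) (nat_lit 400) (nat_lit 174)) (XT.lf (nat_lit 0) (nat_lit 23466418176) (nat_lit 152) (nat_lit 233479227343) (nat_lit 76) (nat_lit 40394469387) (nat_lit 46) (nat_lit 5) (nat_lit 48) (nat_lit 5) (nat_lit 47) (nat_lit 5) (nat_lit 447) (nat_lit 400) (nat_lit 173)))) (XT.nd (nat_lit 156) (nat_lit 152) (nat_lit 0) (XT.nd (nat_lit 78) (nat_lit 152) (nat_lit 0) (XT.lf (nat_lit 0) (nat_lit 95283910135) (nat_lit 152) (nat_lit 72018859786) (nat_lit 76) (nat_lit 140003563651) (nat_lit 46) (nat_lit 5) (nat_lit 48) (nat_lit 5) (nat_lit 47) (nat_lit 5) (nat_lit 448) (nat_lit 400) (nat_lit 172))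 (XT.lf (nat_lit 0) (nat_lit 100738540564) (nat_lit 152) (nat_lit 71526405173) (nat_lit 228) (nat_lit 145427284009) (nat_lit 44) (nat_lit 5) (nat_lit 46) (nat_lit 5) (nat_lit 47) (nat_lit 5) (nat_lit 449) (nat_lit 400) (nat_lit 171))) (XT.nd (nat_lit 78) (nat_lit 152) (nat_lit 0) (XT.lf (nat_lit 0) (nat_lit 254787938135) (nat_lit 228) (nat_lit 44375914600) (nat_lit 76) (nat_lit 29348922770) (nat_lit 44) (nat_lit 5) (nat_lit 47) (nat_lit 5) (nat_lit 45) (nat_lit 4) (nat_lit 450) (nat_lit 400) (nat_lit 170)) (XT.lf (nat_lit 0) (nat_lit 4928265472) (nat_lit 152) (nat_lit 199642402045) (nat_lit 76) (nat_lit 135131683576) (nat_lit 42) (nat_lit 5) (nat_lit 44) (nat_lit 5) (nat_lit 43) (nat_lit 5) (nat_lit 451) (nat_lit 400) (nat_lit 169))))) (XT.nd (nat_lit 234) (nat_lit 304) (nat_lit 0) (XT.nd (nat_lit 78) (nat_lit 228) (nat_lit 0) (XT.lf (nat_lit 0) (nat_lit 85800099855) (nat_lit 152) (nat_lit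 17376753733) (nat_lit 76) (nat_lit 248175935982) (nat_lit 42) (nat_lit 5) (nat_lit 44) (nat_lit 5) (nat_lit 43) (nat_lit 5) (nat_lit 452) (nat_lit 400) (nat_lit 168)) (XT.nd (nat_lit 78) (nat_lit 76) (nat_lit 0) (XT.lf (nat_lit 0) (nat_lit 173619202234) (nat_lit 228) (nat_lit 183787511831) (nat_lit 76) (nat_lit 6033852113) (nat_lit 40) (nat_lit 5) (nat_lit 43) (nat_lit 5) (nat_lit 41) (nat_lit 4) (nat_lit 453) (nat_lit 400) (nat_lit 167)) (XT.lf (nat_lit 0) (nat_lit 9631406274) (nat_lit 76) (nat_lit 258338632623) (nat_lit 152) (nat_lit 108055653782) (nat_lit 39) (nat_lit 5) (nat_lit 40) (nat_lit 5) (nat_lit 41) (nat_lit 4) (nat_lit 454) (nat_lit 400) (nat_lit 166)))) (XT.nd (nat_lit 156) (nat_lit 76) (nat_lit 0) (XT.nd (nat_lit 78) (nat_lit 228) (nat_lit 0) (XT.lf (nat_lit 0) (nat_lit 219101733590) (nat_lit 76) (nat_lit 151049090783) (nat_lit 152) (nat_lit 18933630803) (nat_lit 39) (nat_lit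 5) (nat_lit 40) (nat_lit 5) (nat_lit 41) (nat_lit 4) (nat_lit 455) (nat_lit 400) (nat_lit 165)) (XT.lf (nat_lit 0) (nat_lit 36243823023) (nat_lit 152) (nat_lit 36577328470) (nat_lit 228) (nat_lit 329888446430) (nat_lit 36) (nat_lit 5) (nat_lit 38) (nat_lit 5) (nat_lit 39) (nat_lit 5) (nat_lit 456) (nat_lit 400) (nat_lit 164))) (XT.nd (nat_lit 78) (nat_lit 76) (nat_lit 0) (XT.lf (nat_lit 0) (nat_lit 172758703823) (nat_lit 228) (nat_lit 159852259467) (nat_lit 76) (nat_lit 84177948912) (nat_lit 36) (nat_lit 5) (nat_lit 39) (nat_lit 5) (nat_lit 37) (nat_lit 4) (nat_lit 457) (nat_lit 400) (nat_lit 163)) (XT.lf (nat_lit 0) (nat_lit 58359979339) (nat_lit 76) (nat_lit 220843832561) (nat_lit 152) (nat_lit 152292846405) (nat_lit 35) (nat_lit 5) (nat_lit 36) (nat_lit 5) (nat_lit 37) (nat_lit 4) (nat_lit 458) (nat_lit 400) (nat_lit 162))))))))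
noncomputable def xc220 : XT := (XT.nd (nat_lit 49530) (nat_lit 0) (nat_lit 2508) (XT.nd (nat_lit 1014) (nat_lit 76) (nat_lit 0) (XT.nd (nat_lit 468) (nat_lit 304) (nat_lit 0) (XT.nd (nat_lit 234) (nat_lit 228) (nat_lit 0) (XT.nd (nat_lit 78) (nat_lit 228) (nat_lit 0) (XT.lf (nat_lit 0) (nat_lit 293032335063) (nat_lit 76) (nat_lit 100645904832) (nat_lit 152) (nat_lit 53126198607) (nat_lit 35) (nat_lit 5) (nat_lit 36) (nat_lit 5) (nat_lit 37) (nat_lit 4) (nat_lit 459) (nat_lit 400) (nat_lit 161)) (XT.nd (nat_lit 78) (nat_lit 0) (nat_lit 0) (XT.lf (nat_lit 0) (nat_lit 51020576745) (nat_lit 228) (nat_lit 384939501324) (nat_lit 76) (nat_lit 26795014226) (nat_lit 32) (nat_lit 5) (nat_lit 35) (nat_lit 5) (nat_lit 33) (nat_lit 4) (nat_lit 460) (nat_lit 400) (nat_lit 160)) (XT.lf (nat_lit 0) (nat_lit 162886025300) (nat_lit 228) (nat_lit 155615523271) (nat_lit 76) (nat_lit 160743348001) (nat_lit 32)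 (nat_lit 5) (nat_lit 35) (nat_lit 5) (nat_lit 33) (nat_lit 4) (nat_lit 461) (nat_lit 400) (nat_lit 159)))) (XT.nd (nat_lit 78) (nat_lit 152) (nat_lit 0) (XT.lf (nat_lit 0) (nat_lit 87990716591) (nat_lit 76) (nat_lit 193727709795) (nat_lit 152) (nat_lit 214772080684) (nat_lit 31) (nat_lit 5) (nat_lit 32) (nat_lit 5) (nat_lit 33) (nat_lit 4) (nat_lit 462) (nat_lit 400) (nat_lit 158)) (XT.nd (nat_lit 78) (nat_lit 152) (nat_lit 0) (XT.lf (nat_lit 0) (nat_lit 349179701549) (nat_lit 76) (nat_lit 59948070516) (nat_lit 152) (nat_lit 105338859815) (nat_lit 31) (nat_lit 5) (nat_lit 32) (nat_lit 5) (nat_lit 33) (nat_lit 4) (nat_lit 463) (nat_lit 400) (nat_lit 157)) (XT.lf (nat_lit 0) (nat_lit 11993729415) (nat_lit 152) (nat_lit 441634184789) (nat_lit 76) (nat_lit 79569487127) (nat_lit 29) (nat_lit 5) (nat_lit 31) (nat_lit 5) (nat_lit 30) (nat_lit 4) (nat_lit 464) (nat_lit 400) (nat_lit 156))))) (XT.nd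 (nat_lit 234) (nat_lit 228) (nat_lit 0) (XT.nd (nat_lit 78) (nat_lit 76) (nat_lit 0) (XT.lf (nat_lit 0) (nat_lit 135480633872) (nat_lit 152) (nat_lit 188486180686) (nat_lit 76) (nat_lit 228620163269) (nat_lit 29) (nat_lit 5) (nat_lit 31) (nat_lit 5) (nat_lit 30) (nat_lit 4) (nat_lit 465) (nat_lit 400) (nat_lit 155)) (XT.nd (nat_lit 78) (nat_lit 0) (nat_lit 0) (XT.lf (nat_lit 0) (nat_lit 79875567936) (nat_lit 76) (nat_lit 186513305697) (nat_lit 152) (nat_lit 306494810022) (nat_lit 28) (nat_lit 5) (nat_lit 29) (nat_lit 5) (nat_lit 30) (nat_lit 4) (nat_lit 466) (nat_lit 400) (nat_lit 154)) (XT.lf (nat_lit 0) (nat_lit 368199048663) (nat_lit 76) (nat_lit 38835491707) (nat_lit 152) (nat_lit 187001083663) (nat_lit 28) (nat_lit 5) (nat_lit 29) (nat_lit 5) (nat_lit 30) (nat_lit 4) (nat_lit 467) (nat_lit 400) (nat_lit 153)))) (XT.nd (nat_lit 156) (nat_lit 76) (nat_lit 0) (XT.nd (nat_lit 78) (nat_lit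 76) (nat_lit 0) (XT.lf (nat_lit 0) (nat_lit 54627170802) (nat_lit 76) (nat_lit 502752733172) (nat_lit 76) (nat_lit 58731886790) (nat_lit 27) (nat_lit 4) (nat_lit 28) (nat_lit 5) (nat_lit 28) (nat_lit 4) (nat_lit 468) (nat_lit 400) (nat_lit 152)) (XT.lf (nat_lit 0) (nat_lit 78043782842) (nat_lit 152) (nat_lit 284031209111) (nat_lit 76) (nat_lit 276931288074) (nat_lit 26) (nat_lit 5) (nat_lit 28) (nat_lit 5) (nat_lit 27) (nat_lit 4) (nat_lit 469) (nat_lit 400) (nat_lit 151))) (XT.nd (nat_lit 78) (nat_lit 0) (nat_lit 0) (XT.lf (nat_lit 0) (nat_lit 6541258338) (nat_lit 76) (nat_lit 213245246165) (nat_lit 152) (nat_lit 443205746113) (nat_lit 25) (nat_lit 5) (nat_lit 26) (nat_lit 5) (nat_lit 27) (nat_lit 4) (nat_lit 470) (nat_lit 400) (nat_lit 150)) (XT.lf (nat_lit 0) (nat_lit 321503116670) (nat_lit 76) (nat_lit 51923370739) (nat_lit 152) (nat_lit 314510526075) (nat_lit 25) (nat_lit 5) (nat_lit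 26) (nat_lit 5) (nat_lit 27) (nat_lit 4) (nat_lit 471) (nat_lit 400) (nat_lit 149)))))) (XT.nd (nat_lit 47970) (nat_lit 0) (nat_lit 6764) (XT.nd (nat_lit 47658) (nat_lit 0) (nat_lit 7144) (XT.nd (nat_lit 78) (nat_lit 76) (nat_lit 0) (XT.lf (nat_lit 0) (nat_lit 536582342987) (nat_lit 152) (nat_lit 63750048252) (nat_lit 0) (nat_lit 113704929588) (nat_lit 25) (nat_lit 5) (nat_lit 27) (nat_lit 4) (nat_lit 25) (nat_lit 4) (nat_lit 472) (nat_lit 400) (nat_lit 148)) (XT.nd (nat_lit 47502) (nat_lit 0) (nat_lit 7144) (XT.lf (nat_lit 0) (nat_lit 261589132896) (nat_lit 76) (nat_lit 451242126378) (nat_lit 76) (nat_lit 28364620872) (nat_lit 24) (nat_lit 4) (nat_lit 25) (nat_lit 5) (nat_lit 25) (nat_lit 4) (nat_lit 473) (nat_lit 400) (nat_lit 147)) (XT.lf (nat_lit 0) (nat_lit 11109388672) (nat_lit 836) (nat_lit 14387719171) (nat_lit 836) (nat_lit 14387719171) (nat_lit 118) (nat_lit 3) (nat_lit 129) (nat_lit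 3) (nat_lit 129) (nat_lit 5) (nat_lit 401) (nat_lit 401) (nat_lit 218)))) (XT.nd (nat_lit 156) (nat_lit 0) (nat_lit 76) (XT.nd (nat_lit 78) (nat_lit 0) (nat_lit 76) (XT.lf (nat_lit 76) (nat_lit 10310485290) (nat_lit 0) (nat_lit 12634770539) (nat_lit 836) (nat_lit 58810083611) (nat_lit 119) (nat_lit 5) (nat_lit 118) (nat_lit 3) (nat_lit 129) (nat_lit 5) (nat_lit 402) (nat_lit 401) (nat_lit 217)) (XT.lf (nat_lit 0) (nat_lit 24634309309) (nat_lit 760) (nat_lit 31906173540) (nat_lit 836) (nat_lit 27253514070) (nat_lit 119) (nat_lit 5) (nat_lit 129) (nat_lit 5) (nat_lit 130) (nat_lit 5) (nat_lit 403) (nat_lit 401) (nat_lit 216))) (XT.nd (nat_lit 78) (nat_lit 0) (nat_lit 76) (XT.lf (nat_lit 76) (nat_lit 9712816963) (nat_lit 0) (nat_lit 17053157761) (nat_lit 836) (nat_lit 59150704920) (nat_lit 120) (nat_lit 5) (nat_lit 119) (nat_lit 5) (nat_lit 130) (nat_lit 5) (nat_lit 404) (nat_lit 401) (nat_lit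 215)) (XT.lf (nat_lit 0) (nat_lit 29933928297) (nat_lit 760) (nat_lit 33988350578) (nat_lit 836) (nat_lit 24176732703) (nat_lit 120) (nat_lit 5) (nat_lit 130) (nat_lit 5) (nat_lit 131) (nat_lit 5) (nat_lit 405) (nat_lit 401) (nat_lit 214))))) (XT.nd (nat_lit 234) (nat_lit 532) (nat_lit 0) (XT.nd (nat_lit 78) (nat_lit 0) (nat_lit 76) (XT.lf (nat_lit 76) (nat_lit 10390563975) (nat_lit 0) (nat_lit 23310943882) (nat_lit 836) (nat_lit 56666891140) (nat_lit 121) (nat_lit 5) (nat_lit 120) (nat_lit 5) (nat_lit 131) (nat_lit 5) (nat_lit 406) (nat_lit 401) (nat_lit 213)) (XT.nd (nat_lit 78) (nat_lit 0) (nat_lit 0) (XT.lf (nat_lit 0) (nat_lit 38543788095) (nat_lit 760) (nat_lit 34865698720) (nat_lit 836) (nat_lit 19297453177) (nat_lit 121) (nat_lit 5) (nat_lit 131) (nat_lit 5) (nat_lit 132) (nat_lit 5) (nat_lit 407) (nat_lit 401) (nat_lit 212)) (XT.lf (nat_lit 76) (nat_lit 12520242990) (nat_lit 0) (nat_lit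 31685053381) (nat_lit 836) (nat_lit 50928256238) (nat_lit 122) (nat_lit 5) (nat_lit 121) (nat_lit 5) (nat_lit 132) (nat_lit 5) (nat_lit 408) (nat_lit 401) (nat_lit 211)))) (XT.nd (nat_lit 156) (nat_lit 684) (nat_lit 0) (XT.nd (nat_lit 78) (nat_lit 0) (nat_lit 0) (XT.lf (nat_lit 0) (nat_lit 50938853467) (nat_lit 760) (nat_lit 34365427981) (nat_lit 836) (nat_lit 12337766003) (nat_lit 122) (nat_lit 5) (nat_lit 132) (nat_lit 5) (nat_lit 133) (nat_lit 5) (nat_lit 409) (nat_lit 401) (nat_lit 210)) (XT.lf (nat_lit 76) (nat_lit 16296632563) (nat_lit 0) (nat_lit 42485853831) (nat_lit 836) (nat_lit 41454810990) (nat_lit 123) (nat_lit 5) (nat_lit 122) (nat_lit 5) (nat_lit 133) (nat_lit 5) (nat_lit 410) (nat_lit 401) (nat_lit 209))) (XT.nd (nat_lit 78) (nat_lit 760) (nat_lit 0) (XT.lf (nat_lit 0) (nat_lit 67648007408) (nat_lit 760) (nat_lit 32296882710) (nat_lit 76) (nat_lit 2985934612) (nat_lit 123)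 (nat_lit 5) (nat_lit 133) (nat_lit 5) (nat_lit 124) (nat_lit 5) (nat_lit 411) (nat_lit 401) (nat_lit 208)) (XT.lf (nat_lit 0) (nat_lit 21934251411) (nat_lit 760) (nat_lit 56061071119) (nat_lit 836) (nat_lit 27711780236) (nat_lit 113) (nat_lit 5) (nat_lit 123) (nat_lit 5) (nat_lit 124) (nat_lit 5) (nat_lit 412) (nat_lit 401) (nat_lit 207))))))) (XT.nd (nat_lit 1014) (nat_lit 1824) (nat_lit 0) (XT.nd (nat_lit 468) (nat_lit 1216) (nat_lit 0) (XT.nd (nat_lit 234) (nat_lit 760) (nat_lit 0) (XT.nd (nat_lit 78) (nat_lit 456) (nat_lit 0) (XT.lf (nat_lit 0) (nat_lit 79997842504) (nat_lit 760) (nat_lit 9408712220) (nat_lit 836) (nat_lit 19188312632) (nat_lit 113) (nat_lit 5) (nat_lit 123) (nat_lit 5) (nat_lit 124) (nat_lit 5) (nat_lit 413) (nat_lit 401) (nat_lit 206)) (XT.nd (nat_lit 78) (nat_lit 76) (nat_lit 0) (XT.lf (nat_lit 0) (nat_lit 29668909853) (nat_lit 380) (nat_lit 72800158060) (nat_lit 456)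 (nat_lit 9103916497) (nat_lit 108) (nat_lit 5) (nat_lit 113) (nat_lit 5) (nat_lit 114) (nat_lit 5) (nat_lit 414) (nat_lit 401) (nat_lit 205)) (XT.lf (nat_lit 0) (nat_lit 2083279463) (nat_lit 456) (nat_lit 23020571558) (nat_lit 76) (nat_lit 89562692482) (nat_lit 107) (nat_lit 5) (nat_lit 113) (nat_lit 5) (nat_lit 108) (nat_lit 5) (nat_lit 415) (nat_lit 401) (nat_lit 204)))) (XT.nd (nat_lit 78) (nat_lit 380) (nat_lit 0) (XT.lf (nat_lit 0) (nat_lit 14549658206) (nat_lit 456) (nat_lit 78343106966) (nat_lit 76) (nat_lit 24963264616) (nat_lit 102) (nat_lit 5) (nat_lit 108) (nat_lit 5) (nat_lit 103) (nat_lit 5) (nat_lit 416) (nat_lit 401) (nat_lit 203)) (XT.nd (nat_lit 78) (nat_lit 380) (nat_lit 0) (XT.lf (nat_lit 0) (nat_lit 28446794926) (nat_lit 456) (nat_lit 15631490379) (nat_lit 76) (nat_lit 77086333300) (nat_lit 102) (nat_lit 5) (nat_lit 108) (nat_lit 5) (nat_lit 103) (nat_lit 5) (nat_lit 417)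 (nat_lit 401) (nat_lit 202)) (XT.lf (nat_lit 0) (nat_lit 43973704051) (nat_lit 456) (nat_lit 72847793087) (nat_lit 76) (nat_lit 7770394106) (nat_lit 97) (nat_lit 5) (nat_lit 103) (nat_lit 5) (nat_lit 98) (nat_lit 5) (nat_lit 418) (nat_lit 401) (nat_lit 201))))) (XT.nd (nat_lit 234) (nat_lit 608) (nat_lit 0) (XT.nd (nat_lit 78) (nat_lit 608) (nat_lit 0) (XT.lf (nat_lit 0) (nat_lit 61268291964) (nat_lit 456) (nat_lit 5873439616) (nat_lit 76) (nat_lit 60999229423) (nat_lit 97) (nat_lit 5) (nat_lit 103) (nat_lit 5) (nat_lit 98) (nat_lit 5) (nat_lit 419) (nat_lit 401) (nat_lit 200)) (XT.nd (nat_lit 78) (nat_lit 304) (nat_lit 0) (XT.lf (nat_lit 0) (nat_lit 66580263388) (nat_lit 304) (nat_lit 13886537866) (nat_lit 380) (nat_lit 51348723542) (nat_lit 93) (nat_lit 5) (nat_lit 97) (nat_lit 5) (nat_lit 98) (nat_lit 5) (nat_lit 420) (nat_lit 401) (nat_lit 199)) (XT.lf (nat_lit 0) (nat_lit 6749527705)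 (nat_lit 304) (nat_lit 94738111994) (nat_lit 380) (nat_lit 34143057035) (nat_lit 89) (nat_lit 5) (nat_lit 93) (nat_lit 5) (nat_lit 94) (nat_lit 5) (nat_lit 421) (nat_lit 401) (nat_lit 198)))) (XT.nd (nat_lit 156) (nat_lit 304) (nat_lit 0) (XT.nd (nat_lit 78) (nat_lit 304) (nat_lit 0) (XT.lf (nat_lit 0) (nat_lit 84362846537) (nat_lit 304) (nat_lit 40525145843) (nat_lit 380) (nat_lit 14682211405) (nat_lit 89) (nat_lit 5) (nat_lit 93) (nat_lit 5) (nat_lit 94) (nat_lit 5) (nat_lit 422) (nat_lit 401) (nat_lit 197)) (XT.lf (nat_lit 0) (nat_lit 6186437934) (nat_lit 304) (nat_lit 121158350004) (nat_lit 76) (nat_lit 16326465831) (nat_lit 85) (nat_lit 5) (nat_lit 89) (nat_lit 5) (nat_lit 86) (nat_lit 5) (nat_lit 423) (nat_lit 401) (nat_lit 196))) (XT.nd (nat_lit 78) (nat_lit 304) (nat_lit 0) (XT.lf (nat_lit 0) (nat_lit 29219460113) (nat_lit 304) (nat_lit 42815476833) (nat_lit 76) (nat_lit 75849666873)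 (nat_lit 85) (nat_lit 5) (nat_lit 89) (nat_lit 5) (nat_lit 86) (nat_lit 5) (nat_lit 424) (nat_lit 401) (nat_lit 195)) (XT.lf (nat_lit 0) (nat_lit 40748404910) (nat_lit 304) (nat_lit 13291660264) (nat_lit 380) (nat_lit 98236759718) (nat_lit 81) (nat_lit 5) (nat_lit 85) (nat_lit 5) (nat_lit 86) (nat_lit 5) (nat_lit 425) (nat_lit 401) (nat_lit 194)))))) (XT.nd (nat_lit 546) (nat_lit 836) (nat_lit 0) (XT.nd (nat_lit 234) (nat_lit 760) (nat_lit 0) (XT.nd (nat_lit 78) (nat_lit 228) (nat_lit 0) (XT.lf (nat_lit 0) (nat_lit 81593913893) (nat_lit 380) (nat_lit 27643180797) (nat_lit 76) (nat_lit 47576951764) (nat_lit 81) (nat_lit 5) (nat_lit 86) (nat_lit 5) (nat_lit 82) (nat_lit 5) (nat_lit 426) (nat_lit 401) (nat_lit 193)) (XT.nd (nat_lit 78) (nat_lit 0) (nat_lit 0) (XT.lf (nat_lit 0) (nat_lit 62209178034) (nat_lit 228) (nat_lit 49505186233) (nat_lit 304) (nat_lit 49804319463) (nat_lit 78) (nat_lit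 5) (nat_lit 81) (nat_lit 5) (nat_lit 82) (nat_lit 5) (nat_lit 427) (nat_lit 401) (nat_lit 192)) (XT.lf (nat_lit 0) (nat_lit 144022718253) (nat_lit 304) (nat_lit 9135587161) (nat_lit 76) (nat_lit 13266153497) (nat_lit 78) (nat_lit 5) (nat_lit 82) (nat_lit 5) (nat_lit 79) (nat_lit 5) (nat_lit 428) (nat_lit 401) (nat_lit 191)))) (XT.nd (nat_lit 156) (nat_lit 228) (nat_lit 0) (XT.nd (nat_lit 78) (nat_lit 228) (nat_lit 0) (XT.lf (nat_lit 0) (nat_lit 8380788411) (nat_lit 304) (nat_lit 84064920067) (nat_lit 76) (nat_lit 79014154421) (nat_lit 74) (nat_lit 5) (nat_lit 78) (nat_lit 5) (nat_lit 75) (nat_lit 5) (nat_lit 429) (nat_lit 401) (nat_lit 190)) (XT.lf (nat_lit 0) (nat_lit 12355210403) (nat_lit 228) (nat_lit 27944312228) (nat_lit 304) (nat_lit 136411656250) (nat_lit 71) (nat_lit 5) (nat_lit 74) (nat_lit 5) (nat_lit 75) (nat_lit 5) (nat_lit 430) (nat_lit 401) (nat_lit 189))) (XT.nd (nat_lit 78)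 (nat_lit 228) (nat_lit 0) (XT.lf (nat_lit 0) (nat_lit 75882100734) (nat_lit 304) (nat_lit 66283759995) (nat_lit 76) (nat_lit 39955804654) (nat_lit 71) (nat_lit 5) (nat_lit 75) (nat_lit 5) (nat_lit 72) (nat_lit 5) (nat_lit 431) (nat_lit 401) (nat_lit 188)) (XT.lf (nat_lit 0) (nat_lit 37431693875) (nat_lit 228) (nat_lit 76854418743) (nat_lit 304) (nat_lit 73464448420) (nat_lit 68) (nat_lit 5) (nat_lit 71) (nat_lit 5) (nat_lit 72) (nat_lit 5) (nat_lit 432) (nat_lit 401) (nat_lit 187))))) (XT.nd (nat_lit 234) (nat_lit 608) (nat_lit 0) (XT.nd (nat_lit 78) (nat_lit 228) (nat_lit 0) (XT.lf (nat_lit 0) (nat_lit 148633838377) (nat_lit 228) (nat_lit 7098827377) (nat_lit 304) (nat_lit 37872118761) (nat_lit 68) (nat_lit 5) (nat_lit 71) (nat_lit 5) (nat_lit 72) (nat_lit 5) (nat_lit 433) (nat_lit 401) (nat_lit 186)) (XT.nd (nat_lit 78) (nat_lit 0) (nat_lit 0) (XT.lf (nat_lit 0) (nat_lit 1624468248) (nat_lit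 228) (nat_lit 132926474775) (nat_lit 76) (nat_lit 65095735049) (nat_lit 65) (nat_lit 5) (nat_lit 68) (nat_lit 5) (nat_lit 66) (nat_lit 5) (nat_lit 434) (nat_lit 401) (nat_lit 185)) (XT.lf (nat_lit 0) (nat_lit 42713400490) (nat_lit 228) (nat_lit 21145400368) (nat_lit 76) (nat_lit 142056309419) (nat_lit 65) (nat_lit 5) (nat_lit 68) (nat_lit 5) (nat_lit 66) (nat_lit 5) (nat_lit 435) (nat_lit 401) (nat_lit 184)))) (XT.nd (nat_lit 156) (nat_lit 228) (nat_lit 0) (XT.nd (nat_lit 78) (nat_lit 152) (nat_lit 0) (XT.lf (nat_lit 0) (nat_lit 87595912916) (nat_lit 304) (nat_lit 113200630694) (nat_lit 76) (nat_lit 11613463860) (nat_lit 62) (nat_lit 5) (nat_lit 66) (nat_lit 5) (nat_lit 63) (nat_lit 5) (nat_lit 436) (nat_lit 401) (nat_lit 183)) (XT.lf (nat_lit 0) (nat_lit 6251325424) (nat_lit 152) (nat_lit 129979485552) (nat_lit 228) (nat_lit 82923425603) (nat_lit 60) (nat_lit 5) (nat_lit 62) (nat_lit 5)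 (nat_lit 63) (nat_lit 5) (nat_lit 437) (nat_lit 401) (nat_lit 182))) (XT.nd (nat_lit 78) (nat_lit 228) (nat_lit 0) (XT.lf (nat_lit 0) (nat_lit 135605665283) (nat_lit 152) (nat_lit 53608715970) (nat_lit 228) (nat_lit 36925449577) (nat_lit 60) (nat_lit 5) (nat_lit 62) (nat_lit 5) (nat_lit 63) (nat_lit 5) (nat_lit 438) (nat_lit 401) (nat_lit 181)) (XT.lf (nat_lit 0) (nat_lit 12045434211) (nat_lit 228) (nat_lit 194839063259) (nat_lit 76) (nat_lit 26529479720) (nat_lit 57) (nat_lit 5) (nat_lit 60) (nat_lit 5) (nat_lit 58) (nat_lit 5) (nat_lit 439) (nat_lit 401) (nat_lit 180))))))))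
noncomputable def xc221 : XT := (XT.nd (nat_lit 2106) (nat_lit 304) (nat_lit 0) (XT.nd (nat_lit 1014) (nat_lit 988) (nat_lit 0) (XT.nd (nat_lit 468) (nat_lit 608) (nat_lit 0) (XT.nd (nat_lit 234) (nat_lit 380) (nat_lit 0) (XT.nd (nat_lit 78) (nat_lit 152) (nat_lit 0) (XT.lf (nat_lit 0) (nat_lit 64660959382) (nat_lit 228) (nat_lit 65202160557) (nat_lit 76) (nat_lit 111036592490) (nat_lit 57) (nat_lit 5) (nat_lit 60) (nat_lit 5) (nat_lit 58) (nat_lit 5) (nat_lit 440) (nat_lit 401) (nat_lit 179)) (XT.nd (nat_lit 78) (nat_lit 0) (nat_lit 0) (XT.lf (nat_lit 0) (nat_lit 73261135286) (nat_lit 152) (nat_lit 47789773392) (nat_lit 228) (nat_lit 127651643402) (nat_lit 55) (nat_lit 5) (nat_lit 57) (nat_lit 5) (nat_lit 58) (nat_lit 5) (nat_lit 441) (nat_lit 401) (nat_lit 178)) (XT.lf (nat_lit 0) (nat_lit 181981858478) (nat_lit 228) (nat_lit 36546757055) (nat_lit 76) (nat_lit 38280843070) (nat_lit 55)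 (nat_lit 5) (nat_lit 58) (nat_lit 5) (nat_lit 56) (nat_lit 5) (nat_lit 442) (nat_lit 401) (nat_lit 177)))) (XT.nd (nat_lit 78) (nat_lit 228) (nat_lit 0) (XT.lf (nat_lit 0) (nat_lit 112096737156) (nat_lit 152) (nat_lit 136396047795) (nat_lit 228) (nat_lit 16702254081) (nat_lit 53) (nat_lit 5) (nat_lit 55) (nat_lit 5) (nat_lit 56) (nat_lit 5) (nat_lit 443) (nat_lit 401) (nat_lit 176)) (XT.nd (nat_lit 78) (nat_lit 152) (nat_lit 0) (XT.lf (nat_lit 0) (nat_lit 43539473413) (nat_lit 228) (nat_lit 5230232946) (nat_lit 76) (nat_lit 225164140357) (nat_lit 52) (nat_lit 5) (nat_lit 55) (nat_lit 5) (nat_lit 53) (nat_lit 5) (nat_lit 444) (nat_lit 401) (nat_lit 175)) (XT.lf (nat_lit 0) (nat_lit 109366424862) (nat_lit 228) (nat_lit 128985452969) (nat_lit 76) (nat_lit 44587304473) (nat_lit 50) (nat_lit 5) (nat_lit 53) (nat_lit 5) (nat_lit 51) (nat_lit 5) (nat_lit 445) (nat_lit 401) (nat_lit 174))))) (XT.nd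 (nat_lit 234) (nat_lit 304) (nat_lit 0) (XT.nd (nat_lit 78) (nat_lit 152) (nat_lit 0) (XT.lf (nat_lit 0) (nat_lit 29015594814) (nat_lit 152) (nat_lit 150811531725) (nat_lit 228) (nat_lit 112500538034) (nat_lit 48) (nat_lit 5) (nat_lit 50) (nat_lit 5) (nat_lit 51) (nat_lit 5) (nat_lit 446) (nat_lit 401) (nat_lit 173)) (XT.nd (nat_lit 78) (nat_lit 152) (nat_lit 0) (XT.lf (nat_lit 0) (nat_lit 199394536887) (nat_lit 152) (nat_lit 56600616476) (nat_lit 228) (nat_lit 46081203117) (nat_lit 48) (nat_lit 5) (nat_lit 50) (nat_lit 5) (nat_lit 51) (nat_lit 5) (nat_lit 447) (nat_lit 401) (nat_lit 172)) (XT.lf (nat_lit 0) (nat_lit 24644103144) (nat_lit 152) (nat_lit 245145560989) (nat_lit 76) (nat_lit 42417237462) (nat_lit 46) (nat_lit 5) (nat_lit 48) (nat_lit 5) (nat_lit 47) (nat_lit 5) (nat_lit 448) (nat_lit 401) (nat_lit 171)))) (XT.nd (nat_lit 156) (nat_lit 152) (nat_lit 0) (XT.nd (nat_lit 78) (nat_lit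 152) (nat_lit 0) (XT.lf (nat_lit 0) (nat_lit 100052261888) (nat_lit 152) (nat_lit 75612538279) (nat_lit 76) (nat_lit 147006641457) (nat_lit 46) (nat_lit 5) (nat_lit 48) (nat_lit 5) (nat_lit 47) (nat_lit 5) (nat_lit 449) (nat_lit 401) (nat_lit 170)) (XT.lf (nat_lit 0) (nat_lit 105782614919) (nat_lit 152) (nat_lit 75099648024) (nat_lit 228) (nat_lit 152694374019) (nat_lit 44) (nat_lit 5) (nat_lit 46) (nat_lit 5) (nat_lit 47) (nat_lit 5) (nat_lit 450) (nat_lit 401) (nat_lit 169))) (XT.nd (nat_lit 78) (nat_lit 152) (nat_lit 0) (XT.lf (nat_lit 0) (nat_lit 267531256915) (nat_lit 228) (nat_lit 46587754567) (nat_lit 76) (nat_lit 30819205967) (nat_lit 44) (nat_lit 5) (nat_lit 47) (nat_lit 5) (nat_lit 45) (nat_lit 4) (nat_lit 451) (nat_lit 401) (nat_lit 168)) (XT.lf (nat_lit 0) (nat_lit 5178584374) (nat_lit 152) (nat_lit 209617548766) (nat_lit 76) (nat_lit 141891139556) (nat_lit 42) (nat_lit 5) (nat_lit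 44) (nat_lit 5) (nat_lit 43) (nat_lit 5) (nat_lit 452) (nat_lit 401) (nat_lit 167)))))) (XT.nd (nat_lit 546) (nat_lit 456) (nat_lit 0) (XT.nd (nat_lit 234) (nat_lit 304) (nat_lit 0) (XT.nd (nat_lit 78) (nat_lit 228) (nat_lit 0) (XT.lf (nat_lit 0) (nat_lit 90093824494) (nat_lit 152) (nat_lit 18238950105) (nat_lit 76) (nat_lit 260587467830) (nat_lit 42) (nat_lit 5) (nat_lit 44) (nat_lit 5) (nat_lit 43) (nat_lit 5) (nat_lit 453) (nat_lit 401) (nat_lit 166)) (XT.nd (nat_lit 78) (nat_lit 76) (nat_lit 0) (XT.lf (nat_lit 0) (nat_lit 182303851998) (nat_lit 228) (nat_lit 192970215507) (nat_lit 76) (nat_lit 6338341892) (nat_lit 40) (nat_lit 5) (nat_lit 43) (nat_lit 5) (nat_lit 41) (nat_lit 4) (nat_lit 454) (nat_lit 401) (nat_lit 165)) (XT.lf (nat_lit 0) (nat_lit 10119540892) (nat_lit 76) (nat_lit 271252616392) (nat_lit 152) (nat_lit 113454638628) (nat_lit 39) (nat_lit 5) (nat_lit 40) (nat_lit 5) (nat_lit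 41) (nat_lit 4) (nat_lit 455) (nat_lit 401) (nat_lit 164)))) (XT.nd (nat_lit 156) (nat_lit 76) (nat_lit 0) (XT.nd (nat_lit 78) (nat_lit 228) (nat_lit 0) (XT.lf (nat_lit 0) (nat_lit 230063071988) (nat_lit 76) (nat_lit 158598737835) (nat_lit 152) (nat_lit 19876695350) (nat_lit 39) (nat_lit 5) (nat_lit 40) (nat_lit 5) (nat_lit 41) (nat_lit 4) (nat_lit 456) (nat_lit 401) (nat_lit 163)) (XT.lf (nat_lit 0) (nat_lit 38062279473) (nat_lit 152) (nat_lit 38403361915) (nat_lit 228) (nat_lit 346379264316) (nat_lit 36) (nat_lit 5) (nat_lit 38) (nat_lit 5) (nat_lit 39) (nat_lit 5) (nat_lit 457) (nat_lit 401) (nat_lit 162))) (XT.nd (nat_lit 78) (nat_lit 76) (nat_lit 0) (XT.lf (nat_lit 0) (nat_lit 181399950015) (nat_lit 228) (nat_lit 167838783694) (nat_lit 76) (nat_lit 88389458077) (nat_lit 36) (nat_lit 5) (nat_lit 39) (nat_lit 5) (nat_lit 37) (nat_lit 4) (nat_lit 458) (nat_lit 401) (nat_lit 161)) (XT.lf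 (nat_lit 0) (nat_lit 61283968847) (nat_lit 76) (nat_lit 231883280511) (nat_lit 152) (nat_lit 159904079066) (nat_lit 35) (nat_lit 5) (nat_lit 36) (nat_lit 5) (nat_lit 37) (nat_lit 4) (nat_lit 459) (nat_lit 401) (nat_lit 160))))) (XT.nd (nat_lit 234) (nat_lit 228) (nat_lit 0) (XT.nd (nat_lit 78) (nat_lit 228) (nat_lit 0) (XT.lf (nat_lit 0) (nat_lit 307689657094) (nat_lit 76) (nat_lit 105675587047) (nat_lit 152) (nat_lit 55779261242) (nat_lit 35) (nat_lit 5) (nat_lit 36) (nat_lit 5) (nat_lit 37) (nat_lit 4) (nat_lit 460) (nat_lit 401) (nat_lit 159)) (XT.nd (nat_lit 78) (nat_lit 0) (nat_lit 0) (XT.lf (nat_lit 0) (nat_lit 53574729610) (nat_lit 228) (nat_lit 404180647042) (nat_lit 76) (nat_lit 28137313664) (nat_lit 32) (nat_lit 5) (nat_lit 35) (nat_lit 5) (nat_lit 33) (nat_lit 4) (nat_lit 461) (nat_lit 401) (nat_lit 158)) (XT.lf (nat_lit 0) (nat_lit 171033301829) (nat_lit 228) (nat_lit 163390747676)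 (nat_lit 76) (nat_lit 168782942760) (nat_lit 32) (nat_lit 5) (nat_lit 35) (nat_lit 5) (nat_lit 33) (nat_lit 4) (nat_lit 462) (nat_lit 401) (nat_lit 157)))) (XT.nd (nat_lit 156) (nat_lit 152) (nat_lit 0) (XT.nd (nat_lit 78) (nat_lit 0) (nat_lit 0) (XT.lf (nat_lit 0) (nat_lit 92395714636) (nat_lit 76) (nat_lit 203411551936) (nat_lit 152) (nat_lit 225507619554) (nat_lit 31) (nat_lit 5) (nat_lit 32) (nat_lit 5) (nat_lit 33) (nat_lit 4) (nat_lit 463) (nat_lit 401) (nat_lit 156)) (XT.lf (nat_lit 0) (nat_lit 366643888736) (nat_lit 76) (nat_lit 62943051804) (nat_lit 152) (nat_lit 110602883602) (nat_lit 31) (nat_lit 5) (nat_lit 32) (nat_lit 5) (nat_lit 33) (nat_lit 4) (nat_lit 464) (nat_lit 401) (nat_lit 155))) (XT.nd (nat_lit 78) (nat_lit 0) (nat_lit 0) (XT.lf (nat_lit 0) (nat_lit 12596226508) (nat_lit 152) (nat_lit 463710582709) (nat_lit 76) (nat_lit 83550321342) (nat_lit 29) (nat_lit 5) (nat_lit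 31) (nat_lit 5) (nat_lit 30) (nat_lit 4) (nat_lit 465) (nat_lit 401) (nat_lit 154)) (XT.lf (nat_lit 0) (nat_lit 142257342349) (nat_lit 152) (nat_lit 197905431321) (nat_lit 76) (nat_lit 240053418918) (nat_lit 29) (nat_lit 5) (nat_lit 31) (nat_lit 5) (nat_lit 30) (nat_lit 4) (nat_lit 466) (nat_lit 401) (nat_lit 153))))))) (XT.nd (nat_lit 48516) (nat_lit 0) (nat_lit 5168) (XT.nd (nat_lit 468) (nat_lit 0) (nat_lit 0) (XT.nd (nat_lit 234) (nat_lit 152) (nat_lit 0) (XT.nd (nat_lit 78) (nat_lit 76) (nat_lit 0) (XT.lf (nat_lit 0) (nat_lit 83874323145) (nat_lit 76) (nat_lit 195836621189) (nat_lit 152) (nat_lit 321816791874) (nat_lit 28) (nat_lit 5) (nat_lit 29) (nat_lit 5) (nat_lit 30) (nat_lit 4) (nat_lit 467) (nat_lit 401) (nat_lit 152)) (XT.nd (nat_lit 78) (nat_lit 76) (nat_lit 0) (XT.lf (nat_lit 0) (nat_lit 386613740918) (nat_lit 76) (nat_lit 40775028394) (nat_lit 152) (nat_lit 196348510562) (nat_lit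 28) (nat_lit 5) (nat_lit 29) (nat_lit 5) (nat_lit 30) (nat_lit 4) (nat_lit 468) (nat_lit 401) (nat_lit 151)) (XT.lf (nat_lit 0) (nat_lit 57363281678) (nat_lit 76) (nat_lit 527888107753) (nat_lit 76) (nat_lit 61665866107) (nat_lit 27) (nat_lit 4) (nat_lit 28) (nat_lit 5) (nat_lit 28) (nat_lit 4) (nat_lit 469) (nat_lit 401) (nat_lit 150)))) (XT.nd (nat_lit 78) (nat_lit 76) (nat_lit 0) (XT.lf (nat_lit 0) (nat_lit 81948382770) (nat_lit 152) (nat_lit 298228163592) (nat_lit 76) (nat_lit 290779926898) (nat_lit 26) (nat_lit 5) (nat_lit 28) (nat_lit 5) (nat_lit 27) (nat_lit 4) (nat_lit 470) (nat_lit 401) (nat_lit 149)) (XT.nd (nat_lit 78) (nat_lit 0) (nat_lit 0) (XT.lf (nat_lit 0) (nat_lit 6872852939) (nat_lit 76) (nat_lit 223905343528) (nat_lit 152) (nat_lit 465363548125) (nat_lit 25) (nat_lit 5) (nat_lit 26) (nat_lit 5) (nat_lit 27) (nat_lit 4) (nat_lit 471) (nat_lit 401) (nat_lit 148)) (XT.lf (nat_lit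 0) (nat_lit 337582588394) (nat_lit 76) (nat_lit 54517477423) (nat_lit 152) (nat_lit 330233685432) (nat_lit 25) (nat_lit 5) (nat_lit 26) (nat_lit 5) (nat_lit 27) (nat_lit 4) (nat_lit 472) (nat_lit 401) (nat_lit 147))))) (XT.nd (nat_lit 47736) (nat_lit 0) (nat_lit 7144) (XT.nd (nat_lit 47580) (nat_lit 0) (nat_lit 7068) (XT.lf (nat_lit 0) (nat_lit 563413637496) (nat_lit 152) (nat_lit 66933363419) (nat_lit 0) (nat_lit 119392076887) (nat_lit 25) (nat_lit 5) (nat_lit 27) (nat_lit 4) (nat_lit 25) (nat_lit 4) (nat_lit 473) (nat_lit 401) (nat_lit 146)) (XT.nd (nat_lit 78) (nat_lit 0) (nat_lit 0) (XT.lf (nat_lit 0) (nat_lit 11674734936) (nat_lit 836) (nat_lit 15101917093) (nat_lit 836) (nat_lit 15101917093) (nat_lit 118) (nat_lit 3) (nat_lit 129) (nat_lit 3) (nat_lit 129) (nat_lit 5) (nat_lit 402) (nat_lit 402) (nat_lit 216)) (XT.lf (nat_lit 76) (nat_lit 10836218273) (nat_lit 0) (nat_lit 13275272745)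 (nat_lit 836) (nat_lit 61730656486) (nat_lit 119) (nat_lit 5) (nat_lit 118) (nat_lit 3) (nat_lit 129) (nat_lit 5) (nat_lit 403) (nat_lit 402) (nat_lit 215)))) (XT.nd (nat_lit 156) (nat_lit 0) (nat_lit 76) (XT.nd (nat_lit 78) (nat_lit 0) (nat_lit 0) (XT.lf (nat_lit 0) (nat_lit 25883963413) (nat_lit 760) (nat_lit 33490716072) (nat_lit 836) (nat_lit 28608110549) (nat_lit 119) (nat_lit 5) (nat_lit 129) (nat_lit 5) (nat_lit 130) (nat_lit 5) (nat_lit 404) (nat_lit 402) (nat_lit 214)) (XT.lf (nat_lit 76) (nat_lit 10209050309) (nat_lit 0) (nat_lit 17912472947) (nat_lit 836) (nat_lit 62090118547) (nat_lit 120) (nat_lit 5) (nat_lit 119) (nat_lit 5) (nat_lit 130) (nat_lit 5) (nat_lit 405) (nat_lit 402) (nat_lit 213))) (XT.nd (nat_lit 78) (nat_lit 0) (nat_lit 0) (XT.lf (nat_lit 0) (nat_lit 31446954100) (nat_lit 760) (nat_lit 35676750716) (nat_lit 836) (nat_lit 25379431983) (nat_lit 120) (nat_lit 5) (nat_lit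 130) (nat_lit 5) (nat_lit 131) (nat_lit 5) (nat_lit 406) (nat_lit 402) (nat_lit 212)) (XT.lf (nat_lit 76) (nat_lit 10920931865) (nat_lit 0) (nat_lit 24481372421) (nat_lit 836) (nat_lit 59483720144) (nat_lit 121) (nat_lit 5) (nat_lit 120) (nat_lit 5) (nat_lit 131) (nat_lit 5) (nat_lit 407) (nat_lit 402) (nat_lit 211)))))) (XT.nd (nat_lit 546) (nat_lit 1520) (nat_lit 0) (XT.nd (nat_lit 234) (nat_lit 608) (nat_lit 0) (XT.nd (nat_lit 78) (nat_lit 0) (nat_lit 0) (XT.lf (nat_lit 0) (nat_lit 40485877332) (nat_lit 760) (nat_lit 36597830876) (nat_lit 836) (nat_lit 20257825729) (nat_lit 121) (nat_lit 5) (nat_lit 131) (nat_lit 5) (nat_lit 132) (nat_lit 5) (nat_lit 408) (nat_lit 402) (nat_lit 210)) (XT.nd (nat_lit 78) (nat_lit 0) (nat_lit 76) (XT.lf (nat_lit 76) (nat_lit 13157228036) (nat_lit 0) (nat_lit 33272694788) (nat_lit 836) (nat_lit 53459581656) (nat_lit 122) (nat_lit 5) (nat_lit 121) (nat_lit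 5) (nat_lit 132) (nat_lit 5) (nat_lit 409) (nat_lit 402) (nat_lit 209)) (XT.lf (nat_lit 0) (nat_lit 53499423499) (nat_lit 760) (nat_lit 36072507413) (nat_lit 836) (nat_lit 12951530230) (nat_lit 122) (nat_lit 5) (nat_lit 132) (nat_lit 5) (nat_lit 133) (nat_lit 5) (nat_lit 410) (nat_lit 402) (nat_lit 208)))) (XT.nd (nat_lit 156) (nat_lit 684) (nat_lit 0) (XT.nd (nat_lit 78) (nat_lit 0) (nat_lit 76) (XT.lf (nat_lit 76) (nat_lit 17122475642) (nat_lit 0) (nat_lit 44612285429) (nat_lit 836) (nat_lit 43513736701) (nat_lit 123) (nat_lit 5) (nat_lit 122) (nat_lit 5) (nat_lit 133) (nat_lit 5) (nat_lit 411) (nat_lit 402) (nat_lit 207)) (XT.lf (nat_lit 0) (nat_lit 71042900123) (nat_lit 760) (nat_lit 33900575105) (nat_lit 76) (nat_lit 3133259488) (nat_lit 123) (nat_lit 5) (nat_lit 133) (nat_lit 5) (nat_lit 124) (nat_lit 5) (nat_lit 412) (nat_lit 402) (nat_lit 206))) (XT.nd (nat_lit 78) (nat_lit 0) (nat_lit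 0) (XT.lf (nat_lit 0) (nat_lit 23041935856) (nat_lit 760) (nat_lit 58865221575) (nat_lit 836) (nat_lit 29084690719) (nat_lit 113) (nat_lit 5) (nat_lit 123) (nat_lit 5) (nat_lit 124) (nat_lit 5) (nat_lit 413) (nat_lit 402) (nat_lit 205)) (XT.lf (nat_lit 0) (nat_lit 84008184032) (nat_lit 760) (nat_lit 9880192497) (nat_lit 836) (nat_lit 20135653474) (nat_lit 113) (nat_lit 5) (nat_lit 123) (nat_lit 5) (nat_lit 124) (nat_lit 5) (nat_lit 414) (nat_lit 402) (nat_lit 204))))) (XT.nd (nat_lit 234) (nat_lit 684) (nat_lit 0) (XT.nd (nat_lit 78) (nat_lit 456) (nat_lit 0) (XT.lf (nat_lit 0) (nat_lit 31163223611) (nat_lit 380) (nat_lit 76440398582) (nat_lit 456) (nat_lit 9547450664) (nat_lit 108) (nat_lit 5) (nat_lit 113) (nat_lit 5) (nat_lit 114) (nat_lit 5) (nat_lit 415) (nat_lit 402) (nat_lit 203)) (XT.nd (nat_lit 78) (nat_lit 380) (nat_lit 0) (XT.lf (nat_lit 0) (nat_lit 2198194305) (nat_lit 456) (nat_lit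 24160888737) (nat_lit 76) (nat_lit 94040244896) (nat_lit 107) (nat_lit 5) (nat_lit 113) (nat_lit 5) (nat_lit 108) (nat_lit 5) (nat_lit 416) (nat_lit 402) (nat_lit 202)) (XT.lf (nat_lit 0) (nat_lit 15287546687) (nat_lit 456) (nat_lit 82249200668) (nat_lit 76) (nat_lit 26211558694) (nat_lit 102) (nat_lit 5) (nat_lit 108) (nat_lit 5) (nat_lit 103) (nat_lit 5) (nat_lit 417) (nat_lit 402) (nat_lit 201)))) (XT.nd (nat_lit 156) (nat_lit 304) (nat_lit 0) (XT.nd (nat_lit 78) (nat_lit 380) (nat_lit 0) (XT.lf (nat_lit 0) (nat_lit 29879044739) (nat_lit 456) (nat_lit 16402529997) (nat_lit 76) (nat_lit 80940774581) (nat_lit 102) (nat_lit 5) (nat_lit 108) (nat_lit 5) (nat_lit 103) (nat_lit 5) (nat_lit 418) (nat_lit 402) (nat_lit 200)) (XT.lf (nat_lit 0) (nat_lit 46182001183) (nat_lit 456) (nat_lit 76479345213) (nat_lit 76) (nat_lit 8159654325) (nat_lit 97) (nat_lit 5) (nat_lit 103) (nat_lit 5) (nat_lit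 98) (nat_lit 5) (nat_lit 419) (nat_lit 402) (nat_lit 199))) (XT.nd (nat_lit 78) (nat_lit 304) (nat_lit 0) (XT.lf (nat_lit 0) (nat_lit 64340860781) (nat_lit 456) (nat_lit 6156790141) (nat_lit 76) (nat_lit 64049896144) (nat_lit 97) (nat_lit 5) (nat_lit 103) (nat_lit 5) (nat_lit 98) (nat_lit 5) (nat_lit 420) (nat_lit 402) (nat_lit 198)) (XT.lf (nat_lit 0) (nat_lit 69919431538) (nat_lit 304) (nat_lit 14579586630) (nat_lit 380) (nat_lit 53906834954) (nat_lit 93) (nat_lit 5) (nat_lit 97) (nat_lit 5) (nat_lit 98) (nat_lit 5) (nat_lit 421) (nat_lit 402) (nat_lit 197))))))))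
noncomputable def xc222 : XT := (XT.nd (nat_lit 2106) (nat_lit 1748) (nat_lit 0) (XT.nd (nat_lit 1014) (nat_lit 1520) (nat_lit 0) (XT.nd (nat_lit 468) (nat_lit 988) (nat_lit 0) (XT.nd (nat_lit 234) (nat_lit 304) (nat_lit 0) (XT.nd (nat_lit 78) (nat_lit 304) (nat_lit 0) (XT.lf (nat_lit 0) (nat_lit 7097416337) (nat_lit 304) (nat_lit 99473241059) (nat_lit 380) (nat_lit 35841138510) (nat_lit 89) (nat_lit 5) (nat_lit 93) (nat_lit 5) (nat_lit 94) (nat_lit 5) (nat_lit 422) (nat_lit 402) (nat_lit 196)) (XT.nd (nat_lit 78) (nat_lit 304) (nat_lit 0) (XT.lf (nat_lit 0) (nat_lit 88590905290) (nat_lit 304) (nat_lit 42549711198) (nat_lit 380) (nat_lit 15407682568) (nat_lit 89) (nat_lit 5) (nat_lit 93) (nat_lit 5) (nat_lit 94) (nat_lit 5) (nat_lit 423) (nat_lit 402) (nat_lit 195)) (XT.lf (nat_lit 0) (nat_lit 6503910948) (nat_lit 304) (nat_lit 127205855922) (nat_lit 76) (nat_lit 17144638681) (nat_lit 85)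 (nat_lit 5) (nat_lit 89) (nat_lit 5) (nat_lit 86) (nat_lit 5) (nat_lit 424) (nat_lit 402) (nat_lit 194)))) (XT.nd (nat_lit 78) (nat_lit 304) (nat_lit 0) (XT.lf (nat_lit 0) (nat_lit 30688196088) (nat_lit 304) (nat_lit 44946334882) (nat_lit 76) (nat_lit 79643911701) (nat_lit 85) (nat_lit 5) (nat_lit 89) (nat_lit 5) (nat_lit 86) (nat_lit 5) (nat_lit 425) (nat_lit 402) (nat_lit 193)) (XT.nd (nat_lit 78) (nat_lit 0) (nat_lit 0) (XT.lf (nat_lit 0) (nat_lit 42795581016) (nat_lit 304) (nat_lit 13954033038) (nat_lit 380) (nat_lit 103140671764) (nat_lit 81) (nat_lit 5) (nat_lit 85) (nat_lit 5) (nat_lit 86) (nat_lit 5) (nat_lit 426) (nat_lit 402) (nat_lit 192)) (XT.lf (nat_lit 0) (nat_lit 85680828758) (nat_lit 380) (nat_lit 29015719197) (nat_lit 76) (nat_lit 49957836970) (nat_lit 81) (nat_lit 5) (nat_lit 86) (nat_lit 5) (nat_lit 82) (nat_lit 5) (nat_lit 427) (nat_lit 402) (nat_lit 191))))) (XT.nd (nat_lit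 234) (nat_lit 456) (nat_lit 0) (XT.nd (nat_lit 78) (nat_lit 304) (nat_lit 0) (XT.lf (nat_lit 0) (nat_lit 65329102404) (nat_lit 228) (nat_lit 51978003258) (nat_lit 304) (nat_lit 52287158338) (nat_lit 78) (nat_lit 5) (nat_lit 81) (nat_lit 5) (nat_lit 82) (nat_lit 5) (nat_lit 428) (nat_lit 402) (nat_lit 190)) (XT.nd (nat_lit 78) (nat_lit 304) (nat_lit 0) (XT.lf (nat_lit 0) (nat_lit 151230579226) (nat_lit 304) (nat_lit 9583051040) (nat_lit 76) (nat_lit 13931712712) (nat_lit 78) (nat_lit 5) (nat_lit 82) (nat_lit 5) (nat_lit 79) (nat_lit 5) (nat_lit 429) (nat_lit 402) (nat_lit 189)) (XT.lf (nat_lit 0) (nat_lit 8806485509) (nat_lit 304) (nat_lit 88258778327) (nat_lit 76) (nat_lit 82967256943) (nat_lit 74) (nat_lit 5) (nat_lit 78) (nat_lit 5) (nat_lit 75) (nat_lit 5) (nat_lit 430) (nat_lit 402) (nat_lit 188)))) (XT.nd (nat_lit 156) (nat_lit 228) (nat_lit 0) (XT.nd (nat_lit 78) (nat_lit 0) (nat_lit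 0) (XT.lf (nat_lit 0) (nat_lit 12982207251) (nat_lit 228) (nat_lit 29338776362) (nat_lit 304) (nat_lit 143225427703) (nat_lit 71) (nat_lit 5) (nat_lit 74) (nat_lit 5) (nat_lit 75) (nat_lit 5) (nat_lit 431) (nat_lit 402) (nat_lit 187)) (XT.lf (nat_lit 0) (nat_lit 79682422730) (nat_lit 304) (nat_lit 69588881443) (nat_lit 76) (nat_lit 41956131471) (nat_lit 71) (nat_lit 5) (nat_lit 75) (nat_lit 5) (nat_lit 72) (nat_lit 5) (nat_lit 432) (nat_lit 402) (nat_lit 186))) (XT.nd (nat_lit 78) (nat_lit 0) (nat_lit 0) (XT.lf (nat_lit 0) (nat_lit 39312198885) (nat_lit 228) (nat_lit 80694279549) (nat_lit 304) (nat_lit 77131305590) (nat_lit 68) (nat_lit 5) (nat_lit 71) (nat_lit 5) (nat_lit 72) (nat_lit 5) (nat_lit 433) (nat_lit 402) (nat_lit 185)) (XT.lf (nat_lit 0) (nat_lit 156074025836) (nat_lit 228) (nat_lit 7451044811) (nat_lit 304) (nat_lit 39759662555) (nat_lit 68) (nat_lit 5) (nat_lit 71) (nat_lit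 5) (nat_lit 72) (nat_lit 5) (nat_lit 434) (nat_lit 402) (nat_lit 184)))))) (XT.nd (nat_lit 546) (nat_lit 684) (nat_lit 0) (XT.nd (nat_lit 234) (nat_lit 380) (nat_lit 0) (XT.nd (nat_lit 78) (nat_lit 228) (nat_lit 0) (XT.lf (nat_lit 0) (nat_lit 1711458022) (nat_lit 228) (nat_lit 139564003550) (nat_lit 76) (nat_lit 68353260309) (nat_lit 65) (nat_lit 5) (nat_lit 68) (nat_lit 5) (nat_lit 66) (nat_lit 5) (nat_lit 435) (nat_lit 402) (nat_lit 183)) (XT.nd (nat_lit 78) (nat_lit 228) (nat_lit 0) (XT.lf (nat_lit 0) (nat_lit 44854562288) (nat_lit 228) (nat_lit 22194294231) (nat_lit 76) (nat_lit 149161732992) (nat_lit 65) (nat_lit 5) (nat_lit 68) (nat_lit 5) (nat_lit 66) (nat_lit 5) (nat_lit 436) (nat_lit 402) (nat_lit 182)) (XT.lf (nat_lit 0) (nat_lit 91981112487) (nat_lit 304) (nat_lit 118852196613) (nat_lit 76) (nat_lit 12196926938) (nat_lit 62) (nat_lit 5) (nat_lit 66) (nat_lit 5) (nat_lit 63) (nat_lit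 5) (nat_lit 437) (nat_lit 402) (nat_lit 181)))) (XT.nd (nat_lit 156) (nat_lit 228) (nat_lit 0) (XT.nd (nat_lit 78) (nat_lit 0) (nat_lit 0) (XT.lf (nat_lit 0) (nat_lit 6572220770) (nat_lit 152) (nat_lit 136475407390) (nat_lit 228) (nat_lit 87064054882) (nat_lit 60) (nat_lit 5) (nat_lit 62) (nat_lit 5) (nat_lit 63) (nat_lit 5) (nat_lit 438) (nat_lit 402) (nat_lit 180)) (XT.lf (nat_lit 0) (nat_lit 142393880999) (nat_lit 152) (nat_lit 56286244684) (nat_lit 228) (nat_lit 38766443960) (nat_lit 60) (nat_lit 5) (nat_lit 62) (nat_lit 5) (nat_lit 63) (nat_lit 5) (nat_lit 439) (nat_lit 402) (nat_lit 179))) (XT.nd (nat_lit 78) (nat_lit 0) (nat_lit 0) (XT.lf (nat_lit 0) (nat_lit 12652742812) (nat_lit 228) (nat_lit 204572840047) (nat_lit 76) (nat_lit 27858840020) (nat_lit 57) (nat_lit 5) (nat_lit 60) (nat_lit 5) (nat_lit 58) (nat_lit 5) (nat_lit 440) (nat_lit 402) (nat_lit 178)) (XT.lf (nat_lit 0) (nat_lit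 67898804390) (nat_lit 228) (nat_lit 68454481561) (nat_lit 76) (nat_lit 116591170985) (nat_lit 57) (nat_lit 5) (nat_lit 60) (nat_lit 5) (nat_lit 58) (nat_lit 5) (nat_lit 441) (nat_lit 402) (nat_lit 177))))) (XT.nd (nat_lit 234) (nat_lit 380) (nat_lit 0) (XT.nd (nat_lit 78) (nat_lit 152) (nat_lit 0) (XT.lf (nat_lit 0) (nat_lit 76931853477) (nat_lit 152) (nat_lit 50176288860) (nat_lit 228) (nat_lit 134029301733) (nat_lit 55) (nat_lit 5) (nat_lit 57) (nat_lit 5) (nat_lit 58) (nat_lit 5) (nat_lit 442) (nat_lit 402) (nat_lit 176)) (XT.nd (nat_lit 78) (nat_lit 152) (nat_lit 0) (XT.lf (nat_lit 0) (nat_lit 191085460587) (nat_lit 228) (nat_lit 38366618126) (nat_lit 76) (nat_lit 40197626215) (nat_lit 55) (nat_lit 5) (nat_lit 58) (nat_lit 5) (nat_lit 56) (nat_lit 5) (nat_lit 443) (nat_lit 402) (nat_lit 175)) (XT.lf (nat_lit 0) (nat_lit 117708930202) (nat_lit 152) (nat_lit 143212903309) (nat_lit 228)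 (nat_lit 17532735915) (nat_lit 53) (nat_lit 5) (nat_lit 55) (nat_lit 5) (nat_lit 56) (nat_lit 5) (nat_lit 444) (nat_lit 402) (nat_lit 174)))) (XT.nd (nat_lit 156) (nat_lit 152) (nat_lit 0) (XT.nd (nat_lit 78) (nat_lit 152) (nat_lit 0) (XT.lf (nat_lit 0) (nat_lit 45720716277) (nat_lit 228) (nat_lit 5484596551) (nat_lit 76) (nat_lit 236425011774) (nat_lit 52) (nat_lit 5) (nat_lit 55) (nat_lit 5) (nat_lit 53) (nat_lit 5) (nat_lit 445) (nat_lit 402) (nat_lit 173)) (XT.lf (nat_lit 0) (nat_lit 114838966411) (nat_lit 228) (nat_lit 135427527746) (nat_lit 76) (nat_lit 46819435305) (nat_lit 50) (nat_lit 5) (nat_lit 53) (nat_lit 5) (nat_lit 51) (nat_lit 5) (nat_lit 446) (nat_lit 402) (nat_lit 172))) (XT.nd (nat_lit 78) (nat_lit 0) (nat_lit 0) (XT.lf (nat_lit 0) (nat_lit 30473456331) (nat_lit 152) (nat_lit 158349156440) (nat_lit 228) (nat_lit 118121227638) (nat_lit 48) (nat_lit 5) (nat_lit 50) (nat_lit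 5) (nat_lit 51) (nat_lit 5) (nat_lit 447) (nat_lit 402) (nat_lit 171)) (XT.lf (nat_lit 0) (nat_lit 209371008280) (nat_lit 152) (nat_lit 59427835994) (nat_lit 228) (nat_lit 48381132513) (nat_lit 48) (nat_lit 5) (nat_lit 50) (nat_lit 5) (nat_lit 51) (nat_lit 5) (nat_lit 448) (nat_lit 402) (nat_lit 170))))))) (XT.nd (nat_lit 1014) (nat_lit 760) (nat_lit 0) (XT.nd (nat_lit 468) (nat_lit 532) (nat_lit 0) (XT.nd (nat_lit 234) (nat_lit 152) (nat_lit 0) (XT.nd (nat_lit 78) (nat_lit 152) (nat_lit 0) (XT.lf (nat_lit 0) (nat_lit 25880266631) (nat_lit 152) (nat_lit 257395920470) (nat_lit 76) (nat_lit 44540860881) (nat_lit 46) (nat_lit 5) (nat_lit 48) (nat_lit 5) (nat_lit 47) (nat_lit 5) (nat_lit 449) (nat_lit 402) (nat_lit 169)) (XT.nd (nat_lit 78) (nat_lit 152) (nat_lit 0) (XT.lf (nat_lit 0) (nat_lit 105058644821) (nat_lit 152) (nat_lit 79386576080) (nat_lit 76) (nat_lit 154359603574) (nat_lit 46) (nat_lit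 5) (nat_lit 48) (nat_lit 5) (nat_lit 47) (nat_lit 5) (nat_lit 450) (nat_lit 402) (nat_lit 168)) (XT.lf (nat_lit 0) (nat_lit 111078228501) (nat_lit 152) (nat_lit 78851839127) (nat_lit 228) (nat_lit 160325215903) (nat_lit 44) (nat_lit 5) (nat_lit 46) (nat_lit 5) (nat_lit 47) (nat_lit 5) (nat_lit 451) (nat_lit 402) (nat_lit 167)))) (XT.nd (nat_lit 78) (nat_lit 152) (nat_lit 0) (XT.lf (nat_lit 0) (nat_lit 280911377015) (nat_lit 228) (nat_lit 48910833213) (nat_lit 76) (nat_lit 32362739561) (nat_lit 44) (nat_lit 5) (nat_lit 47) (nat_lit 5) (nat_lit 45) (nat_lit 4) (nat_lit 452) (nat_lit 402) (nat_lit 166)) (XT.nd (nat_lit 78) (nat_lit 0) (nat_lit 0) (XT.lf (nat_lit 0) (nat_lit 5441056112) (nat_lit 152) (nat_lit 220092101143) (nat_lit 76) (nat_lit 148988301343) (nat_lit 42) (nat_lit 5) (nat_lit 44) (nat_lit 5) (nat_lit 43) (nat_lit 5) (nat_lit 453) (nat_lit 402) (nat_lit 165)) (XT.lf (nat_lit 0)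 (nat_lit 94601889547) (nat_lit 152) (nat_lit 19144873742) (nat_lit 76) (nat_lit 273619321992) (nat_lit 42) (nat_lit 5) (nat_lit 44) (nat_lit 5) (nat_lit 43) (nat_lit 5) (nat_lit 454) (nat_lit 402) (nat_lit 164))))) (XT.nd (nat_lit 234) (nat_lit 304) (nat_lit 0) (XT.nd (nat_lit 78) (nat_lit 76) (nat_lit 0) (XT.lf (nat_lit 0) (nat_lit 191422391222) (nat_lit 228) (nat_lit 202612674659) (nat_lit 76) (nat_lit 6657796104) (nat_lit 40) (nat_lit 5) (nat_lit 43) (nat_lit 5) (nat_lit 41) (nat_lit 4) (nat_lit 455) (nat_lit 402) (nat_lit 163)) (XT.nd (nat_lit 78) (nat_lit 0) (nat_lit 0) (XT.lf (nat_lit 0) (nat_lit 10631471954) (nat_lit 76) (nat_lit 284812573415) (nat_lit 152) (nat_lit 119123925805) (nat_lit 39) (nat_lit 5) (nat_lit 40) (nat_lit 5) (nat_lit 41) (nat_lit 4) (nat_lit 456) (nat_lit 402) (nat_lit 162)) (XT.lf (nat_lit 0) (nat_lit 241571896080) (nat_lit 76) (nat_lit 166526128253) (nat_lit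 152) (nat_lit 20867249399) (nat_lit 39) (nat_lit 5) (nat_lit 40) (nat_lit 5) (nat_lit 41) (nat_lit 4) (nat_lit 457) (nat_lit 402) (nat_lit 161)))) (XT.nd (nat_lit 156) (nat_lit 76) (nat_lit 0) (XT.nd (nat_lit 78) (nat_lit 0) (nat_lit 0) (XT.lf (nat_lit 0) (nat_lit 39971076258) (nat_lit 152) (nat_lit 40320960416) (nat_lit 228) (nat_lit 363694958202) (nat_lit 36) (nat_lit 5) (nat_lit 38) (nat_lit 5) (nat_lit 39) (nat_lit 5) (nat_lit 458) (nat_lit 402) (nat_lit 160)) (XT.lf (nat_lit 0) (nat_lit 190472950692) (nat_lit 228) (nat_lit 176225200206) (nat_lit 76) (nat_lit 92811299888) (nat_lit 36) (nat_lit 5) (nat_lit 39) (nat_lit 5) (nat_lit 37) (nat_lit 4) (nat_lit 459) (nat_lit 402) (nat_lit 159))) (XT.nd (nat_lit 78) (nat_lit 0) (nat_lit 0) (XT.lf (nat_lit 0) (nat_lit 64353600886) (nat_lit 76) (nat_lit 243474955940) (nat_lit 152) (nat_lit 167896190357) (nat_lit 35) (nat_lit 5) (nat_lit 36) (nat_lit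 5) (nat_lit 37) (nat_lit 4) (nat_lit 460) (nat_lit 402) (nat_lit 158)) (XT.lf (nat_lit 0) (nat_lit 323079314803) (nat_lit 76) (nat_lit 110956996308) (nat_lit 152) (nat_lit 58565278912) (nat_lit 35) (nat_lit 5) (nat_lit 36) (nat_lit 5) (nat_lit 37) (nat_lit 4) (nat_lit 461) (nat_lit 402) (nat_lit 157)))))) (XT.nd (nat_lit 546) (nat_lit 228) (nat_lit 0) (XT.nd (nat_lit 234) (nat_lit 228) (nat_lit 0) (XT.nd (nat_lit 78) (nat_lit 76) (nat_lit 0) (XT.lf (nat_lit 0) (nat_lit 56256299675) (nat_lit 228) (nat_lit 424384392005) (nat_lit 76) (nat_lit 29546491118) (nat_lit 32) (nat_lit 5) (nat_lit 35) (nat_lit 5) (nat_lit 33) (nat_lit 4) (nat_lit 462) (nat_lit 402) (nat_lit 156)) (XT.nd (nat_lit 78) (nat_lit 76) (nat_lit 0) (XT.lf (nat_lit 0) (nat_lit 179587665573) (nat_lit 228) (nat_lit 171555249450) (nat_lit 76) (nat_lit 177224291584) (nat_lit 32) (nat_lit 5) (nat_lit 35) (nat_lit 5) (nat_lit 33) (nat_lit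 4) (nat_lit 463) (nat_lit 402) (nat_lit 155)) (XT.lf (nat_lit 0) (nat_lit 97020454758) (nat_lit 76) (nat_lit 213579822640) (nat_lit 152) (nat_lit 236780220338) (nat_lit 31) (nat_lit 5) (nat_lit 32) (nat_lit 5) (nat_lit 33) (nat_lit 4) (nat_lit 464) (nat_lit 402) (nat_lit 154)))) (XT.nd (nat_lit 156) (nat_lit 76) (nat_lit 0) (XT.nd (nat_lit 78) (nat_lit 152) (nat_lit 0) (XT.lf (nat_lit 0) (nat_lit 384980801639) (nat_lit 76) (nat_lit 66088007353) (nat_lit 152) (nat_lit 116130379978) (nat_lit 31) (nat_lit 5) (nat_lit 32) (nat_lit 5) (nat_lit 33) (nat_lit 4) (nat_lit 465) (nat_lit 402) (nat_lit 153)) (XT.lf (nat_lit 0) (nat_lit 13228587151) (nat_lit 152) (nat_lit 486891294321) (nat_lit 76) (nat_lit 87729977871) (nat_lit 29) (nat_lit 5) (nat_lit 31) (nat_lit 5) (nat_lit 30) (nat_lit 4) (nat_lit 466) (nat_lit 402) (nat_lit 152))) (XT.nd (nat_lit 78) (nat_lit 76) (nat_lit 0) (XT.lf (nat_lit 0) (nat_lit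 149372637387) (nat_lit 152) (nat_lit 207796114769) (nat_lit 76) (nat_lit 252058128399) (nat_lit 29) (nat_lit 5) (nat_lit 31) (nat_lit 5) (nat_lit 30) (nat_lit 4) (nat_lit 467) (nat_lit 402) (nat_lit 151)) (XT.lf (nat_lit 0) (nat_lit 88072553418) (nat_lit 76) (nat_lit 205626320917) (nat_lit 152) (nat_lit 337905129293) (nat_lit 28) (nat_lit 5) (nat_lit 29) (nat_lit 5) (nat_lit 30) (nat_lit 4) (nat_lit 468) (nat_lit 402) (nat_lit 150))))) (XT.nd (nat_lit 234) (nat_lit 76) (nat_lit 0) (XT.nd (nat_lit 78) (nat_lit 152) (nat_lit 0) (XT.lf (nat_lit 0) (nat_lit 405948727121) (nat_lit 76) (nat_lit 42811749974) (nat_lit 152) (nat_lit 206163553066) (nat_lit 28) (nat_lit 5) (nat_lit 29) (nat_lit 5) (nat_lit 30) (nat_lit 4) (nat_lit 469) (nat_lit 402) (nat_lit 149)) (XT.nd (nat_lit 78) (nat_lit 76) (nat_lit 0) (XT.lf (nat_lit 0) (nat_lit 60235756270) (nat_lit 76) (nat_lit 554280461369) (nat_lit 76) (nat_lit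 64746787509) (nat_lit 27) (nat_lit 4) (nat_lit 28) (nat_lit 5) (nat_lit 28) (nat_lit 4) (nat_lit 470) (nat_lit 402) (nat_lit 148)) (XT.lf (nat_lit 0) (nat_lit 86047988563) (nat_lit 152) (nat_lit 313135394017) (nat_lit 76) (nat_lit 305320804803) (nat_lit 26) (nat_lit 5) (nat_lit 28) (nat_lit 5) (nat_lit 27) (nat_lit 4) (nat_lit 471) (nat_lit 402) (nat_lit 147)))) (XT.nd (nat_lit 47736) (nat_lit 0) (nat_lit 7068) (XT.nd (nat_lit 78) (nat_lit 0) (nat_lit 0) (XT.lf (nat_lit 0) (nat_lit 7220605958) (nat_lit 76) (nat_lit 235098647035) (nat_lit 152) (nat_lit 488629471296) (nat_lit 25) (nat_lit 5) (nat_lit 26) (nat_lit 5) (nat_lit 27) (nat_lit 4) (nat_lit 472) (nat_lit 402) (nat_lit 146)) (XT.lf (nat_lit 0) (nat_lit 354465632453) (nat_lit 76) (nat_lit 57241481133) (nat_lit 152) (nat_lit 346743222813) (nat_lit 25) (nat_lit 5) (nat_lit 26) (nat_lit 5) (nat_lit 27) (nat_lit 4) (nat_lit 473) (nat_lit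 402) (nat_lit 145))) (XT.nd (nat_lit 78) (nat_lit 0) (nat_lit 0) (XT.lf (nat_lit 0) (nat_lit 12267430259) (nat_lit 836) (nat_lit 15852307245) (nat_lit 836) (nat_lit 15852307245) (nat_lit 118) (nat_lit 3) (nat_lit 129) (nat_lit 3) (nat_lit 129) (nat_lit 5) (nat_lit 403) (nat_lit 403) (nat_lit 214)) (XT.lf (nat_lit 76) (nat_lit 11387288794) (nat_lit 0) (nat_lit 13946985297) (nat_lit 836) (nat_lit 64799111028) (nat_lit 119) (nat_lit 5) (nat_lit 118) (nat_lit 3) (nat_lit 129) (nat_lit 5) (nat_lit 404) (nat_lit 403) (nat_lit 213))))))))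
noncomputable def xc223 : XT := (XT.nd (nat_lit 2106) (nat_lit 2888) (nat_lit 0) (XT.nd (nat_lit 1014) (nat_lit 2508) (nat_lit 0) (XT.nd (nat_lit 468) (nat_lit 912) (nat_lit 0) (XT.nd (nat_lit 234) (nat_lit 0) (nat_lit 76) (XT.nd (nat_lit 78) (nat_lit 0) (nat_lit 0) (XT.lf (nat_lit 0) (nat_lit 27194432458) (nat_lit 760) (nat_lit 35155486664) (nat_lit 836) (nat_lit 30031187981) (nat_lit 119) (nat_lit 5) (nat_lit 129) (nat_lit 5) (nat_lit 130) (nat_lit 5) (nat_lit 405) (nat_lit 403) (nat_lit 212)) (XT.nd (nat_lit 78) (nat_lit 0) (nat_lit 76) (XT.lf (nat_lit 76) (nat_lit 10729110532) (nat_lit 0) (nat_lit 18814134960) (nat_lit 836) (nat_lit 65178187631) (nat_lit 120) (nat_lit 5) (nat_lit 119) (nat_lit 5) (nat_lit 130) (nat_lit 5) (nat_lit 406) (nat_lit 403) (nat_lit 211)) (XT.lf (nat_lit 0) (nat_lit 33034113041) (nat_lit 760) (nat_lit 37450595154) (nat_lit 836) (nat_lit 26642836820) (nat_lit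 120) (nat_lit 5) (nat_lit 130) (nat_lit 5) (nat_lit 131) (nat_lit 5) (nat_lit 407) (nat_lit 403) (nat_lit 210)))) (XT.nd (nat_lit 78) (nat_lit 0) (nat_lit 76) (XT.lf (nat_lit 76) (nat_lit 11476810377) (nat_lit 0) (nat_lit 25709868566) (nat_lit 836) (nat_lit 62442926057) (nat_lit 121) (nat_lit 5) (nat_lit 120) (nat_lit 5) (nat_lit 131) (nat_lit 5) (nat_lit 408) (nat_lit 403) (nat_lit 209)) (XT.nd (nat_lit 78) (nat_lit 0) (nat_lit 0) (XT.lf (nat_lit 0) (nat_lit 42523685787) (nat_lit 760) (nat_lit 38417606519) (nat_lit 836) (nat_lit 21266635286) (nat_lit 121) (nat_lit 5) (nat_lit 131) (nat_lit 5) (nat_lit 132) (nat_lit 5) (nat_lit 409) (nat_lit 403) (nat_lit 208)) (XT.lf (nat_lit 76) (nat_lit 13825042179) (nat_lit 0) (nat_lit 34939403213) (nat_lit 836) (nat_lit 56118876027) (nat_lit 122) (nat_lit 5) (nat_lit 121) (nat_lit 5) (nat_lit 132) (nat_lit 5) (nat_lit 410) (nat_lit 403) (nat_lit 207)))))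 (XT.nd (nat_lit 234) (nat_lit 1140) (nat_lit 0) (XT.nd (nat_lit 78) (nat_lit 0) (nat_lit 0) (XT.lf (nat_lit 0) (nat_lit 56186755090) (nat_lit 760) (nat_lit 37865981341) (nat_lit 836) (nat_lit 13596273115) (nat_lit 122) (nat_lit 5) (nat_lit 132) (nat_lit 5) (nat_lit 133) (nat_lit 5) (nat_lit 411) (nat_lit 403) (nat_lit 206)) (XT.nd (nat_lit 78) (nat_lit 0) (nat_lit 76) (XT.lf (nat_lit 76) (nat_lit 17988587134) (nat_lit 0) (nat_lit 46844839751) (nat_lit 836) (nat_lit 45676893069) (nat_lit 123) (nat_lit 5) (nat_lit 122) (nat_lit 5) (nat_lit 133) (nat_lit 5) (nat_lit 412) (nat_lit 403) (nat_lit 205)) (XT.lf (nat_lit 0) (nat_lit 74606376055) (nat_lit 760) (nat_lit 35585488903) (nat_lit 76) (nat_lit 3288133932) (nat_lit 123) (nat_lit 5) (nat_lit 133) (nat_lit 5) (nat_lit 124) (nat_lit 5) (nat_lit 413) (nat_lit 403) (nat_lit 204)))) (XT.nd (nat_lit 156) (nat_lit 456) (nat_lit 0) (XT.nd (nat_lit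 78) (nat_lit 0) (nat_lit 0) (XT.lf (nat_lit 0) (nat_lit 24203984461) (nat_lit 760) (nat_lit 61809477574) (nat_lit 836) (nat_lit 30527425456) (nat_lit 113) (nat_lit 5) (nat_lit 123) (nat_lit 5) (nat_lit 124) (nat_lit 5) (nat_lit 414) (nat_lit 403) (nat_lit 203)) (XT.lf (nat_lit 0) (nat_lit 88218071151) (nat_lit 760) (nat_lit 10375149665) (nat_lit 836) (nat_lit 21131483958) (nat_lit 113) (nat_lit 5) (nat_lit 123) (nat_lit 5) (nat_lit 124) (nat_lit 5) (nat_lit 415) (nat_lit 403) (nat_lit 202))) (XT.nd (nat_lit 78) (nat_lit 76) (nat_lit 0) (XT.lf (nat_lit 0) (nat_lit 32731242628) (nat_lit 380) (nat_lit 80262629502) (nat_lit 456) (nat_lit 10014245730) (nat_lit 108) (nat_lit 5) (nat_lit 113) (nat_lit 5) (nat_lit 114) (nat_lit 5) (nat_lit 416) (nat_lit 403) (nat_lit 201)) (XT.lf (nat_lit 0) (nat_lit 2317855375) (nat_lit 456) (nat_lit 25359217620) (nat_lit 76) (nat_lit 98741729058) (nat_lit 107)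 (nat_lit 5) (nat_lit 113) (nat_lit 5) (nat_lit 108) (nat_lit 5) (nat_lit 417) (nat_lit 403) (nat_lit 200)))))) (XT.nd (nat_lit 546) (nat_lit 1140) (nat_lit 0) (XT.nd (nat_lit 234) (nat_lit 608) (nat_lit 0) (XT.nd (nat_lit 78) (nat_lit 380) (nat_lit 0) (XT.lf (nat_lit 0) (nat_lit 16061362180) (nat_lit 456) (nat_lit 86351627463) (nat_lit 76) (nat_lit 27522255311) (nat_lit 102) (nat_lit 5) (nat_lit 108) (nat_lit 5) (nat_lit 103) (nat_lit 5) (nat_lit 418) (nat_lit 403) (nat_lit 199)) (XT.nd (nat_lit 78) (nat_lit 380) (nat_lit 0) (XT.lf (nat_lit 0) (nat_lit 31381985699) (nat_lit 456) (nat_lit 17213101032) (nat_lit 76) (nat_lit 84987926341) (nat_lit 102) (nat_lit 5) (nat_lit 108) (nat_lit 5) (nat_lit 103) (nat_lit 5) (nat_lit 419) (nat_lit 403) (nat_lit 198)) (XT.lf (nat_lit 0) (nat_lit 48499819545) (nat_lit 456) (nat_lit 80293482517) (nat_lit 76) (nat_lit 8568308708) (nat_lit 97) (nat_lit 5) (nat_lit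 103) (nat_lit 5) (nat_lit 98) (nat_lit 5) (nat_lit 420) (nat_lit 403) (nat_lit 197)))) (XT.nd (nat_lit 156) (nat_lit 304) (nat_lit 0) (XT.nd (nat_lit 78) (nat_lit 304) (nat_lit 0) (XT.lf (nat_lit 0) (nat_lit 67566206966) (nat_lit 456) (nat_lit 6455267784) (nat_lit 76) (nat_lit 67253030634) (nat_lit 97) (nat_lit 5) (nat_lit 103) (nat_lit 5) (nat_lit 98) (nat_lit 5) (nat_lit 421) (nat_lit 403) (nat_lit 196)) (XT.lf (nat_lit 0) (nat_lit 73424613981) (nat_lit 304) (nat_lit 15307406660) (nat_lit 380) (nat_lit 56593718864) (nat_lit 93) (nat_lit 5) (nat_lit 97) (nat_lit 5) (nat_lit 98) (nat_lit 5) (nat_lit 422) (nat_lit 403) (nat_lit 195))) (XT.nd (nat_lit 78) (nat_lit 0) (nat_lit 0) (XT.lf (nat_lit 0) (nat_lit 7461731369) (nat_lit 304) (nat_lit 104445291744) (nat_lit 380) (nat_lit 37624967430) (nat_lit 89) (nat_lit 5) (nat_lit 93) (nat_lit 5) (nat_lit 94) (nat_lit 5) (nat_lit 423) (nat_lit 403)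 (nat_lit 194)) (XT.lf (nat_lit 0) (nat_lit 93029445044) (nat_lit 304) (nat_lit 44675662121) (nat_lit 380) (nat_lit 16170230501) (nat_lit 89) (nat_lit 5) (nat_lit 93) (nat_lit 5) (nat_lit 94) (nat_lit 5) (nat_lit 424) (nat_lit 403) (nat_lit 193))))) (XT.nd (nat_lit 234) (nat_lit 532) (nat_lit 0) (XT.nd (nat_lit 78) (nat_lit 304) (nat_lit 0) (XT.lf (nat_lit 0) (nat_lit 6836499800) (nat_lit 304) (nat_lit 133556705106) (nat_lit 76) (nat_lit 18003548219) (nat_lit 85) (nat_lit 5) (nat_lit 89) (nat_lit 5) (nat_lit 86) (nat_lit 5) (nat_lit 425) (nat_lit 403) (nat_lit 192)) (XT.nd (nat_lit 78) (nat_lit 304) (nat_lit 0) (XT.lf (nat_lit 0) (nat_lit 32229647135) (nat_lit 304) (nat_lit 47184657710) (nat_lit 76) (nat_lit 83627705004) (nat_lit 85) (nat_lit 5) (nat_lit 89) (nat_lit 5) (nat_lit 86) (nat_lit 5) (nat_lit 426) (nat_lit 403) (nat_lit 191)) (XT.lf (nat_lit 0) (nat_lit 44944208920) (nat_lit 304)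 (nat_lit 14649729937) (nat_lit 380) (nat_lit 108290516291) (nat_lit 81) (nat_lit 5) (nat_lit 85) (nat_lit 5) (nat_lit 86) (nat_lit 5) (nat_lit 427) (nat_lit 403) (nat_lit 190)))) (XT.nd (nat_lit 156) (nat_lit 304) (nat_lit 0) (XT.nd (nat_lit 78) (nat_lit 228) (nat_lit 0) (XT.lf (nat_lit 0) (nat_lit 89971418196) (nat_lit 380) (nat_lit 30457778953) (nat_lit 76) (nat_lit 52457576997) (nat_lit 81) (nat_lit 5) (nat_lit 86) (nat_lit 5) (nat_lit 82) (nat_lit 5) (nat_lit 428) (nat_lit 403) (nat_lit 189)) (XT.lf (nat_lit 0) (nat_lit 68604142983) (nat_lit 228) (nat_lit 54574688196) (nat_lit 304) (nat_lit 54894825010) (nat_lit 78) (nat_lit 5) (nat_lit 81) (nat_lit 5) (nat_lit 82) (nat_lit 5) (nat_lit 429) (nat_lit 403) (nat_lit 188))) (XT.nd (nat_lit 78) (nat_lit 304) (nat_lit 0) (XT.lf (nat_lit 0) (nat_lit 158798208015) (nat_lit 304) (nat_lit 10053754179) (nat_lit 76) (nat_lit 14630340561) (nat_lit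 78) (nat_lit 5) (nat_lit 82) (nat_lit 5) (nat_lit 79) (nat_lit 5) (nat_lit 430) (nat_lit 403) (nat_lit 187)) (XT.lf (nat_lit 0) (nat_lit 9252848494) (nat_lit 304) (nat_lit 92663202285) (nat_lit 76) (nat_lit 87117791945) (nat_lit 74) (nat_lit 5) (nat_lit 78) (nat_lit 5) (nat_lit 75) (nat_lit 5) (nat_lit 431) (nat_lit 403) (nat_lit 186))))))) (XT.nd (nat_lit 1092) (nat_lit 1292) (nat_lit 0) (XT.nd (nat_lit 546) (nat_lit 684) (nat_lit 0) (XT.nd (nat_lit 234) (nat_lit 456) (nat_lit 0) (XT.nd (nat_lit 78) (nat_lit 228) (nat_lit 0) (XT.lf (nat_lit 0) (nat_lit 13639695234) (nat_lit 228) (nat_lit 30803219509) (nat_lit 304) (nat_lit 150380520984) (nat_lit 71) (nat_lit 5) (nat_lit 74) (nat_lit 5) (nat_lit 75) (nat_lit 5) (nat_lit 432) (nat_lit 403) (nat_lit 185)) (XT.nd (nat_lit 78) (nat_lit 228) (nat_lit 0) (XT.lf (nat_lit 0) (nat_lit 83672182833) (nat_lit 304) (nat_lit 73060101886) (nat_lit 76) (nat_lit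 44056238801) (nat_lit 71) (nat_lit 5) (nat_lit 75) (nat_lit 5) (nat_lit 72) (nat_lit 5) (nat_lit 433) (nat_lit 403) (nat_lit 184)) (XT.lf (nat_lit 0) (nat_lit 41285899820) (nat_lit 228) (nat_lit 84726399303) (nat_lit 304) (nat_lit 80982097399) (nat_lit 68) (nat_lit 5) (nat_lit 71) (nat_lit 5) (nat_lit 72) (nat_lit 5) (nat_lit 434) (nat_lit 403) (nat_lit 183)))) (XT.nd (nat_lit 156) (nat_lit 228) (nat_lit 0) (XT.nd (nat_lit 78) (nat_lit 228) (nat_lit 0) (XT.lf (nat_lit 0) (nat_lit 163885432833) (nat_lit 228) (nat_lit 7821126362) (nat_lit 304) (nat_lit 41742147139) (nat_lit 68) (nat_lit 5) (nat_lit 71) (nat_lit 5) (nat_lit 72) (nat_lit 5) (nat_lit 435) (nat_lit 403) (nat_lit 182)) (XT.lf (nat_lit 0) (nat_lit 1802261183) (nat_lit 228) (nat_lit 146534226436) (nat_lit 76) (nat_lit 71773407232) (nat_lit 65) (nat_lit 5) (nat_lit 68) (nat_lit 5) (nat_lit 66) (nat_lit 5) (nat_lit 436) (nat_lit 403)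 (nat_lit 181))) (XT.nd (nat_lit 78) (nat_lit 228) (nat_lit 0) (XT.lf (nat_lit 0) (nat_lit 47102271602) (nat_lit 228) (nat_lit 23296411521) (nat_lit 76) (nat_lit 156622185267) (nat_lit 65) (nat_lit 5) (nat_lit 68) (nat_lit 5) (nat_lit 66) (nat_lit 5) (nat_lit 437) (nat_lit 403) (nat_lit 180)) (XT.lf (nat_lit 0) (nat_lit 96585069630) (nat_lit 304) (nat_lit 124787127879) (nat_lit 76) (nat_lit 12809303792) (nat_lit 62) (nat_lit 5) (nat_lit 66) (nat_lit 5) (nat_lit 63) (nat_lit 5) (nat_lit 438) (nat_lit 403) (nat_lit 179))))) (XT.nd (nat_lit 234) (nat_lit 304) (nat_lit 0) (XT.nd (nat_lit 78) (nat_lit 228) (nat_lit 0) (XT.lf (nat_lit 0) (nat_lit 6908386525) (nat_lit 152) (nat_lit 143296409107) (nat_lit 228) (nat_lit 91412230868) (nat_lit 60) (nat_lit 5) (nat_lit 62) (nat_lit 5) (nat_lit 63) (nat_lit 5) (nat_lit 439) (nat_lit 403) (nat_lit 178)) (XT.nd (nat_lit 78) (nat_lit 228) (nat_lit 0) (XT.lf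 (nat_lit 0) (nat_lit 149520770016) (nat_lit 152) (nat_lit 59097920106) (nat_lit 228) (nat_lit 40699978769) (nat_lit 60) (nat_lit 5) (nat_lit 62) (nat_lit 5) (nat_lit 63) (nat_lit 5) (nat_lit 440) (nat_lit 403) (nat_lit 177)) (XT.lf (nat_lit 0) (nat_lit 13289948561) (nat_lit 228) (nat_lit 214794065836) (nat_lit 76) (nat_lit 29254399993) (nat_lit 57) (nat_lit 5) (nat_lit 60) (nat_lit 5) (nat_lit 58) (nat_lit 5) (nat_lit 441) (nat_lit 403) (nat_lit 176)))) (XT.nd (nat_lit 156) (nat_lit 152) (nat_lit 0) (XT.nd (nat_lit 78) (nat_lit 152) (nat_lit 0) (XT.lf (nat_lit 0) (nat_lit 71298095665) (nat_lit 228) (nat_lit 71870142579) (nat_lit 76) (nat_lit 122423222840) (nat_lit 57) (nat_lit 5) (nat_lit 60) (nat_lit 5) (nat_lit 58) (nat_lit 5) (nat_lit 442) (nat_lit 403) (nat_lit 175)) (XT.lf (nat_lit 0) (nat_lit 80785395291) (nat_lit 152) (nat_lit 52682406521) (nat_lit 228) (nat_lit 140726300753) (nat_lit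 55) (nat_lit 5) (nat_lit 57) (nat_lit 5) (nat_lit 58) (nat_lit 5) (nat_lit 443) (nat_lit 403) (nat_lit 174))) (XT.nd (nat_lit 78) (nat_lit 152) (nat_lit 0) (XT.lf (nat_lit 0) (nat_lit 200643823581) (nat_lit 228) (nat_lit 40278167371) (nat_lit 76) (nat_lit 42209993686) (nat_lit 55) (nat_lit 5) (nat_lit 58) (nat_lit 5) (nat_lit 56) (nat_lit 5) (nat_lit 444) (nat_lit 403) (nat_lit 173)) (XT.lf (nat_lit 0) (nat_lit 123601048991) (nat_lit 152) (nat_lit 150370875572) (nat_lit 228) (nat_lit 18405172376) (nat_lit 53) (nat_lit 5) (nat_lit 55) (nat_lit 5) (nat_lit 56) (nat_lit 5) (nat_lit 445) (nat_lit 403) (nat_lit 172)))))) (XT.nd (nat_lit 546) (nat_lit 608) (nat_lit 0) (XT.nd (nat_lit 234) (nat_lit 304) (nat_lit 0) (XT.nd (nat_lit 78) (nat_lit 304) (nat_lit 0) (XT.lf (nat_lit 0) (nat_lit 48010624375) (nat_lit 228) (nat_lit 5752342895) (nat_lit 76) (nat_lit 248248679052) (nat_lit 52) (nat_lit 5)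 (nat_lit 55) (nat_lit 5) (nat_lit 53) (nat_lit 5) (nat_lit 446) (nat_lit 403) (nat_lit 171)) (XT.nd (nat_lit 78) (nat_lit 152) (nat_lit 0) (XT.lf (nat_lit 0) (nat_lit 120584742674) (nat_lit 228) (nat_lit 142192375452) (nat_lit 76) (nat_lit 49162915558) (nat_lit 50) (nat_lit 5) (nat_lit 53) (nat_lit 5) (nat_lit 51) (nat_lit 5) (nat_lit 447) (nat_lit 403) (nat_lit 170)) (XT.lf (nat_lit 0) (nat_lit 32003552527) (nat_lit 152) (nat_lit 166263936827) (nat_lit 228) (nat_lit 124023354963) (nat_lit 48) (nat_lit 5) (nat_lit 50) (nat_lit 5) (nat_lit 51) (nat_lit 5) (nat_lit 448) (nat_lit 403) (nat_lit 169)))) (XT.nd (nat_lit 156) (nat_lit 152) (nat_lit 0) (XT.nd (nat_lit 78) (nat_lit 152) (nat_lit 0) (XT.lf (nat_lit 0) (nat_lit 219845676199) (nat_lit 152) (nat_lit 62396677857) (nat_lit 228) (nat_lit 50796442417) (nat_lit 48) (nat_lit 5) (nat_lit 50) (nat_lit 5) (nat_lit 51) (nat_lit 5) (nat_lit 449)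 (nat_lit 403) (nat_lit 168)) (XT.lf (nat_lit 0) (nat_lit 27177870284) (nat_lit 152) (nat_lit 270259441149) (nat_lit 76) (nat_lit 46770408729) (nat_lit 46) (nat_lit 5) (nat_lit 48) (nat_lit 5) (nat_lit 47) (nat_lit 5) (nat_lit 450) (nat_lit 403) (nat_lit 167))) (XT.nd (nat_lit 78) (nat_lit 152) (nat_lit 0) (XT.lf (nat_lit 0) (nat_lit 110314996416) (nat_lit 152) (nat_lit 83349928365) (nat_lit 76) (nat_lit 162079969281) (nat_lit 46) (nat_lit 5) (nat_lit 48) (nat_lit 5) (nat_lit 47) (nat_lit 5) (nat_lit 451) (nat_lit 403) (nat_lit 166)) (XT.lf (nat_lit 0) (nat_lit 116638020050) (nat_lit 152) (nat_lit 82791899292) (nat_lit 228) (nat_lit 168337960311) (nat_lit 44) (nat_lit 5) (nat_lit 46) (nat_lit 5) (nat_lit 47) (nat_lit 5) (nat_lit 452) (nat_lit 403) (nat_lit 165))))) (XT.nd (nat_lit 234) (nat_lit 456) (nat_lit 0) (XT.nd (nat_lit 78) (nat_lit 152) (nat_lit 0) (XT.lf (nat_lit 0) (nat_lit 294960172400)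 (nat_lit 228) (nat_lit 51350652351) (nat_lit 76) (nat_lit 33983210593) (nat_lit 44) (nat_lit 5) (nat_lit 47) (nat_lit 5) (nat_lit 45) (nat_lit 4) (nat_lit 453) (nat_lit 403) (nat_lit 164)) (XT.nd (nat_lit 78) (nat_lit 0) (nat_lit 0) (XT.lf (nat_lit 0) (nat_lit 5716322088) (nat_lit 152) (nat_lit 231090969183) (nat_lit 76) (nat_lit 156440079048) (nat_lit 42) (nat_lit 5) (nat_lit 44) (nat_lit 5) (nat_lit 43) (nat_lit 5) (nat_lit 454) (nat_lit 403) (nat_lit 163)) (XT.lf (nat_lit 0) (nat_lit 99335044186) (nat_lit 152) (nat_lit 20096653603) (nat_lit 76) (nat_lit 287302538223) (nat_lit 42) (nat_lit 5) (nat_lit 44) (nat_lit 5) (nat_lit 43) (nat_lit 5) (nat_lit 455) (nat_lit 403) (nat_lit 162)))) (XT.nd (nat_lit 156) (nat_lit 228) (nat_lit 0) (XT.nd (nat_lit 78) (nat_lit 76) (nat_lit 0) (XT.lf (nat_lit 0) (nat_lit 200996546269) (nat_lit 228) (nat_lit 212737819390) (nat_lit 76) (nat_lit 6992987151)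 (nat_lit 40) (nat_lit 5) (nat_lit 43) (nat_lit 5) (nat_lit 41) (nat_lit 4) (nat_lit 456) (nat_lit 403) (nat_lit 161)) (XT.lf (nat_lit 0) (nat_lit 11168446020) (nat_lit 76) (nat_lit 299050776872) (nat_lit 152) (nat_lit 125076997600) (nat_lit 39) (nat_lit 5) (nat_lit 40) (nat_lit 5) (nat_lit 41) (nat_lit 4) (nat_lit 457) (nat_lit 403) (nat_lit 160))) (XT.nd (nat_lit 78) (nat_lit 228) (nat_lit 0) (XT.lf (nat_lit 0) (nat_lit 253655634187) (nat_lit 76) (nat_lit 174850124939) (nat_lit 152) (nat_lit 21907636160) (nat_lit 39) (nat_lit 5) (nat_lit 40) (nat_lit 5) (nat_lit 41) (nat_lit 4) (nat_lit 458) (nat_lit 403) (nat_lit 159)) (XT.lf (nat_lit 0) (nat_lit 41974784548) (nat_lit 152) (nat_lit 42334677738) (nat_lit 228) (nat_lit 381876740734) (nat_lit 36) (nat_lit 5) (nat_lit 38) (nat_lit 5) (nat_lit 39) (nat_lit 5) (nat_lit 459) (nat_lit 403) (nat_lit 158))))))))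
noncomputable def xc224 : XT := (XT.nd (nat_lit 49764) (nat_lit 0) (nat_lit 2432) (XT.nd (nat_lit 1014) (nat_lit 76) (nat_lit 0) (XT.nd (nat_lit 468) (nat_lit 380) (nat_lit 0) (XT.nd (nat_lit 234) (nat_lit 304) (nat_lit 0) (XT.nd (nat_lit 78) (nat_lit 76) (nat_lit 0) (XT.lf (nat_lit 0) (nat_lit 199999322195) (nat_lit 228) (nat_lit 185031450989) (nat_lit 76) (nat_lit 97454013551) (nat_lit 36) (nat_lit 5) (nat_lit 39) (nat_lit 5) (nat_lit 37) (nat_lit 4) (nat_lit 460) (nat_lit 403) (nat_lit 157)) (XT.nd (nat_lit 78) (nat_lit 0) (nat_lit 0) (XT.lf (nat_lit 0) (nat_lit 67576209364) (nat_lit 76) (nat_lit 255646446507) (nat_lit 152) (nat_lit 176288194739) (nat_lit 35) (nat_lit 5) (nat_lit 36) (nat_lit 5) (nat_lit 37) (nat_lit 4) (nat_lit 461) (nat_lit 403) (nat_lit 156)) (XT.lf (nat_lit 0) (nat_lit 339237974289) (nat_lit 76) (nat_lit 116502696380) (nat_lit 152) (nat_lit 61490871300) (nat_lit 35)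 (nat_lit 5) (nat_lit 36) (nat_lit 5) (nat_lit 37) (nat_lit 4) (nat_lit 462) (nat_lit 403) (nat_lit 155)))) (XT.nd (nat_lit 78) (nat_lit 76) (nat_lit 0) (XT.lf (nat_lit 0) (nat_lit 59071684804) (nat_lit 228) (nat_lit 445598815786) (nat_lit 76) (nat_lit 31025912518) (nat_lit 32) (nat_lit 5) (nat_lit 35) (nat_lit 5) (nat_lit 33) (nat_lit 4) (nat_lit 463) (nat_lit 403) (nat_lit 154)) (XT.nd (nat_lit 78) (nat_lit 76) (nat_lit 0) (XT.lf (nat_lit 0) (nat_lit 188569496609) (nat_lit 228) (nat_lit 180128444476) (nat_lit 76) (nat_lit 186087503158) (nat_lit 32) (nat_lit 5) (nat_lit 35) (nat_lit 5) (nat_lit 33) (nat_lit 4) (nat_lit 464) (nat_lit 403) (nat_lit 153)) (XT.lf (nat_lit 0) (nat_lit 101875971273) (nat_lit 76) (nat_lit 224256721352) (nat_lit 152) (nat_lit 248616709637) (nat_lit 31) (nat_lit 5) (nat_lit 32) (nat_lit 5) (nat_lit 33) (nat_lit 4) (nat_lit 465) (nat_lit 403) (nat_lit 152))))) (XT.nd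 (nat_lit 234) (nat_lit 228) (nat_lit 0) (XT.nd (nat_lit 78) (nat_lit 152) (nat_lit 0) (XT.lf (nat_lit 0) (nat_lit 404234121509) (nat_lit 76) (nat_lit 69390414940) (nat_lit 152) (nat_lit 121934497341) (nat_lit 31) (nat_lit 5) (nat_lit 32) (nat_lit 5) (nat_lit 33) (nat_lit 4) (nat_lit 466) (nat_lit 403) (nat_lit 151)) (XT.nd (nat_lit 78) (nat_lit 0) (nat_lit 0) (XT.lf (nat_lit 0) (nat_lit 13892328815) (nat_lit 152) (nat_lit 511231489401) (nat_lit 76) (nat_lit 92118418227) (nat_lit 29) (nat_lit 5) (nat_lit 31) (nat_lit 5) (nat_lit 30) (nat_lit 4) (nat_lit 467) (nat_lit 403) (nat_lit 150)) (XT.lf (nat_lit 0) (nat_lit 156843471453) (nat_lit 152) (nat_lit 218181758950) (nat_lit 76) (nat_lit 264662883831) (nat_lit 29) (nat_lit 5) (nat_lit 31) (nat_lit 5) (nat_lit 30) (nat_lit 4) (nat_lit 468) (nat_lit 403) (nat_lit 149)))) (XT.nd (nat_lit 156) (nat_lit 152) (nat_lit 0) (XT.nd (nat_lit 78) (nat_lit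 0) (nat_lit 0) (XT.lf (nat_lit 0) (nat_lit 92480275525) (nat_lit 76) (nat_lit 215905703782) (nat_lit 152) (nat_lit 354798116210) (nat_lit 28) (nat_lit 5) (nat_lit 29) (nat_lit 5) (nat_lit 30) (nat_lit 4) (nat_lit 469) (nat_lit 403) (nat_lit 148)) (XT.lf (nat_lit 0) (nat_lit 426250062940) (nat_lit 76) (nat_lit 44950496349) (nat_lit 152) (nat_lit 216469569246) (nat_lit 28) (nat_lit 5) (nat_lit 29) (nat_lit 5) (nat_lit 30) (nat_lit 4) (nat_lit 470) (nat_lit 403) (nat_lit 147))) (XT.nd (nat_lit 78) (nat_lit 76) (nat_lit 0) (XT.lf (nat_lit 0) (nat_lit 63251453842) (nat_lit 76) (nat_lit 581992623420) (nat_lit 76) (nat_lit 67981975499) (nat_lit 27) (nat_lit 4) (nat_lit 28) (nat_lit 5) (nat_lit 28) (nat_lit 4) (nat_lit 471) (nat_lit 403) (nat_lit 146)) (XT.lf (nat_lit 0) (nat_lit 90352371350) (nat_lit 152) (nat_lit 328788374372) (nat_lit 76) (nat_lit 320588551673) (nat_lit 26) (nat_lit 5) (nat_lit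 28) (nat_lit 5) (nat_lit 27) (nat_lit 4) (nat_lit 472) (nat_lit 403) (nat_lit 145)))))) (XT.nd (nat_lit 48204) (nat_lit 0) (nat_lit 6688) (XT.nd (nat_lit 47892) (nat_lit 0) (nat_lit 7144) (XT.nd (nat_lit 47736) (nat_lit 0) (nat_lit 7068) (XT.lf (nat_lit 0) (nat_lit 7585364484) (nat_lit 76) (nat_lit 246851798281) (nat_lit 152) (nat_lit 513058900203) (nat_lit 25) (nat_lit 5) (nat_lit 26) (nat_lit 5) (nat_lit 27) (nat_lit 4) (nat_lit 473) (nat_lit 403) (nat_lit 144)) (XT.nd (nat_lit 78) (nat_lit 0) (nat_lit 0) (XT.lf (nat_lit 0) (nat_lit 12888927464) (nat_lit 836) (nat_lit 16640654397) (nat_lit 836) (nat_lit 16640654397) (nat_lit 118) (nat_lit 3) (nat_lit 129) (nat_lit 3) (nat_lit 129) (nat_lit 5) (nat_lit 404) (nat_lit 404) (nat_lit 212)) (XT.lf (nat_lit 76) (nat_lit 11965051971) (nat_lit 0) (nat_lit 14651544461) (nat_lit 836) (nat_lit 68022669045) (nat_lit 119) (nat_lit 5) (nat_lit 118) (nat_lit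 3) (nat_lit 129) (nat_lit 5) (nat_lit 405) (nat_lit 404) (nat_lit 211)))) (XT.nd (nat_lit 156) (nat_lit 0) (nat_lit 76) (XT.nd (nat_lit 78) (nat_lit 0) (nat_lit 0) (XT.lf (nat_lit 0) (nat_lit 28568912244) (nat_lit 760) (nat_lit 36904403663) (nat_lit 836) (nat_lit 31526100582) (nat_lit 119) (nat_lit 5) (nat_lit 129) (nat_lit 5) (nat_lit 130) (nat_lit 5) (nat_lit 406) (nat_lit 404) (nat_lit 210)) (XT.lf (nat_lit 76) (nat_lit 11274280533) (nat_lit 0) (nat_lit 19760318684) (nat_lit 836) (nat_lit 68422188312) (nat_lit 120) (nat_lit 5) (nat_lit 119) (nat_lit 5) (nat_lit 130) (nat_lit 5) (nat_lit 407) (nat_lit 404) (nat_lit 209))) (XT.nd (nat_lit 78) (nat_lit 0) (nat_lit 0) (XT.lf (nat_lit 0) (nat_lit 34699252921) (nat_lit 760) (nat_lit 39314060877) (nat_lit 836) (nat_lit 27969929443) (nat_lit 120) (nat_lit 5) (nat_lit 130) (nat_lit 5) (nat_lit 131) (nat_lit 5) (nat_lit 408) (nat_lit 404) (nat_lit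 208)) (XT.lf (nat_lit 76) (nat_lit 12059568737) (nat_lit 0) (nat_lit 26999377890) (nat_lit 836) (nat_lit 65551484974) (nat_lit 121) (nat_lit 5) (nat_lit 120) (nat_lit 5) (nat_lit 131) (nat_lit 5) (nat_lit 409) (nat_lit 404) (nat_lit 207))))) (XT.nd (nat_lit 234) (nat_lit 608) (nat_lit 0) (XT.nd (nat_lit 78) (nat_lit 0) (nat_lit 0) (XT.lf (nat_lit 0) (nat_lit 44662128205) (nat_lit 760) (nat_lit 40329311425) (nat_lit 836) (nat_lit 22326264802) (nat_lit 121) (nat_lit 5) (nat_lit 131) (nat_lit 5) (nat_lit 132) (nat_lit 5) (nat_lit 410) (nat_lit 404) (nat_lit 206)) (XT.nd (nat_lit 78) (nat_lit 0) (nat_lit 76) (XT.lf (nat_lit 76) (nat_lit 14525321718) (nat_lit 0) (nat_lit 36689161296) (nat_lit 836) (nat_lit 58912407391) (nat_lit 122) (nat_lit 5) (nat_lit 121) (nat_lit 5) (nat_lit 132) (nat_lit 5) (nat_lit 411) (nat_lit 404) (nat_lit 205)) (XT.lf (nat_lit 0) (nat_lit 59007304107) (nat_lit 760) (nat_lit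 39750072749) (nat_lit 836) (nat_lit 14273516588) (nat_lit 122) (nat_lit 5) (nat_lit 132) (nat_lit 5) (nat_lit 133) (nat_lit 5) (nat_lit 412) (nat_lit 404) (nat_lit 204)))) (XT.nd (nat_lit 156) (nat_lit 684) (nat_lit 0) (XT.nd (nat_lit 78) (nat_lit 0) (nat_lit 76) (XT.lf (nat_lit 76) (nat_lit 18897075639) (nat_lit 0) (nat_lit 49188841422) (nat_lit 836) (nat_lit 47949372220) (nat_lit 123) (nat_lit 5) (nat_lit 122) (nat_lit 5) (nat_lit 133) (nat_lit 5) (nat_lit 413) (nat_lit 404) (nat_lit 203)) (XT.lf (nat_lit 0) (nat_lit 78346972341) (nat_lit 760) (nat_lit 37355588783) (nat_lit 76) (nat_lit 3450918379) (nat_lit 123) (nat_lit 5) (nat_lit 133) (nat_lit 5) (nat_lit 124) (nat_lit 5) (nat_lit 414) (nat_lit 404) (nat_lit 202))) (XT.nd (nat_lit 78) (nat_lit 0) (nat_lit 0) (XT.lf (nat_lit 0) (nat_lit 25423210272) (nat_lit 760) (nat_lit 64900853875) (nat_lit 836) (nat_lit 32043366071) (nat_lit 113)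 (nat_lit 5) (nat_lit 123) (nat_lit 5) (nat_lit 124) (nat_lit 5) (nat_lit 415) (nat_lit 404) (nat_lit 201)) (XT.lf (nat_lit 0) (nat_lit 92637571459) (nat_lit 760) (nat_lit 10894766598) (nat_lit 836) (nat_lit 22178124197) (nat_lit 113) (nat_lit 5) (nat_lit 123) (nat_lit 5) (nat_lit 124) (nat_lit 5) (nat_lit 416) (nat_lit 404) (nat_lit 200))))))) (XT.nd (nat_lit 1014) (nat_lit 1824) (nat_lit 0) (XT.nd (nat_lit 468) (nat_lit 1216) (nat_lit 0) (XT.nd (nat_lit 234) (nat_lit 380) (nat_lit 0) (XT.nd (nat_lit 78) (nat_lit 456) (nat_lit 0) (XT.lf (nat_lit 0) (nat_lit 34376746109) (nat_lit 380) (nat_lit 84275952353) (nat_lit 456) (nat_lit 10505363941) (nat_lit 108) (nat_lit 5) (nat_lit 113) (nat_lit 5) (nat_lit 114) (nat_lit 5) (nat_lit 417) (nat_lit 404) (nat_lit 199)) (XT.nd (nat_lit 78) (nat_lit 380) (nat_lit 0) (XT.lf (nat_lit 0) (nat_lit 2442592909) (nat_lit 456) (nat_lit 26618366208) (nat_lit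 76) (nat_lit 103678336525) (nat_lit 107) (nat_lit 5) (nat_lit 113) (nat_lit 5) (nat_lit 108) (nat_lit 5) (nat_lit 418) (nat_lit 404) (nat_lit 198)) (XT.lf (nat_lit 0) (nat_lit 16872990978) (nat_lit 456) (nat_lit 90660108393) (nat_lit 76) (nat_lit 28898475725) (nat_lit 102) (nat_lit 5) (nat_lit 108) (nat_lit 5) (nat_lit 103) (nat_lit 5) (nat_lit 419) (nat_lit 404) (nat_lit 197)))) (XT.nd (nat_lit 78) (nat_lit 380) (nat_lit 0) (XT.lf (nat_lit 0) (nat_lit 32959238021) (nat_lit 456) (nat_lit 18065088995) (nat_lit 76) (nat_lit 89237425180) (nat_lit 102) (nat_lit 5) (nat_lit 108) (nat_lit 5) (nat_lit 103) (nat_lit 5) (nat_lit 420) (nat_lit 404) (nat_lit 196)) (XT.nd (nat_lit 78) (nat_lit 0) (nat_lit 0) (XT.lf (nat_lit 0) (nat_lit 50932718281) (nat_lit 456) (nat_lit 84299240581) (nat_lit 76) (nat_lit 8997333365) (nat_lit 97) (nat_lit 5) (nat_lit 103) (nat_lit 5) (nat_lit 98) (nat_lit 5) (nat_lit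 421) (nat_lit 404) (nat_lit 195)) (XT.lf (nat_lit 0) (nat_lit 70952048512) (nat_lit 456) (nat_lit 6769539687) (nat_lit 76) (nat_lit 70616262377) (nat_lit 97) (nat_lit 5) (nat_lit 103) (nat_lit 5) (nat_lit 98) (nat_lit 5) (nat_lit 422) (nat_lit 404) (nat_lit 194))))) (XT.nd (nat_lit 234) (nat_lit 608) (nat_lit 0) (XT.nd (nat_lit 78) (nat_lit 304) (nat_lit 0) (XT.lf (nat_lit 0) (nat_lit 77104199207) (nat_lit 304) (nat_lit 16071725473) (nat_lit 380) (nat_lit 59415733300) (nat_lit 93) (nat_lit 5) (nat_lit 97) (nat_lit 5) (nat_lit 98) (nat_lit 5) (nat_lit 423) (nat_lit 404) (nat_lit 193)) (XT.nd (nat_lit 78) (nat_lit 0) (nat_lit 0) (XT.lf (nat_lit 0) (nat_lit 7843384118) (nat_lit 304) (nat_lit 109666094772) (nat_lit 380) (nat_lit 39498752757) (nat_lit 89) (nat_lit 5) (nat_lit 93) (nat_lit 5) (nat_lit 94) (nat_lit 5) (nat_lit 424) (nat_lit 404) (nat_lit 192)) (XT.lf (nat_lit 0) (nat_lit 97689075565)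 (nat_lit 304) (nat_lit 46908053266) (nat_lit 380) (nat_lit 16971634365) (nat_lit 89) (nat_lit 5) (nat_lit 93) (nat_lit 5) (nat_lit 94) (nat_lit 5) (nat_lit 425) (nat_lit 404) (nat_lit 191)))) (XT.nd (nat_lit 156) (nat_lit 304) (nat_lit 0) (XT.nd (nat_lit 78) (nat_lit 0) (nat_lit 0) (XT.lf (nat_lit 0) (nat_lit 7185030734) (nat_lit 304) (nat_lit 140225974727) (nat_lit 76) (nat_lit 18905247266) (nat_lit 85) (nat_lit 5) (nat_lit 89) (nat_lit 5) (nat_lit 86) (nat_lit 5) (nat_lit 426) (nat_lit 404) (nat_lit 190)) (XT.lf (nat_lit 0) (nat_lit 33847516105) (nat_lit 304) (nat_lit 49535732849) (nat_lit 76) (nat_lit 87810539431) (nat_lit 85) (nat_lit 5) (nat_lit 89) (nat_lit 5) (nat_lit 86) (nat_lit 5) (nat_lit 427) (nat_lit 404) (nat_lit 189))) (XT.nd (nat_lit 78) (nat_lit 0) (nat_lit 0) (XT.lf (nat_lit 0) (nat_lit 47199445536) (nat_lit 304) (nat_lit 15380398064) (nat_lit 380) (nat_lit 113698521415)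 (nat_lit 81) (nat_lit 5) (nat_lit 85) (nat_lit 5) (nat_lit 86) (nat_lit 5) (nat_lit 428) (nat_lit 404) (nat_lit 188)) (XT.lf (nat_lit 0) (nat_lit 94475928334) (nat_lit 380) (nat_lit 31972752976) (nat_lit 76) (nat_lit 55082132200) (nat_lit 81) (nat_lit 5) (nat_lit 86) (nat_lit 5) (nat_lit 82) (nat_lit 5) (nat_lit 429) (nat_lit 404) (nat_lit 187)))))) (XT.nd (nat_lit 546) (nat_lit 836) (nat_lit 0) (XT.nd (nat_lit 234) (nat_lit 456) (nat_lit 0) (XT.nd (nat_lit 78) (nat_lit 304) (nat_lit 0) (XT.lf (nat_lit 0) (nat_lit 72042137397) (nat_lit 228) (nat_lit 57301413332) (nat_lit 304) (nat_lit 57633497104) (nat_lit 78) (nat_lit 5) (nat_lit 81) (nat_lit 5) (nat_lit 82) (nat_lit 5) (nat_lit 430) (nat_lit 404) (nat_lit 186)) (XT.nd (nat_lit 78) (nat_lit 304) (nat_lit 0) (XT.lf (nat_lit 0) (nat_lit 166743651139) (nat_lit 304) (nat_lit 10548778020) (nat_lit 76) (nat_lit 15363709937) (nat_lit 78) (nat_lit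 5) (nat_lit 82) (nat_lit 5) (nat_lit 79) (nat_lit 5) (nat_lit 431) (nat_lit 404) (nat_lit 185)) (XT.lf (nat_lit 0) (nat_lit 9720968206) (nat_lit 304) (nat_lit 97288639080) (nat_lit 76) (nat_lit 91475651751) (nat_lit 74) (nat_lit 5) (nat_lit 78) (nat_lit 5) (nat_lit 75) (nat_lit 5) (nat_lit 432) (nat_lit 404) (nat_lit 184)))) (XT.nd (nat_lit 156) (nat_lit 228) (nat_lit 0) (XT.nd (nat_lit 78) (nat_lit 0) (nat_lit 0) (XT.lf (nat_lit 0) (nat_lit 14329278746) (nat_lit 228) (nat_lit 32341116837) (nat_lit 304) (nat_lit 157893943311) (nat_lit 71) (nat_lit 5) (nat_lit 74) (nat_lit 5) (nat_lit 75) (nat_lit 5) (nat_lit 433) (nat_lit 404) (nat_lit 183)) (XT.lf (nat_lit 0) (nat_lit 87860906683) (nat_lit 304) (nat_lit 76705647906) (nat_lit 76) (nat_lit 46261137595) (nat_lit 71) (nat_lit 5) (nat_lit 75) (nat_lit 5) (nat_lit 72) (nat_lit 5) (nat_lit 434) (nat_lit 404) (nat_lit 182))) (XT.nd (nat_lit 78)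 (nat_lit 0) (nat_lit 0) (XT.lf (nat_lit 0) (nat_lit 43357533578) (nat_lit 228) (nat_lit 88960366231) (nat_lit 304) (nat_lit 85025965561) (nat_lit 68) (nat_lit 5) (nat_lit 71) (nat_lit 5) (nat_lit 72) (nat_lit 5) (nat_lit 435) (nat_lit 404) (nat_lit 181)) (XT.lf (nat_lit 0) (nat_lit 172086693776) (nat_lit 228) (nat_lit 8209941693) (nat_lit 304) (nat_lit 43824267155) (nat_lit 68) (nat_lit 5) (nat_lit 71) (nat_lit 5) (nat_lit 72) (nat_lit 5) (nat_lit 436) (nat_lit 404) (nat_lit 180))))) (XT.nd (nat_lit 234) (nat_lit 380) (nat_lit 0) (XT.nd (nat_lit 78) (nat_lit 228) (nat_lit 0) (XT.lf (nat_lit 0) (nat_lit 1897118243) (nat_lit 228) (nat_lit 153853702119) (nat_lit 76) (nat_lit 75364330570) (nat_lit 65) (nat_lit 5) (nat_lit 68) (nat_lit 5) (nat_lit 66) (nat_lit 5) (nat_lit 437) (nat_lit 404) (nat_lit 179)) (XT.nd (nat_lit 78) (nat_lit 228) (nat_lit 0) (XT.lf (nat_lit 0) (nat_lit 49461903278) (nat_lit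 228) (nat_lit 24454341013) (nat_lit 76) (nat_lit 164455440223) (nat_lit 65) (nat_lit 5) (nat_lit 68) (nat_lit 5) (nat_lit 66) (nat_lit 5) (nat_lit 438) (nat_lit 404) (nat_lit 178)) (XT.lf (nat_lit 0) (nat_lit 101418768933) (nat_lit 304) (nat_lit 131019519590) (nat_lit 76) (nat_lit 13452064227) (nat_lit 62) (nat_lit 5) (nat_lit 66) (nat_lit 5) (nat_lit 63) (nat_lit 5) (nat_lit 439) (nat_lit 404) (nat_lit 177)))) (XT.nd (nat_lit 156) (nat_lit 228) (nat_lit 0) (XT.nd (nat_lit 78) (nat_lit 0) (nat_lit 0) (XT.lf (nat_lit 0) (nat_lit 7260658201) (nat_lit 152) (nat_lit 150458718313) (nat_lit 228) (nat_lit 95978282993) (nat_lit 60) (nat_lit 5) (nat_lit 62) (nat_lit 5) (nat_lit 63) (nat_lit 5) (nat_lit 440) (nat_lit 404) (nat_lit 176)) (XT.lf (nat_lit 0) (nat_lit 157003334565) (nat_lit 152) (nat_lit 62050424445) (nat_lit 228) (nat_lit 42730635404) (nat_lit 60) (nat_lit 5) (nat_lit 62) (nat_lit 5)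 (nat_lit 63) (nat_lit 5) (nat_lit 441) (nat_lit 404) (nat_lit 175))) (XT.nd (nat_lit 78) (nat_lit 0) (nat_lit 0) (XT.lf (nat_lit 0) (nat_lit 13958589852) (nat_lit 228) (nat_lit 225527042404) (nat_lit 76) (nat_lit 30719494570) (nat_lit 57) (nat_lit 5) (nat_lit 60) (nat_lit 5) (nat_lit 58) (nat_lit 5) (nat_lit 442) (nat_lit 404) (nat_lit 174)) (XT.lf (nat_lit 0) (nat_lit 74866946984) (nat_lit 228) (nat_lit 75457243304) (nat_lit 76) (nat_lit 128546645485) (nat_lit 57) (nat_lit 5) (nat_lit 60) (nat_lit 5) (nat_lit 58) (nat_lit 5) (nat_lit 443) (nat_lit 404) (nat_lit 173))))))))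
noncomputable def xc225 : XT := (XT.nd (nat_lit 2106) (nat_lit 76) (nat_lit 0) (XT.nd (nat_lit 1014) (nat_lit 1064) (nat_lit 0) (XT.nd (nat_lit 468) (nat_lit 456) (nat_lit 0) (XT.nd (nat_lit 234) (nat_lit 380) (nat_lit 0) (XT.nd (nat_lit 78) (nat_lit 152) (nat_lit 0) (XT.lf (nat_lit 0) (nat_lit 84830968130) (nat_lit 152) (nat_lit 55314080787) (nat_lit 228) (nat_lit 147758564937) (nat_lit 55) (nat_lit 5) (nat_lit 57) (nat_lit 5) (nat_lit 58) (nat_lit 5) (nat_lit 444) (nat_lit 404) (nat_lit 172)) (XT.nd (nat_lit 78) (nat_lit 152) (nat_lit 0) (XT.lf (nat_lit 0) (nat_lit 210679724478) (nat_lit 228) (nat_lit 42285924573) (nat_lit 76) (nat_lit 44322748391) (nat_lit 55) (nat_lit 5) (nat_lit 58) (nat_lit 5) (nat_lit 56) (nat_lit 5) (nat_lit 445) (nat_lit 404) (nat_lit 171)) (XT.lf (nat_lit 0) (nat_lit 129787153395) (nat_lit 152) (nat_lit 157886994950) (nat_lit 228) (nat_lit 19321621167) (nat_lit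 53) (nat_lit 5) (nat_lit 55) (nat_lit 5) (nat_lit 56) (nat_lit 5) (nat_lit 446) (nat_lit 404) (nat_lit 170)))) (XT.nd (nat_lit 78) (nat_lit 304) (nat_lit 0) (XT.lf (nat_lit 0) (nat_lit 50414667870) (nat_lit 228) (nat_lit 6034079328) (nat_lit 76) (nat_lit 260663305013) (nat_lit 52) (nat_lit 5) (nat_lit 55) (nat_lit 5) (nat_lit 53) (nat_lit 5) (nat_lit 447) (nat_lit 404) (nat_lit 169)) (XT.nd (nat_lit 78) (nat_lit 152) (nat_lit 0) (XT.lf (nat_lit 0) (nat_lit 126617451863) (nat_lit 228) (nat_lit 149296072518) (nat_lit 76) (nat_lit 51623336608) (nat_lit 50) (nat_lit 5) (nat_lit 53) (nat_lit 5) (nat_lit 51) (nat_lit 5) (nat_lit 448) (nat_lit 404) (nat_lit 168)) (XT.lf (nat_lit 0) (nat_lit 33609556349) (nat_lit 152) (nat_lit 174574705157) (nat_lit 228) (nat_lit 130220954405) (nat_lit 48) (nat_lit 5) (nat_lit 50) (nat_lit 5) (nat_lit 51) (nat_lit 5) (nat_lit 449) (nat_lit 404) (nat_lit 167)))))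 (XT.nd (nat_lit 234) (nat_lit 304) (nat_lit 0) (XT.nd (nat_lit 78) (nat_lit 152) (nat_lit 0) (XT.lf (nat_lit 0) (nat_lit 230843508766) (nat_lit 152) (nat_lit 65514198881) (nat_lit 228) (nat_lit 53332866152) (nat_lit 48) (nat_lit 5) (nat_lit 50) (nat_lit 5) (nat_lit 51) (nat_lit 5) (nat_lit 450) (nat_lit 404) (nat_lit 166)) (XT.nd (nat_lit 78) (nat_lit 0) (nat_lit 0) (XT.lf (nat_lit 0) (nat_lit 28540020326) (nat_lit 152) (nat_lit 283766721284) (nat_lit 76) (nat_lit 49111201097) (nat_lit 46) (nat_lit 5) (nat_lit 48) (nat_lit 5) (nat_lit 47) (nat_lit 5) (nat_lit 451) (nat_lit 404) (nat_lit 165)) (XT.lf (nat_lit 0) (nat_lit 115833847692) (nat_lit 152) (nat_lit 87512003905) (nat_lit 76) (nat_lit 170186131489) (nat_lit 46) (nat_lit 5) (nat_lit 48) (nat_lit 5) (nat_lit 47) (nat_lit 5) (nat_lit 452) (nat_lit 404) (nat_lit 164)))) (XT.nd (nat_lit 156) (nat_lit 152) (nat_lit 0) (XT.nd (nat_lit 78)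 (nat_lit 0) (nat_lit 0) (XT.lf (nat_lit 0) (nat_lit 122475254498) (nat_lit 152) (nat_lit 86929197848) (nat_lit 228) (nat_lit 176751668859) (nat_lit 44) (nat_lit 5) (nat_lit 46) (nat_lit 5) (nat_lit 47) (nat_lit 5) (nat_lit 453) (nat_lit 404) (nat_lit 163)) (XT.lf (nat_lit 0) (nat_lit 309711107583) (nat_lit 228) (nat_lit 53912994471) (nat_lit 76) (nat_lit 35684488180) (nat_lit 44) (nat_lit 5) (nat_lit 47) (nat_lit 5) (nat_lit 45) (nat_lit 4) (nat_lit 454) (nat_lit 404) (nat_lit 162))) (XT.nd (nat_lit 78) (nat_lit 0) (nat_lit 0) (XT.lf (nat_lit 0) (nat_lit 6005052632) (nat_lit 152) (nat_lit 242640313998) (nat_lit 76) (nat_lit 164264225983) (nat_lit 42) (nat_lit 5) (nat_lit 44) (nat_lit 5) (nat_lit 43) (nat_lit 5) (nat_lit 455) (nat_lit 404) (nat_lit 161)) (XT.lf (nat_lit 0) (nat_lit 104304572052) (nat_lit 152) (nat_lit 21096530431) (nat_lit 76) (nat_lit 301669706070) (nat_lit 42) (nat_lit 5)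 (nat_lit 44) (nat_lit 5) (nat_lit 43) (nat_lit 5) (nat_lit 456) (nat_lit 404) (nat_lit 160)))))) (XT.nd (nat_lit 546) (nat_lit 532) (nat_lit 0) (XT.nd (nat_lit 234) (nat_lit 304) (nat_lit 0) (XT.nd (nat_lit 78) (nat_lit 76) (nat_lit 0) (XT.lf (nat_lit 0) (nat_lit 211049126858) (nat_lit 228) (nat_lit 223369731674) (nat_lit 76) (nat_lit 7344723802) (nat_lit 40) (nat_lit 5) (nat_lit 43) (nat_lit 5) (nat_lit 41) (nat_lit 4) (nat_lit 457) (nat_lit 404) (nat_lit 159)) (XT.nd (nat_lit 78) (nat_lit 0) (nat_lit 0) (XT.lf (nat_lit 0) (nat_lit 11731766706) (nat_lit 76) (nat_lit 314001115976) (nat_lit 152) (nat_lit 131328013472) (nat_lit 39) (nat_lit 5) (nat_lit 40) (nat_lit 5) (nat_lit 41) (nat_lit 4) (nat_lit 458) (nat_lit 404) (nat_lit 158)) (XT.lf (nat_lit 0) (nat_lit 266343081025) (nat_lit 76) (nat_lit 183590536195) (nat_lit 152) (nat_lit 23000318912) (nat_lit 39) (nat_lit 5) (nat_lit 40) (nat_lit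 5) (nat_lit 41) (nat_lit 4) (nat_lit 459) (nat_lit 404) (nat_lit 157)))) (XT.nd (nat_lit 156) (nat_lit 76) (nat_lit 0) (XT.nd (nat_lit 78) (nat_lit 0) (nat_lit 0) (XT.lf (nat_lit 0) (nat_lit 44078199038) (nat_lit 152) (nat_lit 44449297612) (nat_lit 228) (nat_lit 400967888085) (nat_lit 36) (nat_lit 5) (nat_lit 38) (nat_lit 5) (nat_lit 39) (nat_lit 5) (nat_lit 460) (nat_lit 404) (nat_lit 156)) (XT.lf (nat_lit 0) (nat_lit 210001759025) (nat_lit 228) (nat_lit 194278480022) (nat_lit 76) (nat_lit 102328663134) (nat_lit 36) (nat_lit 5) (nat_lit 39) (nat_lit 5) (nat_lit 37) (nat_lit 4) (nat_lit 461) (nat_lit 404) (nat_lit 155))) (XT.nd (nat_lit 78) (nat_lit 0) (nat_lit 0) (XT.lf (nat_lit 0) (nat_lit 70959490066) (nat_lit 76) (nat_lit 268426721458) (nat_lit 152) (nat_lit 185100060136) (nat_lit 35) (nat_lit 5) (nat_lit 36) (nat_lit 5) (nat_lit 37) (nat_lit 4) (nat_lit 462) (nat_lit 404) (nat_lit 154))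 (XT.lf (nat_lit 0) (nat_lit 356204130369) (nat_lit 76) (nat_lit 122325881319) (nat_lit 152) (nat_lit 64562991683) (nat_lit 35) (nat_lit 5) (nat_lit 36) (nat_lit 5) (nat_lit 37) (nat_lit 4) (nat_lit 463) (nat_lit 404) (nat_lit 153))))) (XT.nd (nat_lit 234) (nat_lit 228) (nat_lit 0) (XT.nd (nat_lit 78) (nat_lit 76) (nat_lit 0) (XT.lf (nat_lit 0) (nat_lit 62027600242) (nat_lit 228) (nat_lit 467874406627) (nat_lit 76) (nat_lit 32579110043) (nat_lit 32) (nat_lit 5) (nat_lit 35) (nat_lit 5) (nat_lit 33) (nat_lit 4) (nat_lit 464) (nat_lit 404) (nat_lit 152)) (XT.nd (nat_lit 78) (nat_lit 76) (nat_lit 0) (XT.lf (nat_lit 0) (nat_lit 198000191627) (nat_lit 228) (nat_lit 189130723892) (nat_lit 76) (nat_lit 195393689649) (nat_lit 32) (nat_lit 5) (nat_lit 35) (nat_lit 5) (nat_lit 33) (nat_lit 4) (nat_lit 465) (nat_lit 404) (nat_lit 151)) (XT.lf (nat_lit 0) (nat_lit 106973845826) (nat_lit 76) (nat_lit 235467659533)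 (nat_lit 152) (nat_lit 261045257846) (nat_lit 31) (nat_lit 5) (nat_lit 32) (nat_lit 5) (nat_lit 33) (nat_lit 4) (nat_lit 466) (nat_lit 404) (nat_lit 150)))) (XT.nd (nat_lit 156) (nat_lit 76) (nat_lit 0) (XT.nd (nat_lit 78) (nat_lit 152) (nat_lit 0) (XT.lf (nat_lit 0) (nat_lit 424449709479) (nat_lit 76) (nat_lit 72858128176) (nat_lit 152) (nat_lit 128029043854) (nat_lit 31) (nat_lit 5) (nat_lit 32) (nat_lit 5) (nat_lit 33) (nat_lit 4) (nat_lit 467) (nat_lit 404) (nat_lit 149)) (XT.lf (nat_lit 0) (nat_lit 14589042585) (nat_lit 152) (nat_lit 536789100483) (nat_lit 76) (nat_lit 96726100102) (nat_lit 29) (nat_lit 5) (nat_lit 31) (nat_lit 5) (nat_lit 30) (nat_lit 4) (nat_lit 468) (nat_lit 404) (nat_lit 148))) (XT.nd (nat_lit 78) (nat_lit 76) (nat_lit 0) (XT.lf (nat_lit 0) (nat_lit 164687642482) (nat_lit 152) (nat_lit 229087072242) (nat_lit 76) (nat_lit 277897705130) (nat_lit 29) (nat_lit 5) (nat_lit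 31) (nat_lit 5) (nat_lit 30) (nat_lit 4) (nat_lit 469) (nat_lit 404) (nat_lit 147)) (XT.lf (nat_lit 0) (nat_lit 97108003075) (nat_lit 76) (nat_lit 226699235519) (nat_lit 152) (nat_lit 372535963475) (nat_lit 28) (nat_lit 5) (nat_lit 29) (nat_lit 5) (nat_lit 30) (nat_lit 4) (nat_lit 470) (nat_lit 404) (nat_lit 146))))))) (XT.nd (nat_lit 48828) (nat_lit 0) (nat_lit 4104) (XT.nd (nat_lit 48282) (nat_lit 0) (nat_lit 7068) (XT.nd (nat_lit 48048) (nat_lit 0) (nat_lit 6916) (XT.nd (nat_lit 78) (nat_lit 76) (nat_lit 0) (XT.lf (nat_lit 0) (nat_lit 447566103015) (nat_lit 76) (nat_lit 47196351212) (nat_lit 152) (nat_lit 227291087188) (nat_lit 28) (nat_lit 5) (nat_lit 29) (nat_lit 5) (nat_lit 30) (nat_lit 4) (nat_lit 471) (nat_lit 404) (nat_lit 145)) (XT.nd (nat_lit 47892) (nat_lit 0) (nat_lit 6916) (XT.lf (nat_lit 0) (nat_lit 66417572800) (nat_lit 76) (nat_lit 611090566593) (nat_lit 76) (nat_lit 71379122904)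 (nat_lit 27) (nat_lit 4) (nat_lit 28) (nat_lit 5) (nat_lit 28) (nat_lit 4) (nat_lit 472) (nat_lit 404) (nat_lit 144)) (XT.lf (nat_lit 0) (nat_lit 13540744080) (nat_lit 836) (nat_lit 17468815724) (nat_lit 836) (nat_lit 17468815724) (nat_lit 118) (nat_lit 3) (nat_lit 129) (nat_lit 3) (nat_lit 129) (nat_lit 5) (nat_lit 405) (nat_lit 405) (nat_lit 210)))) (XT.nd (nat_lit 78) (nat_lit 0) (nat_lit 76) (XT.lf (nat_lit 76) (nat_lit 12570922472) (nat_lit 0) (nat_lit 15390661276) (nat_lit 836) (nat_lit 71408929450) (nat_lit 119) (nat_lit 5) (nat_lit 118) (nat_lit 3) (nat_lit 129) (nat_lit 5) (nat_lit 406) (nat_lit 405) (nat_lit 209)) (XT.nd (nat_lit 78) (nat_lit 0) (nat_lit 0) (XT.lf (nat_lit 0) (nat_lit 30010743944) (nat_lit 760) (nat_lit 38741589982) (nat_lit 836) (nat_lit 33096376769) (nat_lit 119) (nat_lit 5) (nat_lit 129) (nat_lit 5) (nat_lit 130) (nat_lit 5) (nat_lit 407) (nat_lit 405) (nat_lit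 208)) (XT.lf (nat_lit 76) (nat_lit 11845898845) (nat_lit 0) (nat_lit 20753302397) (nat_lit 836) (nat_lit 71829775096) (nat_lit 120) (nat_lit 5) (nat_lit 119) (nat_lit 5) (nat_lit 130) (nat_lit 5) (nat_lit 408) (nat_lit 405) (nat_lit 207))))) (XT.nd (nat_lit 234) (nat_lit 0) (nat_lit 76) (XT.nd (nat_lit 78) (nat_lit 0) (nat_lit 0) (XT.lf (nat_lit 0) (nat_lit 36446400808) (nat_lit 760) (nat_lit 41271542574) (nat_lit 836) (nat_lit 29363846126) (nat_lit 120) (nat_lit 5) (nat_lit 130) (nat_lit 5) (nat_lit 131) (nat_lit 5) (nat_lit 409) (nat_lit 405) (nat_lit 206)) (XT.nd (nat_lit 78) (nat_lit 0) (nat_lit 76) (XT.lf (nat_lit 76) (nat_lit 12670635918) (nat_lit 0) (nat_lit 28352989319) (nat_lit 836) (nat_lit 68816735062) (nat_lit 121) (nat_lit 5) (nat_lit 120) (nat_lit 5) (nat_lit 131) (nat_lit 5) (nat_lit 410) (nat_lit 405) (nat_lit 205)) (XT.lf (nat_lit 0) (nat_lit 46906353100) (nat_lit 760) (nat_lit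 42337454620) (nat_lit 836) (nat_lit 23439219994) (nat_lit 121) (nat_lit 5) (nat_lit 131) (nat_lit 5) (nat_lit 132) (nat_lit 5) (nat_lit 411) (nat_lit 405) (nat_lit 204)))) (XT.nd (nat_lit 156) (nat_lit 0) (nat_lit 76) (XT.nd (nat_lit 78) (nat_lit 0) (nat_lit 76) (XT.lf (nat_lit 76) (nat_lit 15259775948) (nat_lit 0) (nat_lit 38526148089) (nat_lit 836) (nat_lit 61846769314) (nat_lit 122) (nat_lit 5) (nat_lit 121) (nat_lit 5) (nat_lit 132) (nat_lit 5) (nat_lit 412) (nat_lit 405) (nat_lit 203)) (XT.lf (nat_lit 0) (nat_lit 61967838257) (nat_lit 760) (nat_lit 41729224769) (nat_lit 836) (nat_lit 14984861186) (nat_lit 122) (nat_lit 5) (nat_lit 132) (nat_lit 5) (nat_lit 133) (nat_lit 5) (nat_lit 413) (nat_lit 405) (nat_lit 202))) (XT.nd (nat_lit 78) (nat_lit 0) (nat_lit 76) (XT.lf (nat_lit 76) (nat_lit 19850146335) (nat_lit 0) (nat_lit 51649879577) (nat_lit 836) (nat_lit 50336531986) (nat_lit 123)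 (nat_lit 5) (nat_lit 122) (nat_lit 5) (nat_lit 133) (nat_lit 5) (nat_lit 414) (nat_lit 405) (nat_lit 201)) (XT.lf (nat_lit 0) (nat_lit 82273642939) (nat_lit 760) (nat_lit 39215046622) (nat_lit 76) (nat_lit 3621992869) (nat_lit 123) (nat_lit 5) (nat_lit 133) (nat_lit 5) (nat_lit 124) (nat_lit 5) (nat_lit 415) (nat_lit 405) (nat_lit 200)))))) (XT.nd (nat_lit 546) (nat_lit 1216) (nat_lit 0) (XT.nd (nat_lit 234) (nat_lit 836) (nat_lit 0) (XT.nd (nat_lit 78) (nat_lit 380) (nat_lit 0) (XT.lf (nat_lit 0) (nat_lit 26702558167) (nat_lit 760) (nat_lit 68146715092) (nat_lit 836) (nat_lit 33636073461) (nat_lit 113) (nat_lit 5) (nat_lit 123) (nat_lit 5) (nat_lit 124) (nat_lit 5) (nat_lit 416) (nat_lit 405) (nat_lit 199)) (XT.nd (nat_lit 78) (nat_lit 380) (nat_lit 0) (XT.lf (nat_lit 0) (nat_lit 97277247538) (nat_lit 760) (nat_lit 11440284474) (nat_lit 836) (nat_lit 23278020013) (nat_lit 113) (nat_lit 5)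 (nat_lit 123) (nat_lit 5) (nat_lit 124) (nat_lit 5) (nat_lit 417) (nat_lit 405) (nat_lit 198)) (XT.lf (nat_lit 0) (nat_lit 36103693481) (nat_lit 380) (nat_lit 88489923555) (nat_lit 456) (nat_lit 11021930030) (nat_lit 108) (nat_lit 5) (nat_lit 113) (nat_lit 5) (nat_lit 114) (nat_lit 5) (nat_lit 418) (nat_lit 405) (nat_lit 197)))) (XT.nd (nat_lit 156) (nat_lit 380) (nat_lit 0) (XT.nd (nat_lit 78) (nat_lit 380) (nat_lit 0) (XT.lf (nat_lit 0) (nat_lit 2572745018) (nat_lit 456) (nat_lit 27941291508) (nat_lit 76) (nat_lit 108861818897) (nat_lit 107) (nat_lit 5) (nat_lit 113) (nat_lit 5) (nat_lit 108) (nat_lit 5) (nat_lit 419) (nat_lit 405) (nat_lit 196)) (XT.lf (nat_lit 0) (nat_lit 17724405324) (nat_lit 456) (nat_lit 95184859442) (nat_lit 76) (nat_lit 30343497152) (nat_lit 102) (nat_lit 5) (nat_lit 108) (nat_lit 5) (nat_lit 103) (nat_lit 5) (nat_lit 420) (nat_lit 405) (nat_lit 195))) (XT.nd (nat_lit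 78) (nat_lit 380) (nat_lit 0) (XT.lf (nat_lit 0) (nat_lit 34614594966) (nat_lit 456) (nat_lit 18960482139) (nat_lit 76) (nat_lit 93699389430) (nat_lit 102) (nat_lit 5) (nat_lit 108) (nat_lit 5) (nat_lit 103) (nat_lit 5) (nat_lit 421) (nat_lit 405) (nat_lit 194)) (XT.lf (nat_lit 0) (nat_lit 53486526764) (nat_lit 456) (nat_lit 88506115480) (nat_lit 76) (nat_lit 9447752615) (nat_lit 97) (nat_lit 5) (nat_lit 103) (nat_lit 5) (nat_lit 98) (nat_lit 5) (nat_lit 422) (nat_lit 405) (nat_lit 193))))) (XT.nd (nat_lit 234) (nat_lit 608) (nat_lit 0) (XT.nd (nat_lit 78) (nat_lit 608) (nat_lit 0) (XT.lf (nat_lit 0) (nat_lit 74506481956) (nat_lit 456) (nat_lit 7100314642) (nat_lit 76) (nat_lit 74147601765) (nat_lit 97) (nat_lit 5) (nat_lit 103) (nat_lit 5) (nat_lit 98) (nat_lit 5) (nat_lit 423) (nat_lit 405) (nat_lit 192)) (XT.nd (nat_lit 78) (nat_lit 304) (nat_lit 0) (XT.lf (nat_lit 0) (nat_lit 80966986970)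 (nat_lit 304) (nat_lit 16874357987) (nat_lit 380) (nat_lit 62379561681) (nat_lit 93) (nat_lit 5) (nat_lit 97) (nat_lit 5) (nat_lit 98) (nat_lit 5) (nat_lit 424) (nat_lit 405) (nat_lit 191)) (XT.lf (nat_lit 0) (nat_lit 8243323103) (nat_lit 304) (nat_lit 115148073834) (nat_lit 380) (nat_lit 41466921194) (nat_lit 89) (nat_lit 5) (nat_lit 93) (nat_lit 5) (nat_lit 94) (nat_lit 5) (nat_lit 425) (nat_lit 405) (nat_lit 190)))) (XT.nd (nat_lit 156) (nat_lit 304) (nat_lit 0) (XT.nd (nat_lit 78) (nat_lit 304) (nat_lit 0) (XT.lf (nat_lit 0) (nat_lit 102580929132) (nat_lit 304) (nat_lit 49252193380) (nat_lit 380) (nat_lit 17813769225) (nat_lit 89) (nat_lit 5) (nat_lit 93) (nat_lit 5) (nat_lit 94) (nat_lit 5) (nat_lit 426) (nat_lit 405) (nat_lit 189)) (XT.lf (nat_lit 0) (nat_lit 7550364761) (nat_lit 304) (nat_lit 147229504181) (nat_lit 76) (nat_lit 19851889798) (nat_lit 85) (nat_lit 5) (nat_lit 89) (nat_lit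 5) (nat_lit 86) (nat_lit 5) (nat_lit 427) (nat_lit 405) (nat_lit 188))) (XT.nd (nat_lit 78) (nat_lit 304) (nat_lit 0) (XT.lf (nat_lit 0) (nat_lit 35545684758) (nat_lit 304) (nat_lit 52005120175) (nat_lit 76) (nat_lit 92202380850) (nat_lit 85) (nat_lit 5) (nat_lit 89) (nat_lit 5) (nat_lit 86) (nat_lit 5) (nat_lit 428) (nat_lit 405) (nat_lit 187)) (XT.lf (nat_lit 0) (nat_lit 49566697786) (nat_lit 304) (nat_lit 16147768652) (nat_lit 380) (nat_lit 119377533027) (nat_lit 81) (nat_lit 5) (nat_lit 85) (nat_lit 5) (nat_lit 86) (nat_lit 5) (nat_lit 429) (nat_lit 405) (nat_lit 186))))))))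
noncomputable def xc226 : XT := (XT.nd (nat_lit 2106) (nat_lit 1064) (nat_lit 0) (XT.nd (nat_lit 1014) (nat_lit 1368) (nat_lit 0) (XT.nd (nat_lit 468) (nat_lit 836) (nat_lit 0) (XT.nd (nat_lit 234) (nat_lit 532) (nat_lit 0) (XT.nd (nat_lit 78) (nat_lit 228) (nat_lit 0) (XT.lf (nat_lit 0) (nat_lit 99205111807) (nat_lit 380) (nat_lit 33564211555) (nat_lit 76) (nat_lit 57837759312) (nat_lit 81) (nat_lit 5) (nat_lit 86) (nat_lit 5) (nat_lit 82) (nat_lit 5) (nat_lit 430) (nat_lit 405) (nat_lit 185)) (XT.nd (nat_lit 78) (nat_lit 0) (nat_lit 0) (XT.lf (nat_lit 0) (nat_lit 75651307545) (nat_lit 228) (nat_lit 60164661527) (nat_lit 304) (nat_lit 60509667056) (nat_lit 78) (nat_lit 5) (nat_lit 81) (nat_lit 5) (nat_lit 82) (nat_lit 5) (nat_lit 431) (nat_lit 405) (nat_lit 184)) (XT.lf (nat_lit 0) (nat_lit 175085852040) (nat_lit 304) (nat_lit 11069265568) (nat_lit 76) (nat_lit 16133575568) (nat_lit 78)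 (nat_lit 5) (nat_lit 82) (nat_lit 5) (nat_lit 79) (nat_lit 5) (nat_lit 432) (nat_lit 405) (nat_lit 183)))) (XT.nd (nat_lit 78) (nat_lit 228) (nat_lit 0) (XT.lf (nat_lit 0) (nat_lit 10211984677) (nat_lit 304) (nat_lit 102146065756) (nat_lit 76) (nat_lit 96051221376) (nat_lit 74) (nat_lit 5) (nat_lit 78) (nat_lit 5) (nat_lit 75) (nat_lit 5) (nat_lit 433) (nat_lit 405) (nat_lit 182)) (XT.nd (nat_lit 78) (nat_lit 0) (nat_lit 0) (XT.lf (nat_lit 0) (nat_lit 15052634973) (nat_lit 228) (nat_lit 33956119484) (nat_lit 304) (nat_lit 165783557735) (nat_lit 71) (nat_lit 5) (nat_lit 74) (nat_lit 5) (nat_lit 75) (nat_lit 5) (nat_lit 434) (nat_lit 405) (nat_lit 181)) (XT.lf (nat_lit 0) (nat_lit 92258591208) (nat_lit 304) (nat_lit 80534164701) (nat_lit 76) (nat_lit 48576087313) (nat_lit 71) (nat_lit 5) (nat_lit 75) (nat_lit 5) (nat_lit 72) (nat_lit 5) (nat_lit 435) (nat_lit 405) (nat_lit 180))))) (XT.nd (nat_lit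 234) (nat_lit 380) (nat_lit 0) (XT.nd (nat_lit 78) (nat_lit 228) (nat_lit 0) (XT.lf (nat_lit 0) (nat_lit 45532066735) (nat_lit 228) (nat_lit 93406250269) (nat_lit 304) (nat_lit 89272513990) (nat_lit 68) (nat_lit 5) (nat_lit 71) (nat_lit 5) (nat_lit 72) (nat_lit 5) (nat_lit 436) (nat_lit 405) (nat_lit 179)) (XT.nd (nat_lit 78) (nat_lit 228) (nat_lit 0) (XT.lf (nat_lit 0) (nat_lit 180697367968) (nat_lit 228) (nat_lit 8618406135) (nat_lit 304) (nat_lit 46010956847) (nat_lit 68) (nat_lit 5) (nat_lit 71) (nat_lit 5) (nat_lit 72) (nat_lit 5) (nat_lit 437) (nat_lit 405) (nat_lit 178)) (XT.lf (nat_lit 0) (nat_lit 1996277103) (nat_lit 228) (nat_lit 161539824287) (nat_lit 76) (nat_lit 79134590615) (nat_lit 65) (nat_lit 5) (nat_lit 68) (nat_lit 5) (nat_lit 66) (nat_lit 5) (nat_lit 438) (nat_lit 405) (nat_lit 177)))) (XT.nd (nat_lit 156) (nat_lit 152) (nat_lit 0) (XT.nd (nat_lit 78) (nat_lit 228) (nat_lit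 0) (XT.lf (nat_lit 0) (nat_lit 51939096487) (nat_lit 228) (nat_lit 25670807647) (nat_lit 76) (nat_lit 172680158440) (nat_lit 65) (nat_lit 5) (nat_lit 68) (nat_lit 5) (nat_lit 66) (nat_lit 5) (nat_lit 439) (nat_lit 405) (nat_lit 176)) (XT.lf (nat_lit 0) (nat_lit 106493739871) (nat_lit 304) (nat_lit 137564178396) (nat_lit 76) (nat_lit 14126749293) (nat_lit 62) (nat_lit 5) (nat_lit 66) (nat_lit 5) (nat_lit 63) (nat_lit 5) (nat_lit 440) (nat_lit 405) (nat_lit 175))) (XT.nd (nat_lit 78) (nat_lit 0) (nat_lit 0) (XT.lf (nat_lit 0) (nat_lit 7629906395) (nat_lit 152) (nat_lit 157979376451) (nat_lit 228) (nat_lit 100773061616) (nat_lit 60) (nat_lit 5) (nat_lit 62) (nat_lit 5) (nat_lit 63) (nat_lit 5) (nat_lit 441) (nat_lit 405) (nat_lit 174)) (XT.lf (nat_lit 0) (nat_lit 164859420611) (nat_lit 152) (nat_lit 65150776355) (nat_lit 228) (nat_lit 44863228577) (nat_lit 60) (nat_lit 5) (nat_lit 62) (nat_lit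 5) (nat_lit 63) (nat_lit 5) (nat_lit 442) (nat_lit 405) (nat_lit 173)))))) (XT.nd (nat_lit 546) (nat_lit 608) (nat_lit 0) (XT.nd (nat_lit 234) (nat_lit 380) (nat_lit 0) (XT.nd (nat_lit 78) (nat_lit 152) (nat_lit 0) (XT.lf (nat_lit 0) (nat_lit 14660277950) (nat_lit 228) (nat_lit 236797293187) (nat_lit 76) (nat_lit 32257623111) (nat_lit 57) (nat_lit 5) (nat_lit 60) (nat_lit 5) (nat_lit 58) (nat_lit 5) (nat_lit 443) (nat_lit 405) (nat_lit 172)) (XT.nd (nat_lit 78) (nat_lit 152) (nat_lit 0) (XT.lf (nat_lit 0) (nat_lit 78613873958) (nat_lit 228) (nat_lit 79224294673) (nat_lit 76) (nat_lit 134976029009) (nat_lit 57) (nat_lit 5) (nat_lit 60) (nat_lit 5) (nat_lit 58) (nat_lit 5) (nat_lit 444) (nat_lit 405) (nat_lit 171)) (XT.lf (nat_lit 0) (nat_lit 89078233612) (nat_lit 152) (nat_lit 58077566177) (nat_lit 228) (nat_lit 155142818939) (nat_lit 55) (nat_lit 5) (nat_lit 57) (nat_lit 5) (nat_lit 58) (nat_lit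 5) (nat_lit 445) (nat_lit 405) (nat_lit 170)))) (XT.nd (nat_lit 156) (nat_lit 228) (nat_lit 0) (XT.nd (nat_lit 78) (nat_lit 152) (nat_lit 0) (XT.lf (nat_lit 0) (nat_lit 221217075526) (nat_lit 228) (nat_lit 44394641512) (nat_lit 76) (nat_lit 46540931180) (nat_lit 55) (nat_lit 5) (nat_lit 58) (nat_lit 5) (nat_lit 56) (nat_lit 5) (nat_lit 446) (nat_lit 405) (nat_lit 169)) (XT.lf (nat_lit 0) (nat_lit 136282000366) (nat_lit 152) (nat_lit 165779145694) (nat_lit 228) (nat_lit 20284246599) (nat_lit 53) (nat_lit 5) (nat_lit 55) (nat_lit 5) (nat_lit 56) (nat_lit 5) (nat_lit 447) (nat_lit 405) (nat_lit 168))) (XT.nd (nat_lit 78) (nat_lit 152) (nat_lit 0) (XT.lf (nat_lit 0) (nat_lit 52938587001) (nat_lit 228) (nat_lit 6330449315) (nat_lit 76) (nat_lit 273698458479) (nat_lit 52) (nat_lit 5) (nat_lit 55) (nat_lit 5) (nat_lit 53) (nat_lit 5) (nat_lit 448) (nat_lit 405) (nat_lit 167)) (XT.lf (nat_lit 0)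 (nat_lit 132951473714) (nat_lit 228) (nat_lit 156755504982) (nat_lit 76) (nat_lit 54206567178) (nat_lit 50) (nat_lit 5) (nat_lit 53) (nat_lit 5) (nat_lit 51) (nat_lit 5) (nat_lit 449) (nat_lit 405) (nat_lit 166))))) (XT.nd (nat_lit 234) (nat_lit 304) (nat_lit 0) (XT.nd (nat_lit 78) (nat_lit 152) (nat_lit 0) (XT.lf (nat_lit 0) (nat_lit 35295318697) (nat_lit 152) (nat_lit 183301237683) (nat_lit 228) (nat_lit 136728765567) (nat_lit 48) (nat_lit 5) (nat_lit 50) (nat_lit 5) (nat_lit 51) (nat_lit 5) (nat_lit 450) (nat_lit 405) (nat_lit 165)) (XT.nd (nat_lit 78) (nat_lit 152) (nat_lit 0) (XT.lf (nat_lit 0) (nat_lit 242390717091) (nat_lit 152) (nat_lit 68787810985) (nat_lit 228) (nat_lit 55996427023) (nat_lit 48) (nat_lit 5) (nat_lit 50) (nat_lit 5) (nat_lit 51) (nat_lit 5) (nat_lit 451) (nat_lit 405) (nat_lit 164)) (XT.lf (nat_lit 0) (nat_lit 29969975109) (nat_lit 152) (nat_lit 297949894606) (nat_lit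 76) (nat_lit 51568821860) (nat_lit 46) (nat_lit 5) (nat_lit 48) (nat_lit 5) (nat_lit 47) (nat_lit 5) (nat_lit 452) (nat_lit 405) (nat_lit 163)))) (XT.nd (nat_lit 156) (nat_lit 152) (nat_lit 0) (XT.nd (nat_lit 78) (nat_lit 152) (nat_lit 0) (XT.lf (nat_lit 0) (nat_lit 121628353188) (nat_lit 152) (nat_lit 91882687203) (nat_lit 76) (nat_lit 178697400643) (nat_lit 46) (nat_lit 5) (nat_lit 48) (nat_lit 5) (nat_lit 47) (nat_lit 5) (nat_lit 453) (nat_lit 405) (nat_lit 162)) (XT.lf (nat_lit 0) (nat_lit 128603854815) (nat_lit 152) (nat_lit 91273574830) (nat_lit 228) (nat_lit 185586359362) (nat_lit 44) (nat_lit 5) (nat_lit 46) (nat_lit 5) (nat_lit 47) (nat_lit 5) (nat_lit 454) (nat_lit 405) (nat_lit 161))) (XT.nd (nat_lit 78) (nat_lit 152) (nat_lit 0) (XT.lf (nat_lit 0) (nat_lit 325199317440) (nat_lit 228) (nat_lit 56603936260) (nat_lit 76) (nat_lit 37470632821) (nat_lit 44) (nat_lit 5) (nat_lit 47)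 (nat_lit 5) (nat_lit 45) (nat_lit 4) (nat_lit 455) (nat_lit 405) (nat_lit 160)) (XT.lf (nat_lit 0) (nat_lit 6307948747) (nat_lit 152) (nat_lit 254767609839) (nat_lit 76) (nat_lit 172479381031) (nat_lit 42) (nat_lit 5) (nat_lit 44) (nat_lit 5) (nat_lit 43) (nat_lit 5) (nat_lit 456) (nat_lit 405) (nat_lit 159))))))) (XT.nd (nat_lit 1014) (nat_lit 76) (nat_lit 0) (XT.nd (nat_lit 468) (nat_lit 532) (nat_lit 0) (XT.nd (nat_lit 234) (nat_lit 228) (nat_lit 0) (XT.nd (nat_lit 78) (nat_lit 228) (nat_lit 0) (XT.lf (nat_lit 0) (nat_lit 109522318257) (nat_lit 152) (nat_lit 22146861850) (nat_lit 76) (nat_lit 316755042562) (nat_lit 42) (nat_lit 5) (nat_lit 44) (nat_lit 5) (nat_lit 43) (nat_lit 5) (nat_lit 457) (nat_lit 405) (nat_lit 158)) (XT.nd (nat_lit 78) (nat_lit 76) (nat_lit 0) (XT.lf (nat_lit 0) (nat_lit 221604080504) (nat_lit 228) (nat_lit 234533702443) (nat_lit 76) (nat_lit 7713853228) (nat_lit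 40) (nat_lit 5) (nat_lit 43) (nat_lit 5) (nat_lit 41) (nat_lit 4) (nat_lit 458) (nat_lit 405) (nat_lit 157)) (XT.lf (nat_lit 0) (nat_lit 12322798021) (nat_lit 76) (nat_lit 329699176546) (nat_lit 152) (nat_lit 137891843616) (nat_lit 39) (nat_lit 5) (nat_lit 40) (nat_lit 5) (nat_lit 41) (nat_lit 4) (nat_lit 459) (nat_lit 405) (nat_lit 156)))) (XT.nd (nat_lit 78) (nat_lit 228) (nat_lit 0) (XT.lf (nat_lit 0) (nat_lit 279664466485) (nat_lit 76) (nat_lit 192768162787) (nat_lit 152) (nat_lit 24147886734) (nat_lit 39) (nat_lit 5) (nat_lit 40) (nat_lit 5) (nat_lit 41) (nat_lit 4) (nat_lit 460) (nat_lit 405) (nat_lit 155)) (XT.nd (nat_lit 78) (nat_lit 0) (nat_lit 0) (XT.lf (nat_lit 0) (nat_lit 46286349591) (nat_lit 152) (nat_lit 46669845021) (nat_lit 228) (nat_lit 421013842865) (nat_lit 36) (nat_lit 5) (nat_lit 38) (nat_lit 5) (nat_lit 39) (nat_lit 5) (nat_lit 461) (nat_lit 405) (nat_lit 154)) (XT.lf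 (nat_lit 0) (nat_lit 220504087992) (nat_lit 228) (nat_lit 203988282920) (nat_lit 76) (nat_lit 107446864005) (nat_lit 36) (nat_lit 5) (nat_lit 39) (nat_lit 5) (nat_lit 37) (nat_lit 4) (nat_lit 462) (nat_lit 405) (nat_lit 153))))) (XT.nd (nat_lit 234) (nat_lit 228) (nat_lit 0) (XT.nd (nat_lit 78) (nat_lit 228) (nat_lit 0) (XT.lf (nat_lit 0) (nat_lit 74511519203) (nat_lit 76) (nat_lit 281846200502) (nat_lit 152) (nat_lit 194352755351) (nat_lit 35) (nat_lit 5) (nat_lit 36) (nat_lit 5) (nat_lit 37) (nat_lit 4) (nat_lit 463) (nat_lit 405) (nat_lit 152)) (XT.nd (nat_lit 78) (nat_lit 228) (nat_lit 0) (XT.lf (nat_lit 0) (nat_lit 374018198444) (nat_lit 76) (nat_lit 128440406786) (nat_lit 152) (nat_lit 67788943370) (nat_lit 35) (nat_lit 5) (nat_lit 36) (nat_lit 5) (nat_lit 37) (nat_lit 4) (nat_lit 464) (nat_lit 405) (nat_lit 151)) (XT.lf (nat_lit 0) (nat_lit 65131094719) (nat_lit 228) (nat_lit 491264181426)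 (nat_lit 76) (nat_lit 34209790624) (nat_lit 32) (nat_lit 5) (nat_lit 35) (nat_lit 5) (nat_lit 33) (nat_lit 4) (nat_lit 465) (nat_lit 405) (nat_lit 150)))) (XT.nd (nat_lit 156) (nat_lit 152) (nat_lit 0) (XT.nd (nat_lit 78) (nat_lit 76) (nat_lit 0) (XT.lf (nat_lit 0) (nat_lit 207902214985) (nat_lit 228) (nat_lit 198583502437) (nat_lit 76) (nat_lit 205165017063) (nat_lit 32) (nat_lit 5) (nat_lit 35) (nat_lit 5) (nat_lit 33) (nat_lit 4) (nat_lit 466) (nat_lit 405) (nat_lit 149)) (XT.lf (nat_lit 0) (nat_lit 112326235159) (nat_lit 76) (nat_lit 247239321071) (nat_lit 152) (nat_lit 274095446115) (nat_lit 31) (nat_lit 5) (nat_lit 32) (nat_lit 5) (nat_lit 33) (nat_lit 4) (nat_lit 467) (nat_lit 405) (nat_lit 148))) (XT.nd (nat_lit 78) (nat_lit 152) (nat_lit 0) (XT.lf (nat_lit 0) (nat_lit 445675715945) (nat_lit 76) (nat_lit 76499395120) (nat_lit 152) (nat_lit 134428520214) (nat_lit 31) (nat_lit 5) (nat_lit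 32) (nat_lit 5) (nat_lit 33) (nat_lit 4) (nat_lit 468) (nat_lit 405) (nat_lit 147)) (XT.lf (nat_lit 0) (nat_lit 15320397054) (nat_lit 152) (nat_lit 563624960597) (nat_lit 76) (nat_lit 101564002353) (nat_lit 29) (nat_lit 5) (nat_lit 31) (nat_lit 5) (nat_lit 30) (nat_lit 4) (nat_lit 469) (nat_lit 405) (nat_lit 146)))))) (XT.nd (nat_lit 48438) (nat_lit 0) (nat_lit 6992) (XT.nd (nat_lit 48126) (nat_lit 0) (nat_lit 6840) (XT.nd (nat_lit 78) (nat_lit 76) (nat_lit 0) (XT.lf (nat_lit 0) (nat_lit 172923836359) (nat_lit 152) (nat_lit 240538002130) (nat_lit 76) (nat_lit 291794111573) (nat_lit 29) (nat_lit 5) (nat_lit 31) (nat_lit 5) (nat_lit 30) (nat_lit 4) (nat_lit 470) (nat_lit 405) (nat_lit 145)) (XT.nd (nat_lit 78) (nat_lit 0) (nat_lit 0) (XT.lf (nat_lit 0) (nat_lit 101966771732) (nat_lit 76) (nat_lit 238032606863) (nat_lit 152) (nat_lit 391160894487) (nat_lit 28) (nat_lit 5) (nat_lit 29) (nat_lit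 5) (nat_lit 30) (nat_lit 4) (nat_lit 471) (nat_lit 405) (nat_lit 144)) (XT.lf (nat_lit 0) (nat_lit 469947616264) (nat_lit 76) (nat_lit 49554654075) (nat_lit 152) (nat_lit 238653863298) (nat_lit 28) (nat_lit 5) (nat_lit 29) (nat_lit 5) (nat_lit 30) (nat_lit 4) (nat_lit 472) (nat_lit 405) (nat_lit 143)))) (XT.nd (nat_lit 156) (nat_lit 0) (nat_lit 76) (XT.nd (nat_lit 78) (nat_lit 0) (nat_lit 0) (XT.lf (nat_lit 0) (nat_lit 14224466311) (nat_lit 836) (nat_lit 18338745042) (nat_lit 836) (nat_lit 18338745042) (nat_lit 118) (nat_lit 3) (nat_lit 129) (nat_lit 3) (nat_lit 129) (nat_lit 5) (nat_lit 406) (nat_lit 406) (nat_lit 208)) (XT.lf (nat_lit 76) (nat_lit 13206378258) (nat_lit 0) (nat_lit 16166125943) (nat_lit 836) (nat_lit 74965885630) (nat_lit 119) (nat_lit 5) (nat_lit 118) (nat_lit 3) (nat_lit 129) (nat_lit 5) (nat_lit 407) (nat_lit 406) (nat_lit 207))) (XT.nd (nat_lit 78) (nat_lit 0) (nat_lit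 0) (XT.lf (nat_lit 0) (nat_lit 31523422718) (nat_lit 760) (nat_lit 40671382530) (nat_lit 836) (nat_lit 34745727270) (nat_lit 119) (nat_lit 5) (nat_lit 129) (nat_lit 5) (nat_lit 130) (nat_lit 5) (nat_lit 408) (nat_lit 406) (nat_lit 206)) (XT.lf (nat_lit 76) (nat_lit 12445363207) (nat_lit 0) (nat_lit 21795473438) (nat_lit 836) (nat_lit 75408998426) (nat_lit 120) (nat_lit 5) (nat_lit 119) (nat_lit 5) (nat_lit 130) (nat_lit 5) (nat_lit 409) (nat_lit 406) (nat_lit 205))))) (XT.nd (nat_lit 234) (nat_lit 0) (nat_lit 76) (XT.nd (nat_lit 78) (nat_lit 0) (nat_lit 0) (XT.lf (nat_lit 0) (nat_lit 38279773221) (nat_lit 760) (nat_lit 43327662699) (nat_lit 836) (nat_lit 30827884429) (nat_lit 120) (nat_lit 5) (nat_lit 130) (nat_lit 5) (nat_lit 131) (nat_lit 5) (nat_lit 410) (nat_lit 406) (nat_lit 204)) (XT.nd (nat_lit 78) (nat_lit 0) (nat_lit 76) (XT.lf (nat_lit 76) (nat_lit 13311504443) (nat_lit 0) (nat_lit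 29773942672) (nat_lit 836) (nat_lit 72246393439) (nat_lit 121) (nat_lit 5) (nat_lit 120) (nat_lit 5) (nat_lit 131) (nat_lit 5) (nat_lit 411) (nat_lit 406) (nat_lit 203)) (XT.lf (nat_lit 0) (nat_lit 49261755549) (nat_lit 760) (nat_lit 44446778710) (nat_lit 836) (nat_lit 24608135144) (nat_lit 121) (nat_lit 5) (nat_lit 131) (nat_lit 5) (nat_lit 132) (nat_lit 5) (nat_lit 412) (nat_lit 406) (nat_lit 202)))) (XT.nd (nat_lit 156) (nat_lit 0) (nat_lit 76) (XT.nd (nat_lit 78) (nat_lit 0) (nat_lit 76) (XT.lf (nat_lit 76) (nat_lit 16030191634) (nat_lit 0) (nat_lit 40454749125) (nat_lit 836) (nat_lit 64928896037) (nat_lit 122) (nat_lit 5) (nat_lit 121) (nat_lit 5) (nat_lit 132) (nat_lit 5) (nat_lit 413) (nat_lit 406) (nat_lit 201)) (XT.lf (nat_lit 0) (nat_lit 65075453703) (nat_lit 760) (nat_lit 43808110844) (nat_lit 836) (nat_lit 15731989749) (nat_lit 122) (nat_lit 5) (nat_lit 132) (nat_lit 5) (nat_lit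 133) (nat_lit 5) (nat_lit 414) (nat_lit 406) (nat_lit 200))) (XT.nd (nat_lit 78) (nat_lit 0) (nat_lit 76) (XT.lf (nat_lit 76) (nat_lit 20850106635) (nat_lit 0) (nat_lit 54233821252) (nat_lit 836) (nat_lit 52844008158) (nat_lit 123) (nat_lit 5) (nat_lit 122) (nat_lit 5) (nat_lit 133) (nat_lit 5) (nat_lit 415) (nat_lit 406) (nat_lit 199)) (XT.lf (nat_lit 0) (nat_lit 86395780396) (nat_lit 760) (nat_lit 41168251016) (nat_lit 76) (nat_lit 3801757884) (nat_lit 123) (nat_lit 5) (nat_lit 133) (nat_lit 5) (nat_lit 124) (nat_lit 5) (nat_lit 416) (nat_lit 406) (nat_lit 198))))))))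
noncomputable def xc227 : XT := (XT.nd (nat_lit 2106) (nat_lit 2356) (nat_lit 0) (XT.nd (nat_lit 1014) (nat_lit 1900) (nat_lit 0) (XT.nd (nat_lit 468) (nat_lit 1292) (nat_lit 0) (XT.nd (nat_lit 234) (nat_lit 456) (nat_lit 0) (XT.nd (nat_lit 78) (nat_lit 380) (nat_lit 0) (XT.lf (nat_lit 0) (nat_lit 28045112271) (nat_lit 760) (nat_lit 71554793271) (nat_lit 836) (nat_lit 35309295807) (nat_lit 113) (nat_lit 5) (nat_lit 123) (nat_lit 5) (nat_lit 124) (nat_lit 5) (nat_lit 417) (nat_lit 406) (nat_lit 197)) (XT.nd (nat_lit 78) (nat_lit 380) (nat_lit 0) (XT.lf (nat_lit 0) (nat_lit 102148182482) (nat_lit 760) (nat_lit 12013005769) (nat_lit 836) (nat_lit 24433748320) (nat_lit 113) (nat_lit 5) (nat_lit 123) (nat_lit 5) (nat_lit 124) (nat_lit 5) (nat_lit 418) (nat_lit 406) (nat_lit 196)) (XT.lf (nat_lit 0) (nat_lit 37916234225) (nat_lit 380) (nat_lit 92914577178) (nat_lit 456) (nat_lit 11565133463) (nat_lit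 108) (nat_lit 5) (nat_lit 113) (nat_lit 5) (nat_lit 114) (nat_lit 5) (nat_lit 419) (nat_lit 406) (nat_lit 195)))) (XT.nd (nat_lit 78) (nat_lit 380) (nat_lit 0) (XT.lf (nat_lit 0) (nat_lit 2708658880) (nat_lit 456) (nat_lit 29331106187) (nat_lit 76) (nat_lit 114304515778) (nat_lit 107) (nat_lit 5) (nat_lit 113) (nat_lit 5) (nat_lit 108) (nat_lit 5) (nat_lit 420) (nat_lit 406) (nat_lit 194)) (XT.nd (nat_lit 78) (nat_lit 0) (nat_lit 0) (XT.lf (nat_lit 0) (nat_lit 18617668489) (nat_lit 456) (nat_lit 99936615457) (nat_lit 76) (nat_lit 31860760572) (nat_lit 102) (nat_lit 5) (nat_lit 108) (nat_lit 5) (nat_lit 103) (nat_lit 5) (nat_lit 421) (nat_lit 406) (nat_lit 193)) (XT.lf (nat_lit 0) (nat_lit 36352032238) (nat_lit 456) (nat_lit 19901375811) (nat_lit 76) (nat_lit 98384443247) (nat_lit 102) (nat_lit 5) (nat_lit 108) (nat_lit 5) (nat_lit 103) (nat_lit 5) (nat_lit 422) (nat_lit 406) (nat_lit 192)))))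 (XT.nd (nat_lit 234) (nat_lit 608) (nat_lit 0) (XT.nd (nat_lit 78) (nat_lit 304) (nat_lit 0) (XT.lf (nat_lit 0) (nat_lit 56167358835) (nat_lit 456) (nat_lit 92924085989) (nat_lit 76) (nat_lit 9920641454) (nat_lit 97) (nat_lit 5) (nat_lit 103) (nat_lit 5) (nat_lit 98) (nat_lit 5) (nat_lit 423) (nat_lit 406) (nat_lit 191)) (XT.nd (nat_lit 78) (nat_lit 304) (nat_lit 0) (XT.lf (nat_lit 0) (nat_lit 78238001990) (nat_lit 456) (nat_lit 7448344407) (nat_lit 76) (nat_lit 77855459194) (nat_lit 97) (nat_lit 5) (nat_lit 103) (nat_lit 5) (nat_lit 98) (nat_lit 5) (nat_lit 424) (nat_lit 406) (nat_lit 190)) (XT.lf (nat_lit 0) (nat_lit 85022209609) (nat_lit 304) (nat_lit 17717210799) (nat_lit 380) (nat_lit 65492228397) (nat_lit 93) (nat_lit 5) (nat_lit 97) (nat_lit 5) (nat_lit 98) (nat_lit 5) (nat_lit 425) (nat_lit 406) (nat_lit 189)))) (XT.nd (nat_lit 156) (nat_lit 304) (nat_lit 0) (XT.nd (nat_lit 78) (nat_lit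 0) (nat_lit 0) (XT.lf (nat_lit 0) (nat_lit 8662536677) (nat_lit 304) (nat_lit 120904275097) (nat_lit 380) (nat_lit 43534127389) (nat_lit 89) (nat_lit 5) (nat_lit 93) (nat_lit 5) (nat_lit 94) (nat_lit 5) (nat_lit 426) (nat_lit 406) (nat_lit 188)) (XT.lf (nat_lit 0) (nat_lit 107716687416) (nat_lit 304) (nat_lit 51713657879) (nat_lit 380) (nat_lit 18698610196) (nat_lit 89) (nat_lit 5) (nat_lit 93) (nat_lit 5) (nat_lit 94) (nat_lit 5) (nat_lit 427) (nat_lit 406) (nat_lit 187))) (XT.nd (nat_lit 78) (nat_lit 0) (nat_lit 0) (XT.lf (nat_lit 0) (nat_lit 7933399996) (nat_lit 304) (nat_lit 154583932422) (nat_lit 76) (nat_lit 20845736142) (nat_lit 85) (nat_lit 5) (nat_lit 89) (nat_lit 5) (nat_lit 86) (nat_lit 5) (nat_lit 428) (nat_lit 406) (nat_lit 186)) (XT.lf (nat_lit 0) (nat_lit 37328223279) (nat_lit 304) (nat_lit 54598664785) (nat_lit 76) (nat_lit 96813692134) (nat_lit 85) (nat_lit 5) (nat_lit 89)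 (nat_lit 5) (nat_lit 86) (nat_lit 5) (nat_lit 429) (nat_lit 406) (nat_lit 185)))))) (XT.nd (nat_lit 546) (nat_lit 836) (nat_lit 0) (XT.nd (nat_lit 234) (nat_lit 532) (nat_lit 0) (XT.nd (nat_lit 78) (nat_lit 228) (nat_lit 0) (XT.lf (nat_lit 0) (nat_lit 52051635826) (nat_lit 304) (nat_lit 16953661108) (nat_lit 380) (nat_lit 125341045091) (nat_lit 81) (nat_lit 5) (nat_lit 85) (nat_lit 5) (nat_lit 86) (nat_lit 5) (nat_lit 430) (nat_lit 406) (nat_lit 184)) (XT.nd (nat_lit 78) (nat_lit 228) (nat_lit 0) (XT.lf (nat_lit 0) (nat_lit 104170253615) (nat_lit 380) (nat_lit 35235910505) (nat_lit 76) (nat_lit 60731026417) (nat_lit 81) (nat_lit 5) (nat_lit 86) (nat_lit 5) (nat_lit 82) (nat_lit 5) (nat_lit 431) (nat_lit 406) (nat_lit 183)) (XT.lf (nat_lit 0) (nat_lit 79440279523) (nat_lit 228) (nat_lit 63171241568) (nat_lit 304) (nat_lit 63530157299) (nat_lit 78) (nat_lit 5) (nat_lit 81) (nat_lit 5) (nat_lit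 82) (nat_lit 5) (nat_lit 432) (nat_lit 406) (nat_lit 182)))) (XT.nd (nat_lit 156) (nat_lit 228) (nat_lit 0) (XT.nd (nat_lit 78) (nat_lit 304) (nat_lit 0) (XT.lf (nat_lit 0) (nat_lit 183844696428) (nat_lit 304) (nat_lit 11616423764) (nat_lit 76) (nat_lit 16941778277) (nat_lit 78) (nat_lit 5) (nat_lit 82) (nat_lit 5) (nat_lit 79) (nat_lit 5) (nat_lit 433) (nat_lit 406) (nat_lit 181)) (XT.lf (nat_lit 0) (nat_lit 10727090089) (nat_lit 304) (nat_lit 107247015050) (nat_lit 76) (nat_lit 100855403340) (nat_lit 74) (nat_lit 5) (nat_lit 78) (nat_lit 5) (nat_lit 75) (nat_lit 5) (nat_lit 434) (nat_lit 406) (nat_lit 180))) (XT.nd (nat_lit 78) (nat_lit 0) (nat_lit 0) (XT.lf (nat_lit 0) (nat_lit 15811518231) (nat_lit 228) (nat_lit 35652063149) (nat_lit 304) (nat_lit 174068125426) (nat_lit 71) (nat_lit 5) (nat_lit 74) (nat_lit 5) (nat_lit 75) (nat_lit 5) (nat_lit 435) (nat_lit 406) (nat_lit 179)) (XT.lf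 (nat_lit 0) (nat_lit 96875728652) (nat_lit 304) (nat_lit 84554736337) (nat_lit 76) (nat_lit 51006608539) (nat_lit 71) (nat_lit 5) (nat_lit 75) (nat_lit 5) (nat_lit 72) (nat_lit 5) (nat_lit 436) (nat_lit 406) (nat_lit 178))))) (XT.nd (nat_lit 234) (nat_lit 380) (nat_lit 0) (XT.nd (nat_lit 78) (nat_lit 228) (nat_lit 0) (XT.lf (nat_lit 0) (nat_lit 47814707693) (nat_lit 228) (nat_lit 98074626933) (nat_lit 304) (nat_lit 93731831437) (nat_lit 68) (nat_lit 5) (nat_lit 71) (nat_lit 5) (nat_lit 72) (nat_lit 5) (nat_lit 437) (nat_lit 406) (nat_lit 177)) (XT.nd (nat_lit 78) (nat_lit 228) (nat_lit 0) (XT.lf (nat_lit 0) (nat_lit 189737986482) (nat_lit 228) (nat_lit 9047482776) (nat_lit 304) (nat_lit 48307401592) (nat_lit 68) (nat_lit 5) (nat_lit 71) (nat_lit 5) (nat_lit 72) (nat_lit 5) (nat_lit 438) (nat_lit 406) (nat_lit 176)) (XT.lf (nat_lit 0) (nat_lit 2099993859) (nat_lit 228) (nat_lit 169610862724)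 (nat_lit 76) (nat_lit 83093173676) (nat_lit 65) (nat_lit 5) (nat_lit 68) (nat_lit 5) (nat_lit 66) (nat_lit 5) (nat_lit 439) (nat_lit 406) (nat_lit 175)))) (XT.nd (nat_lit 156) (nat_lit 152) (nat_lit 0) (XT.nd (nat_lit 78) (nat_lit 228) (nat_lit 0) (XT.lf (nat_lit 0) (nat_lit 54539768360) (nat_lit 228) (nat_lit 26948678717) (nat_lit 76) (nat_lit 181315931629) (nat_lit 65) (nat_lit 5) (nat_lit 68) (nat_lit 5) (nat_lit 66) (nat_lit 5) (nat_lit 440) (nat_lit 406) (nat_lit 174)) (XT.lf (nat_lit 0) (nat_lit 111822084454) (nat_lit 304) (nat_lit 144436657453) (nat_lit 76) (nat_lit 14834975062) (nat_lit 62) (nat_lit 5) (nat_lit 66) (nat_lit 5) (nat_lit 63) (nat_lit 5) (nat_lit 441) (nat_lit 406) (nat_lit 173))) (XT.nd (nat_lit 78) (nat_lit 0) (nat_lit 0) (XT.lf (nat_lit 0) (nat_lit 8017039160) (nat_lit 152) (nat_lit 165876279262) (nat_lit 228) (nat_lit 105807963652) (nat_lit 60) (nat_lit 5) (nat_lit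 62) (nat_lit 5) (nat_lit 63) (nat_lit 5) (nat_lit 442) (nat_lit 406) (nat_lit 172)) (XT.lf (nat_lit 0) (nat_lit 173107760637) (nat_lit 152) (nat_lit 68406347543) (nat_lit 228) (nat_lit 47102817583) (nat_lit 60) (nat_lit 5) (nat_lit 62) (nat_lit 5) (nat_lit 63) (nat_lit 5) (nat_lit 443) (nat_lit 406) (nat_lit 171))))))) (XT.nd (nat_lit 1014) (nat_lit 1140) (nat_lit 0) (XT.nd (nat_lit 468) (nat_lit 608) (nat_lit 0) (XT.nd (nat_lit 234) (nat_lit 228) (nat_lit 0) (XT.nd (nat_lit 78) (nat_lit 152) (nat_lit 0) (XT.lf (nat_lit 0) (nat_lit 15396701014) (nat_lit 228) (nat_lit 248631623754) (nat_lit 76) (nat_lit 33872457837) (nat_lit 57) (nat_lit 5) (nat_lit 60) (nat_lit 5) (nat_lit 58) (nat_lit 5) (nat_lit 444) (nat_lit 406) (nat_lit 170)) (XT.nd (nat_lit 78) (nat_lit 152) (nat_lit 0) (XT.lf (nat_lit 0) (nat_lit 82547814481) (nat_lit 228) (nat_lit 83180238842) (nat_lit 76) (nat_lit 141726691003) (nat_lit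 57) (nat_lit 5) (nat_lit 60) (nat_lit 5) (nat_lit 58) (nat_lit 5) (nat_lit 445) (nat_lit 406) (nat_lit 169)) (XT.lf (nat_lit 0) (nat_lit 93537330847) (nat_lit 152) (nat_lit 60979432106) (nat_lit 228) (nat_lit 162896627239) (nat_lit 55) (nat_lit 5) (nat_lit 57) (nat_lit 5) (nat_lit 58) (nat_lit 5) (nat_lit 446) (nat_lit 406) (nat_lit 168)))) (XT.nd (nat_lit 78) (nat_lit 228) (nat_lit 0) (XT.lf (nat_lit 0) (nat_lit 232280981296) (nat_lit 228) (nat_lit 46609313008) (nat_lit 76) (nat_lit 48869832950) (nat_lit 55) (nat_lit 5) (nat_lit 58) (nat_lit 5) (nat_lit 56) (nat_lit 5) (nat_lit 447) (nat_lit 406) (nat_lit 167)) (XT.nd (nat_lit 78) (nat_lit 76) (nat_lit 0) (XT.lf (nat_lit 0) (nat_lit 143101079342) (nat_lit 152) (nat_lit 174066108418) (nat_lit 228) (nat_lit 21295324574) (nat_lit 53) (nat_lit 5) (nat_lit 55) (nat_lit 5) (nat_lit 56) (nat_lit 5) (nat_lit 448) (nat_lit 406) (nat_lit 166)) (XT.lf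 (nat_lit 0) (nat_lit 55588405909) (nat_lit 228) (nat_lit 6642133705) (nat_lit 76) (nat_lit 287385184774) (nat_lit 52) (nat_lit 5) (nat_lit 55) (nat_lit 5) (nat_lit 53) (nat_lit 5) (nat_lit 449) (nat_lit 406) (nat_lit 165))))) (XT.nd (nat_lit 234) (nat_lit 304) (nat_lit 0) (XT.nd (nat_lit 78) (nat_lit 152) (nat_lit 0) (XT.lf (nat_lit 0) (nat_lit 139601903869) (nat_lit 228) (nat_lit 164588408429) (nat_lit 76) (nat_lit 56918767409) (nat_lit 50) (nat_lit 5) (nat_lit 53) (nat_lit 5) (nat_lit 51) (nat_lit 5) (nat_lit 450) (nat_lit 406) (nat_lit 164)) (XT.nd (nat_lit 78) (nat_lit 0) (nat_lit 0) (XT.lf (nat_lit 0) (nat_lit 37064877857) (nat_lit 152) (nat_lit 192464301625) (nat_lit 228) (nat_lit 143562268192) (nat_lit 48) (nat_lit 5) (nat_lit 50) (nat_lit 5) (nat_lit 51) (nat_lit 5) (nat_lit 451) (nat_lit 406) (nat_lit 163)) (XT.lf (nat_lit 0) (nat_lit 254514817922) (nat_lit 152) (nat_lit 72225298732)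 (nat_lit 228) (nat_lit 58793452514) (nat_lit 48) (nat_lit 5) (nat_lit 50) (nat_lit 5) (nat_lit 51) (nat_lit 5) (nat_lit 452) (nat_lit 406) (nat_lit 162)))) (XT.nd (nat_lit 156) (nat_lit 152) (nat_lit 0) (XT.nd (nat_lit 78) (nat_lit 0) (nat_lit 0) (XT.lf (nat_lit 0) (nat_lit 31471153018) (nat_lit 152) (nat_lit 312842706577) (nat_lit 76) (nat_lit 54149132076) (nat_lit 46) (nat_lit 5) (nat_lit 48) (nat_lit 5) (nat_lit 47) (nat_lit 5) (nat_lit 453) (nat_lit 406) (nat_lit 161)) (XT.lf (nat_lit 0) (nat_lit 127712322422) (nat_lit 152) (nat_lit 96472361792) (nat_lit 76) (nat_lit 187634050792) (nat_lit 46) (nat_lit 5) (nat_lit 48) (nat_lit 5) (nat_lit 47) (nat_lit 5) (nat_lit 454) (nat_lit 406) (nat_lit 160))) (XT.nd (nat_lit 78) (nat_lit 0) (nat_lit 0) (XT.lf (nat_lit 0) (nat_lit 135038435395) (nat_lit 152) (nat_lit 95835364311) (nat_lit 228) (nat_lit 194863053348) (nat_lit 44) (nat_lit 5) (nat_lit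 46) (nat_lit 5) (nat_lit 47) (nat_lit 5) (nat_lit 455) (nat_lit 406) (nat_lit 159)) (XT.lf (nat_lit 0) (nat_lit 341461691002) (nat_lit 228) (nat_lit 59429862838) (nat_lit 76) (nat_lit 39345906170) (nat_lit 44) (nat_lit 5) (nat_lit 47) (nat_lit 5) (nat_lit 45) (nat_lit 4) (nat_lit 456) (nat_lit 406) (nat_lit 158)))))) (XT.nd (nat_lit 546) (nat_lit 532) (nat_lit 0) (XT.nd (nat_lit 234) (nat_lit 304) (nat_lit 0) (XT.nd (nat_lit 78) (nat_lit 152) (nat_lit 0) (XT.lf (nat_lit 0) (nat_lit 6625743901) (nat_lit 152) (nat_lit 267501709281) (nat_lit 76) (nat_lit 181105113119) (nat_lit 42) (nat_lit 5) (nat_lit 44) (nat_lit 5) (nat_lit 43) (nat_lit 5) (nat_lit 457) (nat_lit 406) (nat_lit 157)) (XT.nd (nat_lit 78) (nat_lit 152) (nat_lit 0) (XT.lf (nat_lit 0) (nat_lit 115000717710) (nat_lit 152) (nat_lit 23250127751) (nat_lit 76) (nat_lit 332594473773) (nat_lit 42) (nat_lit 5) (nat_lit 44) (nat_lit 5) (nat_lit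 43) (nat_lit 5) (nat_lit 458) (nat_lit 406) (nat_lit 156)) (XT.lf (nat_lit 0) (nat_lit 232686549655) (nat_lit 228) (nat_lit 246256291587) (nat_lit 76) (nat_lit 8101263111) (nat_lit 40) (nat_lit 5) (nat_lit 43) (nat_lit 5) (nat_lit 41) (nat_lit 4) (nat_lit 459) (nat_lit 406) (nat_lit 155)))) (XT.nd (nat_lit 156) (nat_lit 228) (nat_lit 0) (XT.nd (nat_lit 78) (nat_lit 0) (nat_lit 0) (XT.lf (nat_lit 0) (nat_lit 12942967835) (nat_lit 76) (nat_lit 346182325642) (nat_lit 152) (nat_lit 144784104251) (nat_lit 39) (nat_lit 5) (nat_lit 40) (nat_lit 5) (nat_lit 41) (nat_lit 4) (nat_lit 460) (nat_lit 406) (nat_lit 154)) (XT.lf (nat_lit 0) (nat_lit 293651527822) (nat_lit 76) (nat_lit 202404847373) (nat_lit 152) (nat_lit 25353060551) (nat_lit 39) (nat_lit 5) (nat_lit 40) (nat_lit 5) (nat_lit 41) (nat_lit 4) (nat_lit 461) (nat_lit 406) (nat_lit 153))) (XT.nd (nat_lit 78) (nat_lit 0) (nat_lit 0) (XT.lf (nat_lit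 0) (nat_lit 48604513421) (nat_lit 152) (nat_lit 49001598069) (nat_lit 228) (nat_lit 442062322197) (nat_lit 36) (nat_lit 5) (nat_lit 38) (nat_lit 5) (nat_lit 39) (nat_lit 5) (nat_lit 462) (nat_lit 406) (nat_lit 152)) (XT.lf (nat_lit 0) (nat_lit 231531325059) (nat_lit 228) (nat_lit 214183959104) (nat_lit 76) (nat_lit 112820810575) (nat_lit 36) (nat_lit 5) (nat_lit 39) (nat_lit 5) (nat_lit 37) (nat_lit 4) (nat_lit 463) (nat_lit 406) (nat_lit 151))))) (XT.nd (nat_lit 234) (nat_lit 228) (nat_lit 0) (XT.nd (nat_lit 78) (nat_lit 228) (nat_lit 0) (XT.lf (nat_lit 0) (nat_lit 78240772836) (nat_lit 76) (nat_lit 295936826147) (nat_lit 152) (nat_lit 204068299883) (nat_lit 35) (nat_lit 5) (nat_lit 36) (nat_lit 5) (nat_lit 37) (nat_lit 4) (nat_lit 464) (nat_lit 406) (nat_lit 150)) (XT.nd (nat_lit 78) (nat_lit 228) (nat_lit 0) (XT.lf (nat_lit 0) (nat_lit 392722610911) (nat_lit 76) (nat_lit 134860822953)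 (nat_lit 152) (nat_lit 71176396981) (nat_lit 35) (nat_lit 5) (nat_lit 36) (nat_lit 5) (nat_lit 37) (nat_lit 4) (nat_lit 465) (nat_lit 406) (nat_lit 149)) (XT.lf (nat_lit 0) (nat_lit 68389567337) (nat_lit 228) (nat_lit 515823811784) (nat_lit 76) (nat_lit 35921844853) (nat_lit 32) (nat_lit 5) (nat_lit 35) (nat_lit 5) (nat_lit 33) (nat_lit 4) (nat_lit 466) (nat_lit 406) (nat_lit 148)))) (XT.nd (nat_lit 156) (nat_lit 152) (nat_lit 0) (XT.nd (nat_lit 78) (nat_lit 76) (nat_lit 0) (XT.lf (nat_lit 0) (nat_lit 218299152288) (nat_lit 228) (nat_lit 208509269260) (nat_lit 76) (nat_lit 215424758104) (nat_lit 32) (nat_lit 5) (nat_lit 35) (nat_lit 5) (nat_lit 33) (nat_lit 4) (nat_lit 467) (nat_lit 406) (nat_lit 147)) (XT.lf (nat_lit 0) (nat_lit 117945900243) (nat_lit 76) (nat_lit 259599725728) (nat_lit 152) (nat_lit 287798336676) (nat_lit 31) (nat_lit 5) (nat_lit 32) (nat_lit 5) (nat_lit 33) (nat_lit 4)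 (nat_lit 468) (nat_lit 406) (nat_lit 146))) (XT.nd (nat_lit 78) (nat_lit 152) (nat_lit 0) (XT.lf (nat_lit 0) (nat_lit 467962695387) (nat_lit 76) (nat_lit 80322877832) (nat_lit 152) (nat_lit 141148154087) (nat_lit 31) (nat_lit 5) (nat_lit 32) (nat_lit 5) (nat_lit 33) (nat_lit 4) (nat_lit 469) (nat_lit 406) (nat_lit 145)) (XT.lf (nat_lit 0) (nat_lit 16088142385) (nat_lit 152) (nat_lit 591802947937) (nat_lit 76) (nat_lit 106643651219) (nat_lit 29) (nat_lit 5) (nat_lit 31) (nat_lit 5) (nat_lit 30) (nat_lit 4) (nat_lit 470) (nat_lit 406) (nat_lit 144))))))))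
noncomputable def xc228 : XT := (XT.nd (nat_lit 50076) (nat_lit 0) (nat_lit 1064) (XT.nd (nat_lit 48984) (nat_lit 0) (nat_lit 4028) (XT.nd (nat_lit 48438) (nat_lit 0) (nat_lit 6992) (XT.nd (nat_lit 48204) (nat_lit 0) (nat_lit 6840) (XT.nd (nat_lit 78) (nat_lit 76) (nat_lit 0) (XT.lf (nat_lit 0) (nat_lit 181571671489) (nat_lit 152) (nat_lit 252561796818) (nat_lit 76) (nat_lit 306385196913) (nat_lit 29) (nat_lit 5) (nat_lit 31) (nat_lit 5) (nat_lit 30) (nat_lit 4) (nat_lit 471) (nat_lit 406) (nat_lit 143)) (XT.nd (nat_lit 48048) (nat_lit 0) (nat_lit 6840) (XT.lf (nat_lit 0) (nat_lit 107068165650) (nat_lit 76) (nat_lit 249932794636) (nat_lit 152) (nat_lit 410717245640) (nat_lit 28) (nat_lit 5) (nat_lit 29) (nat_lit 5) (nat_lit 30) (nat_lit 4) (nat_lit 472) (nat_lit 406) (nat_lit 142)) (XT.lf (nat_lit 0) (nat_lit 14941753144) (nat_lit 836) (nat_lit 19252497290) (nat_lit 836) (nat_lit 19252497290)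 (nat_lit 118) (nat_lit 3) (nat_lit 129) (nat_lit 3) (nat_lit 129) (nat_lit 5) (nat_lit 407) (nat_lit 407) (nat_lit 206)))) (XT.nd (nat_lit 78) (nat_lit 0) (nat_lit 76) (XT.lf (nat_lit 76) (nat_lit 13872964438) (nat_lit 0) (nat_lit 16979812379) (nat_lit 836) (nat_lit 78701943819) (nat_lit 119) (nat_lit 5) (nat_lit 118) (nat_lit 3) (nat_lit 129) (nat_lit 5) (nat_lit 408) (nat_lit 407) (nat_lit 205)) (XT.nd (nat_lit 78) (nat_lit 0) (nat_lit 0) (XT.lf (nat_lit 0) (nat_lit 33110606622) (nat_lit 760) (nat_lit 42698342177) (nat_lit 836) (nat_lit 36478053690) (nat_lit 119) (nat_lit 5) (nat_lit 129) (nat_lit 5) (nat_lit 130) (nat_lit 5) (nat_lit 409) (nat_lit 407) (nat_lit 204)) (XT.lf (nat_lit 76) (nat_lit 13074134242) (nat_lit 0) (nat_lit 22889334114) (nat_lit 836) (nat_lit 79168323245) (nat_lit 120) (nat_lit 5) (nat_lit 119) (nat_lit 5) (nat_lit 130) (nat_lit 5) (nat_lit 410) (nat_lit 407) (nat_lit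 203))))) (XT.nd (nat_lit 234) (nat_lit 0) (nat_lit 76) (XT.nd (nat_lit 78) (nat_lit 0) (nat_lit 0) (XT.lf (nat_lit 0) (nat_lit 40203786710) (nat_lit 760) (nat_lit 45487282112) (nat_lit 836) (nat_lit 32365510846) (nat_lit 120) (nat_lit 5) (nat_lit 130) (nat_lit 5) (nat_lit 131) (nat_lit 5) (nat_lit 411) (nat_lit 407) (nat_lit 202)) (XT.nd (nat_lit 78) (nat_lit 0) (nat_lit 76) (XT.lf (nat_lit 76) (nat_lit 13983734295) (nat_lit 0) (nat_lit 31265636528) (nat_lit 836) (nat_lit 75848573994) (nat_lit 121) (nat_lit 5) (nat_lit 120) (nat_lit 5) (nat_lit 131) (nat_lit 5) (nat_lit 412) (nat_lit 407) (nat_lit 201)) (XT.lf (nat_lit 0) (nat_lit 51733990531) (nat_lit 760) (nat_lit 46662270806) (nat_lit 836) (nat_lit 25835779227) (nat_lit 121) (nat_lit 5) (nat_lit 131) (nat_lit 5) (nat_lit 132) (nat_lit 5) (nat_lit 413) (nat_lit 407) (nat_lit 200)))) (XT.nd (nat_lit 156) (nat_lit 0) (nat_lit 76) (XT.nd (nat_lit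 78) (nat_lit 0) (nat_lit 76) (XT.lf (nat_lit 76) (nat_lit 16838437623) (nat_lit 0) (nat_lit 42479566972) (nat_lit 836) (nat_lit 68166078487) (nat_lit 122) (nat_lit 5) (nat_lit 121) (nat_lit 5) (nat_lit 132) (nat_lit 5) (nat_lit 414) (nat_lit 407) (nat_lit 199)) (XT.lf (nat_lit 0) (nat_lit 68337592405) (nat_lit 760) (nat_lit 45991645490) (nat_lit 836) (nat_lit 16516671327) (nat_lit 122) (nat_lit 5) (nat_lit 132) (nat_lit 5) (nat_lit 133) (nat_lit 5) (nat_lit 415) (nat_lit 407) (nat_lit 198))) (XT.nd (nat_lit 78) (nat_lit 0) (nat_lit 76) (XT.lf (nat_lit 76) (nat_lit 21899372043) (nat_lit 0) (nat_lit 56946825417) (nat_lit 836) (nat_lit 55477727453) (nat_lit 123) (nat_lit 5) (nat_lit 122) (nat_lit 5) (nat_lit 133) (nat_lit 5) (nat_lit 416) (nat_lit 407) (nat_lit 197)) (XT.lf (nat_lit 0) (nat_lit 90723238633) (nat_lit 760) (nat_lit 43219817366) (nat_lit 76) (nat_lit 3990635230) (nat_lit 123) (nat_lit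 5) (nat_lit 133) (nat_lit 5) (nat_lit 124) (nat_lit 5) (nat_lit 417) (nat_lit 407) (nat_lit 196)))))) (XT.nd (nat_lit 546) (nat_lit 1216) (nat_lit 0) (XT.nd (nat_lit 234) (nat_lit 836) (nat_lit 0) (XT.nd (nat_lit 78) (nat_lit 380) (nat_lit 0) (XT.lf (nat_lit 0) (nat_lit 29454103664) (nat_lit 760) (nat_lit 75133206336) (nat_lit 836) (nat_lit 37066977080) (nat_lit 113) (nat_lit 5) (nat_lit 123) (nat_lit 5) (nat_lit 124) (nat_lit 5) (nat_lit 418) (nat_lit 407) (nat_lit 195)) (XT.nd (nat_lit 78) (nat_lit 380) (nat_lit 0) (XT.lf (nat_lit 0) (nat_lit 107262006634) (nat_lit 760) (nat_lit 12614297391) (nat_lit 836) (nat_lit 25648022863) (nat_lit 113) (nat_lit 5) (nat_lit 123) (nat_lit 5) (nat_lit 124) (nat_lit 5) (nat_lit 419) (nat_lit 407) (nat_lit 194)) (XT.lf (nat_lit 0) (nat_lit 39818718108) (nat_lit 380) (nat_lit 97560448844) (nat_lit 456) (nat_lit 12136230890) (nat_lit 108) (nat_lit 5) (nat_lit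 113) (nat_lit 5) (nat_lit 114) (nat_lit 5) (nat_lit 420) (nat_lit 407) (nat_lit 193)))) (XT.nd (nat_lit 156) (nat_lit 380) (nat_lit 0) (XT.nd (nat_lit 78) (nat_lit 380) (nat_lit 0) (XT.lf (nat_lit 0) (nat_lit 2850691925) (nat_lit 456) (nat_lit 30791085628) (nat_lit 76) (nat_lit 120019384140) (nat_lit 107) (nat_lit 5) (nat_lit 113) (nat_lit 5) (nat_lit 108) (nat_lit 5) (nat_lit 421) (nat_lit 407) (nat_lit 192)) (XT.lf (nat_lit 0) (nat_lit 19554940031) (nat_lit 456) (nat_lit 104926655339) (nat_lit 76) (nat_lit 33453878930) (nat_lit 102) (nat_lit 5) (nat_lit 108) (nat_lit 5) (nat_lit 103) (nat_lit 5) (nat_lit 422) (nat_lit 407) (nat_lit 191))) (XT.nd (nat_lit 78) (nat_lit 380) (nat_lit 0) (XT.lf (nat_lit 0) (nat_lit 38175717772) (nat_lit 456) (nat_lit 20889977086) (nat_lit 76) (nat_lit 103303741913) (nat_lit 102) (nat_lit 5) (nat_lit 108) (nat_lit 5) (nat_lit 103) (nat_lit 5) (nat_lit 423) (nat_lit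 407) (nat_lit 190)) (XT.lf (nat_lit 0) (nat_lit 58981627667) (nat_lit 456) (nat_lit 97563636986) (nat_lit 76) (nat_lit 10417128138) (nat_lit 97) (nat_lit 5) (nat_lit 103) (nat_lit 5) (nat_lit 98) (nat_lit 5) (nat_lit 424) (nat_lit 407) (nat_lit 189))))) (XT.nd (nat_lit 234) (nat_lit 608) (nat_lit 0) (XT.nd (nat_lit 78) (nat_lit 608) (nat_lit 0) (XT.lf (nat_lit 0) (nat_lit 82155521985) (nat_lit 456) (nat_lit 7814425150) (nat_lit 76) (nat_lit 81748665116) (nat_lit 97) (nat_lit 5) (nat_lit 103) (nat_lit 5) (nat_lit 98) (nat_lit 5) (nat_lit 425) (nat_lit 407) (nat_lit 188)) (XT.nd (nat_lit 78) (nat_lit 304) (nat_lit 0) (XT.lf (nat_lit 0) (nat_lit 89279554366) (nat_lit 304) (nat_lit 18602286678) (nat_lit 380) (nat_lit 68761115220) (nat_lit 93) (nat_lit 5) (nat_lit 97) (nat_lit 5) (nat_lit 98) (nat_lit 5) (nat_lit 426) (nat_lit 407) (nat_lit 187)) (XT.lf (nat_lit 0) (nat_lit 9102055727) (nat_lit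 304) (nat_lit 126948398214) (nat_lit 380) (nat_lit 45705264720) (nat_lit 89) (nat_lit 5) (nat_lit 93) (nat_lit 5) (nat_lit 94) (nat_lit 5) (nat_lit 427) (nat_lit 407) (nat_lit 186)))) (XT.nd (nat_lit 156) (nat_lit 304) (nat_lit 0) (XT.nd (nat_lit 78) (nat_lit 304) (nat_lit 0) (XT.lf (nat_lit 0) (nat_lit 113108609612) (nat_lit 304) (nat_lit 54298302071) (nat_lit 380) (nat_lit 19628236859) (nat_lit 89) (nat_lit 5) (nat_lit 93) (nat_lit 5) (nat_lit 94) (nat_lit 5) (nat_lit 428) (nat_lit 407) (nat_lit 185)) (XT.lf (nat_lit 0) (nat_lit 8335074075) (nat_lit 304) (nat_lit 162306737235) (nat_lit 76) (nat_lit 21889158417) (nat_lit 85) (nat_lit 5) (nat_lit 89) (nat_lit 5) (nat_lit 86) (nat_lit 5) (nat_lit 429) (nat_lit 407) (nat_lit 184))) (XT.nd (nat_lit 78) (nat_lit 304) (nat_lit 0) (XT.lf (nat_lit 0) (nat_lit 39199400233) (nat_lit 304) (nat_lit 57322510588) (nat_lit 76) (nat_lit 101655458139) (nat_lit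 85) (nat_lit 5) (nat_lit 89) (nat_lit 5) (nat_lit 86) (nat_lit 5) (nat_lit 430) (nat_lit 407) (nat_lit 183)) (XT.lf (nat_lit 0) (nat_lit 54660206869) (nat_lit 304) (nat_lit 17799987267) (nat_lit 380) (nat_lit 131603231506) (nat_lit 81) (nat_lit 5) (nat_lit 85) (nat_lit 5) (nat_lit 86) (nat_lit 5) (nat_lit 431) (nat_lit 407) (nat_lit 182))))))) (XT.nd (nat_lit 1014) (nat_lit 1368) (nat_lit 0) (XT.nd (nat_lit 468) (nat_lit 836) (nat_lit 0) (XT.nd (nat_lit 234) (nat_lit 532) (nat_lit 0) (XT.nd (nat_lit 78) (nat_lit 228) (nat_lit 0) (XT.lf (nat_lit 0) (nat_lit 109383198240) (nat_lit 380) (nat_lit 36991799792) (nat_lit 76) (nat_lit 63768828658) (nat_lit 81) (nat_lit 5) (nat_lit 86) (nat_lit 5) (nat_lit 82) (nat_lit 5) (nat_lit 432) (nat_lit 407) (nat_lit 181)) (XT.nd (nat_lit 78) (nat_lit 0) (nat_lit 0) (XT.lf (nat_lit 0) (nat_lit 83418104476) (nat_lit 228) (nat_lit 66328304295) (nat_lit 304)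 (nat_lit 66702136266) (nat_lit 78) (nat_lit 5) (nat_lit 81) (nat_lit 5) (nat_lit 82) (nat_lit 5) (nat_lit 433) (nat_lit 407) (nat_lit 180)) (XT.lf (nat_lit 0) (nat_lit 193041059853) (nat_lit 304) (nat_lit 12191526056) (nat_lit 76) (nat_lit 17790249442) (nat_lit 78) (nat_lit 5) (nat_lit 82) (nat_lit 5) (nat_lit 79) (nat_lit 5) (nat_lit 434) (nat_lit 407) (nat_lit 179)))) (XT.nd (nat_lit 78) (nat_lit 228) (nat_lit 0) (XT.lf (nat_lit 0) (nat_lit 11267531829) (nat_lit 304) (nat_lit 112603602543) (nat_lit 76) (nat_lit 105899643707) (nat_lit 74) (nat_lit 5) (nat_lit 78) (nat_lit 5) (nat_lit 75) (nat_lit 5) (nat_lit 435) (nat_lit 407) (nat_lit 178)) (XT.nd (nat_lit 78) (nat_lit 0) (nat_lit 0) (XT.lf (nat_lit 0) (nat_lit 16607764447) (nat_lit 228) (nat_lit 37432977138) (nat_lit 304) (nat_lit 182767350113) (nat_lit 71) (nat_lit 5) (nat_lit 74) (nat_lit 5) (nat_lit 75) (nat_lit 5) (nat_lit 436) (nat_lit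 407) (nat_lit 177)) (XT.lf (nat_lit 0) (nat_lit 101723331759) (nat_lit 304) (nat_lit 88776907077) (nat_lit 76) (nat_lit 53558496208) (nat_lit 71) (nat_lit 5) (nat_lit 75) (nat_lit 5) (nat_lit 72) (nat_lit 5) (nat_lit 437) (nat_lit 407) (nat_lit 176))))) (XT.nd (nat_lit 234) (nat_lit 380) (nat_lit 0) (XT.nd (nat_lit 78) (nat_lit 228) (nat_lit 0) (XT.lf (nat_lit 0) (nat_lit 50210919378) (nat_lit 228) (nat_lit 102976602407) (nat_lit 304) (nat_lit 98414515297) (nat_lit 68) (nat_lit 5) (nat_lit 71) (nat_lit 5) (nat_lit 72) (nat_lit 5) (nat_lit 438) (nat_lit 407) (nat_lit 175)) (XT.nd (nat_lit 78) (nat_lit 228) (nat_lit 0) (XT.lf (nat_lit 0) (nat_lit 199230101331) (nat_lit 228) (nat_lit 9498184655) (nat_lit 304) (nat_lit 50719050041) (nat_lit 68) (nat_lit 5) (nat_lit 71) (nat_lit 5) (nat_lit 72) (nat_lit 5) (nat_lit 439) (nat_lit 407) (nat_lit 174)) (XT.lf (nat_lit 0) (nat_lit 2208533598) (nat_lit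 228) (nat_lit 178086006515) (nat_lit 76) (nat_lit 87249513565) (nat_lit 65) (nat_lit 5) (nat_lit 68) (nat_lit 5) (nat_lit 66) (nat_lit 5) (nat_lit 440) (nat_lit 407) (nat_lit 173)))) (XT.nd (nat_lit 156) (nat_lit 152) (nat_lit 0) (XT.nd (nat_lit 78) (nat_lit 228) (nat_lit 0) (XT.lf (nat_lit 0) (nat_lit 57270128251) (nat_lit 228) (nat_lit 28290970420) (nat_lit 76) (nat_lit 190383329359) (nat_lit 65) (nat_lit 5) (nat_lit 68) (nat_lit 5) (nat_lit 66) (nat_lit 5) (nat_lit 441) (nat_lit 407) (nat_lit 172)) (XT.lf (nat_lit 0) (nat_lit 117416506217) (nat_lit 304) (nat_lit 151653293171) (nat_lit 76) (nat_lit 15578436562) (nat_lit 62) (nat_lit 5) (nat_lit 66) (nat_lit 5) (nat_lit 63) (nat_lit 5) (nat_lit 442) (nat_lit 407) (nat_lit 171))) (XT.nd (nat_lit 78) (nat_lit 0) (nat_lit 0) (XT.lf (nat_lit 0) (nat_lit 8423004447) (nat_lit 152) (nat_lit 174168219292) (nat_lit 228) (nat_lit 111094959527) (nat_lit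 60) (nat_lit 5) (nat_lit 62) (nat_lit 5) (nat_lit 63) (nat_lit 5) (nat_lit 443) (nat_lit 407) (nat_lit 170)) (XT.lf (nat_lit 0) (nat_lit 181768018506) (nat_lit 152) (nat_lit 71824880222) (nat_lit 228) (nat_lit 49454718169) (nat_lit 60) (nat_lit 5) (nat_lit 62) (nat_lit 5) (nat_lit 63) (nat_lit 5) (nat_lit 444) (nat_lit 407) (nat_lit 169)))))) (XT.nd (nat_lit 546) (nat_lit 608) (nat_lit 0) (XT.nd (nat_lit 234) (nat_lit 380) (nat_lit 0) (XT.nd (nat_lit 78) (nat_lit 152) (nat_lit 0) (XT.lf (nat_lit 0) (nat_lit 16169628279) (nat_lit 228) (nat_lit 261058185356) (nat_lit 76) (nat_lit 35567852676) (nat_lit 57) (nat_lit 5) (nat_lit 60) (nat_lit 5) (nat_lit 58) (nat_lit 5) (nat_lit 445) (nat_lit 407) (nat_lit 168)) (XT.nd (nat_lit 78) (nat_lit 152) (nat_lit 0) (XT.lf (nat_lit 0) (nat_lit 86678150170) (nat_lit 228) (nat_lit 87334470227) (nat_lit 76) (nat_lit 148814713121) (nat_lit 57) (nat_lit 5) (nat_lit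 60) (nat_lit 5) (nat_lit 58) (nat_lit 5) (nat_lit 446) (nat_lit 407) (nat_lit 167)) (XT.lf (nat_lit 0) (nat_lit 98218900841) (nat_lit 152) (nat_lit 64026578423) (nat_lit 228) (nat_lit 171038435791) (nat_lit 55) (nat_lit 5) (nat_lit 57) (nat_lit 5) (nat_lit 58) (nat_lit 5) (nat_lit 447) (nat_lit 407) (nat_lit 166)))) (XT.nd (nat_lit 156) (nat_lit 228) (nat_lit 0) (XT.nd (nat_lit 78) (nat_lit 152) (nat_lit 0) (XT.lf (nat_lit 0) (nat_lit 243897798610) (nat_lit 228) (nat_lit 48935188563) (nat_lit 76) (nat_lit 51315007328) (nat_lit 55) (nat_lit 5) (nat_lit 58) (nat_lit 5) (nat_lit 56) (nat_lit 5) (nat_lit 448) (nat_lit 407) (nat_lit 165)) (XT.lf (nat_lit 0) (nat_lit 150260649370) (nat_lit 152) (nat_lit 182767604713) (nat_lit 228) (nat_lit 22357247851) (nat_lit 53) (nat_lit 5) (nat_lit 55) (nat_lit 5) (nat_lit 56) (nat_lit 5) (nat_lit 449) (nat_lit 407) (nat_lit 164))) (XT.nd (nat_lit 78) (nat_lit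 152) (nat_lit 0) (XT.lf (nat_lit 0) (nat_lit 58370447119) (nat_lit 228) (nat_lit 6969852113) (nat_lit 76) (nat_lit 301756079722) (nat_lit 52) (nat_lit 5) (nat_lit 55) (nat_lit 5) (nat_lit 53) (nat_lit 5) (nat_lit 450) (nat_lit 407) (nat_lit 163)) (XT.lf (nat_lit 0) (nat_lit 146584589964) (nat_lit 228) (nat_lit 172813409982) (nat_lit 76) (nat_lit 59766403623) (nat_lit 50) (nat_lit 5) (nat_lit 53) (nat_lit 5) (nat_lit 51) (nat_lit 5) (nat_lit 451) (nat_lit 407) (nat_lit 162))))) (XT.nd (nat_lit 234) (nat_lit 304) (nat_lit 0) (XT.nd (nat_lit 78) (nat_lit 152) (nat_lit 0) (XT.lf (nat_lit 0) (nat_lit 38922469346) (nat_lit 152) (nat_lit 202085704513) (nat_lit 228) (nat_lit 150737718877) (nat_lit 48) (nat_lit 5) (nat_lit 50) (nat_lit 5) (nat_lit 51) (nat_lit 5) (nat_lit 452) (nat_lit 407) (nat_lit 161)) (XT.nd (nat_lit 78) (nat_lit 152) (nat_lit 0) (XT.lf (nat_lit 0) (nat_lit 267244699386) (nat_lit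 152) (nat_lit 75834837771) (nat_lit 228) (nat_lit 61730589211) (nat_lit 48) (nat_lit 5) (nat_lit 50) (nat_lit 5) (nat_lit 51) (nat_lit 5) (nat_lit 453) (nat_lit 407) (nat_lit 160)) (XT.lf (nat_lit 0) (nat_lit 33047140741) (nat_lit 152) (nat_lit 328480594505) (nat_lit 76) (nat_lit 56858284030) (nat_lit 46) (nat_lit 5) (nat_lit 48) (nat_lit 5) (nat_lit 47) (nat_lit 5) (nat_lit 454) (nat_lit 407) (nat_lit 159)))) (XT.nd (nat_lit 156) (nat_lit 152) (nat_lit 0) (XT.nd (nat_lit 78) (nat_lit 152) (nat_lit 0) (XT.lf (nat_lit 0) (nat_lit 134100252897) (nat_lit 152) (nat_lit 101291934739) (nat_lit 76) (nat_lit 197017367951) (nat_lit 46) (nat_lit 5) (nat_lit 48) (nat_lit 5) (nat_lit 47) (nat_lit 5) (nat_lit 455) (nat_lit 407) (nat_lit 158)) (XT.lf (nat_lit 0) (nat_lit 141794337064) (nat_lit 152) (nat_lit 100625418911) (nat_lit 228) (nat_lit 204603825986) (nat_lit 44) (nat_lit 5) (nat_lit 46) (nat_lit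 5) (nat_lit 47) (nat_lit 5) (nat_lit 456) (nat_lit 407) (nat_lit 157))) (XT.nd (nat_lit 78) (nat_lit 152) (nat_lit 0) (XT.lf (nat_lit 0) (nat_lit 358536959397) (nat_lit 228) (nat_lit 62397482751) (nat_lit 76) (nat_lit 41314781259) (nat_lit 44) (nat_lit 5) (nat_lit 47) (nat_lit 5) (nat_lit 45) (nat_lit 4) (nat_lit 457) (nat_lit 407) (nat_lit 156)) (XT.lf (nat_lit 0) (nat_lit 6959205896) (nat_lit 152) (nat_lit 280872911706) (nat_lit 76) (nat_lit 190161967902) (nat_lit 42) (nat_lit 5) (nat_lit 44) (nat_lit 5) (nat_lit 43) (nat_lit 5) (nat_lit 458) (nat_lit 407) (nat_lit 155))))))))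
noncomputable def xc229 : XT := (XT.nd (nat_lit 50232) (nat_lit 0) (nat_lit 1976) (XT.nd (nat_lit 49140) (nat_lit 0) (nat_lit 6004) (XT.nd (nat_lit 468) (nat_lit 532) (nat_lit 0) (XT.nd (nat_lit 234) (nat_lit 228) (nat_lit 0) (XT.nd (nat_lit 78) (nat_lit 228) (nat_lit 0) (XT.lf (nat_lit 0) (nat_lit 120752824834) (nat_lit 152) (nat_lit 24408936006) (nat_lit 76) (nat_lit 349225720439) (nat_lit 42) (nat_lit 5) (nat_lit 44) (nat_lit 5) (nat_lit 43) (nat_lit 5) (nat_lit 459) (nat_lit 407) (nat_lit 154)) (XT.nd (nat_lit 78) (nat_lit 76) (nat_lit 0) (XT.lf (nat_lit 0) (nat_lit 244322931675) (nat_lit 228) (nat_lit 258565390995) (nat_lit 76) (nat_lit 8507883837) (nat_lit 40) (nat_lit 5) (nat_lit 43) (nat_lit 5) (nat_lit 41) (nat_lit 4) (nat_lit 460) (nat_lit 407) (nat_lit 153)) (XT.lf (nat_lit 0) (nat_lit 13593771476) (nat_lit 76) (nat_lit 363489800444) (nat_lit 152) (nat_lit 152021194683) (nat_lit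 39) (nat_lit 5) (nat_lit 40) (nat_lit 5) (nat_lit 41) (nat_lit 4) (nat_lit 461) (nat_lit 407) (nat_lit 152)))) (XT.nd (nat_lit 78) (nat_lit 228) (nat_lit 0) (XT.lf (nat_lit 0) (nat_lit 308337585403) (nat_lit 76) (nat_lit 212523526427) (nat_lit 152) (nat_lit 26618699502) (nat_lit 39) (nat_lit 5) (nat_lit 40) (nat_lit 5) (nat_lit 41) (nat_lit 4) (nat_lit 462) (nat_lit 407) (nat_lit 151)) (XT.nd (nat_lit 78) (nat_lit 0) (nat_lit 0) (XT.lf (nat_lit 0) (nat_lit 51038227845) (nat_lit 152) (nat_lit 51450100464) (nat_lit 228) (nat_lit 464163431222) (nat_lit 36) (nat_lit 5) (nat_lit 38) (nat_lit 5) (nat_lit 39) (nat_lit 5) (nat_lit 463) (nat_lit 407) (nat_lit 150)) (XT.lf (nat_lit 0) (nat_lit 243109735001) (nat_lit 228) (nat_lit 224889766617) (nat_lit 76) (nat_lit 118463305407) (nat_lit 36) (nat_lit 5) (nat_lit 39) (nat_lit 5) (nat_lit 37) (nat_lit 4) (nat_lit 464) (nat_lit 407) (nat_lit 149)))))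 (XT.nd (nat_lit 234) (nat_lit 228) (nat_lit 0) (XT.nd (nat_lit 78) (nat_lit 228) (nat_lit 0) (XT.lf (nat_lit 0) (nat_lit 82156147235) (nat_lit 76) (nat_lit 310732139672) (nat_lit 152) (nat_lit 214269816251) (nat_lit 35) (nat_lit 5) (nat_lit 36) (nat_lit 5) (nat_lit 37) (nat_lit 4) (nat_lit 465) (nat_lit 407) (nat_lit 148)) (XT.nd (nat_lit 78) (nat_lit 228) (nat_lit 0) (XT.lf (nat_lit 0) (nat_lit 412361918369) (nat_lit 76) (nat_lit 141602409070) (nat_lit 152) (nat_lit 74733408615) (nat_lit 35) (nat_lit 5) (nat_lit 36) (nat_lit 5) (nat_lit 37) (nat_lit 4) (nat_lit 466) (nat_lit 407) (nat_lit 147)) (XT.lf (nat_lit 0) (nat_lit 71810785279) (nat_lit 228) (nat_lit 541611756375) (nat_lit 76) (nat_lit 37719356322) (nat_lit 32) (nat_lit 5) (nat_lit 35) (nat_lit 5) (nat_lit 33) (nat_lit 4) (nat_lit 467) (nat_lit 407) (nat_lit 146)))) (XT.nd (nat_lit 156) (nat_lit 152) (nat_lit 0) (XT.nd (nat_lit 78)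 (nat_lit 76) (nat_lit 0) (XT.lf (nat_lit 0) (nat_lit 229215766641) (nat_lit 228) (nat_lit 218931641296) (nat_lit 76) (nat_lit 226197347654) (nat_lit 32) (nat_lit 5) (nat_lit 35) (nat_lit 5) (nat_lit 33) (nat_lit 4) (nat_lit 468) (nat_lit 407) (nat_lit 145)) (XT.lf (nat_lit 0) (nat_lit 123846236821) (nat_lit 76) (nat_lit 272578295783) (nat_lit 152) (nat_lit 302186546712) (nat_lit 31) (nat_lit 5) (nat_lit 32) (nat_lit 5) (nat_lit 33) (nat_lit 4) (nat_lit 469) (nat_lit 407) (nat_lit 144))) (XT.nd (nat_lit 78) (nat_lit 152) (nat_lit 0) (XT.lf (nat_lit 0) (nat_lit 491363726885) (nat_lit 76) (nat_lit 84337672931) (nat_lit 152) (nat_lit 148203936270) (nat_lit 31) (nat_lit 5) (nat_lit 32) (nat_lit 5) (nat_lit 33) (nat_lit 4) (nat_lit 470) (nat_lit 407) (nat_lit 143)) (XT.lf (nat_lit 0) (nat_lit 16894114564) (nat_lit 152) (nat_lit 621390137793) (nat_lit 76) (nat_lit 111977147838) (nat_lit 29) (nat_lit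 5) (nat_lit 31) (nat_lit 5) (nat_lit 30) (nat_lit 4) (nat_lit 471) (nat_lit 407) (nat_lit 142)))))) (XT.nd (nat_lit 546) (nat_lit 760) (nat_lit 0) (XT.nd (nat_lit 234) (nat_lit 0) (nat_lit 76) (XT.nd (nat_lit 78) (nat_lit 0) (nat_lit 0) (XT.lf (nat_lit 0) (nat_lit 15694340590) (nat_lit 836) (nat_lit 20212233261) (nat_lit 836) (nat_lit 20212233261) (nat_lit 118) (nat_lit 3) (nat_lit 129) (nat_lit 3) (nat_lit 129) (nat_lit 5) (nat_lit 408) (nat_lit 408) (nat_lit 204)) (XT.nd (nat_lit 78) (nat_lit 0) (nat_lit 76) (XT.lf (nat_lit 76) (nat_lit 14572297255) (nat_lit 0) (nat_lit 17833682942) (nat_lit 836) (nat_lit 82625942513) (nat_lit 119) (nat_lit 5) (nat_lit 118) (nat_lit 3) (nat_lit 129) (nat_lit 5) (nat_lit 409) (nat_lit 408) (nat_lit 203)) (XT.lf (nat_lit 0) (nat_lit 34776125859) (nat_lit 760) (nat_lit 44827264293) (nat_lit 836) (nat_lit 38297457560) (nat_lit 119) (nat_lit 5) (nat_lit 129)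 (nat_lit 5) (nat_lit 130) (nat_lit 5) (nat_lit 410) (nat_lit 408) (nat_lit 202)))) (XT.nd (nat_lit 156) (nat_lit 0) (nat_lit 76) (XT.nd (nat_lit 78) (nat_lit 0) (nat_lit 76) (XT.lf (nat_lit 76) (nat_lit 13733739254) (nat_lit 0) (nat_lit 24037507852) (nat_lit 836) (nat_lit 83116648611) (nat_lit 120) (nat_lit 5) (nat_lit 119) (nat_lit 5) (nat_lit 130) (nat_lit 5) (nat_lit 411) (nat_lit 408) (nat_lit 201)) (XT.lf (nat_lit 0) (nat_lit 42223068860) (nat_lit 760) (nat_lit 47755511323) (nat_lit 836) (nat_lit 33980368880) (nat_lit 120) (nat_lit 5) (nat_lit 130) (nat_lit 5) (nat_lit 131) (nat_lit 5) (nat_lit 412) (nat_lit 408) (nat_lit 200))) (XT.nd (nat_lit 78) (nat_lit 0) (nat_lit 76) (XT.lf (nat_lit 76) (nat_lit 14688956955) (nat_lit 0) (nat_lit 32831636470) (nat_lit 836) (nat_lit 79631806216) (nat_lit 121) (nat_lit 5) (nat_lit 120) (nat_lit 5) (nat_lit 131) (nat_lit 5) (nat_lit 413) (nat_lit 408)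 (nat_lit 199)) (XT.lf (nat_lit 0) (nat_lit 54328986842) (nat_lit 760) (nat_lit 48989174060) (nat_lit 836) (nat_lit 27125062360) (nat_lit 121) (nat_lit 5) (nat_lit 131) (nat_lit 5) (nat_lit 132) (nat_lit 5) (nat_lit 414) (nat_lit 408) (nat_lit 198))))) (XT.nd (nat_lit 234) (nat_lit 988) (nat_lit 0) (XT.nd (nat_lit 78) (nat_lit 0) (nat_lit 76) (XT.lf (nat_lit 76) (nat_lit 17686469624) (nat_lit 0) (nat_lit 44605432297) (nat_lit 836) (nat_lit 71565981186) (nat_lit 122) (nat_lit 5) (nat_lit 121) (nat_lit 5) (nat_lit 132) (nat_lit 5) (nat_lit 415) (nat_lit 408) (nat_lit 197)) (XT.nd (nat_lit 78) (nat_lit 0) (nat_lit 0) (XT.lf (nat_lit 0) (nat_lit 71762060249) (nat_lit 760) (nat_lit 48284995658) (nat_lit 836) (nat_lit 17340765292) (nat_lit 122) (nat_lit 5) (nat_lit 132) (nat_lit 5) (nat_lit 133) (nat_lit 5) (nat_lit 416) (nat_lit 408) (nat_lit 196)) (XT.lf (nat_lit 76) (nat_lit 23000472233) (nat_lit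 0) (nat_lit 59795357711) (nat_lit 836) (nat_lit 58243921206) (nat_lit 123) (nat_lit 5) (nat_lit 122) (nat_lit 5) (nat_lit 133) (nat_lit 5) (nat_lit 417) (nat_lit 408) (nat_lit 195)))) (XT.nd (nat_lit 156) (nat_lit 380) (nat_lit 0) (XT.nd (nat_lit 78) (nat_lit 760) (nat_lit 0) (XT.lf (nat_lit 0) (nat_lit 95266356770) (nat_lit 760) (nat_lit 45374598528) (nat_lit 76) (nat_lit 4189068989) (nat_lit 123) (nat_lit 5) (nat_lit 133) (nat_lit 5) (nat_lit 124) (nat_lit 5) (nat_lit 418) (nat_lit 408) (nat_lit 194)) (XT.lf (nat_lit 0) (nat_lit 30932918397) (nat_lit 760) (nat_lit 78890477447) (nat_lit 836) (nat_lit 38913266055) (nat_lit 113) (nat_lit 5) (nat_lit 123) (nat_lit 5) (nat_lit 124) (nat_lit 5) (nat_lit 419) (nat_lit 408) (nat_lit 193))) (XT.nd (nat_lit 78) (nat_lit 380) (nat_lit 0) (XT.lf (nat_lit 0) (nat_lit 112630925585) (nat_lit 760) (nat_lit 13245593970) (nat_lit 836) (nat_lit 26923700312)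 (nat_lit 113) (nat_lit 5) (nat_lit 123) (nat_lit 5) (nat_lit 124) (nat_lit 5) (nat_lit 420) (nat_lit 408) (nat_lit 192)) (XT.lf (nat_lit 0) (nat_lit 41815705870) (nat_lit 380) (nat_lit 102438600817) (nat_lit 456) (nat_lit 12736548787) (nat_lit 108) (nat_lit 5) (nat_lit 113) (nat_lit 5) (nat_lit 114) (nat_lit 5) (nat_lit 421) (nat_lit 408) (nat_lit 191))))))) (XT.nd (nat_lit 1014) (nat_lit 1748) (nat_lit 0) (XT.nd (nat_lit 468) (nat_lit 1140) (nat_lit 0) (XT.nd (nat_lit 234) (nat_lit 684) (nat_lit 0) (XT.nd (nat_lit 78) (nat_lit 380) (nat_lit 0) (XT.lf (nat_lit 0) (nat_lit 2999213007) (nat_lit 456) (nat_lit 32324675402) (nat_lit 76) (nat_lit 126020029151) (nat_lit 107) (nat_lit 5) (nat_lit 113) (nat_lit 5) (nat_lit 108) (nat_lit 5) (nat_lit 422) (nat_lit 408) (nat_lit 190)) (XT.nd (nat_lit 78) (nat_lit 0) (nat_lit 0) (XT.lf (nat_lit 0) (nat_lit 20538481244) (nat_lit 456) (nat_lit 110166828568)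 (nat_lit 76) (nat_lit 35126645737) (nat_lit 102) (nat_lit 5) (nat_lit 108) (nat_lit 5) (nat_lit 103) (nat_lit 5) (nat_lit 423) (nat_lit 408) (nat_lit 189)) (XT.lf (nat_lit 0) (nat_lit 40090021956) (nat_lit 456) (nat_lit 21928609713) (nat_lit 76) (nat_lit 108468998400) (nat_lit 102) (nat_lit 5) (nat_lit 108) (nat_lit 5) (nat_lit 103) (nat_lit 5) (nat_lit 424) (nat_lit 408) (nat_lit 188)))) (XT.nd (nat_lit 78) (nat_lit 304) (nat_lit 0) (XT.lf (nat_lit 0) (nat_lit 61936061332) (nat_lit 456) (nat_lit 102435784095) (nat_lit 76) (nat_lit 10938396890) (nat_lit 97) (nat_lit 5) (nat_lit 103) (nat_lit 5) (nat_lit 98) (nat_lit 5) (nat_lit 425) (nat_lit 408) (nat_lit 187)) (XT.nd (nat_lit 78) (nat_lit 304) (nat_lit 0) (XT.lf (nat_lit 0) (nat_lit 86268395496) (nat_lit 456) (nat_lit 8199399035) (nat_lit 76) (nat_lit 85836491082) (nat_lit 97) (nat_lit 5) (nat_lit 103) (nat_lit 5) (nat_lit 98) (nat_lit 5)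 (nat_lit 426) (nat_lit 408) (nat_lit 186)) (XT.lf (nat_lit 0) (nat_lit 93749186758) (nat_lit 304) (nat_lit 19531689302) (nat_lit 380) (nat_lit 72193978603) (nat_lit 93) (nat_lit 5) (nat_lit 97) (nat_lit 5) (nat_lit 98) (nat_lit 5) (nat_lit 427) (nat_lit 408) (nat_lit 185))))) (XT.nd (nat_lit 234) (nat_lit 532) (nat_lit 0) (XT.nd (nat_lit 78) (nat_lit 304) (nat_lit 0) (XT.lf (nat_lit 0) (nat_lit 9562956442) (nat_lit 304) (nat_lit 133294828885) (nat_lit 380) (nat_lit 47985476674) (nat_lit 89) (nat_lit 5) (nat_lit 93) (nat_lit 5) (nat_lit 94) (nat_lit 5) (nat_lit 428) (nat_lit 408) (nat_lit 184)) (XT.nd (nat_lit 78) (nat_lit 304) (nat_lit 0) (XT.lf (nat_lit 0) (nat_lit 118769561930) (nat_lit 304) (nat_lit 57012275040) (nat_lit 380) (nat_lit 20604837958) (nat_lit 89) (nat_lit 5) (nat_lit 93) (nat_lit 5) (nat_lit 94) (nat_lit 5) (nat_lit 429) (nat_lit 408) (nat_lit 183)) (XT.lf (nat_lit 0) (nat_lit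 8756366626) (nat_lit 304) (nat_lit 170416276538) (nat_lit 76) (nat_lit 22984646242) (nat_lit 85) (nat_lit 5) (nat_lit 89) (nat_lit 5) (nat_lit 86) (nat_lit 5) (nat_lit 430) (nat_lit 408) (nat_lit 182)))) (XT.nd (nat_lit 156) (nat_lit 228) (nat_lit 0) (XT.nd (nat_lit 78) (nat_lit 304) (nat_lit 0) (XT.lf (nat_lit 0) (nat_lit 41163692956) (nat_lit 304) (nat_lit 60183114633) (nat_lit 76) (nat_lit 106739211906) (nat_lit 85) (nat_lit 5) (nat_lit 89) (nat_lit 5) (nat_lit 86) (nat_lit 5) (nat_lit 431) (nat_lit 408) (nat_lit 181)) (XT.lf (nat_lit 0) (nat_lit 57398649640) (nat_lit 304) (nat_lit 18688755887) (nat_lit 380) (nat_lit 138178979621) (nat_lit 81) (nat_lit 5) (nat_lit 85) (nat_lit 5) (nat_lit 86) (nat_lit 5) (nat_lit 432) (nat_lit 408) (nat_lit 180))) (XT.nd (nat_lit 78) (nat_lit 228) (nat_lit 0) (XT.lf (nat_lit 0) (nat_lit 114856378056) (nat_lit 380) (nat_lit 38836032650) (nat_lit 76) (nat_lit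 66958404713) (nat_lit 81) (nat_lit 5) (nat_lit 86) (nat_lit 5) (nat_lit 82) (nat_lit 5) (nat_lit 433) (nat_lit 408) (nat_lit 179)) (XT.lf (nat_lit 0) (nat_lit 87594280427) (nat_lit 228) (nat_lit 69643359554) (nat_lit 304) (nat_lit 70033135235) (nat_lit 78) (nat_lit 5) (nat_lit 81) (nat_lit 5) (nat_lit 82) (nat_lit 5) (nat_lit 434) (nat_lit 408) (nat_lit 178)))))) (XT.nd (nat_lit 546) (nat_lit 760) (nat_lit 0) (XT.nd (nat_lit 234) (nat_lit 456) (nat_lit 0) (XT.nd (nat_lit 78) (nat_lit 532) (nat_lit 0) (XT.lf (nat_lit 0) (nat_lit 202696857611) (nat_lit 304) (nat_lit 12795915152) (nat_lit 76) (nat_lit 18681015656) (nat_lit 78) (nat_lit 5) (nat_lit 82) (nat_lit 5) (nat_lit 79) (nat_lit 5) (nat_lit 435) (nat_lit 408) (nat_lit 177)) (XT.nd (nat_lit 78) (nat_lit 228) (nat_lit 0) (XT.lf (nat_lit 0) (nat_lit 11834615665) (nat_lit 304) (nat_lit 118228555223) (nat_lit 76) (nat_lit 111195959407) (nat_lit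 74) (nat_lit 5) (nat_lit 78) (nat_lit 5) (nat_lit 75) (nat_lit 5) (nat_lit 436) (nat_lit 408) (nat_lit 176)) (XT.lf (nat_lit 0) (nat_lit 17443295802) (nat_lit 228) (nat_lit 39303093869) (nat_lit 304) (nat_lit 191901924799) (nat_lit 71) (nat_lit 5) (nat_lit 74) (nat_lit 5) (nat_lit 75) (nat_lit 5) (nat_lit 437) (nat_lit 408) (nat_lit 175)))) (XT.nd (nat_lit 156) (nat_lit 228) (nat_lit 0) (XT.nd (nat_lit 78) (nat_lit 228) (nat_lit 0) (XT.lf (nat_lit 0) (nat_lit 106812960183) (nat_lit 304) (nat_lit 93210703836) (nat_lit 76) (nat_lit 56237833484) (nat_lit 71) (nat_lit 5) (nat_lit 75) (nat_lit 5) (nat_lit 72) (nat_lit 5) (nat_lit 438) (nat_lit 408) (nat_lit 174)) (XT.lf (nat_lit 0) (nat_lit 52726432513) (nat_lit 228) (nat_lit 108123839899) (nat_lit 304) (nat_lit 103331696652) (nat_lit 68) (nat_lit 5) (nat_lit 71) (nat_lit 5) (nat_lit 72) (nat_lit 5) (nat_lit 439) (nat_lit 408) (nat_lit 173)))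 (XT.nd (nat_lit 78) (nat_lit 228) (nat_lit 0) (XT.lf (nat_lit 0) (nat_lit 209196337032) (nat_lit 228) (nat_lit 9971577099) (nat_lit 304) (nat_lit 53251626914) (nat_lit 68) (nat_lit 5) (nat_lit 71) (nat_lit 5) (nat_lit 72) (nat_lit 5) (nat_lit 440) (nat_lit 408) (nat_lit 172)) (XT.lf (nat_lit 0) (nat_lit 2322171204) (nat_lit 228) (nat_lit 186985409475) (nat_lit 76) (nat_lit 91613514147) (nat_lit 65) (nat_lit 5) (nat_lit 68) (nat_lit 5) (nat_lit 66) (nat_lit 5) (nat_lit 441) (nat_lit 408) (nat_lit 171))))) (XT.nd (nat_lit 234) (nat_lit 380) (nat_lit 0) (XT.nd (nat_lit 78) (nat_lit 380) (nat_lit 0) (XT.lf (nat_lit 0) (nat_lit 60136692688) (nat_lit 228) (nat_lit 29700854783) (nat_lit 76) (nat_lit 199903948116) (nat_lit 65) (nat_lit 5) (nat_lit 68) (nat_lit 5) (nat_lit 66) (nat_lit 5) (nat_lit 442) (nat_lit 408) (nat_lit 170)) (XT.nd (nat_lit 78) (nat_lit 152) (nat_lit 0) (XT.lf (nat_lit 0) (nat_lit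 123290340635) (nat_lit 304) (nat_lit 159231243858) (nat_lit 76) (nat_lit 16358911902) (nat_lit 62) (nat_lit 5) (nat_lit 66) (nat_lit 5) (nat_lit 63) (nat_lit 5) (nat_lit 443) (nat_lit 408) (nat_lit 169)) (XT.lf (nat_lit 0) (nat_lit 8848792610) (nat_lit 152) (nat_lit 182874930544) (nat_lit 228) (nat_lit 116646621510) (nat_lit 60) (nat_lit 5) (nat_lit 62) (nat_lit 5) (nat_lit 63) (nat_lit 5) (nat_lit 444) (nat_lit 408) (nat_lit 168)))) (XT.nd (nat_lit 156) (nat_lit 152) (nat_lit 0) (XT.nd (nat_lit 78) (nat_lit 228) (nat_lit 0) (XT.lf (nat_lit 0) (nat_lit 190860836517) (nat_lit 152) (nat_lit 75414505460) (nat_lit 228) (nat_lit 51924515035) (nat_lit 60) (nat_lit 5) (nat_lit 62) (nat_lit 5) (nat_lit 63) (nat_lit 5) (nat_lit 445) (nat_lit 408) (nat_lit 167)) (XT.lf (nat_lit 0) (nat_lit 16980914422) (nat_lit 228) (nat_lit 274106541712) (nat_lit 76) (nat_lit 37347852517) (nat_lit 57) (nat_lit 5)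 (nat_lit 60) (nat_lit 5) (nat_lit 58) (nat_lit 5) (nat_lit 446) (nat_lit 408) (nat_lit 166))) (XT.nd (nat_lit 78) (nat_lit 152) (nat_lit 0) (XT.lf (nat_lit 0) (nat_lit 91014728850) (nat_lit 228) (nat_lit 91696857632) (nat_lit 76) (nat_lit 156256979451) (nat_lit 57) (nat_lit 5) (nat_lit 60) (nat_lit 5) (nat_lit 58) (nat_lit 5) (nat_lit 447) (nat_lit 408) (nat_lit 165)) (XT.lf (nat_lit 0) (nat_lit 103134112052) (nat_lit 152) (nat_lit 67226251754) (nat_lit 228) (nat_lit 179587615803) (nat_lit 55) (nat_lit 5) (nat_lit 57) (nat_lit 5) (nat_lit 58) (nat_lit 5) (nat_lit 448) (nat_lit 408) (nat_lit 164))))))))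
noncomputable def xc230 : XT := (XT.nd (nat_lit 50310) (nat_lit 0) (nat_lit 3040) (XT.nd (nat_lit 1014) (nat_lit 684) (nat_lit 0) (XT.nd (nat_lit 468) (nat_lit 608) (nat_lit 0) (XT.nd (nat_lit 234) (nat_lit 304) (nat_lit 0) (XT.nd (nat_lit 78) (nat_lit 228) (nat_lit 0) (XT.lf (nat_lit 0) (nat_lit 256095199424) (nat_lit 228) (nat_lit 51377784640) (nat_lit 76) (nat_lit 53882283981) (nat_lit 55) (nat_lit 5) (nat_lit 58) (nat_lit 5) (nat_lit 56) (nat_lit 5) (nat_lit 449) (nat_lit 408) (nat_lit 163)) (XT.nd (nat_lit 78) (nat_lit 76) (nat_lit 0) (XT.lf (nat_lit 0) (nat_lit 157777778040) (nat_lit 152) (nat_lit 191904344018) (nat_lit 228) (nat_lit 23472531602) (nat_lit 53) (nat_lit 5) (nat_lit 55) (nat_lit 5) (nat_lit 56) (nat_lit 5) (nat_lit 450) (nat_lit 408) (nat_lit 162)) (XT.lf (nat_lit 0) (nat_lit 61291346721) (nat_lit 228) (nat_lit 7314364422) (nat_lit 76) (nat_lit 316845367346) (nat_lit 52)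 (nat_lit 5) (nat_lit 55) (nat_lit 5) (nat_lit 53) (nat_lit 5) (nat_lit 451) (nat_lit 408) (nat_lit 161)))) (XT.nd (nat_lit 78) (nat_lit 152) (nat_lit 0) (XT.lf (nat_lit 0) (nat_lit 153916169486) (nat_lit 228) (nat_lit 181450072437) (nat_lit 76) (nat_lit 62756263798) (nat_lit 50) (nat_lit 5) (nat_lit 53) (nat_lit 5) (nat_lit 51) (nat_lit 5) (nat_lit 452) (nat_lit 408) (nat_lit 160)) (XT.nd (nat_lit 78) (nat_lit 0) (nat_lit 0) (XT.lf (nat_lit 0) (nat_lit 40872536211) (nat_lit 152) (nat_lit 212188346026) (nat_lit 228) (nat_lit 158272189651) (nat_lit 48) (nat_lit 5) (nat_lit 50) (nat_lit 5) (nat_lit 51) (nat_lit 5) (nat_lit 453) (nat_lit 408) (nat_lit 159)) (XT.lf (nat_lit 0) (nat_lit 280610689972) (nat_lit 152) (nat_lit 79625014219) (nat_lit 228) (nat_lit 64814818510) (nat_lit 48) (nat_lit 5) (nat_lit 50) (nat_lit 5) (nat_lit 51) (nat_lit 5) (nat_lit 454) (nat_lit 408) (nat_lit 158))))) (XT.nd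 (nat_lit 234) (nat_lit 304) (nat_lit 0) (XT.nd (nat_lit 78) (nat_lit 152) (nat_lit 0) (XT.lf (nat_lit 0) (nat_lit 34701701924) (nat_lit 152) (nat_lit 344900771713) (nat_lit 76) (nat_lit 59702735964) (nat_lit 46) (nat_lit 5) (nat_lit 48) (nat_lit 5) (nat_lit 47) (nat_lit 5) (nat_lit 455) (nat_lit 408) (nat_lit 157)) (XT.nd (nat_lit 78) (nat_lit 152) (nat_lit 0) (XT.lf (nat_lit 0) (nat_lit 140807364728) (nat_lit 152) (nat_lit 106352862411) (nat_lit 76) (nat_lit 206869700855) (nat_lit 46) (nat_lit 5) (nat_lit 48) (nat_lit 5) (nat_lit 47) (nat_lit 5) (nat_lit 456) (nat_lit 408) (nat_lit 156)) (XT.lf (nat_lit 0) (nat_lit 148887663803) (nat_lit 152) (nat_lit 105655135556) (nat_lit 228) (nat_lit 214831858528) (nat_lit 44) (nat_lit 5) (nat_lit 46) (nat_lit 5) (nat_lit 47) (nat_lit 5) (nat_lit 457) (nat_lit 408) (nat_lit 155)))) (XT.nd (nat_lit 156) (nat_lit 152) (nat_lit 0) (XT.nd (nat_lit 78) (nat_lit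 152) (nat_lit 0) (XT.lf (nat_lit 0) (nat_lit 376465788180) (nat_lit 228) (nat_lit 65513843755) (nat_lit 76) (nat_lit 43381953229) (nat_lit 44) (nat_lit 5) (nat_lit 47) (nat_lit 5) (nat_lit 45) (nat_lit 4) (nat_lit 458) (nat_lit 408) (nat_lit 154)) (XT.lf (nat_lit 0) (nat_lit 7309138798) (nat_lit 152) (nat_lit 294913035260) (nat_lit 76) (nat_lit 199671516752) (nat_lit 42) (nat_lit 5) (nat_lit 44) (nat_lit 5) (nat_lit 43) (nat_lit 5) (nat_lit 459) (nat_lit 408) (nat_lit 153))) (XT.nd (nat_lit 78) (nat_lit 152) (nat_lit 0) (XT.lf (nat_lit 0) (nat_lit 126792344749) (nat_lit 152) (nat_lit 25626028491) (nat_lit 76) (nat_lit 366688387847) (nat_lit 42) (nat_lit 5) (nat_lit 44) (nat_lit 5) (nat_lit 43) (nat_lit 5) (nat_lit 460) (nat_lit 408) (nat_lit 152)) (XT.lf (nat_lit 0) (nat_lit 256540941784) (nat_lit 228) (nat_lit 271490290774) (nat_lit 76) (nat_lit 8934690791) (nat_lit 40) (nat_lit 5) (nat_lit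 43) (nat_lit 5) (nat_lit 41) (nat_lit 4) (nat_lit 461) (nat_lit 408) (nat_lit 151)))))) (XT.nd (nat_lit 546) (nat_lit 76) (nat_lit 0) (XT.nd (nat_lit 234) (nat_lit 304) (nat_lit 0) (XT.nd (nat_lit 78) (nat_lit 228) (nat_lit 0) (XT.lf (nat_lit 0) (nat_lit 14276775470) (nat_lit 76) (nat_lit 381662801596) (nat_lit 152) (nat_lit 159620336248) (nat_lit 39) (nat_lit 5) (nat_lit 40) (nat_lit 5) (nat_lit 41) (nat_lit 4) (nat_lit 462) (nat_lit 408) (nat_lit 150)) (XT.nd (nat_lit 78) (nat_lit 228) (nat_lit 0) (XT.lf (nat_lit 0) (nat_lit 323757622216) (nat_lit 76) (nat_lit 223148284777) (nat_lit 152) (nat_lit 27947807649) (nat_lit 39) (nat_lit 5) (nat_lit 40) (nat_lit 5) (nat_lit 41) (nat_lit 4) (nat_lit 463) (nat_lit 408) (nat_lit 149)) (XT.lf (nat_lit 0) (nat_lit 53593303639) (nat_lit 152) (nat_lit 54021174641) (nat_lit 228) (nat_lit 487369782298) (nat_lit 36) (nat_lit 5) (nat_lit 38) (nat_lit 5)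 (nat_lit 39) (nat_lit 5) (nat_lit 464) (nat_lit 408) (nat_lit 148)))) (XT.nd (nat_lit 156) (nat_lit 228) (nat_lit 0) (XT.nd (nat_lit 78) (nat_lit 76) (nat_lit 0) (XT.lf (nat_lit 0) (nat_lit 255266894032) (nat_lit 228) (nat_lit 236131179717) (nat_lit 76) (nat_lit 124387789773) (nat_lit 36) (nat_lit 5) (nat_lit 39) (nat_lit 5) (nat_lit 37) (nat_lit 4) (nat_lit 465) (nat_lit 408) (nat_lit 147)) (XT.lf (nat_lit 0) (nat_lit 86266980228) (nat_lit 76) (nat_lit 326267360912) (nat_lit 152) (nat_lit 224981584953) (nat_lit 35) (nat_lit 5) (nat_lit 36) (nat_lit 5) (nat_lit 37) (nat_lit 4) (nat_lit 466) (nat_lit 408) (nat_lit 146))) (XT.nd (nat_lit 78) (nat_lit 228) (nat_lit 0) (XT.lf (nat_lit 0) (nat_lit 432982895840) (nat_lit 76) (nat_lit 148681209768) (nat_lit 152) (nat_lit 78468438941) (nat_lit 35) (nat_lit 5) (nat_lit 36) (nat_lit 5) (nat_lit 37) (nat_lit 4) (nat_lit 467) (nat_lit 408) (nat_lit 145))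 (XT.lf (nat_lit 0) (nat_lit 75402902389) (nat_lit 228) (nat_lit 568689399977) (nat_lit 76) (nat_lit 39606611418) (nat_lit 32) (nat_lit 5) (nat_lit 35) (nat_lit 5) (nat_lit 33) (nat_lit 4) (nat_lit 468) (nat_lit 408) (nat_lit 144))))) (XT.nd (nat_lit 48438) (nat_lit 0) (nat_lit 6612) (XT.nd (nat_lit 78) (nat_lit 76) (nat_lit 0) (XT.lf (nat_lit 0) (nat_lit 240678057684) (nat_lit 228) (nat_lit 229875419345) (nat_lit 76) (nat_lit 237508441018) (nat_lit 32) (nat_lit 5) (nat_lit 35) (nat_lit 5) (nat_lit 33) (nat_lit 4) (nat_lit 469) (nat_lit 408) (nat_lit 143)) (XT.nd (nat_lit 78) (nat_lit 0) (nat_lit 0) (XT.lf (nat_lit 0) (nat_lit 130041307452) (nat_lit 76) (nat_lit 286205926008) (nat_lit 152) (nat_lit 317294325932) (nat_lit 31) (nat_lit 5) (nat_lit 32) (nat_lit 5) (nat_lit 33) (nat_lit 4) (nat_lit 470) (nat_lit 408) (nat_lit 142)) (XT.lf (nat_lit 0) (nat_lit 515934540648) (nat_lit 76) (nat_lit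 88553333183) (nat_lit 152) (nat_lit 155612658687) (nat_lit 31) (nat_lit 5) (nat_lit 32) (nat_lit 5) (nat_lit 33) (nat_lit 4) (nat_lit 471) (nat_lit 408) (nat_lit 141)))) (XT.nd (nat_lit 156) (nat_lit 0) (nat_lit 76) (XT.nd (nat_lit 78) (nat_lit 0) (nat_lit 0) (XT.lf (nat_lit 0) (nat_lit 16484046089) (nat_lit 836) (nat_lit 21220224613) (nat_lit 836) (nat_lit 21220224613) (nat_lit 118) (nat_lit 3) (nat_lit 129) (nat_lit 3) (nat_lit 129) (nat_lit 5) (nat_lit 409) (nat_lit 409) (nat_lit 202)) (XT.lf (nat_lit 76) (nat_lit 15306068214) (nat_lit 0) (nat_lit 18729793342) (nat_lit 836) (nat_lit 86747172975) (nat_lit 119) (nat_lit 5) (nat_lit 118) (nat_lit 3) (nat_lit 129) (nat_lit 5) (nat_lit 410) (nat_lit 409) (nat_lit 201))) (XT.nd (nat_lit 78) (nat_lit 0) (nat_lit 0) (XT.lf (nat_lit 0) (nat_lit 36523992383) (nat_lit 760) (nat_lit 47063189873) (nat_lit 836) (nat_lit 40208249880) (nat_lit 119) (nat_lit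 5) (nat_lit 129) (nat_lit 5) (nat_lit 130) (nat_lit 5) (nat_lit 411) (nat_lit 409) (nat_lit 200)) (XT.lf (nat_lit 76) (nat_lit 14425776148) (nat_lit 0) (nat_lit 25242745633) (nat_lit 836) (nat_lit 87263328392) (nat_lit 120) (nat_lit 5) (nat_lit 119) (nat_lit 5) (nat_lit 130) (nat_lit 5) (nat_lit 412) (nat_lit 409) (nat_lit 199))))))) (XT.nd (nat_lit 1014) (nat_lit 2356) (nat_lit 0) (XT.nd (nat_lit 468) (nat_lit 1368) (nat_lit 0) (XT.nd (nat_lit 234) (nat_lit 0) (nat_lit 76) (XT.nd (nat_lit 78) (nat_lit 0) (nat_lit 0) (XT.lf (nat_lit 0) (nat_lit 44342469753) (nat_lit 760) (nat_lit 50137722358) (nat_lit 836) (nat_lit 35676287542) (nat_lit 120) (nat_lit 5) (nat_lit 130) (nat_lit 5) (nat_lit 131) (nat_lit 5) (nat_lit 413) (nat_lit 409) (nat_lit 198)) (XT.nd (nat_lit 78) (nat_lit 0) (nat_lit 76) (XT.lf (nat_lit 76) (nat_lit 15428879583) (nat_lit 0) (nat_lit 34475683704) (nat_lit 836) (nat_lit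 83605055050) (nat_lit 121) (nat_lit 5) (nat_lit 120) (nat_lit 5) (nat_lit 131) (nat_lit 5) (nat_lit 414) (nat_lit 409) (nat_lit 197)) (XT.lf (nat_lit 0) (nat_lit 57052961612) (nat_lit 760) (nat_lit 51432999851) (nat_lit 836) (nat_lit 28479042619) (nat_lit 121) (nat_lit 5) (nat_lit 131) (nat_lit 5) (nat_lit 132) (nat_lit 5) (nat_lit 415) (nat_lit 409) (nat_lit 196)))) (XT.nd (nat_lit 78) (nat_lit 0) (nat_lit 76) (XT.lf (nat_lit 76) (nat_lit 18576335163) (nat_lit 0) (nat_lit 46837415454) (nat_lit 836) (nat_lit 75136660085) (nat_lit 122) (nat_lit 5) (nat_lit 121) (nat_lit 5) (nat_lit 132) (nat_lit 5) (nat_lit 416) (nat_lit 409) (nat_lit 195)) (XT.nd (nat_lit 78) (nat_lit 0) (nat_lit 0) (XT.lf (nat_lit 0) (nat_lit 75357046003) (nat_lit 760) (nat_lit 50693592738) (nat_lit 836) (nat_lit 18206225687) (nat_lit 122) (nat_lit 5) (nat_lit 132) (nat_lit 5) (nat_lit 133) (nat_lit 5) (nat_lit 417) (nat_lit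 409) (nat_lit 194)) (XT.lf (nat_lit 76) (nat_lit 24156057375) (nat_lit 0) (nat_lit 62786205889) (nat_lit 836) (nat_lit 61149139834) (nat_lit 123) (nat_lit 5) (nat_lit 122) (nat_lit 5) (nat_lit 133) (nat_lit 5) (nat_lit 418) (nat_lit 409) (nat_lit 193))))) (XT.nd (nat_lit 234) (nat_lit 836) (nat_lit 0) (XT.nd (nat_lit 78) (nat_lit 760) (nat_lit 0) (XT.lf (nat_lit 0) (nat_lit 100035984091) (nat_lit 760) (nat_lit 47637696067) (nat_lit 76) (nat_lit 4397526518) (nat_lit 123) (nat_lit 5) (nat_lit 133) (nat_lit 5) (nat_lit 124) (nat_lit 5) (nat_lit 419) (nat_lit 409) (nat_lit 192)) (XT.nd (nat_lit 78) (nat_lit 0) (nat_lit 0) (XT.lf (nat_lit 0) (nat_lit 32485105858) (nat_lit 760) (nat_lit 82835555328) (nat_lit 836) (nat_lit 40852525839) (nat_lit 113) (nat_lit 5) (nat_lit 123) (nat_lit 5) (nat_lit 124) (nat_lit 5) (nat_lit 420) (nat_lit 409) (nat_lit 191)) (XT.lf (nat_lit 0) (nat_lit 118267749523)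 (nat_lit 760) (nat_lit 13908401296) (nat_lit 836) (nat_lit 28263786738) (nat_lit 113) (nat_lit 5) (nat_lit 123) (nat_lit 5) (nat_lit 124) (nat_lit 5) (nat_lit 421) (nat_lit 409) (nat_lit 190)))) (XT.nd (nat_lit 156) (nat_lit 380) (nat_lit 0) (XT.nd (nat_lit 78) (nat_lit 76) (nat_lit 0) (XT.lf (nat_lit 0) (nat_lit 43911980376) (nat_lit 380) (nat_lit 107560648346) (nat_lit 456) (nat_lit 13367486296) (nat_lit 108) (nat_lit 5) (nat_lit 113) (nat_lit 5) (nat_lit 114) (nat_lit 5) (nat_lit 422) (nat_lit 409) (nat_lit 189)) (XT.lf (nat_lit 0) (nat_lit 3154603577) (nat_lit 456) (nat_lit 33935499188) (nat_lit 76) (nat_lit 132320736552) (nat_lit 107) (nat_lit 5) (nat_lit 113) (nat_lit 5) (nat_lit 108) (nat_lit 5) (nat_lit 423) (nat_lit 409) (nat_lit 188))) (XT.nd (nat_lit 78) (nat_lit 0) (nat_lit 0) (XT.lf (nat_lit 0) (nat_lit 21570660826) (nat_lit 456) (nat_lit 115669583113) (nat_lit 76) (nat_lit 36883044111)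 (nat_lit 102) (nat_lit 5) (nat_lit 108) (nat_lit 5) (nat_lit 103) (nat_lit 5) (nat_lit 424) (nat_lit 409) (nat_lit 187)) (XT.lf (nat_lit 0) (nat_lit 42099528311) (nat_lit 456) (nat_lit 23019719358) (nat_lit 76) (nat_lit 113892511260) (nat_lit 102) (nat_lit 5) (nat_lit 108) (nat_lit 5) (nat_lit 103) (nat_lit 5) (nat_lit 425) (nat_lit 409) (nat_lit 186)))))) (XT.nd (nat_lit 546) (nat_lit 1064) (nat_lit 0) (XT.nd (nat_lit 234) (nat_lit 608) (nat_lit 0) (XT.nd (nat_lit 78) (nat_lit 304) (nat_lit 0) (XT.lf (nat_lit 0) (nat_lit 65037719076) (nat_lit 456) (nat_lit 107552099611) (nat_lit 76) (nat_lit 11485690744) (nat_lit 97) (nat_lit 5) (nat_lit 103) (nat_lit 5) (nat_lit 98) (nat_lit 5) (nat_lit 426) (nat_lit 409) (nat_lit 185)) (XT.nd (nat_lit 78) (nat_lit 304) (nat_lit 0) (XT.lf (nat_lit 0) (nat_lit 90586438773) (nat_lit 456) (nat_lit 8604155950) (nat_lit 76) (nat_lit 90128671836) (nat_lit 97)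 (nat_lit 5) (nat_lit 103) (nat_lit 5) (nat_lit 98) (nat_lit 5) (nat_lit 427) (nat_lit 409) (nat_lit 184)) (XT.lf (nat_lit 0) (nat_lit 98441775051) (nat_lit 304) (nat_lit 20507628225) (nat_lit 380) (nat_lit 75798967893) (nat_lit 93) (nat_lit 5) (nat_lit 97) (nat_lit 5) (nat_lit 98) (nat_lit 5) (nat_lit 428) (nat_lit 409) (nat_lit 183)))) (XT.nd (nat_lit 156) (nat_lit 304) (nat_lit 0) (XT.nd (nat_lit 78) (nat_lit 0) (nat_lit 0) (XT.lf (nat_lit 0) (nat_lit 10046363157) (nat_lit 304) (nat_lit 139958673058) (nat_lit 380) (nat_lit 50380168846) (nat_lit 89) (nat_lit 5) (nat_lit 93) (nat_lit 5) (nat_lit 94) (nat_lit 5) (nat_lit 429) (nat_lit 409) (nat_lit 182)) (XT.lf (nat_lit 0) (nat_lit 124713048495) (nat_lit 304) (nat_lit 59862034249) (nat_lit 380) (nat_lit 21630716368) (nat_lit 89) (nat_lit 5) (nat_lit 93) (nat_lit 5) (nat_lit 94) (nat_lit 5) (nat_lit 430) (nat_lit 409) (nat_lit 181))) (XT.nd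 (nat_lit 78) (nat_lit 0) (nat_lit 0) (XT.lf (nat_lit 0) (nat_lit 9198301826) (nat_lit 304) (nat_lit 178931831808) (nat_lit 76) (nat_lit 24134812706) (nat_lit 85) (nat_lit 5) (nat_lit 89) (nat_lit 5) (nat_lit 86) (nat_lit 5) (nat_lit 431) (nat_lit 409) (nat_lit 180)) (XT.lf (nat_lit 0) (nat_lit 43225798431) (nat_lit 304) (nat_lit 63187262216) (nat_lit 76) (nat_lit 112077062171) (nat_lit 85) (nat_lit 5) (nat_lit 89) (nat_lit 5) (nat_lit 86) (nat_lit 5) (nat_lit 432) (nat_lit 409) (nat_lit 179))))) (XT.nd (nat_lit 234) (nat_lit 532) (nat_lit 0) (XT.nd (nat_lit 78) (nat_lit 228) (nat_lit 0) (XT.lf (nat_lit 0) (nat_lit 60273509495) (nat_lit 304) (nat_lit 19622077360) (nat_lit 380) (nat_lit 145083925464) (nat_lit 81) (nat_lit 5) (nat_lit 85) (nat_lit 5) (nat_lit 86) (nat_lit 5) (nat_lit 433) (nat_lit 409) (nat_lit 178)) (XT.nd (nat_lit 78) (nat_lit 228) (nat_lit 0) (XT.lf (nat_lit 0) (nat_lit 120602843131)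 (nat_lit 380) (nat_lit 40772975205) (nat_lit 76) (nat_lit 70307354084) (nat_lit 81) (nat_lit 5) (nat_lit 86) (nat_lit 5) (nat_lit 82) (nat_lit 5) (nat_lit 434) (nat_lit 409) (nat_lit 177)) (XT.lf (nat_lit 0) (nat_lit 91978775153) (nat_lit 228) (nat_lit 73124294011) (nat_lit 304) (nat_lit 73531066061) (nat_lit 78) (nat_lit 5) (nat_lit 81) (nat_lit 5) (nat_lit 82) (nat_lit 5) (nat_lit 435) (nat_lit 409) (nat_lit 176)))) (XT.nd (nat_lit 156) (nat_lit 228) (nat_lit 0) (XT.nd (nat_lit 78) (nat_lit 304) (nat_lit 0) (XT.lf (nat_lit 0) (nat_lit 212835097104) (nat_lit 304) (nat_lit 13431005960) (nat_lit 76) (nat_lit 19616203619) (nat_lit 78) (nat_lit 5) (nat_lit 82) (nat_lit 5) (nat_lit 79) (nat_lit 5) (nat_lit 436) (nat_lit 409) (nat_lit 175)) (XT.lf (nat_lit 0) (nat_lit 12429709027) (nat_lit 304) (nat_lit 124135241537) (nat_lit 76) (nat_lit 116756966915) (nat_lit 74) (nat_lit 5) (nat_lit 78) (nat_lit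 5) (nat_lit 75) (nat_lit 5) (nat_lit 437) (nat_lit 409) (nat_lit 174))) (XT.nd (nat_lit 78) (nat_lit 0) (nat_lit 0) (XT.lf (nat_lit 0) (nat_lit 18320125565) (nat_lit 228) (nat_lit 41266858880) (nat_lit 304) (nat_lit 201493580839) (nat_lit 71) (nat_lit 5) (nat_lit 74) (nat_lit 5) (nat_lit 75) (nat_lit 5) (nat_lit 438) (nat_lit 409) (nat_lit 173)) (XT.lf (nat_lit 0) (nat_lit 112156748179) (nat_lit 304) (nat_lit 97866659803) (nat_lit 76) (nat_lit 59051006305) (nat_lit 71) (nat_lit 5) (nat_lit 75) (nat_lit 5) (nat_lit 72) (nat_lit 5) (nat_lit 439) (nat_lit 409) (nat_lit 172))))))))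
noncomputable def xc231 : XT := (XT.nd (nat_lit 2106) (nat_lit 380) (nat_lit 0) (XT.nd (nat_lit 1014) (nat_lit 1216) (nat_lit 0) (XT.nd (nat_lit 468) (nat_lit 608) (nat_lit 0) (XT.nd (nat_lit 234) (nat_lit 380) (nat_lit 0) (XT.nd (nat_lit 78) (nat_lit 228) (nat_lit 0) (XT.lf (nat_lit 0) (nat_lit 55367259505) (nat_lit 228) (nat_lit 113528587333) (nat_lit 304) (nat_lit 108495066600) (nat_lit 68) (nat_lit 5) (nat_lit 71) (nat_lit 5) (nat_lit 72) (nat_lit 5) (nat_lit 440) (nat_lit 409) (nat_lit 171)) (XT.nd (nat_lit 78) (nat_lit 228) (nat_lit 0) (XT.lf (nat_lit 0) (nat_lit 219660444708) (nat_lit 228) (nat_lit 10468780182) (nat_lit 304) (nat_lit 55911146465) (nat_lit 68) (nat_lit 5) (nat_lit 71) (nat_lit 5) (nat_lit 72) (nat_lit 5) (nat_lit 441) (nat_lit 409) (nat_lit 170)) (XT.lf (nat_lit 0) (nat_lit 2441192169) (nat_lit 228) (nat_lit 196330237895) (nat_lit 76) (nat_lit 96195572987) (nat_lit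 65) (nat_lit 5) (nat_lit 68) (nat_lit 5) (nat_lit 66) (nat_lit 5) (nat_lit 442) (nat_lit 409) (nat_lit 169)))) (XT.nd (nat_lit 78) (nat_lit 380) (nat_lit 0) (XT.lf (nat_lit 0) (nat_lit 63146301041) (nat_lit 228) (nat_lit 31181666994) (nat_lit 76) (nat_lit 209900462791) (nat_lit 65) (nat_lit 5) (nat_lit 68) (nat_lit 5) (nat_lit 66) (nat_lit 5) (nat_lit 443) (nat_lit 409) (nat_lit 168)) (XT.nd (nat_lit 78) (nat_lit 152) (nat_lit 0) (XT.lf (nat_lit 0) (nat_lit 129457587016) (nat_lit 304) (nat_lit 167188530339) (nat_lit 76) (nat_lit 17178266579) (nat_lit 62) (nat_lit 5) (nat_lit 66) (nat_lit 5) (nat_lit 63) (nat_lit 5) (nat_lit 444) (nat_lit 409) (nat_lit 167)) (XT.lf (nat_lit 0) (nat_lit 9295438989) (nat_lit 152) (nat_lit 192017135382) (nat_lit 228) (nat_lit 122476153498) (nat_lit 60) (nat_lit 5) (nat_lit 62) (nat_lit 5) (nat_lit 63) (nat_lit 5) (nat_lit 445) (nat_lit 409) (nat_lit 166)))))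 (XT.nd (nat_lit 234) (nat_lit 380) (nat_lit 0) (XT.nd (nat_lit 78) (nat_lit 228) (nat_lit 0) (XT.lf (nat_lit 0) (nat_lit 200407884771) (nat_lit 152) (nat_lit 79183762457) (nat_lit 228) (nat_lit 54518074990) (nat_lit 60) (nat_lit 5) (nat_lit 62) (nat_lit 5) (nat_lit 63) (nat_lit 5) (nat_lit 446) (nat_lit 409) (nat_lit 165)) (XT.nd (nat_lit 78) (nat_lit 0) (nat_lit 0) (XT.lf (nat_lit 0) (nat_lit 17832504115) (nat_lit 228) (nat_lit 287807739173) (nat_lit 76) (nat_lit 39216702928) (nat_lit 57) (nat_lit 5) (nat_lit 60) (nat_lit 5) (nat_lit 58) (nat_lit 5) (nat_lit 447) (nat_lit 409) (nat_lit 164)) (XT.lf (nat_lit 0) (nat_lit 95567888123) (nat_lit 228) (nat_lit 96277767537) (nat_lit 76) (nat_lit 164071216790) (nat_lit 57) (nat_lit 5) (nat_lit 60) (nat_lit 5) (nat_lit 58) (nat_lit 5) (nat_lit 448) (nat_lit 409) (nat_lit 163)))) (XT.nd (nat_lit 156) (nat_lit 228) (nat_lit 0) (XT.nd (nat_lit 78) (nat_lit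 0) (nat_lit 0) (XT.lf (nat_lit 0) (nat_lit 108294687196) (nat_lit 152) (nat_lit 70586062673) (nat_lit 228) (nat_lit 188564509720) (nat_lit 55) (nat_lit 5) (nat_lit 57) (nat_lit 5) (nat_lit 58) (nat_lit 5) (nat_lit 449) (nat_lit 409) (nat_lit 162)) (XT.lf (nat_lit 0) (nat_lit 268902236840) (nat_lit 228) (nat_lit 53942897589) (nat_lit 76) (nat_lit 56577782567) (nat_lit 55) (nat_lit 5) (nat_lit 58) (nat_lit 5) (nat_lit 56) (nat_lit 5) (nat_lit 450) (nat_lit 409) (nat_lit 161))) (XT.nd (nat_lit 78) (nat_lit 76) (nat_lit 0) (XT.lf (nat_lit 0) (nat_lit 165670382317) (nat_lit 152) (nat_lit 201498072847) (nat_lit 228) (nat_lit 24643819278) (nat_lit 53) (nat_lit 5) (nat_lit 55) (nat_lit 5) (nat_lit 56) (nat_lit 5) (nat_lit 451) (nat_lit 409) (nat_lit 160)) (XT.lf (nat_lit 0) (nat_lit 64358070290) (nat_lit 228) (nat_lit 7676472396) (nat_lit 76) (nat_lit 332688981416) (nat_lit 52) (nat_lit 5) (nat_lit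 55) (nat_lit 5) (nat_lit 53) (nat_lit 5) (nat_lit 452) (nat_lit 409) (nat_lit 159)))))) (XT.nd (nat_lit 546) (nat_lit 608) (nat_lit 0) (XT.nd (nat_lit 234) (nat_lit 304) (nat_lit 0) (XT.nd (nat_lit 78) (nat_lit 152) (nat_lit 0) (XT.lf (nat_lit 0) (nat_lit 161614109502) (nat_lit 228) (nat_lit 190518940645) (nat_lit 76) (nat_lit 65895473808) (nat_lit 50) (nat_lit 5) (nat_lit 53) (nat_lit 5) (nat_lit 51) (nat_lit 5) (nat_lit 453) (nat_lit 409) (nat_lit 158)) (XT.nd (nat_lit 78) (nat_lit 0) (nat_lit 0) (XT.lf (nat_lit 0) (nat_lit 42919739800) (nat_lit 152) (nat_lit 222796272432) (nat_lit 228) (nat_lit 166183608503) (nat_lit 48) (nat_lit 5) (nat_lit 50) (nat_lit 5) (nat_lit 51) (nat_lit 5) (nat_lit 454) (nat_lit 409) (nat_lit 157)) (XT.lf (nat_lit 0) (nat_lit 294644630927) (nat_lit 152) (nat_lit 83604845029) (nat_lit 228) (nat_lit 68053473121) (nat_lit 48) (nat_lit 5) (nat_lit 50) (nat_lit 5)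 (nat_lit 51) (nat_lit 5) (nat_lit 455) (nat_lit 409) (nat_lit 156)))) (XT.nd (nat_lit 156) (nat_lit 152) (nat_lit 0) (XT.nd (nat_lit 78) (nat_lit 0) (nat_lit 0) (XT.lf (nat_lit 0) (nat_lit 36438786246) (nat_lit 152) (nat_lit 362142315952) (nat_lit 76) (nat_lit 62689267531) (nat_lit 46) (nat_lit 5) (nat_lit 48) (nat_lit 5) (nat_lit 47) (nat_lit 5) (nat_lit 456) (nat_lit 409) (nat_lit 155)) (XT.lf (nat_lit 0) (nat_lit 147849636989) (nat_lit 152) (nat_lit 111667177583) (nat_lit 76) (nat_lit 217214514249) (nat_lit 46) (nat_lit 5) (nat_lit 48) (nat_lit 5) (nat_lit 47) (nat_lit 5) (nat_lit 457) (nat_lit 409) (nat_lit 154))) (XT.nd (nat_lit 78) (nat_lit 0) (nat_lit 0) (XT.lf (nat_lit 0) (nat_lit 156335321266) (nat_lit 152) (nat_lit 110936482539) (nat_lit 228) (nat_lit 225571493398) (nat_lit 44) (nat_lit 5) (nat_lit 46) (nat_lit 5) (nat_lit 47) (nat_lit 5) (nat_lit 458) (nat_lit 409) (nat_lit 153))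 (XT.lf (nat_lit 0) (nat_lit 395290874244) (nat_lit 228) (nat_lit 68786349428) (nat_lit 76) (nat_lit 45552350579) (nat_lit 44) (nat_lit 5) (nat_lit 47) (nat_lit 5) (nat_lit 45) (nat_lit 4) (nat_lit 459) (nat_lit 409) (nat_lit 152))))) (XT.nd (nat_lit 234) (nat_lit 304) (nat_lit 0) (XT.nd (nat_lit 78) (nat_lit 152) (nat_lit 0) (XT.lf (nat_lit 0) (nat_lit 7676384951) (nat_lit 152) (nat_lit 309655492437) (nat_lit 76) (nat_lit 209656408195) (nat_lit 42) (nat_lit 5) (nat_lit 44) (nat_lit 5) (nat_lit 43) (nat_lit 5) (nat_lit 460) (nat_lit 409) (nat_lit 151)) (XT.nd (nat_lit 78) (nat_lit 152) (nat_lit 0) (XT.lf (nat_lit 0) (nat_lit 133133665999) (nat_lit 152) (nat_lit 26904287453) (nat_lit 76) (nat_lit 385024060197) (nat_lit 42) (nat_lit 5) (nat_lit 44) (nat_lit 5) (nat_lit 43) (nat_lit 5) (nat_lit 461) (nat_lit 409) (nat_lit 150)) (XT.lf (nat_lit 0) (nat_lit 269369679145) (nat_lit 228) (nat_lit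 285061748831) (nat_lit 76) (nat_lit 9382706748) (nat_lit 40) (nat_lit 5) (nat_lit 43) (nat_lit 5) (nat_lit 41) (nat_lit 4) (nat_lit 462) (nat_lit 409) (nat_lit 149)))) (XT.nd (nat_lit 156) (nat_lit 228) (nat_lit 0) (XT.nd (nat_lit 78) (nat_lit 0) (nat_lit 0) (XT.lf (nat_lit 0) (nat_lit 14993621427) (nat_lit 76) (nat_lit 400744591226) (nat_lit 152) (nat_lit 167599613225) (nat_lit 39) (nat_lit 5) (nat_lit 40) (nat_lit 5) (nat_lit 41) (nat_lit 4) (nat_lit 463) (nat_lit 409) (nat_lit 148)) (XT.lf (nat_lit 0) (nat_lit 339948367311) (nat_lit 76) (nat_lit 234304412873) (nat_lit 152) (nat_lit 29343541046) (nat_lit 39) (nat_lit 5) (nat_lit 40) (nat_lit 5) (nat_lit 41) (nat_lit 4) (nat_lit 464) (nat_lit 409) (nat_lit 147))) (XT.nd (nat_lit 78) (nat_lit 0) (nat_lit 0) (XT.lf (nat_lit 0) (nat_lit 56275839026) (nat_lit 152) (nat_lit 56720935553) (nat_lit 228) (nat_lit 511736620179) (nat_lit 36) (nat_lit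 5) (nat_lit 38) (nat_lit 5) (nat_lit 39) (nat_lit 5) (nat_lit 465) (nat_lit 409) (nat_lit 146)) (XT.lf (nat_lit 0) (nat_lit 268031755541) (nat_lit 228) (nat_lit 247934949378) (nat_lit 76) (nat_lit 130608375721) (nat_lit 36) (nat_lit 5) (nat_lit 39) (nat_lit 5) (nat_lit 37) (nat_lit 4) (nat_lit 466) (nat_lit 409) (nat_lit 145))))))) (XT.nd (nat_lit 49374) (nat_lit 0) (nat_lit 4104) (XT.nd (nat_lit 48828) (nat_lit 0) (nat_lit 6688) (XT.nd (nat_lit 234) (nat_lit 76) (nat_lit 0) (XT.nd (nat_lit 78) (nat_lit 228) (nat_lit 0) (XT.lf (nat_lit 0) (nat_lit 90583073575) (nat_lit 76) (nat_lit 342579472047) (nat_lit 152) (nat_lit 236229102197) (nat_lit 35) (nat_lit 5) (nat_lit 36) (nat_lit 5) (nat_lit 37) (nat_lit 4) (nat_lit 467) (nat_lit 409) (nat_lit 144)) (XT.nd (nat_lit 78) (nat_lit 228) (nat_lit 0) (XT.lf (nat_lit 0) (nat_lit 454634654285) (nat_lit 76) (nat_lit 156114073199) (nat_lit 152) (nat_lit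 82390373265) (nat_lit 35) (nat_lit 5) (nat_lit 36) (nat_lit 5) (nat_lit 37) (nat_lit 4) (nat_lit 468) (nat_lit 409) (nat_lit 143)) (XT.lf (nat_lit 0) (nat_lit 79174478662) (nat_lit 228) (nat_lit 597121199485) (nat_lit 76) (nat_lit 41588109591) (nat_lit 32) (nat_lit 5) (nat_lit 35) (nat_lit 5) (nat_lit 33) (nat_lit 4) (nat_lit 469) (nat_lit 409) (nat_lit 142)))) (XT.nd (nat_lit 48438) (nat_lit 0) (nat_lit 6612) (XT.nd (nat_lit 78) (nat_lit 76) (nat_lit 0) (XT.lf (nat_lit 0) (nat_lit 252713323571) (nat_lit 228) (nat_lit 241366646987) (nat_lit 76) (nat_lit 249384975070) (nat_lit 32) (nat_lit 5) (nat_lit 35) (nat_lit 5) (nat_lit 33) (nat_lit 4) (nat_lit 470) (nat_lit 409) (nat_lit 141)) (XT.lf (nat_lit 0) (nat_lit 136545875128) (nat_lit 76) (nat_lit 300515057170) (nat_lit 152) (nat_lit 333157638041) (nat_lit 31) (nat_lit 5) (nat_lit 32) (nat_lit 5) (nat_lit 33) (nat_lit 4) (nat_lit 471) (nat_lit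 409) (nat_lit 140))) (XT.nd (nat_lit 78) (nat_lit 0) (nat_lit 0) (XT.lf (nat_lit 0) (nat_lit 17312773083) (nat_lit 836) (nat_lit 22278859144) (nat_lit 836) (nat_lit 22278859144) (nat_lit 118) (nat_lit 3) (nat_lit 129) (nat_lit 3) (nat_lit 129) (nat_lit 5) (nat_lit 410) (nat_lit 410) (nat_lit 200)) (XT.lf (nat_lit 76) (nat_lit 16076048356) (nat_lit 0) (nat_lit 19670297751) (nat_lit 836) (nat_lit 91075400863) (nat_lit 119) (nat_lit 5) (nat_lit 118) (nat_lit 3) (nat_lit 129) (nat_lit 5) (nat_lit 411) (nat_lit 410) (nat_lit 199))))) (XT.nd (nat_lit 234) (nat_lit 0) (nat_lit 76) (XT.nd (nat_lit 78) (nat_lit 0) (nat_lit 0) (XT.lf (nat_lit 0) (nat_lit 38358409899) (nat_lit 760) (nat_lit 49411417271) (nat_lit 836) (nat_lit 42214961188) (nat_lit 119) (nat_lit 5) (nat_lit 129) (nat_lit 5) (nat_lit 130) (nat_lit 5) (nat_lit 412) (nat_lit 410) (nat_lit 198)) (XT.nd (nat_lit 78) (nat_lit 0) (nat_lit 76)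 (XT.lf (nat_lit 76) (nat_lit 15151917501) (nat_lit 0) (nat_lit 26507932700) (nat_lit 836) (nat_lit 91618193089) (nat_lit 120) (nat_lit 5) (nat_lit 119) (nat_lit 5) (nat_lit 130) (nat_lit 5) (nat_lit 413) (nat_lit 410) (nat_lit 197)) (XT.lf (nat_lit 0) (nat_lit 46567073922) (nat_lit 760) (nat_lit 52639561282) (nat_lit 836) (nat_lit 37457290326) (nat_lit 120) (nat_lit 5) (nat_lit 130) (nat_lit 5) (nat_lit 131) (nat_lit 5) (nat_lit 414) (nat_lit 410) (nat_lit 196)))) (XT.nd (nat_lit 156) (nat_lit 0) (nat_lit 76) (XT.nd (nat_lit 78) (nat_lit 0) (nat_lit 76) (XT.lf (nat_lit 76) (nat_lit 16205289350) (nat_lit 0) (nat_lit 36201704090) (nat_lit 836) (nat_lit 87777741837) (nat_lit 121) (nat_lit 5) (nat_lit 120) (nat_lit 5) (nat_lit 131) (nat_lit 5) (nat_lit 415) (nat_lit 410) (nat_lit 195)) (XT.lf (nat_lit 0) (nat_lit 59912435478) (nat_lit 760) (nat_lit 53999540627) (nat_lit 836) (nat_lit 29900933199)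 (nat_lit 121) (nat_lit 5) (nat_lit 131) (nat_lit 5) (nat_lit 132) (nat_lit 5) (nat_lit 416) (nat_lit 410) (nat_lit 194))) (XT.nd (nat_lit 78) (nat_lit 0) (nat_lit 76) (XT.lf (nat_lit 76) (nat_lit 19510178732) (nat_lit 0) (nat_lit 49180838647) (nat_lit 836) (nat_lit 78886581380) (nat_lit 122) (nat_lit 5) (nat_lit 121) (nat_lit 5) (nat_lit 132) (nat_lit 5) (nat_lit 417) (nat_lit 410) (nat_lit 193)) (XT.lf (nat_lit 0) (nat_lit 79131141154) (nat_lit 760) (nat_lit 53223145206) (nat_lit 836) (nat_lit 19115105798) (nat_lit 122) (nat_lit 5) (nat_lit 132) (nat_lit 5) (nat_lit 133) (nat_lit 5) (nat_lit 418) (nat_lit 410) (nat_lit 192)))))) (XT.nd (nat_lit 546) (nat_lit 1292) (nat_lit 0) (XT.nd (nat_lit 234) (nat_lit 836) (nat_lit 0) (XT.nd (nat_lit 78) (nat_lit 684) (nat_lit 0) (XT.lf (nat_lit 76) (nat_lit 25368904717) (nat_lit 0) (nat_lit 65926496041) (nat_lit 836) (nat_lit 64200268089) (nat_lit 123)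 (nat_lit 5) (nat_lit 122) (nat_lit 5) (nat_lit 133) (nat_lit 5) (nat_lit 419) (nat_lit 410) (nat_lit 191)) (XT.nd (nat_lit 78) (nat_lit 760) (nat_lit 0) (XT.lf (nat_lit 0) (nat_lit 105043506183) (nat_lit 760) (nat_lit 50014472130) (nat_lit 76) (nat_lit 4616499515) (nat_lit 123) (nat_lit 5) (nat_lit 133) (nat_lit 5) (nat_lit 124) (nat_lit 5) (nat_lit 420) (nat_lit 410) (nat_lit 190)) (XT.lf (nat_lit 0) (nat_lit 34114387493) (nat_lit 760) (nat_lit 86977835597) (nat_lit 836) (nat_lit 42889343950) (nat_lit 113) (nat_lit 5) (nat_lit 123) (nat_lit 5) (nat_lit 124) (nat_lit 5) (nat_lit 421) (nat_lit 410) (nat_lit 189)))) (XT.nd (nat_lit 156) (nat_lit 456) (nat_lit 0) (XT.nd (nat_lit 78) (nat_lit 380) (nat_lit 0) (XT.lf (nat_lit 0) (nat_lit 124185923991) (nat_lit 760) (nat_lit 14604299935) (nat_lit 836) (nat_lit 29671444475) (nat_lit 113) (nat_lit 5) (nat_lit 123) (nat_lit 5) (nat_lit 124) (nat_lit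 5) (nat_lit 422) (nat_lit 410) (nat_lit 188)) (XT.lf (nat_lit 0) (nat_lit 46112558273) (nat_lit 380) (nat_lit 112938787329) (nat_lit 456) (nat_lit 14030518272) (nat_lit 108) (nat_lit 5) (nat_lit 113) (nat_lit 5) (nat_lit 114) (nat_lit 5) (nat_lit 423) (nat_lit 410) (nat_lit 187))) (XT.nd (nat_lit 78) (nat_lit 380) (nat_lit 0) (XT.lf (nat_lit 0) (nat_lit 3317258852) (nat_lit 456) (nat_lit 35627367132) (nat_lit 76) (nat_lit 138936506662) (nat_lit 107) (nat_lit 5) (nat_lit 113) (nat_lit 5) (nat_lit 108) (nat_lit 5) (nat_lit 424) (nat_lit 410) (nat_lit 186)) (XT.lf (nat_lit 0) (nat_lit 22653960779) (nat_lit 456) (nat_lit 121447994802) (nat_lit 76) (nat_lit 38727256259) (nat_lit 102) (nat_lit 5) (nat_lit 108) (nat_lit 5) (nat_lit 103) (nat_lit 5) (nat_lit 425) (nat_lit 410) (nat_lit 185))))) (XT.nd (nat_lit 234) (nat_lit 912) (nat_lit 0) (XT.nd (nat_lit 78) (nat_lit 380) (nat_lit 0) (XT.lf (nat_lit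 0) (nat_lit 44209044643) (nat_lit 456) (nat_lit 24165879167) (nat_lit 76) (nat_lit 119587193911) (nat_lit 102) (nat_lit 5) (nat_lit 108) (nat_lit 5) (nat_lit 103) (nat_lit 5) (nat_lit 426) (nat_lit 410) (nat_lit 184)) (XT.nd (nat_lit 78) (nat_lit 0) (nat_lit 0) (XT.lf (nat_lit 0) (nat_lit 68294008366) (nat_lit 456) (nat_lit 112924739795) (nat_lit 76) (nat_lit 12060314518) (nat_lit 97) (nat_lit 5) (nat_lit 103) (nat_lit 5) (nat_lit 98) (nat_lit 5) (nat_lit 427) (nat_lit 410) (nat_lit 183)) (XT.lf (nat_lit 0) (nat_lit 95119954364) (nat_lit 456) (nat_lit 9029635370) (nat_lit 76) (nat_lit 94635428511) (nat_lit 97) (nat_lit 5) (nat_lit 103) (nat_lit 5) (nat_lit 98) (nat_lit 5) (nat_lit 428) (nat_lit 410) (nat_lit 182)))) (XT.nd (nat_lit 156) (nat_lit 304) (nat_lit 0) (XT.nd (nat_lit 78) (nat_lit 304) (nat_lit 0) (XT.lf (nat_lit 0) (nat_lit 103368515916) (nat_lit 304) (nat_lit 21532424110) (nat_lit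 380) (nat_lit 79584644505) (nat_lit 93) (nat_lit 5) (nat_lit 97) (nat_lit 5) (nat_lit 98) (nat_lit 5) (nat_lit 429) (nat_lit 410) (nat_lit 181)) (XT.lf (nat_lit 0) (nat_lit 10553451285) (nat_lit 304) (nat_lit 146955792861) (nat_lit 380) (nat_lit 52895021586) (nat_lit 89) (nat_lit 5) (nat_lit 93) (nat_lit 5) (nat_lit 94) (nat_lit 5) (nat_lit 430) (nat_lit 410) (nat_lit 180))) (XT.nd (nat_lit 78) (nat_lit 304) (nat_lit 0) (XT.lf (nat_lit 0) (nat_lit 130953243749) (nat_lit 304) (nat_lit 62854360866) (nat_lit 380) (nat_lit 22708294375) (nat_lit 89) (nat_lit 5) (nat_lit 93) (nat_lit 5) (nat_lit 94) (nat_lit 5) (nat_lit 431) (nat_lit 410) (nat_lit 179)) (XT.lf (nat_lit 0) (nat_lit 9661951038) (nat_lit 304) (nat_lit 187873653733) (nat_lit 76) (nat_lit 25342400646) (nat_lit 85) (nat_lit 5) (nat_lit 89) (nat_lit 5) (nat_lit 86) (nat_lit 5) (nat_lit 432) (nat_lit 410) (nat_lit 178))))))))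
noncomputable def xc232 : XT := (XT.nd (nat_lit 2106) (nat_lit 912) (nat_lit 0) (XT.nd (nat_lit 1014) (nat_lit 1368) (nat_lit 0) (XT.nd (nat_lit 468) (nat_lit 912) (nat_lit 0) (XT.nd (nat_lit 234) (nat_lit 532) (nat_lit 0) (XT.nd (nat_lit 78) (nat_lit 304) (nat_lit 0) (XT.lf (nat_lit 0) (nat_lit 45390644658) (nat_lit 304) (nat_lit 66342082788) (nat_lit 76) (nat_lit 117681722235) (nat_lit 85) (nat_lit 5) (nat_lit 89) (nat_lit 5) (nat_lit 86) (nat_lit 5) (nat_lit 433) (nat_lit 410) (nat_lit 177)) (XT.nd (nat_lit 78) (nat_lit 0) (nat_lit 0) (XT.lf (nat_lit 0) (nat_lit 63291654241) (nat_lit 304) (nat_lit 20602168691) (nat_lit 380) (nat_lit 152334490772) (nat_lit 81) (nat_lit 5) (nat_lit 85) (nat_lit 5) (nat_lit 86) (nat_lit 5) (nat_lit 434) (nat_lit 410) (nat_lit 176)) (XT.lf (nat_lit 0) (nat_lit 126636292472) (nat_lit 380) (nat_lit 42807216640) (nat_lit 76) (nat_lit 73823655244) (nat_lit 81)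 (nat_lit 5) (nat_lit 86) (nat_lit 5) (nat_lit 82) (nat_lit 5) (nat_lit 435) (nat_lit 410) (nat_lit 175)))) (XT.nd (nat_lit 78) (nat_lit 304) (nat_lit 0) (XT.lf (nat_lit 0) (nat_lit 96582050150) (nat_lit 228) (nat_lit 76779389872) (nat_lit 304) (nat_lit 77204239831) (nat_lit 78) (nat_lit 5) (nat_lit 81) (nat_lit 5) (nat_lit 82) (nat_lit 5) (nat_lit 436) (nat_lit 410) (nat_lit 174)) (XT.nd (nat_lit 78) (nat_lit 304) (nat_lit 0) (XT.lf (nat_lit 0) (nat_lit 223479932786) (nat_lit 304) (nat_lit 14098288730) (nat_lit 76) (nat_lit 20598045257) (nat_lit 78) (nat_lit 5) (nat_lit 82) (nat_lit 5) (nat_lit 79) (nat_lit 5) (nat_lit 437) (nat_lit 410) (nat_lit 173)) (XT.lf (nat_lit 0) (nat_lit 13054244437) (nat_lit 304) (nat_lit 130337702980) (nat_lit 76) (nat_lit 122595912347) (nat_lit 74) (nat_lit 5) (nat_lit 78) (nat_lit 5) (nat_lit 75) (nat_lit 5) (nat_lit 438) (nat_lit 410) (nat_lit 172))))) (XT.nd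 (nat_lit 234) (nat_lit 456) (nat_lit 0) (XT.nd (nat_lit 78) (nat_lit 228) (nat_lit 0) (XT.lf (nat_lit 0) (nat_lit 19240363111) (nat_lit 228) (nat_lit 43328941340) (nat_lit 304) (nat_lit 211565139519) (nat_lit 71) (nat_lit 5) (nat_lit 74) (nat_lit 5) (nat_lit 75) (nat_lit 5) (nat_lit 439) (nat_lit 410) (nat_lit 171)) (XT.nd (nat_lit 78) (nat_lit 228) (nat_lit 0) (XT.lf (nat_lit 0) (nat_lit 117767433649) (nat_lit 304) (nat_lit 102755839302) (nat_lit 76) (nat_lit 62004718659) (nat_lit 71) (nat_lit 5) (nat_lit 75) (nat_lit 5) (nat_lit 72) (nat_lit 5) (nat_lit 440) (nat_lit 410) (nat_lit 170)) (XT.lf (nat_lit 0) (nat_lit 58139708980) (nat_lit 228) (nat_lit 119203706441) (nat_lit 304) (nat_lit 113916903935) (nat_lit 68) (nat_lit 5) (nat_lit 71) (nat_lit 5) (nat_lit 72) (nat_lit 5) (nat_lit 441) (nat_lit 410) (nat_lit 169)))) (XT.nd (nat_lit 156) (nat_lit 228) (nat_lit 0) (XT.nd (nat_lit 78) (nat_lit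 228) (nat_lit 0) (XT.lf (nat_lit 0) (nat_lit 230647358848) (nat_lit 228) (nat_lit 10990971325) (nat_lit 304) (nat_lit 58703926651) (nat_lit 68) (nat_lit 5) (nat_lit 71) (nat_lit 5) (nat_lit 72) (nat_lit 5) (nat_lit 442) (nat_lit 410) (nat_lit 168)) (XT.lf (nat_lit 0) (nat_lit 2565893414) (nat_lit 228) (nat_lit 206142720715) (nat_lit 76) (nat_lit 101006606178) (nat_lit 65) (nat_lit 5) (nat_lit 68) (nat_lit 5) (nat_lit 66) (nat_lit 5) (nat_lit 443) (nat_lit 410) (nat_lit 167))) (XT.nd (nat_lit 78) (nat_lit 228) (nat_lit 0) (XT.lf (nat_lit 0) (nat_lit 66306131938) (nat_lit 228) (nat_lit 32736913130) (nat_lit 76) (nat_lit 220396680732) (nat_lit 65) (nat_lit 5) (nat_lit 68) (nat_lit 5) (nat_lit 66) (nat_lit 5) (nat_lit 444) (nat_lit 410) (nat_lit 166)) (XT.lf (nat_lit 0) (nat_lit 135932941967) (nat_lit 304) (nat_lit 175544078660) (nat_lit 76) (nat_lit 18038457986) (nat_lit 62) (nat_lit 5) (nat_lit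 66) (nat_lit 5) (nat_lit 63) (nat_lit 5) (nat_lit 445) (nat_lit 410) (nat_lit 165)))))) (XT.nd (nat_lit 546) (nat_lit 684) (nat_lit 0) (XT.nd (nat_lit 234) (nat_lit 304) (nat_lit 0) (XT.nd (nat_lit 78) (nat_lit 228) (nat_lit 0) (XT.lf (nat_lit 0) (nat_lit 9764026583) (nat_lit 152) (nat_lit 201616593793) (nat_lit 228) (nat_lit 128597422318) (nat_lit 60) (nat_lit 5) (nat_lit 62) (nat_lit 5) (nat_lit 63) (nat_lit 5) (nat_lit 446) (nat_lit 410) (nat_lit 164)) (XT.nd (nat_lit 78) (nat_lit 228) (nat_lit 0) (XT.lf (nat_lit 0) (nat_lit 210431912957) (nat_lit 152) (nat_lit 83141618810) (nat_lit 228) (nat_lit 57241560783) (nat_lit 60) (nat_lit 5) (nat_lit 62) (nat_lit 5) (nat_lit 63) (nat_lit 5) (nat_lit 447) (nat_lit 410) (nat_lit 163)) (XT.lf (nat_lit 0) (nat_lit 18726436779) (nat_lit 228) (nat_lit 302194380440) (nat_lit 76) (nat_lit 41178860328) (nat_lit 57) (nat_lit 5) (nat_lit 60) (nat_lit 5)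 (nat_lit 58) (nat_lit 5) (nat_lit 448) (nat_lit 410) (nat_lit 162)))) (XT.nd (nat_lit 156) (nat_lit 152) (nat_lit 0) (XT.nd (nat_lit 78) (nat_lit 152) (nat_lit 0) (XT.lf (nat_lit 0) (nat_lit 100348480108) (nat_lit 228) (nat_lit 101088088589) (nat_lit 76) (nat_lit 172276036919) (nat_lit 57) (nat_lit 5) (nat_lit 60) (nat_lit 5) (nat_lit 58) (nat_lit 5) (nat_lit 449) (nat_lit 410) (nat_lit 161)) (XT.lf (nat_lit 0) (nat_lit 113712931344) (nat_lit 152) (nat_lit 74114003748) (nat_lit 228) (nat_lit 197990479539) (nat_lit 55) (nat_lit 5) (nat_lit 57) (nat_lit 5) (nat_lit 58) (nat_lit 5) (nat_lit 450) (nat_lit 410) (nat_lit 160))) (XT.nd (nat_lit 78) (nat_lit 152) (nat_lit 0) (XT.lf (nat_lit 0) (nat_lit 282349414392) (nat_lit 228) (nat_lit 56636617269) (nat_lit 76) (nat_lit 59407927375) (nat_lit 55) (nat_lit 5) (nat_lit 58) (nat_lit 5) (nat_lit 56) (nat_lit 5) (nat_lit 451) (nat_lit 410) (nat_lit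 159)) (XT.lf (nat_lit 0) (nat_lit 173957271387) (nat_lit 152) (nat_lit 211571626492) (nat_lit 228) (nat_lit 25873888788) (nat_lit 53) (nat_lit 5) (nat_lit 55) (nat_lit 5) (nat_lit 56) (nat_lit 5) (nat_lit 452) (nat_lit 410) (nat_lit 158))))) (XT.nd (nat_lit 234) (nat_lit 304) (nat_lit 0) (XT.nd (nat_lit 78) (nat_lit 304) (nat_lit 0) (XT.lf (nat_lit 0) (nat_lit 67577929571) (nat_lit 228) (nat_lit 8057021416) (nat_lit 76) (nat_lit 349324651079) (nat_lit 52) (nat_lit 5) (nat_lit 55) (nat_lit 5) (nat_lit 53) (nat_lit 5) (nat_lit 453) (nat_lit 410) (nat_lit 157)) (XT.nd (nat_lit 78) (nat_lit 152) (nat_lit 0) (XT.lf (nat_lit 0) (nat_lit 169696748347) (nat_lit 228) (nat_lit 200041590249) (nat_lit 76) (nat_lit 69191514455) (nat_lit 50) (nat_lit 5) (nat_lit 53) (nat_lit 5) (nat_lit 51) (nat_lit 5) (nat_lit 454) (nat_lit 410) (nat_lit 156)) (XT.lf (nat_lit 0) (nat_lit 45068971034) (nat_lit 152) (nat_lit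 233934733767) (nat_lit 228) (nat_lit 174490801962) (nat_lit 48) (nat_lit 5) (nat_lit 50) (nat_lit 5) (nat_lit 51) (nat_lit 5) (nat_lit 455) (nat_lit 410) (nat_lit 155)))) (XT.nd (nat_lit 156) (nat_lit 152) (nat_lit 0) (XT.nd (nat_lit 78) (nat_lit 152) (nat_lit 0) (XT.lf (nat_lit 0) (nat_lit 309379952229) (nat_lit 152) (nat_lit 87783799389) (nat_lit 228) (nat_lit 71454254429) (nat_lit 48) (nat_lit 5) (nat_lit 50) (nat_lit 5) (nat_lit 51) (nat_lit 5) (nat_lit 456) (nat_lit 410) (nat_lit 154)) (XT.lf (nat_lit 0) (nat_lit 38262538914) (nat_lit 152) (nat_lit 380246262274) (nat_lit 76) (nat_lit 65824996003) (nat_lit 46) (nat_lit 5) (nat_lit 48) (nat_lit 5) (nat_lit 47) (nat_lit 5) (nat_lit 457) (nat_lit 410) (nat_lit 153))) (XT.nd (nat_lit 78) (nat_lit 152) (nat_lit 0) (XT.lf (nat_lit 0) (nat_lit 155243845845) (nat_lit 152) (nat_lit 117247517913) (nat_lit 76) (nat_lit 228076444815) (nat_lit 46)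 (nat_lit 5) (nat_lit 48) (nat_lit 5) (nat_lit 47) (nat_lit 5) (nat_lit 458) (nat_lit 410) (nat_lit 152)) (XT.lf (nat_lit 0) (nat_lit 164155057191) (nat_lit 152) (nat_lit 116482027939) (nat_lit 228) (nat_lit 236848292054) (nat_lit 44) (nat_lit 5) (nat_lit 46) (nat_lit 5) (nat_lit 47) (nat_lit 5) (nat_lit 459) (nat_lit 410) (nat_lit 151))))))) (XT.nd (nat_lit 49452) (nat_lit 0) (nat_lit 5320) (XT.nd (nat_lit 468) (nat_lit 532) (nat_lit 0) (XT.nd (nat_lit 234) (nat_lit 228) (nat_lit 0) (XT.nd (nat_lit 78) (nat_lit 152) (nat_lit 0) (XT.lf (nat_lit 0) (nat_lit 415057047575) (nat_lit 228) (nat_lit 72222776636) (nat_lit 76) (nat_lit 47831146964) (nat_lit 44) (nat_lit 5) (nat_lit 47) (nat_lit 5) (nat_lit 45) (nat_lit 4) (nat_lit 460) (nat_lit 410) (nat_lit 150)) (XT.nd (nat_lit 78) (nat_lit 0) (nat_lit 0) (XT.lf (nat_lit 0) (nat_lit 8061827068) (nat_lit 152) (nat_lit 325135369475) (nat_lit 76) (nat_lit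 220140421897) (nat_lit 42) (nat_lit 5) (nat_lit 44) (nat_lit 5) (nat_lit 43) (nat_lit 5) (nat_lit 461) (nat_lit 410) (nat_lit 149)) (XT.lf (nat_lit 0) (nat_lit 139791894889) (nat_lit 152) (nat_lit 28246742222) (nat_lit 76) (nat_lit 404276399676) (nat_lit 42) (nat_lit 5) (nat_lit 44) (nat_lit 5) (nat_lit 43) (nat_lit 5) (nat_lit 462) (nat_lit 410) (nat_lit 148)))) (XT.nd (nat_lit 78) (nat_lit 76) (nat_lit 0) (XT.lf (nat_lit 0) (nat_lit 282839696230) (nat_lit 228) (nat_lit 299312063954) (nat_lit 76) (nat_lit 9853004369) (nat_lit 40) (nat_lit 5) (nat_lit 43) (nat_lit 5) (nat_lit 41) (nat_lit 4) (nat_lit 463) (nat_lit 410) (nat_lit 147)) (XT.nd (nat_lit 78) (nat_lit 0) (nat_lit 0) (XT.lf (nat_lit 0) (nat_lit 15746030102) (nat_lit 76) (nat_lit 420780595890) (nat_lit 152) (nat_lit 175978015804) (nat_lit 39) (nat_lit 5) (nat_lit 40) (nat_lit 5) (nat_lit 41) (nat_lit 4) (nat_lit 464) (nat_lit 410)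 (nat_lit 146)) (XT.lf (nat_lit 0) (nat_lit 356948383394) (nat_lit 76) (nat_lit 246018466948) (nat_lit 152) (nat_lit 30809215163) (nat_lit 39) (nat_lit 5) (nat_lit 40) (nat_lit 5) (nat_lit 41) (nat_lit 4) (nat_lit 465) (nat_lit 410) (nat_lit 145))))) (XT.nd (nat_lit 234) (nat_lit 228) (nat_lit 0) (XT.nd (nat_lit 78) (nat_lit 76) (nat_lit 0) (XT.lf (nat_lit 0) (nat_lit 59092234339) (nat_lit 152) (nat_lit 59555805169) (nat_lit 228) (nat_lit 537321953471) (nat_lit 36) (nat_lit 5) (nat_lit 38) (nat_lit 5) (nat_lit 39) (nat_lit 5) (nat_lit 466) (nat_lit 410) (nat_lit 144)) (XT.nd (nat_lit 78) (nat_lit 76) (nat_lit 0) (XT.lf (nat_lit 0) (nat_lit 281434719108) (nat_lit 228) (nat_lit 260329166847) (nat_lit 76) (nat_lit 137139879730) (nat_lit 36) (nat_lit 5) (nat_lit 39) (nat_lit 5) (nat_lit 37) (nat_lit 4) (nat_lit 467) (nat_lit 410) (nat_lit 143)) (XT.lf (nat_lit 0) (nat_lit 95114716447) (nat_lit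 76) (nat_lit 359707305595) (nat_lit 152) (nat_lit 248039140522) (nat_lit 35) (nat_lit 5) (nat_lit 36) (nat_lit 5) (nat_lit 37) (nat_lit 4) (nat_lit 468) (nat_lit 410) (nat_lit 142)))) (XT.nd (nat_lit 48594) (nat_lit 0) (nat_lit 6536) (XT.nd (nat_lit 78) (nat_lit 228) (nat_lit 0) (XT.lf (nat_lit 0) (nat_lit 477368757660) (nat_lit 76) (nat_lit 163918691092) (nat_lit 152) (nat_lit 86508542610) (nat_lit 35) (nat_lit 5) (nat_lit 36) (nat_lit 5) (nat_lit 37) (nat_lit 4) (nat_lit 469) (nat_lit 410) (nat_lit 141)) (XT.lf (nat_lit 0) (nat_lit 83134500693) (nat_lit 228) (nat_lit 626974837245) (nat_lit 76) (nat_lit 43668574119) (nat_lit 32) (nat_lit 5) (nat_lit 35) (nat_lit 5) (nat_lit 33) (nat_lit 4) (nat_lit 470) (nat_lit 410) (nat_lit 140))) (XT.nd (nat_lit 78) (nat_lit 0) (nat_lit 0) (XT.lf (nat_lit 0) (nat_lit 18182515765) (nat_lit 836) (nat_lit 23390646365) (nat_lit 836) (nat_lit 23390646365)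 (nat_lit 118) (nat_lit 3) (nat_lit 129) (nat_lit 3) (nat_lit 129) (nat_lit 5) (nat_lit 411) (nat_lit 411) (nat_lit 198)) (XT.lf (nat_lit 76) (nat_lit 16884092707) (nat_lit 0) (nat_lit 20657454128) (nat_lit 836) (nat_lit 95620889037) (nat_lit 119) (nat_lit 5) (nat_lit 118) (nat_lit 3) (nat_lit 129) (nat_lit 5) (nat_lit 412) (nat_lit 411) (nat_lit 197)))))) (XT.nd (nat_lit 546) (nat_lit 1292) (nat_lit 0) (XT.nd (nat_lit 234) (nat_lit 0) (nat_lit 76) (XT.nd (nat_lit 78) (nat_lit 0) (nat_lit 0) (XT.lf (nat_lit 0) (nat_lit 40283784269) (nat_lit 760) (nat_lit 51877514579) (nat_lit 836) (nat_lit 44322352163) (nat_lit 119) (nat_lit 5) (nat_lit 129) (nat_lit 5) (nat_lit 130) (nat_lit 5) (nat_lit 413) (nat_lit 411) (nat_lit 196)) (XT.nd (nat_lit 78) (nat_lit 0) (nat_lit 76) (XT.lf (nat_lit 76) (nat_lit 15913914778) (nat_lit 0) (nat_lit 27836095580) (nat_lit 836) (nat_lit 96191572837) (nat_lit 120)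 (nat_lit 5) (nat_lit 119) (nat_lit 5) (nat_lit 130) (nat_lit 5) (nat_lit 414) (nat_lit 411) (nat_lit 195)) (XT.lf (nat_lit 0) (nat_lit 48902212816) (nat_lit 760) (nat_lit 55266961393) (nat_lit 836) (nat_lit 39327604644) (nat_lit 120) (nat_lit 5) (nat_lit 130) (nat_lit 5) (nat_lit 131) (nat_lit 5) (nat_lit 415) (nat_lit 411) (nat_lit 194)))) (XT.nd (nat_lit 156) (nat_lit 0) (nat_lit 76) (XT.nd (nat_lit 78) (nat_lit 0) (nat_lit 76) (XT.lf (nat_lit 76) (nat_lit 17020057933) (nat_lit 0) (nat_lit 38013817594) (nat_lit 836) (nat_lit 92159766375) (nat_lit 121) (nat_lit 5) (nat_lit 120) (nat_lit 5) (nat_lit 131) (nat_lit 5) (nat_lit 416) (nat_lit 411) (nat_lit 193)) (XT.lf (nat_lit 0) (nat_lit 62914248440) (nat_lit 760) (nat_lit 56694883447) (nat_lit 836) (nat_lit 31394109972) (nat_lit 121) (nat_lit 5) (nat_lit 131) (nat_lit 5) (nat_lit 132) (nat_lit 5) (nat_lit 417) (nat_lit 411) (nat_lit 192)))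 (XT.nd (nat_lit 78) (nat_lit 0) (nat_lit 76) (XT.lf (nat_lit 76) (nat_lit 20490247134) (nat_lit 0) (nat_lit 51641288670) (nat_lit 836) (nat_lit 82824641325) (nat_lit 122) (nat_lit 5) (nat_lit 121) (nat_lit 5) (nat_lit 132) (nat_lit 5) (nat_lit 418) (nat_lit 411) (nat_lit 191)) (XT.lf (nat_lit 0) (nat_lit 83093360661) (nat_lit 760) (nat_lit 55879651973) (nat_lit 836) (nat_lit 20069562971) (nat_lit 122) (nat_lit 5) (nat_lit 132) (nat_lit 5) (nat_lit 133) (nat_lit 5) (nat_lit 419) (nat_lit 411) (nat_lit 190))))) (XT.nd (nat_lit 234) (nat_lit 836) (nat_lit 0) (XT.nd (nat_lit 78) (nat_lit 684) (nat_lit 0) (XT.lf (nat_lit 76) (nat_lit 26641925438) (nat_lit 0) (nat_lit 69223709603) (nat_lit 836) (nat_lit 67404541142) (nat_lit 123) (nat_lit 5) (nat_lit 122) (nat_lit 5) (nat_lit 133) (nat_lit 5) (nat_lit 420) (nat_lit 411) (nat_lit 189)) (XT.nd (nat_lit 78) (nat_lit 760) (nat_lit 0) (XT.lf (nat_lit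 0) (nat_lit 110300872320) (nat_lit 760) (nat_lit 52510561958) (nat_lit 76) (nat_lit 4846505144) (nat_lit 123) (nat_lit 5) (nat_lit 133) (nat_lit 5) (nat_lit 124) (nat_lit 5) (nat_lit 421) (nat_lit 411) (nat_lit 188)) (XT.lf (nat_lit 0) (nat_lit 35824665908) (nat_lit 760) (nat_lit 91327183162) (nat_lit 836) (nat_lit 45028542957) (nat_lit 113) (nat_lit 5) (nat_lit 123) (nat_lit 5) (nat_lit 124) (nat_lit 5) (nat_lit 422) (nat_lit 411) (nat_lit 187)))) (XT.nd (nat_lit 156) (nat_lit 456) (nat_lit 0) (XT.nd (nat_lit 78) (nat_lit 380) (nat_lit 0) (XT.lf (nat_lit 0) (nat_lit 130399562134) (nat_lit 760) (nat_lit 15334949012) (nat_lit 836) (nat_lit 31149999374) (nat_lit 113) (nat_lit 5) (nat_lit 123) (nat_lit 5) (nat_lit 124) (nat_lit 5) (nat_lit 423) (nat_lit 411) (nat_lit 186)) (XT.lf (nat_lit 0) (nat_lit 48422702175) (nat_lit 380) (nat_lit 118585823353) (nat_lit 456) (nat_lit 14727198525) (nat_lit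 108) (nat_lit 5) (nat_lit 113) (nat_lit 5) (nat_lit 114) (nat_lit 5) (nat_lit 424) (nat_lit 411) (nat_lit 185))) (XT.nd (nat_lit 78) (nat_lit 380) (nat_lit 0) (XT.lf (nat_lit 0) (nat_lit 3487589003) (nat_lit 456) (nat_lit 37404284682) (nat_lit 76) (nat_lit 145883090075) (nat_lit 107) (nat_lit 5) (nat_lit 113) (nat_lit 5) (nat_lit 108) (nat_lit 5) (nat_lit 425) (nat_lit 411) (nat_lit 184)) (XT.lf (nat_lit 0) (nat_lit 23790982548) (nat_lit 456) (nat_lit 127515798199) (nat_lit 76) (nat_lit 40663673442) (nat_lit 102) (nat_lit 5) (nat_lit 108) (nat_lit 5) (nat_lit 103) (nat_lit 5) (nat_lit 426) (nat_lit 411) (nat_lit 183))))))))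
noncomputable def xc233 : XT := (XT.nd (nat_lit 2106) (nat_lit 1368) (nat_lit 0) (XT.nd (nat_lit 1014) (nat_lit 1596) (nat_lit 0) (XT.nd (nat_lit 468) (nat_lit 1140) (nat_lit 0) (XT.nd (nat_lit 234) (nat_lit 608) (nat_lit 0) (XT.nd (nat_lit 78) (nat_lit 380) (nat_lit 0) (XT.lf (nat_lit 0) (nat_lit 46423614713) (nat_lit 456) (nat_lit 25369795656) (nat_lit 76) (nat_lit 125566605387) (nat_lit 102) (nat_lit 5) (nat_lit 108) (nat_lit 5) (nat_lit 103) (nat_lit 5) (nat_lit 427) (nat_lit 411) (nat_lit 182)) (XT.nd (nat_lit 78) (nat_lit 0) (nat_lit 0) (XT.lf (nat_lit 0) (nat_lit 71712702739) (nat_lit 456) (nat_lit 118566473569) (nat_lit 76) (nat_lit 12663637943) (nat_lit 97) (nat_lit 5) (nat_lit 103) (nat_lit 5) (nat_lit 98) (nat_lit 5) (nat_lit 428) (nat_lit 411) (nat_lit 181)) (XT.lf (nat_lit 0) (nat_lit 99879755849) (nat_lit 456) (nat_lit 9476828361) (nat_lit 76) (nat_lit 99367492982) (nat_lit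 97) (nat_lit 5) (nat_lit 103) (nat_lit 5) (nat_lit 98) (nat_lit 5) (nat_lit 429) (nat_lit 411) (nat_lit 180)))) (XT.nd (nat_lit 78) (nat_lit 304) (nat_lit 0) (XT.lf (nat_lit 0) (nat_lit 108541161316) (nat_lit 304) (nat_lit 22608514227) (nat_lit 380) (nat_lit 83560002097) (nat_lit 93) (nat_lit 5) (nat_lit 97) (nat_lit 5) (nat_lit 98) (nat_lit 5) (nat_lit 430) (nat_lit 411) (nat_lit 179)) (XT.nd (nat_lit 78) (nat_lit 0) (nat_lit 0) (XT.lf (nat_lit 0) (nat_lit 11085450353) (nat_lit 304) (nat_lit 154302844317) (nat_lit 380) (nat_lit 55536003321) (nat_lit 89) (nat_lit 5) (nat_lit 93) (nat_lit 5) (nat_lit 94) (nat_lit 5) (nat_lit 431) (nat_lit 411) (nat_lit 178)) (XT.lf (nat_lit 0) (nat_lit 137505026416) (nat_lit 304) (nat_lit 65996375874) (nat_lit 380) (nat_lit 23840119242) (nat_lit 89) (nat_lit 5) (nat_lit 93) (nat_lit 5) (nat_lit 94) (nat_lit 5) (nat_lit 432) (nat_lit 411) (nat_lit 177)))))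 (XT.nd (nat_lit 234) (nat_lit 532) (nat_lit 0) (XT.nd (nat_lit 78) (nat_lit 304) (nat_lit 0) (XT.lf (nat_lit 0) (nat_lit 10148435548) (nat_lit 304) (nat_lit 197263010193) (nat_lit 76) (nat_lit 26610289207) (nat_lit 85) (nat_lit 5) (nat_lit 89) (nat_lit 5) (nat_lit 86) (nat_lit 5) (nat_lit 433) (nat_lit 411) (nat_lit 176)) (XT.nd (nat_lit 78) (nat_lit 304) (nat_lit 0) (XT.lf (nat_lit 0) (nat_lit 47663402565) (nat_lit 304) (nat_lit 69655066711) (nat_lit 76) (nat_lit 123566540280) (nat_lit 85) (nat_lit 5) (nat_lit 89) (nat_lit 5) (nat_lit 86) (nat_lit 5) (nat_lit 434) (nat_lit 411) (nat_lit 175)) (XT.lf (nat_lit 0) (nat_lit 66460290715) (nat_lit 304) (nat_lit 21631358726) (nat_lit 380) (nat_lit 159947921919) (nat_lit 81) (nat_lit 5) (nat_lit 85) (nat_lit 5) (nat_lit 86) (nat_lit 5) (nat_lit 435) (nat_lit 411) (nat_lit 174)))) (XT.nd (nat_lit 156) (nat_lit 304) (nat_lit 0) (XT.nd (nat_lit 78)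 (nat_lit 228) (nat_lit 0) (XT.lf (nat_lit 0) (nat_lit 132971106810) (nat_lit 380) (nat_lit 44943579897) (nat_lit 76) (nat_lit 77515684678) (nat_lit 81) (nat_lit 5) (nat_lit 86) (nat_lit 5) (nat_lit 82) (nat_lit 5) (nat_lit 436) (nat_lit 411) (nat_lit 173)) (XT.lf (nat_lit 0) (nat_lit 101415085755) (nat_lit 228) (nat_lit 80617344546) (nat_lit 304) (nat_lit 81061386486) (nat_lit 78) (nat_lit 5) (nat_lit 81) (nat_lit 5) (nat_lit 82) (nat_lit 5) (nat_lit 437) (nat_lit 411) (nat_lit 172))) (XT.nd (nat_lit 78) (nat_lit 304) (nat_lit 0) (XT.lf (nat_lit 0) (nat_lit 234656723827) (nat_lit 304) (nat_lit 14799332392) (nat_lit 76) (nat_lit 21628883081) (nat_lit 78) (nat_lit 5) (nat_lit 82) (nat_lit 5) (nat_lit 79) (nat_lit 5) (nat_lit 438) (nat_lit 411) (nat_lit 171)) (XT.lf (nat_lit 0) (nat_lit 13709723061) (nat_lit 304) (nat_lit 136850687328) (nat_lit 76) (nat_lit 128726703053) (nat_lit 74) (nat_lit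 5) (nat_lit 78) (nat_lit 5) (nat_lit 75) (nat_lit 5) (nat_lit 439) (nat_lit 411) (nat_lit 170)))))) (XT.nd (nat_lit 546) (nat_lit 684) (nat_lit 0) (XT.nd (nat_lit 234) (nat_lit 456) (nat_lit 0) (XT.nd (nat_lit 78) (nat_lit 228) (nat_lit 0) (XT.lf (nat_lit 0) (nat_lit 20206219151) (nat_lit 228) (nat_lit 45494245111) (nat_lit 304) (nat_lit 222140566234) (nat_lit 71) (nat_lit 5) (nat_lit 74) (nat_lit 5) (nat_lit 75) (nat_lit 5) (nat_lit 440) (nat_lit 411) (nat_lit 169)) (XT.nd (nat_lit 78) (nat_lit 228) (nat_lit 0) (XT.lf (nat_lit 0) (nat_lit 123658388607) (nat_lit 304) (nat_lit 107889863928) (nat_lit 76) (nat_lit 65106008595) (nat_lit 71) (nat_lit 5) (nat_lit 75) (nat_lit 5) (nat_lit 72) (nat_lit 5) (nat_lit 441) (nat_lit 411) (nat_lit 168)) (XT.lf (nat_lit 0) (nat_lit 61050401005) (nat_lit 228) (nat_lit 125162703319) (nat_lit 304) (nat_lit 119610104238) (nat_lit 68) (nat_lit 5) (nat_lit 71)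 (nat_lit 5) (nat_lit 72) (nat_lit 5) (nat_lit 442) (nat_lit 411) (nat_lit 167)))) (XT.nd (nat_lit 156) (nat_lit 228) (nat_lit 0) (XT.nd (nat_lit 78) (nat_lit 228) (nat_lit 0) (XT.lf (nat_lit 0) (nat_lit 242183256863) (nat_lit 228) (nat_lit 11539388041) (nat_lit 304) (nat_lit 61636604037) (nat_lit 68) (nat_lit 5) (nat_lit 71) (nat_lit 5) (nat_lit 72) (nat_lit 5) (nat_lit 443) (nat_lit 411) (nat_lit 166)) (XT.lf (nat_lit 0) (nat_lit 2696584127) (nat_lit 228) (nat_lit 216446202262) (nat_lit 76) (nat_lit 106058074394) (nat_lit 65) (nat_lit 5) (nat_lit 68) (nat_lit 5) (nat_lit 66) (nat_lit 5) (nat_lit 444) (nat_lit 411) (nat_lit 165))) (XT.nd (nat_lit 78) (nat_lit 228) (nat_lit 0) (XT.lf (nat_lit 0) (nat_lit 69623720480) (nat_lit 228) (nat_lit 34370278321) (nat_lit 76) (nat_lit 231417598489) (nat_lit 65) (nat_lit 5) (nat_lit 68) (nat_lit 5) (nat_lit 66) (nat_lit 5) (nat_lit 445) (nat_lit 411)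 (nat_lit 164)) (XT.lf (nat_lit 0) (nat_lit 142731834508) (nat_lit 304) (nat_lit 184317764954) (nat_lit 76) (nat_lit 18941540140) (nat_lit 62) (nat_lit 5) (nat_lit 66) (nat_lit 5) (nat_lit 63) (nat_lit 5) (nat_lit 446) (nat_lit 411) (nat_lit 163))))) (XT.nd (nat_lit 234) (nat_lit 304) (nat_lit 0) (XT.nd (nat_lit 78) (nat_lit 228) (nat_lit 0) (XT.lf (nat_lit 0) (nat_lit 10255688815) (nat_lit 152) (nat_lit 211696155131) (nat_lit 228) (nat_lit 135024990618) (nat_lit 60) (nat_lit 5) (nat_lit 62) (nat_lit 5) (nat_lit 63) (nat_lit 5) (nat_lit 447) (nat_lit 411) (nat_lit 162)) (XT.nd (nat_lit 78) (nat_lit 228) (nat_lit 0) (XT.lf (nat_lit 0) (nat_lit 220956804702) (nat_lit 152) (nat_lit 87297491797) (nat_lit 228) (nat_lit 60101445664) (nat_lit 60) (nat_lit 5) (nat_lit 62) (nat_lit 5) (nat_lit 63) (nat_lit 5) (nat_lit 448) (nat_lit 411) (nat_lit 161)) (XT.lf (nat_lit 0) (nat_lit 19664851550) (nat_lit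 228) (nat_lit 317300702009) (nat_lit 76) (nat_lit 43239002667) (nat_lit 57) (nat_lit 5) (nat_lit 60) (nat_lit 5) (nat_lit 58) (nat_lit 5) (nat_lit 449) (nat_lit 411) (nat_lit 160)))) (XT.nd (nat_lit 156) (nat_lit 152) (nat_lit 0) (XT.nd (nat_lit 78) (nat_lit 152) (nat_lit 0) (XT.lf (nat_lit 0) (nat_lit 105367897382) (nat_lit 228) (nat_lit 106139257349) (nat_lit 76) (nat_lit 180890980977) (nat_lit 57) (nat_lit 5) (nat_lit 60) (nat_lit 5) (nat_lit 58) (nat_lit 5) (nat_lit 450) (nat_lit 411) (nat_lit 159)) (XT.lf (nat_lit 0) (nat_lit 119401761392) (nat_lit 152) (nat_lit 77818468509) (nat_lit 228) (nat_lit 207887957559) (nat_lit 55) (nat_lit 5) (nat_lit 57) (nat_lit 5) (nat_lit 58) (nat_lit 5) (nat_lit 451) (nat_lit 411) (nat_lit 158))) (XT.nd (nat_lit 78) (nat_lit 152) (nat_lit 0) (XT.lf (nat_lit 0) (nat_lit 296468758771) (nat_lit 228) (nat_lit 59465341375) (nat_lit 76) (nat_lit 62379462683)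 (nat_lit 55) (nat_lit 5) (nat_lit 58) (nat_lit 5) (nat_lit 56) (nat_lit 5) (nat_lit 452) (nat_lit 411) (nat_lit 157)) (XT.lf (nat_lit 0) (nat_lit 182658191605) (nat_lit 152) (nat_lit 222148983329) (nat_lit 228) (nat_lit 27165659005) (nat_lit 53) (nat_lit 5) (nat_lit 55) (nat_lit 5) (nat_lit 56) (nat_lit 5) (nat_lit 453) (nat_lit 411) (nat_lit 156))))))) (XT.nd (nat_lit 1014) (nat_lit 304) (nat_lit 0) (XT.nd (nat_lit 468) (nat_lit 532) (nat_lit 0) (XT.nd (nat_lit 234) (nat_lit 152) (nat_lit 0) (XT.nd (nat_lit 78) (nat_lit 304) (nat_lit 0) (XT.lf (nat_lit 0) (nat_lit 70958599987) (nat_lit 228) (nat_lit 8456902328) (nat_lit 76) (nat_lit 366791990746) (nat_lit 52) (nat_lit 5) (nat_lit 55) (nat_lit 5) (nat_lit 53) (nat_lit 5) (nat_lit 454) (nat_lit 411) (nat_lit 155)) (XT.nd (nat_lit 78) (nat_lit 152) (nat_lit 0) (XT.lf (nat_lit 0) (nat_lit 178183339389) (nat_lit 228) (nat_lit 210040678898) (nat_lit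 76) (nat_lit 72652239345) (nat_lit 50) (nat_lit 5) (nat_lit 53) (nat_lit 5) (nat_lit 51) (nat_lit 5) (nat_lit 455) (nat_lit 411) (nat_lit 154)) (XT.lf (nat_lit 0) (nat_lit 47325362210) (nat_lit 152) (nat_lit 245630243892) (nat_lit 228) (nat_lit 183213539824) (nat_lit 48) (nat_lit 5) (nat_lit 50) (nat_lit 5) (nat_lit 51) (nat_lit 5) (nat_lit 456) (nat_lit 411) (nat_lit 153)))) (XT.nd (nat_lit 78) (nat_lit 152) (nat_lit 0) (XT.lf (nat_lit 0) (nat_lit 324851752339) (nat_lit 152) (nat_lit 92171821203) (nat_lit 228) (nat_lit 75025250734) (nat_lit 48) (nat_lit 5) (nat_lit 50) (nat_lit 5) (nat_lit 51) (nat_lit 5) (nat_lit 457) (nat_lit 411) (nat_lit 152)) (XT.nd (nat_lit 78) (nat_lit 0) (nat_lit 0) (XT.lf (nat_lit 0) (nat_lit 40177310628) (nat_lit 152) (nat_lit 399255700580) (nat_lit 76) (nat_lit 69117393283) (nat_lit 46) (nat_lit 5) (nat_lit 48) (nat_lit 5) (nat_lit 47) (nat_lit 5) (nat_lit 458)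 (nat_lit 411) (nat_lit 151)) (XT.lf (nat_lit 0) (nat_lit 163007604583) (nat_lit 152) (nat_lit 123107155897) (nat_lit 76) (nat_lit 239481359894) (nat_lit 46) (nat_lit 5) (nat_lit 48) (nat_lit 5) (nat_lit 47) (nat_lit 5) (nat_lit 459) (nat_lit 411) (nat_lit 150))))) (XT.nd (nat_lit 234) (nat_lit 228) (nat_lit 0) (XT.nd (nat_lit 78) (nat_lit 152) (nat_lit 0) (XT.lf (nat_lit 0) (nat_lit 172365503803) (nat_lit 152) (nat_lit 122304969494) (nat_lit 228) (nat_lit 248689095759) (nat_lit 44) (nat_lit 5) (nat_lit 46) (nat_lit 5) (nat_lit 47) (nat_lit 5) (nat_lit 460) (nat_lit 411) (nat_lit 149)) (XT.nd (nat_lit 78) (nat_lit 152) (nat_lit 0) (XT.lf (nat_lit 0) (nat_lit 435811378067) (nat_lit 228) (nat_lit 75831293914) (nat_lit 76) (nat_lit 50223773570) (nat_lit 44) (nat_lit 5) (nat_lit 47) (nat_lit 5) (nat_lit 45) (nat_lit 4) (nat_lit 461) (nat_lit 411) (nat_lit 148)) (XT.lf (nat_lit 0) (nat_lit 8466390412)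 (nat_lit 152) (nat_lit 341389509755) (nat_lit 76) (nat_lit 231148525344) (nat_lit 42) (nat_lit 5) (nat_lit 44) (nat_lit 5) (nat_lit 43) (nat_lit 5) (nat_lit 462) (nat_lit 411) (nat_lit 147)))) (XT.nd (nat_lit 156) (nat_lit 76) (nat_lit 0) (XT.nd (nat_lit 78) (nat_lit 152) (nat_lit 0) (XT.lf (nat_lit 0) (nat_lit 146782891529) (nat_lit 152) (nat_lit 29656576291) (nat_lit 76) (nat_lit 424491250471) (nat_lit 42) (nat_lit 5) (nat_lit 44) (nat_lit 5) (nat_lit 43) (nat_lit 5) (nat_lit 463) (nat_lit 411) (nat_lit 146)) (XT.lf (nat_lit 0) (nat_lit 296983071632) (nat_lit 228) (nat_lit 314275152577) (nat_lit 76) (nat_lit 10346708812) (nat_lit 40) (nat_lit 5) (nat_lit 43) (nat_lit 5) (nat_lit 41) (nat_lit 4) (nat_lit 464) (nat_lit 411) (nat_lit 145))) (XT.nd (nat_lit 78) (nat_lit 0) (nat_lit 0) (XT.lf (nat_lit 0) (nat_lit 16535805624) (nat_lit 76) (nat_lit 441818514667) (nat_lit 152) (nat_lit 184775485228)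 (nat_lit 39) (nat_lit 5) (nat_lit 40) (nat_lit 5) (nat_lit 41) (nat_lit 4) (nat_lit 465) (nat_lit 411) (nat_lit 144)) (XT.lf (nat_lit 0) (nat_lit 374798158771) (nat_lit 76) (nat_lit 258318332183) (nat_lit 152) (nat_lit 32348312714) (nat_lit 39) (nat_lit 5) (nat_lit 40) (nat_lit 5) (nat_lit 41) (nat_lit 4) (nat_lit 466) (nat_lit 411) (nat_lit 143)))))) (XT.nd (nat_lit 49062) (nat_lit 0) (nat_lit 6384) (XT.nd (nat_lit 234) (nat_lit 0) (nat_lit 0) (XT.nd (nat_lit 78) (nat_lit 76) (nat_lit 0) (XT.lf (nat_lit 0) (nat_lit 62049207381) (nat_lit 152) (nat_lit 62532527708) (nat_lit 228) (nat_lit 564186692670) (nat_lit 36) (nat_lit 5) (nat_lit 38) (nat_lit 5) (nat_lit 39) (nat_lit 5) (nat_lit 467) (nat_lit 411) (nat_lit 142)) (XT.nd (nat_lit 78) (nat_lit 76) (nat_lit 0) (XT.lf (nat_lit 0) (nat_lit 295507702945) (nat_lit 228) (nat_lit 273343330404) (nat_lit 76) (nat_lit 143997858046) (nat_lit 36) (nat_lit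 5) (nat_lit 39) (nat_lit 5) (nat_lit 37) (nat_lit 4) (nat_lit 468) (nat_lit 411) (nat_lit 141)) (XT.lf (nat_lit 0) (nat_lit 99872710042) (nat_lit 76) (nat_lit 377691636811) (nat_lit 152) (nat_lit 260439812484) (nat_lit 35) (nat_lit 5) (nat_lit 36) (nat_lit 5) (nat_lit 37) (nat_lit 4) (nat_lit 469) (nat_lit 411) (nat_lit 140)))) (XT.nd (nat_lit 48672) (nat_lit 0) (nat_lit 6308) (XT.nd (nat_lit 48594) (nat_lit 0) (nat_lit 6308) (XT.lf (nat_lit 0) (nat_lit 501239345802) (nat_lit 76) (nat_lit 172113640825) (nat_lit 152) (nat_lit 90832745869) (nat_lit 35) (nat_lit 5) (nat_lit 36) (nat_lit 5) (nat_lit 37) (nat_lit 4) (nat_lit 470) (nat_lit 411) (nat_lit 139)) (XT.lf (nat_lit 0) (nat_lit 19095364026) (nat_lit 836) (nat_lit 24558223367) (nat_lit 836) (nat_lit 24558223367) (nat_lit 118) (nat_lit 3) (nat_lit 129) (nat_lit 3) (nat_lit 129) (nat_lit 5) (nat_lit 412) (nat_lit 412) (nat_lit 196))) (XT.nd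 (nat_lit 78) (nat_lit 0) (nat_lit 76) (XT.lf (nat_lit 76) (nat_lit 17732144901) (nat_lit 0) (nat_lit 21693629773) (nat_lit 836) (nat_lit 100394421589) (nat_lit 119) (nat_lit 5) (nat_lit 118) (nat_lit 3) (nat_lit 129) (nat_lit 5) (nat_lit 413) (nat_lit 412) (nat_lit 195)) (XT.lf (nat_lit 0) (nat_lit 42304734367) (nat_lit 760) (nat_lit 54467332661) (nat_lit 836) (nat_lit 46535424796) (nat_lit 119) (nat_lit 5) (nat_lit 129) (nat_lit 5) (nat_lit 130) (nat_lit 5) (nat_lit 414) (nat_lit 412) (nat_lit 194))))) (XT.nd (nat_lit 234) (nat_lit 0) (nat_lit 152) (XT.nd (nat_lit 78) (nat_lit 0) (nat_lit 76) (XT.lf (nat_lit 76) (nat_lit 16713602718) (nat_lit 0) (nat_lit 29230409424) (nat_lit 836) (nat_lit 100994321631) (nat_lit 120) (nat_lit 5) (nat_lit 119) (nat_lit 5) (nat_lit 130) (nat_lit 5) (nat_lit 415) (nat_lit 412) (nat_lit 193)) (XT.nd (nat_lit 78) (nat_lit 0) (nat_lit 0) (XT.lf (nat_lit 0) (nat_lit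 51353477831) (nat_lit 760) (nat_lit 58026157124) (nat_lit 836) (nat_lit 41291671772) (nat_lit 120) (nat_lit 5) (nat_lit 130) (nat_lit 5) (nat_lit 131) (nat_lit 5) (nat_lit 416) (nat_lit 412) (nat_lit 192)) (XT.lf (nat_lit 76) (nat_lit 17875146195) (nat_lit 0) (nat_lit 39916348202) (nat_lit 836) (nat_lit 96761530156) (nat_lit 121) (nat_lit 5) (nat_lit 120) (nat_lit 5) (nat_lit 131) (nat_lit 5) (nat_lit 417) (nat_lit 412) (nat_lit 191)))) (XT.nd (nat_lit 156) (nat_lit 0) (nat_lit 76) (XT.nd (nat_lit 78) (nat_lit 0) (nat_lit 0) (XT.lf (nat_lit 0) (nat_lit 66065576453) (nat_lit 760) (nat_lit 59525424254) (nat_lit 836) (nat_lit 32962119428) (nat_lit 121) (nat_lit 5) (nat_lit 131) (nat_lit 5) (nat_lit 132) (nat_lit 5) (nat_lit 418) (nat_lit 412) (nat_lit 190)) (XT.lf (nat_lit 76) (nat_lit 21518895060) (nat_lit 0) (nat_lit 54224630283) (nat_lit 836) (nat_lit 86960187111) (nat_lit 122) (nat_lit 5)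 (nat_lit 121) (nat_lit 5) (nat_lit 132) (nat_lit 5) (nat_lit 419) (nat_lit 412) (nat_lit 189))) (XT.nd (nat_lit 78) (nat_lit 0) (nat_lit 0) (XT.lf (nat_lit 0) (nat_lit 87253164702) (nat_lit 760) (nat_lit 58669416437) (nat_lit 836) (nat_lit 21071863689) (nat_lit 122) (nat_lit 5) (nat_lit 132) (nat_lit 5) (nat_lit 133) (nat_lit 5) (nat_lit 420) (nat_lit 412) (nat_lit 188)) (XT.lf (nat_lit 76) (nat_lit 27978171810) (nat_lit 0) (nat_lit 72685701214) (nat_lit 836) (nat_lit 70769561532) (nat_lit 123) (nat_lit 5) (nat_lit 122) (nat_lit 5) (nat_lit 133) (nat_lit 5) (nat_lit 421) (nat_lit 412) (nat_lit 187))))))))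
noncomputable def xc234 : XT := (XT.nd (nat_lit 2106) (nat_lit 1900) (nat_lit 0) (XT.nd (nat_lit 1014) (nat_lit 1900) (nat_lit 0) (XT.nd (nat_lit 468) (nat_lit 1292) (nat_lit 0) (XT.nd (nat_lit 234) (nat_lit 836) (nat_lit 0) (XT.nd (nat_lit 78) (nat_lit 760) (nat_lit 0) (XT.lf (nat_lit 0) (nat_lit 115820624169) (nat_lit 760) (nat_lit 55131887082) (nat_lit 76) (nat_lit 5088087230) (nat_lit 123) (nat_lit 5) (nat_lit 133) (nat_lit 5) (nat_lit 124) (nat_lit 5) (nat_lit 422) (nat_lit 412) (nat_lit 186)) (XT.nd (nat_lit 78) (nat_lit 0) (nat_lit 0) (XT.lf (nat_lit 0) (nat_lit 37620034387) (nat_lit 760) (nat_lit 95893955730) (nat_lit 836) (nat_lit 47275191701) (nat_lit 113) (nat_lit 5) (nat_lit 123) (nat_lit 5) (nat_lit 124) (nat_lit 5) (nat_lit 423) (nat_lit 412) (nat_lit 185)) (XT.lf (nat_lit 0) (nat_lit 136923478511) (nat_lit 760) (nat_lit 16102090186) (nat_lit 836) (nat_lit 32702948481) (nat_lit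 113) (nat_lit 5) (nat_lit 123) (nat_lit 5) (nat_lit 124) (nat_lit 5) (nat_lit 424) (nat_lit 412) (nat_lit 184)))) (XT.nd (nat_lit 78) (nat_lit 456) (nat_lit 0) (XT.lf (nat_lit 0) (nat_lit 50847933419) (nat_lit 380) (nat_lit 124515202192) (nat_lit 456) (nat_lit 15459163296) (nat_lit 108) (nat_lit 5) (nat_lit 113) (nat_lit 5) (nat_lit 114) (nat_lit 5) (nat_lit 425) (nat_lit 412) (nat_lit 183)) (XT.nd (nat_lit 78) (nat_lit 380) (nat_lit 0) (XT.lf (nat_lit 0) (nat_lit 3666020342) (nat_lit 456) (nat_lit 39270461903) (nat_lit 76) (nat_lit 153177025149) (nat_lit 107) (nat_lit 5) (nat_lit 113) (nat_lit 5) (nat_lit 108) (nat_lit 5) (nat_lit 426) (nat_lit 412) (nat_lit 182)) (XT.lf (nat_lit 0) (nat_lit 24984453425) (nat_lit 456) (nat_lit 133887419092) (nat_lit 76) (nat_lit 42696906429) (nat_lit 102) (nat_lit 5) (nat_lit 108) (nat_lit 5) (nat_lit 103) (nat_lit 5) (nat_lit 427) (nat_lit 412) (nat_lit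 181))))) (XT.nd (nat_lit 234) (nat_lit 912) (nat_lit 0) (XT.nd (nat_lit 78) (nat_lit 380) (nat_lit 0) (XT.lf (nat_lit 0) (nat_lit 48748530448) (nat_lit 456) (nat_lit 26634314946) (nat_lit 76) (nat_lit 131844982623) (nat_lit 102) (nat_lit 5) (nat_lit 108) (nat_lit 5) (nat_lit 103) (nat_lit 5) (nat_lit 428) (nat_lit 412) (nat_lit 180)) (XT.nd (nat_lit 78) (nat_lit 0) (nat_lit 0) (XT.lf (nat_lit 0) (nat_lit 75301960511) (nat_lit 456) (nat_lit 124490712697) (nat_lit 76) (nat_lit 13297098931) (nat_lit 97) (nat_lit 5) (nat_lit 103) (nat_lit 5) (nat_lit 98) (nat_lit 5) (nat_lit 429) (nat_lit 412) (nat_lit 179)) (XT.lf (nat_lit 0) (nat_lit 104877193770) (nat_lit 456) (nat_lit 9946779731) (nat_lit 76) (nat_lit 104336133433) (nat_lit 97) (nat_lit 5) (nat_lit 103) (nat_lit 5) (nat_lit 98) (nat_lit 5) (nat_lit 430) (nat_lit 412) (nat_lit 178)))) (XT.nd (nat_lit 156) (nat_lit 304) (nat_lit 0) (XT.nd (nat_lit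 78) (nat_lit 304) (nat_lit 0) (XT.lf (nat_lit 0) (nat_lit 113972046687) (nat_lit 304) (nat_lit 23738458225) (nat_lit 380) (nat_lit 87734487796) (nat_lit 93) (nat_lit 5) (nat_lit 97) (nat_lit 5) (nat_lit 98) (nat_lit 5) (nat_lit 431) (nat_lit 412) (nat_lit 177)) (XT.lf (nat_lit 0) (nat_lit 11643647137) (nat_lit 304) (nat_lit 162017316976) (nat_lit 380) (nat_lit 58309384581) (nat_lit 89) (nat_lit 5) (nat_lit 93) (nat_lit 5) (nat_lit 94) (nat_lit 5) (nat_lit 432) (nat_lit 412) (nat_lit 176))) (XT.nd (nat_lit 78) (nat_lit 304) (nat_lit 0) (XT.lf (nat_lit 0) (nat_lit 144384015133) (nat_lit 304) (nat_lit 69295556995) (nat_lit 380) (nat_lit 25028869103) (nat_lit 89) (nat_lit 5) (nat_lit 93) (nat_lit 5) (nat_lit 94) (nat_lit 5) (nat_lit 433) (nat_lit 412) (nat_lit 175)) (XT.lf (nat_lit 0) (nat_lit 10658929396) (nat_lit 304) (nat_lit 207122236686) (nat_lit 76) (nat_lit 27941500747) (nat_lit 85) (nat_lit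 5) (nat_lit 89) (nat_lit 5) (nat_lit 86) (nat_lit 5) (nat_lit 434) (nat_lit 412) (nat_lit 174)))))) (XT.nd (nat_lit 546) (nat_lit 836) (nat_lit 0) (XT.nd (nat_lit 234) (nat_lit 760) (nat_lit 0) (XT.nd (nat_lit 78) (nat_lit 304) (nat_lit 0) (XT.lf (nat_lit 0) (nat_lit 50049498475) (nat_lit 304) (nat_lit 73134082888) (nat_lit 76) (nat_lit 129745531179) (nat_lit 85) (nat_lit 5) (nat_lit 89) (nat_lit 5) (nat_lit 86) (nat_lit 5) (nat_lit 435) (nat_lit 412) (nat_lit 173)) (XT.nd (nat_lit 78) (nat_lit 0) (nat_lit 0) (XT.lf (nat_lit 0) (nat_lit 69786982132) (nat_lit 304) (nat_lit 22712093646) (nat_lit 380) (nat_lit 167942330812) (nat_lit 81) (nat_lit 5) (nat_lit 85) (nat_lit 5) (nat_lit 86) (nat_lit 5) (nat_lit 436) (nat_lit 412) (nat_lit 172)) (XT.lf (nat_lit 0) (nat_lit 139622382980) (nat_lit 380) (nat_lit 47187132974) (nat_lit 76) (nat_lit 81392236869) (nat_lit 81) (nat_lit 5) (nat_lit 86) (nat_lit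 5) (nat_lit 82) (nat_lit 5) (nat_lit 437) (nat_lit 412) (nat_lit 171)))) (XT.nd (nat_lit 156) (nat_lit 532) (nat_lit 0) (XT.nd (nat_lit 78) (nat_lit 0) (nat_lit 0) (XT.lf (nat_lit 0) (nat_lit 106489407479) (nat_lit 228) (nat_lit 84647291301) (nat_lit 304) (nat_lit 85111675460) (nat_lit 78) (nat_lit 5) (nat_lit 81) (nat_lit 5) (nat_lit 82) (nat_lit 5) (nat_lit 438) (nat_lit 412) (nat_lit 170)) (XT.lf (nat_lit 0) (nat_lit 246392094623) (nat_lit 304) (nat_lit 15535788106) (nat_lit 76) (nat_lit 22711175817) (nat_lit 78) (nat_lit 5) (nat_lit 82) (nat_lit 5) (nat_lit 79) (nat_lit 5) (nat_lit 439) (nat_lit 412) (nat_lit 169))) (XT.nd (nat_lit 78) (nat_lit 228) (nat_lit 0) (XT.lf (nat_lit 0) (nat_lit 14397718423) (nat_lit 304) (nat_lit 143689683553) (nat_lit 76) (nat_lit 135163940781) (nat_lit 74) (nat_lit 5) (nat_lit 78) (nat_lit 5) (nat_lit 75) (nat_lit 5) (nat_lit 440) (nat_lit 412) (nat_lit 168))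 (XT.lf (nat_lit 0) (nat_lit 21220011184) (nat_lit 228) (nat_lit 47767920364) (nat_lit 304) (nat_lit 233245027416) (nat_lit 71) (nat_lit 5) (nat_lit 74) (nat_lit 5) (nat_lit 75) (nat_lit 5) (nat_lit 441) (nat_lit 412) (nat_lit 167))))) (XT.nd (nat_lit 234) (nat_lit 608) (nat_lit 0) (XT.nd (nat_lit 78) (nat_lit 228) (nat_lit 0) (XT.lf (nat_lit 0) (nat_lit 129843651144) (nat_lit 304) (nat_lit 113280940036) (nat_lit 76) (nat_lit 68362265036) (nat_lit 71) (nat_lit 5) (nat_lit 75) (nat_lit 5) (nat_lit 72) (nat_lit 5) (nat_lit 442) (nat_lit 412) (nat_lit 166)) (XT.nd (nat_lit 78) (nat_lit 0) (nat_lit 0) (XT.lf (nat_lit 0) (nat_lit 64106283029) (nat_lit 228) (nat_lit 131419760532) (nat_lit 304) (nat_lit 125588210454) (nat_lit 68) (nat_lit 5) (nat_lit 71) (nat_lit 5) (nat_lit 72) (nat_lit 5) (nat_lit 443) (nat_lit 412) (nat_lit 165)) (XT.lf (nat_lit 0) (nat_lit 254295621586) (nat_lit 228) (nat_lit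 12115330820) (nat_lit 304) (nat_lit 64716149480) (nat_lit 68) (nat_lit 5) (nat_lit 71) (nat_lit 5) (nat_lit 72) (nat_lit 5) (nat_lit 444) (nat_lit 412) (nat_lit 164)))) (XT.nd (nat_lit 156) (nat_lit 380) (nat_lit 0) (XT.nd (nat_lit 78) (nat_lit 0) (nat_lit 0) (XT.lf (nat_lit 0) (nat_lit 2833586615) (nat_lit 228) (nat_lit 227265197645) (nat_lit 76) (nat_lit 111362010228) (nat_lit 65) (nat_lit 5) (nat_lit 68) (nat_lit 5) (nat_lit 66) (nat_lit 5) (nat_lit 445) (nat_lit 412) (nat_lit 163)) (XT.lf (nat_lit 0) (nat_lit 73106976295) (nat_lit 228) (nat_lit 36085635352) (nat_lit 76) (nat_lit 242989461380) (nat_lit 65) (nat_lit 5) (nat_lit 68) (nat_lit 5) (nat_lit 66) (nat_lit 5) (nat_lit 446) (nat_lit 412) (nat_lit 162))) (XT.nd (nat_lit 78) (nat_lit 152) (nat_lit 0) (XT.lf (nat_lit 0) (nat_lit 149870462915) (nat_lit 304) (nat_lit 193530462600) (nat_lit 76) (nat_lit 19889668625) (nat_lit 62) (nat_lit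 5) (nat_lit 66) (nat_lit 5) (nat_lit 63) (nat_lit 5) (nat_lit 447) (nat_lit 412) (nat_lit 161)) (XT.lf (nat_lit 0) (nat_lit 10771612396) (nat_lit 152) (nat_lit 222279812456) (nat_lit 228) (nat_lit 141774151427) (nat_lit 60) (nat_lit 5) (nat_lit 62) (nat_lit 5) (nat_lit 63) (nat_lit 5) (nat_lit 448) (nat_lit 412) (nat_lit 160))))))) (XT.nd (nat_lit 1014) (nat_lit 684) (nat_lit 0) (XT.nd (nat_lit 468) (nat_lit 684) (nat_lit 0) (XT.nd (nat_lit 234) (nat_lit 304) (nat_lit 0) (XT.nd (nat_lit 78) (nat_lit 228) (nat_lit 0) (XT.lf (nat_lit 0) (nat_lit 232007634595) (nat_lit 152) (nat_lit 91661270737) (nat_lit 228) (nat_lit 63104528688) (nat_lit 60) (nat_lit 5) (nat_lit 62) (nat_lit 5) (nat_lit 63) (nat_lit 5) (nat_lit 449) (nat_lit 412) (nat_lit 159)) (XT.nd (nat_lit 78) (nat_lit 0) (nat_lit 0) (XT.lf (nat_lit 0) (nat_lit 20649992479) (nat_lit 228) (nat_lit 333162655520) (nat_lit 76) (nat_lit 45402040622)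 (nat_lit 57) (nat_lit 5) (nat_lit 60) (nat_lit 5) (nat_lit 58) (nat_lit 5) (nat_lit 450) (nat_lit 412) (nat_lit 158)) (XT.lf (nat_lit 0) (nat_lit 110638100205) (nat_lit 228) (nat_lit 111443285369) (nat_lit 76) (nat_lit 189936566046) (nat_lit 57) (nat_lit 5) (nat_lit 60) (nat_lit 5) (nat_lit 58) (nat_lit 5) (nat_lit 451) (nat_lit 412) (nat_lit 157)))) (XT.nd (nat_lit 78) (nat_lit 152) (nat_lit 0) (XT.lf (nat_lit 0) (nat_lit 125374736973) (nat_lit 152) (nat_lit 81708271366) (nat_lit 228) (nat_lit 218280499694) (nat_lit 55) (nat_lit 5) (nat_lit 57) (nat_lit 5) (nat_lit 58) (nat_lit 5) (nat_lit 452) (nat_lit 412) (nat_lit 156)) (XT.nd (nat_lit 78) (nat_lit 152) (nat_lit 0) (XT.lf (nat_lit 0) (nat_lit 311293896175) (nat_lit 228) (nat_lit 62435790524) (nat_lit 76) (nat_lit 65499468868) (nat_lit 55) (nat_lit 5) (nat_lit 58) (nat_lit 5) (nat_lit 56) (nat_lit 5) (nat_lit 453) (nat_lit 412) (nat_lit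 155)) (XT.lf (nat_lit 0) (nat_lit 191793873655) (nat_lit 152) (nat_lit 233255321850) (nat_lit 228) (nat_lit 28522196629) (nat_lit 53) (nat_lit 5) (nat_lit 55) (nat_lit 5) (nat_lit 56) (nat_lit 5) (nat_lit 454) (nat_lit 412) (nat_lit 154))))) (XT.nd (nat_lit 234) (nat_lit 304) (nat_lit 0) (XT.nd (nat_lit 78) (nat_lit 304) (nat_lit 0) (XT.lf (nat_lit 0) (nat_lit 74508139001) (nat_lit 228) (nat_lit 8877053423) (nat_lit 76) (nat_lit 385132594467) (nat_lit 52) (nat_lit 5) (nat_lit 55) (nat_lit 5) (nat_lit 53) (nat_lit 5) (nat_lit 455) (nat_lit 412) (nat_lit 153)) (XT.nd (nat_lit 78) (nat_lit 152) (nat_lit 0) (XT.lf (nat_lit 0) (nat_lit 187094096947) (nat_lit 228) (nat_lit 220540000041) (nat_lit 76) (nat_lit 76285893641) (nat_lit 50) (nat_lit 5) (nat_lit 53) (nat_lit 5) (nat_lit 51) (nat_lit 5) (nat_lit 456) (nat_lit 412) (nat_lit 152)) (XT.lf (nat_lit 0) (nat_lit 49694299367) (nat_lit 152) (nat_lit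 257910643558) (nat_lit 228) (nat_lit 192372582133) (nat_lit 48) (nat_lit 5) (nat_lit 50) (nat_lit 5) (nat_lit 51) (nat_lit 5) (nat_lit 457) (nat_lit 412) (nat_lit 151)))) (XT.nd (nat_lit 156) (nat_lit 152) (nat_lit 0) (XT.nd (nat_lit 78) (nat_lit 152) (nat_lit 0) (XT.lf (nat_lit 0) (nat_lit 341096881906) (nat_lit 152) (nat_lit 96779352712) (nat_lit 228) (nat_lit 78774956431) (nat_lit 48) (nat_lit 5) (nat_lit 50) (nat_lit 5) (nat_lit 51) (nat_lit 5) (nat_lit 458) (nat_lit 412) (nat_lit 150)) (XT.lf (nat_lit 0) (nat_lit 42187668012) (nat_lit 152) (nat_lit 419215878073) (nat_lit 76) (nat_lit 72574303745) (nat_lit 46) (nat_lit 5) (nat_lit 48) (nat_lit 5) (nat_lit 47) (nat_lit 5) (nat_lit 459) (nat_lit 412) (nat_lit 149))) (XT.nd (nat_lit 78) (nat_lit 152) (nat_lit 0) (XT.lf (nat_lit 0) (nat_lit 171159405624) (nat_lit 152) (nat_lit 129260030325) (nat_lit 76) (nat_lit 251456419124) (nat_lit 46)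 (nat_lit 5) (nat_lit 48) (nat_lit 5) (nat_lit 47) (nat_lit 5) (nat_lit 460) (nat_lit 412) (nat_lit 148)) (XT.lf (nat_lit 0) (nat_lit 180986222306) (nat_lit 152) (nat_lit 128419165957) (nat_lit 228) (nat_lit 261122089415) (nat_lit 44) (nat_lit 5) (nat_lit 46) (nat_lit 5) (nat_lit 47) (nat_lit 5) (nat_lit 461) (nat_lit 412) (nat_lit 147)))))) (XT.nd (nat_lit 546) (nat_lit 76) (nat_lit 0) (XT.nd (nat_lit 234) (nat_lit 456) (nat_lit 0) (XT.nd (nat_lit 78) (nat_lit 152) (nat_lit 0) (XT.lf (nat_lit 0) (nat_lit 457603287662) (nat_lit 228) (nat_lit 79620480783) (nat_lit 76) (nat_lit 52735932097) (nat_lit 44) (nat_lit 5) (nat_lit 47) (nat_lit 5) (nat_lit 45) (nat_lit 4) (nat_lit 462) (nat_lit 412) (nat_lit 146)) (XT.nd (nat_lit 78) (nat_lit 0) (nat_lit 0) (XT.lf (nat_lit 0) (nat_lit 8891045071) (nat_lit 152) (nat_lit 358456601393) (nat_lit 76) (nat_lit 242706933336) (nat_lit 42) (nat_lit 5) (nat_lit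 44) (nat_lit 5) (nat_lit 43) (nat_lit 5) (nat_lit 463) (nat_lit 412) (nat_lit 145)) (XT.lf (nat_lit 0) (nat_lit 154123307666) (nat_lit 152) (nat_lit 31137134773) (nat_lit 76) (nat_lit 445716747971) (nat_lit 42) (nat_lit 5) (nat_lit 44) (nat_lit 5) (nat_lit 43) (nat_lit 5) (nat_lit 464) (nat_lit 412) (nat_lit 144)))) (XT.nd (nat_lit 156) (nat_lit 228) (nat_lit 0) (XT.nd (nat_lit 78) (nat_lit 76) (nat_lit 0) (XT.lf (nat_lit 0) (nat_lit 311833486521) (nat_lit 228) (nat_lit 329986629413) (nat_lit 76) (nat_lit 10865000466) (nat_lit 40) (nat_lit 5) (nat_lit 43) (nat_lit 5) (nat_lit 41) (nat_lit 4) (nat_lit 465) (nat_lit 412) (nat_lit 143)) (XT.lf (nat_lit 0) (nat_lit 17364839911) (nat_lit 76) (nat_lit 463908432674) (nat_lit 152) (nat_lit 194012961197) (nat_lit 39) (nat_lit 5) (nat_lit 40) (nat_lit 5) (nat_lit 41) (nat_lit 4) (nat_lit 466) (nat_lit 412) (nat_lit 142))) (XT.nd (nat_lit 78) (nat_lit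 228) (nat_lit 0) (XT.lf (nat_lit 0) (nat_lit 393540203858) (nat_lit 76) (nat_lit 271233289053) (nat_lit 152) (nat_lit 33964491882) (nat_lit 39) (nat_lit 5) (nat_lit 40) (nat_lit 5) (nat_lit 41) (nat_lit 4) (nat_lit 467) (nat_lit 412) (nat_lit 141)) (XT.lf (nat_lit 0) (nat_lit 65153809542) (nat_lit 152) (nat_lit 65658185640) (nat_lit 228) (nat_lit 592394795128) (nat_lit 36) (nat_lit 5) (nat_lit 38) (nat_lit 5) (nat_lit 39) (nat_lit 5) (nat_lit 468) (nat_lit 412) (nat_lit 140))))) (XT.nd (nat_lit 48828) (nat_lit 0) (nat_lit 6308) (XT.nd (nat_lit 78) (nat_lit 76) (nat_lit 0) (XT.lf (nat_lit 0) (nat_lit 310284219957) (nat_lit 228) (nat_lit 287008415487) (nat_lit 76) (nat_lit 151198643765) (nat_lit 36) (nat_lit 5) (nat_lit 39) (nat_lit 5) (nat_lit 37) (nat_lit 4) (nat_lit 469) (nat_lit 412) (nat_lit 139)) (XT.nd (nat_lit 48672) (nat_lit 0) (nat_lit 6308) (XT.lf (nat_lit 0) (nat_lit 104868393409)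 (nat_lit 76) (nat_lit 396575280726) (nat_lit 152) (nat_lit 273460637516) (nat_lit 35) (nat_lit 5) (nat_lit 36) (nat_lit 5) (nat_lit 37) (nat_lit 4) (nat_lit 470) (nat_lit 412) (nat_lit 138)) (XT.lf (nat_lit 0) (nat_lit 20053508621) (nat_lit 836) (nat_lit 25784361006) (nat_lit 836) (nat_lit 25784361006) (nat_lit 118) (nat_lit 3) (nat_lit 129) (nat_lit 3) (nat_lit 129) (nat_lit 5) (nat_lit 413) (nat_lit 413) (nat_lit 194)))) (XT.nd (nat_lit 156) (nat_lit 0) (nat_lit 76) (XT.nd (nat_lit 78) (nat_lit 0) (nat_lit 76) (XT.lf (nat_lit 76) (nat_lit 18622241995) (nat_lit 0) (nat_lit 22781307124) (nat_lit 836) (nat_lit 105407329154) (nat_lit 119) (nat_lit 5) (nat_lit 118) (nat_lit 3) (nat_lit 129) (nat_lit 5) (nat_lit 414) (nat_lit 413) (nat_lit 193)) (XT.lf (nat_lit 0) (nat_lit 44426103407) (nat_lit 760) (nat_lit 57187018889) (nat_lit 836) (nat_lit 48859434154) (nat_lit 119) (nat_lit 5) (nat_lit 129)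 (nat_lit 5) (nat_lit 130) (nat_lit 5) (nat_lit 415) (nat_lit 413) (nat_lit 192))) (XT.nd (nat_lit 78) (nat_lit 0) (nat_lit 76) (XT.lf (nat_lit 76) (nat_lit 17552903898) (nat_lit 0) (nat_lit 30694205692) (nat_lit 836) (nat_lit 106037842839) (nat_lit 120) (nat_lit 5) (nat_lit 119) (nat_lit 5) (nat_lit 130) (nat_lit 5) (nat_lit 416) (nat_lit 413) (nat_lit 191)) (XT.lf (nat_lit 0) (nat_lit 53926733922) (nat_lit 760) (nat_lit 60923698687) (nat_lit 836) (nat_lit 43354157306) (nat_lit 120) (nat_lit 5) (nat_lit 130) (nat_lit 5) (nat_lit 131) (nat_lit 5) (nat_lit 417) (nat_lit 413) (nat_lit 190))))))))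
noncomputable def xc235 : XT := (XT.nd (nat_lit 2106) (nat_lit 2432) (nat_lit 0) (XT.nd (nat_lit 1014) (nat_lit 2204) (nat_lit 0) (XT.nd (nat_lit 468) (nat_lit 1748) (nat_lit 0) (XT.nd (nat_lit 234) (nat_lit 0) (nat_lit 152) (XT.nd (nat_lit 78) (nat_lit 0) (nat_lit 76) (XT.lf (nat_lit 76) (nat_lit 18772609051) (nat_lit 0) (nat_lit 41913834299) (nat_lit 836) (nat_lit 101593960824) (nat_lit 121) (nat_lit 5) (nat_lit 120) (nat_lit 5) (nat_lit 131) (nat_lit 5) (nat_lit 418) (nat_lit 413) (nat_lit 189)) (XT.nd (nat_lit 78) (nat_lit 0) (nat_lit 0) (XT.lf (nat_lit 0) (nat_lit 69373948781) (nat_lit 760) (nat_lit 62497882890) (nat_lit 836) (nat_lit 34608687039) (nat_lit 121) (nat_lit 5) (nat_lit 131) (nat_lit 5) (nat_lit 132) (nat_lit 5) (nat_lit 419) (nat_lit 413) (nat_lit 188)) (XT.lf (nat_lit 76) (nat_lit 22598590897) (nat_lit 0) (nat_lit 56937020237) (nat_lit 836) (nat_lit 91303038843) (nat_lit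 122) (nat_lit 5) (nat_lit 121) (nat_lit 5) (nat_lit 132) (nat_lit 5) (nat_lit 420) (nat_lit 413) (nat_lit 187)))) (XT.nd (nat_lit 78) (nat_lit 0) (nat_lit 0) (XT.lf (nat_lit 0) (nat_lit 91620481448) (nat_lit 760) (nat_lit 61599061287) (nat_lit 836) (nat_lit 22124388909) (nat_lit 122) (nat_lit 5) (nat_lit 132) (nat_lit 5) (nat_lit 133) (nat_lit 5) (nat_lit 421) (nat_lit 413) (nat_lit 186)) (XT.nd (nat_lit 78) (nat_lit 0) (nat_lit 76) (XT.lf (nat_lit 76) (nat_lit 29380844663) (nat_lit 0) (nat_lit 76320717460) (nat_lit 836) (nat_lit 74303317008) (nat_lit 123) (nat_lit 5) (nat_lit 122) (nat_lit 5) (nat_lit 133) (nat_lit 5) (nat_lit 422) (nat_lit 413) (nat_lit 185)) (XT.lf (nat_lit 0) (nat_lit 121615925884) (nat_lit 760) (nat_lit 57884669215) (nat_lit 76) (nat_lit 5341817513) (nat_lit 123) (nat_lit 5) (nat_lit 133) (nat_lit 5) (nat_lit 124) (nat_lit 5) (nat_lit 423) (nat_lit 413) (nat_lit 184)))))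 (XT.nd (nat_lit 234) (nat_lit 836) (nat_lit 0) (XT.nd (nat_lit 78) (nat_lit 380) (nat_lit 0) (XT.lf (nat_lit 0) (nat_lit 39504786840) (nat_lit 760) (nat_lit 100689028491) (nat_lit 836) (nat_lit 49634617132) (nat_lit 113) (nat_lit 5) (nat_lit 123) (nat_lit 5) (nat_lit 124) (nat_lit 5) (nat_lit 424) (nat_lit 413) (nat_lit 183)) (XT.nd (nat_lit 78) (nat_lit 380) (nat_lit 0) (XT.lf (nat_lit 0) (nat_lit 143773224563) (nat_lit 760) (nat_lit 16907551815) (nat_lit 836) (nat_lit 34333968140) (nat_lit 113) (nat_lit 5) (nat_lit 123) (nat_lit 5) (nat_lit 124) (nat_lit 5) (nat_lit 425) (nat_lit 413) (nat_lit 182)) (XT.lf (nat_lit 0) (nat_lit 53394045405) (nat_lit 380) (nat_lit 130741041823) (nat_lit 456) (nat_lit 16228134924) (nat_lit 108) (nat_lit 5) (nat_lit 113) (nat_lit 5) (nat_lit 114) (nat_lit 5) (nat_lit 426) (nat_lit 413) (nat_lit 181)))) (XT.nd (nat_lit 156) (nat_lit 380) (nat_lit 0) (XT.nd (nat_lit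 78) (nat_lit 380) (nat_lit 0) (XT.lf (nat_lit 0) (nat_lit 3852996542) (nat_lit 456) (nat_lit 41230323308) (nat_lit 76) (nat_lit 160835677378) (nat_lit 107) (nat_lit 5) (nat_lit 113) (nat_lit 5) (nat_lit 108) (nat_lit 5) (nat_lit 427) (nat_lit 413) (nat_lit 180)) (XT.lf (nat_lit 0) (nat_lit 26237233239) (nat_lit 456) (nat_lit 140578008624) (nat_lit 76) (nat_lit 44831796480) (nat_lit 102) (nat_lit 5) (nat_lit 108) (nat_lit 5) (nat_lit 103) (nat_lit 5) (nat_lit 428) (nat_lit 413) (nat_lit 179))) (XT.nd (nat_lit 78) (nat_lit 380) (nat_lit 0) (XT.lf (nat_lit 0) (nat_lit 51189344726) (nat_lit 456) (nat_lit 27962429339) (nat_lit 76) (nat_lit 138437274355) (nat_lit 102) (nat_lit 5) (nat_lit 108) (nat_lit 5) (nat_lit 103) (nat_lit 5) (nat_lit 429) (nat_lit 413) (nat_lit 178)) (XT.lf (nat_lit 0) (nat_lit 79070344374) (nat_lit 456) (nat_lit 130711543524) (nat_lit 76) (nat_lit 13962207022) (nat_lit 97)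 (nat_lit 5) (nat_lit 103) (nat_lit 5) (nat_lit 98) (nat_lit 5) (nat_lit 430) (nat_lit 413) (nat_lit 177)))))) (XT.nd (nat_lit 546) (nat_lit 988) (nat_lit 0) (XT.nd (nat_lit 234) (nat_lit 608) (nat_lit 0) (XT.nd (nat_lit 78) (nat_lit 608) (nat_lit 0) (XT.lf (nat_lit 0) (nat_lit 110124182827) (nat_lit 456) (nat_lit 10440590330) (nat_lit 76) (nat_lit 109553181194) (nat_lit 97) (nat_lit 5) (nat_lit 103) (nat_lit 5) (nat_lit 98) (nat_lit 5) (nat_lit 431) (nat_lit 413) (nat_lit 176)) (XT.nd (nat_lit 78) (nat_lit 304) (nat_lit 0) (XT.lf (nat_lit 0) (nat_lit 119674120500) (nat_lit 304) (nat_lit 24924944208) (nat_lit 380) (nat_lit 92118024516) (nat_lit 93) (nat_lit 5) (nat_lit 97) (nat_lit 5) (nat_lit 98) (nat_lit 5) (nat_lit 432) (nat_lit 413) (nat_lit 175)) (XT.lf (nat_lit 0) (nat_lit 12229388919) (nat_lit 304) (nat_lit 170117575517) (nat_lit 380) (nat_lit 61221752761) (nat_lit 89) (nat_lit 5) (nat_lit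 93) (nat_lit 5) (nat_lit 94) (nat_lit 5) (nat_lit 433) (nat_lit 413) (nat_lit 174)))) (XT.nd (nat_lit 156) (nat_lit 304) (nat_lit 0) (XT.nd (nat_lit 78) (nat_lit 304) (nat_lit 0) (XT.lf (nat_lit 0) (nat_lit 151606605819) (nat_lit 304) (nat_lit 72759756456) (nat_lit 380) (nat_lit 26277359178) (nat_lit 89) (nat_lit 5) (nat_lit 93) (nat_lit 5) (nat_lit 94) (nat_lit 5) (nat_lit 434) (nat_lit 413) (nat_lit 173)) (XT.lf (nat_lit 0) (nat_lit 11194662324) (nat_lit 304) (nat_lit 217474789323) (nat_lit 76) (nat_lit 29339208056) (nat_lit 85) (nat_lit 5) (nat_lit 89) (nat_lit 5) (nat_lit 86) (nat_lit 5) (nat_lit 435) (nat_lit 413) (nat_lit 172))) (XT.nd (nat_lit 78) (nat_lit 304) (nat_lit 0) (XT.lf (nat_lit 0) (nat_lit 52554627169) (nat_lit 304) (nat_lit 76787397320) (nat_lit 76) (nat_lit 136233409901) (nat_lit 85) (nat_lit 5) (nat_lit 89) (nat_lit 5) (nat_lit 86) (nat_lit 5) (nat_lit 436) (nat_lit 413)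 (nat_lit 171)) (XT.lf (nat_lit 0) (nat_lit 73279666278) (nat_lit 304) (nat_lit 23846942758) (nat_lit 380) (nat_lit 176336737871) (nat_lit 81) (nat_lit 5) (nat_lit 85) (nat_lit 5) (nat_lit 86) (nat_lit 5) (nat_lit 437) (nat_lit 413) (nat_lit 170))))) (XT.nd (nat_lit 234) (nat_lit 760) (nat_lit 0) (XT.nd (nat_lit 78) (nat_lit 228) (nat_lit 0) (XT.lf (nat_lit 0) (nat_lit 146605970001) (nat_lit 380) (nat_lit 49543200808) (nat_lit 76) (nat_lit 85462545272) (nat_lit 81) (nat_lit 5) (nat_lit 86) (nat_lit 5) (nat_lit 82) (nat_lit 5) (nat_lit 438) (nat_lit 413) (nat_lit 169)) (XT.nd (nat_lit 78) (nat_lit 0) (nat_lit 0) (XT.lf (nat_lit 0) (nat_lit 111817113622) (nat_lit 228) (nat_lit 88878820971) (nat_lit 304) (nat_lit 89364737373) (nat_lit 78) (nat_lit 5) (nat_lit 81) (nat_lit 5) (nat_lit 82) (nat_lit 5) (nat_lit 439) (nat_lit 413) (nat_lit 168)) (XT.lf (nat_lit 0) (nat_lit 258713998315) (nat_lit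 304) (nat_lit 16309393016) (nat_lit 76) (nat_lit 23847504297) (nat_lit 78) (nat_lit 5) (nat_lit 82) (nat_lit 5) (nat_lit 79) (nat_lit 5) (nat_lit 440) (nat_lit 413) (nat_lit 167)))) (XT.nd (nat_lit 156) (nat_lit 228) (nat_lit 0) (XT.nd (nat_lit 78) (nat_lit 228) (nat_lit 0) (XT.lf (nat_lit 0) (nat_lit 15119880270) (nat_lit 304) (nat_lit 150870958533) (nat_lit 76) (nat_lit 141922956483) (nat_lit 74) (nat_lit 5) (nat_lit 78) (nat_lit 5) (nat_lit 75) (nat_lit 5) (nat_lit 441) (nat_lit 413) (nat_lit 166)) (XT.lf (nat_lit 0) (nat_lit 22284169180) (nat_lit 228) (nat_lit 50155375790) (nat_lit 304) (nat_lit 244904950325) (nat_lit 71) (nat_lit 5) (nat_lit 74) (nat_lit 5) (nat_lit 75) (nat_lit 5) (nat_lit 442) (nat_lit 413) (nat_lit 165))) (XT.nd (nat_lit 78) (nat_lit 228) (nat_lit 0) (XT.lf (nat_lit 0) (nat_lit 136337958968) (nat_lit 304) (nat_lit 118941887639) (nat_lit 76) (nat_lit 71781245419) (nat_lit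 71) (nat_lit 5) (nat_lit 75) (nat_lit 5) (nat_lit 72) (nat_lit 5) (nat_lit 443) (nat_lit 413) (nat_lit 164)) (XT.lf (nat_lit 0) (nat_lit 67314646590) (nat_lit 228) (nat_lit 137989770823) (nat_lit 304) (nat_lit 131865445016) (nat_lit 68) (nat_lit 5) (nat_lit 71) (nat_lit 5) (nat_lit 72) (nat_lit 5) (nat_lit 444) (nat_lit 413) (nat_lit 163))))))) (XT.nd (nat_lit 1092) (nat_lit 912) (nat_lit 0) (XT.nd (nat_lit 546) (nat_lit 684) (nat_lit 0) (XT.nd (nat_lit 234) (nat_lit 608) (nat_lit 0) (XT.nd (nat_lit 78) (nat_lit 228) (nat_lit 0) (XT.lf (nat_lit 0) (nat_lit 267013306864) (nat_lit 228) (nat_lit 12720166185) (nat_lit 304) (nat_lit 67949884611) (nat_lit 68) (nat_lit 5) (nat_lit 71) (nat_lit 5) (nat_lit 72) (nat_lit 5) (nat_lit 445) (nat_lit 413) (nat_lit 162)) (XT.nd (nat_lit 78) (nat_lit 0) (nat_lit 0) (XT.lf (nat_lit 0) (nat_lit 2977237175) (nat_lit 228) (nat_lit 238625450970) (nat_lit 76)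 (nat_lit 116931046898) (nat_lit 65) (nat_lit 5) (nat_lit 68) (nat_lit 5) (nat_lit 66) (nat_lit 5) (nat_lit 446) (nat_lit 413) (nat_lit 161)) (XT.lf (nat_lit 0) (nat_lit 76764202472) (nat_lit 228) (nat_lit 37887053731) (nat_lit 76) (nat_lit 255139826028) (nat_lit 65) (nat_lit 5) (nat_lit 68) (nat_lit 5) (nat_lit 66) (nat_lit 5) (nat_lit 447) (nat_lit 413) (nat_lit 160)))) (XT.nd (nat_lit 156) (nat_lit 228) (nat_lit 0) (XT.nd (nat_lit 78) (nat_lit 152) (nat_lit 0) (XT.lf (nat_lit 0) (nat_lit 157365833392) (nat_lit 304) (nat_lit 203204091760) (nat_lit 76) (nat_lit 20885105778) (nat_lit 62) (nat_lit 5) (nat_lit 66) (nat_lit 5) (nat_lit 63) (nat_lit 5) (nat_lit 448) (nat_lit 413) (nat_lit 159)) (XT.lf (nat_lit 0) (nat_lit 11313040309) (nat_lit 152) (nat_lit 233392759602) (nat_lit 228) (nat_lit 148860964466) (nat_lit 60) (nat_lit 5) (nat_lit 62) (nat_lit 5) (nat_lit 63) (nat_lit 5) (nat_lit 449)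 (nat_lit 413) (nat_lit 158))) (XT.nd (nat_lit 78) (nat_lit 228) (nat_lit 0) (XT.lf (nat_lit 0) (nat_lit 243610728032) (nat_lit 152) (nat_lit 96243340487) (nat_lit 228) (nat_lit 66257950806) (nat_lit 60) (nat_lit 5) (nat_lit 62) (nat_lit 5) (nat_lit 63) (nat_lit 5) (nat_lit 450) (nat_lit 413) (nat_lit 157)) (XT.lf (nat_lit 0) (nat_lit 21684213963) (nat_lit 228) (nat_lit 349817993203) (nat_lit 76) (nat_lit 47673129339) (nat_lit 57) (nat_lit 5) (nat_lit 60) (nat_lit 5) (nat_lit 58) (nat_lit 5) (nat_lit 451) (nat_lit 413) (nat_lit 156))))) (XT.nd (nat_lit 234) (nat_lit 532) (nat_lit 0) (XT.nd (nat_lit 78) (nat_lit 152) (nat_lit 0) (XT.lf (nat_lit 0) (nat_lit 116171645082) (nat_lit 228) (nat_lit 117012787644) (nat_lit 76) (nat_lit 199434334049) (nat_lit 57) (nat_lit 5) (nat_lit 60) (nat_lit 5) (nat_lit 58) (nat_lit 5) (nat_lit 452) (nat_lit 413) (nat_lit 155)) (XT.nd (nat_lit 78) (nat_lit 0) (nat_lit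 0) (XT.lf (nat_lit 0) (nat_lit 131646092879) (nat_lit 152) (nat_lit 85792668546) (nat_lit 228) (nat_lit 229192841465) (nat_lit 55) (nat_lit 5) (nat_lit 57) (nat_lit 5) (nat_lit 58) (nat_lit 5) (nat_lit 453) (nat_lit 413) (nat_lit 154)) (XT.lf (nat_lit 0) (nat_lit 326860132448) (nat_lit 228) (nat_lit 65555024113) (nat_lit 76) (nat_lit 68775379318) (nat_lit 55) (nat_lit 5) (nat_lit 58) (nat_lit 5) (nat_lit 56) (nat_lit 5) (nat_lit 454) (nat_lit 413) (nat_lit 153)))) (XT.nd (nat_lit 156) (nat_lit 304) (nat_lit 0) (XT.nd (nat_lit 78) (nat_lit 76) (nat_lit 0) (XT.lf (nat_lit 0) (nat_lit 201386082050) (nat_lit 152) (nat_lit 244917080553) (nat_lit 228) (nat_lit 29946723399) (nat_lit 53) (nat_lit 5) (nat_lit 55) (nat_lit 5) (nat_lit 56) (nat_lit 5) (nat_lit 455) (nat_lit 413) (nat_lit 152)) (XT.lf (nat_lit 0) (nat_lit 78235005374) (nat_lit 228) (nat_lit 9318462537) (nat_lit 76) (nat_lit 404390135015)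 (nat_lit 52) (nat_lit 5) (nat_lit 55) (nat_lit 5) (nat_lit 53) (nat_lit 5) (nat_lit 456) (nat_lit 413) (nat_lit 151))) (XT.nd (nat_lit 78) (nat_lit 152) (nat_lit 0) (XT.lf (nat_lit 0) (nat_lit 196450244506) (nat_lit 228) (nat_lit 231564539451) (nat_lit 76) (nat_lit 80101133746) (nat_lit 50) (nat_lit 5) (nat_lit 53) (nat_lit 5) (nat_lit 51) (nat_lit 5) (nat_lit 457) (nat_lit 413) (nat_lit 150)) (XT.lf (nat_lit 0) (nat_lit 52181435240) (nat_lit 152) (nat_lit 270805166639) (nat_lit 228) (nat_lit 201989728535) (nat_lit 48) (nat_lit 5) (nat_lit 50) (nat_lit 5) (nat_lit 51) (nat_lit 5) (nat_lit 458) (nat_lit 413) (nat_lit 149)))))) (XT.nd (nat_lit 546) (nat_lit 456) (nat_lit 0) (XT.nd (nat_lit 234) (nat_lit 304) (nat_lit 0) (XT.nd (nat_lit 78) (nat_lit 152) (nat_lit 0) (XT.lf (nat_lit 0) (nat_lit 358154031625) (nat_lit 152) (nat_lit 101617359303) (nat_lit 228) (nat_lit 82712292153) (nat_lit 48)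 (nat_lit 5) (nat_lit 50) (nat_lit 5) (nat_lit 51) (nat_lit 5) (nat_lit 459) (nat_lit 413) (nat_lit 148)) (XT.nd (nat_lit 78) (nat_lit 0) (nat_lit 0) (XT.lf (nat_lit 0) (nat_lit 44298404568) (nat_lit 152) (nat_lit 440174306865) (nat_lit 76) (nat_lit 76203962967) (nat_lit 46) (nat_lit 5) (nat_lit 48) (nat_lit 5) (nat_lit 47) (nat_lit 5) (nat_lit 460) (nat_lit 413) (nat_lit 147)) (XT.lf (nat_lit 0) (nat_lit 179718664624) (nat_lit 152) (nat_lit 135720779354) (nat_lit 76) (nat_lit 264030139161) (nat_lit 46) (nat_lit 5) (nat_lit 48) (nat_lit 5) (nat_lit 47) (nat_lit 5) (nat_lit 461) (nat_lit 413) (nat_lit 146)))) (XT.nd (nat_lit 156) (nat_lit 152) (nat_lit 0) (XT.nd (nat_lit 78) (nat_lit 0) (nat_lit 0) (XT.lf (nat_lit 0) (nat_lit 190037749578) (nat_lit 152) (nat_lit 134839170050) (nat_lit 228) (nat_lit 274176868597) (nat_lit 44) (nat_lit 5) (nat_lit 46) (nat_lit 5) (nat_lit 47) (nat_lit 5) (nat_lit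 462) (nat_lit 413) (nat_lit 145)) (XT.lf (nat_lit 0) (nat_lit 480484668092) (nat_lit 228) (nat_lit 83599348063) (nat_lit 76) (nat_lit 55373608382) (nat_lit 44) (nat_lit 5) (nat_lit 47) (nat_lit 5) (nat_lit 45) (nat_lit 4) (nat_lit 463) (nat_lit 413) (nat_lit 144))) (XT.nd (nat_lit 78) (nat_lit 0) (nat_lit 0) (XT.lf (nat_lit 0) (nat_lit 9336808334) (nat_lit 152) (nat_lit 376377269242) (nat_lit 76) (nat_lit 254843170456) (nat_lit 42) (nat_lit 5) (nat_lit 44) (nat_lit 5) (nat_lit 43) (nat_lit 5) (nat_lit 464) (nat_lit 413) (nat_lit 143)) (XT.lf (nat_lit 0) (nat_lit 161830626392) (nat_lit 152) (nat_lit 32691932253) (nat_lit 76) (nat_lit 468003433420) (nat_lit 42) (nat_lit 5) (nat_lit 44) (nat_lit 5) (nat_lit 43) (nat_lit 5) (nat_lit 465) (nat_lit 413) (nat_lit 142))))) (XT.nd (nat_lit 234) (nat_lit 228) (nat_lit 0) (XT.nd (nat_lit 78) (nat_lit 76) (nat_lit 0) (XT.lf (nat_lit 0) (nat_lit 327426304890)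 (nat_lit 228) (nat_lit 346483892137) (nat_lit 76) (nat_lit 11409117803) (nat_lit 40) (nat_lit 5) (nat_lit 43) (nat_lit 5) (nat_lit 41) (nat_lit 4) (nat_lit 466) (nat_lit 413) (nat_lit 141)) (XT.nd (nat_lit 78) (nat_lit 0) (nat_lit 0) (XT.lf (nat_lit 0) (nat_lit 18235117287) (nat_lit 76) (nat_lit 487102940270) (nat_lit 152) (nat_lit 203712431668) (nat_lit 39) (nat_lit 5) (nat_lit 40) (nat_lit 5) (nat_lit 41) (nat_lit 4) (nat_lit 467) (nat_lit 413) (nat_lit 140)) (XT.lf (nat_lit 0) (nat_lit 413219152508) (nat_lit 76) (nat_lit 284794082994) (nat_lit 152) (nat_lit 35661594962) (nat_lit 39) (nat_lit 5) (nat_lit 40) (nat_lit 5) (nat_lit 41) (nat_lit 4) (nat_lit 468) (nat_lit 413) (nat_lit 139)))) (XT.nd (nat_lit 48906) (nat_lit 0) (nat_lit 6232) (XT.nd (nat_lit 48828) (nat_lit 0) (nat_lit 6232) (XT.lf (nat_lit 0) (nat_lit 68413442687) (nat_lit 152) (nat_lit 68940216506) (nat_lit 228) (nat_lit 622013417264)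 (nat_lit 36) (nat_lit 5) (nat_lit 38) (nat_lit 5) (nat_lit 39) (nat_lit 5) (nat_lit 469) (nat_lit 413) (nat_lit 138)) (XT.lf (nat_lit 0) (nat_lit 21059246540) (nat_lit 836) (nat_lit 27071970412) (nat_lit 836) (nat_lit 27071970412) (nat_lit 118) (nat_lit 3) (nat_lit 129) (nat_lit 3) (nat_lit 129) (nat_lit 5) (nat_lit 414) (nat_lit 414) (nat_lit 192))) (XT.nd (nat_lit 78) (nat_lit 0) (nat_lit 76) (XT.lf (nat_lit 76) (nat_lit 19556519490) (nat_lit 0) (nat_lit 23923089816) (nat_lit 836) (nat_lit 110671515553) (nat_lit 119) (nat_lit 5) (nat_lit 118) (nat_lit 3) (nat_lit 129) (nat_lit 5) (nat_lit 415) (nat_lit 414) (nat_lit 191)) (XT.lf (nat_lit 0) (nat_lit 46652970773) (nat_lit 760) (nat_lit 60043031597) (nat_lit 836) (nat_lit 51299900753) (nat_lit 119) (nat_lit 5) (nat_lit 129) (nat_lit 5) (nat_lit 130) (nat_lit 5) (nat_lit 416) (nat_lit 414) (nat_lit 190))))))))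
noncomputable def xc236 : XT := (XT.nd (nat_lit 2106) (nat_lit 2432) (nat_lit 0) (XT.nd (nat_lit 1014) (nat_lit 2356) (nat_lit 0) (XT.nd (nat_lit 468) (nat_lit 1292) (nat_lit 0) (XT.nd (nat_lit 234) (nat_lit 0) (nat_lit 152) (XT.nd (nat_lit 78) (nat_lit 0) (nat_lit 76) (XT.lf (nat_lit 76) (nat_lit 18433833486) (nat_lit 0) (nat_lit 32230980191) (nat_lit 836) (nat_lit 111334116048) (nat_lit 120) (nat_lit 5) (nat_lit 119) (nat_lit 5) (nat_lit 130) (nat_lit 5) (nat_lit 417) (nat_lit 414) (nat_lit 189)) (XT.nd (nat_lit 78) (nat_lit 0) (nat_lit 0) (XT.lf (nat_lit 0) (nat_lit 56628133837) (nat_lit 760) (nat_lit 63966467482) (nat_lit 836) (nat_lit 45519962175) (nat_lit 120) (nat_lit 5) (nat_lit 130) (nat_lit 5) (nat_lit 131) (nat_lit 5) (nat_lit 418) (nat_lit 414) (nat_lit 188)) (XT.lf (nat_lit 76) (nat_lit 19714600544) (nat_lit 0) (nat_lit 44011039562) (nat_lit 836) (nat_lit 106668537922) (nat_lit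 121) (nat_lit 5) (nat_lit 120) (nat_lit 5) (nat_lit 131) (nat_lit 5) (nat_lit 419) (nat_lit 414) (nat_lit 187)))) (XT.nd (nat_lit 78) (nat_lit 0) (nat_lit 0) (XT.lf (nat_lit 0) (nat_lit 72847266180) (nat_lit 760) (nat_lit 65619318916) (nat_lit 836) (nat_lit 36337726052) (nat_lit 121) (nat_lit 5) (nat_lit 131) (nat_lit 5) (nat_lit 132) (nat_lit 5) (nat_lit 420) (nat_lit 414) (nat_lit 186)) (XT.nd (nat_lit 78) (nat_lit 0) (nat_lit 76) (XT.lf (nat_lit 76) (nat_lit 23731922785) (nat_lit 0) (nat_lit 59784921987) (nat_lit 836) (nat_lit 95863512668) (nat_lit 122) (nat_lit 5) (nat_lit 121) (nat_lit 5) (nat_lit 132) (nat_lit 5) (nat_lit 421) (nat_lit 414) (nat_lit 185)) (XT.lf (nat_lit 0) (nat_lit 96205730927) (nat_lit 760) (nat_lit 64675544081) (nat_lit 836) (nat_lit 23229639680) (nat_lit 122) (nat_lit 5) (nat_lit 132) (nat_lit 5) (nat_lit 133) (nat_lit 5) (nat_lit 422) (nat_lit 414) (nat_lit 184)))))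 (XT.nd (nat_lit 234) (nat_lit 836) (nat_lit 0) (XT.nd (nat_lit 78) (nat_lit 684) (nat_lit 0) (XT.lf (nat_lit 76) (nat_lit 30853301194) (nat_lit 0) (nat_lit 80137416539) (nat_lit 836) (nat_lit 78014199320) (nat_lit 123) (nat_lit 5) (nat_lit 122) (nat_lit 5) (nat_lit 133) (nat_lit 5) (nat_lit 423) (nat_lit 414) (nat_lit 183)) (XT.nd (nat_lit 78) (nat_lit 760) (nat_lit 0) (XT.lf (nat_lit 0) (nat_lit 127700595654) (nat_lit 760) (nat_lit 60775444879) (nat_lit 76) (nat_lit 5608296980) (nat_lit 123) (nat_lit 5) (nat_lit 133) (nat_lit 5) (nat_lit 124) (nat_lit 5) (nat_lit 424) (nat_lit 414) (nat_lit 182)) (XT.lf (nat_lit 0) (nat_lit 41483428208) (nat_lit 760) (nat_lit 105723820029) (nat_lit 836) (nat_lit 52112416784) (nat_lit 113) (nat_lit 5) (nat_lit 123) (nat_lit 5) (nat_lit 124) (nat_lit 5) (nat_lit 425) (nat_lit 414) (nat_lit 181)))) (XT.nd (nat_lit 156) (nat_lit 456) (nat_lit 0) (XT.nd (nat_lit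 78) (nat_lit 380) (nat_lit 0) (XT.lf (nat_lit 0) (nat_lit 150965125816) (nat_lit 760) (nat_lit 17753253323) (nat_lit 836) (nat_lit 36046922542) (nat_lit 113) (nat_lit 5) (nat_lit 123) (nat_lit 5) (nat_lit 124) (nat_lit 5) (nat_lit 426) (nat_lit 414) (nat_lit 180)) (XT.lf (nat_lit 0) (nat_lit 56067117575) (nat_lit 380) (nat_lit 137278166041) (nat_lit 456) (nat_lit 17035925765) (nat_lit 108) (nat_lit 5) (nat_lit 113) (nat_lit 5) (nat_lit 114) (nat_lit 5) (nat_lit 427) (nat_lit 414) (nat_lit 179))) (XT.nd (nat_lit 78) (nat_lit 380) (nat_lit 0) (XT.lf (nat_lit 0) (nat_lit 4048979869) (nat_lit 456) (nat_lit 43288518212) (nat_lit 76) (nat_lit 168877280722) (nat_lit 107) (nat_lit 5) (nat_lit 113) (nat_lit 5) (nat_lit 108) (nat_lit 5) (nat_lit 428) (nat_lit 414) (nat_lit 178)) (XT.lf (nat_lit 0) (nat_lit 27552321335) (nat_lit 456) (nat_lit 147603479194) (nat_lit 76) (nat_lit 47073426876) (nat_lit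 102) (nat_lit 5) (nat_lit 108) (nat_lit 5) (nat_lit 103) (nat_lit 5) (nat_lit 429) (nat_lit 414) (nat_lit 177)))))) (XT.nd (nat_lit 546) (nat_lit 1064) (nat_lit 0) (XT.nd (nat_lit 234) (nat_lit 912) (nat_lit 0) (XT.nd (nat_lit 78) (nat_lit 380) (nat_lit 0) (XT.lf (nat_lit 0) (nat_lit 53751884756) (nat_lit 456) (nat_lit 29357284271) (nat_lit 76) (nat_lit 145359176712) (nat_lit 102) (nat_lit 5) (nat_lit 108) (nat_lit 5) (nat_lit 103) (nat_lit 5) (nat_lit 430) (nat_lit 414) (nat_lit 176)) (XT.nd (nat_lit 78) (nat_lit 0) (nat_lit 0) (XT.lf (nat_lit 0) (nat_lit 83026841943) (nat_lit 456) (nat_lit 137243760331) (nat_lit 76) (nat_lit 14660546982) (nat_lit 97) (nat_lit 5) (nat_lit 103) (nat_lit 5) (nat_lit 98) (nat_lit 5) (nat_lit 431) (nat_lit 414) (nat_lit 175)) (XT.lf (nat_lit 0) (nat_lit 115633230398) (nat_lit 456) (nat_lit 10959419494) (nat_lit 76) (nat_lit 115031058929) (nat_lit 97) (nat_lit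 5) (nat_lit 103) (nat_lit 5) (nat_lit 98) (nat_lit 5) (nat_lit 432) (nat_lit 414) (nat_lit 174)))) (XT.nd (nat_lit 156) (nat_lit 304) (nat_lit 0) (XT.nd (nat_lit 78) (nat_lit 304) (nat_lit 0) (XT.lf (nat_lit 0) (nat_lit 125660975259) (nat_lit 304) (nat_lit 26170795111) (nat_lit 380) (nat_lit 96721034432) (nat_lit 93) (nat_lit 5) (nat_lit 97) (nat_lit 5) (nat_lit 98) (nat_lit 5) (nat_lit 433) (nat_lit 414) (nat_lit 173)) (XT.lf (nat_lit 0) (nat_lit 12844086868) (nat_lit 304) (nat_lit 178622903447) (nat_lit 380) (nat_lit 64280027656) (nat_lit 89) (nat_lit 5) (nat_lit 93) (nat_lit 5) (nat_lit 94) (nat_lit 5) (nat_lit 434) (nat_lit 414) (nat_lit 172))) (XT.nd (nat_lit 78) (nat_lit 304) (nat_lit 0) (XT.lf (nat_lit 0) (nat_lit 159190010875) (nat_lit 304) (nat_lit 76397219663) (nat_lit 380) (nat_lit 27588548334) (nat_lit 89) (nat_lit 5) (nat_lit 93) (nat_lit 5) (nat_lit 94) (nat_lit 5) (nat_lit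 435) (nat_lit 414) (nat_lit 171)) (XT.lf (nat_lit 0) (nat_lit 11756922841) (nat_lit 304) (nat_lit 228345300492) (nat_lit 76) (nat_lit 30806741947) (nat_lit 85) (nat_lit 5) (nat_lit 89) (nat_lit 5) (nat_lit 86) (nat_lit 5) (nat_lit 436) (nat_lit 414) (nat_lit 170))))) (XT.nd (nat_lit 234) (nat_lit 760) (nat_lit 0) (XT.nd (nat_lit 78) (nat_lit 304) (nat_lit 0) (XT.lf (nat_lit 0) (nat_lit 55184765575) (nat_lit 304) (nat_lit 80623692617) (nat_lit 76) (nat_lit 143045626576) (nat_lit 85) (nat_lit 5) (nat_lit 89) (nat_lit 5) (nat_lit 86) (nat_lit 5) (nat_lit 437) (nat_lit 414) (nat_lit 169)) (XT.nd (nat_lit 78) (nat_lit 0) (nat_lit 0) (XT.lf (nat_lit 0) (nat_lit 76946674571) (nat_lit 304) (nat_lit 25038604571) (nat_lit 380) (nat_lit 185151117185) (nat_lit 81) (nat_lit 5) (nat_lit 85) (nat_lit 5) (nat_lit 86) (nat_lit 5) (nat_lit 438) (nat_lit 414) (nat_lit 168)) (XT.lf (nat_lit 0) (nat_lit 153938506934)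 (nat_lit 380) (nat_lit 52017377797) (nat_lit 76) (nat_lit 89736304335) (nat_lit 81) (nat_lit 5) (nat_lit 86) (nat_lit 5) (nat_lit 82) (nat_lit 5) (nat_lit 439) (nat_lit 414) (nat_lit 167)))) (XT.nd (nat_lit 156) (nat_lit 532) (nat_lit 0) (XT.nd (nat_lit 78) (nat_lit 0) (nat_lit 0) (XT.lf (nat_lit 0) (nat_lit 117410904241) (nat_lit 228) (nat_lit 93322004745) (nat_lit 304) (nat_lit 93830686840) (nat_lit 78) (nat_lit 5) (nat_lit 81) (nat_lit 5) (nat_lit 82) (nat_lit 5) (nat_lit 440) (nat_lit 414) (nat_lit 166)) (XT.lf (nat_lit 0) (nat_lit 271651783456) (nat_lit 304) (nat_lit 17121974236) (nat_lit 76) (nat_lit 25040577642) (nat_lit 78) (nat_lit 5) (nat_lit 82) (nat_lit 5) (nat_lit 79) (nat_lit 5) (nat_lit 441) (nat_lit 414) (nat_lit 165))) (XT.nd (nat_lit 78) (nat_lit 228) (nat_lit 0) (XT.lf (nat_lit 0) (nat_lit 15877938615) (nat_lit 304) (nat_lit 158411595621) (nat_lit 76) (nat_lit 149019846858)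 (nat_lit 74) (nat_lit 5) (nat_lit 78) (nat_lit 5) (nat_lit 75) (nat_lit 5) (nat_lit 442) (nat_lit 414) (nat_lit 164)) (XT.lf (nat_lit 0) (nat_lit 23401241528) (nat_lit 228) (nat_lit 52662291434) (nat_lit 304) (nat_lit 257148085857) (nat_lit 71) (nat_lit 5) (nat_lit 74) (nat_lit 5) (nat_lit 75) (nat_lit 5) (nat_lit 443) (nat_lit 414) (nat_lit 163))))))) (XT.nd (nat_lit 1014) (nat_lit 1064) (nat_lit 0) (XT.nd (nat_lit 468) (nat_lit 684) (nat_lit 0) (XT.nd (nat_lit 234) (nat_lit 456) (nat_lit 0) (XT.nd (nat_lit 78) (nat_lit 228) (nat_lit 0) (XT.lf (nat_lit 0) (nat_lit 143156784596) (nat_lit 304) (nat_lit 124886170774) (nat_lit 76) (nat_lit 75371094203) (nat_lit 71) (nat_lit 5) (nat_lit 75) (nat_lit 5) (nat_lit 72) (nat_lit 5) (nat_lit 444) (nat_lit 414) (nat_lit 162)) (XT.nd (nat_lit 78) (nat_lit 0) (nat_lit 0) (XT.lf (nat_lit 0) (nat_lit 70683144823) (nat_lit 228) (nat_lit 144888372529) (nat_lit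 304) (nat_lit 138456743607) (nat_lit 68) (nat_lit 5) (nat_lit 71) (nat_lit 5) (nat_lit 72) (nat_lit 5) (nat_lit 445) (nat_lit 414) (nat_lit 161)) (XT.lf (nat_lit 0) (nat_lit 280366606402) (nat_lit 228) (nat_lit 13355329889) (nat_lit 304) (nat_lit 71345499166) (nat_lit 68) (nat_lit 5) (nat_lit 71) (nat_lit 5) (nat_lit 72) (nat_lit 5) (nat_lit 446) (nat_lit 414) (nat_lit 160)))) (XT.nd (nat_lit 78) (nat_lit 228) (nat_lit 0) (XT.lf (nat_lit 0) (nat_lit 3127886998) (nat_lit 228) (nat_lit 250553996483) (nat_lit 76) (nat_lit 122778448366) (nat_lit 65) (nat_lit 5) (nat_lit 68) (nat_lit 5) (nat_lit 66) (nat_lit 5) (nat_lit 447) (nat_lit 414) (nat_lit 159)) (XT.nd (nat_lit 78) (nat_lit 228) (nat_lit 0) (XT.lf (nat_lit 0) (nat_lit 80604115419) (nat_lit 228) (nat_lit 39778809241) (nat_lit 76) (nat_lit 267897626018) (nat_lit 65) (nat_lit 5) (nat_lit 68) (nat_lit 5) (nat_lit 66) (nat_lit 5) (nat_lit 448)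 (nat_lit 414) (nat_lit 158)) (XT.lf (nat_lit 0) (nat_lit 165235800645) (nat_lit 304) (nat_lit 213361671432) (nat_lit 76) (nat_lit 21930226121) (nat_lit 62) (nat_lit 5) (nat_lit 66) (nat_lit 5) (nat_lit 63) (nat_lit 5) (nat_lit 449) (nat_lit 414) (nat_lit 157))))) (XT.nd (nat_lit 234) (nat_lit 304) (nat_lit 0) (XT.nd (nat_lit 78) (nat_lit 228) (nat_lit 0) (XT.lf (nat_lit 0) (nat_lit 11881274903) (nat_lit 152) (nat_lit 245061451119) (nat_lit 228) (nat_lit 156302294293) (nat_lit 60) (nat_lit 5) (nat_lit 62) (nat_lit 5) (nat_lit 63) (nat_lit 5) (nat_lit 450) (nat_lit 414) (nat_lit 156)) (XT.nd (nat_lit 78) (nat_lit 228) (nat_lit 0) (XT.lf (nat_lit 0) (nat_lit 255793724033) (nat_lit 152) (nat_lit 101054606118) (nat_lit 228) (nat_lit 69569211778) (nat_lit 60) (nat_lit 5) (nat_lit 62) (nat_lit 5) (nat_lit 63) (nat_lit 5) (nat_lit 451) (nat_lit 414) (nat_lit 155)) (XT.lf (nat_lit 0) (nat_lit 22769986439)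 (nat_lit 228) (nat_lit 367306357632) (nat_lit 76) (nat_lit 50057680759) (nat_lit 57) (nat_lit 5) (nat_lit 60) (nat_lit 5) (nat_lit 58) (nat_lit 5) (nat_lit 452) (nat_lit 414) (nat_lit 154)))) (XT.nd (nat_lit 156) (nat_lit 152) (nat_lit 0) (XT.nd (nat_lit 78) (nat_lit 152) (nat_lit 0) (XT.lf (nat_lit 0) (nat_lit 121981714744) (nat_lit 228) (nat_lit 122861012520) (nat_lit 76) (nat_lit 209406903088) (nat_lit 57) (nat_lit 5) (nat_lit 60) (nat_lit 5) (nat_lit 58) (nat_lit 5) (nat_lit 453) (nat_lit 414) (nat_lit 153)) (XT.lf (nat_lit 0) (nat_lit 138230773086) (nat_lit 152) (nat_lit 90081380079) (nat_lit 228) (nat_lit 240650956814) (nat_lit 55) (nat_lit 5) (nat_lit 57) (nat_lit 5) (nat_lit 58) (nat_lit 5) (nat_lit 454) (nat_lit 414) (nat_lit 152))) (XT.nd (nat_lit 78) (nat_lit 152) (nat_lit 0) (XT.lf (nat_lit 0) (nat_lit 343204537224) (nat_lit 228) (nat_lit 68830457009) (nat_lit 76) (nat_lit 72214998178)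 (nat_lit 55) (nat_lit 5) (nat_lit 58) (nat_lit 5) (nat_lit 56) (nat_lit 5) (nat_lit 455) (nat_lit 414) (nat_lit 151)) (XT.lf (nat_lit 0) (nat_lit 211457667070) (nat_lit 152) (nat_lit 257162020850) (nat_lit 228) (nat_lit 31442623685) (nat_lit 53) (nat_lit 5) (nat_lit 55) (nat_lit 5) (nat_lit 56) (nat_lit 5) (nat_lit 456) (nat_lit 414) (nat_lit 150)))))) (XT.nd (nat_lit 546) (nat_lit 380) (nat_lit 0) (XT.nd (nat_lit 234) (nat_lit 304) (nat_lit 0) (XT.nd (nat_lit 78) (nat_lit 304) (nat_lit 0) (XT.lf (nat_lit 0) (nat_lit 82148079383) (nat_lit 228) (nat_lit 9782169285) (nat_lit 76) (nat_lit 424610467911) (nat_lit 52) (nat_lit 5) (nat_lit 55) (nat_lit 5) (nat_lit 53) (nat_lit 5) (nat_lit 457) (nat_lit 414) (nat_lit 149)) (XT.nd (nat_lit 78) (nat_lit 152) (nat_lit 0) (XT.lf (nat_lit 0) (nat_lit 206274065312) (nat_lit 228) (nat_lit 243140534595) (nat_lit 76) (nat_lit 84107047959) (nat_lit 50) (nat_lit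 5) (nat_lit 53) (nat_lit 5) (nat_lit 51) (nat_lit 5) (nat_lit 458) (nat_lit 414) (nat_lit 148)) (XT.lf (nat_lit 0) (nat_lit 54792702834) (nat_lit 152) (nat_lit 284344509690) (nat_lit 228) (nat_lit 212087870105) (nat_lit 48) (nat_lit 5) (nat_lit 50) (nat_lit 5) (nat_lit 51) (nat_lit 5) (nat_lit 459) (nat_lit 414) (nat_lit 147)))) (XT.nd (nat_lit 156) (nat_lit 152) (nat_lit 0) (XT.nd (nat_lit 78) (nat_lit 152) (nat_lit 0) (XT.lf (nat_lit 0) (nat_lit 376063824474) (nat_lit 152) (nat_lit 106697355572) (nat_lit 228) (nat_lit 86846625944) (nat_lit 48) (nat_lit 5) (nat_lit 50) (nat_lit 5) (nat_lit 51) (nat_lit 5) (nat_lit 460) (nat_lit 414) (nat_lit 146)) (XT.lf (nat_lit 0) (nat_lit 46514552147) (nat_lit 152) (nat_lit 462180876983) (nat_lit 76) (nat_lit 80015017382) (nat_lit 46) (nat_lit 5) (nat_lit 48) (nat_lit 5) (nat_lit 47) (nat_lit 5) (nat_lit 461) (nat_lit 414) (nat_lit 145))) (XT.nd (nat_lit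 78) (nat_lit 152) (nat_lit 0) (XT.lf (nat_lit 0) (nat_lit 188705766761) (nat_lit 152) (nat_lit 142504775249) (nat_lit 76) (nat_lit 277232461611) (nat_lit 46) (nat_lit 5) (nat_lit 48) (nat_lit 5) (nat_lit 47) (nat_lit 5) (nat_lit 462) (nat_lit 414) (nat_lit 144)) (XT.lf (nat_lit 0) (nat_lit 199541647177) (nat_lit 152) (nat_lit 141580263060) (nat_lit 228) (nat_lit 287884509950) (nat_lit 44) (nat_lit 5) (nat_lit 46) (nat_lit 5) (nat_lit 47) (nat_lit 5) (nat_lit 463) (nat_lit 414) (nat_lit 143))))) (XT.nd (nat_lit 234) (nat_lit 228) (nat_lit 0) (XT.nd (nat_lit 78) (nat_lit 152) (nat_lit 0) (XT.lf (nat_lit 0) (nat_lit 504510004487) (nat_lit 228) (nat_lit 87777359223) (nat_lit 76) (nat_lit 58143086698) (nat_lit 44) (nat_lit 5) (nat_lit 47) (nat_lit 5) (nat_lit 45) (nat_lit 4) (nat_lit 464) (nat_lit 414) (nat_lit 142)) (XT.nd (nat_lit 78) (nat_lit 0) (nat_lit 0) (XT.lf (nat_lit 0) (nat_lit 9804747173)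 (nat_lit 152) (nat_lit 395194171505) (nat_lit 76) (nat_lit 267586136647) (nat_lit 42) (nat_lit 5) (nat_lit 44) (nat_lit 5) (nat_lit 43) (nat_lit 5) (nat_lit 465) (nat_lit 414) (nat_lit 141)) (XT.lf (nat_lit 0) (nat_lit 169923203827) (nat_lit 152) (nat_lit 34324661058) (nat_lit 76) (nat_lit 491404374298) (nat_lit 42) (nat_lit 5) (nat_lit 44) (nat_lit 5) (nat_lit 43) (nat_lit 5) (nat_lit 466) (nat_lit 414) (nat_lit 140)))) (XT.nd (nat_lit 156) (nat_lit 0) (nat_lit 0) (XT.nd (nat_lit 78) (nat_lit 76) (nat_lit 0) (XT.lf (nat_lit 0) (nat_lit 343798657815) (nat_lit 228) (nat_lit 363806210329) (nat_lit 76) (nat_lit 11980360372) (nat_lit 40) (nat_lit 5) (nat_lit 43) (nat_lit 5) (nat_lit 41) (nat_lit 4) (nat_lit 467) (nat_lit 414) (nat_lit 139)) (XT.lf (nat_lit 0) (nat_lit 19148719301) (nat_lit 76) (nat_lit 511457258225) (nat_lit 152) (nat_lit 213896985143) (nat_lit 39) (nat_lit 5) (nat_lit 40) (nat_lit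 5) (nat_lit 41) (nat_lit 4) (nat_lit 468) (nat_lit 414) (nat_lit 138))) (XT.nd (nat_lit 48906) (nat_lit 0) (nat_lit 6004) (XT.lf (nat_lit 0) (nat_lit 433881868371) (nat_lit 76) (nat_lit 299032997564) (nat_lit 152) (nat_lit 37443657465) (nat_lit 39) (nat_lit 5) (nat_lit 40) (nat_lit 5) (nat_lit 41) (nat_lit 4) (nat_lit 469) (nat_lit 414) (nat_lit 137)) (XT.lf (nat_lit 0) (nat_lit 22114986634) (nat_lit 836) (nat_lit 28424109846) (nat_lit 836) (nat_lit 28424109846) (nat_lit 118) (nat_lit 3) (nat_lit 129) (nat_lit 3) (nat_lit 129) (nat_lit 5) (nat_lit 415) (nat_lit 415) (nat_lit 190))))))))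
noncomputable def xc237 : XT := (XT.nd (nat_lit 2106) (nat_lit 2964) (nat_lit 0) (XT.nd (nat_lit 1014) (nat_lit 2280) (nat_lit 0) (XT.nd (nat_lit 468) (nat_lit 760) (nat_lit 0) (XT.nd (nat_lit 234) (nat_lit 0) (nat_lit 152) (XT.nd (nat_lit 78) (nat_lit 0) (nat_lit 76) (XT.lf (nat_lit 76) (nat_lit 20537216572) (nat_lit 0) (nat_lit 25121709010) (nat_lit 836) (nat_lit 116199485836) (nat_lit 119) (nat_lit 5) (nat_lit 118) (nat_lit 3) (nat_lit 129) (nat_lit 5) (nat_lit 416) (nat_lit 415) (nat_lit 189)) (XT.nd (nat_lit 78) (nat_lit 0) (nat_lit 0) (XT.lf (nat_lit 0) (nat_lit 48990664388) (nat_lit 760) (nat_lit 63042155298) (nat_lit 836) (nat_lit 53862623584) (nat_lit 119) (nat_lit 5) (nat_lit 129) (nat_lit 5) (nat_lit 130) (nat_lit 5) (nat_lit 417) (nat_lit 415) (nat_lit 188)) (XT.lf (nat_lit 76) (nat_lit 19358504203) (nat_lit 0) (nat_lit 33844401504) (nat_lit 836) (nat_lit 116895725313) (nat_lit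 120) (nat_lit 5) (nat_lit 119) (nat_lit 5) (nat_lit 130) (nat_lit 5) (nat_lit 418) (nat_lit 415) (nat_lit 187)))) (XT.nd (nat_lit 78) (nat_lit 0) (nat_lit 0) (XT.lf (nat_lit 0) (nat_lit 59464133018) (nat_lit 760) (nat_lit 67161692317) (nat_lit 836) (nat_lit 47794234209) (nat_lit 120) (nat_lit 5) (nat_lit 130) (nat_lit 5) (nat_lit 131) (nat_lit 5) (nat_lit 419) (nat_lit 415) (nat_lit 186)) (XT.nd (nat_lit 78) (nat_lit 0) (nat_lit 76) (XT.lf (nat_lit 76) (nat_lit 20703379134) (nat_lit 0) (nat_lit 46212964374) (nat_lit 836) (nat_lit 111997319972) (nat_lit 121) (nat_lit 5) (nat_lit 120) (nat_lit 5) (nat_lit 131) (nat_lit 5) (nat_lit 420) (nat_lit 415) (nat_lit 185)) (XT.lf (nat_lit 0) (nat_lit 76493819929) (nat_lit 760) (nat_lit 68897148245) (nat_lit 836) (nat_lit 38153346742) (nat_lit 121) (nat_lit 5) (nat_lit 131) (nat_lit 5) (nat_lit 132) (nat_lit 5) (nat_lit 421) (nat_lit 415) (nat_lit 184)))))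 (XT.nd (nat_lit 234) (nat_lit 988) (nat_lit 0) (XT.nd (nat_lit 78) (nat_lit 0) (nat_lit 76) (XT.lf (nat_lit 76) (nat_lit 24921604950) (nat_lit 0) (nat_lit 62775121138) (nat_lit 836) (nat_lit 100652445111) (nat_lit 122) (nat_lit 5) (nat_lit 121) (nat_lit 5) (nat_lit 132) (nat_lit 5) (nat_lit 422) (nat_lit 415) (nat_lit 183)) (XT.nd (nat_lit 78) (nat_lit 0) (nat_lit 0) (XT.lf (nat_lit 0) (nat_lit 101019850042) (nat_lit 760) (nat_lit 67906173649) (nat_lit 836) (nat_lit 24390243047) (nat_lit 122) (nat_lit 5) (nat_lit 132) (nat_lit 5) (nat_lit 133) (nat_lit 5) (nat_lit 423) (nat_lit 415) (nat_lit 182)) (XT.lf (nat_lit 76) (nat_lit 32399063122) (nat_lit 0) (nat_lit 84144888913) (nat_lit 836) (nat_lit 81911023990) (nat_lit 123) (nat_lit 5) (nat_lit 122) (nat_lit 5) (nat_lit 133) (nat_lit 5) (nat_lit 424) (nat_lit 415) (nat_lit 181)))) (XT.nd (nat_lit 156) (nat_lit 380) (nat_lit 0) (XT.nd (nat_lit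 78) (nat_lit 760) (nat_lit 0) (XT.lf (nat_lit 0) (nat_lit 134089138793) (nat_lit 760) (nat_lit 63811080799) (nat_lit 76) (nat_lit 5888157263) (nat_lit 123) (nat_lit 5) (nat_lit 133) (nat_lit 5) (nat_lit 124) (nat_lit 5) (nat_lit 425) (nat_lit 415) (nat_lit 180)) (XT.lf (nat_lit 0) (nat_lit 43560685357) (nat_lit 760) (nat_lit 111010319523) (nat_lit 836) (nat_lit 54714471904) (nat_lit 113) (nat_lit 5) (nat_lit 123) (nat_lit 5) (nat_lit 124) (nat_lit 5) (nat_lit 426) (nat_lit 415) (nat_lit 179))) (XT.nd (nat_lit 78) (nat_lit 380) (nat_lit 0) (XT.lf (nat_lit 0) (nat_lit 158516320905) (nat_lit 760) (nat_lit 18641209792) (nat_lit 836) (nat_lit 37845872747) (nat_lit 113) (nat_lit 5) (nat_lit 123) (nat_lit 5) (nat_lit 124) (nat_lit 5) (nat_lit 427) (nat_lit 415) (nat_lit 178)) (XT.lf (nat_lit 0) (nat_lit 58873530053) (nat_lit 380) (nat_lit 144142139765) (nat_lit 456) (nat_lit 17884442320) (nat_lit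 108) (nat_lit 5) (nat_lit 113) (nat_lit 5) (nat_lit 114) (nat_lit 5) (nat_lit 428) (nat_lit 415) (nat_lit 177)))))) (XT.nd (nat_lit 546) (nat_lit 836) (nat_lit 0) (XT.nd (nat_lit 234) (nat_lit 988) (nat_lit 0) (XT.nd (nat_lit 78) (nat_lit 380) (nat_lit 0) (XT.lf (nat_lit 0) (nat_lit 4254452444) (nat_lit 456) (nat_lit 45449931641) (nat_lit 76) (nat_lit 177320981017) (nat_lit 107) (nat_lit 5) (nat_lit 113) (nat_lit 5) (nat_lit 108) (nat_lit 5) (nat_lit 429) (nat_lit 415) (nat_lit 176)) (XT.nd (nat_lit 78) (nat_lit 0) (nat_lit 0) (XT.lf (nat_lit 0) (nat_lit 28932863872) (nat_lit 456) (nat_lit 154980542168) (nat_lit 76) (nat_lit 49427135019) (nat_lit 102) (nat_lit 5) (nat_lit 108) (nat_lit 5) (nat_lit 103) (nat_lit 5) (nat_lit 430) (nat_lit 415) (nat_lit 175)) (XT.lf (nat_lit 0) (nat_lit 56442266108) (nat_lit 456) (nat_lit 30822185641) (nat_lit 76) (nat_lit 152627170595) (nat_lit 102) (nat_lit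 5) (nat_lit 108) (nat_lit 5) (nat_lit 103) (nat_lit 5) (nat_lit 431) (nat_lit 415) (nat_lit 174)))) (XT.nd (nat_lit 156) (nat_lit 608) (nat_lit 0) (XT.nd (nat_lit 78) (nat_lit 0) (nat_lit 0) (XT.lf (nat_lit 0) (nat_lit 87180887306) (nat_lit 456) (nat_lit 144102900393) (nat_lit 76) (nat_lit 15393782594) (nat_lit 97) (nat_lit 5) (nat_lit 103) (nat_lit 5) (nat_lit 98) (nat_lit 5) (nat_lit 432) (nat_lit 415) (nat_lit 173)) (XT.lf (nat_lit 0) (nat_lit 121417466457) (nat_lit 456) (nat_lit 11504487655) (nat_lit 76) (nat_lit 120782810221) (nat_lit 97) (nat_lit 5) (nat_lit 103) (nat_lit 5) (nat_lit 98) (nat_lit 5) (nat_lit 433) (nat_lit 415) (nat_lit 172))) (XT.nd (nat_lit 78) (nat_lit 304) (nat_lit 0) (XT.lf (nat_lit 0) (nat_lit 131946880016) (nat_lit 304) (nat_lit 27478975405) (nat_lit 380) (nat_lit 101554463649) (nat_lit 93) (nat_lit 5) (nat_lit 97) (nat_lit 5) (nat_lit 98) (nat_lit 5) (nat_lit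 434) (nat_lit 415) (nat_lit 171)) (XT.lf (nat_lit 0) (nat_lit 13489219560) (nat_lit 304) (nat_lit 187553548985) (nat_lit 380) (nat_lit 67491477798) (nat_lit 89) (nat_lit 5) (nat_lit 93) (nat_lit 5) (nat_lit 94) (nat_lit 5) (nat_lit 435) (nat_lit 415) (nat_lit 170))))) (XT.nd (nat_lit 234) (nat_lit 532) (nat_lit 0) (XT.nd (nat_lit 78) (nat_lit 304) (nat_lit 0) (XT.lf (nat_lit 0) (nat_lit 167152300321) (nat_lit 304) (nat_lit 80216604805) (nat_lit 380) (nat_lit 28965545998) (nat_lit 89) (nat_lit 5) (nat_lit 93) (nat_lit 5) (nat_lit 94) (nat_lit 5) (nat_lit 436) (nat_lit 415) (nat_lit 169)) (XT.nd (nat_lit 78) (nat_lit 0) (nat_lit 0) (XT.lf (nat_lit 0) (nat_lit 12347061409) (nat_lit 304) (nat_lit 239759637355) (nat_lit 76) (nat_lit 32347599216) (nat_lit 85) (nat_lit 5) (nat_lit 89) (nat_lit 5) (nat_lit 86) (nat_lit 5) (nat_lit 437) (nat_lit 415) (nat_lit 168)) (XT.lf (nat_lit 0) (nat_lit 57946187117)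 (nat_lit 304) (nat_lit 84652088524) (nat_lit 76) (nat_lit 150198403306) (nat_lit 85) (nat_lit 5) (nat_lit 89) (nat_lit 5) (nat_lit 86) (nat_lit 5) (nat_lit 438) (nat_lit 415) (nat_lit 167)))) (XT.nd (nat_lit 156) (nat_lit 228) (nat_lit 0) (XT.nd (nat_lit 78) (nat_lit 0) (nat_lit 0) (XT.lf (nat_lit 0) (nat_lit 80796752045) (nat_lit 304) (nat_lit 26289913190) (nat_lit 380) (nat_lit 194406443947) (nat_lit 81) (nat_lit 5) (nat_lit 85) (nat_lit 5) (nat_lit 86) (nat_lit 5) (nat_lit 439) (nat_lit 415) (nat_lit 166)) (XT.lf (nat_lit 0) (nat_lit 161637462605) (nat_lit 380) (nat_lit 54615540971) (nat_lit 76) (nat_lit 94223692613) (nat_lit 81) (nat_lit 5) (nat_lit 86) (nat_lit 5) (nat_lit 82) (nat_lit 5) (nat_lit 440) (nat_lit 415) (nat_lit 165))) (XT.nd (nat_lit 78) (nat_lit 0) (nat_lit 0) (XT.lf (nat_lit 0) (nat_lit 123284111528) (nat_lit 228) (nat_lit 97987418112) (nat_lit 304) (nat_lit 98520146442)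 (nat_lit 78) (nat_lit 5) (nat_lit 81) (nat_lit 5) (nat_lit 82) (nat_lit 5) (nat_lit 441) (nat_lit 415) (nat_lit 164)) (XT.lf (nat_lit 0) (nat_lit 285236263990) (nat_lit 304) (nat_lit 17975453056) (nat_lit 76) (nat_lit 26293239749) (nat_lit 78) (nat_lit 5) (nat_lit 82) (nat_lit 5) (nat_lit 79) (nat_lit 5) (nat_lit 442) (nat_lit 415) (nat_lit 163))))))) (XT.nd (nat_lit 1014) (nat_lit 1216) (nat_lit 0) (XT.nd (nat_lit 468) (nat_lit 760) (nat_lit 0) (XT.nd (nat_lit 234) (nat_lit 456) (nat_lit 0) (XT.nd (nat_lit 78) (nat_lit 228) (nat_lit 0) (XT.lf (nat_lit 0) (nat_lit 16673707956) (nat_lit 304) (nat_lit 166329535187) (nat_lit 76) (nat_lit 156471512716) (nat_lit 74) (nat_lit 5) (nat_lit 78) (nat_lit 5) (nat_lit 75) (nat_lit 5) (nat_lit 443) (nat_lit 415) (nat_lit 162)) (XT.nd (nat_lit 78) (nat_lit 0) (nat_lit 0) (XT.lf (nat_lit 0) (nat_lit 24573901236) (nat_lit 228) (nat_lit 55294632178) (nat_lit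 304) (nat_lit 270003574518) (nat_lit 71) (nat_lit 5) (nat_lit 74) (nat_lit 5) (nat_lit 75) (nat_lit 5) (nat_lit 444) (nat_lit 415) (nat_lit 161)) (XT.lf (nat_lit 0) (nat_lit 150316372289) (nat_lit 304) (nat_lit 131127929429) (nat_lit 76) (nat_lit 79140362304) (nat_lit 71) (nat_lit 5) (nat_lit 75) (nat_lit 5) (nat_lit 72) (nat_lit 5) (nat_lit 445) (nat_lit 415) (nat_lit 160)))) (XT.nd (nat_lit 78) (nat_lit 228) (nat_lit 0) (XT.lf (nat_lit 0) (nat_lit 74219810821) (nat_lit 228) (nat_lit 152131986770) (nat_lit 304) (nat_lit 145377790619) (nat_lit 68) (nat_lit 5) (nat_lit 71) (nat_lit 5) (nat_lit 72) (nat_lit 5) (nat_lit 446) (nat_lit 415) (nat_lit 159)) (XT.nd (nat_lit 78) (nat_lit 228) (nat_lit 0) (XT.lf (nat_lit 0) (nat_lit 294387326014) (nat_lit 228) (nat_lit 14022330302) (nat_lit 304) (nat_lit 74911069202) (nat_lit 68) (nat_lit 5) (nat_lit 71) (nat_lit 5) (nat_lit 72) (nat_lit 5) (nat_lit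 447) (nat_lit 415) (nat_lit 158)) (XT.lf (nat_lit 0) (nat_lit 3285903084) (nat_lit 228) (nat_lit 263079222805) (nat_lit 76) (nat_lit 128918140964) (nat_lit 65) (nat_lit 5) (nat_lit 68) (nat_lit 5) (nat_lit 66) (nat_lit 5) (nat_lit 448) (nat_lit 415) (nat_lit 157))))) (XT.nd (nat_lit 234) (nat_lit 380) (nat_lit 0) (XT.nd (nat_lit 78) (nat_lit 380) (nat_lit 0) (XT.lf (nat_lit 0) (nat_lit 84635865700) (nat_lit 228) (nat_lit 41765393987) (nat_lit 76) (nat_lit 281293240824) (nat_lit 65) (nat_lit 5) (nat_lit 68) (nat_lit 5) (nat_lit 66) (nat_lit 5) (nat_lit 449) (nat_lit 415) (nat_lit 156)) (XT.nd (nat_lit 78) (nat_lit 152) (nat_lit 0) (XT.lf (nat_lit 0) (nat_lit 173499110481) (nat_lit 304) (nat_lit 224027374127) (nat_lit 76) (nat_lit 23027522056) (nat_lit 62) (nat_lit 5) (nat_lit 66) (nat_lit 5) (nat_lit 63) (nat_lit 5) (nat_lit 450) (nat_lit 415) (nat_lit 155)) (XT.lf (nat_lit 0) (nat_lit 12477681123)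 (nat_lit 152) (nat_lit 257313665205) (nat_lit 228) (nat_lit 164115850371) (nat_lit 60) (nat_lit 5) (nat_lit 62) (nat_lit 5) (nat_lit 63) (nat_lit 5) (nat_lit 451) (nat_lit 415) (nat_lit 154)))) (XT.nd (nat_lit 156) (nat_lit 152) (nat_lit 0) (XT.nd (nat_lit 78) (nat_lit 228) (nat_lit 0) (XT.lf (nat_lit 0) (nat_lit 268585641163) (nat_lit 152) (nat_lit 106106518833) (nat_lit 228) (nat_lit 73046187951) (nat_lit 60) (nat_lit 5) (nat_lit 62) (nat_lit 5) (nat_lit 63) (nat_lit 5) (nat_lit 452) (nat_lit 415) (nat_lit 153)) (XT.lf (nat_lit 0) (nat_lit 23909902340) (nat_lit 228) (nat_lit 385669375984) (nat_lit 76) (nat_lit 52561376546) (nat_lit 57) (nat_lit 5) (nat_lit 60) (nat_lit 5) (nat_lit 58) (nat_lit 5) (nat_lit 453) (nat_lit 415) (nat_lit 152))) (XT.nd (nat_lit 78) (nat_lit 152) (nat_lit 0) (XT.lf (nat_lit 0) (nat_lit 128082149604) (nat_lit 228) (nat_lit 129001873118) (nat_lit 76) (nat_lit 219878021337)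 (nat_lit 57) (nat_lit 5) (nat_lit 60) (nat_lit 5) (nat_lit 58) (nat_lit 5) (nat_lit 454) (nat_lit 415) (nat_lit 151)) (XT.lf (nat_lit 0) (nat_lit 145144466446) (nat_lit 152) (nat_lit 94584612897) (nat_lit 228) (nat_lit 252682119871) (nat_lit 55) (nat_lit 5) (nat_lit 57) (nat_lit 5) (nat_lit 58) (nat_lit 5) (nat_lit 455) (nat_lit 415) (nat_lit 150)))))) (XT.nd (nat_lit 546) (nat_lit 532) (nat_lit 0) (XT.nd (nat_lit 234) (nat_lit 456) (nat_lit 0) (XT.nd (nat_lit 78) (nat_lit 228) (nat_lit 0) (XT.lf (nat_lit 0) (nat_lit 360366032252) (nat_lit 228) (nat_lit 72269877084) (nat_lit 76) (nat_lit 75826518965) (nat_lit 55) (nat_lit 5) (nat_lit 58) (nat_lit 5) (nat_lit 56) (nat_lit 5) (nat_lit 456) (nat_lit 415) (nat_lit 149)) (XT.nd (nat_lit 78) (nat_lit 76) (nat_lit 0) (XT.lf (nat_lit 0) (nat_lit 222032619283) (nat_lit 152) (nat_lit 270019293111) (nat_lit 228) (nat_lit 33013452480) (nat_lit 53) (nat_lit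 5) (nat_lit 55) (nat_lit 5) (nat_lit 56) (nat_lit 5) (nat_lit 457) (nat_lit 415) (nat_lit 148)) (XT.lf (nat_lit 0) (nat_lit 86256684023) (nat_lit 228) (nat_lit 10269267429) (nat_lit 76) (nat_lit 445841740644) (nat_lit 52) (nat_lit 5) (nat_lit 55) (nat_lit 5) (nat_lit 53) (nat_lit 5) (nat_lit 458) (nat_lit 415) (nat_lit 147)))) (XT.nd (nat_lit 156) (nat_lit 152) (nat_lit 0) (XT.nd (nat_lit 78) (nat_lit 152) (nat_lit 0) (XT.lf (nat_lit 0) (nat_lit 216588955500) (nat_lit 228) (nat_lit 255295536990) (nat_lit 76) (nat_lit 88313178159) (nat_lit 50) (nat_lit 5) (nat_lit 53) (nat_lit 5) (nat_lit 51) (nat_lit 5) (nat_lit 459) (nat_lit 415) (nat_lit 146)) (XT.lf (nat_lit 0) (nat_lit 57534329660) (nat_lit 152) (nat_lit 298560904988) (nat_lit 228) (nat_lit 222691043785) (nat_lit 48) (nat_lit 5) (nat_lit 50) (nat_lit 5) (nat_lit 51) (nat_lit 5) (nat_lit 460) (nat_lit 415) (nat_lit 145))) (XT.nd (nat_lit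 78) (nat_lit 152) (nat_lit 0) (XT.lf (nat_lit 0) (nat_lit 394868912540) (nat_lit 152) (nat_lit 112031432697) (nat_lit 228) (nat_lit 91187795504) (nat_lit 48) (nat_lit 5) (nat_lit 50) (nat_lit 5) (nat_lit 51) (nat_lit 5) (nat_lit 461) (nat_lit 415) (nat_lit 144)) (XT.lf (nat_lit 0) (nat_lit 48841392998) (nat_lit 152) (nat_lit 485287975049) (nat_lit 76) (nat_lit 84016544911) (nat_lit 46) (nat_lit 5) (nat_lit 48) (nat_lit 5) (nat_lit 47) (nat_lit 5) (nat_lit 462) (nat_lit 415) (nat_lit 143))))) (XT.nd (nat_lit 234) (nat_lit 380) (nat_lit 0) (XT.nd (nat_lit 78) (nat_lit 152) (nat_lit 0) (XT.lf (nat_lit 0) (nat_lit 198142115331) (nat_lit 152) (nat_lit 149628160885) (nat_lit 76) (nat_lit 291094824367) (nat_lit 46) (nat_lit 5) (nat_lit 48) (nat_lit 5) (nat_lit 47) (nat_lit 5) (nat_lit 463) (nat_lit 415) (nat_lit 142)) (XT.nd (nat_lit 78) (nat_lit 0) (nat_lit 0) (XT.lf (nat_lit 0) (nat_lit 209520552773)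 (nat_lit 152) (nat_lit 148658491186) (nat_lit 228) (nat_lit 302277645129) (nat_lit 44) (nat_lit 5) (nat_lit 46) (nat_lit 5) (nat_lit 47) (nat_lit 5) (nat_lit 464) (nat_lit 415) (nat_lit 141)) (XT.lf (nat_lit 0) (nat_lit 529736505156) (nat_lit 228) (nat_lit 92164452813) (nat_lit 76) (nat_lit 61050964748) (nat_lit 44) (nat_lit 5) (nat_lit 47) (nat_lit 5) (nat_lit 45) (nat_lit 4) (nat_lit 465) (nat_lit 415) (nat_lit 140)))) (XT.nd (nat_lit 156) (nat_lit 228) (nat_lit 0) (XT.nd (nat_lit 78) (nat_lit 0) (nat_lit 0) (XT.lf (nat_lit 0) (nat_lit 10295980832) (nat_lit 152) (nat_lit 414952101215) (nat_lit 76) (nat_lit 280966176057) (nat_lit 42) (nat_lit 5) (nat_lit 44) (nat_lit 5) (nat_lit 43) (nat_lit 5) (nat_lit 466) (nat_lit 415) (nat_lit 139)) (XT.lf (nat_lit 0) (nat_lit 178420312877) (nat_lit 152) (nat_lit 36039199954) (nat_lit 76) (nat_lit 515975290707) (nat_lit 42) (nat_lit 5) (nat_lit 44) (nat_lit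 5) (nat_lit 43) (nat_lit 5) (nat_lit 467) (nat_lit 415) (nat_lit 138))) (XT.nd (nat_lit 78) (nat_lit 76) (nat_lit 0) (XT.lf (nat_lit 0) (nat_lit 360989531913) (nat_lit 228) (nat_lit 381994818882) (nat_lit 76) (nat_lit 12580091931) (nat_lit 40) (nat_lit 5) (nat_lit 43) (nat_lit 5) (nat_lit 41) (nat_lit 4) (nat_lit 468) (nat_lit 415) (nat_lit 137)) (XT.lf (nat_lit 0) (nat_lit 20107829778) (nat_lit 76) (nat_lit 537029369156) (nat_lit 152) (nat_lit 224590865595) (nat_lit 39) (nat_lit 5) (nat_lit 40) (nat_lit 5) (nat_lit 41) (nat_lit 4) (nat_lit 469) (nat_lit 415) (nat_lit 136))))))))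
noncomputable def xc238 : XT := (XT.nd (nat_lit 2106) (nat_lit 2736) (nat_lit 0) (XT.nd (nat_lit 1014) (nat_lit 2660) (nat_lit 0) (XT.nd (nat_lit 468) (nat_lit 380) (nat_lit 0) (XT.nd (nat_lit 234) (nat_lit 0) (nat_lit 76) (XT.nd (nat_lit 78) (nat_lit 0) (nat_lit 0) (XT.lf (nat_lit 0) (nat_lit 23223255482) (nat_lit 836) (nat_lit 29843991903) (nat_lit 836) (nat_lit 29843991903) (nat_lit 118) (nat_lit 3) (nat_lit 129) (nat_lit 3) (nat_lit 129) (nat_lit 5) (nat_lit 416) (nat_lit 416) (nat_lit 188)) (XT.nd (nat_lit 78) (nat_lit 0) (nat_lit 76) (XT.lf (nat_lit 76) (nat_lit 21566681580) (nat_lit 0) (nat_lit 26380030019) (nat_lit 836) (nat_lit 122004375779) (nat_lit 119) (nat_lit 5) (nat_lit 118) (nat_lit 3) (nat_lit 129) (nat_lit 5) (nat_lit 417) (nat_lit 416) (nat_lit 187)) (XT.lf (nat_lit 0) (nat_lit 51444773640) (nat_lit 760) (nat_lit 66191516688) (nat_lit 836) (nat_lit 56553693804) (nat_lit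 119) (nat_lit 5) (nat_lit 129) (nat_lit 5) (nat_lit 130) (nat_lit 5) (nat_lit 418) (nat_lit 416) (nat_lit 186)))) (XT.nd (nat_lit 78) (nat_lit 0) (nat_lit 76) (XT.lf (nat_lit 76) (nat_lit 20329131492) (nat_lit 0) (nat_lit 35538319814) (nat_lit 836) (nat_lit 122735888869) (nat_lit 120) (nat_lit 5) (nat_lit 119) (nat_lit 5) (nat_lit 130) (nat_lit 5) (nat_lit 419) (nat_lit 416) (nat_lit 185)) (XT.nd (nat_lit 78) (nat_lit 0) (nat_lit 0) (XT.lf (nat_lit 0) (nat_lit 62441505192) (nat_lit 760) (nat_lit 70516966466) (nat_lit 836) (nat_lit 50182380319) (nat_lit 120) (nat_lit 5) (nat_lit 130) (nat_lit 5) (nat_lit 131) (nat_lit 5) (nat_lit 420) (nat_lit 416) (nat_lit 184)) (XT.lf (nat_lit 76) (nat_lit 21741313227) (nat_lit 0) (nat_lit 48524857792) (nat_lit 836) (nat_lit 117592972958) (nat_lit 121) (nat_lit 5) (nat_lit 120) (nat_lit 5) (nat_lit 131) (nat_lit 5) (nat_lit 421) (nat_lit 416) (nat_lit 183)))))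 (XT.nd (nat_lit 234) (nat_lit 608) (nat_lit 0) (XT.nd (nat_lit 78) (nat_lit 0) (nat_lit 0) (XT.lf (nat_lit 0) (nat_lit 80322311779) (nat_lit 760) (nat_lit 72339160654) (nat_lit 836) (nat_lit 40059866130) (nat_lit 121) (nat_lit 5) (nat_lit 131) (nat_lit 5) (nat_lit 132) (nat_lit 5) (nat_lit 422) (nat_lit 416) (nat_lit 182)) (XT.nd (nat_lit 78) (nat_lit 0) (nat_lit 76) (XT.lf (nat_lit 76) (nat_lit 26170484313) (nat_lit 0) (nat_lit 65914741640) (nat_lit 836) (nat_lit 105681218668) (nat_lit 122) (nat_lit 5) (nat_lit 121) (nat_lit 5) (nat_lit 132) (nat_lit 5) (nat_lit 423) (nat_lit 416) (nat_lit 181)) (XT.lf (nat_lit 0) (nat_lit 106074318797) (nat_lit 760) (nat_lit 71298627332) (nat_lit 836) (nat_lit 25608958268) (nat_lit 122) (nat_lit 5) (nat_lit 132) (nat_lit 5) (nat_lit 133) (nat_lit 5) (nat_lit 424) (nat_lit 416) (nat_lit 180)))) (XT.nd (nat_lit 156) (nat_lit 684) (nat_lit 0) (XT.nd (nat_lit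 78) (nat_lit 0) (nat_lit 76) (XT.lf (nat_lit 76) (nat_lit 34021825229) (nat_lit 0) (nat_lit 88352678980) (nat_lit 836) (nat_lit 86003051112) (nat_lit 123) (nat_lit 5) (nat_lit 122) (nat_lit 5) (nat_lit 133) (nat_lit 5) (nat_lit 425) (nat_lit 416) (nat_lit 179)) (XT.lf (nat_lit 0) (nat_lit 140796782450) (nat_lit 760) (nat_lit 66998790101) (nat_lit 76) (nat_lit 6182062119) (nat_lit 123) (nat_lit 5) (nat_lit 133) (nat_lit 5) (nat_lit 124) (nat_lit 5) (nat_lit 426) (nat_lit 416) (nat_lit 178))) (XT.nd (nat_lit 78) (nat_lit 0) (nat_lit 0) (XT.lf (nat_lit 0) (nat_lit 45741518480) (nat_lit 760) (nat_lit 116561115311) (nat_lit 836) (nat_lit 57446961288) (nat_lit 113) (nat_lit 5) (nat_lit 123) (nat_lit 5) (nat_lit 124) (nat_lit 5) (nat_lit 427) (nat_lit 416) (nat_lit 177)) (XT.lf (nat_lit 0) (nat_lit 166444802527) (nat_lit 760) (nat_lit 19573536769) (nat_lit 836) (nat_lit 39735086182) (nat_lit 113)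 (nat_lit 5) (nat_lit 123) (nat_lit 5) (nat_lit 124) (nat_lit 5) (nat_lit 428) (nat_lit 416) (nat_lit 176)))))) (XT.nd (nat_lit 546) (nat_lit 1140) (nat_lit 0) (XT.nd (nat_lit 234) (nat_lit 684) (nat_lit 0) (XT.nd (nat_lit 78) (nat_lit 456) (nat_lit 0) (XT.lf (nat_lit 0) (nat_lit 61819978981) (nat_lit 380) (nat_lit 151349306093) (nat_lit 456) (nat_lit 18775689621) (nat_lit 108) (nat_lit 5) (nat_lit 113) (nat_lit 5) (nat_lit 114) (nat_lit 5) (nat_lit 429) (nat_lit 416) (nat_lit 175)) (XT.nd (nat_lit 78) (nat_lit 380) (nat_lit 0) (XT.lf (nat_lit 0) (nat_lit 4469917545) (nat_lit 456) (nat_lit 47719695814) (nat_lit 76) (nat_lit 186186881550) (nat_lit 107) (nat_lit 5) (nat_lit 113) (nat_lit 5) (nat_lit 108) (nat_lit 5) (nat_lit 430) (nat_lit 416) (nat_lit 174)) (XT.lf (nat_lit 0) (nat_lit 30382161460) (nat_lit 456) (nat_lit 162726747521) (nat_lit 76) (nat_lit 51898525149) (nat_lit 102) (nat_lit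 5) (nat_lit 108) (nat_lit 5) (nat_lit 103) (nat_lit 5) (nat_lit 431) (nat_lit 416) (nat_lit 173)))) (XT.nd (nat_lit 156) (nat_lit 304) (nat_lit 0) (XT.nd (nat_lit 78) (nat_lit 380) (nat_lit 0) (XT.lf (nat_lit 0) (nat_lit 59266907409) (nat_lit 456) (nat_lit 32360607537) (nat_lit 76) (nat_lit 160258560914) (nat_lit 102) (nat_lit 5) (nat_lit 108) (nat_lit 5) (nat_lit 103) (nat_lit 5) (nat_lit 432) (nat_lit 416) (nat_lit 172)) (XT.lf (nat_lit 0) (nat_lit 91542383614) (nat_lit 456) (nat_lit 151305280828) (nat_lit 76) (nat_lit 16163660624) (nat_lit 97) (nat_lit 5) (nat_lit 103) (nat_lit 5) (nat_lit 98) (nat_lit 5) (nat_lit 433) (nat_lit 416) (nat_lit 171))) (XT.nd (nat_lit 78) (nat_lit 304) (nat_lit 0) (XT.lf (nat_lit 0) (nat_lit 127490674963) (nat_lit 456) (nat_lit 12077079100) (nat_lit 76) (nat_lit 126822130637) (nat_lit 97) (nat_lit 5) (nat_lit 103) (nat_lit 5) (nat_lit 98) (nat_lit 5) (nat_lit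 434) (nat_lit 416) (nat_lit 170)) (XT.lf (nat_lit 0) (nat_lit 138546814488) (nat_lit 304) (nat_lit 28852598132) (nat_lit 380) (nat_lit 106629808143) (nat_lit 93) (nat_lit 5) (nat_lit 97) (nat_lit 5) (nat_lit 98) (nat_lit 5) (nat_lit 435) (nat_lit 416) (nat_lit 169))))) (XT.nd (nat_lit 234) (nat_lit 532) (nat_lit 0) (XT.nd (nat_lit 78) (nat_lit 304) (nat_lit 0) (XT.lf (nat_lit 0) (nat_lit 14166336636) (nat_lit 304) (nat_lit 196930773252) (nat_lit 380) (nat_lit 70863737637) (nat_lit 89) (nat_lit 5) (nat_lit 93) (nat_lit 5) (nat_lit 94) (nat_lit 5) (nat_lit 436) (nat_lit 416) (nat_lit 168)) (XT.nd (nat_lit 78) (nat_lit 304) (nat_lit 0) (XT.lf (nat_lit 0) (nat_lit 175512444955) (nat_lit 304) (nat_lit 84227003443) (nat_lit 380) (nat_lit 30411619440) (nat_lit 89) (nat_lit 5) (nat_lit 93) (nat_lit 5) (nat_lit 94) (nat_lit 5) (nat_lit 437) (nat_lit 416) (nat_lit 167)) (XT.lf (nat_lit 0) (nat_lit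 12966493778) (nat_lit 304) (nat_lit 251744963295) (nat_lit 76) (nat_lit 33965450987) (nat_lit 85) (nat_lit 5) (nat_lit 89) (nat_lit 5) (nat_lit 86) (nat_lit 5) (nat_lit 438) (nat_lit 416) (nat_lit 166)))) (XT.nd (nat_lit 156) (nat_lit 228) (nat_lit 0) (XT.nd (nat_lit 78) (nat_lit 304) (nat_lit 0) (XT.lf (nat_lit 0) (nat_lit 60845476757) (nat_lit 304) (nat_lit 88882163494) (nat_lit 76) (nat_lit 157708772814) (nat_lit 85) (nat_lit 5) (nat_lit 89) (nat_lit 5) (nat_lit 86) (nat_lit 5) (nat_lit 439) (nat_lit 416) (nat_lit 165)) (XT.lf (nat_lit 0) (nat_lit 84839078305) (nat_lit 304) (nat_lit 27603845032) (nat_lit 380) (nat_lit 204124744287) (nat_lit 81) (nat_lit 5) (nat_lit 85) (nat_lit 5) (nat_lit 86) (nat_lit 5) (nat_lit 440) (nat_lit 416) (nat_lit 164))) (XT.nd (nat_lit 78) (nat_lit 228) (nat_lit 0) (XT.lf (nat_lit 0) (nat_lit 169721177300) (nat_lit 380) (nat_lit 57343863856) (nat_lit 76) (nat_lit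 98935397027) (nat_lit 81) (nat_lit 5) (nat_lit 86) (nat_lit 5) (nat_lit 82) (nat_lit 5) (nat_lit 441) (nat_lit 416) (nat_lit 163)) (XT.lf (nat_lit 0) (nat_lit 129450731685) (nat_lit 228) (nat_lit 102886166007) (nat_lit 304) (nat_lit 103444271913) (nat_lit 78) (nat_lit 5) (nat_lit 81) (nat_lit 5) (nat_lit 82) (nat_lit 5) (nat_lit 442) (nat_lit 416) (nat_lit 162))))))) (XT.nd (nat_lit 1014) (nat_lit 1140) (nat_lit 0) (XT.nd (nat_lit 468) (nat_lit 836) (nat_lit 0) (XT.nd (nat_lit 234) (nat_lit 228) (nat_lit 0) (XT.nd (nat_lit 78) (nat_lit 532) (nat_lit 0) (XT.lf (nat_lit 0) (nat_lit 299499792710) (nat_lit 304) (nat_lit 18871849390) (nat_lit 76) (nat_lit 27608476090) (nat_lit 78) (nat_lit 5) (nat_lit 82) (nat_lit 5) (nat_lit 79) (nat_lit 5) (nat_lit 443) (nat_lit 416) (nat_lit 161)) (XT.nd (nat_lit 78) (nat_lit 228) (nat_lit 0) (XT.lf (nat_lit 0) (nat_lit 17509091685) (nat_lit 304) (nat_lit 174643617193)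 (nat_lit 76) (nat_lit 164295699251) (nat_lit 74) (nat_lit 5) (nat_lit 78) (nat_lit 5) (nat_lit 75) (nat_lit 5) (nat_lit 444) (nat_lit 416) (nat_lit 160)) (XT.lf (nat_lit 0) (nat_lit 25804952426) (nat_lit 228) (nat_lit 58058661903) (nat_lit 304) (nat_lit 283502015709) (nat_lit 71) (nat_lit 5) (nat_lit 74) (nat_lit 5) (nat_lit 75) (nat_lit 5) (nat_lit 445) (nat_lit 416) (nat_lit 159)))) (XT.nd (nat_lit 78) (nat_lit 228) (nat_lit 0) (XT.lf (nat_lit 0) (nat_lit 157833776810) (nat_lit 304) (nat_lit 137682013081) (nat_lit 76) (nat_lit 83098027486) (nat_lit 71) (nat_lit 5) (nat_lit 75) (nat_lit 5) (nat_lit 72) (nat_lit 5) (nat_lit 446) (nat_lit 416) (nat_lit 158)) (XT.nd (nat_lit 78) (nat_lit 0) (nat_lit 0) (XT.lf (nat_lit 0) (nat_lit 77933076878) (nat_lit 228) (nat_lit 159737856507) (nat_lit 304) (nat_lit 152645056415) (nat_lit 68) (nat_lit 5) (nat_lit 71) (nat_lit 5) (nat_lit 72) (nat_lit 5) (nat_lit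 447) (nat_lit 416) (nat_lit 157)) (XT.lf (nat_lit 0) (nat_lit 309108859473) (nat_lit 228) (nat_lit 14722751959) (nat_lit 304) (nat_lit 78655076248) (nat_lit 68) (nat_lit 5) (nat_lit 71) (nat_lit 5) (nat_lit 72) (nat_lit 5) (nat_lit 448) (nat_lit 416) (nat_lit 156))))) (XT.nd (nat_lit 234) (nat_lit 380) (nat_lit 0) (XT.nd (nat_lit 78) (nat_lit 228) (nat_lit 0) (XT.lf (nat_lit 0) (nat_lit 3451669200) (nat_lit 228) (nat_lit 276230940405) (nat_lit 76) (nat_lit 135364746588) (nat_lit 65) (nat_lit 5) (nat_lit 68) (nat_lit 5) (nat_lit 66) (nat_lit 5) (nat_lit 449) (nat_lit 416) (nat_lit 155)) (XT.nd (nat_lit 78) (nat_lit 228) (nat_lit 0) (XT.lf (nat_lit 0) (nat_lit 88869059901) (nat_lit 228) (nat_lit 43851526982) (nat_lit 76) (nat_lit 295358568176) (nat_lit 65) (nat_lit 5) (nat_lit 68) (nat_lit 5) (nat_lit 66) (nat_lit 5) (nat_lit 450) (nat_lit 416) (nat_lit 154)) (XT.lf (nat_lit 0) (nat_lit 182175444512)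 (nat_lit 304) (nat_lit 235226583309) (nat_lit 76) (nat_lit 24179609840) (nat_lit 62) (nat_lit 5) (nat_lit 66) (nat_lit 5) (nat_lit 63) (nat_lit 5) (nat_lit 451) (nat_lit 416) (nat_lit 153)))) (XT.nd (nat_lit 156) (nat_lit 228) (nat_lit 0) (XT.nd (nat_lit 78) (nat_lit 0) (nat_lit 0) (XT.lf (nat_lit 0) (nat_lit 13103689873) (nat_lit 152) (nat_lit 270178569807) (nat_lit 228) (nat_lit 172320229160) (nat_lit 60) (nat_lit 5) (nat_lit 62) (nat_lit 5) (nat_lit 63) (nat_lit 5) (nat_lit 452) (nat_lit 416) (nat_lit 152)) (XT.lf (nat_lit 0) (nat_lit 282016946739) (nat_lit 152) (nat_lit 111411103195) (nat_lit 228) (nat_lit 76697150940) (nat_lit 60) (nat_lit 5) (nat_lit 62) (nat_lit 5) (nat_lit 63) (nat_lit 5) (nat_lit 453) (nat_lit 416) (nat_lit 151))) (XT.nd (nat_lit 78) (nat_lit 0) (nat_lit 0) (XT.lf (nat_lit 0) (nat_lit 25106682336) (nat_lit 228) (nat_lit 404950759042) (nat_lit 76) (nat_lit 55190181654)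 (nat_lit 57) (nat_lit 5) (nat_lit 60) (nat_lit 5) (nat_lit 58) (nat_lit 5) (nat_lit 454) (nat_lit 416) (nat_lit 150)) (XT.lf (nat_lit 0) (nat_lit 134487480778) (nat_lit 228) (nat_lit 135449980354) (nat_lit 76) (nat_lit 230872623623) (nat_lit 57) (nat_lit 5) (nat_lit 60) (nat_lit 5) (nat_lit 58) (nat_lit 5) (nat_lit 455) (nat_lit 416) (nat_lit 149)))))) (XT.nd (nat_lit 546) (nat_lit 456) (nat_lit 0) (XT.nd (nat_lit 234) (nat_lit 380) (nat_lit 0) (XT.nd (nat_lit 78) (nat_lit 152) (nat_lit 0) (XT.lf (nat_lit 0) (nat_lit 152403644149) (nat_lit 152) (nat_lit 99313085097) (nat_lit 228) (nat_lit 265314969824) (nat_lit 55) (nat_lit 5) (nat_lit 57) (nat_lit 5) (nat_lit 58) (nat_lit 5) (nat_lit 456) (nat_lit 416) (nat_lit 148)) (XT.nd (nat_lit 78) (nat_lit 152) (nat_lit 0) (XT.lf (nat_lit 0) (nat_lit 378385484129) (nat_lit 228) (nat_lit 75881463659) (nat_lit 76) (nat_lit 79618544123) (nat_lit 55) (nat_lit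 5) (nat_lit 58) (nat_lit 5) (nat_lit 56) (nat_lit 5) (nat_lit 457) (nat_lit 416) (nat_lit 147)) (XT.lf (nat_lit 0) (nat_lit 233136126764) (nat_lit 152) (nat_lit 283519506037) (nat_lit 228) (nat_lit 34662943798) (nat_lit 53) (nat_lit 5) (nat_lit 55) (nat_lit 5) (nat_lit 56) (nat_lit 5) (nat_lit 458) (nat_lit 416) (nat_lit 146)))) (XT.nd (nat_lit 156) (nat_lit 152) (nat_lit 0) (XT.nd (nat_lit 78) (nat_lit 152) (nat_lit 0) (XT.lf (nat_lit 0) (nat_lit 90570607268) (nat_lit 228) (nat_lit 10780907380) (nat_lit 76) (nat_lit 468134507348) (nat_lit 52) (nat_lit 5) (nat_lit 55) (nat_lit 5) (nat_lit 53) (nat_lit 5) (nat_lit 459) (nat_lit 416) (nat_lit 145)) (XT.lf (nat_lit 0) (nat_lit 227419479848) (nat_lit 228) (nat_lit 268058477709) (nat_lit 76) (nat_lit 92729542556) (nat_lit 50) (nat_lit 5) (nat_lit 53) (nat_lit 5) (nat_lit 51) (nat_lit 5) (nat_lit 460) (nat_lit 416) (nat_lit 144))) (XT.nd (nat_lit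 78) (nat_lit 0) (nat_lit 0) (XT.lf (nat_lit 0) (nat_lit 60412852659) (nat_lit 152) (nat_lit 313488197234) (nat_lit 228) (nat_lit 233824489557) (nat_lit 48) (nat_lit 5) (nat_lit 50) (nat_lit 5) (nat_lit 51) (nat_lit 5) (nat_lit 461) (nat_lit 416) (nat_lit 143)) (XT.lf (nat_lit 0) (nat_lit 414614078658) (nat_lit 152) (nat_lit 117632287185) (nat_lit 228) (nat_lit 95746131548) (nat_lit 48) (nat_lit 5) (nat_lit 50) (nat_lit 5) (nat_lit 51) (nat_lit 5) (nat_lit 462) (nat_lit 416) (nat_lit 142))))) (XT.nd (nat_lit 234) (nat_lit 152) (nat_lit 0) (XT.nd (nat_lit 78) (nat_lit 152) (nat_lit 0) (XT.lf (nat_lit 0) (nat_lit 51284472393) (nat_lit 152) (nat_lit 509550608919) (nat_lit 76) (nat_lit 88218076609) (nat_lit 46) (nat_lit 5) (nat_lit 48) (nat_lit 5) (nat_lit 47) (nat_lit 5) (nat_lit 463) (nat_lit 416) (nat_lit 141)) (XT.nd (nat_lit 78) (nat_lit 152) (nat_lit 0) (XT.lf (nat_lit 0) (nat_lit 208050182759)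 (nat_lit 152) (nat_lit 157107888089) (nat_lit 76) (nat_lit 305650236493) (nat_lit 46) (nat_lit 5) (nat_lit 48) (nat_lit 5) (nat_lit 47) (nat_lit 5) (nat_lit 464) (nat_lit 416) (nat_lit 140)) (XT.lf (nat_lit 0) (nat_lit 219998234142) (nat_lit 152) (nat_lit 156090703703) (nat_lit 228) (nat_lit 317390538434) (nat_lit 44) (nat_lit 5) (nat_lit 46) (nat_lit 5) (nat_lit 47) (nat_lit 5) (nat_lit 465) (nat_lit 416) (nat_lit 139)))) (XT.nd (nat_lit 156) (nat_lit 0) (nat_lit 0) (XT.nd (nat_lit 78) (nat_lit 152) (nat_lit 0) (XT.lf (nat_lit 0) (nat_lit 556224237847) (nat_lit 228) (nat_lit 96771066047) (nat_lit 76) (nat_lit 64104169417) (nat_lit 44) (nat_lit 5) (nat_lit 47) (nat_lit 5) (nat_lit 45) (nat_lit 4) (nat_lit 466) (nat_lit 416) (nat_lit 138)) (XT.lf (nat_lit 0) (nat_lit 10811683548) (nat_lit 152) (nat_lit 435698092793) (nat_lit 76) (nat_lit 295015149330) (nat_lit 42) (nat_lit 5) (nat_lit 44)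 (nat_lit 5) (nat_lit 43) (nat_lit 5) (nat_lit 467) (nat_lit 416) (nat_lit 137))) (XT.nd (nat_lit 49140) (nat_lit 0) (nat_lit 5776) (XT.lf (nat_lit 0) (nat_lit 187342189163) (nat_lit 152) (nat_lit 37839623301) (nat_lit 76) (nat_lit 541774688071) (nat_lit 42) (nat_lit 5) (nat_lit 44) (nat_lit 5) (nat_lit 43) (nat_lit 5) (nat_lit 468) (nat_lit 416) (nat_lit 136)) (XT.lf (nat_lit 0) (nat_lit 24386703532) (nat_lit 836) (nat_lit 31334991103) (nat_lit 836) (nat_lit 31334991103) (nat_lit 118) (nat_lit 3) (nat_lit 129) (nat_lit 3) (nat_lit 129) (nat_lit 5) (nat_lit 417) (nat_lit 417) (nat_lit 186))))))))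
noncomputable def xc239 : XT := (XT.nd (nat_lit 2106) (nat_lit 2736) (nat_lit 0) (XT.nd (nat_lit 1014) (nat_lit 2280) (nat_lit 0) (XT.nd (nat_lit 468) (nat_lit 760) (nat_lit 0) (XT.nd (nat_lit 234) (nat_lit 0) (nat_lit 152) (XT.nd (nat_lit 78) (nat_lit 0) (nat_lit 76) (XT.lf (nat_lit 76) (nat_lit 22647377726) (nat_lit 0) (nat_lit 27701059238) (nat_lit 836) (nat_lit 128099982913) (nat_lit 119) (nat_lit 5) (nat_lit 118) (nat_lit 3) (nat_lit 129) (nat_lit 5) (nat_lit 418) (nat_lit 417) (nat_lit 185)) (XT.nd (nat_lit 78) (nat_lit 0) (nat_lit 0) (XT.lf (nat_lit 0) (nat_lit 54021162918) (nat_lit 760) (nat_lit 69498601479) (nat_lit 836) (nat_lit 59379509144) (nat_lit 119) (nat_lit 5) (nat_lit 129) (nat_lit 5) (nat_lit 130) (nat_lit 5) (nat_lit 419) (nat_lit 417) (nat_lit 184)) (XT.lf (nat_lit 76) (nat_lit 21348038931) (nat_lit 0) (nat_lit 37316776154) (nat_lit 836) (nat_lit 128868490379) (nat_lit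 120) (nat_lit 5) (nat_lit 119) (nat_lit 5) (nat_lit 130) (nat_lit 5) (nat_lit 420) (nat_lit 417) (nat_lit 183)))) (XT.nd (nat_lit 78) (nat_lit 0) (nat_lit 0) (XT.lf (nat_lit 0) (nat_lit 65567358704) (nat_lit 760) (nat_lit 74040265614) (nat_lit 836) (nat_lit 52690079290) (nat_lit 120) (nat_lit 5) (nat_lit 130) (nat_lit 5) (nat_lit 131) (nat_lit 5) (nat_lit 421) (nat_lit 417) (nat_lit 182)) (XT.nd (nat_lit 78) (nat_lit 0) (nat_lit 76) (XT.lf (nat_lit 76) (nat_lit 22830886948) (nat_lit 0) (nat_lit 50952230115) (nat_lit 836) (nat_lit 123468800279) (nat_lit 121) (nat_lit 5) (nat_lit 120) (nat_lit 5) (nat_lit 131) (nat_lit 5) (nat_lit 422) (nat_lit 417) (nat_lit 181)) (XT.lf (nat_lit 0) (nat_lit 84341874853) (nat_lit 760) (nat_lit 75953538185) (nat_lit 836) (nat_lit 42061818214) (nat_lit 121) (nat_lit 5) (nat_lit 131) (nat_lit 5) (nat_lit 132) (nat_lit 5) (nat_lit 423) (nat_lit 417) (nat_lit 180)))))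 (XT.nd (nat_lit 234) (nat_lit 988) (nat_lit 0) (XT.nd (nat_lit 78) (nat_lit 0) (nat_lit 76) (XT.lf (nat_lit 76) (nat_lit 27481547410) (nat_lit 0) (nat_lit 69211262800) (nat_lit 836) (nat_lit 110961788719) (nat_lit 122) (nat_lit 5) (nat_lit 121) (nat_lit 5) (nat_lit 132) (nat_lit 5) (nat_lit 424) (nat_lit 417) (nat_lit 179)) (XT.nd (nat_lit 78) (nat_lit 0) (nat_lit 0) (XT.lf (nat_lit 0) (nat_lit 111381187800) (nat_lit 760) (nat_lit 74860969130) (nat_lit 836) (nat_lit 26888683342) (nat_lit 122) (nat_lit 5) (nat_lit 132) (nat_lit 5) (nat_lit 133) (nat_lit 5) (nat_lit 425) (nat_lit 417) (nat_lit 178)) (XT.lf (nat_lit 76) (nat_lit 35725464292) (nat_lit 0) (nat_lit 92770807824) (nat_lit 836) (nat_lit 90300007225) (nat_lit 123) (nat_lit 5) (nat_lit 122) (nat_lit 5) (nat_lit 133) (nat_lit 5) (nat_lit 426) (nat_lit 417) (nat_lit 177)))) (XT.nd (nat_lit 156) (nat_lit 380) (nat_lit 0) (XT.nd (nat_lit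 78) (nat_lit 760) (nat_lit 0) (XT.lf (nat_lit 0) (nat_lit 147839512020) (nat_lit 760) (nat_lit 70346149345) (nat_lit 76) (nat_lit 6490708982) (nat_lit 123) (nat_lit 5) (nat_lit 133) (nat_lit 5) (nat_lit 124) (nat_lit 5) (nat_lit 427) (nat_lit 417) (nat_lit 176)) (XT.lf (nat_lit 0) (nat_lit 48031133048) (nat_lit 760) (nat_lit 122389424875) (nat_lit 836) (nat_lit 60316375826) (nat_lit 113) (nat_lit 5) (nat_lit 123) (nat_lit 5) (nat_lit 124) (nat_lit 5) (nat_lit 428) (nat_lit 417) (nat_lit 175))) (XT.nd (nat_lit 78) (nat_lit 380) (nat_lit 0) (XT.lf (nat_lit 0) (nat_lit 174769460410) (nat_lit 760) (nat_lit 20552455320) (nat_lit 836) (nat_lit 41719046657) (nat_lit 113) (nat_lit 5) (nat_lit 123) (nat_lit 5) (nat_lit 124) (nat_lit 5) (nat_lit 429) (nat_lit 417) (nat_lit 174)) (XT.lf (nat_lit 0) (nat_lit 64913492601) (nat_lit 380) (nat_lit 158916825220) (nat_lit 456) (nat_lit 19711775858) (nat_lit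 108) (nat_lit 5) (nat_lit 113) (nat_lit 5) (nat_lit 114) (nat_lit 5) (nat_lit 430) (nat_lit 417) (nat_lit 173)))))) (XT.nd (nat_lit 546) (nat_lit 836) (nat_lit 0) (XT.nd (nat_lit 234) (nat_lit 988) (nat_lit 0) (XT.nd (nat_lit 78) (nat_lit 380) (nat_lit 0) (XT.lf (nat_lit 0) (nat_lit 4695900930) (nat_lit 456) (nat_lit 50103202229) (nat_lit 76) (nat_lit 195496090917) (nat_lit 107) (nat_lit 5) (nat_lit 113) (nat_lit 5) (nat_lit 108) (nat_lit 5) (nat_lit 431) (nat_lit 417) (nat_lit 172)) (XT.nd (nat_lit 78) (nat_lit 0) (nat_lit 0) (XT.lf (nat_lit 0) (nat_lit 31903677147) (nat_lit 456) (nat_lit 170860525482) (nat_lit 76) (nat_lit 54493481681) (nat_lit 102) (nat_lit 5) (nat_lit 108) (nat_lit 5) (nat_lit 103) (nat_lit 5) (nat_lit 432) (nat_lit 417) (nat_lit 171)) (XT.lf (nat_lit 0) (nat_lit 62232545745) (nat_lit 456) (nat_lit 33976200376) (nat_lit 76) (nat_lit 168271517793) (nat_lit 102) (nat_lit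 5) (nat_lit 108) (nat_lit 5) (nat_lit 103) (nat_lit 5) (nat_lit 433) (nat_lit 417) (nat_lit 170)))) (XT.nd (nat_lit 156) (nat_lit 608) (nat_lit 0) (XT.nd (nat_lit 78) (nat_lit 0) (nat_lit 0) (XT.lf (nat_lit 0) (nat_lit 96121726778) (nat_lit 456) (nat_lit 158868037310) (nat_lit 76) (nat_lit 16972014993) (nat_lit 97) (nat_lit 5) (nat_lit 103) (nat_lit 5) (nat_lit 98) (nat_lit 5) (nat_lit 434) (nat_lit 417) (nat_lit 169)) (XT.lf (nat_lit 0) (nat_lit 133867326791) (nat_lit 456) (nat_lit 12678544903) (nat_lit 76) (nat_lit 133163400348) (nat_lit 97) (nat_lit 5) (nat_lit 103) (nat_lit 5) (nat_lit 98) (nat_lit 5) (nat_lit 435) (nat_lit 417) (nat_lit 168))) (XT.nd (nat_lit 78) (nat_lit 304) (nat_lit 0) (XT.lf (nat_lit 0) (nat_lit 145476504845) (nat_lit 304) (nat_lit 30294932309) (nat_lit 380) (nat_lit 111959141010) (nat_lit 93) (nat_lit 5) (nat_lit 97) (nat_lit 5) (nat_lit 98) (nat_lit 5) (nat_lit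 436) (nat_lit 417) (nat_lit 167)) (XT.lf (nat_lit 0) (nat_lit 14877062627) (nat_lit 304) (nat_lit 206776900865) (nat_lit 380) (nat_lit 74404825607) (nat_lit 89) (nat_lit 5) (nat_lit 93) (nat_lit 5) (nat_lit 94) (nat_lit 5) (nat_lit 437) (nat_lit 417) (nat_lit 166))))) (XT.nd (nat_lit 234) (nat_lit 532) (nat_lit 0) (XT.nd (nat_lit 78) (nat_lit 304) (nat_lit 0) (XT.lf (nat_lit 0) (nat_lit 184290361640) (nat_lit 304) (nat_lit 88437962139) (nat_lit 380) (nat_lit 31930201448) (nat_lit 89) (nat_lit 5) (nat_lit 93) (nat_lit 5) (nat_lit 94) (nat_lit 5) (nat_lit 438) (nat_lit 417) (nat_lit 165)) (XT.nd (nat_lit 78) (nat_lit 0) (nat_lit 0) (XT.lf (nat_lit 0) (nat_lit 13616704452) (nat_lit 304) (nat_lit 264329802454) (nat_lit 76) (nat_lit 35664151482) (nat_lit 85) (nat_lit 5) (nat_lit 89) (nat_lit 5) (nat_lit 86) (nat_lit 5) (nat_lit 439) (nat_lit 417) (nat_lit 164)) (XT.lf (nat_lit 0) (nat_lit 63889546771)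 (nat_lit 304) (nat_lit 93323977378) (nat_lit 76) (nat_lit 165594619023) (nat_lit 85) (nat_lit 5) (nat_lit 89) (nat_lit 5) (nat_lit 86) (nat_lit 5) (nat_lit 440) (nat_lit 417) (nat_lit 163)))) (XT.nd (nat_lit 156) (nat_lit 228) (nat_lit 0) (XT.nd (nat_lit 78) (nat_lit 0) (nat_lit 0) (XT.lf (nat_lit 0) (nat_lit 89083289506) (nat_lit 304) (nat_lit 28983525884) (nat_lit 380) (nat_lit 214329147618) (nat_lit 81) (nat_lit 5) (nat_lit 85) (nat_lit 5) (nat_lit 86) (nat_lit 5) (nat_lit 441) (nat_lit 417) (nat_lit 162)) (XT.lf (nat_lit 0) (nat_lit 178208906518) (nat_lit 380) (nat_lit 60208831050) (nat_lit 76) (nat_lit 103882638337) (nat_lit 81) (nat_lit 5) (nat_lit 86) (nat_lit 5) (nat_lit 82) (nat_lit 5) (nat_lit 442) (nat_lit 417) (nat_lit 161))) (XT.nd (nat_lit 78) (nat_lit 0) (nat_lit 0) (XT.lf (nat_lit 0) (nat_lit 135925458365) (nat_lit 228) (nat_lit 108029909217) (nat_lit 304) (nat_lit 108614778615)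 (nat_lit 78) (nat_lit 5) (nat_lit 81) (nat_lit 5) (nat_lit 82) (nat_lit 5) (nat_lit 443) (nat_lit 417) (nat_lit 160)) (XT.lf (nat_lit 0) (nat_lit 314476338373) (nat_lit 304) (nat_lit 19813286467) (nat_lit 76) (nat_lit 28989420851) (nat_lit 78) (nat_lit 5) (nat_lit 82) (nat_lit 5) (nat_lit 79) (nat_lit 5) (nat_lit 444) (nat_lit 417) (nat_lit 159))))))) (XT.nd (nat_lit 1092) (nat_lit 988) (nat_lit 0) (XT.nd (nat_lit 546) (nat_lit 760) (nat_lit 0) (XT.nd (nat_lit 234) (nat_lit 456) (nat_lit 0) (XT.nd (nat_lit 78) (nat_lit 228) (nat_lit 0) (XT.lf (nat_lit 0) (nat_lit 18386086706) (nat_lit 304) (nat_lit 183373625941) (nat_lit 76) (nat_lit 172511038316) (nat_lit 74) (nat_lit 5) (nat_lit 78) (nat_lit 5) (nat_lit 75) (nat_lit 5) (nat_lit 445) (nat_lit 417) (nat_lit 158)) (XT.nd (nat_lit 78) (nat_lit 0) (nat_lit 0) (XT.lf (nat_lit 0) (nat_lit 27097337125) (nat_lit 228) (nat_lit 60960958368) (nat_lit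 304) (nat_lit 297675540500) (nat_lit 71) (nat_lit 5) (nat_lit 74) (nat_lit 5) (nat_lit 75) (nat_lit 5) (nat_lit 446) (nat_lit 417) (nat_lit 157)) (XT.lf (nat_lit 0) (nat_lit 165726904115) (nat_lit 304) (nat_lit 144564015939) (nat_lit 76) (nat_lit 87253515769) (nat_lit 71) (nat_lit 5) (nat_lit 75) (nat_lit 5) (nat_lit 72) (nat_lit 5) (nat_lit 447) (nat_lit 417) (nat_lit 156)))) (XT.nd (nat_lit 156) (nat_lit 228) (nat_lit 0) (XT.nd (nat_lit 78) (nat_lit 0) (nat_lit 0) (XT.lf (nat_lit 0) (nat_lit 81831794682) (nat_lit 228) (nat_lit 167724087563) (nat_lit 304) (nat_lit 160275836460) (nat_lit 68) (nat_lit 5) (nat_lit 71) (nat_lit 5) (nat_lit 72) (nat_lit 5) (nat_lit 448) (nat_lit 417) (nat_lit 155)) (XT.lf (nat_lit 0) (nat_lit 324566268123) (nat_lit 228) (nat_lit 15458259300) (nat_lit 304) (nat_lit 82586427417) (nat_lit 68) (nat_lit 5) (nat_lit 71) (nat_lit 5) (nat_lit 72) (nat_lit 5) (nat_lit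 449) (nat_lit 417) (nat_lit 154))) (XT.nd (nat_lit 78) (nat_lit 0) (nat_lit 0) (XT.lf (nat_lit 0) (nat_lit 3625586866) (nat_lit 228) (nat_lit 290040452469) (nat_lit 76) (nat_lit 142133617547) (nat_lit 65) (nat_lit 5) (nat_lit 68) (nat_lit 5) (nat_lit 66) (nat_lit 5) (nat_lit 450) (nat_lit 417) (nat_lit 153)) (XT.lf (nat_lit 0) (nat_lit 93313783569) (nat_lit 228) (nat_lit 46042165277) (nat_lit 76) (nat_lit 310127100040) (nat_lit 65) (nat_lit 5) (nat_lit 68) (nat_lit 5) (nat_lit 66) (nat_lit 5) (nat_lit 451) (nat_lit 417) (nat_lit 152))))) (XT.nd (nat_lit 234) (nat_lit 380) (nat_lit 0) (XT.nd (nat_lit 78) (nat_lit 152) (nat_lit 0) (XT.lf (nat_lit 0) (nat_lit 191285467084) (nat_lit 304) (nat_lit 246985953721) (nat_lit 76) (nat_lit 25389235849) (nat_lit 62) (nat_lit 5) (nat_lit 66) (nat_lit 5) (nat_lit 63) (nat_lit 5) (nat_lit 452) (nat_lit 417) (nat_lit 151)) (XT.nd (nat_lit 78) (nat_lit 0)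 (nat_lit 0) (XT.lf (nat_lit 0) (nat_lit 13760801527) (nat_lit 152) (nat_lit 283686792032) (nat_lit 228) (nat_lit 180934958324) (nat_lit 60) (nat_lit 5) (nat_lit 62) (nat_lit 5) (nat_lit 63) (nat_lit 5) (nat_lit 453) (nat_lit 417) (nat_lit 150)) (XT.lf (nat_lit 0) (nat_lit 296119629467) (nat_lit 152) (nat_lit 116980985721) (nat_lit 228) (nat_lit 80530787254) (nat_lit 60) (nat_lit 5) (nat_lit 62) (nat_lit 5) (nat_lit 63) (nat_lit 5) (nat_lit 454) (nat_lit 417) (nat_lit 149)))) (XT.nd (nat_lit 156) (nat_lit 152) (nat_lit 0) (XT.nd (nat_lit 78) (nat_lit 0) (nat_lit 0) (XT.lf (nat_lit 0) (nat_lit 26363181876) (nat_lit 228) (nat_lit 425196405165) (nat_lit 76) (nat_lit 57950358565) (nat_lit 57) (nat_lit 5) (nat_lit 60) (nat_lit 5) (nat_lit 58) (nat_lit 5) (nat_lit 455) (nat_lit 417) (nat_lit 148)) (XT.lf (nat_lit 0) (nat_lit 141212964744) (nat_lit 228) (nat_lit 142220677630) (nat_lit 76) (nat_lit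 242416890831) (nat_lit 57) (nat_lit 5) (nat_lit 60) (nat_lit 5) (nat_lit 58) (nat_lit 5) (nat_lit 456) (nat_lit 417) (nat_lit 147))) (XT.nd (nat_lit 78) (nat_lit 0) (nat_lit 0) (XT.lf (nat_lit 0) (nat_lit 160025599038) (nat_lit 152) (nat_lit 104278051420) (nat_lit 228) (nat_lit 278579579050) (nat_lit 55) (nat_lit 5) (nat_lit 57) (nat_lit 5) (nat_lit 58) (nat_lit 5) (nat_lit 457) (nat_lit 417) (nat_lit 146)) (XT.lf (nat_lit 0) (nat_lit 397305801660) (nat_lit 228) (nat_lit 79673806883) (nat_lit 76) (nat_lit 83600105533) (nat_lit 55) (nat_lit 5) (nat_lit 58) (nat_lit 5) (nat_lit 56) (nat_lit 5) (nat_lit 458) (nat_lit 417) (nat_lit 145)))))) (XT.nd (nat_lit 546) (nat_lit 304) (nat_lit 0) (XT.nd (nat_lit 234) (nat_lit 304) (nat_lit 0) (XT.nd (nat_lit 78) (nat_lit 228) (nat_lit 0) (XT.lf (nat_lit 0) (nat_lit 244794635159) (nat_lit 152) (nat_lit 297694799499) (nat_lit 228) (nat_lit 36395019510)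 (nat_lit 53) (nat_lit 5) (nat_lit 55) (nat_lit 5) (nat_lit 56) (nat_lit 5) (nat_lit 459) (nat_lit 417) (nat_lit 144)) (XT.nd (nat_lit 78) (nat_lit 152) (nat_lit 0) (XT.lf (nat_lit 0) (nat_lit 95100125426) (nat_lit 228) (nat_lit 11318298854) (nat_lit 76) (nat_lit 491541849197) (nat_lit 52) (nat_lit 5) (nat_lit 55) (nat_lit 5) (nat_lit 53) (nat_lit 5) (nat_lit 460) (nat_lit 417) (nat_lit 143)) (XT.lf (nat_lit 0) (nat_lit 238791430324) (nat_lit 228) (nat_lit 281459736169) (nat_lit 76) (nat_lit 97366659583) (nat_lit 50) (nat_lit 5) (nat_lit 53) (nat_lit 5) (nat_lit 51) (nat_lit 5) (nat_lit 461) (nat_lit 417) (nat_lit 142)))) (XT.nd (nat_lit 156) (nat_lit 152) (nat_lit 0) (XT.nd (nat_lit 78) (nat_lit 0) (nat_lit 0) (XT.lf (nat_lit 0) (nat_lit 63435133855) (nat_lit 152) (nat_lit 329161924100) (nat_lit 228) (nat_lit 245514710482) (nat_lit 48) (nat_lit 5) (nat_lit 50) (nat_lit 5) (nat_lit 51) (nat_lit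 5) (nat_lit 462) (nat_lit 417) (nat_lit 141)) (XT.lf (nat_lit 0) (nat_lit 435346343128) (nat_lit 152) (nat_lit 123513251072) (nat_lit 228) (nat_lit 100532482361) (nat_lit 48) (nat_lit 5) (nat_lit 50) (nat_lit 5) (nat_lit 51) (nat_lit 5) (nat_lit 463) (nat_lit 417) (nat_lit 140))) (XT.nd (nat_lit 78) (nat_lit 0) (nat_lit 0) (XT.lf (nat_lit 0) (nat_lit 53849611881) (nat_lit 152) (nat_lit 535026538564) (nat_lit 76) (nat_lit 92629619399) (nat_lit 46) (nat_lit 5) (nat_lit 48) (nat_lit 5) (nat_lit 47) (nat_lit 5) (nat_lit 464) (nat_lit 417) (nat_lit 139)) (XT.lf (nat_lit 0) (nat_lit 218453564153) (nat_lit 152) (nat_lit 164961757921) (nat_lit 76) (nat_lit 320933356851) (nat_lit 46) (nat_lit 5) (nat_lit 48) (nat_lit 5) (nat_lit 47) (nat_lit 5) (nat_lit 465) (nat_lit 417) (nat_lit 138))))) (XT.nd (nat_lit 49374) (nat_lit 0) (nat_lit 5776) (XT.nd (nat_lit 78) (nat_lit 152) (nat_lit 0) (XT.lf (nat_lit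 0) (nat_lit 230999645831) (nat_lit 152) (nat_lit 163894593044) (nat_lit 228) (nat_lit 333259168347) (nat_lit 44) (nat_lit 5) (nat_lit 46) (nat_lit 5) (nat_lit 47) (nat_lit 5) (nat_lit 466) (nat_lit 417) (nat_lit 137)) (XT.nd (nat_lit 78) (nat_lit 152) (nat_lit 0) (XT.lf (nat_lit 0) (nat_lit 584036272808) (nat_lit 228) (nat_lit 101608159570) (nat_lit 76) (nat_lit 67309973290) (nat_lit 44) (nat_lit 5) (nat_lit 47) (nat_lit 5) (nat_lit 45) (nat_lit 4) (nat_lit 467) (nat_lit 417) (nat_lit 136)) (XT.lf (nat_lit 0) (nat_lit 11353087385) (nat_lit 152) (nat_lit 457481533956) (nat_lit 76) (nat_lit 309766509491) (nat_lit 42) (nat_lit 5) (nat_lit 44) (nat_lit 5) (nat_lit 43) (nat_lit 5) (nat_lit 468) (nat_lit 417) (nat_lit 135)))) (XT.nd (nat_lit 156) (nat_lit 0) (nat_lit 76) (XT.nd (nat_lit 78) (nat_lit 0) (nat_lit 0) (XT.lf (nat_lit 0) (nat_lit 25608111521) (nat_lit 836) (nat_lit 32900651865) (nat_lit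 836) (nat_lit 32900651865) (nat_lit 118) (nat_lit 3) (nat_lit 129) (nat_lit 3) (nat_lit 129) (nat_lit 5) (nat_lit 418) (nat_lit 418) (nat_lit 184)) (XT.lf (nat_lit 76) (nat_lit 23781889076) (nat_lit 0) (nat_lit 29087951399) (nat_lit 836) (nat_lit 134500799152) (nat_lit 119) (nat_lit 5) (nat_lit 118) (nat_lit 3) (nat_lit 129) (nat_lit 5) (nat_lit 419) (nat_lit 418) (nat_lit 183))) (XT.nd (nat_lit 78) (nat_lit 0) (nat_lit 0) (XT.lf (nat_lit 0) (nat_lit 56725985778) (nat_lit 760) (nat_lit 72971272103) (nat_lit 836) (nat_lit 62346789045) (nat_lit 119) (nat_lit 5) (nat_lit 129) (nat_lit 5) (nat_lit 130) (nat_lit 5) (nat_lit 420) (nat_lit 418) (nat_lit 182)) (XT.lf (nat_lit 76) (nat_lit 22417663885) (nat_lit 0) (nat_lit 39184012103) (nat_lit 836) (nat_lit 135308111783) (nat_lit 120) (nat_lit 5) (nat_lit 119) (nat_lit 5) (nat_lit 130) (nat_lit 5) (nat_lit 421) (nat_lit 418) (nat_lit 181))))))))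
noncomputable def xc240 : XT := (XT.nd (nat_lit 2106) (nat_lit 2052) (nat_lit 0) (XT.nd (nat_lit 1014) (nat_lit 2356) (nat_lit 0) (XT.nd (nat_lit 468) (nat_lit 1368) (nat_lit 0) (XT.nd (nat_lit 234) (nat_lit 0) (nat_lit 76) (XT.nd (nat_lit 78) (nat_lit 0) (nat_lit 0) (XT.lf (nat_lit 0) (nat_lit 68849153625) (nat_lit 760) (nat_lit 77739966717) (nat_lit 836) (nat_lit 55323295231) (nat_lit 120) (nat_lit 5) (nat_lit 130) (nat_lit 5) (nat_lit 131) (nat_lit 5) (nat_lit 422) (nat_lit 418) (nat_lit 180)) (XT.nd (nat_lit 78) (nat_lit 0) (nat_lit 76) (XT.lf (nat_lit 76) (nat_lit 23974706180) (nat_lit 0) (nat_lit 53500866050) (nat_lit 836) (nat_lit 129638774238) (nat_lit 121) (nat_lit 5) (nat_lit 120) (nat_lit 5) (nat_lit 131) (nat_lit 5) (nat_lit 423) (nat_lit 418) (nat_lit 179)) (XT.lf (nat_lit 0) (nat_lit 88562095566) (nat_lit 760) (nat_lit 79748874503) (nat_lit 836) (nat_lit 44163964704) (nat_lit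 121) (nat_lit 5) (nat_lit 131) (nat_lit 5) (nat_lit 132) (nat_lit 5) (nat_lit 424) (nat_lit 418) (nat_lit 178)))) (XT.nd (nat_lit 78) (nat_lit 0) (nat_lit 76) (XT.lf (nat_lit 76) (nat_lit 28857927620) (nat_lit 0) (nat_lit 72672537121) (nat_lit 836) (nat_lit 116506711821) (nat_lit 122) (nat_lit 5) (nat_lit 121) (nat_lit 5) (nat_lit 132) (nat_lit 5) (nat_lit 425) (nat_lit 418) (nat_lit 177)) (XT.nd (nat_lit 78) (nat_lit 0) (nat_lit 0) (XT.lf (nat_lit 0) (nat_lit 116953107112) (nat_lit 760) (nat_lit 78601668771) (nat_lit 836) (nat_lit 28232461872) (nat_lit 122) (nat_lit 5) (nat_lit 132) (nat_lit 5) (nat_lit 133) (nat_lit 5) (nat_lit 426) (nat_lit 418) (nat_lit 176)) (XT.lf (nat_lit 76) (nat_lit 37514048438) (nat_lit 0) (nat_lit 97409797099) (nat_lit 836) (nat_lit 94812108319) (nat_lit 123) (nat_lit 5) (nat_lit 122) (nat_lit 5) (nat_lit 133) (nat_lit 5) (nat_lit 427) (nat_lit 418) (nat_lit 175)))))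 (XT.nd (nat_lit 234) (nat_lit 836) (nat_lit 0) (XT.nd (nat_lit 78) (nat_lit 760) (nat_lit 0) (XT.lf (nat_lit 0) (nat_lit 155234109342) (nat_lit 760) (nat_lit 73861116439) (nat_lit 76) (nat_lit 6814830605) (nat_lit 123) (nat_lit 5) (nat_lit 133) (nat_lit 5) (nat_lit 124) (nat_lit 5) (nat_lit 428) (nat_lit 418) (nat_lit 174)) (XT.nd (nat_lit 78) (nat_lit 0) (nat_lit 0) (XT.lf (nat_lit 0) (nat_lit 50434992325) (nat_lit 760) (nat_lit 128509126321) (nat_lit 836) (nat_lit 63329533823) (nat_lit 113) (nat_lit 5) (nat_lit 123) (nat_lit 5) (nat_lit 124) (nat_lit 5) (nat_lit 429) (nat_lit 418) (nat_lit 173)) (XT.lf (nat_lit 0) (nat_lit 183510126406) (nat_lit 760) (nat_lit 21580297326) (nat_lit 836) (nat_lit 43802464901) (nat_lit 113) (nat_lit 5) (nat_lit 123) (nat_lit 5) (nat_lit 124) (nat_lit 5) (nat_lit 430) (nat_lit 418) (nat_lit 172)))) (XT.nd (nat_lit 156) (nat_lit 380) (nat_lit 0) (XT.nd (nat_lit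 78) (nat_lit 76) (nat_lit 0) (XT.lf (nat_lit 0) (nat_lit 68161448113) (nat_lit 380) (nat_lit 166862715300) (nat_lit 456) (nat_lit 20694917263) (nat_lit 108) (nat_lit 5) (nat_lit 113) (nat_lit 5) (nat_lit 114) (nat_lit 5) (nat_lit 431) (nat_lit 418) (nat_lit 171)) (XT.lf (nat_lit 0) (nat_lit 4932952220) (nat_lit 456) (nat_lit 52606114380) (nat_lit 76) (nat_lit 205270773276) (nat_lit 107) (nat_lit 5) (nat_lit 113) (nat_lit 5) (nat_lit 108) (nat_lit 5) (nat_lit 432) (nat_lit 418) (nat_lit 170))) (XT.nd (nat_lit 78) (nat_lit 0) (nat_lit 0) (XT.lf (nat_lit 0) (nat_lit 33501044782) (nat_lit 456) (nat_lit 179401230291) (nat_lit 76) (nat_lit 57218183226) (nat_lit 102) (nat_lit 5) (nat_lit 108) (nat_lit 5) (nat_lit 103) (nat_lit 5) (nat_lit 433) (nat_lit 418) (nat_lit 169)) (XT.lf (nat_lit 0) (nat_lit 65346252820) (nat_lit 456) (nat_lit 35672799475) (nat_lit 76) (nat_lit 176685119835) (nat_lit 102)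 (nat_lit 5) (nat_lit 108) (nat_lit 5) (nat_lit 103) (nat_lit 5) (nat_lit 434) (nat_lit 418) (nat_lit 168)))))) (XT.nd (nat_lit 546) (nat_lit 1064) (nat_lit 0) (XT.nd (nat_lit 234) (nat_lit 608) (nat_lit 0) (XT.nd (nat_lit 78) (nat_lit 304) (nat_lit 0) (XT.lf (nat_lit 0) (nat_lit 100929830336) (nat_lit 456) (nat_lit 166809164745) (nat_lit 76) (nat_lit 17820771151) (nat_lit 97) (nat_lit 5) (nat_lit 103) (nat_lit 5) (nat_lit 98) (nat_lit 5) (nat_lit 435) (nat_lit 418) (nat_lit 167)) (XT.nd (nat_lit 78) (nat_lit 304) (nat_lit 0) (XT.lf (nat_lit 0) (nat_lit 140562614291) (nat_lit 456) (nat_lit 13310306024) (nat_lit 76) (nat_lit 139821718373) (nat_lit 97) (nat_lit 5) (nat_lit 103) (nat_lit 5) (nat_lit 98) (nat_lit 5) (nat_lit 436) (nat_lit 418) (nat_lit 166)) (XT.lf (nat_lit 0) (nat_lit 152752461274) (nat_lit 304) (nat_lit 31809410688) (nat_lit 380) (nat_lit 117555141108) (nat_lit 93) (nat_lit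 5) (nat_lit 97) (nat_lit 5) (nat_lit 98) (nat_lit 5) (nat_lit 437) (nat_lit 418) (nat_lit 165)))) (XT.nd (nat_lit 156) (nat_lit 304) (nat_lit 0) (XT.nd (nat_lit 78) (nat_lit 0) (nat_lit 0) (XT.lf (nat_lit 0) (nat_lit 15623100936) (nat_lit 304) (nat_lit 217115373074) (nat_lit 380) (nat_lit 78123163113) (nat_lit 89) (nat_lit 5) (nat_lit 93) (nat_lit 5) (nat_lit 94) (nat_lit 5) (nat_lit 438) (nat_lit 418) (nat_lit 164)) (XT.lf (nat_lit 0) (nat_lit 193506960844) (nat_lit 304) (nat_lit 92859505165) (nat_lit 380) (nat_lit 33524898402) (nat_lit 89) (nat_lit 5) (nat_lit 93) (nat_lit 5) (nat_lit 94) (nat_lit 5) (nat_lit 439) (nat_lit 418) (nat_lit 163))) (XT.nd (nat_lit 78) (nat_lit 0) (nat_lit 0) (XT.lf (nat_lit 0) (nat_lit 14299250318) (nat_lit 304) (nat_lit 277544107538) (nat_lit 76) (nat_lit 37447747216) (nat_lit 85) (nat_lit 5) (nat_lit 89) (nat_lit 5) (nat_lit 86) (nat_lit 5) (nat_lit 440) (nat_lit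 418) (nat_lit 162)) (XT.lf (nat_lit 0) (nat_lit 67085653294) (nat_lit 304) (nat_lit 97988095258) (nat_lit 76) (nat_lit 173874719650) (nat_lit 85) (nat_lit 5) (nat_lit 89) (nat_lit 5) (nat_lit 86) (nat_lit 5) (nat_lit 441) (nat_lit 418) (nat_lit 161))))) (XT.nd (nat_lit 234) (nat_lit 532) (nat_lit 0) (XT.nd (nat_lit 78) (nat_lit 228) (nat_lit 0) (XT.lf (nat_lit 0) (nat_lit 93539501407) (nat_lit 304) (nat_lit 30432238324) (nat_lit 380) (nat_lit 225043941612) (nat_lit 81) (nat_lit 5) (nat_lit 85) (nat_lit 5) (nat_lit 86) (nat_lit 5) (nat_lit 442) (nat_lit 418) (nat_lit 160)) (XT.nd (nat_lit 78) (nat_lit 228) (nat_lit 0) (XT.lf (nat_lit 0) (nat_lit 187120866904) (nat_lit 380) (nat_lit 63217253555) (nat_lit 76) (nat_lit 109077197881) (nat_lit 81) (nat_lit 5) (nat_lit 86) (nat_lit 5) (nat_lit 82) (nat_lit 5) (nat_lit 443) (nat_lit 418) (nat_lit 159)) (XT.lf (nat_lit 0) (nat_lit 142723717765) (nat_lit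 228) (nat_lit 113430892125) (nat_lit 304) (nat_lit 114043969342) (nat_lit 78) (nat_lit 5) (nat_lit 81) (nat_lit 5) (nat_lit 82) (nat_lit 5) (nat_lit 444) (nat_lit 418) (nat_lit 158)))) (XT.nd (nat_lit 156) (nat_lit 228) (nat_lit 0) (XT.nd (nat_lit 78) (nat_lit 304) (nat_lit 0) (XT.lf (nat_lit 0) (nat_lit 330201566654) (nat_lit 304) (nat_lit 20801995787) (nat_lit 76) (nat_lit 30439364415) (nat_lit 78) (nat_lit 5) (nat_lit 82) (nat_lit 5) (nat_lit 79) (nat_lit 5) (nat_lit 445) (nat_lit 418) (nat_lit 157)) (XT.lf (nat_lit 0) (nat_lit 19306788262) (nat_lit 304) (nat_lit 192540337068) (nat_lit 76) (nat_lit 181137092820) (nat_lit 74) (nat_lit 5) (nat_lit 78) (nat_lit 5) (nat_lit 75) (nat_lit 5) (nat_lit 446) (nat_lit 418) (nat_lit 156))) (XT.nd (nat_lit 78) (nat_lit 0) (nat_lit 0) (XT.lf (nat_lit 0) (nat_lit 28454142374) (nat_lit 228) (nat_lit 64008428845) (nat_lit 304) (nat_lit 312557888051) (nat_lit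 71) (nat_lit 5) (nat_lit 74) (nat_lit 5) (nat_lit 75) (nat_lit 5) (nat_lit 447) (nat_lit 418) (nat_lit 155)) (XT.lf (nat_lit 0) (nat_lit 174014554050) (nat_lit 304) (nat_lit 151790313974) (nat_lit 76) (nat_lit 91616723900) (nat_lit 71) (nat_lit 5) (nat_lit 75) (nat_lit 5) (nat_lit 72) (nat_lit 5) (nat_lit 448) (nat_lit 418) (nat_lit 154))))))) (XT.nd (nat_lit 1014) (nat_lit 608) (nat_lit 0) (XT.nd (nat_lit 468) (nat_lit 608) (nat_lit 0) (XT.nd (nat_lit 234) (nat_lit 380) (nat_lit 0) (XT.nd (nat_lit 78) (nat_lit 228) (nat_lit 0) (XT.lf (nat_lit 0) (nat_lit 85925256489) (nat_lit 228) (nat_lit 176109691696) (nat_lit 304) (nat_lit 168288292432) (nat_lit 68) (nat_lit 5) (nat_lit 71) (nat_lit 5) (nat_lit 72) (nat_lit 5) (nat_lit 449) (nat_lit 418) (nat_lit 153)) (XT.nd (nat_lit 78) (nat_lit 228) (nat_lit 0) (XT.lf (nat_lit 0) (nat_lit 340796364455) (nat_lit 228) (nat_lit 16230600603) (nat_lit 304)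 (nat_lit 86714476549) (nat_lit 68) (nat_lit 5) (nat_lit 71) (nat_lit 5) (nat_lit 72) (nat_lit 5) (nat_lit 450) (nat_lit 418) (nat_lit 152)) (XT.lf (nat_lit 0) (nat_lit 3808076374) (nat_lit 228) (nat_lit 304540629327) (nat_lit 76) (nat_lit 149240873144) (nat_lit 65) (nat_lit 5) (nat_lit 68) (nat_lit 5) (nat_lit 66) (nat_lit 5) (nat_lit 451) (nat_lit 418) (nat_lit 151)))) (XT.nd (nat_lit 78) (nat_lit 380) (nat_lit 0) (XT.lf (nat_lit 0) (nat_lit 97980625285) (nat_lit 228) (nat_lit 48342515669) (nat_lit 76) (nat_lit 325634002395) (nat_lit 65) (nat_lit 5) (nat_lit 68) (nat_lit 5) (nat_lit 66) (nat_lit 5) (nat_lit 452) (nat_lit 418) (nat_lit 150)) (XT.nd (nat_lit 78) (nat_lit 152) (nat_lit 0) (XT.lf (nat_lit 0) (nat_lit 200850874539) (nat_lit 304) (nat_lit 259333474761) (nat_lit 76) (nat_lit 26659283144) (nat_lit 62) (nat_lit 5) (nat_lit 66) (nat_lit 5) (nat_lit 63) (nat_lit 5) (nat_lit 453) (nat_lit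 418) (nat_lit 149)) (XT.lf (nat_lit 0) (nat_lit 14450589594) (nat_lit 152) (nat_lit 297870491029) (nat_lit 228) (nat_lit 189980543162) (nat_lit 60) (nat_lit 5) (nat_lit 62) (nat_lit 5) (nat_lit 63) (nat_lit 5) (nat_lit 454) (nat_lit 418) (nat_lit 148))))) (XT.nd (nat_lit 234) (nat_lit 380) (nat_lit 0) (XT.nd (nat_lit 78) (nat_lit 228) (nat_lit 0) (XT.lf (nat_lit 0) (nat_lit 310927275693) (nat_lit 152) (nat_lit 122829424908) (nat_lit 228) (nat_lit 84556218923) (nat_lit 60) (nat_lit 5) (nat_lit 62) (nat_lit 5) (nat_lit 63) (nat_lit 5) (nat_lit 455) (nat_lit 418) (nat_lit 147)) (XT.nd (nat_lit 78) (nat_lit 0) (nat_lit 0) (XT.lf (nat_lit 0) (nat_lit 27682398043) (nat_lit 228) (nat_lit 446454509479) (nat_lit 76) (nat_lit 60848482233) (nat_lit 57) (nat_lit 5) (nat_lit 60) (nat_lit 5) (nat_lit 58) (nat_lit 5) (nat_lit 456) (nat_lit 418) (nat_lit 146)) (XT.lf (nat_lit 0) (nat_lit 148274619717) (nat_lit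 228) (nat_lit 149330077278) (nat_lit 76) (nat_lit 254538312268) (nat_lit 57) (nat_lit 5) (nat_lit 60) (nat_lit 5) (nat_lit 58) (nat_lit 5) (nat_lit 457) (nat_lit 418) (nat_lit 145)))) (XT.nd (nat_lit 156) (nat_lit 228) (nat_lit 0) (XT.nd (nat_lit 78) (nat_lit 0) (nat_lit 0) (XT.lf (nat_lit 0) (nat_lit 168028486864) (nat_lit 152) (nat_lit 109491330017) (nat_lit 228) (nat_lit 292507524656) (nat_lit 55) (nat_lit 5) (nat_lit 57) (nat_lit 5) (nat_lit 58) (nat_lit 5) (nat_lit 458) (nat_lit 418) (nat_lit 144)) (XT.lf (nat_lit 0) (nat_lit 417172038068) (nat_lit 228) (nat_lit 83655928104) (nat_lit 76) (nat_lit 87780686051) (nat_lit 55) (nat_lit 5) (nat_lit 58) (nat_lit 5) (nat_lit 56) (nat_lit 5) (nat_lit 459) (nat_lit 418) (nat_lit 143))) (XT.nd (nat_lit 78) (nat_lit 76) (nat_lit 0) (XT.lf (nat_lit 0) (nat_lit 257035910731) (nat_lit 152) (nat_lit 312578921024) (nat_lit 228) (nat_lit 38213798622)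 (nat_lit 53) (nat_lit 5) (nat_lit 55) (nat_lit 5) (nat_lit 56) (nat_lit 5) (nat_lit 460) (nat_lit 418) (nat_lit 142)) (XT.lf (nat_lit 0) (nat_lit 99856027657) (nat_lit 228) (nat_lit 11882713665) (nat_lit 76) (nat_lit 516119500824) (nat_lit 52) (nat_lit 5) (nat_lit 55) (nat_lit 5) (nat_lit 53) (nat_lit 5) (nat_lit 461) (nat_lit 418) (nat_lit 141)))))) (XT.nd (nat_lit 49764) (nat_lit 0) (nat_lit 5624) (XT.nd (nat_lit 234) (nat_lit 304) (nat_lit 0) (XT.nd (nat_lit 78) (nat_lit 152) (nat_lit 0) (XT.lf (nat_lit 0) (nat_lit 250731887540) (nat_lit 228) (nat_lit 295531212388) (nat_lit 76) (nat_lit 102235572970) (nat_lit 50) (nat_lit 5) (nat_lit 53) (nat_lit 5) (nat_lit 51) (nat_lit 5) (nat_lit 462) (nat_lit 418) (nat_lit 140)) (XT.nd (nat_lit 78) (nat_lit 0) (nat_lit 0) (XT.lf (nat_lit 0) (nat_lit 66608376773) (nat_lit 152) (nat_lit 345619400807) (nat_lit 228) (nat_lit 257789535755) (nat_lit 48)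 (nat_lit 5) (nat_lit 50) (nat_lit 5) (nat_lit 51) (nat_lit 5) (nat_lit 463) (nat_lit 418) (nat_lit 139)) (XT.lf (nat_lit 0) (nat_lit 457115075737) (nat_lit 152) (nat_lit 129688323628) (nat_lit 228) (nat_lit 105558239572) (nat_lit 48) (nat_lit 5) (nat_lit 50) (nat_lit 5) (nat_lit 51) (nat_lit 5) (nat_lit 464) (nat_lit 418) (nat_lit 138)))) (XT.nd (nat_lit 156) (nat_lit 152) (nat_lit 0) (XT.nd (nat_lit 78) (nat_lit 0) (nat_lit 0) (XT.lf (nat_lit 0) (nat_lit 56542923194) (nat_lit 152) (nat_lit 561776413519) (nat_lit 76) (nat_lit 97261679924) (nat_lit 46) (nat_lit 5) (nat_lit 48) (nat_lit 5) (nat_lit 47) (nat_lit 5) (nat_lit 465) (nat_lit 418) (nat_lit 137)) (XT.lf (nat_lit 0) (nat_lit 229377033522) (nat_lit 152) (nat_lit 173208462985) (nat_lit 76) (nat_lit 336980576651) (nat_lit 46) (nat_lit 5) (nat_lit 48) (nat_lit 5) (nat_lit 47) (nat_lit 5) (nat_lit 466) (nat_lit 418) (nat_lit 136))) (XT.nd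 (nat_lit 78) (nat_lit 0) (nat_lit 0) (XT.lf (nat_lit 0) (nat_lit 242550988651) (nat_lit 152) (nat_lit 172088736897) (nat_lit 228) (nat_lit 349921313152) (nat_lit 44) (nat_lit 5) (nat_lit 46) (nat_lit 5) (nat_lit 47) (nat_lit 5) (nat_lit 467) (nat_lit 418) (nat_lit 135)) (XT.lf (nat_lit 0) (nat_lit 613238832996) (nat_lit 228) (nat_lit 106687243486) (nat_lit 76) (nat_lit 70676012002) (nat_lit 44) (nat_lit 5) (nat_lit 47) (nat_lit 5) (nat_lit 45) (nat_lit 4) (nat_lit 468) (nat_lit 418) (nat_lit 134))))) (XT.nd (nat_lit 234) (nat_lit 0) (nat_lit 76) (XT.nd (nat_lit 78) (nat_lit 0) (nat_lit 0) (XT.lf (nat_lit 0) (nat_lit 26890397199) (nat_lit 836) (nat_lit 34544696890) (nat_lit 836) (nat_lit 34544696890) (nat_lit 118) (nat_lit 3) (nat_lit 129) (nat_lit 3) (nat_lit 129) (nat_lit 5) (nat_lit 419) (nat_lit 419) (nat_lit 182)) (XT.nd (nat_lit 78) (nat_lit 0) (nat_lit 76) (XT.lf (nat_lit 76) (nat_lit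 24972926809) (nat_lit 0) (nat_lit 30544017178) (nat_lit 836) (nat_lit 141222045090) (nat_lit 119) (nat_lit 5) (nat_lit 118) (nat_lit 3) (nat_lit 129) (nat_lit 5) (nat_lit 420) (nat_lit 419) (nat_lit 181)) (XT.lf (nat_lit 0) (nat_lit 59565699772) (nat_lit 760) (nat_lit 76617786321) (nat_lit 836) (nat_lit 65462590578) (nat_lit 119) (nat_lit 5) (nat_lit 129) (nat_lit 5) (nat_lit 130) (nat_lit 5) (nat_lit 421) (nat_lit 419) (nat_lit 180)))) (XT.nd (nat_lit 156) (nat_lit 0) (nat_lit 76) (XT.nd (nat_lit 78) (nat_lit 0) (nat_lit 76) (XT.lf (nat_lit 76) (nat_lit 23540563412) (nat_lit 0) (nat_lit 41144479957) (nat_lit 836) (nat_lit 142070067835) (nat_lit 120) (nat_lit 5) (nat_lit 119) (nat_lit 5) (nat_lit 130) (nat_lit 5) (nat_lit 422) (nat_lit 419) (nat_lit 179)) (XT.lf (nat_lit 0) (nat_lit 72294719683) (nat_lit 760) (nat_lit 81624867840) (nat_lit 836) (nat_lit 58088291717) (nat_lit 120) (nat_lit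 5) (nat_lit 130) (nat_lit 5) (nat_lit 131) (nat_lit 5) (nat_lit 423) (nat_lit 419) (nat_lit 178))) (XT.nd (nat_lit 78) (nat_lit 0) (nat_lit 76) (XT.lf (nat_lit 76) (nat_lit 25175504876) (nat_lit 0) (nat_lit 56176838540) (nat_lit 836) (nat_lit 136117569135) (nat_lit 121) (nat_lit 5) (nat_lit 120) (nat_lit 5) (nat_lit 131) (nat_lit 5) (nat_lit 424) (nat_lit 419) (nat_lit 177)) (XT.lf (nat_lit 0) (nat_lit 92993036599) (nat_lit 760) (nat_lit 83734195243) (nat_lit 836) (nat_lit 46371306323) (nat_lit 121) (nat_lit 5) (nat_lit 131) (nat_lit 5) (nat_lit 132) (nat_lit 5) (nat_lit 425) (nat_lit 419) (nat_lit 176))))))))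
noncomputable def xc241 : XT := (XT.nd (nat_lit 2106) (nat_lit 1444) (nat_lit 0) (XT.nd (nat_lit 1014) (nat_lit 2128) (nat_lit 0) (XT.nd (nat_lit 468) (nat_lit 1520) (nat_lit 0) (XT.nd (nat_lit 234) (nat_lit 608) (nat_lit 0) (XT.nd (nat_lit 78) (nat_lit 0) (nat_lit 76) (XT.lf (nat_lit 76) (nat_lit 30302912745) (nat_lit 0) (nat_lit 76306809040) (nat_lit 836) (nat_lit 122329175454) (nat_lit 122) (nat_lit 5) (nat_lit 121) (nat_lit 5) (nat_lit 132) (nat_lit 5) (nat_lit 426) (nat_lit 419) (nat_lit 175)) (XT.nd (nat_lit 78) (nat_lit 0) (nat_lit 0) (XT.lf (nat_lit 0) (nat_lit 122803356501) (nat_lit 760) (nat_lit 82529621765) (nat_lit 836) (nat_lit 29643490283) (nat_lit 122) (nat_lit 5) (nat_lit 132) (nat_lit 5) (nat_lit 133) (nat_lit 5) (nat_lit 427) (nat_lit 419) (nat_lit 174)) (XT.lf (nat_lit 76) (nat_lit 39391846942) (nat_lit 0) (nat_lit 102280694105) (nat_lit 836) (nat_lit 99550084014) (nat_lit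 123) (nat_lit 5) (nat_lit 122) (nat_lit 5) (nat_lit 133) (nat_lit 5) (nat_lit 428) (nat_lit 419) (nat_lit 173)))) (XT.nd (nat_lit 78) (nat_lit 760) (nat_lit 0) (XT.lf (nat_lit 0) (nat_lit 162998192787) (nat_lit 760) (nat_lit 77552049474) (nat_lit 76) (nat_lit 7155196784) (nat_lit 123) (nat_lit 5) (nat_lit 133) (nat_lit 5) (nat_lit 124) (nat_lit 5) (nat_lit 429) (nat_lit 419) (nat_lit 172)) (XT.nd (nat_lit 78) (nat_lit 0) (nat_lit 0) (XT.lf (nat_lit 0) (nat_lit 52958830491) (nat_lit 760) (nat_lit 134934791437) (nat_lit 836) (nat_lit 66493597096) (nat_lit 113) (nat_lit 5) (nat_lit 123) (nat_lit 5) (nat_lit 124) (nat_lit 5) (nat_lit 430) (nat_lit 419) (nat_lit 171)) (XT.lf (nat_lit 0) (nat_lit 192687621821) (nat_lit 760) (nat_lit 22659511049) (nat_lit 836) (nat_lit 45990289651) (nat_lit 113) (nat_lit 5) (nat_lit 123) (nat_lit 5) (nat_lit 124) (nat_lit 5) (nat_lit 431) (nat_lit 419) (nat_lit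 170))))) (XT.nd (nat_lit 234) (nat_lit 684) (nat_lit 0) (XT.nd (nat_lit 78) (nat_lit 456) (nat_lit 0) (XT.lf (nat_lit 0) (nat_lit 71571589345) (nat_lit 380) (nat_lit 175205895345) (nat_lit 456) (nat_lit 21727443274) (nat_lit 108) (nat_lit 5) (nat_lit 113) (nat_lit 5) (nat_lit 114) (nat_lit 5) (nat_lit 432) (nat_lit 419) (nat_lit 169)) (XT.nd (nat_lit 78) (nat_lit 380) (nat_lit 0) (XT.lf (nat_lit 0) (nat_lit 5181646311) (nat_lit 456) (nat_lit 55234381133) (nat_lit 76) (nat_lit 215534201114) (nat_lit 107) (nat_lit 5) (nat_lit 113) (nat_lit 5) (nat_lit 108) (nat_lit 5) (nat_lit 433) (nat_lit 419) (nat_lit 168)) (XT.lf (nat_lit 0) (nat_lit 35178077771) (nat_lit 456) (nat_lit 188369186168) (nat_lit 76) (nat_lit 60079117295) (nat_lit 102) (nat_lit 5) (nat_lit 108) (nat_lit 5) (nat_lit 103) (nat_lit 5) (nat_lit 434) (nat_lit 419) (nat_lit 167)))) (XT.nd (nat_lit 156) (nat_lit 304) (nat_lit 0) (XT.nd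 (nat_lit 78) (nat_lit 380) (nat_lit 0) (XT.lf (nat_lit 0) (nat_lit 68615451890) (nat_lit 456) (nat_lit 37454434080) (nat_lit 76) (nat_lit 185519399548) (nat_lit 102) (nat_lit 5) (nat_lit 108) (nat_lit 5) (nat_lit 103) (nat_lit 5) (nat_lit 435) (nat_lit 419) (nat_lit 166)) (XT.lf (nat_lit 0) (nat_lit 105978151529) (nat_lit 456) (nat_lit 175147560007) (nat_lit 76) (nat_lit 18711950669) (nat_lit 97) (nat_lit 5) (nat_lit 103) (nat_lit 5) (nat_lit 98) (nat_lit 5) (nat_lit 436) (nat_lit 419) (nat_lit 165))) (XT.nd (nat_lit 78) (nat_lit 304) (nat_lit 0) (XT.lf (nat_lit 0) (nat_lit 147592487555) (nat_lit 456) (nat_lit 13973856587) (nat_lit 76) (nat_lit 146812938540) (nat_lit 97) (nat_lit 5) (nat_lit 103) (nat_lit 5) (nat_lit 98) (nat_lit 5) (nat_lit 437) (nat_lit 419) (nat_lit 164)) (XT.lf (nat_lit 0) (nat_lit 160392017387) (nat_lit 304) (nat_lit 33399637925) (nat_lit 380) (nat_lit 123431123149)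 (nat_lit 93) (nat_lit 5) (nat_lit 97) (nat_lit 5) (nat_lit 98) (nat_lit 5) (nat_lit 438) (nat_lit 419) (nat_lit 163)))))) (XT.nd (nat_lit 546) (nat_lit 988) (nat_lit 0) (XT.nd (nat_lit 234) (nat_lit 532) (nat_lit 0) (XT.nd (nat_lit 78) (nat_lit 304) (nat_lit 0) (XT.lf (nat_lit 0) (nat_lit 16406238004) (nat_lit 304) (nat_lit 227970803556) (nat_lit 380) (nat_lit 82027594488) (nat_lit 89) (nat_lit 5) (nat_lit 93) (nat_lit 5) (nat_lit 94) (nat_lit 5) (nat_lit 439) (nat_lit 419) (nat_lit 162)) (XT.nd (nat_lit 78) (nat_lit 304) (nat_lit 0) (XT.lf (nat_lit 0) (nat_lit 203184196525) (nat_lit 304) (nat_lit 97502158355) (nat_lit 380) (nat_lit 35199498769) (nat_lit 89) (nat_lit 5) (nat_lit 93) (nat_lit 5) (nat_lit 94) (nat_lit 5) (nat_lit 440) (nat_lit 419) (nat_lit 161)) (XT.lf (nat_lit 0) (nat_lit 15015764438) (nat_lit 304) (nat_lit 291419331020) (nat_lit 76) (nat_lit 39320486649) (nat_lit 85) (nat_lit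 5) (nat_lit 89) (nat_lit 5) (nat_lit 86) (nat_lit 5) (nat_lit 441) (nat_lit 419) (nat_lit 160)))) (XT.nd (nat_lit 156) (nat_lit 228) (nat_lit 0) (XT.nd (nat_lit 78) (nat_lit 304) (nat_lit 0) (XT.lf (nat_lit 0) (nat_lit 70441413677) (nat_lit 304) (nat_lit 102885612502) (nat_lit 76) (nat_lit 182568790939) (nat_lit 85) (nat_lit 5) (nat_lit 89) (nat_lit 5) (nat_lit 86) (nat_lit 5) (nat_lit 442) (nat_lit 419) (nat_lit 159)) (XT.lf (nat_lit 0) (nat_lit 98218333552) (nat_lit 304) (nat_lit 31953429510) (nat_lit 380) (nat_lit 236294629952) (nat_lit 81) (nat_lit 5) (nat_lit 85) (nat_lit 5) (nat_lit 86) (nat_lit 5) (nat_lit 443) (nat_lit 419) (nat_lit 158))) (XT.nd (nat_lit 78) (nat_lit 228) (nat_lit 0) (XT.lf (nat_lit 0) (nat_lit 196478284452) (nat_lit 380) (nat_lit 66376284898) (nat_lit 76) (nat_lit 114531445645) (nat_lit 81) (nat_lit 5) (nat_lit 86) (nat_lit 5) (nat_lit 82) (nat_lit 5) (nat_lit 444)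 (nat_lit 419) (nat_lit 157)) (XT.lf (nat_lit 0) (nat_lit 149861705451) (nat_lit 228) (nat_lit 119101971830) (nat_lit 304) (nat_lit 119744763544) (nat_lit 78) (nat_lit 5) (nat_lit 81) (nat_lit 5) (nat_lit 82) (nat_lit 5) (nat_lit 445) (nat_lit 419) (nat_lit 156))))) (XT.nd (nat_lit 234) (nat_lit 456) (nat_lit 0) (XT.nd (nat_lit 78) (nat_lit 532) (nat_lit 0) (XT.lf (nat_lit 0) (nat_lit 346712925134) (nat_lit 304) (nat_lit 21840322330) (nat_lit 76) (nat_lit 31961761228) (nat_lit 78) (nat_lit 5) (nat_lit 82) (nat_lit 5) (nat_lit 79) (nat_lit 5) (nat_lit 446) (nat_lit 419) (nat_lit 155)) (XT.nd (nat_lit 78) (nat_lit 228) (nat_lit 0) (XT.lf (nat_lit 0) (nat_lit 20273394996) (nat_lit 304) (nat_lit 202165566920) (nat_lit 76) (nat_lit 190194403323) (nat_lit 74) (nat_lit 5) (nat_lit 78) (nat_lit 5) (nat_lit 75) (nat_lit 5) (nat_lit 447) (nat_lit 419) (nat_lit 154)) (XT.lf (nat_lit 0) (nat_lit 29878607672)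 (nat_lit 228) (nat_lit 67208326530) (nat_lit 304) (nat_lit 328184485879) (nat_lit 71) (nat_lit 5) (nat_lit 74) (nat_lit 5) (nat_lit 75) (nat_lit 5) (nat_lit 448) (nat_lit 419) (nat_lit 153)))) (XT.nd (nat_lit 156) (nat_lit 228) (nat_lit 0) (XT.nd (nat_lit 78) (nat_lit 228) (nat_lit 0) (XT.lf (nat_lit 0) (nat_lit 182716465181) (nat_lit 304) (nat_lit 159378103811) (nat_lit 76) (nat_lit 96198042946) (nat_lit 71) (nat_lit 5) (nat_lit 75) (nat_lit 5) (nat_lit 72) (nat_lit 5) (nat_lit 449) (nat_lit 419) (nat_lit 152)) (XT.lf (nat_lit 0) (nat_lit 90223217339) (nat_lit 228) (nat_lit 184914631841) (nat_lit 304) (nat_lit 176701495398) (nat_lit 68) (nat_lit 5) (nat_lit 71) (nat_lit 5) (nat_lit 72) (nat_lit 5) (nat_lit 450) (nat_lit 419) (nat_lit 151))) (XT.nd (nat_lit 78) (nat_lit 228) (nat_lit 0) (XT.lf (nat_lit 0) (nat_lit 357837799845) (nat_lit 228) (nat_lit 17041612119) (nat_lit 304) (nat_lit 91049046418)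 (nat_lit 68) (nat_lit 5) (nat_lit 71) (nat_lit 5) (nat_lit 72) (nat_lit 5) (nat_lit 451) (nat_lit 419) (nat_lit 150)) (XT.lf (nat_lit 0) (nat_lit 3999577847) (nat_lit 228) (nat_lit 319765986630) (nat_lit 76) (nat_lit 156703438089) (nat_lit 65) (nat_lit 5) (nat_lit 68) (nat_lit 5) (nat_lit 66) (nat_lit 5) (nat_lit 452) (nat_lit 419) (nat_lit 149))))))) (XT.nd (nat_lit 1014) (nat_lit 152) (nat_lit 0) (XT.nd (nat_lit 468) (nat_lit 684) (nat_lit 0) (XT.nd (nat_lit 234) (nat_lit 228) (nat_lit 0) (XT.nd (nat_lit 78) (nat_lit 380) (nat_lit 0) (XT.lf (nat_lit 0) (nat_lit 102880701934) (nat_lit 228) (nat_lit 50758047011) (nat_lit 76) (nat_lit 341916198980) (nat_lit 65) (nat_lit 5) (nat_lit 68) (nat_lit 5) (nat_lit 66) (nat_lit 5) (nat_lit 453) (nat_lit 419) (nat_lit 148)) (XT.nd (nat_lit 78) (nat_lit 152) (nat_lit 0) (XT.lf (nat_lit 0) (nat_lit 210894446929) (nat_lit 304) (nat_lit 272298537028) (nat_lit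 76) (nat_lit 27992778369) (nat_lit 62) (nat_lit 5) (nat_lit 66) (nat_lit 5) (nat_lit 63) (nat_lit 5) (nat_lit 454) (nat_lit 419) (nat_lit 147)) (XT.lf (nat_lit 0) (nat_lit 15174704553) (nat_lit 152) (nat_lit 312763434534) (nat_lit 228) (nat_lit 199478515373) (nat_lit 60) (nat_lit 5) (nat_lit 62) (nat_lit 5) (nat_lit 63) (nat_lit 5) (nat_lit 455) (nat_lit 419) (nat_lit 146)))) (XT.nd (nat_lit 78) (nat_lit 228) (nat_lit 0) (XT.lf (nat_lit 0) (nat_lit 326475149458) (nat_lit 152) (nat_lit 128970342776) (nat_lit 228) (nat_lit 88783025158) (nat_lit 60) (nat_lit 5) (nat_lit 62) (nat_lit 5) (nat_lit 63) (nat_lit 5) (nat_lit 456) (nat_lit 419) (nat_lit 145)) (XT.nd (nat_lit 78) (nat_lit 0) (nat_lit 0) (XT.lf (nat_lit 0) (nat_lit 29067476741) (nat_lit 228) (nat_lit 468775678540) (nat_lit 76) (nat_lit 63891455768) (nat_lit 57) (nat_lit 5) (nat_lit 60) (nat_lit 5) (nat_lit 58) (nat_lit 5) (nat_lit 457)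 (nat_lit 419) (nat_lit 144)) (XT.lf (nat_lit 0) (nat_lit 155689263843) (nat_lit 228) (nat_lit 156795098845) (nat_lit 76) (nat_lit 267265751142) (nat_lit 57) (nat_lit 5) (nat_lit 60) (nat_lit 5) (nat_lit 58) (nat_lit 5) (nat_lit 458) (nat_lit 419) (nat_lit 143))))) (XT.nd (nat_lit 234) (nat_lit 380) (nat_lit 0) (XT.nd (nat_lit 78) (nat_lit 152) (nat_lit 0) (XT.lf (nat_lit 0) (nat_lit 176431369597) (nat_lit 152) (nat_lit 114965330554) (nat_lit 228) (nat_lit 307131963612) (nat_lit 55) (nat_lit 5) (nat_lit 57) (nat_lit 5) (nat_lit 58) (nat_lit 5) (nat_lit 459) (nat_lit 419) (nat_lit 142)) (XT.nd (nat_lit 78) (nat_lit 152) (nat_lit 0) (XT.lf (nat_lit 0) (nat_lit 438031498317) (nat_lit 228) (nat_lit 87837301268) (nat_lit 76) (nat_lit 92170242114) (nat_lit 55) (nat_lit 5) (nat_lit 58) (nat_lit 5) (nat_lit 56) (nat_lit 5) (nat_lit 460) (nat_lit 419) (nat_lit 141)) (XT.lf (nat_lit 0) (nat_lit 269889106554)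 (nat_lit 152) (nat_lit 328207306124) (nat_lit 228) (nat_lit 40123607045) (nat_lit 53) (nat_lit 5) (nat_lit 55) (nat_lit 5) (nat_lit 56) (nat_lit 5) (nat_lit 461) (nat_lit 419) (nat_lit 140)))) (XT.nd (nat_lit 156) (nat_lit 152) (nat_lit 0) (XT.nd (nat_lit 78) (nat_lit 152) (nat_lit 0) (XT.lf (nat_lit 0) (nat_lit 104849641701) (nat_lit 228) (nat_lit 12475488684) (nat_lit 76) (nat_lit 541925983047) (nat_lit 52) (nat_lit 5) (nat_lit 55) (nat_lit 5) (nat_lit 53) (nat_lit 5) (nat_lit 462) (nat_lit 419) (nat_lit 139)) (XT.lf (nat_lit 0) (nat_lit 263269285272) (nat_lit 228) (nat_lit 310306402858) (nat_lit 76) (nat_lit 107347878065) (nat_lit 50) (nat_lit 5) (nat_lit 53) (nat_lit 5) (nat_lit 51) (nat_lit 5) (nat_lit 463) (nat_lit 419) (nat_lit 138))) (XT.nd (nat_lit 78) (nat_lit 0) (nat_lit 0) (XT.lf (nat_lit 0) (nat_lit 69940143662) (nat_lit 152) (nat_lit 362899808944) (nat_lit 228) (nat_lit 270678186917)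 (nat_lit 48) (nat_lit 5) (nat_lit 50) (nat_lit 5) (nat_lit 51) (nat_lit 5) (nat_lit 464) (nat_lit 419) (nat_lit 137)) (XT.lf (nat_lit 0) (nat_lit 479972113381) (nat_lit 152) (nat_lit 136172204663) (nat_lit 228) (nat_lit 110835365241) (nat_lit 48) (nat_lit 5) (nat_lit 50) (nat_lit 5) (nat_lit 51) (nat_lit 5) (nat_lit 465) (nat_lit 419) (nat_lit 136)))))) (XT.nd (nat_lit 49920) (nat_lit 0) (nat_lit 5092) (XT.nd (nat_lit 49608) (nat_lit 0) (nat_lit 5472) (XT.nd (nat_lit 78) (nat_lit 0) (nat_lit 0) (XT.lf (nat_lit 0) (nat_lit 59370822841) (nat_lit 152) (nat_lit 589863917212) (nat_lit 76) (nat_lit 102125289594) (nat_lit 46) (nat_lit 5) (nat_lit 48) (nat_lit 5) (nat_lit 47) (nat_lit 5) (nat_lit 466) (nat_lit 419) (nat_lit 135)) (XT.nd (nat_lit 49452) (nat_lit 0) (nat_lit 5472) (XT.lf (nat_lit 0) (nat_lit 240846602805) (nat_lit 152) (nat_lit 181867631865) (nat_lit 76) (nat_lit 353830106125) (nat_lit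 46) (nat_lit 5) (nat_lit 48) (nat_lit 5) (nat_lit 47) (nat_lit 5) (nat_lit 467) (nat_lit 419) (nat_lit 134)) (XT.lf (nat_lit 0) (nat_lit 28236622367) (nat_lit 836) (nat_lit 36271035982) (nat_lit 836) (nat_lit 36271035982) (nat_lit 118) (nat_lit 3) (nat_lit 129) (nat_lit 3) (nat_lit 129) (nat_lit 5) (nat_lit 420) (nat_lit 420) (nat_lit 180)))) (XT.nd (nat_lit 156) (nat_lit 0) (nat_lit 76) (XT.nd (nat_lit 78) (nat_lit 0) (nat_lit 76) (XT.lf (nat_lit 76) (nat_lit 26223335760) (nat_lit 0) (nat_lit 32072731151) (nat_lit 836) (nat_lit 148279706056) (nat_lit 119) (nat_lit 5) (nat_lit 118) (nat_lit 3) (nat_lit 129) (nat_lit 5) (nat_lit 421) (nat_lit 420) (nat_lit 179)) (XT.lf (nat_lit 0) (nat_lit 62547082000) (nat_lit 760) (nat_lit 80446816782) (nat_lit 836) (nat_lit 68734325169) (nat_lit 119) (nat_lit 5) (nat_lit 129) (nat_lit 5) (nat_lit 130) (nat_lit 5) (nat_lit 422) (nat_lit 420) (nat_lit 178)))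 (XT.nd (nat_lit 78) (nat_lit 0) (nat_lit 76) (XT.lf (nat_lit 76) (nat_lit 24719420456) (nat_lit 0) (nat_lit 43202853387) (nat_lit 836) (nat_lit 149170442395) (nat_lit 120) (nat_lit 5) (nat_lit 119) (nat_lit 5) (nat_lit 130) (nat_lit 5) (nat_lit 423) (nat_lit 420) (nat_lit 177)) (XT.lf (nat_lit 0) (nat_lit 75912275057) (nat_lit 760) (nat_lit 85704208998) (nat_lit 836) (nat_lit 60991646643) (nat_lit 120) (nat_lit 5) (nat_lit 130) (nat_lit 5) (nat_lit 131) (nat_lit 5) (nat_lit 424) (nat_lit 420) (nat_lit 176))))) (XT.nd (nat_lit 234) (nat_lit 532) (nat_lit 0) (XT.nd (nat_lit 78) (nat_lit 0) (nat_lit 76) (XT.lf (nat_lit 76) (nat_lit 26436151673) (nat_lit 0) (nat_lit 58986523268) (nat_lit 836) (nat_lit 142920596059) (nat_lit 121) (nat_lit 5) (nat_lit 120) (nat_lit 5) (nat_lit 131) (nat_lit 5) (nat_lit 425) (nat_lit 420) (nat_lit 175)) (XT.nd (nat_lit 78) (nat_lit 0) (nat_lit 0) (XT.lf (nat_lit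 0) (nat_lit 97645260996) (nat_lit 760) (nat_lit 87918979395) (nat_lit 836) (nat_lit 48689094662) (nat_lit 121) (nat_lit 5) (nat_lit 131) (nat_lit 5) (nat_lit 132) (nat_lit 5) (nat_lit 426) (nat_lit 420) (nat_lit 174)) (XT.lf (nat_lit 76) (nat_lit 31819952934) (nat_lit 0) (nat_lit 80122734583) (nat_lit 836) (nat_lit 128443029276) (nat_lit 122) (nat_lit 5) (nat_lit 121) (nat_lit 5) (nat_lit 132) (nat_lit 5) (nat_lit 427) (nat_lit 420) (nat_lit 173)))) (XT.nd (nat_lit 156) (nat_lit 684) (nat_lit 0) (XT.nd (nat_lit 78) (nat_lit 0) (nat_lit 0) (XT.lf (nat_lit 0) (nat_lit 128945877190) (nat_lit 760) (nat_lit 86654170477) (nat_lit 836) (nat_lit 31125125403) (nat_lit 122) (nat_lit 5) (nat_lit 132) (nat_lit 5) (nat_lit 133) (nat_lit 5) (nat_lit 428) (nat_lit 420) (nat_lit 172)) (XT.lf (nat_lit 76) (nat_lit 41363340498) (nat_lit 0) (nat_lit 107395098108) (nat_lit 836) (nat_lit 104525202981) (nat_lit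 123) (nat_lit 5) (nat_lit 122) (nat_lit 5) (nat_lit 133) (nat_lit 5) (nat_lit 429) (nat_lit 420) (nat_lit 171))) (XT.nd (nat_lit 78) (nat_lit 760) (nat_lit 0) (XT.lf (nat_lit 0) (nat_lit 171150259322) (nat_lit 760) (nat_lit 81427726517) (nat_lit 76) (nat_lit 7512616168) (nat_lit 123) (nat_lit 5) (nat_lit 133) (nat_lit 5) (nat_lit 124) (nat_lit 5) (nat_lit 430) (nat_lit 420) (nat_lit 170)) (XT.lf (nat_lit 0) (nat_lit 55608666390) (nat_lit 760) (nat_lit 141681720397) (nat_lit 836) (nat_lit 69816087908) (nat_lit 113) (nat_lit 5) (nat_lit 123) (nat_lit 5) (nat_lit 124) (nat_lit 5) (nat_lit 431) (nat_lit 420) (nat_lit 169))))))))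
noncomputable def xc242 : XT := (XT.nd (nat_lit 2106) (nat_lit 836) (nat_lit 0) (XT.nd (nat_lit 1014) (nat_lit 1824) (nat_lit 0) (XT.nd (nat_lit 468) (nat_lit 1216) (nat_lit 0) (XT.nd (nat_lit 234) (nat_lit 760) (nat_lit 0) (XT.nd (nat_lit 78) (nat_lit 456) (nat_lit 0) (XT.lf (nat_lit 0) (nat_lit 202323807079) (nat_lit 760) (nat_lit 23792666971) (nat_lit 836) (nat_lit 48287719332) (nat_lit 113) (nat_lit 5) (nat_lit 123) (nat_lit 5) (nat_lit 124) (nat_lit 5) (nat_lit 432) (nat_lit 420) (nat_lit 168)) (XT.nd (nat_lit 78) (nat_lit 76) (nat_lit 0) (XT.lf (nat_lit 0) (nat_lit 75152045299) (nat_lit 380) (nat_lit 183966230276) (nat_lit 456) (nat_lit 22811801966) (nat_lit 108) (nat_lit 5) (nat_lit 113) (nat_lit 5) (nat_lit 114) (nat_lit 5) (nat_lit 433) (nat_lit 420) (nat_lit 167)) (XT.lf (nat_lit 0) (nat_lit 5442584844) (nat_lit 456) (nat_lit 57994250788) (nat_lit 76) (nat_lit 226310810646) (nat_lit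 107) (nat_lit 5) (nat_lit 113) (nat_lit 5) (nat_lit 108) (nat_lit 5) (nat_lit 434) (nat_lit 420) (nat_lit 166)))) (XT.nd (nat_lit 78) (nat_lit 380) (nat_lit 0) (XT.lf (nat_lit 0) (nat_lit 36938778259) (nat_lit 456) (nat_lit 197785735601) (nat_lit 76) (nat_lit 63083095751) (nat_lit 102) (nat_lit 5) (nat_lit 108) (nat_lit 5) (nat_lit 103) (nat_lit 5) (nat_lit 435) (nat_lit 420) (nat_lit 165)) (XT.nd (nat_lit 78) (nat_lit 380) (nat_lit 0) (XT.lf (nat_lit 0) (nat_lit 72047935531) (nat_lit 456) (nat_lit 39325336856) (nat_lit 76) (nat_lit 194795391042) (nat_lit 102) (nat_lit 5) (nat_lit 108) (nat_lit 5) (nat_lit 103) (nat_lit 5) (nat_lit 436) (nat_lit 420) (nat_lit 164)) (XT.lf (nat_lit 0) (nat_lit 111278718677) (nat_lit 456) (nat_lit 183903066828) (nat_lit 76) (nat_lit 19647676057) (nat_lit 97) (nat_lit 5) (nat_lit 103) (nat_lit 5) (nat_lit 98) (nat_lit 5) (nat_lit 437) (nat_lit 420) (nat_lit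 163))))) (XT.nd (nat_lit 234) (nat_lit 608) (nat_lit 0) (XT.nd (nat_lit 78) (nat_lit 608) (nat_lit 0) (XT.lf (nat_lit 0) (nat_lit 154973692476) (nat_lit 456) (nat_lit 14670767341) (nat_lit 76) (nat_lit 154153707234) (nat_lit 97) (nat_lit 5) (nat_lit 103) (nat_lit 5) (nat_lit 98) (nat_lit 5) (nat_lit 438) (nat_lit 420) (nat_lit 162)) (XT.nd (nat_lit 78) (nat_lit 304) (nat_lit 0) (XT.lf (nat_lit 0) (nat_lit 168413371589) (nat_lit 304) (nat_lit 35069399142) (nat_lit 380) (nat_lit 129601069317) (nat_lit 93) (nat_lit 5) (nat_lit 97) (nat_lit 5) (nat_lit 98) (nat_lit 5) (nat_lit 439) (nat_lit 420) (nat_lit 161)) (XT.lf (nat_lit 0) (nat_lit 17228347656) (nat_lit 304) (nat_lit 239369037002) (nat_lit 380) (nat_lit 86127407972) (nat_lit 89) (nat_lit 5) (nat_lit 93) (nat_lit 5) (nat_lit 94) (nat_lit 5) (nat_lit 440) (nat_lit 420) (nat_lit 160)))) (XT.nd (nat_lit 156) (nat_lit 304) (nat_lit 0) (XT.nd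 (nat_lit 78) (nat_lit 304) (nat_lit 0) (XT.lf (nat_lit 0) (nat_lit 213345118496) (nat_lit 304) (nat_lit 102376974148) (nat_lit 380) (nat_lit 36957982050) (nat_lit 89) (nat_lit 5) (nat_lit 93) (nat_lit 5) (nat_lit 94) (nat_lit 5) (nat_lit 441) (nat_lit 420) (nat_lit 159)) (XT.lf (nat_lit 0) (nat_lit 15767960011) (nat_lit 304) (nat_lit 305988499935) (nat_lit 76) (nat_lit 41286830322) (nat_lit 85) (nat_lit 5) (nat_lit 89) (nat_lit 5) (nat_lit 86) (nat_lit 5) (nat_lit 442) (nat_lit 420) (nat_lit 158))) (XT.nd (nat_lit 78) (nat_lit 304) (nat_lit 0) (XT.lf (nat_lit 0) (nat_lit 73964824695) (nat_lit 304) (nat_lit 108028181092) (nat_lit 76) (nat_lit 191697534620) (nat_lit 85) (nat_lit 5) (nat_lit 89) (nat_lit 5) (nat_lit 86) (nat_lit 5) (nat_lit 443) (nat_lit 420) (nat_lit 157)) (XT.lf (nat_lit 0) (nat_lit 103130934651) (nat_lit 304) (nat_lit 33550719371) (nat_lit 380) (nat_lit 248107992977) (nat_lit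 81) (nat_lit 5) (nat_lit 85) (nat_lit 5) (nat_lit 86) (nat_lit 5) (nat_lit 444) (nat_lit 420) (nat_lit 156)))))) (XT.nd (nat_lit 546) (nat_lit 836) (nat_lit 0) (XT.nd (nat_lit 234) (nat_lit 760) (nat_lit 0) (XT.nd (nat_lit 78) (nat_lit 228) (nat_lit 0) (XT.lf (nat_lit 0) (nat_lit 206303445118) (nat_lit 380) (nat_lit 69693438068) (nat_lit 76) (nat_lit 120258369737) (nat_lit 81) (nat_lit 5) (nat_lit 86) (nat_lit 5) (nat_lit 82) (nat_lit 5) (nat_lit 445) (nat_lit 420) (nat_lit 155)) (XT.nd (nat_lit 78) (nat_lit 0) (nat_lit 0) (XT.lf (nat_lit 0) (nat_lit 157356425007) (nat_lit 228) (nat_lit 125056648743) (nat_lit 304) (nat_lit 125730728010) (nat_lit 78) (nat_lit 5) (nat_lit 81) (nat_lit 5) (nat_lit 82) (nat_lit 5) (nat_lit 446) (nat_lit 420) (nat_lit 154)) (XT.lf (nat_lit 0) (nat_lit 364049732522) (nat_lit 304) (nat_lit 22930730060) (nat_lit 76) (nat_lit 33560238034) (nat_lit 78) (nat_lit 5)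 (nat_lit 82) (nat_lit 5) (nat_lit 79) (nat_lit 5) (nat_lit 447) (nat_lit 420) (nat_lit 153)))) (XT.nd (nat_lit 156) (nat_lit 228) (nat_lit 0) (XT.nd (nat_lit 78) (nat_lit 228) (nat_lit 0) (XT.lf (nat_lit 0) (nat_lit 21288214243) (nat_lit 304) (nat_lit 212272224402) (nat_lit 76) (nat_lit 199704536969) (nat_lit 74) (nat_lit 5) (nat_lit 78) (nat_lit 5) (nat_lit 75) (nat_lit 5) (nat_lit 448) (nat_lit 420) (nat_lit 152)) (XT.lf (nat_lit 0) (nat_lit 31374132776) (nat_lit 228) (nat_lit 70568267793) (nat_lit 304) (nat_lit 344592534141) (nat_lit 71) (nat_lit 5) (nat_lit 74) (nat_lit 5) (nat_lit 75) (nat_lit 5) (nat_lit 449) (nat_lit 420) (nat_lit 151))) (XT.nd (nat_lit 78) (nat_lit 228) (nat_lit 0) (XT.lf (nat_lit 0) (nat_lit 191853361844) (nat_lit 304) (nat_lit 167345443594) (nat_lit 76) (nat_lit 101008383054) (nat_lit 71) (nat_lit 5) (nat_lit 75) (nat_lit 5) (nat_lit 72) (nat_lit 5) (nat_lit 450)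 (nat_lit 420) (nat_lit 150)) (XT.lf (nat_lit 0) (nat_lit 94735918364) (nat_lit 228) (nat_lit 194159869610) (nat_lit 304) (nat_lit 185535471160) (nat_lit 68) (nat_lit 5) (nat_lit 71) (nat_lit 5) (nat_lit 72) (nat_lit 5) (nat_lit 451) (nat_lit 420) (nat_lit 149))))) (XT.nd (nat_lit 234) (nat_lit 608) (nat_lit 0) (XT.nd (nat_lit 78) (nat_lit 228) (nat_lit 0) (XT.lf (nat_lit 0) (nat_lit 375731156655) (nat_lit 228) (nat_lit 17893222418) (nat_lit 304) (nat_lit 95600452065) (nat_lit 68) (nat_lit 5) (nat_lit 71) (nat_lit 5) (nat_lit 72) (nat_lit 5) (nat_lit 452) (nat_lit 420) (nat_lit 148)) (XT.nd (nat_lit 78) (nat_lit 0) (nat_lit 0) (XT.lf (nat_lit 0) (nat_lit 4200552345) (nat_lit 228) (nat_lit 335752767446) (nat_lit 76) (nat_lit 164539082817) (nat_lit 65) (nat_lit 5) (nat_lit 68) (nat_lit 5) (nat_lit 66) (nat_lit 5) (nat_lit 453) (nat_lit 420) (nat_lit 147)) (XT.lf (nat_lit 0) (nat_lit 108025685226)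 (nat_lit 228) (nat_lit 53294503156) (nat_lit 76) (nat_lit 359012459237) (nat_lit 65) (nat_lit 5) (nat_lit 68) (nat_lit 5) (nat_lit 66) (nat_lit 5) (nat_lit 454) (nat_lit 420) (nat_lit 146)))) (XT.nd (nat_lit 156) (nat_lit 228) (nat_lit 0) (XT.nd (nat_lit 78) (nat_lit 152) (nat_lit 0) (XT.lf (nat_lit 0) (nat_lit 221440102303) (nat_lit 304) (nat_lit 285912002228) (nat_lit 76) (nat_lit 29392898982) (nat_lit 62) (nat_lit 5) (nat_lit 66) (nat_lit 5) (nat_lit 63) (nat_lit 5) (nat_lit 455) (nat_lit 420) (nat_lit 145)) (XT.lf (nat_lit 0) (nat_lit 15934877858) (nat_lit 152) (nat_lit 328401079235) (nat_lit 228) (nat_lit 209451484274) (nat_lit 60) (nat_lit 5) (nat_lit 62) (nat_lit 5) (nat_lit 63) (nat_lit 5) (nat_lit 456) (nat_lit 420) (nat_lit 144))) (XT.nd (nat_lit 78) (nat_lit 228) (nat_lit 0) (XT.lf (nat_lit 0) (nat_lit 342800276528) (nat_lit 152) (nat_lit 135418357985) (nat_lit 228) (nat_lit 93221265114)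 (nat_lit 60) (nat_lit 5) (nat_lit 62) (nat_lit 5) (nat_lit 63) (nat_lit 5) (nat_lit 457) (nat_lit 420) (nat_lit 143)) (XT.lf (nat_lit 0) (nat_lit 30521720235) (nat_lit 228) (nat_lit 492213050756) (nat_lit 76) (nat_lit 67086526900) (nat_lit 57) (nat_lit 5) (nat_lit 60) (nat_lit 5) (nat_lit 58) (nat_lit 5) (nat_lit 458) (nat_lit 420) (nat_lit 142))))))) (XT.nd (nat_lit 50466) (nat_lit 0) (nat_lit 3876) (XT.nd (nat_lit 468) (nat_lit 304) (nat_lit 0) (XT.nd (nat_lit 234) (nat_lit 380) (nat_lit 0) (XT.nd (nat_lit 78) (nat_lit 152) (nat_lit 0) (XT.lf (nat_lit 0) (nat_lit 163474555279) (nat_lit 228) (nat_lit 164633509300) (nat_lit 76) (nat_lit 280629513312) (nat_lit 57) (nat_lit 5) (nat_lit 60) (nat_lit 5) (nat_lit 58) (nat_lit 5) (nat_lit 459) (nat_lit 420) (nat_lit 141)) (XT.nd (nat_lit 78) (nat_lit 0) (nat_lit 0) (XT.lf (nat_lit 0) (nat_lit 185254260879) (nat_lit 152) (nat_lit 120713083737) (nat_lit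 228) (nat_lit 322487711656) (nat_lit 55) (nat_lit 5) (nat_lit 57) (nat_lit 5) (nat_lit 58) (nat_lit 5) (nat_lit 460) (nat_lit 420) (nat_lit 140)) (XT.lf (nat_lit 0) (nat_lit 459933851777) (nat_lit 228) (nat_lit 92227875409) (nat_lit 76) (nat_lit 96779227472) (nat_lit 55) (nat_lit 5) (nat_lit 58) (nat_lit 5) (nat_lit 56) (nat_lit 5) (nat_lit 461) (nat_lit 420) (nat_lit 139)))) (XT.nd (nat_lit 78) (nat_lit 228) (nat_lit 0) (XT.lf (nat_lit 0) (nat_lit 283384831982) (nat_lit 152) (nat_lit 344617162630) (nat_lit 228) (nat_lit 42128987843) (nat_lit 53) (nat_lit 5) (nat_lit 55) (nat_lit 5) (nat_lit 56) (nat_lit 5) (nat_lit 462) (nat_lit 420) (nat_lit 138)) (XT.nd (nat_lit 78) (nat_lit 152) (nat_lit 0) (XT.lf (nat_lit 0) (nat_lit 110092860894) (nat_lit 228) (nat_lit 13098028956) (nat_lit 76) (nat_lit 569022742228) (nat_lit 52) (nat_lit 5) (nat_lit 55) (nat_lit 5) (nat_lit 53) (nat_lit 5) (nat_lit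 463) (nat_lit 420) (nat_lit 137)) (XT.lf (nat_lit 0) (nat_lit 276433478203) (nat_lit 228) (nat_lit 325820480235) (nat_lit 76) (nat_lit 112715749471) (nat_lit 50) (nat_lit 5) (nat_lit 53) (nat_lit 5) (nat_lit 51) (nat_lit 5) (nat_lit 464) (nat_lit 420) (nat_lit 136))))) (XT.nd (nat_lit 49686) (nat_lit 0) (nat_lit 5472) (XT.nd (nat_lit 78) (nat_lit 152) (nat_lit 0) (XT.lf (nat_lit 0) (nat_lit 73438373566) (nat_lit 152) (nat_lit 381044289729) (nat_lit 228) (nat_lit 284211347396) (nat_lit 48) (nat_lit 5) (nat_lit 50) (nat_lit 5) (nat_lit 51) (nat_lit 5) (nat_lit 465) (nat_lit 420) (nat_lit 135)) (XT.nd (nat_lit 78) (nat_lit 152) (nat_lit 0) (XT.lf (nat_lit 0) (nat_lit 503971883546) (nat_lit 152) (nat_lit 142980329504) (nat_lit 228) (nat_lit 116376420297) (nat_lit 48) (nat_lit 5) (nat_lit 50) (nat_lit 5) (nat_lit 51) (nat_lit 5) (nat_lit 466) (nat_lit 420) (nat_lit 134)) (XT.lf (nat_lit 0) (nat_lit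 62340047418) (nat_lit 152) (nat_lit 619355918531) (nat_lit 76) (nat_lit 107232030875) (nat_lit 46) (nat_lit 5) (nat_lit 48) (nat_lit 5) (nat_lit 47) (nat_lit 5) (nat_lit 467) (nat_lit 420) (nat_lit 133)))) (XT.nd (nat_lit 156) (nat_lit 0) (nat_lit 76) (XT.nd (nat_lit 78) (nat_lit 0) (nat_lit 0) (XT.lf (nat_lit 0) (nat_lit 29650000250) (nat_lit 836) (nat_lit 38083775307) (nat_lit 836) (nat_lit 38083775307) (nat_lit 118) (nat_lit 3) (nat_lit 129) (nat_lit 3) (nat_lit 129) (nat_lit 5) (nat_lit 421) (nat_lit 421) (nat_lit 178)) (XT.lf (nat_lit 76) (nat_lit 27536101288) (nat_lit 0) (nat_lit 33677740147) (nat_lit 836) (nat_lit 155690570010) (nat_lit 119) (nat_lit 5) (nat_lit 118) (nat_lit 3) (nat_lit 129) (nat_lit 5) (nat_lit 422) (nat_lit 421) (nat_lit 177))) (XT.nd (nat_lit 78) (nat_lit 0) (nat_lit 0) (XT.lf (nat_lit 0) (nat_lit 65677245387) (nat_lit 760) (nat_lit 84467471585) (nat_lit 836) (nat_lit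 72169776178) (nat_lit 119) (nat_lit 5) (nat_lit 129) (nat_lit 5) (nat_lit 130) (nat_lit 5) (nat_lit 423) (nat_lit 421) (nat_lit 176)) (XT.lf (nat_lit 76) (nat_lit 25957050321) (nat_lit 0) (nat_lit 45364038625) (nat_lit 836) (nat_lit 156626126572) (nat_lit 120) (nat_lit 5) (nat_lit 119) (nat_lit 5) (nat_lit 130) (nat_lit 5) (nat_lit 424) (nat_lit 421) (nat_lit 175)))))) (XT.nd (nat_lit 546) (nat_lit 1748) (nat_lit 0) (XT.nd (nat_lit 234) (nat_lit 0) (nat_lit 76) (XT.nd (nat_lit 78) (nat_lit 0) (nat_lit 0) (XT.lf (nat_lit 0) (nat_lit 79710446080) (nat_lit 760) (nat_lit 89987694065) (nat_lit 836) (nat_lit 64040267833) (nat_lit 120) (nat_lit 5) (nat_lit 130) (nat_lit 5) (nat_lit 131) (nat_lit 5) (nat_lit 425) (nat_lit 421) (nat_lit 174)) (XT.nd (nat_lit 78) (nat_lit 0) (nat_lit 76) (XT.lf (nat_lit 76) (nat_lit 27759656811) (nat_lit 0) (nat_lit 61936613876) (nat_lit 836) (nat_lit 150064039437)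 (nat_lit 121) (nat_lit 5) (nat_lit 120) (nat_lit 5) (nat_lit 131) (nat_lit 5) (nat_lit 426) (nat_lit 421) (nat_lit 173)) (XT.lf (nat_lit 0) (nat_lit 102529857439) (nat_lit 760) (nat_lit 92313181779) (nat_lit 836) (nat_lit 51122844654) (nat_lit 121) (nat_lit 5) (nat_lit 131) (nat_lit 5) (nat_lit 132) (nat_lit 5) (nat_lit 427) (nat_lit 421) (nat_lit 172)))) (XT.nd (nat_lit 156) (nat_lit 0) (nat_lit 76) (XT.nd (nat_lit 78) (nat_lit 0) (nat_lit 76) (XT.lf (nat_lit 76) (nat_lit 33412668995) (nat_lit 0) (nat_lit 84129402006) (nat_lit 836) (nat_lit 134862817973) (nat_lit 122) (nat_lit 5) (nat_lit 121) (nat_lit 5) (nat_lit 132) (nat_lit 5) (nat_lit 428) (nat_lit 421) (nat_lit 171)) (XT.lf (nat_lit 0) (nat_lit 135395305167) (nat_lit 760) (nat_lit 90985126279) (nat_lit 836) (nat_lit 32680892426) (nat_lit 122) (nat_lit 5) (nat_lit 132) (nat_lit 5) (nat_lit 133) (nat_lit 5) (nat_lit 429) (nat_lit 421)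 (nat_lit 170))) (XT.nd (nat_lit 78) (nat_lit 0) (nat_lit 76) (XT.lf (nat_lit 76) (nat_lit 43433231975) (nat_lit 0) (nat_lit 112765187978) (nat_lit 836) (nat_lit 109749299652) (nat_lit 123) (nat_lit 5) (nat_lit 122) (nat_lit 5) (nat_lit 133) (nat_lit 5) (nat_lit 430) (nat_lit 421) (nat_lit 169)) (XT.lf (nat_lit 0) (nat_lit 179709728656) (nat_lit 760) (nat_lit 85497366420) (nat_lit 76) (nat_lit 7887938173) (nat_lit 123) (nat_lit 5) (nat_lit 133) (nat_lit 5) (nat_lit 124) (nat_lit 5) (nat_lit 431) (nat_lit 421) (nat_lit 168))))) (XT.nd (nat_lit 234) (nat_lit 836) (nat_lit 0) (XT.nd (nat_lit 78) (nat_lit 380) (nat_lit 0) (XT.lf (nat_lit 0) (nat_lit 58390817964) (nat_lit 760) (nat_lit 148765978197) (nat_lit 836) (nat_lit 73304906778) (nat_lit 113) (nat_lit 5) (nat_lit 123) (nat_lit 5) (nat_lit 124) (nat_lit 5) (nat_lit 432) (nat_lit 421) (nat_lit 167)) (XT.nd (nat_lit 78) (nat_lit 380) (nat_lit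 0) (XT.lf (nat_lit 0) (nat_lit 212441633866) (nat_lit 760) (nat_lit 24982463920) (nat_lit 836) (nat_lit 50700214322) (nat_lit 113) (nat_lit 5) (nat_lit 123) (nat_lit 5) (nat_lit 124) (nat_lit 5) (nat_lit 433) (nat_lit 421) (nat_lit 166)) (XT.lf (nat_lit 0) (nat_lit 78911349592) (nat_lit 380) (nat_lit 193164578219) (nat_lit 456) (nat_lit 23950565786) (nat_lit 108) (nat_lit 5) (nat_lit 113) (nat_lit 5) (nat_lit 114) (nat_lit 5) (nat_lit 434) (nat_lit 421) (nat_lit 165)))) (XT.nd (nat_lit 156) (nat_lit 380) (nat_lit 0) (XT.nd (nat_lit 78) (nat_lit 380) (nat_lit 0) (XT.lf (nat_lit 0) (nat_lit 5716397729) (nat_lit 456) (nat_lit 60892285865) (nat_lit 76) (nat_lit 237626260001) (nat_lit 107) (nat_lit 5) (nat_lit 113) (nat_lit 5) (nat_lit 108) (nat_lit 5) (nat_lit 435) (nat_lit 421) (nat_lit 164)) (XT.lf (nat_lit 0) (nat_lit 38787346740) (nat_lit 456) (nat_lit 207673290068) (nat_lit 76) (nat_lit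 66237271030) (nat_lit 102) (nat_lit 5) (nat_lit 108) (nat_lit 5) (nat_lit 103) (nat_lit 5) (nat_lit 436) (nat_lit 421) (nat_lit 163))) (XT.nd (nat_lit 78) (nat_lit 380) (nat_lit 0) (XT.lf (nat_lit 0) (nat_lit 75651884278) (nat_lit 456) (nat_lit 41289953876) (nat_lit 76) (nat_lit 204535180109) (nat_lit 102) (nat_lit 5) (nat_lit 108) (nat_lit 5) (nat_lit 103) (nat_lit 5) (nat_lit 437) (nat_lit 421) (nat_lit 162)) (XT.lf (nat_lit 0) (nat_lit 116844159890) (nat_lit 456) (nat_lit 193096522954) (nat_lit 76) (nat_lit 20630175829) (nat_lit 97) (nat_lit 5) (nat_lit 103) (nat_lit 5) (nat_lit 98) (nat_lit 5) (nat_lit 438) (nat_lit 421) (nat_lit 161))))))))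
noncomputable def xc243 : XT := (XT.nd (nat_lit 2106) (nat_lit 152) (nat_lit 0) (XT.nd (nat_lit 1014) (nat_lit 1596) (nat_lit 0) (XT.nd (nat_lit 468) (nat_lit 1064) (nat_lit 0) (XT.nd (nat_lit 234) (nat_lit 304) (nat_lit 0) (XT.nd (nat_lit 78) (nat_lit 608) (nat_lit 0) (XT.lf (nat_lit 0) (nat_lit 162723810700) (nat_lit 456) (nat_lit 15402689313) (nat_lit 76) (nat_lit 161861503041) (nat_lit 97) (nat_lit 5) (nat_lit 103) (nat_lit 5) (nat_lit 98) (nat_lit 5) (nat_lit 439) (nat_lit 421) (nat_lit 160)) (XT.nd (nat_lit 78) (nat_lit 304) (nat_lit 0) (XT.lf (nat_lit 0) (nat_lit 176835630493) (nat_lit 304) (nat_lit 36822668938) (nat_lit 380) (nat_lit 136079662475) (nat_lit 93) (nat_lit 5) (nat_lit 97) (nat_lit 5) (nat_lit 98) (nat_lit 5) (nat_lit 440) (nat_lit 421) (nat_lit 159)) (XT.lf (nat_lit 0) (nat_lit 18091395653) (nat_lit 304) (nat_lit 251337210637) (nat_lit 380) (nat_lit 90432357745) (nat_lit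 89) (nat_lit 5) (nat_lit 93) (nat_lit 5) (nat_lit 94) (nat_lit 5) (nat_lit 441) (nat_lit 421) (nat_lit 158)))) (XT.nd (nat_lit 78) (nat_lit 304) (nat_lit 0) (XT.lf (nat_lit 0) (nat_lit 224013927386) (nat_lit 304) (nat_lit 107495557889) (nat_lit 380) (nat_lit 38804528175) (nat_lit 89) (nat_lit 5) (nat_lit 93) (nat_lit 5) (nat_lit 94) (nat_lit 5) (nat_lit 442) (nat_lit 421) (nat_lit 157)) (XT.nd (nat_lit 78) (nat_lit 0) (nat_lit 0) (XT.lf (nat_lit 0) (nat_lit 16557634521) (nat_lit 304) (nat_lit 321286294422) (nat_lit 76) (nat_lit 43351461489) (nat_lit 85) (nat_lit 5) (nat_lit 89) (nat_lit 5) (nat_lit 86) (nat_lit 5) (nat_lit 443) (nat_lit 421) (nat_lit 156)) (XT.lf (nat_lit 0) (nat_lit 77664281652) (nat_lit 304) (nat_lit 113428037281) (nat_lit 76) (nat_lit 201282687209) (nat_lit 85) (nat_lit 5) (nat_lit 89) (nat_lit 5) (nat_lit 86) (nat_lit 5) (nat_lit 444) (nat_lit 421) (nat_lit 155))))) (XT.nd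 (nat_lit 234) (nat_lit 532) (nat_lit 0) (XT.nd (nat_lit 78) (nat_lit 228) (nat_lit 0) (XT.lf (nat_lit 0) (nat_lit 108289009204) (nat_lit 304) (nat_lit 35227909204) (nat_lit 380) (nat_lit 260512151382) (nat_lit 81) (nat_lit 5) (nat_lit 85) (nat_lit 5) (nat_lit 86) (nat_lit 5) (nat_lit 445) (nat_lit 421) (nat_lit 154)) (XT.nd (nat_lit 78) (nat_lit 228) (nat_lit 0) (XT.lf (nat_lit 0) (nat_lit 216619747935) (nat_lit 380) (nat_lit 73176603328) (nat_lit 76) (nat_lit 126271607326) (nat_lit 81) (nat_lit 5) (nat_lit 86) (nat_lit 5) (nat_lit 82) (nat_lit 5) (nat_lit 446) (nat_lit 421) (nat_lit 153)) (XT.lf (nat_lit 0) (nat_lit 165225728600) (nat_lit 228) (nat_lit 131309098705) (nat_lit 304) (nat_lit 132016109118) (nat_lit 78) (nat_lit 5) (nat_lit 81) (nat_lit 5) (nat_lit 82) (nat_lit 5) (nat_lit 447) (nat_lit 421) (nat_lit 152)))) (XT.nd (nat_lit 156) (nat_lit 228) (nat_lit 0) (XT.nd (nat_lit 78) (nat_lit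 304) (nat_lit 0) (XT.lf (nat_lit 0) (nat_lit 382253272329) (nat_lit 304) (nat_lit 24075807710) (nat_lit 76) (nat_lit 35238602539) (nat_lit 78) (nat_lit 5) (nat_lit 82) (nat_lit 5) (nat_lit 79) (nat_lit 5) (nat_lit 448) (nat_lit 421) (nat_lit 151)) (XT.lf (nat_lit 0) (nat_lit 22353667583) (nat_lit 304) (nat_lit 222884365452) (nat_lit 76) (nat_lit 209690138856) (nat_lit 74) (nat_lit 5) (nat_lit 78) (nat_lit 5) (nat_lit 75) (nat_lit 5) (nat_lit 449) (nat_lit 421) (nat_lit 150))) (XT.nd (nat_lit 78) (nat_lit 0) (nat_lit 0) (XT.lf (nat_lit 0) (nat_lit 32944285874) (nat_lit 228) (nat_lit 74096250287) (nat_lit 304) (nat_lit 361821094152) (nat_lit 71) (nat_lit 5) (nat_lit 74) (nat_lit 5) (nat_lit 75) (nat_lit 5) (nat_lit 450) (nat_lit 421) (nat_lit 149)) (XT.lf (nat_lit 0) (nat_lit 201447003546) (nat_lit 304) (nat_lit 175711295903) (nat_lit 76) (nat_lit 106059199449) (nat_lit 71) (nat_lit 5) (nat_lit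 75) (nat_lit 5) (nat_lit 72) (nat_lit 5) (nat_lit 451) (nat_lit 421) (nat_lit 148)))))) (XT.nd (nat_lit 546) (nat_lit 760) (nat_lit 0) (XT.nd (nat_lit 234) (nat_lit 380) (nat_lit 0) (XT.nd (nat_lit 78) (nat_lit 228) (nat_lit 0) (XT.lf (nat_lit 0) (nat_lit 99474111252) (nat_lit 228) (nat_lit 203867415179) (nat_lit 304) (nat_lit 194811247886) (nat_lit 68) (nat_lit 5) (nat_lit 71) (nat_lit 5) (nat_lit 72) (nat_lit 5) (nat_lit 452) (nat_lit 421) (nat_lit 147)) (XT.nd (nat_lit 78) (nat_lit 228) (nat_lit 0) (XT.lf (nat_lit 0) (nat_lit 394519044935) (nat_lit 228) (nat_lit 18787456956) (nat_lit 304) (nat_lit 100379525304) (nat_lit 68) (nat_lit 5) (nat_lit 71) (nat_lit 5) (nat_lit 72) (nat_lit 5) (nat_lit 453) (nat_lit 421) (nat_lit 146)) (XT.lf (nat_lit 0) (nat_lit 4411483005) (nat_lit 228) (nat_lit 352539028480) (nat_lit 76) (nat_lit 172766465823) (nat_lit 65) (nat_lit 5) (nat_lit 68) (nat_lit 5)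 (nat_lit 66) (nat_lit 5) (nat_lit 454) (nat_lit 421) (nat_lit 145)))) (XT.nd (nat_lit 156) (nat_lit 152) (nat_lit 0) (XT.nd (nat_lit 78) (nat_lit 228) (nat_lit 0) (XT.lf (nat_lit 0) (nat_lit 113427829529) (nat_lit 228) (nat_lit 55957916563) (nat_lit 76) (nat_lit 376963490641) (nat_lit 65) (nat_lit 5) (nat_lit 68) (nat_lit 5) (nat_lit 66) (nat_lit 5) (nat_lit 455) (nat_lit 421) (nat_lit 144)) (XT.lf (nat_lit 0) (nat_lit 232512953702) (nat_lit 304) (nat_lit 300206276579) (nat_lit 76) (nat_lit 30862980842) (nat_lit 62) (nat_lit 5) (nat_lit 66) (nat_lit 5) (nat_lit 63) (nat_lit 5) (nat_lit 456) (nat_lit 421) (nat_lit 143))) (XT.nd (nat_lit 78) (nat_lit 0) (nat_lit 0) (XT.lf (nat_lit 0) (nat_lit 16732926128) (nat_lit 152) (nat_lit 344820655168) (nat_lit 228) (nat_lit 219923190581) (nat_lit 60) (nat_lit 5) (nat_lit 62) (nat_lit 5) (nat_lit 63) (nat_lit 5) (nat_lit 457) (nat_lit 421) (nat_lit 142))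 (XT.lf (nat_lit 0) (nat_lit 359941532619) (nat_lit 152) (nat_lit 142188820619) (nat_lit 228) (nat_lit 97881501791) (nat_lit 60) (nat_lit 5) (nat_lit 62) (nat_lit 5) (nat_lit 63) (nat_lit 5) (nat_lit 458) (nat_lit 421) (nat_lit 141))))) (XT.nd (nat_lit 234) (nat_lit 380) (nat_lit 0) (XT.nd (nat_lit 78) (nat_lit 152) (nat_lit 0) (XT.lf (nat_lit 0) (nat_lit 32048595051) (nat_lit 228) (nat_lit 516822422829) (nat_lit 76) (nat_lit 70441305257) (nat_lit 57) (nat_lit 5) (nat_lit 60) (nat_lit 5) (nat_lit 58) (nat_lit 5) (nat_lit 459) (nat_lit 421) (nat_lit 140)) (XT.nd (nat_lit 78) (nat_lit 152) (nat_lit 0) (XT.lf (nat_lit 0) (nat_lit 171649034285) (nat_lit 228) (nat_lit 172863965275) (nat_lit 76) (nat_lit 294661419465) (nat_lit 57) (nat_lit 5) (nat_lit 60) (nat_lit 5) (nat_lit 58) (nat_lit 5) (nat_lit 460) (nat_lit 421) (nat_lit 139)) (XT.lf (nat_lit 0) (nat_lit 194518173743) (nat_lit 152) (nat_lit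 126748272304) (nat_lit 228) (nat_lit 338611326139) (nat_lit 55) (nat_lit 5) (nat_lit 57) (nat_lit 5) (nat_lit 58) (nat_lit 5) (nat_lit 461) (nat_lit 421) (nat_lit 138)))) (XT.nd (nat_lit 156) (nat_lit 228) (nat_lit 0) (XT.nd (nat_lit 78) (nat_lit 152) (nat_lit 0) (XT.lf (nat_lit 0) (nat_lit 482931250528) (nat_lit 228) (nat_lit 96838098276) (nat_lit 76) (nat_lit 101618618100) (nat_lit 55) (nat_lit 5) (nat_lit 58) (nat_lit 5) (nat_lit 56) (nat_lit 5) (nat_lit 462) (nat_lit 421) (nat_lit 137)) (XT.lf (nat_lit 0) (nat_lit 297555225600) (nat_lit 152) (nat_lit 361847559265) (nat_lit 228) (nat_lit 44234712017) (nat_lit 53) (nat_lit 5) (nat_lit 55) (nat_lit 5) (nat_lit 56) (nat_lit 5) (nat_lit 463) (nat_lit 421) (nat_lit 136))) (XT.nd (nat_lit 78) (nat_lit 152) (nat_lit 0) (XT.lf (nat_lit 0) (nat_lit 115598172517) (nat_lit 228) (nat_lit 13751810982) (nat_lit 76) (nat_lit 597474296598) (nat_lit 52)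 (nat_lit 5) (nat_lit 55) (nat_lit 5) (nat_lit 53) (nat_lit 5) (nat_lit 464) (nat_lit 421) (nat_lit 135)) (XT.lf (nat_lit 0) (nat_lit 290255813035) (nat_lit 228) (nat_lit 342110377022) (nat_lit 76) (nat_lit 118351970054) (nat_lit 50) (nat_lit 5) (nat_lit 53) (nat_lit 5) (nat_lit 51) (nat_lit 5) (nat_lit 465) (nat_lit 421) (nat_lit 134))))))) (XT.nd (nat_lit 50622) (nat_lit 0) (nat_lit 2508) (XT.nd (nat_lit 50076) (nat_lit 0) (nat_lit 4940) (XT.nd (nat_lit 49764) (nat_lit 0) (nat_lit 5320) (XT.nd (nat_lit 78) (nat_lit 0) (nat_lit 0) (XT.lf (nat_lit 0) (nat_lit 77111401289) (nat_lit 152) (nat_lit 400096041937) (nat_lit 228) (nat_lit 298421235522) (nat_lit 48) (nat_lit 5) (nat_lit 50) (nat_lit 5) (nat_lit 51) (nat_lit 5) (nat_lit 466) (nat_lit 421) (nat_lit 133)) (XT.nd (nat_lit 49608) (nat_lit 0) (nat_lit 5320) (XT.lf (nat_lit 0) (nat_lit 529171533956) (nat_lit 152) (nat_lit 150128905713) (nat_lit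 228) (nat_lit 122194594413) (nat_lit 48) (nat_lit 5) (nat_lit 50) (nat_lit 5) (nat_lit 51) (nat_lit 5) (nat_lit 467) (nat_lit 421) (nat_lit 132)) (XT.lf (nat_lit 0) (nat_lit 31133903223) (nat_lit 836) (nat_lit 39987227134) (nat_lit 836) (nat_lit 39987227134) (nat_lit 118) (nat_lit 3) (nat_lit 129) (nat_lit 3) (nat_lit 129) (nat_lit 5) (nat_lit 422) (nat_lit 422) (nat_lit 176)))) (XT.nd (nat_lit 156) (nat_lit 0) (nat_lit 76) (XT.nd (nat_lit 78) (nat_lit 0) (nat_lit 76) (XT.lf (nat_lit 76) (nat_lit 28914356457) (nat_lit 0) (nat_lit 35362871997) (nat_lit 836) (nat_lit 163472267354) (nat_lit 119) (nat_lit 5) (nat_lit 118) (nat_lit 3) (nat_lit 129) (nat_lit 5) (nat_lit 423) (nat_lit 422) (nat_lit 175)) (XT.lf (nat_lit 0) (nat_lit 68963655763) (nat_lit 760) (nat_lit 88689315880) (nat_lit 836) (nat_lit 75777117368) (nat_lit 119) (nat_lit 5) (nat_lit 129) (nat_lit 5) (nat_lit 130) (nat_lit 5) (nat_lit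 424) (nat_lit 422) (nat_lit 174))) (XT.nd (nat_lit 78) (nat_lit 0) (nat_lit 76) (XT.lf (nat_lit 76) (nat_lit 27256407456) (nat_lit 0) (nat_lit 47633186196) (nat_lit 836) (nat_lit 164454858802) (nat_lit 120) (nat_lit 5) (nat_lit 119) (nat_lit 5) (nat_lit 130) (nat_lit 5) (nat_lit 425) (nat_lit 422) (nat_lit 173)) (XT.lf (nat_lit 0) (nat_lit 83698287903) (nat_lit 760) (nat_lit 94485513796) (nat_lit 836) (nat_lit 67241409439) (nat_lit 120) (nat_lit 5) (nat_lit 130) (nat_lit 5) (nat_lit 131) (nat_lit 5) (nat_lit 426) (nat_lit 422) (nat_lit 172))))) (XT.nd (nat_lit 234) (nat_lit 532) (nat_lit 0) (XT.nd (nat_lit 78) (nat_lit 0) (nat_lit 76) (XT.lf (nat_lit 76) (nat_lit 29149179382) (nat_lit 0) (nat_lit 65034137944) (nat_lit 836) (nat_lit 157564895446) (nat_lit 121) (nat_lit 5) (nat_lit 120) (nat_lit 5) (nat_lit 131) (nat_lit 5) (nat_lit 427) (nat_lit 422) (nat_lit 171)) (XT.nd (nat_lit 78) (nat_lit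 0) (nat_lit 0) (XT.lf (nat_lit 0) (nat_lit 107658466768) (nat_lit 760) (nat_lit 96927256664) (nat_lit 836) (nat_lit 53678347666) (nat_lit 121) (nat_lit 5) (nat_lit 131) (nat_lit 5) (nat_lit 132) (nat_lit 5) (nat_lit 428) (nat_lit 422) (nat_lit 170)) (XT.lf (nat_lit 76) (nat_lit 35084861098) (nat_lit 0) (nat_lit 88336353462) (nat_lit 836) (nat_lit 141603815772) (nat_lit 122) (nat_lit 5) (nat_lit 121) (nat_lit 5) (nat_lit 132) (nat_lit 5) (nat_lit 429) (nat_lit 422) (nat_lit 169)))) (XT.nd (nat_lit 156) (nat_lit 684) (nat_lit 0) (XT.nd (nat_lit 78) (nat_lit 0) (nat_lit 0) (XT.lf (nat_lit 0) (nat_lit 142167006133) (nat_lit 760) (nat_lit 95532792823) (nat_lit 836) (nat_lit 34314493286) (nat_lit 122) (nat_lit 5) (nat_lit 132) (nat_lit 5) (nat_lit 133) (nat_lit 5) (nat_lit 430) (nat_lit 422) (nat_lit 168)) (XT.lf (nat_lit 76) (nat_lit 45606457703) (nat_lit 0) (nat_lit 118403751199) (nat_lit 836)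 (nat_lit 115234802296) (nat_lit 123) (nat_lit 5) (nat_lit 122) (nat_lit 5) (nat_lit 133) (nat_lit 5) (nat_lit 431) (nat_lit 422) (nat_lit 167))) (XT.nd (nat_lit 78) (nat_lit 760) (nat_lit 0) (XT.lf (nat_lit 0) (nat_lit 188696989573) (nat_lit 760) (nat_lit 89770650684) (nat_lit 76) (nat_lit 8282054988) (nat_lit 123) (nat_lit 5) (nat_lit 133) (nat_lit 5) (nat_lit 124) (nat_lit 5) (nat_lit 432) (nat_lit 422) (nat_lit 166)) (XT.lf (nat_lit 0) (nat_lit 61311917370) (nat_lit 760) (nat_lit 156204432917) (nat_lit 836) (nat_lit 76968351187) (nat_lit 113) (nat_lit 5) (nat_lit 123) (nat_lit 5) (nat_lit 124) (nat_lit 5) (nat_lit 433) (nat_lit 422) (nat_lit 165)))))) (XT.nd (nat_lit 546) (nat_lit 1216) (nat_lit 0) (XT.nd (nat_lit 234) (nat_lit 760) (nat_lit 0) (XT.nd (nat_lit 78) (nat_lit 456) (nat_lit 0) (XT.lf (nat_lit 0) (nat_lit 223065199852) (nat_lit 760) (nat_lit 26231735506) (nat_lit 836) (nat_lit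 53233509866) (nat_lit 113) (nat_lit 5) (nat_lit 123) (nat_lit 5) (nat_lit 124) (nat_lit 5) (nat_lit 434) (nat_lit 422) (nat_lit 164)) (XT.nd (nat_lit 78) (nat_lit 76) (nat_lit 0) (XT.lf (nat_lit 0) (nat_lit 82858460862) (nat_lit 380) (nat_lit 202822840172) (nat_lit 456) (nat_lit 25146437587) (nat_lit 108) (nat_lit 5) (nat_lit 113) (nat_lit 5) (nat_lit 114) (nat_lit 5) (nat_lit 435) (nat_lit 422) (nat_lit 163)) (XT.lf (nat_lit 0) (nat_lit 6003744730) (nat_lit 456) (nat_lit 63935378650) (nat_lit 76) (nat_lit 249507490301) (nat_lit 107) (nat_lit 5) (nat_lit 113) (nat_lit 5) (nat_lit 108) (nat_lit 5) (nat_lit 436) (nat_lit 422) (nat_lit 162)))) (XT.nd (nat_lit 156) (nat_lit 380) (nat_lit 0) (XT.nd (nat_lit 78) (nat_lit 0) (nat_lit 0) (XT.lf (nat_lit 0) (nat_lit 40728192143) (nat_lit 456) (nat_lit 218055383313) (nat_lit 76) (nat_lit 69549153168) (nat_lit 102) (nat_lit 5) (nat_lit 108) (nat_lit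 5) (nat_lit 103) (nat_lit 5) (nat_lit 437) (nat_lit 422) (nat_lit 161)) (XT.lf (nat_lit 0) (nat_lit 79435886174) (nat_lit 456) (nat_lit 43352955133) (nat_lit 76) (nat_lit 214761956816) (nat_lit 102) (nat_lit 5) (nat_lit 108) (nat_lit 5) (nat_lit 103) (nat_lit 5) (nat_lit 438) (nat_lit 422) (nat_lit 160))) (XT.nd (nat_lit 78) (nat_lit 0) (nat_lit 0) (XT.lf (nat_lit 0) (nat_lit 122687733218) (nat_lit 456) (nat_lit 202749809678) (nat_lit 76) (nat_lit 21661789807) (nat_lit 97) (nat_lit 5) (nat_lit 103) (nat_lit 5) (nat_lit 98) (nat_lit 5) (nat_lit 439) (nat_lit 422) (nat_lit 159)) (XT.lf (nat_lit 0) (nat_lit 170861301552) (nat_lit 456) (nat_lit 16171357660) (nat_lit 76) (nat_lit 169954678371) (nat_lit 97) (nat_lit 5) (nat_lit 103) (nat_lit 5) (nat_lit 98) (nat_lit 5) (nat_lit 440) (nat_lit 422) (nat_lit 158))))) (XT.nd (nat_lit 234) (nat_lit 608) (nat_lit 0) (XT.nd (nat_lit 78) (nat_lit 304)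 (nat_lit 0) (XT.lf (nat_lit 0) (nat_lit 185678854489) (nat_lit 304) (nat_lit 38663620832) (nat_lit 380) (nat_lit 142882321056) (nat_lit 93) (nat_lit 5) (nat_lit 97) (nat_lit 5) (nat_lit 98) (nat_lit 5) (nat_lit 441) (nat_lit 422) (nat_lit 157)) (XT.nd (nat_lit 78) (nat_lit 0) (nat_lit 0) (XT.lf (nat_lit 0) (nat_lit 18997444450) (nat_lit 304) (nat_lit 263903818820) (nat_lit 380) (nat_lit 94952687082) (nat_lit 89) (nat_lit 5) (nat_lit 93) (nat_lit 5) (nat_lit 94) (nat_lit 5) (nat_lit 442) (nat_lit 422) (nat_lit 156)) (XT.lf (nat_lit 0) (nat_lit 235216032341) (nat_lit 304) (nat_lit 112870095451) (nat_lit 380) (nat_lit 40743527394) (nat_lit 89) (nat_lit 5) (nat_lit 93) (nat_lit 5) (nat_lit 94) (nat_lit 5) (nat_lit 443) (nat_lit 422) (nat_lit 155)))) (XT.nd (nat_lit 156) (nat_lit 304) (nat_lit 0) (XT.nd (nat_lit 78) (nat_lit 0) (nat_lit 0) (XT.lf (nat_lit 0) (nat_lit 17386674078) (nat_lit 304)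 (nat_lit 337349130223) (nat_lit 76) (nat_lit 45519297285) (nat_lit 85) (nat_lit 5) (nat_lit 89) (nat_lit 5) (nat_lit 86) (nat_lit 5) (nat_lit 444) (nat_lit 422) (nat_lit 154)) (XT.lf (nat_lit 0) (nat_lit 81548598431) (nat_lit 304) (nat_lit 119098030649) (nat_lit 76) (nat_lit 211347071780) (nat_lit 85) (nat_lit 5) (nat_lit 89) (nat_lit 5) (nat_lit 86) (nat_lit 5) (nat_lit 445) (nat_lit 422) (nat_lit 153))) (XT.nd (nat_lit 78) (nat_lit 0) (nat_lit 0) (XT.lf (nat_lit 0) (nat_lit 113704845442) (nat_lit 304) (nat_lit 36988990710) (nat_lit 380) (nat_lit 273536633105) (nat_lit 81) (nat_lit 5) (nat_lit 85) (nat_lit 5) (nat_lit 86) (nat_lit 5) (nat_lit 446) (nat_lit 422) (nat_lit 152)) (XT.lf (nat_lit 0) (nat_lit 227451760784) (nat_lit 380) (nat_lit 76834066924) (nat_lit 76) (nat_lit 132585477127) (nat_lit 81) (nat_lit 5) (nat_lit 86) (nat_lit 5) (nat_lit 82) (nat_lit 5) (nat_lit 447) (nat_lit 422)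 (nat_lit 151))))))))
noncomputable def xc244 : XT := (XT.nd (nat_lit 51792) (nat_lit 0) (nat_lit 1140) (XT.nd (nat_lit 1014) (nat_lit 532) (nat_lit 0) (XT.nd (nat_lit 468) (nat_lit 836) (nat_lit 0) (XT.nd (nat_lit 234) (nat_lit 456) (nat_lit 0) (XT.nd (nat_lit 78) (nat_lit 304) (nat_lit 0) (XT.lf (nat_lit 0) (nat_lit 173488359559) (nat_lit 228) (nat_lit 137874206724) (nat_lit 304) (nat_lit 138615866689) (nat_lit 78) (nat_lit 5) (nat_lit 81) (nat_lit 5) (nat_lit 82) (nat_lit 5) (nat_lit 448) (nat_lit 422) (nat_lit 150)) (XT.nd (nat_lit 78) (nat_lit 304) (nat_lit 0) (XT.lf (nat_lit 0) (nat_lit 401366891211) (nat_lit 304) (nat_lit 25278274872) (nat_lit 76) (nat_lit 37000852488) (nat_lit 78) (nat_lit 5) (nat_lit 82) (nat_lit 5) (nat_lit 79) (nat_lit 5) (nat_lit 449) (nat_lit 422) (nat_lit 149)) (XT.lf (nat_lit 0) (nat_lit 23472296657) (nat_lit 304) (nat_lit 234027250236) (nat_lit 76) (nat_lit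 220174985970) (nat_lit 74) (nat_lit 5) (nat_lit 78) (nat_lit 5) (nat_lit 75) (nat_lit 5) (nat_lit 450) (nat_lit 422) (nat_lit 148)))) (XT.nd (nat_lit 78) (nat_lit 228) (nat_lit 0) (XT.lf (nat_lit 0) (nat_lit 34592812148) (nat_lit 228) (nat_lit 77800671966) (nat_lit 304) (nat_lit 379911181336) (nat_lit 71) (nat_lit 5) (nat_lit 74) (nat_lit 5) (nat_lit 75) (nat_lit 5) (nat_lit 451) (nat_lit 422) (nat_lit 147)) (XT.nd (nat_lit 78) (nat_lit 228) (nat_lit 0) (XT.lf (nat_lit 0) (nat_lit 211520236815) (nat_lit 304) (nat_lit 184495572834) (nat_lit 76) (nat_lit 111362519732) (nat_lit 71) (nat_lit 5) (nat_lit 75) (nat_lit 5) (nat_lit 72) (nat_lit 5) (nat_lit 452) (nat_lit 422) (nat_lit 146)) (XT.lf (nat_lit 0) (nat_lit 104449083907) (nat_lit 228) (nat_lit 214060379668) (nat_lit 304) (nat_lit 204550906123) (nat_lit 68) (nat_lit 5) (nat_lit 71) (nat_lit 5) (nat_lit 72) (nat_lit 5) (nat_lit 453) (nat_lit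 422) (nat_lit 145))))) (XT.nd (nat_lit 234) (nat_lit 608) (nat_lit 0) (XT.nd (nat_lit 78) (nat_lit 228) (nat_lit 0) (XT.lf (nat_lit 0) (nat_lit 414246203936) (nat_lit 228) (nat_lit 19726442881) (nat_lit 304) (nat_lit 105397640467) (nat_lit 68) (nat_lit 5) (nat_lit 71) (nat_lit 5) (nat_lit 72) (nat_lit 5) (nat_lit 454) (nat_lit 422) (nat_lit 144)) (XT.nd (nat_lit 78) (nat_lit 0) (nat_lit 0) (XT.lf (nat_lit 0) (nat_lit 4632876242) (nat_lit 228) (nat_lit 370164730617) (nat_lit 76) (nat_lit 181405178108) (nat_lit 65) (nat_lit 5) (nat_lit 68) (nat_lit 5) (nat_lit 66) (nat_lit 5) (nat_lit 455) (nat_lit 422) (nat_lit 143)) (XT.lf (nat_lit 0) (nat_lit 119100001088) (nat_lit 228) (nat_lit 58754622594) (nat_lit 76) (nat_lit 395812035643) (nat_lit 65) (nat_lit 5) (nat_lit 68) (nat_lit 5) (nat_lit 66) (nat_lit 5) (nat_lit 456) (nat_lit 422) (nat_lit 142)))) (XT.nd (nat_lit 156) (nat_lit 228) (nat_lit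 0) (XT.nd (nat_lit 78) (nat_lit 152) (nat_lit 0) (XT.lf (nat_lit 0) (nat_lit 244139368991) (nat_lit 304) (nat_lit 315215387904) (nat_lit 76) (nat_lit 32406526175) (nat_lit 62) (nat_lit 5) (nat_lit 66) (nat_lit 5) (nat_lit 63) (nat_lit 5) (nat_lit 457) (nat_lit 422) (nat_lit 141)) (XT.lf (nat_lit 0) (nat_lit 17570755544) (nat_lit 152) (nat_lit 362061254341) (nat_lit 228) (nat_lit 230918562892) (nat_lit 60) (nat_lit 5) (nat_lit 62) (nat_lit 5) (nat_lit 63) (nat_lit 5) (nat_lit 458) (nat_lit 422) (nat_lit 140))) (XT.nd (nat_lit 78) (nat_lit 228) (nat_lit 0) (XT.lf (nat_lit 0) (nat_lit 377939736020) (nat_lit 152) (nat_lit 149297848711) (nat_lit 228) (nat_lit 102774827150) (nat_lit 60) (nat_lit 5) (nat_lit 62) (nat_lit 5) (nat_lit 63) (nat_lit 5) (nat_lit 459) (nat_lit 422) (nat_lit 139)) (XT.lf (nat_lit 0) (nat_lit 33651740272) (nat_lit 228) (nat_lit 542662382552) (nat_lit 76) (nat_lit 73963780508)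 (nat_lit 57) (nat_lit 5) (nat_lit 60) (nat_lit 5) (nat_lit 58) (nat_lit 5) (nat_lit 460) (nat_lit 422) (nat_lit 138)))))) (XT.nd (nat_lit 50232) (nat_lit 0) (nat_lit 5168) (XT.nd (nat_lit 234) (nat_lit 380) (nat_lit 0) (XT.nd (nat_lit 78) (nat_lit 152) (nat_lit 0) (XT.lf (nat_lit 0) (nat_lit 180232167398) (nat_lit 228) (nat_lit 181506057426) (nat_lit 76) (nat_lit 309394880904) (nat_lit 57) (nat_lit 5) (nat_lit 60) (nat_lit 5) (nat_lit 58) (nat_lit 5) (nat_lit 461) (nat_lit 422) (nat_lit 137)) (XT.nd (nat_lit 78) (nat_lit 0) (nat_lit 0) (XT.lf (nat_lit 0) (nat_lit 204245170703) (nat_lit 152) (nat_lit 133085263589) (nat_lit 228) (nat_lit 355541193036) (nat_lit 55) (nat_lit 5) (nat_lit 57) (nat_lit 5) (nat_lit 58) (nat_lit 5) (nat_lit 462) (nat_lit 422) (nat_lit 136)) (XT.lf (nat_lit 0) (nat_lit 507078453565) (nat_lit 228) (nat_lit 101678941145) (nat_lit 76) (nat_lit 106699938351) (nat_lit 55)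 (nat_lit 5) (nat_lit 58) (nat_lit 5) (nat_lit 56) (nat_lit 5) (nat_lit 463) (nat_lit 422) (nat_lit 135)))) (XT.nd (nat_lit 156) (nat_lit 152) (nat_lit 0) (XT.nd (nat_lit 78) (nat_lit 76) (nat_lit 0) (XT.lf (nat_lit 0) (nat_lit 312434031794) (nat_lit 152) (nat_lit 379939518638) (nat_lit 228) (nat_lit 46445789822) (nat_lit 53) (nat_lit 5) (nat_lit 55) (nat_lit 5) (nat_lit 56) (nat_lit 5) (nat_lit 464) (nat_lit 422) (nat_lit 134)) (XT.lf (nat_lit 0) (nat_lit 121378687564) (nat_lit 228) (nat_lit 14438386182) (nat_lit 76) (nat_lit 627348389895) (nat_lit 52) (nat_lit 5) (nat_lit 55) (nat_lit 5) (nat_lit 53) (nat_lit 5) (nat_lit 465) (nat_lit 422) (nat_lit 133))) (XT.nd (nat_lit 49764) (nat_lit 0) (nat_lit 5168) (XT.lf (nat_lit 0) (nat_lit 304769203164) (nat_lit 228) (nat_lit 359214873446) (nat_lit 76) (nat_lit 124269961399) (nat_lit 50) (nat_lit 5) (nat_lit 53) (nat_lit 5) (nat_lit 51) (nat_lit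 5) (nat_lit 466) (nat_lit 422) (nat_lit 132)) (XT.lf (nat_lit 0) (nat_lit 32691870911) (nat_lit 836) (nat_lit 41985920066) (nat_lit 836) (nat_lit 41985920066) (nat_lit 118) (nat_lit 3) (nat_lit 129) (nat_lit 3) (nat_lit 129) (nat_lit 5) (nat_lit 423) (nat_lit 423) (nat_lit 174))))) (XT.nd (nat_lit 234) (nat_lit 0) (nat_lit 152) (XT.nd (nat_lit 78) (nat_lit 0) (nat_lit 76) (XT.lf (nat_lit 76) (nat_lit 30361389567) (nat_lit 0) (nat_lit 37132144706) (nat_lit 836) (nat_lit 171643312780) (nat_lit 119) (nat_lit 5) (nat_lit 118) (nat_lit 3) (nat_lit 129) (nat_lit 5) (nat_lit 424) (nat_lit 423) (nat_lit 173)) (XT.nd (nat_lit 78) (nat_lit 0) (nat_lit 0) (XT.lf (nat_lit 0) (nat_lit 72414149758) (nat_lit 760) (nat_lit 93122394568) (nat_lit 836) (nat_lit 79564932312) (nat_lit 119) (nat_lit 5) (nat_lit 129) (nat_lit 5) (nat_lit 130) (nat_lit 5) (nat_lit 425) (nat_lit 423) (nat_lit 172)) (XT.lf (nat_lit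 76) (nat_lit 28620592562) (nat_lit 0) (nat_lit 50015703230) (nat_lit 836) (nat_lit 172675266960) (nat_lit 120) (nat_lit 5) (nat_lit 119) (nat_lit 5) (nat_lit 130) (nat_lit 5) (nat_lit 426) (nat_lit 423) (nat_lit 171)))) (XT.nd (nat_lit 156) (nat_lit 0) (nat_lit 76) (XT.nd (nat_lit 78) (nat_lit 0) (nat_lit 0) (XT.lf (nat_lit 0) (nat_lit 87885306171) (nat_lit 760) (nat_lit 99208370009) (nat_lit 836) (nat_lit 70602689177) (nat_lit 120) (nat_lit 5) (nat_lit 130) (nat_lit 5) (nat_lit 131) (nat_lit 5) (nat_lit 427) (nat_lit 423) (nat_lit 170)) (XT.lf (nat_lit 76) (nat_lit 30608034933) (nat_lit 0) (nat_lit 68286473752) (nat_lit 836) (nat_lit 165441012361) (nat_lit 121) (nat_lit 5) (nat_lit 120) (nat_lit 5) (nat_lit 131) (nat_lit 5) (nat_lit 428) (nat_lit 423) (nat_lit 169))) (XT.nd (nat_lit 78) (nat_lit 0) (nat_lit 0) (XT.lf (nat_lit 0) (nat_lit 113043309796) (nat_lit 760) (nat_lit 101772182577)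 (nat_lit 836) (nat_lit 56361685258) (nat_lit 121) (nat_lit 5) (nat_lit 131) (nat_lit 5) (nat_lit 132) (nat_lit 5) (nat_lit 429) (nat_lit 423) (nat_lit 168)) (XT.lf (nat_lit 76) (nat_lit 36840517897) (nat_lit 0) (nat_lit 92753607739) (nat_lit 836) (nat_lit 148682062707) (nat_lit 122) (nat_lit 5) (nat_lit 121) (nat_lit 5) (nat_lit 132) (nat_lit 5) (nat_lit 430) (nat_lit 423) (nat_lit 167))))))) (XT.nd (nat_lit 1014) (nat_lit 1824) (nat_lit 0) (XT.nd (nat_lit 468) (nat_lit 1444) (nat_lit 0) (XT.nd (nat_lit 234) (nat_lit 1064) (nat_lit 0) (XT.nd (nat_lit 78) (nat_lit 0) (nat_lit 0) (XT.lf (nat_lit 0) (nat_lit 149277112184) (nat_lit 760) (nat_lit 100307990495) (nat_lit 836) (nat_lit 36029815446) (nat_lit 122) (nat_lit 5) (nat_lit 132) (nat_lit 5) (nat_lit 133) (nat_lit 5) (nat_lit 431) (nat_lit 423) (nat_lit 166)) (XT.nd (nat_lit 78) (nat_lit 0) (nat_lit 76) (XT.lf (nat_lit 76) (nat_lit 47888199300)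 (nat_lit 0) (nat_lit 124324214335) (nat_lit 836) (nat_lit 120994762512) (nat_lit 123) (nat_lit 5) (nat_lit 122) (nat_lit 5) (nat_lit 133) (nat_lit 5) (nat_lit 432) (nat_lit 423) (nat_lit 165)) (XT.lf (nat_lit 0) (nat_lit 198133448561) (nat_lit 760) (nat_lit 94257746433) (nat_lit 76) (nat_lit 8695903684) (nat_lit 123) (nat_lit 5) (nat_lit 133) (nat_lit 5) (nat_lit 124) (nat_lit 5) (nat_lit 433) (nat_lit 423) (nat_lit 164)))) (XT.nd (nat_lit 78) (nat_lit 380) (nat_lit 0) (XT.lf (nat_lit 0) (nat_lit 64378926850) (nat_lit 760) (nat_lit 164014795887) (nat_lit 836) (nat_lit 80815135249) (nat_lit 113) (nat_lit 5) (nat_lit 123) (nat_lit 5) (nat_lit 124) (nat_lit 5) (nat_lit 434) (nat_lit 423) (nat_lit 163)) (XT.nd (nat_lit 78) (nat_lit 380) (nat_lit 0) (XT.lf (nat_lit 0) (nat_lit 234219806141) (nat_lit 760) (nat_lit 27543456876) (nat_lit 836) (nat_lit 55893629648) (nat_lit 113) (nat_lit 5) (nat_lit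 123) (nat_lit 5) (nat_lit 124) (nat_lit 5) (nat_lit 435) (nat_lit 423) (nat_lit 162)) (XT.lf (nat_lit 0) (nat_lit 87002784168) (nat_lit 380) (nat_lit 212964012151) (nat_lit 456) (nat_lit 26402256983) (nat_lit 108) (nat_lit 5) (nat_lit 113) (nat_lit 5) (nat_lit 114) (nat_lit 5) (nat_lit 436) (nat_lit 423) (nat_lit 161))))) (XT.nd (nat_lit 234) (nat_lit 988) (nat_lit 0) (XT.nd (nat_lit 78) (nat_lit 380) (nat_lit 0) (XT.lf (nat_lit 0) (nat_lit 6305317105) (nat_lit 456) (nat_lit 67130767530) (nat_lit 76) (nat_lit 261982789804) (nat_lit 107) (nat_lit 5) (nat_lit 113) (nat_lit 5) (nat_lit 108) (nat_lit 5) (nat_lit 437) (nat_lit 423) (nat_lit 160)) (XT.nd (nat_lit 78) (nat_lit 0) (nat_lit 0) (XT.lf (nat_lit 0) (nat_lit 42765942400) (nat_lit 456) (nat_lit 228956727300) (nat_lit 76) (nat_lit 73026627685) (nat_lit 102) (nat_lit 5) (nat_lit 108) (nat_lit 5) (nat_lit 103) (nat_lit 5) (nat_lit 438) (nat_lit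 423) (nat_lit 159)) (XT.lf (nat_lit 0) (nat_lit 83408957292) (nat_lit 456) (nat_lit 45519245577) (nat_lit 76) (nat_lit 225500070713) (nat_lit 102) (nat_lit 5) (nat_lit 108) (nat_lit 5) (nat_lit 103) (nat_lit 5) (nat_lit 439) (nat_lit 423) (nat_lit 158)))) (XT.nd (nat_lit 156) (nat_lit 608) (nat_lit 0) (XT.nd (nat_lit 78) (nat_lit 0) (nat_lit 0) (XT.lf (nat_lit 0) (nat_lit 128823358276) (nat_lit 456) (nat_lit 212885903859) (nat_lit 76) (nat_lit 22744974704) (nat_lit 97) (nat_lit 5) (nat_lit 103) (nat_lit 5) (nat_lit 98) (nat_lit 5) (nat_lit 440) (nat_lit 423) (nat_lit 157)) (XT.lf (nat_lit 0) (nat_lit 179405546056) (nat_lit 456) (nat_lit 16978595731) (nat_lit 76) (nat_lit 178452503154) (nat_lit 97) (nat_lit 5) (nat_lit 103) (nat_lit 5) (nat_lit 98) (nat_lit 5) (nat_lit 441) (nat_lit 423) (nat_lit 156))) (XT.nd (nat_lit 78) (nat_lit 304) (nat_lit 0) (XT.lf (nat_lit 0) (nat_lit 194964105577)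 (nat_lit 304) (nat_lit 40596637200) (nat_lit 380) (nat_lit 150025235709) (nat_lit 93) (nat_lit 5) (nat_lit 97) (nat_lit 5) (nat_lit 98) (nat_lit 5) (nat_lit 442) (nat_lit 423) (nat_lit 155)) (XT.lf (nat_lit 0) (nat_lit 19948658183) (nat_lit 304) (nat_lit 277098780873) (nat_lit 380) (nat_lit 99699152683) (nat_lit 89) (nat_lit 5) (nat_lit 93) (nat_lit 5) (nat_lit 94) (nat_lit 5) (nat_lit 443) (nat_lit 423) (nat_lit 154)))))) (XT.nd (nat_lit 546) (nat_lit 988) (nat_lit 0) (XT.nd (nat_lit 234) (nat_lit 532) (nat_lit 0) (XT.nd (nat_lit 78) (nat_lit 304) (nat_lit 0) (XT.lf (nat_lit 0) (nat_lit 246978111587) (nat_lit 304) (nat_lit 118513382235) (nat_lit 380) (nat_lit 42779590666) (nat_lit 89) (nat_lit 5) (nat_lit 93) (nat_lit 5) (nat_lit 94) (nat_lit 5) (nat_lit 444) (nat_lit 423) (nat_lit 153)) (XT.nd (nat_lit 78) (nat_lit 0) (nat_lit 0) (XT.lf (nat_lit 0) (nat_lit 18257057969) (nat_lit 304) (nat_lit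 354215245310) (nat_lit 76) (nat_lit 47795500445) (nat_lit 85) (nat_lit 5) (nat_lit 89) (nat_lit 5) (nat_lit 86) (nat_lit 5) (nat_lit 445) (nat_lit 423) (nat_lit 152)) (XT.lf (nat_lit 0) (nat_lit 85627028531) (nat_lit 304) (nat_lit 125051654635) (nat_lit 76) (nat_lit 221914652318) (nat_lit 85) (nat_lit 5) (nat_lit 89) (nat_lit 5) (nat_lit 86) (nat_lit 5) (nat_lit 446) (nat_lit 423) (nat_lit 151)))) (XT.nd (nat_lit 156) (nat_lit 228) (nat_lit 0) (XT.nd (nat_lit 78) (nat_lit 0) (nat_lit 0) (XT.lf (nat_lit 0) (nat_lit 119391344655) (nat_lit 304) (nat_lit 38838155479) (nat_lit 380) (nat_lit 287212443585) (nat_lit 81) (nat_lit 5) (nat_lit 85) (nat_lit 5) (nat_lit 86) (nat_lit 5) (nat_lit 447) (nat_lit 423) (nat_lit 150)) (XT.lf (nat_lit 0) (nat_lit 238825278938) (nat_lit 380) (nat_lit 80674530751) (nat_lit 76) (nat_lit 139215013509) (nat_lit 81) (nat_lit 5) (nat_lit 86) (nat_lit 5) (nat_lit 82)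 (nat_lit 5) (nat_lit 448) (nat_lit 423) (nat_lit 149))) (XT.nd (nat_lit 78) (nat_lit 0) (nat_lit 0) (XT.lf (nat_lit 0) (nat_lit 182163997064) (nat_lit 228) (nat_lit 144767602397) (nat_lit 304) (nat_lit 145545709561) (nat_lit 78) (nat_lit 5) (nat_lit 81) (nat_lit 5) (nat_lit 82) (nat_lit 5) (nat_lit 449) (nat_lit 423) (nat_lit 148)) (XT.lf (nat_lit 0) (nat_lit 421436102226) (nat_lit 304) (nat_lit 26540988412) (nat_lit 76) (nat_lit 38851185200) (nat_lit 78) (nat_lit 5) (nat_lit 82) (nat_lit 5) (nat_lit 79) (nat_lit 5) (nat_lit 450) (nat_lit 423) (nat_lit 147))))) (XT.nd (nat_lit 234) (nat_lit 456) (nat_lit 0) (XT.nd (nat_lit 78) (nat_lit 228) (nat_lit 0) (XT.lf (nat_lit 0) (nat_lit 24646769262) (nat_lit 304) (nat_lit 245727403234) (nat_lit 76) (nat_lit 231184043814) (nat_lit 74) (nat_lit 5) (nat_lit 78) (nat_lit 5) (nat_lit 75) (nat_lit 5) (nat_lit 451) (nat_lit 423) (nat_lit 146)) (XT.nd (nat_lit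 78) (nat_lit 0) (nat_lit 0) (XT.lf (nat_lit 0) (nat_lit 36323642760) (nat_lit 228) (nat_lit 81690351065) (nat_lit 304) (nat_lit 398905862830) (nat_lit 71) (nat_lit 5) (nat_lit 74) (nat_lit 5) (nat_lit 75) (nat_lit 5) (nat_lit 452) (nat_lit 423) (nat_lit 145)) (XT.lf (nat_lit 0) (nat_lit 222097049647) (nat_lit 304) (nat_lit 193719183345) (nat_lit 76) (nat_lit 116930972532) (nat_lit 71) (nat_lit 5) (nat_lit 75) (nat_lit 5) (nat_lit 72) (nat_lit 5) (nat_lit 453) (nat_lit 423) (nat_lit 144)))) (XT.nd (nat_lit 156) (nat_lit 228) (nat_lit 0) (XT.nd (nat_lit 78) (nat_lit 0) (nat_lit 0) (XT.lf (nat_lit 0) (nat_lit 109672687393) (nat_lit 228) (nat_lit 224763030154) (nat_lit 304) (nat_lit 214777631333) (nat_lit 68) (nat_lit 5) (nat_lit 71) (nat_lit 5) (nat_lit 72) (nat_lit 5) (nat_lit 454) (nat_lit 423) (nat_lit 143)) (XT.lf (nat_lit 0) (nat_lit 434959608695) (nat_lit 228) (nat_lit 20712414074) (nat_lit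 304) (nat_lit 110666741446) (nat_lit 68) (nat_lit 5) (nat_lit 71) (nat_lit 5) (nat_lit 72) (nat_lit 5) (nat_lit 455) (nat_lit 423) (nat_lit 142))) (XT.nd (nat_lit 78) (nat_lit 0) (nat_lit 0) (XT.lf (nat_lit 0) (nat_lit 4865262990) (nat_lit 228) (nat_lit 388671834008) (nat_lit 76) (nat_lit 190475789841) (nat_lit 65) (nat_lit 5) (nat_lit 68) (nat_lit 5) (nat_lit 66) (nat_lit 5) (nat_lit 456) (nat_lit 423) (nat_lit 141)) (XT.lf (nat_lit 0) (nat_lit 125055708701) (nat_lit 228) (nat_lit 61691274543) (nat_lit 76) (nat_lit 415602973452) (nat_lit 65) (nat_lit 5) (nat_lit 68) (nat_lit 5) (nat_lit 66) (nat_lit 5) (nat_lit 457) (nat_lit 423) (nat_lit 140))))))))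
noncomputable def xc245 : XT := (XT.nd (nat_lit 51870) (nat_lit 0) (nat_lit 228) (XT.nd (nat_lit 50778) (nat_lit 0) (nat_lit 3420) (XT.nd (nat_lit 468) (nat_lit 228) (nat_lit 0) (XT.nd (nat_lit 234) (nat_lit 380) (nat_lit 0) (XT.nd (nat_lit 78) (nat_lit 152) (nat_lit 0) (XT.lf (nat_lit 0) (nat_lit 256347033680) (nat_lit 304) (nat_lit 330975066592) (nat_lit 76) (nat_lit 34027211931) (nat_lit 62) (nat_lit 5) (nat_lit 66) (nat_lit 5) (nat_lit 63) (nat_lit 5) (nat_lit 458) (nat_lit 423) (nat_lit 139)) (XT.nd (nat_lit 78) (nat_lit 0) (nat_lit 0) (XT.lf (nat_lit 0) (nat_lit 18450366436) (nat_lit 152) (nat_lit 380163923783) (nat_lit 228) (nat_lit 242463777008) (nat_lit 60) (nat_lit 5) (nat_lit 62) (nat_lit 5) (nat_lit 63) (nat_lit 5) (nat_lit 459) (nat_lit 423) (nat_lit 138)) (XT.lf (nat_lit 0) (nat_lit 396837744835) (nat_lit 152) (nat_lit 156762366599) (nat_lit 228) (nat_lit 107912888479) (nat_lit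 60) (nat_lit 5) (nat_lit 62) (nat_lit 5) (nat_lit 63) (nat_lit 5) (nat_lit 460) (nat_lit 423) (nat_lit 137)))) (XT.nd (nat_lit 78) (nat_lit 152) (nat_lit 0) (XT.lf (nat_lit 0) (nat_lit 35334976237) (nat_lit 228) (nat_lit 569794448239) (nat_lit 76) (nat_lit 77662341405) (nat_lit 57) (nat_lit 5) (nat_lit 60) (nat_lit 5) (nat_lit 58) (nat_lit 5) (nat_lit 461) (nat_lit 423) (nat_lit 136)) (XT.nd (nat_lit 78) (nat_lit 152) (nat_lit 0) (XT.lf (nat_lit 0) (nat_lit 189244393817) (nat_lit 228) (nat_lit 190580357020) (nat_lit 76) (nat_lit 324864979112) (nat_lit 57) (nat_lit 5) (nat_lit 60) (nat_lit 5) (nat_lit 58) (nat_lit 5) (nat_lit 462) (nat_lit 423) (nat_lit 135)) (XT.lf (nat_lit 0) (nat_lit 214458416333) (nat_lit 152) (nat_lit 139739143702) (nat_lit 228) (nat_lit 373317618302) (nat_lit 55) (nat_lit 5) (nat_lit 57) (nat_lit 5) (nat_lit 58) (nat_lit 5) (nat_lit 463) (nat_lit 423) (nat_lit 134)))))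 (XT.nd (nat_lit 49998) (nat_lit 0) (nat_lit 5016) (XT.nd (nat_lit 78) (nat_lit 228) (nat_lit 0) (XT.lf (nat_lit 0) (nat_lit 532432957205) (nat_lit 228) (nat_lit 106761924897) (nat_lit 76) (nat_lit 112035288417) (nat_lit 55) (nat_lit 5) (nat_lit 58) (nat_lit 5) (nat_lit 56) (nat_lit 5) (nat_lit 464) (nat_lit 423) (nat_lit 133)) (XT.nd (nat_lit 78) (nat_lit 76) (nat_lit 0) (XT.lf (nat_lit 0) (nat_lit 328056681153) (nat_lit 152) (nat_lit 398936114895) (nat_lit 228) (nat_lit 48767482674) (nat_lit 53) (nat_lit 5) (nat_lit 55) (nat_lit 5) (nat_lit 56) (nat_lit 5) (nat_lit 465) (nat_lit 423) (nat_lit 132)) (XT.lf (nat_lit 0) (nat_lit 127448171983) (nat_lit 228) (nat_lit 15159384541) (nat_lit 76) (nat_lit 658716152670) (nat_lit 52) (nat_lit 5) (nat_lit 55) (nat_lit 5) (nat_lit 53) (nat_lit 5) (nat_lit 466) (nat_lit 423) (nat_lit 131)))) (XT.nd (nat_lit 156) (nat_lit 0) (nat_lit 76) (XT.nd (nat_lit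 78) (nat_lit 0) (nat_lit 0) (XT.lf (nat_lit 0) (nat_lit 34327618676) (nat_lit 836) (nat_lit 44084609788) (nat_lit 836) (nat_lit 44084609788) (nat_lit 118) (nat_lit 3) (nat_lit 129) (nat_lit 3) (nat_lit 129) (nat_lit 5) (nat_lit 424) (nat_lit 424) (nat_lit 172)) (XT.lf (nat_lit 76) (nat_lit 31880652049) (nat_lit 0) (nat_lit 38989776077) (nat_lit 836) (nat_lit 180223149220) (nat_lit 119) (nat_lit 5) (nat_lit 118) (nat_lit 3) (nat_lit 129) (nat_lit 5) (nat_lit 425) (nat_lit 424) (nat_lit 171))) (XT.nd (nat_lit 78) (nat_lit 0) (nat_lit 0) (XT.lf (nat_lit 0) (nat_lit 76036953580) (nat_lit 760) (nat_lit 97777256150) (nat_lit 836) (nat_lit 83542234778) (nat_lit 119) (nat_lit 5) (nat_lit 129) (nat_lit 5) (nat_lit 130) (nat_lit 5) (nat_lit 426) (nat_lit 424) (nat_lit 170)) (XT.lf (nat_lit 76) (nat_lit 30052860043) (nat_lit 0) (nat_lit 52517266372) (nat_lit 836) (nat_lit 181306912591) (nat_lit 120)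 (nat_lit 5) (nat_lit 119) (nat_lit 5) (nat_lit 130) (nat_lit 5) (nat_lit 427) (nat_lit 424) (nat_lit 169)))))) (XT.nd (nat_lit 546) (nat_lit 1748) (nat_lit 0) (XT.nd (nat_lit 234) (nat_lit 0) (nat_lit 76) (XT.nd (nat_lit 78) (nat_lit 0) (nat_lit 0) (XT.lf (nat_lit 0) (nat_lit 92281479753) (nat_lit 760) (nat_lit 104167501002) (nat_lit 836) (nat_lit 74132106416) (nat_lit 120) (nat_lit 5) (nat_lit 130) (nat_lit 5) (nat_lit 131) (nat_lit 5) (nat_lit 428) (nat_lit 424) (nat_lit 168)) (XT.nd (nat_lit 78) (nat_lit 0) (nat_lit 76) (XT.lf (nat_lit 76) (nat_lit 32139703421) (nat_lit 0) (nat_lit 71701367880) (nat_lit 836) (nat_lit 173711132949) (nat_lit 121) (nat_lit 5) (nat_lit 120) (nat_lit 5) (nat_lit 131) (nat_lit 5) (nat_lit 429) (nat_lit 424) (nat_lit 167)) (XT.lf (nat_lit 0) (nat_lit 118697216500) (nat_lit 760) (nat_lit 106859488377) (nat_lit 836) (nat_lit 59179243632) (nat_lit 121) (nat_lit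 5) (nat_lit 131) (nat_lit 5) (nat_lit 132) (nat_lit 5) (nat_lit 430) (nat_lit 424) (nat_lit 166)))) (XT.nd (nat_lit 156) (nat_lit 0) (nat_lit 76) (XT.nd (nat_lit 78) (nat_lit 0) (nat_lit 76) (XT.lf (nat_lit 76) (nat_lit 38683826099) (nat_lit 0) (nat_lit 97391684138) (nat_lit 836) (nat_lit 156114402709) (nat_lit 122) (nat_lit 5) (nat_lit 121) (nat_lit 5) (nat_lit 132) (nat_lit 5) (nat_lit 431) (nat_lit 424) (nat_lit 165)) (XT.lf (nat_lit 0) (nat_lit 156742560304) (nat_lit 760) (nat_lit 105322082112) (nat_lit 836) (nat_lit 37830941135) (nat_lit 122) (nat_lit 5) (nat_lit 132) (nat_lit 5) (nat_lit 133) (nat_lit 5) (nat_lit 432) (nat_lit 424) (nat_lit 164))) (XT.nd (nat_lit 78) (nat_lit 0) (nat_lit 76) (XT.lf (nat_lit 76) (nat_lit 50283896078) (nat_lit 0) (nat_lit 130540675007) (nat_lit 836) (nat_lit 127042886218) (nat_lit 123) (nat_lit 5) (nat_lit 122) (nat_lit 5) (nat_lit 133) (nat_lit 5) (nat_lit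 433) (nat_lit 424) (nat_lit 163)) (XT.lf (nat_lit 0) (nat_lit 208041580861) (nat_lit 760) (nat_lit 98969330547) (nat_lit 76) (nat_lit 9130468435) (nat_lit 123) (nat_lit 5) (nat_lit 133) (nat_lit 5) (nat_lit 124) (nat_lit 5) (nat_lit 434) (nat_lit 424) (nat_lit 162))))) (XT.nd (nat_lit 234) (nat_lit 836) (nat_lit 0) (XT.nd (nat_lit 78) (nat_lit 380) (nat_lit 0) (XT.lf (nat_lit 0) (nat_lit 67599155381) (nat_lit 760) (nat_lit 172215663866) (nat_lit 836) (nat_lit 84854410382) (nat_lit 113) (nat_lit 5) (nat_lit 123) (nat_lit 5) (nat_lit 124) (nat_lit 5) (nat_lit 435) (nat_lit 424) (nat_lit 161)) (XT.nd (nat_lit 78) (nat_lit 380) (nat_lit 0) (XT.lf (nat_lit 0) (nat_lit 245932017580) (nat_lit 760) (nat_lit 28920751801) (nat_lit 836) (nat_lit 58686900055) (nat_lit 113) (nat_lit 5) (nat_lit 123) (nat_lit 5) (nat_lit 124) (nat_lit 5) (nat_lit 436) (nat_lit 424) (nat_lit 160)) (XT.lf (nat_lit 0) (nat_lit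 91354193457) (nat_lit 380) (nat_lit 223612239943) (nat_lit 456) (nat_lit 27721007035) (nat_lit 108) (nat_lit 5) (nat_lit 113) (nat_lit 5) (nat_lit 114) (nat_lit 5) (nat_lit 437) (nat_lit 424) (nat_lit 159)))) (XT.nd (nat_lit 156) (nat_lit 380) (nat_lit 0) (XT.nd (nat_lit 78) (nat_lit 380) (nat_lit 0) (XT.lf (nat_lit 0) (nat_lit 6621839321) (nat_lit 456) (nat_lit 70486054158) (nat_lit 76) (nat_lit 275081861256) (nat_lit 107) (nat_lit 5) (nat_lit 113) (nat_lit 5) (nat_lit 108) (nat_lit 5) (nat_lit 438) (nat_lit 424) (nat_lit 158)) (XT.lf (nat_lit 0) (nat_lit 44905455529) (nat_lit 456) (nat_lit 240403270986) (nat_lit 76) (nat_lit 76677974360) (nat_lit 102) (nat_lit 5) (nat_lit 108) (nat_lit 5) (nat_lit 103) (nat_lit 5) (nat_lit 439) (nat_lit 424) (nat_lit 157))) (XT.nd (nat_lit 78) (nat_lit 380) (nat_lit 0) (XT.lf (nat_lit 0) (nat_lit 87580563260) (nat_lit 456) (nat_lit 47793976734) (nat_lit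 76) (nat_lit 236775088811) (nat_lit 102) (nat_lit 5) (nat_lit 108) (nat_lit 5) (nat_lit 103) (nat_lit 5) (nat_lit 440) (nat_lit 424) (nat_lit 156)) (XT.lf (nat_lit 0) (nat_lit 135265649453) (nat_lit 456) (nat_lit 223528932564) (nat_lit 76) (nat_lit 23882309977) (nat_lit 97) (nat_lit 5) (nat_lit 103) (nat_lit 5) (nat_lit 98) (nat_lit 5) (nat_lit 441) (nat_lit 424) (nat_lit 155))))))) (XT.nd (nat_lit 1014) (nat_lit 1216) (nat_lit 0) (XT.nd (nat_lit 468) (nat_lit 1064) (nat_lit 0) (XT.nd (nat_lit 234) (nat_lit 304) (nat_lit 0) (XT.nd (nat_lit 78) (nat_lit 608) (nat_lit 0) (XT.lf (nat_lit 0) (nat_lit 188376893133) (nat_lit 456) (nat_lit 17826319338) (nat_lit 76) (nat_lit 187375210728) (nat_lit 97) (nat_lit 5) (nat_lit 103) (nat_lit 5) (nat_lit 98) (nat_lit 5) (nat_lit 442) (nat_lit 424) (nat_lit 154)) (XT.nd (nat_lit 78) (nat_lit 304) (nat_lit 0) (XT.lf (nat_lit 0) (nat_lit 204713497581) (nat_lit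 304) (nat_lit 42626319696) (nat_lit 380) (nat_lit 157525407790) (nat_lit 93) (nat_lit 5) (nat_lit 97) (nat_lit 5) (nat_lit 98) (nat_lit 5) (nat_lit 443) (nat_lit 424) (nat_lit 153)) (XT.lf (nat_lit 0) (nat_lit 20947307881) (nat_lit 304) (nat_lit 290953512309) (nat_lit 380) (nat_lit 104683050224) (nat_lit 89) (nat_lit 5) (nat_lit 93) (nat_lit 5) (nat_lit 94) (nat_lit 5) (nat_lit 444) (nat_lit 424) (nat_lit 152)))) (XT.nd (nat_lit 78) (nat_lit 304) (nat_lit 0) (XT.lf (nat_lit 0) (nat_lit 259328176013) (nat_lit 304) (nat_lit 124438853624) (nat_lit 380) (nat_lit 44917560587) (nat_lit 89) (nat_lit 5) (nat_lit 93) (nat_lit 5) (nat_lit 94) (nat_lit 5) (nat_lit 445) (nat_lit 424) (nat_lit 151)) (XT.nd (nat_lit 78) (nat_lit 0) (nat_lit 0) (XT.lf (nat_lit 0) (nat_lit 19170863417) (nat_lit 304) (nat_lit 371924790864) (nat_lit 76) (nat_lit 50185491610) (nat_lit 85) (nat_lit 5) (nat_lit 89) (nat_lit 5)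 (nat_lit 86) (nat_lit 5) (nat_lit 446) (nat_lit 424) (nat_lit 150)) (XT.lf (nat_lit 0) (nat_lit 89909287148) (nat_lit 304) (nat_lit 131303078594) (nat_lit 76) (nat_lit 233010590784) (nat_lit 85) (nat_lit 5) (nat_lit 89) (nat_lit 5) (nat_lit 86) (nat_lit 5) (nat_lit 447) (nat_lit 424) (nat_lit 149))))) (XT.nd (nat_lit 234) (nat_lit 532) (nat_lit 0) (XT.nd (nat_lit 78) (nat_lit 228) (nat_lit 0) (XT.lf (nat_lit 0) (nat_lit 125362051971) (nat_lit 304) (nat_lit 40779804961) (nat_lit 380) (nat_lit 301572139529) (nat_lit 81) (nat_lit 5) (nat_lit 85) (nat_lit 5) (nat_lit 86) (nat_lit 5) (nat_lit 448) (nat_lit 424) (nat_lit 148)) (XT.nd (nat_lit 78) (nat_lit 228) (nat_lit 0) (XT.lf (nat_lit 0) (nat_lit 250767386527) (nat_lit 380) (nat_lit 84707133007) (nat_lit 76) (nat_lit 146176002303) (nat_lit 81) (nat_lit 5) (nat_lit 86) (nat_lit 5) (nat_lit 82) (nat_lit 5) (nat_lit 449) (nat_lit 424) (nat_lit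 147)) (XT.lf (nat_lit 0) (nat_lit 191273303065) (nat_lit 228) (nat_lit 152005697108) (nat_lit 304) (nat_lit 152822132941) (nat_lit 78) (nat_lit 5) (nat_lit 81) (nat_lit 5) (nat_lit 82) (nat_lit 5) (nat_lit 450) (nat_lit 424) (nat_lit 146)))) (XT.nd (nat_lit 156) (nat_lit 228) (nat_lit 0) (XT.nd (nat_lit 78) (nat_lit 304) (nat_lit 0) (XT.lf (nat_lit 0) (nat_lit 442508693237) (nat_lit 304) (nat_lit 27866949214) (nat_lit 76) (nat_lit 40794007578) (nat_lit 78) (nat_lit 5) (nat_lit 82) (nat_lit 5) (nat_lit 79) (nat_lit 5) (nat_lit 451) (nat_lit 424) (nat_lit 145)) (XT.lf (nat_lit 0) (nat_lit 25879885750) (nat_lit 304) (nat_lit 258012676332) (nat_lit 76) (nat_lit 242743525864) (nat_lit 74) (nat_lit 5) (nat_lit 78) (nat_lit 5) (nat_lit 75) (nat_lit 5) (nat_lit 452) (nat_lit 424) (nat_lit 144))) (XT.nd (nat_lit 78) (nat_lit 0) (nat_lit 0) (XT.lf (nat_lit 0) (nat_lit 38140904268) (nat_lit 228) (nat_lit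 85774547077) (nat_lit 304) (nat_lit 418850359987) (nat_lit 71) (nat_lit 5) (nat_lit 74) (nat_lit 5) (nat_lit 75) (nat_lit 5) (nat_lit 453) (nat_lit 424) (nat_lit 143)) (XT.lf (nat_lit 0) (nat_lit 233202628651) (nat_lit 304) (nat_lit 203404082983) (nat_lit 76) (nat_lit 122777817587) (nat_lit 71) (nat_lit 5) (nat_lit 75) (nat_lit 5) (nat_lit 72) (nat_lit 5) (nat_lit 454) (nat_lit 424) (nat_lit 142)))))) (XT.nd (nat_lit 546) (nat_lit 380) (nat_lit 0) (XT.nd (nat_lit 234) (nat_lit 380) (nat_lit 0) (XT.nd (nat_lit 78) (nat_lit 228) (nat_lit 0) (XT.lf (nat_lit 0) (nat_lit 115157364203) (nat_lit 228) (nat_lit 236000847423) (nat_lit 304) (nat_lit 225515769048) (nat_lit 68) (nat_lit 5) (nat_lit 71) (nat_lit 5) (nat_lit 72) (nat_lit 5) (nat_lit 455) (nat_lit 424) (nat_lit 141)) (XT.nd (nat_lit 78) (nat_lit 228) (nat_lit 0) (XT.lf (nat_lit 0) (nat_lit 456708581930) (nat_lit 228) (nat_lit 21747716455)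 (nat_lit 304) (nat_lit 116199370089) (nat_lit 68) (nat_lit 5) (nat_lit 71) (nat_lit 5) (nat_lit 72) (nat_lit 5) (nat_lit 456) (nat_lit 424) (nat_lit 140)) (XT.lf (nat_lit 0) (nat_lit 5109200005) (nat_lit 228) (nat_lit 408104397917) (nat_lit 76) (nat_lit 199999899359) (nat_lit 65) (nat_lit 5) (nat_lit 68) (nat_lit 5) (nat_lit 66) (nat_lit 5) (nat_lit 457) (nat_lit 424) (nat_lit 139)))) (XT.nd (nat_lit 156) (nat_lit 152) (nat_lit 0) (XT.nd (nat_lit 78) (nat_lit 228) (nat_lit 0) (XT.lf (nat_lit 0) (nat_lit 131309135912) (nat_lit 228) (nat_lit 64774859422) (nat_lit 76) (nat_lit 436383426911) (nat_lit 65) (nat_lit 5) (nat_lit 68) (nat_lit 5) (nat_lit 66) (nat_lit 5) (nat_lit 458) (nat_lit 424) (nat_lit 138)) (XT.lf (nat_lit 0) (nat_lit 269165016874) (nat_lit 304) (nat_lit 347522830618) (nat_lit 76) (nat_lit 35728898557) (nat_lit 62) (nat_lit 5) (nat_lit 66) (nat_lit 5) (nat_lit 63) (nat_lit 5)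 (nat_lit 459) (nat_lit 424) (nat_lit 137))) (XT.nd (nat_lit 78) (nat_lit 0) (nat_lit 0) (XT.lf (nat_lit 0) (nat_lit 19373858104) (nat_lit 152) (nat_lit 399171763260) (nat_lit 228) (nat_lit 254586318213) (nat_lit 60) (nat_lit 5) (nat_lit 62) (nat_lit 5) (nat_lit 63) (nat_lit 5) (nat_lit 460) (nat_lit 424) (nat_lit 136)) (XT.lf (nat_lit 0) (nat_lit 416680559074) (nat_lit 152) (nat_lit 164600145203) (nat_lit 228) (nat_lit 113307916098) (nat_lit 60) (nat_lit 5) (nat_lit 62) (nat_lit 5) (nat_lit 63) (nat_lit 5) (nat_lit 461) (nat_lit 424) (nat_lit 135))))) (XT.nd (nat_lit 234) (nat_lit 0) (nat_lit 0) (XT.nd (nat_lit 78) (nat_lit 152) (nat_lit 0) (XT.lf (nat_lit 0) (nat_lit 37102313667) (nat_lit 228) (nat_lit 598283215148) (nat_lit 76) (nat_lit 81545795774) (nat_lit 57) (nat_lit 5) (nat_lit 60) (nat_lit 5) (nat_lit 58) (nat_lit 5) (nat_lit 462) (nat_lit 424) (nat_lit 134)) (XT.nd (nat_lit 78) (nat_lit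 152) (nat_lit 0) (XT.lf (nat_lit 0) (nat_lit 198707174096) (nat_lit 228) (nat_lit 200108464869) (nat_lit 76) (nat_lit 341108549305) (nat_lit 57) (nat_lit 5) (nat_lit 60) (nat_lit 5) (nat_lit 58) (nat_lit 5) (nat_lit 463) (nat_lit 424) (nat_lit 133)) (XT.lf (nat_lit 0) (nat_lit 225182232475) (nat_lit 152) (nat_lit 146725753435) (nat_lit 228) (nat_lit 391982923811) (nat_lit 55) (nat_lit 5) (nat_lit 57) (nat_lit 5) (nat_lit 58) (nat_lit 5) (nat_lit 464) (nat_lit 424) (nat_lit 132)))) (XT.nd (nat_lit 50076) (nat_lit 0) (nat_lit 4788) (XT.nd (nat_lit 49998) (nat_lit 0) (nat_lit 4788) (XT.lf (nat_lit 0) (nat_lit 559055132015) (nat_lit 228) (nat_lit 112099147395) (nat_lit 76) (nat_lit 117637373153) (nat_lit 55) (nat_lit 5) (nat_lit 58) (nat_lit 5) (nat_lit 56) (nat_lit 5) (nat_lit 465) (nat_lit 424) (nat_lit 131)) (XT.lf (nat_lit 0) (nat_lit 36045046521) (nat_lit 836) (nat_lit 46288290363) (nat_lit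 836) (nat_lit 46288290363) (nat_lit 118) (nat_lit 3) (nat_lit 129) (nat_lit 3) (nat_lit 129) (nat_lit 5) (nat_lit 425) (nat_lit 425) (nat_lit 170))) (XT.nd (nat_lit 78) (nat_lit 0) (nat_lit 76) (XT.lf (nat_lit 76) (nat_lit 33475766742) (nat_lit 0) (nat_lit 40940193802) (nat_lit 836) (nat_lit 189232194029) (nat_lit 119) (nat_lit 5) (nat_lit 118) (nat_lit 3) (nat_lit 129) (nat_lit 5) (nat_lit 426) (nat_lit 425) (nat_lit 169)) (XT.lf (nat_lit 0) (nat_lit 79840702695) (nat_lit 760) (nat_lit 102664977782) (nat_lit 836) (nat_lit 87718490146) (nat_lit 119) (nat_lit 5) (nat_lit 129) (nat_lit 5) (nat_lit 130) (nat_lit 5) (nat_lit 427) (nat_lit 425) (nat_lit 168))))))))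
noncomputable def xc246 : XT := (XT.nd (nat_lit 2106) (nat_lit 1216) (nat_lit 0) (XT.nd (nat_lit 1014) (nat_lit 2356) (nat_lit 0) (XT.nd (nat_lit 468) (nat_lit 1292) (nat_lit 0) (XT.nd (nat_lit 234) (nat_lit 0) (nat_lit 152) (XT.nd (nat_lit 78) (nat_lit 0) (nat_lit 76) (XT.lf (nat_lit 76) (nat_lit 31556625815) (nat_lit 0) (nat_lit 55143835342) (nat_lit 836) (nat_lit 190370337390) (nat_lit 120) (nat_lit 5) (nat_lit 119) (nat_lit 5) (nat_lit 130) (nat_lit 5) (nat_lit 428) (nat_lit 425) (nat_lit 167)) (XT.nd (nat_lit 78) (nat_lit 0) (nat_lit 0) (XT.lf (nat_lit 0) (nat_lit 96897284602) (nat_lit 760) (nat_lit 109374708246) (nat_lit 836) (nat_lit 77838061198) (nat_lit 120) (nat_lit 5) (nat_lit 130) (nat_lit 5) (nat_lit 131) (nat_lit 5) (nat_lit 429) (nat_lit 425) (nat_lit 166)) (XT.lf (nat_lit 76) (nat_lit 33747837563) (nat_lit 0) (nat_lit 75286953680) (nat_lit 836) (nat_lit 182394939003) (nat_lit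 121) (nat_lit 5) (nat_lit 120) (nat_lit 5) (nat_lit 131) (nat_lit 5) (nat_lit 430) (nat_lit 425) (nat_lit 165)))) (XT.nd (nat_lit 78) (nat_lit 0) (nat_lit 0) (XT.lf (nat_lit 0) (nat_lit 124633656658) (nat_lit 760) (nat_lit 112201280638) (nat_lit 836) (nat_lit 62137728818) (nat_lit 121) (nat_lit 5) (nat_lit 131) (nat_lit 5) (nat_lit 132) (nat_lit 5) (nat_lit 431) (nat_lit 425) (nat_lit 164)) (XT.nd (nat_lit 78) (nat_lit 0) (nat_lit 76) (XT.lf (nat_lit 76) (nat_lit 40619180494) (nat_lit 0) (nat_lit 102261627540) (nat_lit 836) (nat_lit 163918523631) (nat_lit 122) (nat_lit 5) (nat_lit 121) (nat_lit 5) (nat_lit 132) (nat_lit 5) (nat_lit 432) (nat_lit 425) (nat_lit 163)) (XT.lf (nat_lit 0) (nat_lit 164581132774) (nat_lit 760) (nat_lit 110586999906) (nat_lit 836) (nat_lit 39722157051) (nat_lit 122) (nat_lit 5) (nat_lit 132) (nat_lit 5) (nat_lit 133) (nat_lit 5) (nat_lit 433) (nat_lit 425) (nat_lit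 162))))) (XT.nd (nat_lit 234) (nat_lit 836) (nat_lit 0) (XT.nd (nat_lit 78) (nat_lit 684) (nat_lit 0) (XT.lf (nat_lit 76) (nat_lit 52799258059) (nat_lit 0) (nat_lit 137067935474) (nat_lit 836) (nat_lit 133393566201) (nat_lit 123) (nat_lit 5) (nat_lit 122) (nat_lit 5) (nat_lit 133) (nat_lit 5) (nat_lit 434) (nat_lit 425) (nat_lit 161)) (XT.nd (nat_lit 78) (nat_lit 760) (nat_lit 0) (XT.lf (nat_lit 0) (nat_lit 218444984051) (nat_lit 760) (nat_lit 103916615027) (nat_lit 76) (nat_lit 9586782847) (nat_lit 123) (nat_lit 5) (nat_lit 133) (nat_lit 5) (nat_lit 124) (nat_lit 5) (nat_lit 435) (nat_lit 425) (nat_lit 160)) (XT.lf (nat_lit 0) (nat_lit 70980276132) (nat_lit 760) (nat_lit 180826563327) (nat_lit 836) (nat_lit 89095787019) (nat_lit 113) (nat_lit 5) (nat_lit 123) (nat_lit 5) (nat_lit 124) (nat_lit 5) (nat_lit 436) (nat_lit 425) (nat_lit 159)))) (XT.nd (nat_lit 156) (nat_lit 456) (nat_lit 0)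 (XT.nd (nat_lit 78) (nat_lit 380) (nat_lit 0) (XT.lf (nat_lit 0) (nat_lit 258229726061) (nat_lit 760) (nat_lit 30366900122) (nat_lit 836) (nat_lit 61619965170) (nat_lit 113) (nat_lit 5) (nat_lit 123) (nat_lit 5) (nat_lit 124) (nat_lit 5) (nat_lit 437) (nat_lit 425) (nat_lit 158)) (XT.lf (nat_lit 0) (nat_lit 95923055130) (nat_lit 380) (nat_lit 234792876597) (nat_lit 456) (nat_lit 29105821290) (nat_lit 108) (nat_lit 5) (nat_lit 113) (nat_lit 5) (nat_lit 114) (nat_lit 5) (nat_lit 438) (nat_lit 425) (nat_lit 157))) (XT.nd (nat_lit 78) (nat_lit 380) (nat_lit 0) (XT.lf (nat_lit 0) (nat_lit 6954070843) (nat_lit 456) (nat_lit 74009221494) (nat_lit 76) (nat_lit 288835892607) (nat_lit 107) (nat_lit 5) (nat_lit 113) (nat_lit 5) (nat_lit 108) (nat_lit 5) (nat_lit 439) (nat_lit 425) (nat_lit 156)) (XT.lf (nat_lit 0) (nat_lit 47151831262) (nat_lit 456) (nat_lit 252422262038) (nat_lit 76) (nat_lit 80511886947)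 (nat_lit 102) (nat_lit 5) (nat_lit 108) (nat_lit 5) (nat_lit 103) (nat_lit 5) (nat_lit 440) (nat_lit 425) (nat_lit 155)))))) (XT.nd (nat_lit 546) (nat_lit 1064) (nat_lit 0) (XT.nd (nat_lit 234) (nat_lit 912) (nat_lit 0) (XT.nd (nat_lit 78) (nat_lit 380) (nat_lit 0) (XT.lf (nat_lit 0) (nat_lit 91960641857) (nat_lit 456) (nat_lit 50182558906) (nat_lit 76) (nat_lit 248613856461) (nat_lit 102) (nat_lit 5) (nat_lit 108) (nat_lit 5) (nat_lit 103) (nat_lit 5) (nat_lit 441) (nat_lit 425) (nat_lit 154)) (XT.nd (nat_lit 78) (nat_lit 0) (nat_lit 0) (XT.lf (nat_lit 0) (nat_lit 142029950758) (nat_lit 456) (nat_lit 234704230450) (nat_lit 76) (nat_lit 25076503968) (nat_lit 97) (nat_lit 5) (nat_lit 103) (nat_lit 5) (nat_lit 98) (nat_lit 5) (nat_lit 442) (nat_lit 425) (nat_lit 153)) (XT.lf (nat_lit 0) (nat_lit 197796708106) (nat_lit 456) (nat_lit 18716541265) (nat_lit 76) (nat_lit 196744046019) (nat_lit 97)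 (nat_lit 5) (nat_lit 103) (nat_lit 5) (nat_lit 98) (nat_lit 5) (nat_lit 443) (nat_lit 425) (nat_lit 152)))) (XT.nd (nat_lit 156) (nat_lit 304) (nat_lit 0) (XT.nd (nat_lit 78) (nat_lit 304) (nat_lit 0) (XT.lf (nat_lit 0) (nat_lit 214950248854) (nat_lit 304) (nat_lit 44757500203) (nat_lit 380) (nat_lit 165400689786) (nat_lit 93) (nat_lit 5) (nat_lit 97) (nat_lit 5) (nat_lit 98) (nat_lit 5) (nat_lit 444) (nat_lit 425) (nat_lit 151)) (XT.lf (nat_lit 0) (nat_lit 21995776939) (nat_lit 304) (nat_lit 305500999618) (nat_lit 380) (nat_lit 109916241200) (nat_lit 89) (nat_lit 5) (nat_lit 93) (nat_lit 5) (nat_lit 94) (nat_lit 5) (nat_lit 445) (nat_lit 425) (nat_lit 150))) (XT.nd (nat_lit 78) (nat_lit 304) (nat_lit 0) (XT.lf (nat_lit 0) (nat_lit 272295635922) (nat_lit 304) (nat_lit 130660616966) (nat_lit 380) (nat_lit 47162522868) (nat_lit 89) (nat_lit 5) (nat_lit 93) (nat_lit 5) (nat_lit 94) (nat_lit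 5) (nat_lit 446) (nat_lit 425) (nat_lit 149)) (XT.lf (nat_lit 0) (nat_lit 20130270580) (nat_lit 304) (nat_lit 390519926814) (nat_lit 76) (nat_lit 52694962237) (nat_lit 85) (nat_lit 5) (nat_lit 89) (nat_lit 5) (nat_lit 86) (nat_lit 5) (nat_lit 447) (nat_lit 425) (nat_lit 148))))) (XT.nd (nat_lit 234) (nat_lit 760) (nat_lit 0) (XT.nd (nat_lit 78) (nat_lit 304) (nat_lit 0) (XT.lf (nat_lit 0) (nat_lit 94405574355) (nat_lit 304) (nat_lit 137867181482) (nat_lit 76) (nat_lit 244661307034) (nat_lit 85) (nat_lit 5) (nat_lit 89) (nat_lit 5) (nat_lit 86) (nat_lit 5) (nat_lit 448) (nat_lit 425) (nat_lit 147)) (XT.nd (nat_lit 78) (nat_lit 0) (nat_lit 0) (XT.lf (nat_lit 0) (nat_lit 131631188658) (nat_lit 304) (nat_lit 42818560931) (nat_lit 380) (nat_lit 316649906382) (nat_lit 81) (nat_lit 5) (nat_lit 85) (nat_lit 5) (nat_lit 86) (nat_lit 5) (nat_lit 449) (nat_lit 425) (nat_lit 146)) (XT.lf (nat_lit 0)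 (nat_lit 263306521061) (nat_lit 380) (nat_lit 88941469902) (nat_lit 76) (nat_lit 153485018399) (nat_lit 81) (nat_lit 5) (nat_lit 86) (nat_lit 5) (nat_lit 82) (nat_lit 5) (nat_lit 450) (nat_lit 425) (nat_lit 145)))) (XT.nd (nat_lit 156) (nat_lit 532) (nat_lit 0) (XT.nd (nat_lit 78) (nat_lit 0) (nat_lit 0) (XT.lf (nat_lit 0) (nat_lit 200837971526) (nat_lit 228) (nat_lit 159605723090) (nat_lit 304) (nat_lit 160462457641) (nat_lit 78) (nat_lit 5) (nat_lit 81) (nat_lit 5) (nat_lit 82) (nat_lit 5) (nat_lit 451) (nat_lit 425) (nat_lit 144)) (XT.lf (nat_lit 0) (nat_lit 464634840733) (nat_lit 304) (nat_lit 29259309265) (nat_lit 76) (nat_lit 42833946613) (nat_lit 78) (nat_lit 5) (nat_lit 82) (nat_lit 5) (nat_lit 79) (nat_lit 5) (nat_lit 452) (nat_lit 425) (nat_lit 143))) (XT.nd (nat_lit 78) (nat_lit 228) (nat_lit 0) (XT.lf (nat_lit 0) (nat_lit 27174585729) (nat_lit 304) (nat_lit 270912315079) (nat_lit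 76) (nat_lit 254880955998) (nat_lit 74) (nat_lit 5) (nat_lit 78) (nat_lit 5) (nat_lit 75) (nat_lit 5) (nat_lit 453) (nat_lit 425) (nat_lit 142)) (XT.lf (nat_lit 0) (nat_lit 40048928501) (nat_lit 228) (nat_lit 90062982783) (nat_lit 304) (nat_lit 439792156004) (nat_lit 71) (nat_lit 5) (nat_lit 74) (nat_lit 5) (nat_lit 75) (nat_lit 5) (nat_lit 454) (nat_lit 425) (nat_lit 141))))))) (XT.nd (nat_lit 51012) (nat_lit 0) (nat_lit 3572) (XT.nd (nat_lit 468) (nat_lit 532) (nat_lit 0) (XT.nd (nat_lit 234) (nat_lit 456) (nat_lit 0) (XT.nd (nat_lit 78) (nat_lit 228) (nat_lit 0) (XT.lf (nat_lit 0) (nat_lit 244863419061) (nat_lit 304) (nat_lit 213573326107) (nat_lit 76) (nat_lit 128916977336) (nat_lit 71) (nat_lit 5) (nat_lit 75) (nat_lit 5) (nat_lit 72) (nat_lit 5) (nat_lit 455) (nat_lit 425) (nat_lit 140)) (XT.nd (nat_lit 78) (nat_lit 0) (nat_lit 0) (XT.lf (nat_lit 0) (nat_lit 120916177937) (nat_lit 228)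 (nat_lit 247800586629) (nat_lit 304) (nat_lit 236790882805) (nat_lit 68) (nat_lit 5) (nat_lit 71) (nat_lit 5) (nat_lit 72) (nat_lit 5) (nat_lit 456) (nat_lit 425) (nat_lit 139)) (XT.lf (nat_lit 0) (nat_lit 479544911526) (nat_lit 228) (nat_lit 22834813550) (nat_lit 304) (nat_lit 122008696026) (nat_lit 68) (nat_lit 5) (nat_lit 71) (nat_lit 5) (nat_lit 72) (nat_lit 5) (nat_lit 457) (nat_lit 425) (nat_lit 138)))) (XT.nd (nat_lit 78) (nat_lit 228) (nat_lit 0) (XT.lf (nat_lit 0) (nat_lit 5365271220) (nat_lit 228) (nat_lit 428508685576) (nat_lit 76) (nat_lit 210000184600) (nat_lit 65) (nat_lit 5) (nat_lit 68) (nat_lit 5) (nat_lit 66) (nat_lit 5) (nat_lit 458) (nat_lit 425) (nat_lit 137)) (XT.nd (nat_lit 78) (nat_lit 228) (nat_lit 0) (XT.lf (nat_lit 0) (nat_lit 137875174817) (nat_lit 228) (nat_lit 68012714548) (nat_lit 76) (nat_lit 458202874707) (nat_lit 65) (nat_lit 5) (nat_lit 68) (nat_lit 5) (nat_lit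 66) (nat_lit 5) (nat_lit 459) (nat_lit 425) (nat_lit 136)) (XT.lf (nat_lit 0) (nat_lit 282623840515) (nat_lit 304) (nat_lit 364898074822) (nat_lit 76) (nat_lit 37515639204) (nat_lit 62) (nat_lit 5) (nat_lit 66) (nat_lit 5) (nat_lit 63) (nat_lit 5) (nat_lit 460) (nat_lit 425) (nat_lit 135))))) (XT.nd (nat_lit 234) (nat_lit 152) (nat_lit 0) (XT.nd (nat_lit 78) (nat_lit 228) (nat_lit 0) (XT.lf (nat_lit 0) (nat_lit 20343433864) (nat_lit 152) (nat_lit 419130027874) (nat_lit 228) (nat_lit 267315046689) (nat_lit 60) (nat_lit 5) (nat_lit 62) (nat_lit 5) (nat_lit 63) (nat_lit 5) (nat_lit 461) (nat_lit 425) (nat_lit 134)) (XT.nd (nat_lit 78) (nat_lit 228) (nat_lit 0) (XT.lf (nat_lit 0) (nat_lit 437515427841) (nat_lit 152) (nat_lit 172829844322) (nat_lit 228) (nat_lit 118972752442) (nat_lit 60) (nat_lit 5) (nat_lit 62) (nat_lit 5) (nat_lit 63) (nat_lit 5) (nat_lit 462) (nat_lit 425) (nat_lit 133)) (XT.lf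 (nat_lit 0) (nat_lit 38957963244) (nat_lit 228) (nat_lit 628196509237) (nat_lit 76) (nat_lit 85623391503) (nat_lit 57) (nat_lit 5) (nat_lit 60) (nat_lit 5) (nat_lit 58) (nat_lit 5) (nat_lit 463) (nat_lit 425) (nat_lit 132)))) (XT.nd (nat_lit 50154) (nat_lit 0) (nat_lit 4788) (XT.nd (nat_lit 78) (nat_lit 152) (nat_lit 0) (XT.lf (nat_lit 0) (nat_lit 208643041271) (nat_lit 228) (nat_lit 210113062714) (nat_lit 76) (nat_lit 358164268141) (nat_lit 57) (nat_lit 5) (nat_lit 60) (nat_lit 5) (nat_lit 58) (nat_lit 5) (nat_lit 464) (nat_lit 425) (nat_lit 131)) (XT.lf (nat_lit 0) (nat_lit 236442156184) (nat_lit 152) (nat_lit 154061725957) (nat_lit 228) (nat_lit 411581548091) (nat_lit 55) (nat_lit 5) (nat_lit 57) (nat_lit 5) (nat_lit 58) (nat_lit 5) (nat_lit 465) (nat_lit 425) (nat_lit 130))) (XT.nd (nat_lit 78) (nat_lit 0) (nat_lit 0) (XT.lf (nat_lit 0) (nat_lit 37848248427) (nat_lit 836) (nat_lit 48602206092)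 (nat_lit 836) (nat_lit 48602206092) (nat_lit 118) (nat_lit 3) (nat_lit 129) (nat_lit 3) (nat_lit 129) (nat_lit 5) (nat_lit 426) (nat_lit 426) (nat_lit 168)) (XT.lf (nat_lit 76) (nat_lit 35150536567) (nat_lit 0) (nat_lit 42988046050) (nat_lit 836) (nat_lit 198691887493) (nat_lit 119) (nat_lit 5) (nat_lit 118) (nat_lit 3) (nat_lit 129) (nat_lit 5) (nat_lit 427) (nat_lit 426) (nat_lit 167)))))) (XT.nd (nat_lit 546) (nat_lit 1292) (nat_lit 0) (XT.nd (nat_lit 234) (nat_lit 0) (nat_lit 76) (XT.nd (nat_lit 78) (nat_lit 0) (nat_lit 0) (XT.lf (nat_lit 0) (nat_lit 83834462488) (nat_lit 760) (nat_lit 107797191591) (nat_lit 836) (nat_lit 92103637900) (nat_lit 119) (nat_lit 5) (nat_lit 129) (nat_lit 5) (nat_lit 130) (nat_lit 5) (nat_lit 428) (nat_lit 426) (nat_lit 166)) (XT.nd (nat_lit 78) (nat_lit 0) (nat_lit 76) (XT.lf (nat_lit 76) (nat_lit 33135475491) (nat_lit 0) (nat_lit 57901667156) (nat_lit 836)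 (nat_lit 199887112008) (nat_lit 120) (nat_lit 5) (nat_lit 119) (nat_lit 5) (nat_lit 130) (nat_lit 5) (nat_lit 429) (nat_lit 426) (nat_lit 165)) (XT.lf (nat_lit 0) (nat_lit 101743718774) (nat_lit 760) (nat_lit 114842384423) (nat_lit 836) (nat_lit 81729374199) (nat_lit 120) (nat_lit 5) (nat_lit 130) (nat_lit 5) (nat_lit 131) (nat_lit 5) (nat_lit 430) (nat_lit 426) (nat_lit 164)))) (XT.nd (nat_lit 156) (nat_lit 0) (nat_lit 76) (XT.nd (nat_lit 78) (nat_lit 0) (nat_lit 76) (XT.lf (nat_lit 76) (nat_lit 35436271592) (nat_lit 0) (nat_lit 79051770667) (nat_lit 836) (nat_lit 191513098113) (nat_lit 121) (nat_lit 5) (nat_lit 120) (nat_lit 5) (nat_lit 131) (nat_lit 5) (nat_lit 431) (nat_lit 426) (nat_lit 163)) (XT.lf (nat_lit 0) (nat_lit 130866771992) (nat_lit 760) (nat_lit 117810272418) (nat_lit 836) (nat_lit 65244182609) (nat_lit 121) (nat_lit 5) (nat_lit 131) (nat_lit 5) (nat_lit 132) (nat_lit 5) (nat_lit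 432) (nat_lit 426) (nat_lit 162))) (XT.nd (nat_lit 78) (nat_lit 0) (nat_lit 76) (XT.lf (nat_lit 76) (nat_lit 42651194477) (nat_lit 0) (nat_lit 107375034718) (nat_lit 836) (nat_lit 172112999279) (nat_lit 122) (nat_lit 5) (nat_lit 121) (nat_lit 5) (nat_lit 132) (nat_lit 5) (nat_lit 433) (nat_lit 426) (nat_lit 161)) (XT.lf (nat_lit 0) (nat_lit 172811499576) (nat_lit 760) (nat_lit 116115273882) (nat_lit 836) (nat_lit 41707964548) (nat_lit 122) (nat_lit 5) (nat_lit 132) (nat_lit 5) (nat_lit 133) (nat_lit 5) (nat_lit 434) (nat_lit 426) (nat_lit 160))))) (XT.nd (nat_lit 234) (nat_lit 836) (nat_lit 0) (XT.nd (nat_lit 78) (nat_lit 684) (nat_lit 0) (XT.lf (nat_lit 76) (nat_lit 55440279626) (nat_lit 0) (nat_lit 143921537887) (nat_lit 836) (nat_lit 140061916324) (nat_lit 123) (nat_lit 5) (nat_lit 122) (nat_lit 5) (nat_lit 133) (nat_lit 5) (nat_lit 435) (nat_lit 426) (nat_lit 159)) (XT.nd (nat_lit 78)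 (nat_lit 760) (nat_lit 0) (XT.lf (nat_lit 0) (nat_lit 229368434294) (nat_lit 760) (nat_lit 109111373626) (nat_lit 76) (nat_lit 10065932411) (nat_lit 123) (nat_lit 5) (nat_lit 133) (nat_lit 5) (nat_lit 124) (nat_lit 5) (nat_lit 436) (nat_lit 426) (nat_lit 158)) (XT.lf (nat_lit 0) (nat_lit 74530344798) (nat_lit 760) (nat_lit 189867996952) (nat_lit 836) (nat_lit 93549357430) (nat_lit 113) (nat_lit 5) (nat_lit 123) (nat_lit 5) (nat_lit 124) (nat_lit 5) (nat_lit 437) (nat_lit 426) (nat_lit 157)))) (XT.nd (nat_lit 156) (nat_lit 456) (nat_lit 0) (XT.nd (nat_lit 78) (nat_lit 380) (nat_lit 0) (XT.lf (nat_lit 0) (nat_lit 271142216992) (nat_lit 760) (nat_lit 31885345565) (nat_lit 836) (nat_lit 64699802533) (nat_lit 113) (nat_lit 5) (nat_lit 123) (nat_lit 5) (nat_lit 124) (nat_lit 5) (nat_lit 438) (nat_lit 426) (nat_lit 156)) (XT.lf (nat_lit 0) (nat_lit 100720252784) (nat_lit 380) (nat_lit 246532542791)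 (nat_lit 456) (nat_lit 30559991178) (nat_lit 108) (nat_lit 5) (nat_lit 113) (nat_lit 5) (nat_lit 114) (nat_lit 5) (nat_lit 439) (nat_lit 426) (nat_lit 155))) (XT.nd (nat_lit 78) (nat_lit 380) (nat_lit 0) (XT.lf (nat_lit 0) (nat_lit 7302807996) (nat_lit 456) (nat_lit 77708652752) (nat_lit 76) (nat_lit 303277631262) (nat_lit 107) (nat_lit 5) (nat_lit 113) (nat_lit 5) (nat_lit 108) (nat_lit 5) (nat_lit 440) (nat_lit 426) (nat_lit 154)) (XT.lf (nat_lit 0) (nat_lit 49510423238) (nat_lit 456) (nat_lit 265042311650) (nat_lit 76) (nat_lit 84537493875) (nat_lit 102) (nat_lit 5) (nat_lit 108) (nat_lit 5) (nat_lit 103) (nat_lit 5) (nat_lit 441) (nat_lit 426) (nat_lit 153))))))))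
noncomputable def xc247 : XT := (XT.nd (nat_lit 52182) (nat_lit 0) (nat_lit 1064) (XT.nd (nat_lit 1014) (nat_lit 1292) (nat_lit 0) (XT.nd (nat_lit 468) (nat_lit 1140) (nat_lit 0) (XT.nd (nat_lit 234) (nat_lit 608) (nat_lit 0) (XT.nd (nat_lit 78) (nat_lit 380) (nat_lit 0) (XT.lf (nat_lit 0) (nat_lit 96559626725) (nat_lit 456) (nat_lit 52690674004) (nat_lit 76) (nat_lit 261044561265) (nat_lit 102) (nat_lit 5) (nat_lit 108) (nat_lit 5) (nat_lit 103) (nat_lit 5) (nat_lit 442) (nat_lit 426) (nat_lit 152)) (XT.nd (nat_lit 78) (nat_lit 0) (nat_lit 0) (XT.lf (nat_lit 0) (nat_lit 149132372407) (nat_lit 456) (nat_lit 246438400030) (nat_lit 76) (nat_lit 26330400361) (nat_lit 97) (nat_lit 5) (nat_lit 103) (nat_lit 5) (nat_lit 98) (nat_lit 5) (nat_lit 443) (nat_lit 426) (nat_lit 151)) (XT.lf (nat_lit 0) (nat_lit 207687423617) (nat_lit 456) (nat_lit 19651376002) (nat_lit 76) (nat_lit 206581316124) (nat_lit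 97) (nat_lit 5) (nat_lit 103) (nat_lit 5) (nat_lit 98) (nat_lit 5) (nat_lit 444) (nat_lit 426) (nat_lit 150)))) (XT.nd (nat_lit 78) (nat_lit 304) (nat_lit 0) (XT.lf (nat_lit 0) (nat_lit 225698737618) (nat_lit 304) (nat_lit 46995252331) (nat_lit 380) (nat_lit 173669827772) (nat_lit 93) (nat_lit 5) (nat_lit 97) (nat_lit 5) (nat_lit 98) (nat_lit 5) (nat_lit 445) (nat_lit 426) (nat_lit 149)) (XT.nd (nat_lit 78) (nat_lit 0) (nat_lit 0) (XT.lf (nat_lit 0) (nat_lit 23096566841) (nat_lit 304) (nat_lit 320775878799) (nat_lit 380) (nat_lit 115411181119) (nat_lit 89) (nat_lit 5) (nat_lit 93) (nat_lit 5) (nat_lit 94) (nat_lit 5) (nat_lit 446) (nat_lit 426) (nat_lit 148)) (XT.lf (nat_lit 0) (nat_lit 285911371104) (nat_lit 304) (nat_lit 137193485148) (nat_lit 380) (nat_lit 49519818400) (nat_lit 89) (nat_lit 5) (nat_lit 93) (nat_lit 5) (nat_lit 94) (nat_lit 5) (nat_lit 447) (nat_lit 426) (nat_lit 147)))))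 (XT.nd (nat_lit 234) (nat_lit 532) (nat_lit 0) (XT.nd (nat_lit 78) (nat_lit 304) (nat_lit 0) (XT.lf (nat_lit 0) (nat_lit 21137567774) (nat_lit 304) (nat_lit 410044922163) (nat_lit 76) (nat_lit 55329888169) (nat_lit 85) (nat_lit 5) (nat_lit 89) (nat_lit 5) (nat_lit 86) (nat_lit 5) (nat_lit 448) (nat_lit 426) (nat_lit 146)) (XT.nd (nat_lit 78) (nat_lit 304) (nat_lit 0) (XT.lf (nat_lit 0) (nat_lit 99126599421) (nat_lit 304) (nat_lit 144759587231) (nat_lit 76) (nat_lit 256894541739) (nat_lit 85) (nat_lit 5) (nat_lit 89) (nat_lit 5) (nat_lit 86) (nat_lit 5) (nat_lit 449) (nat_lit 426) (nat_lit 145)) (XT.lf (nat_lit 0) (nat_lit 138213686040) (nat_lit 304) (nat_lit 44959276480) (nat_lit 380) (nat_lit 332481639684) (nat_lit 81) (nat_lit 5) (nat_lit 85) (nat_lit 5) (nat_lit 86) (nat_lit 5) (nat_lit 450) (nat_lit 426) (nat_lit 144)))) (XT.nd (nat_lit 156) (nat_lit 304) (nat_lit 0) (XT.nd (nat_lit 78)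 (nat_lit 228) (nat_lit 0) (XT.lf (nat_lit 0) (nat_lit 276472541180) (nat_lit 380) (nat_lit 93387618448) (nat_lit 76) (nat_lit 161159465220) (nat_lit 81) (nat_lit 5) (nat_lit 86) (nat_lit 5) (nat_lit 82) (nat_lit 5) (nat_lit 451) (nat_lit 426) (nat_lit 143)) (XT.lf (nat_lit 0) (nat_lit 210880780133) (nat_lit 228) (nat_lit 167585774438) (nat_lit 304) (nat_lit 168484871273) (nat_lit 78) (nat_lit 5) (nat_lit 81) (nat_lit 5) (nat_lit 82) (nat_lit 5) (nat_lit 452) (nat_lit 426) (nat_lit 142))) (XT.nd (nat_lit 78) (nat_lit 304) (nat_lit 0) (XT.lf (nat_lit 0) (nat_lit 487867229331) (nat_lit 304) (nat_lit 30721379118) (nat_lit 76) (nat_lit 44975860411) (nat_lit 78) (nat_lit 5) (nat_lit 82) (nat_lit 5) (nat_lit 79) (nat_lit 5) (nat_lit 453) (nat_lit 426) (nat_lit 141)) (XT.lf (nat_lit 0) (nat_lit 28533955099) (nat_lit 304) (nat_lit 284457028276) (nat_lit 76) (nat_lit 267625234040) (nat_lit 74) (nat_lit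 5) (nat_lit 78) (nat_lit 5) (nat_lit 75) (nat_lit 5) (nat_lit 454) (nat_lit 426) (nat_lit 140)))))) (XT.nd (nat_lit 546) (nat_lit 380) (nat_lit 0) (XT.nd (nat_lit 234) (nat_lit 456) (nat_lit 0) (XT.nd (nat_lit 78) (nat_lit 228) (nat_lit 0) (XT.lf (nat_lit 0) (nat_lit 42052262926) (nat_lit 228) (nat_lit 94565867389) (nat_lit 304) (nat_lit 461781108946) (nat_lit 71) (nat_lit 5) (nat_lit 74) (nat_lit 5) (nat_lit 75) (nat_lit 5) (nat_lit 455) (nat_lit 426) (nat_lit 139)) (XT.nd (nat_lit 78) (nat_lit 228) (nat_lit 0) (XT.lf (nat_lit 0) (nat_lit 257107187726) (nat_lit 304) (nat_lit 224251120735) (nat_lit 76) (nat_lit 135363070075) (nat_lit 71) (nat_lit 5) (nat_lit 75) (nat_lit 5) (nat_lit 72) (nat_lit 5) (nat_lit 456) (nat_lit 426) (nat_lit 138)) (XT.lf (nat_lit 0) (nat_lit 126962844452) (nat_lit 228) (nat_lit 260190340982) (nat_lit 304) (nat_lit 248629814976) (nat_lit 68) (nat_lit 5) (nat_lit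 71) (nat_lit 5) (nat_lit 72) (nat_lit 5) (nat_lit 457) (nat_lit 426) (nat_lit 137)))) (XT.nd (nat_lit 156) (nat_lit 228) (nat_lit 0) (XT.nd (nat_lit 78) (nat_lit 228) (nat_lit 0) (XT.lf (nat_lit 0) (nat_lit 503522973881) (nat_lit 228) (nat_lit 23976292342) (nat_lit 304) (nat_lit 128108548000) (nat_lit 68) (nat_lit 5) (nat_lit 71) (nat_lit 5) (nat_lit 72) (nat_lit 5) (nat_lit 458) (nat_lit 426) (nat_lit 136)) (XT.lf (nat_lit 0) (nat_lit 5634089171) (nat_lit 228) (nat_lit 449933274289) (nat_lit 76) (nat_lit 220500457116) (nat_lit 65) (nat_lit 5) (nat_lit 68) (nat_lit 5) (nat_lit 66) (nat_lit 5) (nat_lit 459) (nat_lit 426) (nat_lit 135))) (XT.nd (nat_lit 78) (nat_lit 228) (nat_lit 0) (XT.lf (nat_lit 0) (nat_lit 144769461548) (nat_lit 228) (nat_lit 71412544974) (nat_lit 76) (nat_lit 481113269191) (nat_lit 65) (nat_lit 5) (nat_lit 68) (nat_lit 5) (nat_lit 66) (nat_lit 5) (nat_lit 460) (nat_lit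 426) (nat_lit 134)) (XT.lf (nat_lit 0) (nat_lit 296755552086) (nat_lit 304) (nat_lit 383142164661) (nat_lit 76) (nat_lit 39391689389) (nat_lit 62) (nat_lit 5) (nat_lit 66) (nat_lit 5) (nat_lit 63) (nat_lit 5) (nat_lit 461) (nat_lit 426) (nat_lit 133))))) (XT.nd (nat_lit 234) (nat_lit 0) (nat_lit 0) (XT.nd (nat_lit 78) (nat_lit 228) (nat_lit 0) (XT.lf (nat_lit 0) (nat_lit 21361406332) (nat_lit 152) (nat_lit 440086235800) (nat_lit 228) (nat_lit 280680266204) (nat_lit 60) (nat_lit 5) (nat_lit 62) (nat_lit 5) (nat_lit 63) (nat_lit 5) (nat_lit 462) (nat_lit 426) (nat_lit 132)) (XT.nd (nat_lit 78) (nat_lit 228) (nat_lit 0) (XT.lf (nat_lit 0) (nat_lit 459391961876) (nat_lit 152) (nat_lit 181471057045) (nat_lit 228) (nat_lit 124920882617) (nat_lit 60) (nat_lit 5) (nat_lit 62) (nat_lit 5) (nat_lit 63) (nat_lit 5) (nat_lit 463) (nat_lit 426) (nat_lit 131)) (XT.lf (nat_lit 0) (nat_lit 40906345663) (nat_lit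 228) (nat_lit 659605548605) (nat_lit 76) (nat_lit 89904838574) (nat_lit 57) (nat_lit 5) (nat_lit 60) (nat_lit 5) (nat_lit 58) (nat_lit 5) (nat_lit 464) (nat_lit 426) (nat_lit 130)))) (XT.nd (nat_lit 50232) (nat_lit 0) (nat_lit 4636) (XT.nd (nat_lit 50154) (nat_lit 0) (nat_lit 4636) (XT.lf (nat_lit 0) (nat_lit 219075654532) (nat_lit 228) (nat_lit 220617967188) (nat_lit 76) (nat_lit 376072745830) (nat_lit 57) (nat_lit 5) (nat_lit 60) (nat_lit 5) (nat_lit 58) (nat_lit 5) (nat_lit 465) (nat_lit 426) (nat_lit 129)) (XT.lf (nat_lit 0) (nat_lit 39741522145) (nat_lit 836) (nat_lit 51031863981) (nat_lit 836) (nat_lit 51031863981) (nat_lit 118) (nat_lit 3) (nat_lit 129) (nat_lit 3) (nat_lit 129) (nat_lit 5) (nat_lit 427) (nat_lit 427) (nat_lit 166))) (XT.nd (nat_lit 78) (nat_lit 0) (nat_lit 76) (XT.lf (nat_lit 76) (nat_lit 36908953633) (nat_lit 0) (nat_lit 45138212578) (nat_lit 836) (nat_lit 208624743783)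 (nat_lit 119) (nat_lit 5) (nat_lit 118) (nat_lit 3) (nat_lit 129) (nat_lit 5) (nat_lit 428) (nat_lit 427) (nat_lit 165)) (XT.lf (nat_lit 0) (nat_lit 88027749928) (nat_lit 760) (nat_lit 113186112322) (nat_lit 836) (nat_lit 96708115257) (nat_lit 119) (nat_lit 5) (nat_lit 129) (nat_lit 5) (nat_lit 130) (nat_lit 5) (nat_lit 429) (nat_lit 427) (nat_lit 164))))))) (XT.nd (nat_lit 1092) (nat_lit 2356) (nat_lit 0) (XT.nd (nat_lit 546) (nat_lit 1292) (nat_lit 0) (XT.nd (nat_lit 234) (nat_lit 0) (nat_lit 152) (XT.nd (nat_lit 78) (nat_lit 0) (nat_lit 76) (XT.lf (nat_lit 76) (nat_lit 34793172971) (nat_lit 0) (nat_lit 60797331055) (nat_lit 836) (nat_lit 209879887336) (nat_lit 120) (nat_lit 5) (nat_lit 119) (nat_lit 5) (nat_lit 130) (nat_lit 5) (nat_lit 430) (nat_lit 427) (nat_lit 163)) (XT.nd (nat_lit 78) (nat_lit 0) (nat_lit 0) (XT.lf (nat_lit 0) (nat_lit 106832328696) (nat_lit 760) (nat_lit 120583542887)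 (nat_lit 836) (nat_lit 85815307709) (nat_lit 120) (nat_lit 5) (nat_lit 130) (nat_lit 5) (nat_lit 131) (nat_lit 5) (nat_lit 431) (nat_lit 427) (nat_lit 162)) (XT.lf (nat_lit 76) (nat_lit 37209030433) (nat_lit 0) (nat_lit 83004784872) (nat_lit 836) (nat_lit 201087312801) (nat_lit 121) (nat_lit 5) (nat_lit 120) (nat_lit 5) (nat_lit 131) (nat_lit 5) (nat_lit 432) (nat_lit 427) (nat_lit 161)))) (XT.nd (nat_lit 156) (nat_lit 0) (nat_lit 76) (XT.nd (nat_lit 78) (nat_lit 0) (nat_lit 0) (XT.lf (nat_lit 0) (nat_lit 137411409912) (nat_lit 760) (nat_lit 123699813475) (nat_lit 836) (nat_lit 68505999313) (nat_lit 121) (nat_lit 5) (nat_lit 131) (nat_lit 5) (nat_lit 132) (nat_lit 5) (nat_lit 433) (nat_lit 427) (nat_lit 160)) (XT.lf (nat_lit 76) (nat_lit 44784711078) (nat_lit 0) (nat_lit 112744081964) (nat_lit 836) (nat_lit 180717333565) (nat_lit 122) (nat_lit 5) (nat_lit 121) (nat_lit 5) (nat_lit 132) (nat_lit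 5) (nat_lit 434) (nat_lit 427) (nat_lit 159))) (XT.nd (nat_lit 78) (nat_lit 0) (nat_lit 0) (XT.lf (nat_lit 0) (nat_lit 181453262911) (nat_lit 760) (nat_lit 121920061595) (nat_lit 836) (nat_lit 43793090345) (nat_lit 122) (nat_lit 5) (nat_lit 132) (nat_lit 5) (nat_lit 133) (nat_lit 5) (nat_lit 435) (nat_lit 427) (nat_lit 158)) (XT.lf (nat_lit 76) (nat_lit 58213253847) (nat_lit 0) (nat_lit 151117801302) (nat_lit 836) (nat_lit 147063807434) (nat_lit 123) (nat_lit 5) (nat_lit 122) (nat_lit 5) (nat_lit 133) (nat_lit 5) (nat_lit 436) (nat_lit 427) (nat_lit 157))))) (XT.nd (nat_lit 234) (nat_lit 836) (nat_lit 0) (XT.nd (nat_lit 78) (nat_lit 760) (nat_lit 0) (XT.lf (nat_lit 0) (nat_lit 240837945388) (nat_lit 760) (nat_lit 114565969834) (nat_lit 76) (nat_lit 10569057078) (nat_lit 123) (nat_lit 5) (nat_lit 133) (nat_lit 5) (nat_lit 124) (nat_lit 5) (nat_lit 437) (nat_lit 427) (nat_lit 156)) (XT.nd (nat_lit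 78) (nat_lit 0) (nat_lit 0) (XT.lf (nat_lit 0) (nat_lit 78257818826) (nat_lit 760) (nat_lit 199361492453) (nat_lit 836) (nat_lit 98225719686) (nat_lit 113) (nat_lit 5) (nat_lit 123) (nat_lit 5) (nat_lit 124) (nat_lit 5) (nat_lit 438) (nat_lit 427) (nat_lit 155)) (XT.lf (nat_lit 0) (nat_lit 284700239068) (nat_lit 760) (nat_lit 33479703942) (nat_lit 836) (nat_lit 67933739693) (nat_lit 113) (nat_lit 5) (nat_lit 123) (nat_lit 5) (nat_lit 124) (nat_lit 5) (nat_lit 439) (nat_lit 427) (nat_lit 154)))) (XT.nd (nat_lit 156) (nat_lit 380) (nat_lit 0) (XT.nd (nat_lit 78) (nat_lit 76) (nat_lit 0) (XT.lf (nat_lit 0) (nat_lit 105757213177) (nat_lit 380) (nat_lit 258859190216) (nat_lit 456) (nat_lit 32086973797) (nat_lit 108) (nat_lit 5) (nat_lit 113) (nat_lit 5) (nat_lit 114) (nat_lit 5) (nat_lit 440) (nat_lit 427) (nat_lit 153)) (XT.lf (nat_lit 0) (nat_lit 7668885912) (nat_lit 456) (nat_lit 81593151316)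 (nat_lit 76) (nat_lit 318441462054) (nat_lit 107) (nat_lit 5) (nat_lit 113) (nat_lit 5) (nat_lit 108) (nat_lit 5) (nat_lit 441) (nat_lit 427) (nat_lit 152))) (XT.nd (nat_lit 78) (nat_lit 0) (nat_lit 0) (XT.lf (nat_lit 0) (nat_lit 51986851805) (nat_lit 456) (nat_lit 278293462616) (nat_lit 76) (nat_lit 88764379979) (nat_lit 102) (nat_lit 5) (nat_lit 108) (nat_lit 5) (nat_lit 103) (nat_lit 5) (nat_lit 442) (nat_lit 427) (nat_lit 151)) (XT.lf (nat_lit 0) (nat_lit 101388472256) (nat_lit 456) (nat_lit 55324289021) (nat_lit 76) (nat_lit 274096800195) (nat_lit 102) (nat_lit 5) (nat_lit 108) (nat_lit 5) (nat_lit 103) (nat_lit 5) (nat_lit 443) (nat_lit 427) (nat_lit 150)))))) (XT.nd (nat_lit 546) (nat_lit 1064) (nat_lit 0) (XT.nd (nat_lit 234) (nat_lit 608) (nat_lit 0) (XT.nd (nat_lit 78) (nat_lit 304) (nat_lit 0) (XT.lf (nat_lit 0) (nat_lit 156589829223) (nat_lit 456) (nat_lit 258759374958) (nat_lit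 76) (nat_lit 27646984954) (nat_lit 97) (nat_lit 5) (nat_lit 103) (nat_lit 5) (nat_lit 98) (nat_lit 5) (nat_lit 444) (nat_lit 427) (nat_lit 149)) (XT.nd (nat_lit 78) (nat_lit 304) (nat_lit 0) (XT.lf (nat_lit 0) (nat_lit 218072593080) (nat_lit 456) (nat_lit 20633044733) (nat_lit 76) (nat_lit 216910443431) (nat_lit 97) (nat_lit 5) (nat_lit 103) (nat_lit 5) (nat_lit 98) (nat_lit 5) (nat_lit 445) (nat_lit 427) (nat_lit 148)) (XT.lf (nat_lit 0) (nat_lit 236984560051) (nat_lit 304) (nat_lit 49344903490) (nat_lit 380) (nat_lit 182352506007) (nat_lit 93) (nat_lit 5) (nat_lit 97) (nat_lit 5) (nat_lit 98) (nat_lit 5) (nat_lit 446) (nat_lit 427) (nat_lit 147)))) (XT.nd (nat_lit 156) (nat_lit 304) (nat_lit 0) (XT.nd (nat_lit 78) (nat_lit 0) (nat_lit 0) (XT.lf (nat_lit 0) (nat_lit 24252303170) (nat_lit 304) (nat_lit 336814517818) (nat_lit 380) (nat_lit 121180949117) (nat_lit 89) (nat_lit 5) (nat_lit 93)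 (nat_lit 5) (nat_lit 94) (nat_lit 5) (nat_lit 447) (nat_lit 427) (nat_lit 146)) (XT.lf (nat_lit 0) (nat_lit 300207804408) (nat_lit 304) (nat_lit 144053011862) (nat_lit 380) (nat_lit 51995055932) (nat_lit 89) (nat_lit 5) (nat_lit 93) (nat_lit 5) (nat_lit 94) (nat_lit 5) (nat_lit 448) (nat_lit 427) (nat_lit 145))) (XT.nd (nat_lit 78) (nat_lit 0) (nat_lit 0) (XT.lf (nat_lit 0) (nat_lit 22195156971) (nat_lit 304) (nat_lit 430546260343) (nat_lit 76) (nat_lit 58096543866) (nat_lit 85) (nat_lit 5) (nat_lit 89) (nat_lit 5) (nat_lit 86) (nat_lit 5) (nat_lit 449) (nat_lit 427) (nat_lit 144)) (XT.lf (nat_lit 0) (nat_lit 104083606352) (nat_lit 304) (nat_lit 151996701899) (nat_lit 76) (nat_lit 269739422434) (nat_lit 85) (nat_lit 5) (nat_lit 89) (nat_lit 5) (nat_lit 86) (nat_lit 5) (nat_lit 450) (nat_lit 427) (nat_lit 143))))) (XT.nd (nat_lit 234) (nat_lit 532) (nat_lit 0) (XT.nd (nat_lit 78) (nat_lit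 228) (nat_lit 0) (XT.lf (nat_lit 0) (nat_lit 145125221090) (nat_lit 304) (nat_lit 47207047563) (nat_lit 380) (nat_lit 349105030497) (nat_lit 81) (nat_lit 5) (nat_lit 85) (nat_lit 5) (nat_lit 86) (nat_lit 5) (nat_lit 451) (nat_lit 427) (nat_lit 142)) (XT.nd (nat_lit 78) (nat_lit 228) (nat_lit 0) (XT.lf (nat_lit 0) (nat_lit 290296797778) (nat_lit 380) (nat_lit 98056160415) (nat_lit 76) (nat_lit 169217616169) (nat_lit 81) (nat_lit 5) (nat_lit 86) (nat_lit 5) (nat_lit 82) (nat_lit 5) (nat_lit 452) (nat_lit 427) (nat_lit 141)) (XT.lf (nat_lit 0) (nat_lit 221425644563) (nat_lit 228) (nat_lit 175964850183) (nat_lit 304) (nat_lit 176908471526) (nat_lit 78) (nat_lit 5) (nat_lit 81) (nat_lit 5) (nat_lit 82) (nat_lit 5) (nat_lit 453) (nat_lit 427) (nat_lit 140)))) (XT.nd (nat_lit 156) (nat_lit 228) (nat_lit 0) (XT.nd (nat_lit 78) (nat_lit 304) (nat_lit 0) (XT.lf (nat_lit 0) (nat_lit 512261177248) (nat_lit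 304) (nat_lit 32256635730) (nat_lit 76) (nat_lit 47224849774) (nat_lit 78) (nat_lit 5) (nat_lit 82) (nat_lit 5) (nat_lit 79) (nat_lit 5) (nat_lit 454) (nat_lit 427) (nat_lit 139)) (XT.lf (nat_lit 0) (nat_lit 29961233428) (nat_lit 304) (nat_lit 298679061043) (nat_lit 76) (nat_lit 281006704577) (nat_lit 74) (nat_lit 5) (nat_lit 78) (nat_lit 5) (nat_lit 75) (nat_lit 5) (nat_lit 455) (nat_lit 427) (nat_lit 138))) (XT.nd (nat_lit 78) (nat_lit 0) (nat_lit 0) (XT.lf (nat_lit 0) (nat_lit 44155681515) (nat_lit 228) (nat_lit 99293920820) (nat_lit 304) (nat_lit 484869570418) (nat_lit 71) (nat_lit 5) (nat_lit 74) (nat_lit 5) (nat_lit 75) (nat_lit 5) (nat_lit 456) (nat_lit 427) (nat_lit 137)) (XT.lf (nat_lit 0) (nat_lit 269963089254) (nat_lit 304) (nat_lit 235462886135) (nat_lit 76) (nat_lit 142131444778) (nat_lit 71) (nat_lit 5) (nat_lit 75) (nat_lit 5) (nat_lit 72) (nat_lit 5) (nat_lit 457) (nat_lit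 427) (nat_lit 136))))))))
noncomputable def xc248 : XT := (XT.nd (nat_lit 52338) (nat_lit 0) (nat_lit 0) (XT.nd (nat_lit 51246) (nat_lit 0) (nat_lit 2508) (XT.nd (nat_lit 468) (nat_lit 0) (nat_lit 0) (XT.nd (nat_lit 234) (nat_lit 380) (nat_lit 0) (XT.nd (nat_lit 78) (nat_lit 228) (nat_lit 0) (XT.lf (nat_lit 0) (nat_lit 133311764559) (nat_lit 228) (nat_lit 273199608617) (nat_lit 304) (nat_lit 261060750652) (nat_lit 68) (nat_lit 5) (nat_lit 71) (nat_lit 5) (nat_lit 72) (nat_lit 5) (nat_lit 458) (nat_lit 427) (nat_lit 135)) (XT.nd (nat_lit 78) (nat_lit 228) (nat_lit 0) (XT.lf (nat_lit 0) (nat_lit 528699863418) (nat_lit 228) (nat_lit 25174869422) (nat_lit 304) (nat_lit 134513446758) (nat_lit 68) (nat_lit 5) (nat_lit 71) (nat_lit 5) (nat_lit 72) (nat_lit 5) (nat_lit 459) (nat_lit 427) (nat_lit 134)) (XT.lf (nat_lit 0) (nat_lit 5916296478) (nat_lit 228) (nat_lit 472429171049) (nat_lit 76) (nat_lit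 231525718780) (nat_lit 65) (nat_lit 5) (nat_lit 68) (nat_lit 5) (nat_lit 66) (nat_lit 5) (nat_lit 460) (nat_lit 427) (nat_lit 133)))) (XT.nd (nat_lit 78) (nat_lit 380) (nat_lit 0) (XT.lf (nat_lit 0) (nat_lit 152008413529) (nat_lit 228) (nat_lit 74982441791) (nat_lit 76) (nat_lit 505169160087) (nat_lit 65) (nat_lit 5) (nat_lit 68) (nat_lit 5) (nat_lit 66) (nat_lit 5) (nat_lit 461) (nat_lit 427) (nat_lit 132)) (XT.nd (nat_lit 78) (nat_lit 152) (nat_lit 0) (XT.lf (nat_lit 0) (nat_lit 311593800933) (nat_lit 304) (nat_lit 402298534661) (nat_lit 76) (nat_lit 41361517147) (nat_lit 62) (nat_lit 5) (nat_lit 66) (nat_lit 5) (nat_lit 63) (nat_lit 5) (nat_lit 462) (nat_lit 427) (nat_lit 131)) (XT.lf (nat_lit 0) (nat_lit 22430202975) (nat_lit 152) (nat_lit 462090281406) (nat_lit 228) (nat_lit 294713796231) (nat_lit 60) (nat_lit 5) (nat_lit 62) (nat_lit 5) (nat_lit 63) (nat_lit 5) (nat_lit 463) (nat_lit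 427) (nat_lit 130))))) (XT.nd (nat_lit 50466) (nat_lit 0) (nat_lit 4484) (XT.nd (nat_lit 50310) (nat_lit 0) (nat_lit 4408) (XT.lf (nat_lit 0) (nat_lit 482362251709) (nat_lit 152) (nat_lit 190544356389) (nat_lit 228) (nat_lit 131166466478) (nat_lit 60) (nat_lit 5) (nat_lit 62) (nat_lit 5) (nat_lit 63) (nat_lit 5) (nat_lit 464) (nat_lit 427) (nat_lit 129)) (XT.nd (nat_lit 78) (nat_lit 0) (nat_lit 0) (XT.lf (nat_lit 0) (nat_lit 41729379473) (nat_lit 836) (nat_lit 53583046825) (nat_lit 836) (nat_lit 53583046825) (nat_lit 118) (nat_lit 3) (nat_lit 129) (nat_lit 3) (nat_lit 129) (nat_lit 5) (nat_lit 428) (nat_lit 428) (nat_lit 164)) (XT.lf (nat_lit 76) (nat_lit 38755208787) (nat_lit 0) (nat_lit 47395816382) (nat_lit 836) (nat_lit 219054404479) (nat_lit 119) (nat_lit 5) (nat_lit 118) (nat_lit 3) (nat_lit 129) (nat_lit 5) (nat_lit 429) (nat_lit 428) (nat_lit 163)))) (XT.nd (nat_lit 156) (nat_lit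 0) (nat_lit 76) (XT.nd (nat_lit 78) (nat_lit 0) (nat_lit 0) (XT.lf (nat_lit 0) (nat_lit 92430556306) (nat_lit 760) (nat_lit 118844566376) (nat_lit 836) (nat_lit 101542881982) (nat_lit 119) (nat_lit 5) (nat_lit 129) (nat_lit 5) (nat_lit 130) (nat_lit 5) (nat_lit 430) (nat_lit 428) (nat_lit 162)) (XT.lf (nat_lit 76) (nat_lit 36533669447) (nat_lit 0) (nat_lit 63837724176) (nat_lit 836) (nat_lit 220372448349) (nat_lit 120) (nat_lit 5) (nat_lit 119) (nat_lit 5) (nat_lit 130) (nat_lit 5) (nat_lit 431) (nat_lit 428) (nat_lit 161))) (XT.nd (nat_lit 78) (nat_lit 0) (nat_lit 0) (XT.lf (nat_lit 0) (nat_lit 112175236726) (nat_lit 760) (nat_lit 126611848596) (nat_lit 836) (nat_lit 90105587652) (nat_lit 120) (nat_lit 5) (nat_lit 130) (nat_lit 5) (nat_lit 131) (nat_lit 5) (nat_lit 432) (nat_lit 428) (nat_lit 160)) (XT.lf (nat_lit 76) (nat_lit 39070339335) (nat_lit 0) (nat_lit 87155410212) (nat_lit 836)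 (nat_lit 211140372121) (nat_lit 121) (nat_lit 5) (nat_lit 120) (nat_lit 5) (nat_lit 131) (nat_lit 5) (nat_lit 433) (nat_lit 428) (nat_lit 159)))))) (XT.nd (nat_lit 546) (nat_lit 1520) (nat_lit 0) (XT.nd (nat_lit 234) (nat_lit 608) (nat_lit 0) (XT.nd (nat_lit 78) (nat_lit 0) (nat_lit 0) (XT.lf (nat_lit 0) (nat_lit 144283158930) (nat_lit 760) (nat_lit 129883922005) (nat_lit 836) (nat_lit 71930943337) (nat_lit 121) (nat_lit 5) (nat_lit 131) (nat_lit 5) (nat_lit 132) (nat_lit 5) (nat_lit 434) (nat_lit 428) (nat_lit 158)) (XT.nd (nat_lit 78) (nat_lit 0) (nat_lit 76) (XT.lf (nat_lit 76) (nat_lit 47024814548) (nat_lit 0) (nat_lit 118381554099) (nat_lit 836) (nat_lit 189752006886) (nat_lit 122) (nat_lit 5) (nat_lit 121) (nat_lit 5) (nat_lit 132) (nat_lit 5) (nat_lit 435) (nat_lit 428) (nat_lit 157)) (XT.lf (nat_lit 0) (nat_lit 190527003931) (nat_lit 760) (nat_lit 128015179431) (nat_lit 836) (nat_lit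 45982497759) (nat_lit 122) (nat_lit 5) (nat_lit 132) (nat_lit 5) (nat_lit 133) (nat_lit 5) (nat_lit 436) (nat_lit 428) (nat_lit 156)))) (XT.nd (nat_lit 156) (nat_lit 684) (nat_lit 0) (XT.nd (nat_lit 78) (nat_lit 0) (nat_lit 76) (XT.lf (nat_lit 76) (nat_lit 61124787504) (nat_lit 0) (nat_lit 158673860547) (nat_lit 836) (nat_lit 154415905103) (nat_lit 123) (nat_lit 5) (nat_lit 122) (nat_lit 5) (nat_lit 133) (nat_lit 5) (nat_lit 437) (nat_lit 428) (nat_lit 155)) (XT.lf (nat_lit 0) (nat_lit 252880830756) (nat_lit 760) (nat_lit 120293386264) (nat_lit 76) (nat_lit 11097353966) (nat_lit 123) (nat_lit 5) (nat_lit 133) (nat_lit 5) (nat_lit 124) (nat_lit 5) (nat_lit 438) (nat_lit 428) (nat_lit 154))) (XT.nd (nat_lit 78) (nat_lit 0) (nat_lit 0) (XT.lf (nat_lit 0) (nat_lit 82171577602) (nat_lit 760) (nat_lit 209329653836) (nat_lit 836) (nat_lit 103136002845) (nat_lit 113) (nat_lit 5) (nat_lit 123) (nat_lit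 5) (nat_lit 124) (nat_lit 5) (nat_lit 439) (nat_lit 428) (nat_lit 153)) (XT.lf (nat_lit 0) (nat_lit 298936077531) (nat_lit 760) (nat_lit 35153771768) (nat_lit 836) (nat_lit 71329471606) (nat_lit 113) (nat_lit 5) (nat_lit 123) (nat_lit 5) (nat_lit 124) (nat_lit 5) (nat_lit 440) (nat_lit 428) (nat_lit 152))))) (XT.nd (nat_lit 234) (nat_lit 684) (nat_lit 0) (XT.nd (nat_lit 78) (nat_lit 456) (nat_lit 0) (XT.lf (nat_lit 0) (nat_lit 111045933475) (nat_lit 380) (nat_lit 271802168126) (nat_lit 456) (nat_lit 33690400092) (nat_lit 108) (nat_lit 5) (nat_lit 113) (nat_lit 5) (nat_lit 114) (nat_lit 5) (nat_lit 441) (nat_lit 428) (nat_lit 151)) (XT.nd (nat_lit 78) (nat_lit 380) (nat_lit 0) (XT.lf (nat_lit 0) (nat_lit 8053180562) (nat_lit 456) (nat_lit 85671961649) (nat_lit 76) (nat_lit 334363489106) (nat_lit 107) (nat_lit 5) (nat_lit 113) (nat_lit 5) (nat_lit 108) (nat_lit 5) (nat_lit 442) (nat_lit 428)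 (nat_lit 150)) (XT.lf (nat_lit 0) (nat_lit 54587017437) (nat_lit 456) (nat_lit 292207260811) (nat_lit 76) (nat_lit 93202609327) (nat_lit 102) (nat_lit 5) (nat_lit 108) (nat_lit 5) (nat_lit 103) (nat_lit 5) (nat_lit 443) (nat_lit 428) (nat_lit 149)))) (XT.nd (nat_lit 156) (nat_lit 304) (nat_lit 0) (XT.nd (nat_lit 78) (nat_lit 380) (nat_lit 0) (XT.lf (nat_lit 0) (nat_lit 106458679719) (nat_lit 456) (nat_lit 58089670200) (nat_lit 76) (nat_lit 287801650061) (nat_lit 102) (nat_lit 5) (nat_lit 108) (nat_lit 5) (nat_lit 103) (nat_lit 5) (nat_lit 444) (nat_lit 428) (nat_lit 148)) (XT.lf (nat_lit 0) (nat_lit 164420080953) (nat_lit 456) (nat_lit 271696486498) (nat_lit 76) (nat_lit 29029392774) (nat_lit 97) (nat_lit 5) (nat_lit 103) (nat_lit 5) (nat_lit 98) (nat_lit 5) (nat_lit 445) (nat_lit 428) (nat_lit 147))) (XT.nd (nat_lit 78) (nat_lit 304) (nat_lit 0) (XT.lf (nat_lit 0) (nat_lit 228976946799)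 (nat_lit 456) (nat_lit 21663880580) (nat_lit 76) (nat_lit 227756021385) (nat_lit 97) (nat_lit 5) (nat_lit 103) (nat_lit 5) (nat_lit 98) (nat_lit 5) (nat_lit 446) (nat_lit 428) (nat_lit 146)) (XT.lf (nat_lit 0) (nat_lit 248834591275) (nat_lit 304) (nat_lit 51812047570) (nat_lit 380) (nat_lit 191469393752) (nat_lit 93) (nat_lit 5) (nat_lit 97) (nat_lit 5) (nat_lit 98) (nat_lit 5) (nat_lit 447) (nat_lit 428) (nat_lit 145))))))) (XT.nd (nat_lit 1014) (nat_lit 608) (nat_lit 0) (XT.nd (nat_lit 468) (nat_lit 988) (nat_lit 0) (XT.nd (nat_lit 234) (nat_lit 304) (nat_lit 0) (XT.nd (nat_lit 78) (nat_lit 304) (nat_lit 0) (XT.lf (nat_lit 0) (nat_lit 25465741899) (nat_lit 304) (nat_lit 353655103192) (nat_lit 380) (nat_lit 127239279060) (nat_lit 89) (nat_lit 5) (nat_lit 93) (nat_lit 5) (nat_lit 94) (nat_lit 5) (nat_lit 448) (nat_lit 428) (nat_lit 144)) (XT.nd (nat_lit 78) (nat_lit 304) (nat_lit 0) (XT.lf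 (nat_lit 0) (nat_lit 315218978982) (nat_lit 304) (nat_lit 151255528629) (nat_lit 380) (nat_lit 54594125383) (nat_lit 89) (nat_lit 5) (nat_lit 93) (nat_lit 5) (nat_lit 94) (nat_lit 5) (nat_lit 449) (nat_lit 428) (nat_lit 143)) (XT.lf (nat_lit 0) (nat_lit 23305559543) (nat_lit 304) (nat_lit 452072749842) (nat_lit 76) (nat_lit 61001517353) (nat_lit 85) (nat_lit 5) (nat_lit 89) (nat_lit 5) (nat_lit 86) (nat_lit 5) (nat_lit 450) (nat_lit 428) (nat_lit 142)))) (XT.nd (nat_lit 78) (nat_lit 304) (nat_lit 0) (XT.lf (nat_lit 0) (nat_lit 109288400692) (nat_lit 304) (nat_lit 159595752691) (nat_lit 76) (nat_lit 283226532882) (nat_lit 85) (nat_lit 5) (nat_lit 89) (nat_lit 5) (nat_lit 86) (nat_lit 5) (nat_lit 451) (nat_lit 428) (nat_lit 141)) (XT.nd (nat_lit 78) (nat_lit 0) (nat_lit 0) (XT.lf (nat_lit 0) (nat_lit 152382253797) (nat_lit 304) (nat_lit 49567225120) (nat_lit 380) (nat_lit 366559655109) (nat_lit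 81) (nat_lit 5) (nat_lit 85) (nat_lit 5) (nat_lit 86) (nat_lit 5) (nat_lit 452) (nat_lit 428) (nat_lit 140)) (XT.lf (nat_lit 0) (nat_lit 304812208677) (nat_lit 380) (nat_lit 102958207478) (nat_lit 76) (nat_lit 177678658145) (nat_lit 81) (nat_lit 5) (nat_lit 86) (nat_lit 5) (nat_lit 82) (nat_lit 5) (nat_lit 453) (nat_lit 428) (nat_lit 139))))) (XT.nd (nat_lit 234) (nat_lit 456) (nat_lit 0) (XT.nd (nat_lit 78) (nat_lit 304) (nat_lit 0) (XT.lf (nat_lit 0) (nat_lit 232497675475) (nat_lit 228) (nat_lit 184762899516) (nat_lit 304) (nat_lit 185753311601) (nat_lit 78) (nat_lit 5) (nat_lit 81) (nat_lit 5) (nat_lit 82) (nat_lit 5) (nat_lit 454) (nat_lit 428) (nat_lit 138)) (XT.nd (nat_lit 78) (nat_lit 304) (nat_lit 0) (XT.lf (nat_lit 0) (nat_lit 537874768038) (nat_lit 304) (nat_lit 33868730696) (nat_lit 76) (nat_lit 49586270352) (nat_lit 78) (nat_lit 5) (nat_lit 82) (nat_lit 5) (nat_lit 79) (nat_lit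 5) (nat_lit 455) (nat_lit 428) (nat_lit 137)) (XT.lf (nat_lit 0) (nat_lit 31459821698) (nat_lit 304) (nat_lit 313612271559) (nat_lit 76) (nat_lit 295057229226) (nat_lit 74) (nat_lit 5) (nat_lit 78) (nat_lit 5) (nat_lit 75) (nat_lit 5) (nat_lit 456) (nat_lit 428) (nat_lit 136)))) (XT.nd (nat_lit 156) (nat_lit 228) (nat_lit 0) (XT.nd (nat_lit 78) (nat_lit 0) (nat_lit 0) (XT.lf (nat_lit 0) (nat_lit 46364196150) (nat_lit 228) (nat_lit 104258399229) (nat_lit 304) (nat_lit 509112510185) (nat_lit 71) (nat_lit 5) (nat_lit 74) (nat_lit 5) (nat_lit 75) (nat_lit 5) (nat_lit 457) (nat_lit 428) (nat_lit 135)) (XT.lf (nat_lit 0) (nat_lit 283461735456) (nat_lit 304) (nat_lit 247235313311) (nat_lit 76) (nat_lit 149238217652) (nat_lit 71) (nat_lit 5) (nat_lit 75) (nat_lit 5) (nat_lit 72) (nat_lit 5) (nat_lit 458) (nat_lit 428) (nat_lit 134))) (XT.nd (nat_lit 78) (nat_lit 0) (nat_lit 0) (XT.lf (nat_lit 0)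 (nat_lit 139978058352) (nat_lit 228) (nat_lit 286859362822) (nat_lit 304) (nat_lit 274113284716) (nat_lit 68) (nat_lit 5) (nat_lit 71) (nat_lit 5) (nat_lit 72) (nat_lit 5) (nat_lit 459) (nat_lit 428) (nat_lit 133)) (XT.lf (nat_lit 0) (nat_lit 555135528555) (nat_lit 228) (nat_lit 26433397440) (nat_lit 304) (nat_lit 141238639603) (nat_lit 68) (nat_lit 5) (nat_lit 71) (nat_lit 5) (nat_lit 72) (nat_lit 5) (nat_lit 460) (nat_lit 428) (nat_lit 132)))))) (XT.nd (nat_lit 50856) (nat_lit 0) (nat_lit 4484) (XT.nd (nat_lit 234) (nat_lit 152) (nat_lit 0) (XT.nd (nat_lit 78) (nat_lit 228) (nat_lit 0) (XT.lf (nat_lit 0) (nat_lit 6212567400) (nat_lit 228) (nat_lit 496049933952) (nat_lit 76) (nat_lit 243102221324) (nat_lit 65) (nat_lit 5) (nat_lit 68) (nat_lit 5) (nat_lit 66) (nat_lit 5) (nat_lit 461) (nat_lit 428) (nat_lit 131)) (XT.nd (nat_lit 78) (nat_lit 228) (nat_lit 0) (XT.lf (nat_lit 0) (nat_lit 159609268585)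 (nat_lit 228) (nat_lit 78730901357) (nat_lit 76) (nat_lit 530427824383) (nat_lit 65) (nat_lit 5) (nat_lit 68) (nat_lit 5) (nat_lit 66) (nat_lit 5) (nat_lit 462) (nat_lit 428) (nat_lit 130)) (XT.lf (nat_lit 0) (nat_lit 327173918410) (nat_lit 304) (nat_lit 422412791794) (nat_lit 76) (nat_lit 43429813674) (nat_lit 62) (nat_lit 5) (nat_lit 66) (nat_lit 5) (nat_lit 63) (nat_lit 5) (nat_lit 463) (nat_lit 428) (nat_lit 129)))) (XT.nd (nat_lit 50466) (nat_lit 0) (nat_lit 4408) (XT.nd (nat_lit 50388) (nat_lit 0) (nat_lit 4408) (XT.lf (nat_lit 0) (nat_lit 23552371923) (nat_lit 152) (nat_lit 485194554039) (nat_lit 228) (nat_lit 309449047691) (nat_lit 60) (nat_lit 5) (nat_lit 62) (nat_lit 5) (nat_lit 63) (nat_lit 5) (nat_lit 464) (nat_lit 428) (nat_lit 128)) (XT.lf (nat_lit 0) (nat_lit 43816557037) (nat_lit 836) (nat_lit 56261826963) (nat_lit 836) (nat_lit 56261826963) (nat_lit 118) (nat_lit 3) (nat_lit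 129) (nat_lit 3) (nat_lit 129) (nat_lit 5) (nat_lit 429) (nat_lit 429) (nat_lit 162))) (XT.nd (nat_lit 78) (nat_lit 0) (nat_lit 76) (XT.lf (nat_lit 76) (nat_lit 40693701628) (nat_lit 0) (nat_lit 49766235931) (nat_lit 836) (nat_lit 230005694777) (nat_lit 119) (nat_lit 5) (nat_lit 118) (nat_lit 3) (nat_lit 129) (nat_lit 5) (nat_lit 430) (nat_lit 429) (nat_lit 161)) (XT.lf (nat_lit 0) (nat_lit 97053371088) (nat_lit 760) (nat_lit 124786022302) (nat_lit 836) (nat_lit 106619446456) (nat_lit 119) (nat_lit 5) (nat_lit 129) (nat_lit 5) (nat_lit 130) (nat_lit 5) (nat_lit 431) (nat_lit 429) (nat_lit 160))))) (XT.nd (nat_lit 234) (nat_lit 0) (nat_lit 152) (XT.nd (nat_lit 78) (nat_lit 0) (nat_lit 76) (XT.lf (nat_lit 76) (nat_lit 38361112854) (nat_lit 0) (nat_lit 67030087998) (nat_lit 836) (nat_lit 231389770672) (nat_lit 120) (nat_lit 5) (nat_lit 119) (nat_lit 5) (nat_lit 130) (nat_lit 5) (nat_lit 432)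 (nat_lit 429) (nat_lit 159)) (XT.nd (nat_lit 78) (nat_lit 0) (nat_lit 0) (XT.lf (nat_lit 0) (nat_lit 117785170077) (nat_lit 760) (nat_lit 132941650608) (nat_lit 836) (nat_lit 94610426724) (nat_lit 120) (nat_lit 5) (nat_lit 130) (nat_lit 5) (nat_lit 131) (nat_lit 5) (nat_lit 433) (nat_lit 429) (nat_lit 158)) (XT.lf (nat_lit 76) (nat_lit 41024633970) (nat_lit 0) (nat_lit 91513530924) (nat_lit 836) (nat_lit 221696205857) (nat_lit 121) (nat_lit 5) (nat_lit 120) (nat_lit 5) (nat_lit 131) (nat_lit 5) (nat_lit 434) (nat_lit 429) (nat_lit 157)))) (XT.nd (nat_lit 156) (nat_lit 0) (nat_lit 76) (XT.nd (nat_lit 78) (nat_lit 0) (nat_lit 0) (XT.lf (nat_lit 0) (nat_lit 151498385832) (nat_lit 760) (nat_lit 136377317974) (nat_lit 836) (nat_lit 75527167654) (nat_lit 121) (nat_lit 5) (nat_lit 131) (nat_lit 5) (nat_lit 132) (nat_lit 5) (nat_lit 435) (nat_lit 429) (nat_lit 156)) (XT.lf (nat_lit 76) (nat_lit 49376842501)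 (nat_lit 0) (nat_lit 124300874921) (nat_lit 836) (nat_lit 199238524819) (nat_lit 122) (nat_lit 5) (nat_lit 121) (nat_lit 5) (nat_lit 132) (nat_lit 5) (nat_lit 436) (nat_lit 429) (nat_lit 155))) (XT.nd (nat_lit 78) (nat_lit 0) (nat_lit 0) (XT.lf (nat_lit 0) (nat_lit 200054331792) (nat_lit 760) (nat_lit 134415135461) (nat_lit 836) (nat_lit 48281398518) (nat_lit 122) (nat_lit 5) (nat_lit 132) (nat_lit 5) (nat_lit 133) (nat_lit 5) (nat_lit 437) (nat_lit 429) (nat_lit 154)) (XT.lf (nat_lit 76) (nat_lit 64181816871) (nat_lit 0) (nat_lit 166607707025) (nat_lit 836) (nat_lit 162135709244) (nat_lit 123) (nat_lit 5) (nat_lit 122) (nat_lit 5) (nat_lit 133) (nat_lit 5) (nat_lit 438) (nat_lit 429) (nat_lit 153))))))))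
noncomputable def xc249 : XT := (XT.nd (nat_lit 52572) (nat_lit 0) (nat_lit 684) (XT.nd (nat_lit 1014) (nat_lit 1520) (nat_lit 0) (XT.nd (nat_lit 468) (nat_lit 1292) (nat_lit 0) (XT.nd (nat_lit 234) (nat_lit 836) (nat_lit 0) (XT.nd (nat_lit 78) (nat_lit 760) (nat_lit 0) (XT.lf (nat_lit 0) (nat_lit 265525768529) (nat_lit 760) (nat_lit 126307255521) (nat_lit 76) (nat_lit 11652080198) (nat_lit 123) (nat_lit 5) (nat_lit 133) (nat_lit 5) (nat_lit 124) (nat_lit 5) (nat_lit 439) (nat_lit 429) (nat_lit 152)) (XT.nd (nat_lit 78) (nat_lit 0) (nat_lit 0) (XT.lf (nat_lit 0) (nat_lit 86280943635) (nat_lit 760) (nat_lit 219796215223) (nat_lit 836) (nat_lit 108291893395) (nat_lit 113) (nat_lit 5) (nat_lit 123) (nat_lit 5) (nat_lit 124) (nat_lit 5) (nat_lit 440) (nat_lit 429) (nat_lit 151)) (XT.lf (nat_lit 0) (nat_lit 313883631076) (nat_lit 760) (nat_lit 36911535304) (nat_lit 836) (nat_lit 74895078908) (nat_lit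 113) (nat_lit 5) (nat_lit 123) (nat_lit 5) (nat_lit 124) (nat_lit 5) (nat_lit 441) (nat_lit 429) (nat_lit 150)))) (XT.nd (nat_lit 78) (nat_lit 456) (nat_lit 0) (XT.lf (nat_lit 0) (nat_lit 116599009868) (nat_lit 380) (nat_lit 285392293221) (nat_lit 456) (nat_lit 35374083458) (nat_lit 108) (nat_lit 5) (nat_lit 113) (nat_lit 5) (nat_lit 114) (nat_lit 5) (nat_lit 442) (nat_lit 429) (nat_lit 149)) (XT.nd (nat_lit 78) (nat_lit 380) (nat_lit 0) (XT.lf (nat_lit 0) (nat_lit 8456610887) (nat_lit 456) (nat_lit 89954791267) (nat_lit 76) (nat_lit 351081621792) (nat_lit 107) (nat_lit 5) (nat_lit 113) (nat_lit 5) (nat_lit 108) (nat_lit 5) (nat_lit 443) (nat_lit 429) (nat_lit 148)) (XT.lf (nat_lit 0) (nat_lit 57317114833) (nat_lit 456) (nat_lit 306816830259) (nat_lit 76) (nat_lit 97862749181) (nat_lit 102) (nat_lit 5) (nat_lit 108) (nat_lit 5) (nat_lit 103) (nat_lit 5) (nat_lit 444) (nat_lit 429) (nat_lit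 147))))) (XT.nd (nat_lit 234) (nat_lit 912) (nat_lit 0) (XT.nd (nat_lit 78) (nat_lit 380) (nat_lit 0) (XT.lf (nat_lit 0) (nat_lit 111782324680) (nat_lit 456) (nat_lit 60993397908) (nat_lit 76) (nat_lit 302191741505) (nat_lit 102) (nat_lit 5) (nat_lit 108) (nat_lit 5) (nat_lit 103) (nat_lit 5) (nat_lit 445) (nat_lit 429) (nat_lit 146)) (XT.nd (nat_lit 78) (nat_lit 0) (nat_lit 0) (XT.lf (nat_lit 0) (nat_lit 172641774587) (nat_lit 456) (nat_lit 285280533309) (nat_lit 76) (nat_lit 30480915539) (nat_lit 97) (nat_lit 5) (nat_lit 103) (nat_lit 5) (nat_lit 98) (nat_lit 5) (nat_lit 446) (nat_lit 429) (nat_lit 145)) (XT.lf (nat_lit 0) (nat_lit 240426450888) (nat_lit 456) (nat_lit 22746334120) (nat_lit 76) (nat_lit 239143873051) (nat_lit 97) (nat_lit 5) (nat_lit 103) (nat_lit 5) (nat_lit 98) (nat_lit 5) (nat_lit 447) (nat_lit 429) (nat_lit 144)))) (XT.nd (nat_lit 156) (nat_lit 304) (nat_lit 0) (XT.nd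 (nat_lit 78) (nat_lit 304) (nat_lit 0) (XT.lf (nat_lit 0) (nat_lit 261277049385) (nat_lit 304) (nat_lit 54402558252) (nat_lit 380) (nat_lit 201042194456) (nat_lit 93) (nat_lit 5) (nat_lit 97) (nat_lit 5) (nat_lit 98) (nat_lit 5) (nat_lit 448) (nat_lit 429) (nat_lit 143)) (XT.lf (nat_lit 0) (nat_lit 26739775997) (nat_lit 304) (nat_lit 371337730898) (nat_lit 380) (nat_lit 133600592207) (nat_lit 89) (nat_lit 5) (nat_lit 93) (nat_lit 5) (nat_lit 94) (nat_lit 5) (nat_lit 449) (nat_lit 429) (nat_lit 142))) (XT.nd (nat_lit 78) (nat_lit 304) (nat_lit 0) (XT.lf (nat_lit 0) (nat_lit 330980639362) (nat_lit 304) (nat_lit 158818183676) (nat_lit 380) (nat_lit 57323211837) (nat_lit 89) (nat_lit 5) (nat_lit 93) (nat_lit 5) (nat_lit 94) (nat_lit 5) (nat_lit 450) (nat_lit 429) (nat_lit 141)) (XT.lf (nat_lit 0) (nat_lit 24471422304) (nat_lit 304) (nat_lit 474675640378) (nat_lit 76) (nat_lit 64051725913) (nat_lit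 85) (nat_lit 5) (nat_lit 89) (nat_lit 5) (nat_lit 86) (nat_lit 5) (nat_lit 451) (nat_lit 429) (nat_lit 140)))))) (XT.nd (nat_lit 546) (nat_lit 456) (nat_lit 0) (XT.nd (nat_lit 234) (nat_lit 760) (nat_lit 0) (XT.nd (nat_lit 78) (nat_lit 304) (nat_lit 0) (XT.lf (nat_lit 0) (nat_lit 114753377663) (nat_lit 304) (nat_lit 167574828940) (nat_lit 76) (nat_lit 297387985900) (nat_lit 85) (nat_lit 5) (nat_lit 89) (nat_lit 5) (nat_lit 86) (nat_lit 5) (nat_lit 452) (nat_lit 429) (nat_lit 139)) (XT.nd (nat_lit 78) (nat_lit 0) (nat_lit 0) (XT.lf (nat_lit 0) (nat_lit 160002066399) (nat_lit 304) (nat_lit 52045427807) (nat_lit 380) (nat_lit 384887069236) (nat_lit 81) (nat_lit 5) (nat_lit 85) (nat_lit 5) (nat_lit 86) (nat_lit 5) (nat_lit 453) (nat_lit 429) (nat_lit 138)) (XT.lf (nat_lit 0) (nat_lit 320053337034) (nat_lit 380) (nat_lit 108105427642) (nat_lit 76) (nat_lit 186562737237) (nat_lit 81) (nat_lit 5)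 (nat_lit 86) (nat_lit 5) (nat_lit 82) (nat_lit 5) (nat_lit 454) (nat_lit 429) (nat_lit 137)))) (XT.nd (nat_lit 156) (nat_lit 532) (nat_lit 0) (XT.nd (nat_lit 78) (nat_lit 0) (nat_lit 0) (XT.lf (nat_lit 0) (nat_lit 244123238328) (nat_lit 228) (nat_lit 194000869276) (nat_lit 304) (nat_lit 195040447928) (nat_lit 78) (nat_lit 5) (nat_lit 81) (nat_lit 5) (nat_lit 82) (nat_lit 5) (nat_lit 455) (nat_lit 429) (nat_lit 136)) (XT.lf (nat_lit 0) (nat_lit 564768988914) (nat_lit 304) (nat_lit 35561498913) (nat_lit 76) (nat_lit 52065745401) (nat_lit 78) (nat_lit 5) (nat_lit 82) (nat_lit 5) (nat_lit 79) (nat_lit 5) (nat_lit 456) (nat_lit 429) (nat_lit 135))) (XT.nd (nat_lit 78) (nat_lit 228) (nat_lit 0) (XT.lf (nat_lit 0) (nat_lit 33033290422) (nat_lit 304) (nat_lit 329292211635) (nat_lit 76) (nat_lit 309810262497) (nat_lit 74) (nat_lit 5) (nat_lit 78) (nat_lit 5) (nat_lit 75) (nat_lit 5) (nat_lit 457)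 (nat_lit 429) (nat_lit 134)) (XT.lf (nat_lit 0) (nat_lit 48683068597) (nat_lit 228) (nat_lit 109471121792) (nat_lit 304) (nat_lit 534567647029) (nat_lit 71) (nat_lit 5) (nat_lit 74) (nat_lit 5) (nat_lit 75) (nat_lit 5) (nat_lit 458) (nat_lit 429) (nat_lit 133))))) (XT.nd (nat_lit 234) (nat_lit 228) (nat_lit 0) (XT.nd (nat_lit 78) (nat_lit 228) (nat_lit 0) (XT.lf (nat_lit 0) (nat_lit 297635268250) (nat_lit 304) (nat_lit 259596428517) (nat_lit 76) (nat_lit 156700310516) (nat_lit 71) (nat_lit 5) (nat_lit 75) (nat_lit 5) (nat_lit 72) (nat_lit 5) (nat_lit 459) (nat_lit 429) (nat_lit 132)) (XT.nd (nat_lit 78) (nat_lit 0) (nat_lit 0) (XT.lf (nat_lit 0) (nat_lit 146977601237) (nat_lit 228) (nat_lit 301202125769) (nat_lit 304) (nat_lit 287818492291) (nat_lit 68) (nat_lit 5) (nat_lit 71) (nat_lit 5) (nat_lit 72) (nat_lit 5) (nat_lit 460) (nat_lit 429) (nat_lit 131)) (XT.lf (nat_lit 0) (nat_lit 582892914476)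 (nat_lit 228) (nat_lit 27754871890) (nat_lit 304) (nat_lit 148300136668) (nat_lit 68) (nat_lit 5) (nat_lit 71) (nat_lit 5) (nat_lit 72) (nat_lit 5) (nat_lit 461) (nat_lit 429) (nat_lit 130)))) (XT.nd (nat_lit 50622) (nat_lit 0) (nat_lit 4028) (XT.nd (nat_lit 78) (nat_lit 0) (nat_lit 0) (XT.lf (nat_lit 0) (nat_lit 6523609465) (nat_lit 228) (nat_lit 520851799675) (nat_lit 76) (nat_lit 255257528859) (nat_lit 65) (nat_lit 5) (nat_lit 68) (nat_lit 5) (nat_lit 66) (nat_lit 5) (nat_lit 462) (nat_lit 429) (nat_lit 129)) (XT.lf (nat_lit 0) (nat_lit 167590126009) (nat_lit 228) (nat_lit 82666845497) (nat_lit 76) (nat_lit 556949402714) (nat_lit 65) (nat_lit 5) (nat_lit 68) (nat_lit 5) (nat_lit 66) (nat_lit 5) (nat_lit 463) (nat_lit 429) (nat_lit 128))) (XT.nd (nat_lit 78) (nat_lit 0) (nat_lit 0) (XT.lf (nat_lit 0) (nat_lit 46008027602) (nat_lit 836) (nat_lit 59074580711) (nat_lit 836) (nat_lit 59074580711)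 (nat_lit 118) (nat_lit 3) (nat_lit 129) (nat_lit 3) (nat_lit 129) (nat_lit 5) (nat_lit 430) (nat_lit 430) (nat_lit 160)) (XT.lf (nat_lit 76) (nat_lit 42729051019) (nat_lit 0) (nat_lit 52255118005) (nat_lit 836) (nat_lit 241504682531) (nat_lit 119) (nat_lit 5) (nat_lit 118) (nat_lit 3) (nat_lit 129) (nat_lit 5) (nat_lit 431) (nat_lit 430) (nat_lit 159))))))) (XT.nd (nat_lit 1014) (nat_lit 2508) (nat_lit 0) (XT.nd (nat_lit 468) (nat_lit 912) (nat_lit 0) (XT.nd (nat_lit 234) (nat_lit 0) (nat_lit 76) (XT.nd (nat_lit 78) (nat_lit 0) (nat_lit 0) (XT.lf (nat_lit 0) (nat_lit 101907206959) (nat_lit 760) (nat_lit 131024622834) (nat_lit 836) (nat_lit 111949893041) (nat_lit 119) (nat_lit 5) (nat_lit 129) (nat_lit 5) (nat_lit 130) (nat_lit 5) (nat_lit 432) (nat_lit 430) (nat_lit 158)) (XT.nd (nat_lit 78) (nat_lit 0) (nat_lit 76) (XT.lf (nat_lit 76) (nat_lit 40279857780) (nat_lit 0) (nat_lit 70382025606)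 (nat_lit 836) (nat_lit 242958079982) (nat_lit 120) (nat_lit 5) (nat_lit 119) (nat_lit 5) (nat_lit 130) (nat_lit 5) (nat_lit 433) (nat_lit 430) (nat_lit 157)) (XT.lf (nat_lit 0) (nat_lit 123675491179) (nat_lit 760) (nat_lit 139588016206) (nat_lit 836) (nat_lit 99340548686) (nat_lit 120) (nat_lit 5) (nat_lit 130) (nat_lit 5) (nat_lit 131) (nat_lit 5) (nat_lit 434) (nat_lit 430) (nat_lit 156)))) (XT.nd (nat_lit 78) (nat_lit 0) (nat_lit 76) (XT.lf (nat_lit 76) (nat_lit 43076571037) (nat_lit 0) (nat_lit 96089525113) (nat_lit 836) (nat_lit 232779941437) (nat_lit 121) (nat_lit 5) (nat_lit 120) (nat_lit 5) (nat_lit 131) (nat_lit 5) (nat_lit 435) (nat_lit 430) (nat_lit 155)) (XT.nd (nat_lit 78) (nat_lit 0) (nat_lit 0) (XT.lf (nat_lit 0) (nat_lit 159074274696) (nat_lit 760) (nat_lit 143195458131) (nat_lit 836) (nat_lit 79303233202) (nat_lit 121) (nat_lit 5) (nat_lit 131) (nat_lit 5) (nat_lit 132) (nat_lit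 5) (nat_lit 436) (nat_lit 430) (nat_lit 154)) (XT.lf (nat_lit 76) (nat_lit 51846398663) (nat_lit 0) (nat_lit 130516139182) (nat_lit 836) (nat_lit 209199469282) (nat_lit 122) (nat_lit 5) (nat_lit 121) (nat_lit 5) (nat_lit 132) (nat_lit 5) (nat_lit 437) (nat_lit 430) (nat_lit 153))))) (XT.nd (nat_lit 234) (nat_lit 1140) (nat_lit 0) (XT.nd (nat_lit 78) (nat_lit 0) (nat_lit 0) (XT.lf (nat_lit 0) (nat_lit 210057935151) (nat_lit 760) (nat_lit 141135163942) (nat_lit 836) (nat_lit 50695265151) (nat_lit 122) (nat_lit 5) (nat_lit 132) (nat_lit 5) (nat_lit 133) (nat_lit 5) (nat_lit 438) (nat_lit 430) (nat_lit 152)) (XT.nd (nat_lit 78) (nat_lit 0) (nat_lit 76) (XT.lf (nat_lit 76) (nat_lit 67391624260) (nat_lit 0) (nat_lit 174938231561) (nat_lit 836) (nat_lit 170241595736) (nat_lit 123) (nat_lit 5) (nat_lit 122) (nat_lit 5) (nat_lit 133) (nat_lit 5) (nat_lit 439) (nat_lit 430) (nat_lit 151)) (XT.lf (nat_lit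 0) (nat_lit 278802869867) (nat_lit 760) (nat_lit 132621892623) (nat_lit 76) (nat_lit 12234555894) (nat_lit 123) (nat_lit 5) (nat_lit 133) (nat_lit 5) (nat_lit 124) (nat_lit 5) (nat_lit 440) (nat_lit 430) (nat_lit 150)))) (XT.nd (nat_lit 156) (nat_lit 456) (nat_lit 0) (XT.nd (nat_lit 78) (nat_lit 0) (nat_lit 0) (XT.lf (nat_lit 0) (nat_lit 90595704786) (nat_lit 760) (nat_lit 230786097362) (nat_lit 836) (nat_lit 113705663038) (nat_lit 113) (nat_lit 5) (nat_lit 123) (nat_lit 5) (nat_lit 124) (nat_lit 5) (nat_lit 441) (nat_lit 430) (nat_lit 149)) (XT.lf (nat_lit 0) (nat_lit 329578492602) (nat_lit 760) (nat_lit 38757180048) (nat_lit 836) (nat_lit 78639047113) (nat_lit 113) (nat_lit 5) (nat_lit 123) (nat_lit 5) (nat_lit 124) (nat_lit 5) (nat_lit 442) (nat_lit 430) (nat_lit 148))) (XT.nd (nat_lit 78) (nat_lit 76) (nat_lit 0) (XT.lf (nat_lit 0) (nat_lit 122429667590) (nat_lit 380) (nat_lit 299661923020)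 (nat_lit 456) (nat_lit 37142028775) (nat_lit 108) (nat_lit 5) (nat_lit 113) (nat_lit 5) (nat_lit 114) (nat_lit 5) (nat_lit 443) (nat_lit 430) (nat_lit 147)) (XT.lf (nat_lit 0) (nat_lit 8880141020) (nat_lit 456) (nat_lit 94451833810) (nat_lit 76) (nat_lit 368635664996) (nat_lit 107) (nat_lit 5) (nat_lit 113) (nat_lit 5) (nat_lit 108) (nat_lit 5) (nat_lit 444) (nat_lit 430) (nat_lit 146)))))) (XT.nd (nat_lit 546) (nat_lit 1140) (nat_lit 0) (XT.nd (nat_lit 234) (nat_lit 608) (nat_lit 0) (XT.nd (nat_lit 78) (nat_lit 380) (nat_lit 0) (XT.lf (nat_lit 0) (nat_lit 60183647694) (nat_lit 456) (nat_lit 322156951960) (nat_lit 76) (nat_lit 102755895155) (nat_lit 102) (nat_lit 5) (nat_lit 108) (nat_lit 5) (nat_lit 103) (nat_lit 5) (nat_lit 445) (nat_lit 430) (nat_lit 145)) (XT.nd (nat_lit 78) (nat_lit 380) (nat_lit 0) (XT.lf (nat_lit 0) (nat_lit 117372085789) (nat_lit 456) (nat_lit 64042382268) (nat_lit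 76) (nat_lit 317301336689) (nat_lit 102) (nat_lit 5) (nat_lit 108) (nat_lit 5) (nat_lit 103) (nat_lit 5) (nat_lit 446) (nat_lit 430) (nat_lit 144)) (XT.lf (nat_lit 0) (nat_lit 181274488791) (nat_lit 456) (nat_lit 299543854746) (nat_lit 76) (nat_lit 32005009503) (nat_lit 97) (nat_lit 5) (nat_lit 103) (nat_lit 5) (nat_lit 98) (nat_lit 5) (nat_lit 447) (nat_lit 430) (nat_lit 143)))) (XT.nd (nat_lit 156) (nat_lit 304) (nat_lit 0) (XT.nd (nat_lit 78) (nat_lit 304) (nat_lit 0) (XT.lf (nat_lit 0) (nat_lit 252448369123) (nat_lit 456) (nat_lit 23882979180) (nat_lit 76) (nat_lit 251101112596) (nat_lit 97) (nat_lit 5) (nat_lit 103) (nat_lit 5) (nat_lit 98) (nat_lit 5) (nat_lit 448) (nat_lit 430) (nat_lit 142)) (XT.lf (nat_lit 0) (nat_lit 274341562667) (nat_lit 304) (nat_lit 57122602993) (nat_lit 380) (nat_lit 211093697390) (nat_lit 93) (nat_lit 5) (nat_lit 97) (nat_lit 5) (nat_lit 98) (nat_lit 5) (nat_lit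 449) (nat_lit 430) (nat_lit 141))) (XT.nd (nat_lit 78) (nat_lit 0) (nat_lit 0) (XT.lf (nat_lit 0) (nat_lit 28077442351) (nat_lit 304) (nat_lit 389904501839) (nat_lit 380) (nat_lit 140280031518) (nat_lit 89) (nat_lit 5) (nat_lit 93) (nat_lit 5) (nat_lit 94) (nat_lit 5) (nat_lit 450) (nat_lit 430) (nat_lit 140)) (XT.lf (nat_lit 0) (nat_lit 347530316620) (nat_lit 304) (nat_lit 166758982761) (nat_lit 380) (nat_lit 60188810239) (nat_lit 89) (nat_lit 5) (nat_lit 93) (nat_lit 5) (nat_lit 94) (nat_lit 5) (nat_lit 451) (nat_lit 430) (nat_lit 139))))) (XT.nd (nat_lit 234) (nat_lit 532) (nat_lit 0) (XT.nd (nat_lit 78) (nat_lit 304) (nat_lit 0) (XT.lf (nat_lit 0) (nat_lit 25695523835) (nat_lit 304) (nat_lit 498408744887) (nat_lit 76) (nat_lit 67254432565) (nat_lit 85) (nat_lit 5) (nat_lit 89) (nat_lit 5) (nat_lit 86) (nat_lit 5) (nat_lit 452) (nat_lit 430) (nat_lit 138)) (XT.nd (nat_lit 78) (nat_lit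 304) (nat_lit 0) (XT.lf (nat_lit 0) (nat_lit 120491551704) (nat_lit 304) (nat_lit 175952925139) (nat_lit 76) (nat_lit 312257499820) (nat_lit 85) (nat_lit 5) (nat_lit 89) (nat_lit 5) (nat_lit 86) (nat_lit 5) (nat_lit 453) (nat_lit 430) (nat_lit 137)) (XT.lf (nat_lit 0) (nat_lit 168002804560) (nat_lit 304) (nat_lit 54647555371) (nat_lit 380) (nat_lit 404130906935) (nat_lit 81) (nat_lit 5) (nat_lit 85) (nat_lit 5) (nat_lit 86) (nat_lit 5) (nat_lit 454) (nat_lit 430) (nat_lit 136)))) (XT.nd (nat_lit 156) (nat_lit 304) (nat_lit 0) (XT.nd (nat_lit 78) (nat_lit 228) (nat_lit 0) (XT.lf (nat_lit 0) (nat_lit 336056473657) (nat_lit 380) (nat_lit 113510072982) (nat_lit 76) (nat_lit 195891006692) (nat_lit 81) (nat_lit 5) (nat_lit 86) (nat_lit 5) (nat_lit 82) (nat_lit 5) (nat_lit 455) (nat_lit 430) (nat_lit 135)) (XT.lf (nat_lit 0) (nat_lit 256330016188) (nat_lit 228) (nat_lit 203700753814) (nat_lit 304)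 (nat_lit 204791990276) (nat_lit 78) (nat_lit 5) (nat_lit 81) (nat_lit 5) (nat_lit 82) (nat_lit 5) (nat_lit 456) (nat_lit 430) (nat_lit 134))) (XT.nd (nat_lit 78) (nat_lit 304) (nat_lit 0) (XT.lf (nat_lit 0) (nat_lit 593007875978) (nat_lit 304) (nat_lit 37338967675) (nat_lit 76) (nat_lit 54669179185) (nat_lit 78) (nat_lit 5) (nat_lit 82) (nat_lit 5) (nat_lit 79) (nat_lit 5) (nat_lit 457) (nat_lit 430) (nat_lit 133)) (XT.lf (nat_lit 0) (nat_lit 34685388177) (nat_lit 304) (nat_lit 345756211331) (nat_lit 76) (nat_lit 325300931458) (nat_lit 74) (nat_lit 5) (nat_lit 78) (nat_lit 5) (nat_lit 75) (nat_lit 5) (nat_lit 458) (nat_lit 430) (nat_lit 132))))))))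
noncomputable def xc250 : XT := (XT.nd (nat_lit 52650) (nat_lit 0) (nat_lit 228) (XT.nd (nat_lit 51558) (nat_lit 0) (nat_lit 1824) (XT.nd (nat_lit 51012) (nat_lit 0) (nat_lit 4028) (XT.nd (nat_lit 234) (nat_lit 228) (nat_lit 0) (XT.nd (nat_lit 78) (nat_lit 228) (nat_lit 0) (XT.lf (nat_lit 0) (nat_lit 51117823060) (nat_lit 228) (nat_lit 114944498835) (nat_lit 304) (nat_lit 561295586146) (nat_lit 71) (nat_lit 5) (nat_lit 74) (nat_lit 5) (nat_lit 75) (nat_lit 5) (nat_lit 459) (nat_lit 430) (nat_lit 131)) (XT.nd (nat_lit 78) (nat_lit 228) (nat_lit 0) (XT.lf (nat_lit 0) (nat_lit 312517436218) (nat_lit 304) (nat_lit 272575659958) (nat_lit 76) (nat_lit 164535491104) (nat_lit 71) (nat_lit 5) (nat_lit 75) (nat_lit 5) (nat_lit 72) (nat_lit 5) (nat_lit 460) (nat_lit 430) (nat_lit 130)) (XT.lf (nat_lit 0) (nat_lit 154327061769) (nat_lit 228) (nat_lit 316262045941) (nat_lit 304) (nat_lit 302209002701)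 (nat_lit 68) (nat_lit 5) (nat_lit 71) (nat_lit 5) (nat_lit 72) (nat_lit 5) (nat_lit 461) (nat_lit 430) (nat_lit 129)))) (XT.nd (nat_lit 78) (nat_lit 228) (nat_lit 0) (XT.lf (nat_lit 0) (nat_lit 612038113028) (nat_lit 228) (nat_lit 29142438230) (nat_lit 304) (nat_lit 155714749021) (nat_lit 68) (nat_lit 5) (nat_lit 71) (nat_lit 5) (nat_lit 72) (nat_lit 5) (nat_lit 462) (nat_lit 430) (nat_lit 128)) (XT.nd (nat_lit 50622) (nat_lit 0) (nat_lit 4028) (XT.lf (nat_lit 0) (nat_lit 6850165171) (nat_lit 228) (nat_lit 546893817346) (nat_lit 76) (nat_lit 268020583504) (nat_lit 65) (nat_lit 5) (nat_lit 68) (nat_lit 5) (nat_lit 66) (nat_lit 5) (nat_lit 463) (nat_lit 430) (nat_lit 127)) (XT.lf (nat_lit 0) (nat_lit 48309011941) (nat_lit 836) (nat_lit 62028003533) (nat_lit 836) (nat_lit 62028003533) (nat_lit 118) (nat_lit 3) (nat_lit 129) (nat_lit 3) (nat_lit 129) (nat_lit 5) (nat_lit 431) (nat_lit 431) (nat_lit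 158))))) (XT.nd (nat_lit 234) (nat_lit 0) (nat_lit 152) (XT.nd (nat_lit 78) (nat_lit 0) (nat_lit 76) (XT.lf (nat_lit 76) (nat_lit 44866106118) (nat_lit 0) (nat_lit 54868391163) (nat_lit 836) (nat_lit 253578740253) (nat_lit 119) (nat_lit 5) (nat_lit 118) (nat_lit 3) (nat_lit 129) (nat_lit 5) (nat_lit 432) (nat_lit 431) (nat_lit 157)) (XT.nd (nat_lit 78) (nat_lit 0) (nat_lit 0) (XT.lf (nat_lit 0) (nat_lit 107003626098) (nat_lit 760) (nat_lit 137575218527) (nat_lit 836) (nat_lit 117546910834) (nat_lit 119) (nat_lit 5) (nat_lit 129) (nat_lit 5) (nat_lit 130) (nat_lit 5) (nat_lit 433) (nat_lit 431) (nat_lit 156)) (XT.lf (nat_lit 76) (nat_lit 42294475869) (nat_lit 0) (nat_lit 73901519820) (nat_lit 836) (nat_lit 255104914390) (nat_lit 120) (nat_lit 5) (nat_lit 119) (nat_lit 5) (nat_lit 130) (nat_lit 5) (nat_lit 434) (nat_lit 431) (nat_lit 155)))) (XT.nd (nat_lit 156) (nat_lit 0) (nat_lit 76) (XT.nd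 (nat_lit 78) (nat_lit 0) (nat_lit 0) (XT.lf (nat_lit 0) (nat_lit 129860229546) (nat_lit 760) (nat_lit 146566766738) (nat_lit 836) (nat_lit 104307213876) (nat_lit 120) (nat_lit 5) (nat_lit 130) (nat_lit 5) (nat_lit 131) (nat_lit 5) (nat_lit 435) (nat_lit 431) (nat_lit 154)) (XT.lf (nat_lit 76) (nat_lit 45231039379) (nat_lit 0) (nat_lit 100894289480) (nat_lit 836) (nat_lit 244417963712) (nat_lit 121) (nat_lit 5) (nat_lit 120) (nat_lit 5) (nat_lit 131) (nat_lit 5) (nat_lit 436) (nat_lit 431) (nat_lit 153))) (XT.nd (nat_lit 78) (nat_lit 0) (nat_lit 0) (XT.lf (nat_lit 0) (nat_lit 167028867863) (nat_lit 760) (nat_lit 150354572768) (nat_lit 836) (nat_lit 83268129253) (nat_lit 121) (nat_lit 5) (nat_lit 131) (nat_lit 5) (nat_lit 132) (nat_lit 5) (nat_lit 437) (nat_lit 431) (nat_lit 152)) (XT.lf (nat_lit 76) (nat_lit 54439366248) (nat_lit 0) (nat_lit 137042146154) (nat_lit 836) (nat_lit 219658552244)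 (nat_lit 122) (nat_lit 5) (nat_lit 121) (nat_lit 5) (nat_lit 132) (nat_lit 5) (nat_lit 438) (nat_lit 431) (nat_lit 151)))))) (XT.nd (nat_lit 546) (nat_lit 1368) (nat_lit 0) (XT.nd (nat_lit 234) (nat_lit 1140) (nat_lit 0) (XT.nd (nat_lit 78) (nat_lit 0) (nat_lit 0) (XT.lf (nat_lit 0) (nat_lit 220561636235) (nat_lit 760) (nat_lit 148191261556) (nat_lit 836) (nat_lit 53229844017) (nat_lit 122) (nat_lit 5) (nat_lit 132) (nat_lit 5) (nat_lit 133) (nat_lit 5) (nat_lit 439) (nat_lit 431) (nat_lit 150)) (XT.nd (nat_lit 78) (nat_lit 0) (nat_lit 76) (XT.lf (nat_lit 76) (nat_lit 70761855401) (nat_lit 0) (nat_lit 183685269383) (nat_lit 836) (nat_lit 178752860131) (nat_lit 123) (nat_lit 5) (nat_lit 122) (nat_lit 5) (nat_lit 133) (nat_lit 5) (nat_lit 440) (nat_lit 431) (nat_lit 149)) (XT.lf (nat_lit 0) (nat_lit 292743750695) (nat_lit 760) (nat_lit 139252329046) (nat_lit 76) (nat_lit 12846167304) (nat_lit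 123) (nat_lit 5) (nat_lit 133) (nat_lit 5) (nat_lit 124) (nat_lit 5) (nat_lit 441) (nat_lit 431) (nat_lit 148)))) (XT.nd (nat_lit 156) (nat_lit 456) (nat_lit 0) (XT.nd (nat_lit 78) (nat_lit 0) (nat_lit 0) (XT.lf (nat_lit 0) (nat_lit 95126137618) (nat_lit 760) (nat_lit 242325466973) (nat_lit 836) (nat_lit 119390197866) (nat_lit 113) (nat_lit 5) (nat_lit 123) (nat_lit 5) (nat_lit 124) (nat_lit 5) (nat_lit 442) (nat_lit 431) (nat_lit 147)) (XT.lf (nat_lit 0) (nat_lit 346058033986) (nat_lit 760) (nat_lit 40695100710) (nat_lit 836) (nat_lit 82570286779) (nat_lit 113) (nat_lit 5) (nat_lit 123) (nat_lit 5) (nat_lit 124) (nat_lit 5) (nat_lit 443) (nat_lit 431) (nat_lit 146))) (XT.nd (nat_lit 78) (nat_lit 76) (nat_lit 0) (XT.lf (nat_lit 0) (nat_lit 128551792446) (nat_lit 380) (nat_lit 314645032900) (nat_lit 456) (nat_lit 38998441908) (nat_lit 108) (nat_lit 5) (nat_lit 113) (nat_lit 5) (nat_lit 114)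 (nat_lit 5) (nat_lit 444) (nat_lit 431) (nat_lit 145)) (XT.lf (nat_lit 0) (nat_lit 9324782619) (nat_lit 456) (nat_lit 99173793282) (nat_lit 76) (nat_lit 387067413882) (nat_lit 107) (nat_lit 5) (nat_lit 113) (nat_lit 5) (nat_lit 108) (nat_lit 5) (nat_lit 445) (nat_lit 431) (nat_lit 144))))) (XT.nd (nat_lit 234) (nat_lit 608) (nat_lit 0) (XT.nd (nat_lit 78) (nat_lit 380) (nat_lit 0) (XT.lf (nat_lit 0) (nat_lit 63193444246) (nat_lit 456) (nat_lit 338264146667) (nat_lit 76) (nat_lit 107893697635) (nat_lit 102) (nat_lit 5) (nat_lit 108) (nat_lit 5) (nat_lit 103) (nat_lit 5) (nat_lit 446) (nat_lit 431) (nat_lit 143)) (XT.nd (nat_lit 78) (nat_lit 380) (nat_lit 0) (XT.lf (nat_lit 0) (nat_lit 123241275000) (nat_lit 456) (nat_lit 67243879581) (nat_lit 76) (nat_lit 333166410879) (nat_lit 102) (nat_lit 5) (nat_lit 108) (nat_lit 5) (nat_lit 103) (nat_lit 5) (nat_lit 447) (nat_lit 431) (nat_lit 142)) (XT.lf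 (nat_lit 0) (nat_lit 190338780555) (nat_lit 456) (nat_lit 314520407821) (nat_lit 76) (nat_lit 33605303685) (nat_lit 97) (nat_lit 5) (nat_lit 103) (nat_lit 5) (nat_lit 98) (nat_lit 5) (nat_lit 448) (nat_lit 431) (nat_lit 141)))) (XT.nd (nat_lit 156) (nat_lit 304) (nat_lit 0) (XT.nd (nat_lit 78) (nat_lit 304) (nat_lit 0) (XT.lf (nat_lit 0) (nat_lit 265071327887) (nat_lit 456) (nat_lit 25076518937) (nat_lit 76) (nat_lit 263656209852) (nat_lit 97) (nat_lit 5) (nat_lit 103) (nat_lit 5) (nat_lit 98) (nat_lit 5) (nat_lit 449) (nat_lit 431) (nat_lit 140)) (XT.lf (nat_lit 0) (nat_lit 288059240176) (nat_lit 304) (nat_lit 59978657704) (nat_lit 380) (nat_lit 221647831885) (nat_lit 93) (nat_lit 5) (nat_lit 97) (nat_lit 5) (nat_lit 98) (nat_lit 5) (nat_lit 450) (nat_lit 431) (nat_lit 139))) (XT.nd (nat_lit 78) (nat_lit 0) (nat_lit 0) (XT.lf (nat_lit 0) (nat_lit 29481929029) (nat_lit 304) (nat_lit 409399622075)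 (nat_lit 380) (nat_lit 147293497675) (nat_lit 89) (nat_lit 5) (nat_lit 93) (nat_lit 5) (nat_lit 94) (nat_lit 5) (nat_lit 451) (nat_lit 431) (nat_lit 138)) (XT.lf (nat_lit 0) (nat_lit 364907417747) (nat_lit 304) (nat_lit 175096832036) (nat_lit 380) (nat_lit 63197740828) (nat_lit 89) (nat_lit 5) (nat_lit 93) (nat_lit 5) (nat_lit 94) (nat_lit 5) (nat_lit 452) (nat_lit 431) (nat_lit 137))))))) (XT.nd (nat_lit 51792) (nat_lit 0) (nat_lit 2204) (XT.nd (nat_lit 468) (nat_lit 760) (nat_lit 0) (XT.nd (nat_lit 234) (nat_lit 228) (nat_lit 0) (XT.nd (nat_lit 78) (nat_lit 304) (nat_lit 0) (XT.lf (nat_lit 0) (nat_lit 26980781129) (nat_lit 304) (nat_lit 523328567609) (nat_lit 76) (nat_lit 70617263359) (nat_lit 85) (nat_lit 5) (nat_lit 89) (nat_lit 5) (nat_lit 86) (nat_lit 5) (nat_lit 453) (nat_lit 431) (nat_lit 136)) (XT.nd (nat_lit 78) (nat_lit 304) (nat_lit 0) (XT.lf (nat_lit 0) (nat_lit 126516587482)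 (nat_lit 304) (nat_lit 184749986136) (nat_lit 76) (nat_lit 327870478779) (nat_lit 85) (nat_lit 5) (nat_lit 89) (nat_lit 5) (nat_lit 86) (nat_lit 5) (nat_lit 454) (nat_lit 431) (nat_lit 135)) (XT.lf (nat_lit 0) (nat_lit 176403520607) (nat_lit 304) (nat_lit 57379802685) (nat_lit 380) (nat_lit 424336984470) (nat_lit 81) (nat_lit 5) (nat_lit 85) (nat_lit 5) (nat_lit 86) (nat_lit 5) (nat_lit 455) (nat_lit 431) (nat_lit 134)))) (XT.nd (nat_lit 78) (nat_lit 228) (nat_lit 0) (XT.lf (nat_lit 0) (nat_lit 352859723436) (nat_lit 380) (nat_lit 119185008793) (nat_lit 76) (nat_lit 205685677293) (nat_lit 81) (nat_lit 5) (nat_lit 86) (nat_lit 5) (nat_lit 82) (nat_lit 5) (nat_lit 456) (nat_lit 431) (nat_lit 133)) (XT.nd (nat_lit 78) (nat_lit 0) (nat_lit 0) (XT.lf (nat_lit 0) (nat_lit 269147075677) (nat_lit 228) (nat_lit 213885647353) (nat_lit 304) (nat_lit 215031154372) (nat_lit 78) (nat_lit 5) (nat_lit 81)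 (nat_lit 5) (nat_lit 82) (nat_lit 5) (nat_lit 457) (nat_lit 431) (nat_lit 132)) (XT.lf (nat_lit 0) (nat_lit 622658666710) (nat_lit 304) (nat_lit 39205366232) (nat_lit 76) (nat_lit 57402771037) (nat_lit 78) (nat_lit 5) (nat_lit 82) (nat_lit 5) (nat_lit 79) (nat_lit 5) (nat_lit 458) (nat_lit 431) (nat_lit 131))))) (XT.nd (nat_lit 51012) (nat_lit 0) (nat_lit 3800) (XT.nd (nat_lit 156) (nat_lit 456) (nat_lit 0) (XT.lf (nat_lit 0) (nat_lit 36420050541) (nat_lit 304) (nat_lit 363043467805) (nat_lit 76) (nat_lit 341566119379) (nat_lit 74) (nat_lit 5) (nat_lit 78) (nat_lit 5) (nat_lit 75) (nat_lit 5) (nat_lit 459) (nat_lit 431) (nat_lit 130)) (XT.nd (nat_lit 78) (nat_lit 228) (nat_lit 0) (XT.lf (nat_lit 0) (nat_lit 328143674972) (nat_lit 304) (nat_lit 286203907821) (nat_lit 76) (nat_lit 172762415376) (nat_lit 71) (nat_lit 5) (nat_lit 75) (nat_lit 5) (nat_lit 72) (nat_lit 5) (nat_lit 461) (nat_lit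 431) (nat_lit 128)) (XT.lf (nat_lit 0) (nat_lit 162043941360) (nat_lit 228) (nat_lit 332074979425) (nat_lit 304) (nat_lit 317319077141) (nat_lit 68) (nat_lit 5) (nat_lit 71) (nat_lit 5) (nat_lit 72) (nat_lit 5) (nat_lit 462) (nat_lit 431) (nat_lit 127)))) (XT.nd (nat_lit 156) (nat_lit 0) (nat_lit 76) (XT.nd (nat_lit 78) (nat_lit 0) (nat_lit 0) (XT.lf (nat_lit 0) (nat_lit 50724991300) (nat_lit 836) (nat_lit 65129125966) (nat_lit 836) (nat_lit 65129125966) (nat_lit 118) (nat_lit 3) (nat_lit 129) (nat_lit 3) (nat_lit 129) (nat_lit 5) (nat_lit 432) (nat_lit 432) (nat_lit 156)) (XT.lf (nat_lit 76) (nat_lit 47109957953) (nat_lit 0) (nat_lit 57612279889) (nat_lit 836) (nat_lit 266256610233) (nat_lit 119) (nat_lit 5) (nat_lit 118) (nat_lit 3) (nat_lit 129) (nat_lit 5) (nat_lit 433) (nat_lit 432) (nat_lit 155))) (XT.nd (nat_lit 78) (nat_lit 0) (nat_lit 0) (XT.lf (nat_lit 0) (nat_lit 112354767757)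 (nat_lit 760) (nat_lit 144453403082) (nat_lit 836) (nat_lit 123423823850) (nat_lit 119) (nat_lit 5) (nat_lit 129) (nat_lit 5) (nat_lit 130) (nat_lit 5) (nat_lit 434) (nat_lit 432) (nat_lit 154)) (XT.lf (nat_lit 76) (nat_lit 44409766738) (nat_lit 0) (nat_lit 77596952213) (nat_lit 836) (nat_lit 267859189959) (nat_lit 120) (nat_lit 5) (nat_lit 119) (nat_lit 5) (nat_lit 130) (nat_lit 5) (nat_lit 435) (nat_lit 432) (nat_lit 153)))))) (XT.nd (nat_lit 546) (nat_lit 1748) (nat_lit 0) (XT.nd (nat_lit 234) (nat_lit 0) (nat_lit 76) (XT.nd (nat_lit 78) (nat_lit 0) (nat_lit 0) (XT.lf (nat_lit 0) (nat_lit 136354115226) (nat_lit 760) (nat_lit 153894515253) (nat_lit 836) (nat_lit 109522246003) (nat_lit 120) (nat_lit 5) (nat_lit 130) (nat_lit 5) (nat_lit 131) (nat_lit 5) (nat_lit 436) (nat_lit 432) (nat_lit 152)) (XT.nd (nat_lit 78) (nat_lit 0) (nat_lit 76) (XT.lf (nat_lit 76) (nat_lit 47493171657) (nat_lit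 0) (nat_lit 105939265279) (nat_lit 836) (nat_lit 256637977729) (nat_lit 121) (nat_lit 5) (nat_lit 120) (nat_lit 5) (nat_lit 131) (nat_lit 5) (nat_lit 437) (nat_lit 432) (nat_lit 151)) (XT.lf (nat_lit 0) (nat_lit 175381108926) (nat_lit 760) (nat_lit 157871704336) (nat_lit 836) (nat_lit 87431294800) (nat_lit 121) (nat_lit 5) (nat_lit 131) (nat_lit 5) (nat_lit 132) (nat_lit 5) (nat_lit 438) (nat_lit 432) (nat_lit 150)))) (XT.nd (nat_lit 156) (nat_lit 0) (nat_lit 76) (XT.nd (nat_lit 78) (nat_lit 0) (nat_lit 76) (XT.lf (nat_lit 76) (nat_lit 57161922001) (nat_lit 0) (nat_lit 143894434880) (nat_lit 836) (nat_lit 230640672145) (nat_lit 122) (nat_lit 5) (nat_lit 121) (nat_lit 5) (nat_lit 132) (nat_lit 5) (nat_lit 439) (nat_lit 432) (nat_lit 149)) (XT.lf (nat_lit 0) (nat_lit 231590447595) (nat_lit 760) (nat_lit 155600225466) (nat_lit 836) (nat_lit 55891168969) (nat_lit 122) (nat_lit 5) (nat_lit 132)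 (nat_lit 5) (nat_lit 133) (nat_lit 5) (nat_lit 440) (nat_lit 432) (nat_lit 148))) (XT.nd (nat_lit 78) (nat_lit 0) (nat_lit 76) (XT.lf (nat_lit 76) (nat_lit 74300537675) (nat_lit 0) (nat_lit 192869647360) (nat_lit 836) (nat_lit 187689763553) (nat_lit 123) (nat_lit 5) (nat_lit 122) (nat_lit 5) (nat_lit 133) (nat_lit 5) (nat_lit 441) (nat_lit 432) (nat_lit 147)) (XT.lf (nat_lit 0) (nat_lit 307381607014) (nat_lit 760) (nat_lit 146214348484) (nat_lit 76) (nat_lit 13488370105) (nat_lit 123) (nat_lit 5) (nat_lit 133) (nat_lit 5) (nat_lit 124) (nat_lit 5) (nat_lit 442) (nat_lit 432) (nat_lit 146))))) (XT.nd (nat_lit 234) (nat_lit 836) (nat_lit 0) (XT.nd (nat_lit 78) (nat_lit 380) (nat_lit 0) (XT.lf (nat_lit 0) (nat_lit 99883031884) (nat_lit 760) (nat_lit 254441799044) (nat_lit 836) (nat_lit 125359029008) (nat_lit 113) (nat_lit 5) (nat_lit 123) (nat_lit 5) (nat_lit 124) (nat_lit 5) (nat_lit 443) (nat_lit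 432) (nat_lit 145)) (XT.nd (nat_lit 78) (nat_lit 380) (nat_lit 0) (XT.lf (nat_lit 0) (nat_lit 363361495100) (nat_lit 760) (nat_lit 42729911672) (nat_lit 836) (nat_lit 86698154688) (nat_lit 113) (nat_lit 5) (nat_lit 123) (nat_lit 5) (nat_lit 124) (nat_lit 5) (nat_lit 444) (nat_lit 432) (nat_lit 144)) (XT.lf (nat_lit 0) (nat_lit 134979963907) (nat_lit 380) (nat_lit 330377296999) (nat_lit 456) (nat_lit 40947739691) (nat_lit 108) (nat_lit 5) (nat_lit 113) (nat_lit 5) (nat_lit 114) (nat_lit 5) (nat_lit 445) (nat_lit 432) (nat_lit 143)))) (XT.nd (nat_lit 156) (nat_lit 380) (nat_lit 0) (XT.nd (nat_lit 78) (nat_lit 380) (nat_lit 0) (XT.lf (nat_lit 0) (nat_lit 9791597303) (nat_lit 456) (nat_lit 104131909506) (nat_lit 76) (nat_lit 406420753407) (nat_lit 107) (nat_lit 5) (nat_lit 113) (nat_lit 5) (nat_lit 108) (nat_lit 5) (nat_lit 446) (nat_lit 432) (nat_lit 142)) (XT.lf (nat_lit 0) (nat_lit 66353673526)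 (nat_lit 456) (nat_lit 355176761810) (nat_lit 76) (nat_lit 113288389522) (nat_lit 102) (nat_lit 5) (nat_lit 108) (nat_lit 5) (nat_lit 103) (nat_lit 5) (nat_lit 447) (nat_lit 432) (nat_lit 141))) (XT.nd (nat_lit 78) (nat_lit 380) (nat_lit 0) (XT.lf (nat_lit 0) (nat_lit 129403869290) (nat_lit 456) (nat_lit 70605509568) (nat_lit 76) (nat_lit 349824738094) (nat_lit 102) (nat_lit 5) (nat_lit 108) (nat_lit 5) (nat_lit 103) (nat_lit 5) (nat_lit 448) (nat_lit 432) (nat_lit 140)) (XT.lf (nat_lit 0) (nat_lit 199856234162) (nat_lit 456) (nat_lit 330245848019) (nat_lit 76) (nat_lit 35285608514) (nat_lit 97) (nat_lit 5) (nat_lit 103) (nat_lit 5) (nat_lit 98) (nat_lit 5) (nat_lit 449) (nat_lit 432) (nat_lit 139))))))))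
noncomputable def xc251 : XT := (XT.nd (nat_lit 52884) (nat_lit 0) (nat_lit 228) (XT.nd (nat_lit 51792) (nat_lit 0) (nat_lit 2812) (XT.nd (nat_lit 468) (nat_lit 1064) (nat_lit 0) (XT.nd (nat_lit 234) (nat_lit 304) (nat_lit 0) (XT.nd (nat_lit 78) (nat_lit 608) (nat_lit 0) (XT.lf (nat_lit 0) (nat_lit 278325384358) (nat_lit 456) (nat_lit 26329792319) (nat_lit 76) (nat_lit 276839058100) (nat_lit 97) (nat_lit 5) (nat_lit 103) (nat_lit 5) (nat_lit 98) (nat_lit 5) (nat_lit 450) (nat_lit 432) (nat_lit 138)) (XT.nd (nat_lit 78) (nat_lit 304) (nat_lit 0) (XT.lf (nat_lit 0) (nat_lit 302462745838) (nat_lit 304) (nat_lit 62977522163) (nat_lit 380) (nat_lit 232729724273) (nat_lit 93) (nat_lit 5) (nat_lit 97) (nat_lit 5) (nat_lit 98) (nat_lit 5) (nat_lit 451) (nat_lit 432) (nat_lit 137)) (XT.lf (nat_lit 0) (nat_lit 30956582906) (nat_lit 304) (nat_lit 429869508071) (nat_lit 380) (nat_lit 154657686918) (nat_lit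 89) (nat_lit 5) (nat_lit 93) (nat_lit 5) (nat_lit 94) (nat_lit 5) (nat_lit 452) (nat_lit 432) (nat_lit 136)))) (XT.nd (nat_lit 78) (nat_lit 304) (nat_lit 0) (XT.lf (nat_lit 0) (nat_lit 383153319515) (nat_lit 304) (nat_lit 183851583059) (nat_lit 380) (nat_lit 66357165355) (nat_lit 89) (nat_lit 5) (nat_lit 93) (nat_lit 5) (nat_lit 94) (nat_lit 5) (nat_lit 453) (nat_lit 432) (nat_lit 135)) (XT.nd (nat_lit 78) (nat_lit 0) (nat_lit 0) (XT.lf (nat_lit 0) (nat_lit 28330256560) (nat_lit 304) (nat_lit 549494438600) (nat_lit 76) (nat_lit 74148225544) (nat_lit 85) (nat_lit 5) (nat_lit 89) (nat_lit 5) (nat_lit 86) (nat_lit 5) (nat_lit 454) (nat_lit 432) (nat_lit 134)) (XT.lf (nat_lit 0) (nat_lit 132842832451) (nat_lit 304) (nat_lit 193986954596) (nat_lit 76) (nat_lit 344264097020) (nat_lit 85) (nat_lit 5) (nat_lit 89) (nat_lit 5) (nat_lit 86) (nat_lit 5) (nat_lit 455) (nat_lit 432) (nat_lit 133)))))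 (XT.nd (nat_lit 234) (nat_lit 532) (nat_lit 0) (XT.nd (nat_lit 78) (nat_lit 228) (nat_lit 0) (XT.lf (nat_lit 0) (nat_lit 185224218922) (nat_lit 304) (nat_lit 60248674493) (nat_lit 380) (nat_lit 445553409374) (nat_lit 81) (nat_lit 5) (nat_lit 85) (nat_lit 5) (nat_lit 86) (nat_lit 5) (nat_lit 456) (nat_lit 432) (nat_lit 132)) (XT.nd (nat_lit 78) (nat_lit 228) (nat_lit 0) (XT.lf (nat_lit 0) (nat_lit 370503096090) (nat_lit 380) (nat_lit 125143744187) (nat_lit 76) (nat_lit 215970070242) (nat_lit 81) (nat_lit 5) (nat_lit 86) (nat_lit 5) (nat_lit 82) (nat_lit 5) (nat_lit 457) (nat_lit 432) (nat_lit 131)) (XT.lf (nat_lit 0) (nat_lit 282604936200) (nat_lit 228) (nat_lit 224579798972) (nat_lit 304) (nat_lit 225782317154) (nat_lit 78) (nat_lit 5) (nat_lit 81) (nat_lit 5) (nat_lit 82) (nat_lit 5) (nat_lit 458) (nat_lit 432) (nat_lit 130)))) (XT.nd (nat_lit 156) (nat_lit 228) (nat_lit 0) (XT.nd (nat_lit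 78) (nat_lit 304) (nat_lit 0) (XT.lf (nat_lit 0) (nat_lit 653791960075) (nat_lit 304) (nat_lit 41165135834) (nat_lit 76) (nat_lit 60273030126) (nat_lit 78) (nat_lit 5) (nat_lit 82) (nat_lit 5) (nat_lit 79) (nat_lit 5) (nat_lit 459) (nat_lit 432) (nat_lit 129)) (XT.lf (nat_lit 0) (nat_lit 38241409491) (nat_lit 304) (nat_lit 381195138618) (nat_lit 76) (nat_lit 358644553555) (nat_lit 74) (nat_lit 5) (nat_lit 78) (nat_lit 5) (nat_lit 75) (nat_lit 5) (nat_lit 460) (nat_lit 432) (nat_lit 128))) (XT.nd (nat_lit 78) (nat_lit 0) (nat_lit 0) (XT.lf (nat_lit 0) (nat_lit 56358466808) (nat_lit 228) (nat_lit 126725992144) (nat_lit 304) (nat_lit 618827596949) (nat_lit 71) (nat_lit 5) (nat_lit 74) (nat_lit 5) (nat_lit 75) (nat_lit 5) (nat_lit 461) (nat_lit 432) (nat_lit 127)) (XT.lf (nat_lit 0) (nat_lit 344551191548) (nat_lit 304) (nat_lit 300513617830) (nat_lit 76) (nat_lit 181400671942) (nat_lit 71) (nat_lit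 5) (nat_lit 75) (nat_lit 5) (nat_lit 72) (nat_lit 5) (nat_lit 462) (nat_lit 432) (nat_lit 126)))))) (XT.nd (nat_lit 546) (nat_lit 760) (nat_lit 0) (XT.nd (nat_lit 234) (nat_lit 0) (nat_lit 76) (XT.nd (nat_lit 78) (nat_lit 0) (nat_lit 0) (XT.lf (nat_lit 0) (nat_lit 53261720467) (nat_lit 836) (nat_lit 68385330342) (nat_lit 836) (nat_lit 68385330342) (nat_lit 118) (nat_lit 3) (nat_lit 129) (nat_lit 3) (nat_lit 129) (nat_lit 5) (nat_lit 433) (nat_lit 433) (nat_lit 154)) (XT.nd (nat_lit 78) (nat_lit 0) (nat_lit 76) (XT.lf (nat_lit 76) (nat_lit 49465951569) (nat_lit 0) (nat_lit 60493319433) (nat_lit 836) (nat_lit 279568472914) (nat_lit 119) (nat_lit 5) (nat_lit 118) (nat_lit 3) (nat_lit 129) (nat_lit 5) (nat_lit 434) (nat_lit 433) (nat_lit 153)) (XT.lf (nat_lit 0) (nat_lit 117973377215) (nat_lit 760) (nat_lit 151675550450) (nat_lit 836) (nat_lit 129594622729) (nat_lit 119) (nat_lit 5) (nat_lit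 129) (nat_lit 5) (nat_lit 130) (nat_lit 5) (nat_lit 435) (nat_lit 433) (nat_lit 152)))) (XT.nd (nat_lit 156) (nat_lit 0) (nat_lit 76) (XT.nd (nat_lit 78) (nat_lit 0) (nat_lit 76) (XT.lf (nat_lit 76) (nat_lit 46630769429) (nat_lit 0) (nat_lit 81477123090) (nat_lit 836) (nat_lit 281251269502) (nat_lit 120) (nat_lit 5) (nat_lit 119) (nat_lit 5) (nat_lit 130) (nat_lit 5) (nat_lit 436) (nat_lit 433) (nat_lit 151)) (XT.lf (nat_lit 0) (nat_lit 143172613914) (nat_lit 760) (nat_lit 161588706030) (nat_lit 836) (nat_lit 114998060283) (nat_lit 120) (nat_lit 5) (nat_lit 130) (nat_lit 5) (nat_lit 131) (nat_lit 5) (nat_lit 437) (nat_lit 433) (nat_lit 150))) (XT.nd (nat_lit 78) (nat_lit 0) (nat_lit 76) (XT.lf (nat_lit 76) (nat_lit 49868356597) (nat_lit 0) (nat_lit 111236465573) (nat_lit 836) (nat_lit 269469074649) (nat_lit 121) (nat_lit 5) (nat_lit 120) (nat_lit 5) (nat_lit 131) (nat_lit 5) (nat_lit 438)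 (nat_lit 433) (nat_lit 149)) (XT.lf (nat_lit 0) (nat_lit 184150887883) (nat_lit 760) (nat_lit 165764747993) (nat_lit 836) (nat_lit 91802641023) (nat_lit 121) (nat_lit 5) (nat_lit 131) (nat_lit 5) (nat_lit 132) (nat_lit 5) (nat_lit 439) (nat_lit 433) (nat_lit 148))))) (XT.nd (nat_lit 234) (nat_lit 988) (nat_lit 0) (XT.nd (nat_lit 78) (nat_lit 0) (nat_lit 76) (XT.lf (nat_lit 76) (nat_lit 60020550926) (nat_lit 0) (nat_lit 151089321175) (nat_lit 836) (nat_lit 242171973134) (nat_lit 122) (nat_lit 5) (nat_lit 121) (nat_lit 5) (nat_lit 132) (nat_lit 5) (nat_lit 440) (nat_lit 433) (nat_lit 147)) (XT.nd (nat_lit 78) (nat_lit 0) (nat_lit 0) (XT.lf (nat_lit 0) (nat_lit 243170631696) (nat_lit 760) (nat_lit 163379693277) (nat_lit 836) (nat_lit 58685575718) (nat_lit 122) (nat_lit 5) (nat_lit 132) (nat_lit 5) (nat_lit 133) (nat_lit 5) (nat_lit 441) (nat_lit 433) (nat_lit 146)) (XT.lf (nat_lit 76) (nat_lit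 78016099256) (nat_lit 0) (nat_lit 202513233590) (nat_lit 836) (nat_lit 197073580906) (nat_lit 123) (nat_lit 5) (nat_lit 122) (nat_lit 5) (nat_lit 133) (nat_lit 5) (nat_lit 442) (nat_lit 433) (nat_lit 145)))) (XT.nd (nat_lit 156) (nat_lit 380) (nat_lit 0) (XT.nd (nat_lit 78) (nat_lit 760) (nat_lit 0) (XT.lf (nat_lit 0) (nat_lit 322751293971) (nat_lit 760) (nat_lit 153524524398) (nat_lit 76) (nat_lit 14162692860) (nat_lit 123) (nat_lit 5) (nat_lit 133) (nat_lit 5) (nat_lit 124) (nat_lit 5) (nat_lit 443) (nat_lit 433) (nat_lit 144)) (XT.lf (nat_lit 0) (nat_lit 104877716253) (nat_lit 760) (nat_lit 267163942260) (nat_lit 836) (nat_lit 131626364811) (nat_lit 113) (nat_lit 5) (nat_lit 123) (nat_lit 5) (nat_lit 124) (nat_lit 5) (nat_lit 444) (nat_lit 433) (nat_lit 143))) (XT.nd (nat_lit 78) (nat_lit 380) (nat_lit 0) (XT.lf (nat_lit 0) (nat_lit 381530077260) (nat_lit 760) (nat_lit 44866457983) (nat_lit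 836) (nat_lit 91032476091) (nat_lit 113) (nat_lit 5) (nat_lit 123) (nat_lit 5) (nat_lit 124) (nat_lit 5) (nat_lit 445) (nat_lit 433) (nat_lit 142)) (XT.lf (nat_lit 0) (nat_lit 141729489846) (nat_lit 380) (nat_lit 346896173144) (nat_lit 456) (nat_lit 42994560405) (nat_lit 108) (nat_lit 5) (nat_lit 113) (nat_lit 5) (nat_lit 114) (nat_lit 5) (nat_lit 446) (nat_lit 433) (nat_lit 141))))))) (XT.nd (nat_lit 52104) (nat_lit 0) (nat_lit 2584) (XT.nd (nat_lit 546) (nat_lit 1140) (nat_lit 0) (XT.nd (nat_lit 234) (nat_lit 988) (nat_lit 0) (XT.nd (nat_lit 78) (nat_lit 380) (nat_lit 0) (XT.lf (nat_lit 0) (nat_lit 10281699212) (nat_lit 456) (nat_lit 109337984854) (nat_lit 76) (nat_lit 426741762806) (nat_lit 107) (nat_lit 5) (nat_lit 113) (nat_lit 5) (nat_lit 108) (nat_lit 5) (nat_lit 447) (nat_lit 433) (nat_lit 140)) (XT.nd (nat_lit 78) (nat_lit 0) (nat_lit 0) (XT.lf (nat_lit 0) (nat_lit 69671862479) (nat_lit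 456) (nat_lit 372935062765) (nat_lit 76) (nat_lit 118952815352) (nat_lit 102) (nat_lit 5) (nat_lit 108) (nat_lit 5) (nat_lit 103) (nat_lit 5) (nat_lit 448) (nat_lit 433) (nat_lit 139)) (XT.lf (nat_lit 0) (nat_lit 135874543971) (nat_lit 456) (nat_lit 74135273490) (nat_lit 76) (nat_lit 367315981050) (nat_lit 102) (nat_lit 5) (nat_lit 108) (nat_lit 5) (nat_lit 103) (nat_lit 5) (nat_lit 449) (nat_lit 433) (nat_lit 138)))) (XT.nd (nat_lit 156) (nat_lit 608) (nat_lit 0) (XT.nd (nat_lit 78) (nat_lit 0) (nat_lit 0) (XT.lf (nat_lit 0) (nat_lit 209849512609) (nat_lit 456) (nat_lit 346757614169) (nat_lit 76) (nat_lit 37049924897) (nat_lit 97) (nat_lit 5) (nat_lit 103) (nat_lit 5) (nat_lit 98) (nat_lit 5) (nat_lit 450) (nat_lit 433) (nat_lit 137)) (XT.lf (nat_lit 0) (nat_lit 292242098089) (nat_lit 456) (nat_lit 27645780743) (nat_lit 76) (nat_lit 290681045251) (nat_lit 97) (nat_lit 5) (nat_lit 103) (nat_lit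 5) (nat_lit 98) (nat_lit 5) (nat_lit 451) (nat_lit 433) (nat_lit 136))) (XT.nd (nat_lit 78) (nat_lit 304) (nat_lit 0) (XT.lf (nat_lit 0) (nat_lit 317586376238) (nat_lit 304) (nat_lit 66126336208) (nat_lit 380) (nat_lit 244365757692) (nat_lit 93) (nat_lit 5) (nat_lit 97) (nat_lit 5) (nat_lit 98) (nat_lit 5) (nat_lit 452) (nat_lit 433) (nat_lit 135)) (XT.lf (nat_lit 0) (nat_lit 32504917652) (nat_lit 304) (nat_lit 451362897209) (nat_lit 380) (nat_lit 162390130773) (nat_lit 89) (nat_lit 5) (nat_lit 93) (nat_lit 5) (nat_lit 94) (nat_lit 5) (nat_lit 453) (nat_lit 433) (nat_lit 134))))) (XT.nd (nat_lit 234) (nat_lit 836) (nat_lit 0) (XT.nd (nat_lit 78) (nat_lit 304) (nat_lit 0) (XT.lf (nat_lit 0) (nat_lit 402311467016) (nat_lit 304) (nat_lit 193044080055) (nat_lit 380) (nat_lit 69674604108) (nat_lit 89) (nat_lit 5) (nat_lit 93) (nat_lit 5) (nat_lit 94) (nat_lit 5) (nat_lit 454) (nat_lit 433) (nat_lit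 133)) (XT.nd (nat_lit 78) (nat_lit 0) (nat_lit 0) (XT.lf (nat_lit 0) (nat_lit 29747165193) (nat_lit 304) (nat_lit 576968654962) (nat_lit 76) (nat_lit 77855726633) (nat_lit 85) (nat_lit 5) (nat_lit 89) (nat_lit 5) (nat_lit 86) (nat_lit 5) (nat_lit 455) (nat_lit 433) (nat_lit 132)) (XT.lf (nat_lit 0) (nat_lit 139485351030) (nat_lit 304) (nat_lit 203685820832) (nat_lit 76) (nat_lit 361477387405) (nat_lit 85) (nat_lit 5) (nat_lit 89) (nat_lit 5) (nat_lit 86) (nat_lit 5) (nat_lit 456) (nat_lit 433) (nat_lit 131)))) (XT.nd (nat_lit 234) (nat_lit 532) (nat_lit 0) (XT.nd (nat_lit 78) (nat_lit 0) (nat_lit 0) (XT.lf (nat_lit 0) (nat_lit 194485903597) (nat_lit 304) (nat_lit 63261000892) (nat_lit 380) (nat_lit 467830694972) (nat_lit 81) (nat_lit 5) (nat_lit 85) (nat_lit 5) (nat_lit 86) (nat_lit 5) (nat_lit 457) (nat_lit 433) (nat_lit 130)) (XT.lf (nat_lit 0) (nat_lit 389028601445) (nat_lit 380) (nat_lit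 131400464234) (nat_lit 76) (nat_lit 226768672698) (nat_lit 81) (nat_lit 5) (nat_lit 86) (nat_lit 5) (nat_lit 82) (nat_lit 5) (nat_lit 458) (nat_lit 433) (nat_lit 129))) (XT.nd (nat_lit 78) (nat_lit 304) (nat_lit 0) (XT.lf (nat_lit 0) (nat_lit 686481884636) (nat_lit 304) (nat_lit 43222940282) (nat_lit 76) (nat_lit 63286790963) (nat_lit 78) (nat_lit 5) (nat_lit 82) (nat_lit 5) (nat_lit 79) (nat_lit 5) (nat_lit 460) (nat_lit 433) (nat_lit 127)) (XT.lf (nat_lit 0) (nat_lit 40153803251) (nat_lit 304) (nat_lit 400254439696) (nat_lit 76) (nat_lit 376576897520) (nat_lit 74) (nat_lit 5) (nat_lit 78) (nat_lit 5) (nat_lit 75) (nat_lit 5) (nat_lit 461) (nat_lit 433) (nat_lit 126)))))) (XT.nd (nat_lit 546) (nat_lit 760) (nat_lit 0) (XT.nd (nat_lit 234) (nat_lit 0) (nat_lit 76) (XT.nd (nat_lit 78) (nat_lit 0) (nat_lit 0) (XT.lf (nat_lit 0) (nat_lit 55925241503) (nat_lit 836) (nat_lit 71804368358) (nat_lit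 836) (nat_lit 71804368358) (nat_lit 118) (nat_lit 3) (nat_lit 129) (nat_lit 3) (nat_lit 129) (nat_lit 5) (nat_lit 434) (nat_lit 434) (nat_lit 152)) (XT.nd (nat_lit 78) (nat_lit 0) (nat_lit 76) (XT.lf (nat_lit 76) (nat_lit 51939698778) (nat_lit 0) (nat_lit 63518371390) (nat_lit 836) (nat_lit 293546018710) (nat_lit 119) (nat_lit 5) (nat_lit 118) (nat_lit 3) (nat_lit 129) (nat_lit 5) (nat_lit 435) (nat_lit 434) (nat_lit 151)) (XT.lf (nat_lit 0) (nat_lit 123872836162) (nat_lit 760) (nat_lit 159258853791) (nat_lit 836) (nat_lit 136073998026) (nat_lit 119) (nat_lit 5) (nat_lit 129) (nat_lit 5) (nat_lit 130) (nat_lit 5) (nat_lit 436) (nat_lit 434) (nat_lit 150)))) (XT.nd (nat_lit 156) (nat_lit 0) (nat_lit 76) (XT.nd (nat_lit 78) (nat_lit 0) (nat_lit 76) (XT.lf (nat_lit 76) (nat_lit 48962774434) (nat_lit 0) (nat_lit 85551272458) (nat_lit 836) (nat_lit 295313034832) (nat_lit 120) (nat_lit 5) (nat_lit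 119) (nat_lit 5) (nat_lit 130) (nat_lit 5) (nat_lit 437) (nat_lit 434) (nat_lit 149)) (XT.lf (nat_lit 0) (nat_lit 150331963818) (nat_lit 760) (nat_lit 169667656084) (nat_lit 836) (nat_lit 120747692985) (nat_lit 120) (nat_lit 5) (nat_lit 130) (nat_lit 5) (nat_lit 131) (nat_lit 5) (nat_lit 438) (nat_lit 434) (nat_lit 148))) (XT.nd (nat_lit 78) (nat_lit 0) (nat_lit 76) (XT.lf (nat_lit 76) (nat_lit 52362251848) (nat_lit 0) (nat_lit 116798503845) (nat_lit 836) (nat_lit 282941800973) (nat_lit 121) (nat_lit 5) (nat_lit 120) (nat_lit 5) (nat_lit 131) (nat_lit 5) (nat_lit 439) (nat_lit 434) (nat_lit 147)) (XT.lf (nat_lit 0) (nat_lit 193359088523) (nat_lit 760) (nat_lit 174052494182) (nat_lit 836) (nat_lit 96392574872) (nat_lit 121) (nat_lit 5) (nat_lit 131) (nat_lit 5) (nat_lit 132) (nat_lit 5) (nat_lit 440) (nat_lit 434) (nat_lit 146))))) (XT.nd (nat_lit 234) (nat_lit 988) (nat_lit 0) (XT.nd (nat_lit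 78) (nat_lit 0) (nat_lit 76) (XT.lf (nat_lit 76) (nat_lit 63022061760) (nat_lit 0) (nat_lit 158643936487) (nat_lit 836) (nat_lit 254279907284) (nat_lit 122) (nat_lit 5) (nat_lit 121) (nat_lit 5) (nat_lit 132) (nat_lit 5) (nat_lit 441) (nat_lit 434) (nat_lit 145)) (XT.nd (nat_lit 78) (nat_lit 0) (nat_lit 0) (XT.lf (nat_lit 0) (nat_lit 255329763481) (nat_lit 760) (nat_lit 171548185004) (nat_lit 836) (nat_lit 61619716908) (nat_lit 122) (nat_lit 5) (nat_lit 132) (nat_lit 5) (nat_lit 133) (nat_lit 5) (nat_lit 442) (nat_lit 434) (nat_lit 144)) (XT.lf (nat_lit 76) (nat_lit 81917389205) (nat_lit 0) (nat_lit 212638989475) (nat_lit 836) (nat_lit 206926651493) (nat_lit 123) (nat_lit 5) (nat_lit 122) (nat_lit 5) (nat_lit 133) (nat_lit 5) (nat_lit 443) (nat_lit 434) (nat_lit 143)))) (XT.nd (nat_lit 156) (nat_lit 380) (nat_lit 0) (XT.nd (nat_lit 78) (nat_lit 760) (nat_lit 0) (XT.lf (nat_lit 0) (nat_lit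 338889408880) (nat_lit 760) (nat_lit 161200259453) (nat_lit 76) (nat_lit 14870740655) (nat_lit 123) (nat_lit 5) (nat_lit 133) (nat_lit 5) (nat_lit 124) (nat_lit 5) (nat_lit 444) (nat_lit 434) (nat_lit 142)) (XT.lf (nat_lit 0) (nat_lit 110122085309) (nat_lit 760) (nat_lit 280522187685) (nat_lit 836) (nat_lit 138207124640) (nat_lit 113) (nat_lit 5) (nat_lit 123) (nat_lit 5) (nat_lit 124) (nat_lit 5) (nat_lit 445) (nat_lit 434) (nat_lit 141))) (XT.nd (nat_lit 78) (nat_lit 380) (nat_lit 0) (XT.lf (nat_lit 0) (nat_lit 400607041355) (nat_lit 760) (nat_lit 47109826893) (nat_lit 836) (nat_lit 95583568076) (nat_lit 113) (nat_lit 5) (nat_lit 123) (nat_lit 5) (nat_lit 124) (nat_lit 5) (nat_lit 446) (nat_lit 434) (nat_lit 140)) (XT.lf (nat_lit 0) (nat_lit 148816443018) (nat_lit 380) (nat_lit 364240992047) (nat_lit 456) (nat_lit 45143774802) (nat_lit 108) (nat_lit 5) (nat_lit 113) (nat_lit 5) (nat_lit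 114) (nat_lit 5) (nat_lit 447) (nat_lit 434) (nat_lit 139))))))))
noncomputable def xc252 : XT := (XT.nd (nat_lit 53196) (nat_lit 0) (nat_lit 228) (XT.nd (nat_lit 52104) (nat_lit 0) (nat_lit 2280) (XT.nd (nat_lit 468) (nat_lit 1140) (nat_lit 0) (XT.nd (nat_lit 234) (nat_lit 684) (nat_lit 0) (XT.nd (nat_lit 78) (nat_lit 380) (nat_lit 0) (XT.lf (nat_lit 0) (nat_lit 10796257682) (nat_lit 456) (nat_lit 114804412326) (nat_lit 76) (nat_lit 448078825304) (nat_lit 107) (nat_lit 5) (nat_lit 113) (nat_lit 5) (nat_lit 108) (nat_lit 5) (nat_lit 448) (nat_lit 434) (nat_lit 138)) (XT.nd (nat_lit 78) (nat_lit 0) (nat_lit 0) (XT.lf (nat_lit 0) (nat_lit 73155913904) (nat_lit 456) (nat_lit 391581328707) (nat_lit 76) (nat_lit 124900461883) (nat_lit 102) (nat_lit 5) (nat_lit 108) (nat_lit 5) (nat_lit 103) (nat_lit 5) (nat_lit 449) (nat_lit 434) (nat_lit 137)) (XT.lf (nat_lit 0) (nat_lit 142668707647) (nat_lit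 456) (nat_lit 77841573167) (nat_lit 76) (nat_lit 385681785591) (nat_lit 102) (nat_lit 5) (nat_lit 108) (nat_lit 5) (nat_lit 103) (nat_lit 5) (nat_lit 450) (nat_lit 434) (nat_lit 136)))) (XT.nd (nat_lit 78) (nat_lit 304) (nat_lit 0) (XT.lf (nat_lit 0) (nat_lit 220342411585) (nat_lit 456) (nat_lit 364095017551) (nat_lit 76) (nat_lit 38902453757) (nat_lit 97) (nat_lit 5) (nat_lit 103) (nat_lit 5) (nat_lit 98) (nat_lit 5) (nat_lit 451) (nat_lit 434) (nat_lit 135)) (XT.nd (nat_lit 78) (nat_lit 304) (nat_lit 0) (XT.lf (nat_lit 0) (nat_lit 306854606180) (nat_lit 456) (nat_lit 29027615184) (nat_lit 76) (nat_lit 305215128576) (nat_lit 97) (nat_lit 5) (nat_lit 103) (nat_lit 5) (nat_lit 98) (nat_lit 5) (nat_lit 452) (nat_lit 434) (nat_lit 134)) (XT.lf (nat_lit 0) (nat_lit 333466142314) (nat_lit 304) (nat_lit 69432596725) (nat_lit 380) (nat_lit 256583634878) (nat_lit 93) (nat_lit 5) (nat_lit 97) (nat_lit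 5) (nat_lit 98) (nat_lit 5) (nat_lit 453) (nat_lit 434) (nat_lit 133))))) (XT.nd (nat_lit 234) (nat_lit 532) (nat_lit 0) (XT.nd (nat_lit 78) (nat_lit 304) (nat_lit 0) (XT.lf (nat_lit 0) (nat_lit 34130622130) (nat_lit 304) (nat_lit 473930963824) (nat_lit 380) (nat_lit 170509237774) (nat_lit 89) (nat_lit 5) (nat_lit 93) (nat_lit 5) (nat_lit 94) (nat_lit 5) (nat_lit 454) (nat_lit 434) (nat_lit 132)) (XT.nd (nat_lit 78) (nat_lit 304) (nat_lit 0) (XT.lf (nat_lit 0) (nat_lit 422427477124) (nat_lit 304) (nat_lit 202696209538) (nat_lit 380) (nat_lit 73157953801) (nat_lit 89) (nat_lit 5) (nat_lit 93) (nat_lit 5) (nat_lit 94) (nat_lit 5) (nat_lit 455) (nat_lit 434) (nat_lit 131)) (XT.lf (nat_lit 0) (nat_lit 31234882458) (nat_lit 304) (nat_lit 605816629144) (nat_lit 76) (nat_lit 81748594426) (nat_lit 85) (nat_lit 5) (nat_lit 89) (nat_lit 5) (nat_lit 86) (nat_lit 5) (nat_lit 456) (nat_lit 434) (nat_lit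 130)))) (XT.nd (nat_lit 234) (nat_lit 228) (nat_lit 0) (XT.nd (nat_lit 78) (nat_lit 304) (nat_lit 0) (XT.lf (nat_lit 0) (nat_lit 146459960493) (nat_lit 304) (nat_lit 213869675144) (nat_lit 76) (nat_lit 379551334358) (nat_lit 85) (nat_lit 5) (nat_lit 89) (nat_lit 5) (nat_lit 86) (nat_lit 5) (nat_lit 457) (nat_lit 434) (nat_lit 129)) (XT.lf (nat_lit 0) (nat_lit 204210628462) (nat_lit 304) (nat_lit 66423953589) (nat_lit 380) (nat_lit 491221880632) (nat_lit 81) (nat_lit 5) (nat_lit 85) (nat_lit 5) (nat_lit 86) (nat_lit 5) (nat_lit 458) (nat_lit 434) (nat_lit 128))) (XT.nd (nat_lit 78) (nat_lit 0) (nat_lit 0) (XT.lf (nat_lit 0) (nat_lit 311572841664) (nat_lit 228) (nat_lit 247598996276) (nat_lit 304) (nat_lit 248924303617) (nat_lit 78) (nat_lit 5) (nat_lit 81) (nat_lit 5) (nat_lit 82) (nat_lit 5) (nat_lit 460) (nat_lit 434) (nat_lit 126)) (XT.lf (nat_lit 0) (nat_lit 720806275065) (nat_lit 304)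 (nat_lit 45383677007) (nat_lit 76) (nat_lit 66451229678) (nat_lit 78) (nat_lit 5) (nat_lit 82) (nat_lit 5) (nat_lit 79) (nat_lit 5) (nat_lit 461) (nat_lit 434) (nat_lit 125)))))) (XT.nd (nat_lit 546) (nat_lit 760) (nat_lit 0) (XT.nd (nat_lit 234) (nat_lit 0) (nat_lit 76) (XT.nd (nat_lit 78) (nat_lit 0) (nat_lit 0) (XT.lf (nat_lit 0) (nat_lit 58721898148) (nat_lit 836) (nat_lit 75394379519) (nat_lit 836) (nat_lit 75394379519) (nat_lit 118) (nat_lit 3) (nat_lit 129) (nat_lit 3) (nat_lit 129) (nat_lit 5) (nat_lit 435) (nat_lit 435) (nat_lit 150)) (XT.nd (nat_lit 78) (nat_lit 0) (nat_lit 76) (XT.lf (nat_lit 76) (nat_lit 54537091545) (nat_lit 0) (nat_lit 66694640060) (nat_lit 836) (nat_lit 308222523409) (nat_lit 119) (nat_lit 5) (nat_lit 118) (nat_lit 3) (nat_lit 129) (nat_lit 5) (nat_lit 436) (nat_lit 435) (nat_lit 149)) (XT.lf (nat_lit 0) (nat_lit 130067194601) (nat_lit 760) (nat_lit 167221366383)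 (nat_lit 836) (nat_lit 142877375170) (nat_lit 119) (nat_lit 5) (nat_lit 129) (nat_lit 5) (nat_lit 130) (nat_lit 5) (nat_lit 437) (nat_lit 435) (nat_lit 148)))) (XT.nd (nat_lit 156) (nat_lit 0) (nat_lit 76) (XT.nd (nat_lit 78) (nat_lit 0) (nat_lit 76) (XT.lf (nat_lit 76) (nat_lit 51411336316) (nat_lit 0) (nat_lit 89829102033) (nat_lit 836) (nat_lit 310077962633) (nat_lit 120) (nat_lit 5) (nat_lit 119) (nat_lit 5) (nat_lit 130) (nat_lit 5) (nat_lit 438) (nat_lit 435) (nat_lit 147)) (XT.lf (nat_lit 0) (nat_lit 157849214353) (nat_lit 760) (nat_lit 178150598754) (nat_lit 836) (nat_lit 126784832453) (nat_lit 120) (nat_lit 5) (nat_lit 130) (nat_lit 5) (nat_lit 131) (nat_lit 5) (nat_lit 439) (nat_lit 435) (nat_lit 146))) (XT.nd (nat_lit 78) (nat_lit 0) (nat_lit 76) (XT.lf (nat_lit 76) (nat_lit 54980797475) (nat_lit 0) (nat_lit 122638624042) (nat_lit 836) (nat_lit 297088231242) (nat_lit 121) (nat_lit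 5) (nat_lit 120) (nat_lit 5) (nat_lit 131) (nat_lit 5) (nat_lit 440) (nat_lit 435) (nat_lit 145)) (XT.lf (nat_lit 0) (nat_lit 203027638183) (nat_lit 760) (nat_lit 182754673348) (nat_lit 836) (nat_lit 101212023841) (nat_lit 121) (nat_lit 5) (nat_lit 131) (nat_lit 5) (nat_lit 132) (nat_lit 5) (nat_lit 441) (nat_lit 435) (nat_lit 144))))) (XT.nd (nat_lit 234) (nat_lit 988) (nat_lit 0) (XT.nd (nat_lit 78) (nat_lit 0) (nat_lit 76) (XT.lf (nat_lit 76) (nat_lit 66173603205) (nat_lit 0) (nat_lit 166576268688) (nat_lit 836) (nat_lit 266993299921) (nat_lit 122) (nat_lit 5) (nat_lit 121) (nat_lit 5) (nat_lit 132) (nat_lit 5) (nat_lit 442) (nat_lit 435) (nat_lit 143)) (XT.nd (nat_lit 78) (nat_lit 0) (nat_lit 0) (XT.lf (nat_lit 0) (nat_lit 268096796055) (nat_lit 760) (nat_lit 180125147146) (nat_lit 836) (nat_lit 64700577949) (nat_lit 122) (nat_lit 5) (nat_lit 132) (nat_lit 5) (nat_lit 133) (nat_lit 5)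 (nat_lit 443) (nat_lit 435) (nat_lit 142)) (XT.lf (nat_lit 76) (nat_lit 86013698562) (nat_lit 0) (nat_lit 223271024396) (nat_lit 836) (nat_lit 217272432178) (nat_lit 123) (nat_lit 5) (nat_lit 122) (nat_lit 5) (nat_lit 133) (nat_lit 5) (nat_lit 444) (nat_lit 435) (nat_lit 141)))) (XT.nd (nat_lit 156) (nat_lit 380) (nat_lit 0) (XT.nd (nat_lit 78) (nat_lit 760) (nat_lit 0) (XT.lf (nat_lit 0) (nat_lit 355834378381) (nat_lit 760) (nat_lit 169259826925) (nat_lit 76) (nat_lit 15614198914) (nat_lit 123) (nat_lit 5) (nat_lit 133) (nat_lit 5) (nat_lit 124) (nat_lit 5) (nat_lit 445) (nat_lit 435) (nat_lit 140)) (XT.lf (nat_lit 0) (nat_lit 115628627891) (nat_lit 760) (nat_lit 294548340889) (nat_lit 836) (nat_lit 145116974378) (nat_lit 113) (nat_lit 5) (nat_lit 123) (nat_lit 5) (nat_lit 124) (nat_lit 5) (nat_lit 446) (nat_lit 435) (nat_lit 139))) (XT.nd (nat_lit 78) (nat_lit 380) (nat_lit 0) (XT.lf (nat_lit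 0) (nat_lit 420637810866) (nat_lit 760) (nat_lit 49465359972) (nat_lit 836) (nat_lit 100362264104) (nat_lit 113) (nat_lit 5) (nat_lit 123) (nat_lit 5) (nat_lit 124) (nat_lit 5) (nat_lit 447) (nat_lit 435) (nat_lit 138)) (XT.lf (nat_lit 0) (nat_lit 156257699346) (nat_lit 380) (nat_lit 382453050942) (nat_lit 456) (nat_lit 47400497670) (nat_lit 108) (nat_lit 5) (nat_lit 113) (nat_lit 5) (nat_lit 114) (nat_lit 5) (nat_lit 448) (nat_lit 435) (nat_lit 137))))))) (XT.nd (nat_lit 52260) (nat_lit 0) (nat_lit 1596) (XT.nd (nat_lit 468) (nat_lit 912) (nat_lit 0) (XT.nd (nat_lit 234) (nat_lit 684) (nat_lit 0) (XT.nd (nat_lit 78) (nat_lit 380) (nat_lit 0) (XT.lf (nat_lit 0) (nat_lit 11336500053) (nat_lit 456) (nat_lit 120544205032) (nat_lit 76) (nat_lit 470482743310) (nat_lit 107) (nat_lit 5) (nat_lit 113) (nat_lit 5) (nat_lit 108) (nat_lit 5) (nat_lit 449) (nat_lit 435) (nat_lit 136)) (XT.nd (nat_lit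 78) (nat_lit 0) (nat_lit 0) (XT.lf (nat_lit 0) (nat_lit 76814125292) (nat_lit 456) (nat_lit 411159953240) (nat_lit 76) (nat_lit 131145490204) (nat_lit 102) (nat_lit 5) (nat_lit 108) (nat_lit 5) (nat_lit 103) (nat_lit 5) (nat_lit 450) (nat_lit 435) (nat_lit 135)) (XT.lf (nat_lit 0) (nat_lit 149802538927) (nat_lit 456) (nat_lit 81733230967) (nat_lit 76) (nat_lit 404965879849) (nat_lit 102) (nat_lit 5) (nat_lit 108) (nat_lit 5) (nat_lit 103) (nat_lit 5) (nat_lit 451) (nat_lit 435) (nat_lit 134)))) (XT.nd (nat_lit 78) (nat_lit 304) (nat_lit 0) (XT.lf (nat_lit 0) (nat_lit 231359916152) (nat_lit 456) (nat_lit 382299335480) (nat_lit 76) (nat_lit 40847606028) (nat_lit 97) (nat_lit 5) (nat_lit 103) (nat_lit 5) (nat_lit 98) (nat_lit 5) (nat_lit 452) (nat_lit 435) (nat_lit 133)) (XT.nd (nat_lit 78) (nat_lit 304) (nat_lit 0) (XT.lf (nat_lit 0) (nat_lit 322197702191) (nat_lit 456) (nat_lit 30478583611)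 (nat_lit 76) (nat_lit 320475913178) (nat_lit 97) (nat_lit 5) (nat_lit 103) (nat_lit 5) (nat_lit 98) (nat_lit 5) (nat_lit 453) (nat_lit 435) (nat_lit 132)) (XT.lf (nat_lit 0) (nat_lit 350139855111) (nat_lit 304) (nat_lit 72904175501) (nat_lit 380) (nat_lit 269412444107) (nat_lit 93) (nat_lit 5) (nat_lit 97) (nat_lit 5) (nat_lit 98) (nat_lit 5) (nat_lit 454) (nat_lit 435) (nat_lit 131))))) (XT.nd (nat_lit 312) (nat_lit 304) (nat_lit 0) (XT.nd (nat_lit 78) (nat_lit 304) (nat_lit 0) (XT.lf (nat_lit 0) (nat_lit 35837569195) (nat_lit 304) (nat_lit 497627441045) (nat_lit 380) (nat_lit 179034337270) (nat_lit 89) (nat_lit 5) (nat_lit 93) (nat_lit 5) (nat_lit 94) (nat_lit 5) (nat_lit 455) (nat_lit 435) (nat_lit 130)) (XT.nd (nat_lit 78) (nat_lit 304) (nat_lit 0) (XT.lf (nat_lit 0) (nat_lit 443549247132) (nat_lit 304) (nat_lit 212830952424) (nat_lit 380) (nat_lit 76815506355) (nat_lit 89) (nat_lit 5)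 (nat_lit 93) (nat_lit 5) (nat_lit 94) (nat_lit 5) (nat_lit 456) (nat_lit 435) (nat_lit 129)) (XT.lf (nat_lit 0) (nat_lit 32796952211) (nat_lit 304) (nat_lit 636107044669) (nat_lit 76) (nat_lit 85836098035) (nat_lit 85) (nat_lit 5) (nat_lit 89) (nat_lit 5) (nat_lit 86) (nat_lit 5) (nat_lit 457) (nat_lit 435) (nat_lit 128)))) (XT.nd (nat_lit 51324) (nat_lit 0) (nat_lit 2812) (XT.nd (nat_lit 78) (nat_lit 0) (nat_lit 0) (XT.lf (nat_lit 0) (nat_lit 214421549622) (nat_lit 304) (nat_lit 69745062972) (nat_lit 380) (nat_lit 515782658030) (nat_lit 81) (nat_lit 5) (nat_lit 85) (nat_lit 5) (nat_lit 86) (nat_lit 5) (nat_lit 459) (nat_lit 435) (nat_lit 126)) (XT.lf (nat_lit 0) (nat_lit 428904655350) (nat_lit 380) (nat_lit 144868182567) (nat_lit 76) (nat_lit 250012637282) (nat_lit 81) (nat_lit 5) (nat_lit 86) (nat_lit 5) (nat_lit 82) (nat_lit 5) (nat_lit 460) (nat_lit 435) (nat_lit 125))) (XT.nd (nat_lit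 78) (nat_lit 0) (nat_lit 0) (XT.lf (nat_lit 0) (nat_lit 61658350942) (nat_lit 836) (nat_lit 79163910507) (nat_lit 836) (nat_lit 79163910507) (nat_lit 118) (nat_lit 3) (nat_lit 129) (nat_lit 3) (nat_lit 129) (nat_lit 5) (nat_lit 436) (nat_lit 436) (nat_lit 148)) (XT.lf (nat_lit 76) (nat_lit 57264316035) (nat_lit 0) (nat_lit 70029689615) (nat_lit 836) (nat_lit 323632927369) (nat_lit 119) (nat_lit 5) (nat_lit 118) (nat_lit 3) (nat_lit 129) (nat_lit 5) (nat_lit 437) (nat_lit 436) (nat_lit 147)))))) (XT.nd (nat_lit 546) (nat_lit 1292) (nat_lit 0) (XT.nd (nat_lit 234) (nat_lit 0) (nat_lit 76) (XT.nd (nat_lit 78) (nat_lit 0) (nat_lit 0) (XT.lf (nat_lit 0) (nat_lit 136571204337) (nat_lit 760) (nat_lit 175582044591) (nat_lit 836) (nat_lit 150020951178) (nat_lit 119) (nat_lit 5) (nat_lit 129) (nat_lit 5) (nat_lit 130) (nat_lit 5) (nat_lit 438) (nat_lit 436) (nat_lit 146)) (XT.nd (nat_lit 78) (nat_lit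 0) (nat_lit 76) (XT.lf (nat_lit 76) (nat_lit 53982286950) (nat_lit 0) (nat_lit 94320798362) (nat_lit 836) (nat_lit 325581204128) (nat_lit 120) (nat_lit 5) (nat_lit 119) (nat_lit 5) (nat_lit 130) (nat_lit 5) (nat_lit 439) (nat_lit 436) (nat_lit 145)) (XT.lf (nat_lit 0) (nat_lit 165742266765) (nat_lit 760) (nat_lit 187057729477) (nat_lit 836) (nat_lit 133123851689) (nat_lit 120) (nat_lit 5) (nat_lit 130) (nat_lit 5) (nat_lit 131) (nat_lit 5) (nat_lit 440) (nat_lit 436) (nat_lit 144)))) (XT.nd (nat_lit 156) (nat_lit 0) (nat_lit 76) (XT.nd (nat_lit 78) (nat_lit 0) (nat_lit 76) (XT.lf (nat_lit 76) (nat_lit 57730230125) (nat_lit 0) (nat_lit 128770732119) (nat_lit 836) (nat_lit 311942044363) (nat_lit 121) (nat_lit 5) (nat_lit 120) (nat_lit 5) (nat_lit 131) (nat_lit 5) (nat_lit 441) (nat_lit 436) (nat_lit 143)) (XT.lf (nat_lit 0) (nat_lit 213179559987) (nat_lit 760) (nat_lit 191892002895) (nat_lit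 836) (nat_lit 106272461972) (nat_lit 121) (nat_lit 5) (nat_lit 131) (nat_lit 5) (nat_lit 132) (nat_lit 5) (nat_lit 442) (nat_lit 436) (nat_lit 142))) (XT.nd (nat_lit 78) (nat_lit 0) (nat_lit 76) (XT.lf (nat_lit 76) (nat_lit 69482680968) (nat_lit 0) (nat_lit 174905204913) (nat_lit 836) (nat_lit 280342418227) (nat_lit 122) (nat_lit 5) (nat_lit 121) (nat_lit 5) (nat_lit 132) (nat_lit 5) (nat_lit 443) (nat_lit 436) (nat_lit 141)) (XT.lf (nat_lit 0) (nat_lit 281502129645) (nat_lit 760) (nat_lit 189130998963) (nat_lit 836) (nat_lit 67935493646) (nat_lit 122) (nat_lit 5) (nat_lit 132) (nat_lit 5) (nat_lit 133) (nat_lit 5) (nat_lit 444) (nat_lit 436) (nat_lit 140))))) (XT.nd (nat_lit 234) (nat_lit 836) (nat_lit 0) (XT.nd (nat_lit 78) (nat_lit 684) (nat_lit 0) (XT.lf (nat_lit 76) (nat_lit 90314782490) (nat_lit 0) (nat_lit 234434653119) (nat_lit 836) (nat_lit 228135553207) (nat_lit 123) (nat_lit 5)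 (nat_lit 122) (nat_lit 5) (nat_lit 133) (nat_lit 5) (nat_lit 445) (nat_lit 436) (nat_lit 139)) (XT.nd (nat_lit 78) (nat_lit 760) (nat_lit 0) (XT.lf (nat_lit 0) (nat_lit 373626549960) (nat_lit 760) (nat_lit 177722414188) (nat_lit 76) (nat_lit 16394837410) (nat_lit 123) (nat_lit 5) (nat_lit 133) (nat_lit 5) (nat_lit 124) (nat_lit 5) (nat_lit 446) (nat_lit 436) (nat_lit 138)) (XT.lf (nat_lit 0) (nat_lit 121410456850) (nat_lit 760) (nat_lit 309275797680) (nat_lit 836) (nat_lit 152372363691) (nat_lit 113) (nat_lit 5) (nat_lit 123) (nat_lit 5) (nat_lit 124) (nat_lit 5) (nat_lit 447) (nat_lit 436) (nat_lit 137)))) (XT.nd (nat_lit 156) (nat_lit 456) (nat_lit 0) (XT.nd (nat_lit 78) (nat_lit 380) (nat_lit 0) (XT.lf (nat_lit 0) (nat_lit 441670080043) (nat_lit 760) (nat_lit 51938665824) (nat_lit 836) (nat_lit 105379939780) (nat_lit 113) (nat_lit 5) (nat_lit 123) (nat_lit 5) (nat_lit 124) (nat_lit 5)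 (nat_lit 448) (nat_lit 436) (nat_lit 136)) (XT.lf (nat_lit 0) (nat_lit 164070978124) (nat_lit 380) (nat_lit 401575711918) (nat_lit 456) (nat_lit 49770099994) (nat_lit 108) (nat_lit 5) (nat_lit 113) (nat_lit 5) (nat_lit 114) (nat_lit 5) (nat_lit 449) (nat_lit 436) (nat_lit 135))) (XT.nd (nat_lit 78) (nat_lit 380) (nat_lit 0) (XT.lf (nat_lit 0) (nat_lit 11903714613) (nat_lit 456) (nat_lit 126571027157) (nat_lit 76) (nat_lit 494006859380) (nat_lit 107) (nat_lit 5) (nat_lit 113) (nat_lit 5) (nat_lit 108) (nat_lit 5) (nat_lit 450) (nat_lit 436) (nat_lit 134)) (XT.lf (nat_lit 0) (nat_lit 80655208602) (nat_lit 456) (nat_lit 431717550084) (nat_lit 76) (nat_lit 137702769455) (nat_lit 102) (nat_lit 5) (nat_lit 108) (nat_lit 5) (nat_lit 103) (nat_lit 5) (nat_lit 451) (nat_lit 436) (nat_lit 133))))))))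
noncomputable def xc253 : XT := (XT.nd (nat_lit 53430) (nat_lit 0) (nat_lit 304) (XT.nd (nat_lit 52338) (nat_lit 0) (nat_lit 1216) (XT.nd (nat_lit 546) (nat_lit 608) (nat_lit 0) (XT.nd (nat_lit 234) (nat_lit 608) (nat_lit 0) (XT.nd (nat_lit 78) (nat_lit 380) (nat_lit 0) (XT.lf (nat_lit 0) (nat_lit 157293024964) (nat_lit 456) (nat_lit 85819510783) (nat_lit 76) (nat_lit 425214178357) (nat_lit 102) (nat_lit 5) (nat_lit 108) (nat_lit 5) (nat_lit 103) (nat_lit 5) (nat_lit 452) (nat_lit 436) (nat_lit 132)) (XT.nd (nat_lit 78) (nat_lit 0) (nat_lit 0) (XT.lf (nat_lit 0) (nat_lit 242928260247) (nat_lit 456) (nat_lit 401413909557) (nat_lit 76) (nat_lit 42890013162) (nat_lit 97) (nat_lit 5) (nat_lit 103) (nat_lit 5) (nat_lit 98) (nat_lit 5) (nat_lit 453) (nat_lit 436) (nat_lit 131)) (XT.lf (nat_lit 0) (nat_lit 338307919003) (nat_lit 456) (nat_lit 32002138794) (nat_lit 76) (nat_lit 336499734392) (nat_lit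 97) (nat_lit 5) (nat_lit 103) (nat_lit 5) (nat_lit 98) (nat_lit 5) (nat_lit 454) (nat_lit 436) (nat_lit 130)))) (XT.nd (nat_lit 78) (nat_lit 304) (nat_lit 0) (XT.lf (nat_lit 0) (nat_lit 367647215832) (nat_lit 304) (nat_lit 76549337963) (nat_lit 380) (nat_lit 282882728430) (nat_lit 93) (nat_lit 5) (nat_lit 97) (nat_lit 5) (nat_lit 98) (nat_lit 5) (nat_lit 455) (nat_lit 436) (nat_lit 129)) (XT.nd (nat_lit 78) (nat_lit 0) (nat_lit 0) (XT.lf (nat_lit 0) (nat_lit 37629824943) (nat_lit 304) (nat_lit 522508748724) (nat_lit 380) (nat_lit 187985725433) (nat_lit 89) (nat_lit 5) (nat_lit 93) (nat_lit 5) (nat_lit 94) (nat_lit 5) (nat_lit 456) (nat_lit 436) (nat_lit 128)) (XT.lf (nat_lit 0) (nat_lit 465727068809) (nat_lit 304) (nat_lit 223472438738) (nat_lit 380) (nat_lit 80655968624) (nat_lit 89) (nat_lit 5) (nat_lit 93) (nat_lit 5) (nat_lit 94) (nat_lit 5) (nat_lit 457) (nat_lit 436) (nat_lit 127)))))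 (XT.nd (nat_lit 51480) (nat_lit 0) (nat_lit 2812) (XT.nd (nat_lit 78) (nat_lit 304) (nat_lit 0) (XT.lf (nat_lit 0) (nat_lit 161472713363) (nat_lit 304) (nat_lit 235790541616) (nat_lit 76) (nat_lit 418455483845) (nat_lit 85) (nat_lit 5) (nat_lit 89) (nat_lit 5) (nat_lit 86) (nat_lit 5) (nat_lit 459) (nat_lit 436) (nat_lit 125)) (XT.nd (nat_lit 51324) (nat_lit 0) (nat_lit 2812) (XT.lf (nat_lit 0) (nat_lit 225142980606) (nat_lit 304) (nat_lit 73232236032) (nat_lit 380) (nat_lit 541571503736) (nat_lit 81) (nat_lit 5) (nat_lit 85) (nat_lit 5) (nat_lit 86) (nat_lit 5) (nat_lit 460) (nat_lit 436) (nat_lit 124)) (XT.lf (nat_lit 0) (nat_lit 64741593103) (nat_lit 836) (nat_lit 83121935521) (nat_lit 836) (nat_lit 83121935521) (nat_lit 118) (nat_lit 3) (nat_lit 129) (nat_lit 3) (nat_lit 129) (nat_lit 5) (nat_lit 437) (nat_lit 437) (nat_lit 146)))) (XT.nd (nat_lit 156) (nat_lit 0) (nat_lit 76) (XT.nd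 (nat_lit 78) (nat_lit 0) (nat_lit 76) (XT.lf (nat_lit 76) (nat_lit 60127867358) (nat_lit 0) (nat_lit 73531462124) (nat_lit 836) (nat_lit 339813918672) (nat_lit 119) (nat_lit 5) (nat_lit 118) (nat_lit 3) (nat_lit 129) (nat_lit 5) (nat_lit 438) (nat_lit 437) (nat_lit 145)) (XT.lf (nat_lit 0) (nat_lit 143400354128) (nat_lit 760) (nat_lit 184360792979) (nat_lit 836) (nat_lit 157521733204) (nat_lit 119) (nat_lit 5) (nat_lit 129) (nat_lit 5) (nat_lit 130) (nat_lit 5) (nat_lit 439) (nat_lit 437) (nat_lit 144))) (XT.nd (nat_lit 78) (nat_lit 0) (nat_lit 76) (XT.lf (nat_lit 76) (nat_lit 56681749432) (nat_lit 0) (nat_lit 99037057080) (nat_lit 836) (nat_lit 341859668747) (nat_lit 120) (nat_lit 5) (nat_lit 119) (nat_lit 5) (nat_lit 130) (nat_lit 5) (nat_lit 440) (nat_lit 437) (nat_lit 143)) (XT.lf (nat_lit 0) (nat_lit 174029916787) (nat_lit 760) (nat_lit 196410253851) (nat_lit 836) (nat_lit 139779842562)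 (nat_lit 120) (nat_lit 5) (nat_lit 130) (nat_lit 5) (nat_lit 131) (nat_lit 5) (nat_lit 441) (nat_lit 437) (nat_lit 142)))))) (XT.nd (nat_lit 546) (nat_lit 1216) (nat_lit 0) (XT.nd (nat_lit 234) (nat_lit 532) (nat_lit 0) (XT.nd (nat_lit 78) (nat_lit 0) (nat_lit 76) (XT.lf (nat_lit 76) (nat_lit 60617097890) (nat_lit 0) (nat_lit 135209429156) (nat_lit 836) (nat_lit 327538603779) (nat_lit 121) (nat_lit 5) (nat_lit 120) (nat_lit 5) (nat_lit 131) (nat_lit 5) (nat_lit 442) (nat_lit 437) (nat_lit 141)) (XT.nd (nat_lit 78) (nat_lit 0) (nat_lit 0) (XT.lf (nat_lit 0) (nat_lit 223839027687) (nat_lit 760) (nat_lit 201486236491) (nat_lit 836) (nat_lit 111585937169) (nat_lit 121) (nat_lit 5) (nat_lit 131) (nat_lit 5) (nat_lit 132) (nat_lit 5) (nat_lit 443) (nat_lit 437) (nat_lit 140)) (XT.lf (nat_lit 76) (nat_lit 72957175653) (nat_lit 0) (nat_lit 183650576534) (nat_lit 836) (nat_lit 294359043273) (nat_lit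 122) (nat_lit 5) (nat_lit 121) (nat_lit 5) (nat_lit 132) (nat_lit 5) (nat_lit 444) (nat_lit 437) (nat_lit 139)))) (XT.nd (nat_lit 156) (nat_lit 684) (nat_lit 0) (XT.nd (nat_lit 78) (nat_lit 0) (nat_lit 0) (XT.lf (nat_lit 0) (nat_lit 295577684006) (nat_lit 760) (nat_lit 198587181074) (nat_lit 836) (nat_lit 71332165652) (nat_lit 122) (nat_lit 5) (nat_lit 132) (nat_lit 5) (nat_lit 133) (nat_lit 5) (nat_lit 445) (nat_lit 437) (nat_lit 138)) (XT.lf (nat_lit 76) (nat_lit 94830883519) (nat_lit 0) (nat_lit 246156456072) (nat_lit 836) (nat_lit 239541876826) (nat_lit 123) (nat_lit 5) (nat_lit 122) (nat_lit 5) (nat_lit 133) (nat_lit 5) (nat_lit 446) (nat_lit 437) (nat_lit 137))) (XT.nd (nat_lit 78) (nat_lit 760) (nat_lit 0) (XT.lf (nat_lit 0) (nat_lit 392308288034) (nat_lit 760) (nat_lit 186608168383) (nat_lit 76) (nat_lit 17214514473) (nat_lit 123) (nat_lit 5) (nat_lit 133) (nat_lit 5) (nat_lit 124)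 (nat_lit 5) (nat_lit 447) (nat_lit 437) (nat_lit 136)) (XT.lf (nat_lit 0) (nat_lit 127481340296) (nat_lit 760) (nat_lit 324739623615) (nat_lit 836) (nat_lit 159990565180) (nat_lit 113) (nat_lit 5) (nat_lit 123) (nat_lit 5) (nat_lit 124) (nat_lit 5) (nat_lit 448) (nat_lit 437) (nat_lit 135))))) (XT.nd (nat_lit 234) (nat_lit 760) (nat_lit 0) (XT.nd (nat_lit 78) (nat_lit 456) (nat_lit 0) (XT.lf (nat_lit 0) (nat_lit 463753927477) (nat_lit 760) (nat_lit 54535633449) (nat_lit 836) (nat_lit 110648539917) (nat_lit 113) (nat_lit 5) (nat_lit 123) (nat_lit 5) (nat_lit 124) (nat_lit 5) (nat_lit 449) (nat_lit 437) (nat_lit 134)) (XT.nd (nat_lit 78) (nat_lit 76) (nat_lit 0) (XT.lf (nat_lit 0) (nat_lit 172274884229) (nat_lit 380) (nat_lit 421654505160) (nat_lit 456) (nat_lit 52258221720) (nat_lit 108) (nat_lit 5) (nat_lit 113) (nat_lit 5) (nat_lit 114) (nat_lit 5) (nat_lit 450) (nat_lit 437) (nat_lit 133))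 (XT.lf (nat_lit 0) (nat_lit 12499253683) (nat_lit 456) (nat_lit 132899226472) (nat_lit 76) (nat_lit 518707183214) (nat_lit 107) (nat_lit 5) (nat_lit 113) (nat_lit 5) (nat_lit 108) (nat_lit 5) (nat_lit 451) (nat_lit 437) (nat_lit 132)))) (XT.nd (nat_lit 156) (nat_lit 380) (nat_lit 0) (XT.nd (nat_lit 78) (nat_lit 0) (nat_lit 0) (XT.lf (nat_lit 0) (nat_lit 84688311023) (nat_lit 456) (nat_lit 453303064034) (nat_lit 76) (nat_lit 144587912229) (nat_lit 102) (nat_lit 5) (nat_lit 108) (nat_lit 5) (nat_lit 103) (nat_lit 5) (nat_lit 452) (nat_lit 437) (nat_lit 131)) (XT.lf (nat_lit 0) (nat_lit 165158001918) (nat_lit 456) (nat_lit 90110140081) (nat_lit 76) (nat_lit 446474891371) (nat_lit 102) (nat_lit 5) (nat_lit 108) (nat_lit 5) (nat_lit 103) (nat_lit 5) (nat_lit 453) (nat_lit 437) (nat_lit 130))) (XT.nd (nat_lit 78) (nat_lit 0) (nat_lit 0) (XT.lf (nat_lit 0) (nat_lit 255074989167) (nat_lit 456) (nat_lit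 421484248846) (nat_lit 76) (nat_lit 45034538158) (nat_lit 97) (nat_lit 5) (nat_lit 103) (nat_lit 5) (nat_lit 98) (nat_lit 5) (nat_lit 454) (nat_lit 437) (nat_lit 129)) (XT.lf (nat_lit 0) (nat_lit 355223615818) (nat_lit 456) (nat_lit 33601906507) (nat_lit 76) (nat_lit 353324744291) (nat_lit 97) (nat_lit 5) (nat_lit 103) (nat_lit 5) (nat_lit 98) (nat_lit 5) (nat_lit 455) (nat_lit 437) (nat_lit 128))))))) (XT.nd (nat_lit 52572) (nat_lit 0) (nat_lit 304) (XT.nd (nat_lit 52026) (nat_lit 0) (nat_lit 2660) (XT.nd (nat_lit 51792) (nat_lit 0) (nat_lit 2508) (XT.nd (nat_lit 234) (nat_lit 608) (nat_lit 0) (XT.lf (nat_lit 0) (nat_lit 386029910379) (nat_lit 304) (nat_lit 80376762854) (nat_lit 380) (nat_lit 297026558382) (nat_lit 93) (nat_lit 5) (nat_lit 97) (nat_lit 5) (nat_lit 98) (nat_lit 5) (nat_lit 456) (nat_lit 437) (nat_lit 127)) (XT.nd (nat_lit 51480) (nat_lit 0) (nat_lit 2508) (XT.lf (nat_lit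 0) (nat_lit 36159217831) (nat_lit 304) (nat_lit 701307278432) (nat_lit 76) (nat_lit 94634429242) (nat_lit 85) (nat_lit 5) (nat_lit 89) (nat_lit 5) (nat_lit 86) (nat_lit 5) (nat_lit 459) (nat_lit 437) (nat_lit 124)) (XT.lf (nat_lit 0) (nat_lit 67978967192) (nat_lit 836) (nat_lit 87277877639) (nat_lit 836) (nat_lit 87277877639) (nat_lit 118) (nat_lit 3) (nat_lit 129) (nat_lit 3) (nat_lit 129) (nat_lit 5) (nat_lit 438) (nat_lit 438) (nat_lit 144)))) (XT.nd (nat_lit 78) (nat_lit 0) (nat_lit 76) (XT.lf (nat_lit 76) (nat_lit 63134565054) (nat_lit 0) (nat_lit 77208296481) (nat_lit 836) (nat_lit 356804020442) (nat_lit 119) (nat_lit 5) (nat_lit 118) (nat_lit 3) (nat_lit 129) (nat_lit 5) (nat_lit 439) (nat_lit 438) (nat_lit 143)) (XT.nd (nat_lit 78) (nat_lit 0) (nat_lit 0) (XT.lf (nat_lit 0) (nat_lit 150570906595) (nat_lit 760) (nat_lit 193578511683) (nat_lit 836) (nat_lit 165397579017) (nat_lit 119)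 (nat_lit 5) (nat_lit 129) (nat_lit 5) (nat_lit 130) (nat_lit 5) (nat_lit 440) (nat_lit 438) (nat_lit 142)) (XT.lf (nat_lit 76) (nat_lit 59516152673) (nat_lit 0) (nat_lit 103989108392) (nat_lit 836) (nat_lit 358952111968) (nat_lit 120) (nat_lit 5) (nat_lit 119) (nat_lit 5) (nat_lit 130) (nat_lit 5) (nat_lit 441) (nat_lit 438) (nat_lit 141))))) (XT.nd (nat_lit 234) (nat_lit 0) (nat_lit 76) (XT.nd (nat_lit 78) (nat_lit 0) (nat_lit 0) (XT.lf (nat_lit 0) (nat_lit 182731899415) (nat_lit 760) (nat_lit 206230438109) (nat_lit 836) (nat_lit 146768651732) (nat_lit 120) (nat_lit 5) (nat_lit 130) (nat_lit 5) (nat_lit 131) (nat_lit 5) (nat_lit 442) (nat_lit 438) (nat_lit 140)) (XT.nd (nat_lit 78) (nat_lit 0) (nat_lit 76) (XT.lf (nat_lit 76) (nat_lit 63648275922) (nat_lit 0) (nat_lit 141970046130) (nat_lit 836) (nat_lit 343915041629) (nat_lit 121) (nat_lit 5) (nat_lit 120) (nat_lit 5) (nat_lit 131) (nat_lit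 5) (nat_lit 443) (nat_lit 438) (nat_lit 139)) (XT.lf (nat_lit 0) (nat_lit 235031423244) (nat_lit 760) (nat_lit 211560215844) (nat_lit 836) (nat_lit 117165099877) (nat_lit 121) (nat_lit 5) (nat_lit 131) (nat_lit 5) (nat_lit 132) (nat_lit 5) (nat_lit 444) (nat_lit 438) (nat_lit 138)))) (XT.nd (nat_lit 156) (nat_lit 0) (nat_lit 76) (XT.nd (nat_lit 78) (nat_lit 0) (nat_lit 76) (XT.lf (nat_lit 76) (nat_lit 76605361544) (nat_lit 0) (nat_lit 192833206381) (nat_lit 836) (nat_lit 309076545673) (nat_lit 122) (nat_lit 5) (nat_lit 121) (nat_lit 5) (nat_lit 132) (nat_lit 5) (nat_lit 445) (nat_lit 438) (nat_lit 137)) (XT.lf (nat_lit 0) (nat_lit 310356974446) (nat_lit 760) (nat_lit 208516206489) (nat_lit 836) (nat_lit 74898680804) (nat_lit 122) (nat_lit 5) (nat_lit 132) (nat_lit 5) (nat_lit 133) (nat_lit 5) (nat_lit 446) (nat_lit 438) (nat_lit 136))) (XT.nd (nat_lit 78) (nat_lit 0) (nat_lit 76) (XT.lf (nat_lit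 76) (nat_lit 99572755952) (nat_lit 0) (nat_lit 258464342638) (nat_lit 836) (nat_lit 251518558839) (nat_lit 123) (nat_lit 5) (nat_lit 122) (nat_lit 5) (nat_lit 133) (nat_lit 5) (nat_lit 447) (nat_lit 438) (nat_lit 135)) (XT.lf (nat_lit 0) (nat_lit 411924074839) (nat_lit 760) (nat_lit 195938244362) (nat_lit 76) (nat_lit 18075181415) (nat_lit 123) (nat_lit 5) (nat_lit 133) (nat_lit 5) (nat_lit 124) (nat_lit 5) (nat_lit 448) (nat_lit 438) (nat_lit 134)))))) (XT.nd (nat_lit 546) (nat_lit 608) (nat_lit 0) (XT.nd (nat_lit 234) (nat_lit 836) (nat_lit 0) (XT.nd (nat_lit 78) (nat_lit 380) (nat_lit 0) (XT.lf (nat_lit 0) (nat_lit 133855734389) (nat_lit 760) (nat_lit 340976637495) (nat_lit 836) (nat_lit 167989715485) (nat_lit 113) (nat_lit 5) (nat_lit 123) (nat_lit 5) (nat_lit 124) (nat_lit 5) (nat_lit 449) (nat_lit 438) (nat_lit 133)) (XT.nd (nat_lit 78) (nat_lit 380) (nat_lit 0) (XT.lf (nat_lit 0) (nat_lit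 486941935354) (nat_lit 760) (nat_lit 57262446264) (nat_lit 836) (nat_lit 116180606956) (nat_lit 113) (nat_lit 5) (nat_lit 123) (nat_lit 5) (nat_lit 124) (nat_lit 5) (nat_lit 450) (nat_lit 438) (nat_lit 132)) (XT.lf (nat_lit 0) (nat_lit 180888952430) (nat_lit 380) (nat_lit 442737237352) (nat_lit 456) (nat_lit 54870785165) (nat_lit 108) (nat_lit 5) (nat_lit 113) (nat_lit 5) (nat_lit 114) (nat_lit 5) (nat_lit 451) (nat_lit 438) (nat_lit 131)))) (XT.nd (nat_lit 156) (nat_lit 380) (nat_lit 0) (XT.nd (nat_lit 78) (nat_lit 380) (nat_lit 0) (XT.lf (nat_lit 0) (nat_lit 13124536857) (nat_lit 456) (nat_lit 139543868483) (nat_lit 76) (nat_lit 544642525018) (nat_lit 107) (nat_lit 5) (nat_lit 113) (nat_lit 5) (nat_lit 108) (nat_lit 5) (nat_lit 452) (nat_lit 438) (nat_lit 130)) (XT.lf (nat_lit 0) (nat_lit 88923036770) (nat_lit 456) (nat_lit 475967887482) (nat_lit 76) (nat_lit 151817311741) (nat_lit 102)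 (nat_lit 5) (nat_lit 108) (nat_lit 5) (nat_lit 103) (nat_lit 5) (nat_lit 453) (nat_lit 438) (nat_lit 129))) (XT.nd (nat_lit 78) (nat_lit 380) (nat_lit 0) (XT.lf (nat_lit 0) (nat_lit 173416197439) (nat_lit 456) (nat_lit 94615333033) (nat_lit 76) (nat_lit 468798639654) (nat_lit 102) (nat_lit 5) (nat_lit 108) (nat_lit 5) (nat_lit 103) (nat_lit 5) (nat_lit 454) (nat_lit 438) (nat_lit 128)) (XT.lf (nat_lit 0) (nat_lit 267829025163) (nat_lit 456) (nat_lit 442558138216) (nat_lit 76) (nat_lit 47286287141) (nat_lit 97) (nat_lit 5) (nat_lit 103) (nat_lit 5) (nat_lit 98) (nat_lit 5) (nat_lit 455) (nat_lit 438) (nat_lit 127))))) (XT.nd (nat_lit 51792) (nat_lit 0) (nat_lit 2204) (XT.nd (nat_lit 156) (nat_lit 608) (nat_lit 0) (XT.lf (nat_lit 0) (nat_lit 372985069501) (nat_lit 456) (nat_lit 35281694144) (nat_lit 76) (nat_lit 370991002529) (nat_lit 97) (nat_lit 5) (nat_lit 103) (nat_lit 5) (nat_lit 98) (nat_lit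 5) (nat_lit 456) (nat_lit 438) (nat_lit 126)) (XT.nd (nat_lit 78) (nat_lit 0) (nat_lit 0) (XT.lf (nat_lit 0) (nat_lit 41487551716) (nat_lit 304) (nat_lit 576065781202) (nat_lit 380) (nat_lit 207253678818) (nat_lit 89) (nat_lit 5) (nat_lit 93) (nat_lit 5) (nat_lit 94) (nat_lit 5) (nat_lit 458) (nat_lit 438) (nat_lit 124)) (XT.lf (nat_lit 0) (nat_lit 513464731188) (nat_lit 304) (nat_lit 246378254883) (nat_lit 380) (nat_lit 88922649721) (nat_lit 89) (nat_lit 5) (nat_lit 93) (nat_lit 5) (nat_lit 94) (nat_lit 5) (nat_lit 459) (nat_lit 438) (nat_lit 123)))) (XT.nd (nat_lit 156) (nat_lit 0) (nat_lit 76) (XT.nd (nat_lit 78) (nat_lit 0) (nat_lit 0) (XT.lf (nat_lit 0) (nat_lit 71378182612) (nat_lit 836) (nat_lit 91641631241) (nat_lit 836) (nat_lit 91641631241) (nat_lit 118) (nat_lit 3) (nat_lit 129) (nat_lit 3) (nat_lit 129) (nat_lit 5) (nat_lit 439) (nat_lit 439) (nat_lit 142)) (XT.lf (nat_lit 76)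 (nat_lit 66291569341) (nat_lit 0) (nat_lit 81068948267) (nat_lit 836) (nat_lit 374643682540) (nat_lit 119) (nat_lit 5) (nat_lit 118) (nat_lit 3) (nat_lit 129) (nat_lit 5) (nat_lit 440) (nat_lit 439) (nat_lit 141))) (XT.nd (nat_lit 78) (nat_lit 0) (nat_lit 0) (XT.lf (nat_lit 0) (nat_lit 158099936969) (nat_lit 760) (nat_lit 203257146161) (nat_lit 836) (nat_lit 173667239514) (nat_lit 119) (nat_lit 5) (nat_lit 129) (nat_lit 5) (nat_lit 130) (nat_lit 5) (nat_lit 441) (nat_lit 439) (nat_lit 140)) (XT.lf (nat_lit 76) (nat_lit 62492246718) (nat_lit 0) (nat_lit 109188743819) (nat_lit 836) (nat_lit 376899227575) (nat_lit 120) (nat_lit 5) (nat_lit 119) (nat_lit 5) (nat_lit 130) (nat_lit 5) (nat_lit 442) (nat_lit 439) (nat_lit 139))))))))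
noncomputable def xc254 : XT := (XT.nd (nat_lit 53898) (nat_lit 0) (nat_lit 304) (XT.nd (nat_lit 1170) (nat_lit 684) (nat_lit 0) (XT.nd (nat_lit 468) (nat_lit 1368) (nat_lit 0) (XT.nd (nat_lit 234) (nat_lit 0) (nat_lit 76) (XT.nd (nat_lit 78) (nat_lit 0) (nat_lit 0) (XT.lf (nat_lit 0) (nat_lit 191868935918) (nat_lit 760) (nat_lit 216541662115) (nat_lit 836) (nat_lit 154106918370) (nat_lit 120) (nat_lit 5) (nat_lit 130) (nat_lit 5) (nat_lit 131) (nat_lit 5) (nat_lit 443) (nat_lit 439) (nat_lit 138)) (XT.nd (nat_lit 78) (nat_lit 0) (nat_lit 76) (XT.lf (nat_lit 76) (nat_lit 66830982814) (nat_lit 0) (nat_lit 149068680423) (nat_lit 836) (nat_lit 361110347146) (nat_lit 121) (nat_lit 5) (nat_lit 120) (nat_lit 5) (nat_lit 131) (nat_lit 5) (nat_lit 444) (nat_lit 439) (nat_lit 137)) (XT.lf (nat_lit 0) (nat_lit 246783397284) (nat_lit 760) (nat_lit 222137925076) (nat_lit 836) (nat_lit 123023233192) (nat_lit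 121) (nat_lit 5) (nat_lit 131) (nat_lit 5) (nat_lit 132) (nat_lit 5) (nat_lit 445) (nat_lit 439) (nat_lit 136)))) (XT.nd (nat_lit 78) (nat_lit 0) (nat_lit 76) (XT.lf (nat_lit 76) (nat_lit 80435926318) (nat_lit 0) (nat_lit 202474958328) (nat_lit 836) (nat_lit 324529965007) (nat_lit 122) (nat_lit 5) (nat_lit 121) (nat_lit 5) (nat_lit 132) (nat_lit 5) (nat_lit 446) (nat_lit 439) (nat_lit 135)) (XT.nd (nat_lit 78) (nat_lit 0) (nat_lit 0) (XT.lf (nat_lit 0) (nat_lit 325875191640) (nat_lit 760) (nat_lit 218941714193) (nat_lit 836) (nat_lit 78643530373) (nat_lit 122) (nat_lit 5) (nat_lit 132) (nat_lit 5) (nat_lit 133) (nat_lit 5) (nat_lit 447) (nat_lit 439) (nat_lit 134)) (XT.lf (nat_lit 76) (nat_lit 104551691489) (nat_lit 0) (nat_lit 271387617604) (nat_lit 836) (nat_lit 264094113241) (nat_lit 123) (nat_lit 5) (nat_lit 122) (nat_lit 5) (nat_lit 133) (nat_lit 5) (nat_lit 448) (nat_lit 439) (nat_lit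 133))))) (XT.nd (nat_lit 234) (nat_lit 836) (nat_lit 0) (XT.nd (nat_lit 78) (nat_lit 760) (nat_lit 0) (XT.lf (nat_lit 0) (nat_lit 432520616363) (nat_lit 760) (nat_lit 205734855047) (nat_lit 76) (nat_lit 18978887168) (nat_lit 123) (nat_lit 5) (nat_lit 133) (nat_lit 5) (nat_lit 124) (nat_lit 5) (nat_lit 449) (nat_lit 439) (nat_lit 132)) (XT.nd (nat_lit 78) (nat_lit 0) (nat_lit 0) (XT.lf (nat_lit 0) (nat_lit 140548817778) (nat_lit 760) (nat_lit 358025499029) (nat_lit 836) (nat_lit 176388858444) (nat_lit 113) (nat_lit 5) (nat_lit 123) (nat_lit 5) (nat_lit 124) (nat_lit 5) (nat_lit 450) (nat_lit 439) (nat_lit 131)) (XT.lf (nat_lit 0) (nat_lit 511289314664) (nat_lit 760) (nat_lit 60125596824) (nat_lit 836) (nat_lit 121989310813) (nat_lit 113) (nat_lit 5) (nat_lit 123) (nat_lit 5) (nat_lit 124) (nat_lit 5) (nat_lit 451) (nat_lit 439) (nat_lit 130)))) (XT.nd (nat_lit 156) (nat_lit 380) (nat_lit 0)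 (XT.nd (nat_lit 78) (nat_lit 76) (nat_lit 0) (XT.lf (nat_lit 0) (nat_lit 189933693919) (nat_lit 380) (nat_lit 464874105509) (nat_lit 456) (nat_lit 57614009102) (nat_lit 108) (nat_lit 5) (nat_lit 113) (nat_lit 5) (nat_lit 114) (nat_lit 5) (nat_lit 452) (nat_lit 439) (nat_lit 129)) (XT.lf (nat_lit 0) (nat_lit 13781054393) (nat_lit 456) (nat_lit 146520772281) (nat_lit 76) (nat_lit 571874635527) (nat_lit 107) (nat_lit 5) (nat_lit 113) (nat_lit 5) (nat_lit 108) (nat_lit 5) (nat_lit 453) (nat_lit 439) (nat_lit 128))) (XT.nd (nat_lit 78) (nat_lit 0) (nat_lit 0) (XT.lf (nat_lit 0) (nat_lit 93369469966) (nat_lit 456) (nat_lit 499765982759) (nat_lit 76) (nat_lit 159408180866) (nat_lit 102) (nat_lit 5) (nat_lit 108) (nat_lit 5) (nat_lit 103) (nat_lit 5) (nat_lit 454) (nat_lit 439) (nat_lit 127)) (XT.lf (nat_lit 0) (nat_lit 182087275270) (nat_lit 456) (nat_lit 99345814831) (nat_lit 76) (nat_lit 492238575006)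 (nat_lit 102) (nat_lit 5) (nat_lit 108) (nat_lit 5) (nat_lit 103) (nat_lit 5) (nat_lit 455) (nat_lit 439) (nat_lit 126)))))) (XT.nd (nat_lit 52182) (nat_lit 0) (nat_lit 1520) (XT.nd (nat_lit 51870) (nat_lit 0) (nat_lit 1976) (XT.nd (nat_lit 51714) (nat_lit 0) (nat_lit 1900) (XT.lf (nat_lit 0) (nat_lit 425598568636) (nat_lit 304) (nat_lit 88615306480) (nat_lit 380) (nat_lit 327471236608) (nat_lit 93) (nat_lit 5) (nat_lit 97) (nat_lit 5) (nat_lit 98) (nat_lit 5) (nat_lit 458) (nat_lit 439) (nat_lit 123)) (XT.nd (nat_lit 78) (nat_lit 0) (nat_lit 0) (XT.lf (nat_lit 0) (nat_lit 74947333974) (nat_lit 836) (nat_lit 96223585565) (nat_lit 836) (nat_lit 96223585565) (nat_lit 118) (nat_lit 3) (nat_lit 129) (nat_lit 3) (nat_lit 129) (nat_lit 5) (nat_lit 440) (nat_lit 440) (nat_lit 140)) (XT.lf (nat_lit 76) (nat_lit 69606398179) (nat_lit 0) (nat_lit 85122610611) (nat_lit 836) (nat_lit 393375377847) (nat_lit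 119) (nat_lit 5) (nat_lit 118) (nat_lit 3) (nat_lit 129) (nat_lit 5) (nat_lit 441) (nat_lit 440) (nat_lit 139)))) (XT.nd (nat_lit 156) (nat_lit 0) (nat_lit 76) (XT.nd (nat_lit 78) (nat_lit 0) (nat_lit 0) (XT.lf (nat_lit 0) (nat_lit 166005373767) (nat_lit 760) (nat_lit 213419739426) (nat_lit 836) (nat_lit 182350403344) (nat_lit 119) (nat_lit 5) (nat_lit 129) (nat_lit 5) (nat_lit 130) (nat_lit 5) (nat_lit 442) (nat_lit 440) (nat_lit 138)) (XT.lf (nat_lit 76) (nat_lit 65617118837) (nat_lit 0) (nat_lit 114648344281) (nat_lit 836) (nat_lit 395743744516) (nat_lit 120) (nat_lit 5) (nat_lit 119) (nat_lit 5) (nat_lit 130) (nat_lit 5) (nat_lit 443) (nat_lit 440) (nat_lit 137))) (XT.nd (nat_lit 78) (nat_lit 0) (nat_lit 0) (XT.lf (nat_lit 0) (nat_lit 201462783196) (nat_lit 760) (nat_lit 227368475016) (nat_lit 836) (nat_lit 161812113769) (nat_lit 120) (nat_lit 5) (nat_lit 130) (nat_lit 5) (nat_lit 131)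 (nat_lit 5) (nat_lit 444) (nat_lit 440) (nat_lit 136)) (XT.lf (nat_lit 76) (nat_lit 70172797800) (nat_lit 0) (nat_lit 156522234161) (nat_lit 836) (nat_lit 379165459455) (nat_lit 121) (nat_lit 5) (nat_lit 120) (nat_lit 5) (nat_lit 131) (nat_lit 5) (nat_lit 445) (nat_lit 440) (nat_lit 135))))) (XT.nd (nat_lit 234) (nat_lit 608) (nat_lit 0) (XT.nd (nat_lit 78) (nat_lit 0) (nat_lit 0) (XT.lf (nat_lit 0) (nat_lit 259122932570) (nat_lit 760) (nat_lit 233244547805) (nat_lit 836) (nat_lit 129174284485) (nat_lit 121) (nat_lit 5) (nat_lit 131) (nat_lit 5) (nat_lit 132) (nat_lit 5) (nat_lit 446) (nat_lit 440) (nat_lit 134)) (XT.nd (nat_lit 78) (nat_lit 0) (nat_lit 76) (XT.lf (nat_lit 76) (nat_lit 84457991747) (nat_lit 0) (nat_lit 212598789354) (nat_lit 836) (nat_lit 340756093236) (nat_lit 122) (nat_lit 5) (nat_lit 121) (nat_lit 5) (nat_lit 132) (nat_lit 5) (nat_lit 447) (nat_lit 440) (nat_lit 133))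 (XT.lf (nat_lit 0) (nat_lit 342169285436) (nat_lit 760) (nat_lit 229888525417) (nat_lit 836) (nat_lit 82575630273) (nat_lit 122) (nat_lit 5) (nat_lit 132) (nat_lit 5) (nat_lit 133) (nat_lit 5) (nat_lit 448) (nat_lit 440) (nat_lit 132)))) (XT.nd (nat_lit 156) (nat_lit 684) (nat_lit 0) (XT.nd (nat_lit 78) (nat_lit 0) (nat_lit 76) (XT.lf (nat_lit 76) (nat_lit 109779546122) (nat_lit 0) (nat_lit 284957050941) (nat_lit 836) (nat_lit 277298480091) (nat_lit 123) (nat_lit 5) (nat_lit 122) (nat_lit 5) (nat_lit 133) (nat_lit 5) (nat_lit 449) (nat_lit 440) (nat_lit 131)) (XT.lf (nat_lit 0) (nat_lit 454146953559) (nat_lit 760) (nat_lit 216021324300) (nat_lit 76) (nat_lit 19927783167) (nat_lit 123) (nat_lit 5) (nat_lit 133) (nat_lit 5) (nat_lit 124) (nat_lit 5) (nat_lit 450) (nat_lit 440) (nat_lit 130))) (XT.nd (nat_lit 78) (nat_lit 0) (nat_lit 0) (XT.lf (nat_lit 0) (nat_lit 147576527755) (nat_lit 760)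 (nat_lit 375926800882) (nat_lit 836) (nat_lit 185207990422) (nat_lit 113) (nat_lit 5) (nat_lit 123) (nat_lit 5) (nat_lit 124) (nat_lit 5) (nat_lit 451) (nat_lit 440) (nat_lit 129)) (XT.lf (nat_lit 0) (nat_lit 536854036671) (nat_lit 760) (nat_lit 63131902285) (nat_lit 836) (nat_lit 128088480216) (nat_lit 113) (nat_lit 5) (nat_lit 123) (nat_lit 5) (nat_lit 124) (nat_lit 5) (nat_lit 452) (nat_lit 440) (nat_lit 128))))))) (XT.nd (nat_lit 52884) (nat_lit 0) (nat_lit 380) (XT.nd (nat_lit 52338) (nat_lit 0) (nat_lit 1672) (XT.nd (nat_lit 390) (nat_lit 380) (nat_lit 0) (XT.nd (nat_lit 78) (nat_lit 456) (nat_lit 0) (XT.lf (nat_lit 0) (nat_lit 199430645162) (nat_lit 380) (nat_lit 488117816490) (nat_lit 456) (nat_lit 60494423553) (nat_lit 108) (nat_lit 5) (nat_lit 113) (nat_lit 5) (nat_lit 114) (nat_lit 5) (nat_lit 453) (nat_lit 440) (nat_lit 127)) (XT.nd (nat_lit 78) (nat_lit 380) (nat_lit 0) (XT.lf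 (nat_lit 0) (nat_lit 14470370781) (nat_lit 456) (nat_lit 153846548195) (nat_lit 76) (nat_lit 600468353024) (nat_lit 107) (nat_lit 5) (nat_lit 113) (nat_lit 5) (nat_lit 108) (nat_lit 5) (nat_lit 454) (nat_lit 440) (nat_lit 126)) (XT.lf (nat_lit 0) (nat_lit 98038198663) (nat_lit 456) (nat_lit 524754010608) (nat_lit 76) (nat_lit 167378593118) (nat_lit 102) (nat_lit 5) (nat_lit 108) (nat_lit 5) (nat_lit 103) (nat_lit 5) (nat_lit 455) (nat_lit 440) (nat_lit 125)))) (XT.nd (nat_lit 51792) (nat_lit 0) (nat_lit 1596) (XT.lf (nat_lit 0) (nat_lit 411216523532) (nat_lit 456) (nat_lit 38897521621) (nat_lit 76) (nat_lit 409017617608) (nat_lit 97) (nat_lit 5) (nat_lit 103) (nat_lit 5) (nat_lit 98) (nat_lit 5) (nat_lit 458) (nat_lit 440) (nat_lit 122)) (XT.nd (nat_lit 78) (nat_lit 0) (nat_lit 0) (XT.lf (nat_lit 0) (nat_lit 78694920384) (nat_lit 836) (nat_lit 101034649435) (nat_lit 836) (nat_lit 101034649435)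 (nat_lit 118) (nat_lit 3) (nat_lit 129) (nat_lit 3) (nat_lit 129) (nat_lit 5) (nat_lit 441) (nat_lit 441) (nat_lit 138)) (XT.lf (nat_lit 76) (nat_lit 73086945182) (nat_lit 0) (nat_lit 89378936091) (nat_lit 836) (nat_lit 413043703365) (nat_lit 119) (nat_lit 5) (nat_lit 118) (nat_lit 3) (nat_lit 129) (nat_lit 5) (nat_lit 442) (nat_lit 441) (nat_lit 137))))) (XT.nd (nat_lit 234) (nat_lit 0) (nat_lit 76) (XT.nd (nat_lit 78) (nat_lit 0) (nat_lit 0) (XT.lf (nat_lit 0) (nat_lit 174306041503) (nat_lit 760) (nat_lit 224090486904) (nat_lit 836) (nat_lit 191467743788) (nat_lit 119) (nat_lit 5) (nat_lit 129) (nat_lit 5) (nat_lit 130) (nat_lit 5) (nat_lit 443) (nat_lit 441) (nat_lit 136)) (XT.nd (nat_lit 78) (nat_lit 0) (nat_lit 76) (XT.lf (nat_lit 76) (nat_lit 68898210410) (nat_lit 0) (nat_lit 120380909588) (nat_lit 836) (nat_lit 415530528625) (nat_lit 120) (nat_lit 5) (nat_lit 119) (nat_lit 5) (nat_lit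 130) (nat_lit 5) (nat_lit 444) (nat_lit 441) (nat_lit 135)) (XT.lf (nat_lit 0) (nat_lit 211536285605) (nat_lit 760) (nat_lit 238736653684) (nat_lit 836) (nat_lit 169902582931) (nat_lit 120) (nat_lit 5) (nat_lit 130) (nat_lit 5) (nat_lit 131) (nat_lit 5) (nat_lit 445) (nat_lit 441) (nat_lit 134)))) (XT.nd (nat_lit 156) (nat_lit 0) (nat_lit 76) (XT.nd (nat_lit 78) (nat_lit 0) (nat_lit 76) (XT.lf (nat_lit 76) (nat_lit 73681678821) (nat_lit 0) (nat_lit 164348454455) (nat_lit 836) (nat_lit 398123365037) (nat_lit 121) (nat_lit 5) (nat_lit 120) (nat_lit 5) (nat_lit 131) (nat_lit 5) (nat_lit 446) (nat_lit 441) (nat_lit 133)) (XT.lf (nat_lit 0) (nat_lit 272079410647) (nat_lit 760) (nat_lit 244906527100) (nat_lit 836) (nat_lit 135632898604) (nat_lit 121) (nat_lit 5) (nat_lit 131) (nat_lit 5) (nat_lit 132) (nat_lit 5) (nat_lit 447) (nat_lit 441) (nat_lit 132))) (XT.nd (nat_lit 78) (nat_lit 0) (nat_lit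 76) (XT.lf (nat_lit 76) (nat_lit 88681135428) (nat_lit 0) (nat_lit 223228804205) (nat_lit 836) (nat_lit 357793562277) (nat_lit 122) (nat_lit 5) (nat_lit 121) (nat_lit 5) (nat_lit 132) (nat_lit 5) (nat_lit 448) (nat_lit 441) (nat_lit 131)) (XT.lf (nat_lit 0) (nat_lit 359278052850) (nat_lit 760) (nat_lit 241382702721) (nat_lit 836) (nat_lit 86704342291) (nat_lit 122) (nat_lit 5) (nat_lit 132) (nat_lit 5) (nat_lit 133) (nat_lit 5) (nat_lit 449) (nat_lit 441) (nat_lit 130)))))) (XT.nd (nat_lit 52572) (nat_lit 0) (nat_lit 1216) (XT.nd (nat_lit 234) (nat_lit 836) (nat_lit 0) (XT.nd (nat_lit 78) (nat_lit 684) (nat_lit 0) (XT.lf (nat_lit 76) (nat_lit 115268768380) (nat_lit 0) (nat_lit 299204951068) (nat_lit 836) (nat_lit 291163096783) (nat_lit 123) (nat_lit 5) (nat_lit 122) (nat_lit 5) (nat_lit 133) (nat_lit 5) (nat_lit 450) (nat_lit 441) (nat_lit 129)) (XT.nd (nat_lit 78) (nat_lit 760) (nat_lit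 0) (XT.lf (nat_lit 0) (nat_lit 476854579130) (nat_lit 760) (nat_lit 226822142444) (nat_lit 76) (nat_lit 20924128461) (nat_lit 123) (nat_lit 5) (nat_lit 133) (nat_lit 5) (nat_lit 124) (nat_lit 5) (nat_lit 451) (nat_lit 441) (nat_lit 128)) (XT.lf (nat_lit 0) (nat_lit 154955598213) (nat_lit 760) (nat_lit 394723165326) (nat_lit 836) (nat_lit 194468107908) (nat_lit 113) (nat_lit 5) (nat_lit 123) (nat_lit 5) (nat_lit 124) (nat_lit 5) (nat_lit 452) (nat_lit 441) (nat_lit 127)))) (XT.nd (nat_lit 312) (nat_lit 456) (nat_lit 0) (XT.nd (nat_lit 78) (nat_lit 380) (nat_lit 0) (XT.lf (nat_lit 0) (nat_lit 563696970953) (nat_lit 760) (nat_lit 66288520638) (nat_lit 836) (nat_lit 134492635622) (nat_lit 113) (nat_lit 5) (nat_lit 123) (nat_lit 5) (nat_lit 124) (nat_lit 5) (nat_lit 453) (nat_lit 441) (nat_lit 126)) (XT.lf (nat_lit 0) (nat_lit 209402419186) (nat_lit 380) (nat_lit 512523712489) (nat_lit 456) (nat_lit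 63518885315) (nat_lit 108) (nat_lit 5) (nat_lit 113) (nat_lit 5) (nat_lit 114) (nat_lit 5) (nat_lit 454) (nat_lit 441) (nat_lit 125))) (XT.nd (nat_lit 51948) (nat_lit 0) (nat_lit 1216) (XT.lf (nat_lit 0) (nat_lit 200751696635) (nat_lit 456) (nat_lit 109528255212) (nat_lit 76) (nat_lit 542693034926) (nat_lit 102) (nat_lit 5) (nat_lit 108) (nat_lit 5) (nat_lit 103) (nat_lit 5) (nat_lit 457) (nat_lit 441) (nat_lit 122)) (XT.lf (nat_lit 0) (nat_lit 82629865688) (nat_lit 836) (nat_lit 106086277228) (nat_lit 836) (nat_lit 106086277228) (nat_lit 118) (nat_lit 3) (nat_lit 129) (nat_lit 3) (nat_lit 129) (nat_lit 5) (nat_lit 442) (nat_lit 442) (nat_lit 136))))) (XT.nd (nat_lit 234) (nat_lit 0) (nat_lit 152) (XT.nd (nat_lit 78) (nat_lit 0) (nat_lit 76) (XT.lf (nat_lit 76) (nat_lit 76741498423) (nat_lit 0) (nat_lit 93848059720) (nat_lit 836) (nat_lit 433695486380) (nat_lit 119) (nat_lit 5) (nat_lit 118)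 (nat_lit 3) (nat_lit 129) (nat_lit 5) (nat_lit 443) (nat_lit 442) (nat_lit 135)) (XT.nd (nat_lit 78) (nat_lit 0) (nat_lit 0) (XT.lf (nat_lit 0) (nat_lit 183021705526) (nat_lit 760) (nat_lit 235294794020) (nat_lit 836) (nat_lit 201040967963) (nat_lit 119) (nat_lit 5) (nat_lit 129) (nat_lit 5) (nat_lit 130) (nat_lit 5) (nat_lit 444) (nat_lit 442) (nat_lit 134)) (XT.lf (nat_lit 76) (nat_lit 72343334656) (nat_lit 0) (nat_lit 126400089392) (nat_lit 836) (nat_lit 436306689416) (nat_lit 120) (nat_lit 5) (nat_lit 119) (nat_lit 5) (nat_lit 130) (nat_lit 5) (nat_lit 445) (nat_lit 442) (nat_lit 133)))) (XT.nd (nat_lit 156) (nat_lit 0) (nat_lit 76) (XT.nd (nat_lit 78) (nat_lit 0) (nat_lit 0) (XT.lf (nat_lit 0) (nat_lit 222113429363) (nat_lit 760) (nat_lit 250673264070) (nat_lit 836) (nat_lit 178397588244) (nat_lit 120) (nat_lit 5) (nat_lit 130) (nat_lit 5) (nat_lit 131) (nat_lit 5) (nat_lit 446) (nat_lit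 442) (nat_lit 132)) (XT.lf (nat_lit 76) (nat_lit 77365981474) (nat_lit 0) (nat_lit 172565975669) (nat_lit 836) (nat_lit 418029200055) (nat_lit 121) (nat_lit 5) (nat_lit 120) (nat_lit 5) (nat_lit 131) (nat_lit 5) (nat_lit 447) (nat_lit 442) (nat_lit 131))) (XT.nd (nat_lit 78) (nat_lit 0) (nat_lit 0) (XT.lf (nat_lit 0) (nat_lit 285683681813) (nat_lit 760) (nat_lit 257151628426) (nat_lit 836) (nat_lit 142414452736) (nat_lit 121) (nat_lit 5) (nat_lit 131) (nat_lit 5) (nat_lit 132) (nat_lit 5) (nat_lit 448) (nat_lit 442) (nat_lit 130)) (XT.lf (nat_lit 76) (nat_lit 93115413599) (nat_lit 0) (nat_lit 234390312789) (nat_lit 836) (nat_lit 375682935972) (nat_lit 122) (nat_lit 5) (nat_lit 121) (nat_lit 5) (nat_lit 132) (nat_lit 5) (nat_lit 449) (nat_lit 442) (nat_lit 129))))))))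
noncomputable def xc255 : XT := (XT.nd (nat_lit 106470) (nat_lit 0) (nat_lit 1216) (XT.nd (nat_lit 53118) (nat_lit 0) (nat_lit 456) (XT.nd (nat_lit 52572) (nat_lit 0) (nat_lit 1216) (XT.nd (nat_lit 234) (nat_lit 1520) (nat_lit 0) (XT.nd (nat_lit 78) (nat_lit 0) (nat_lit 0) (XT.lf (nat_lit 0) (nat_lit 377242230451) (nat_lit 760) (nat_lit 253451612037) (nat_lit 836) (nat_lit 91039496371) (nat_lit 122) (nat_lit 5) (nat_lit 132) (nat_lit 5) (nat_lit 133) (nat_lit 5) (nat_lit 450) (nat_lit 442) (nat_lit 128)) (XT.nd (nat_lit 78) (nat_lit 0) (nat_lit 76) (XT.lf (nat_lit 76) (nat_lit 121032428976) (nat_lit 0) (nat_lit 314165241779) (nat_lit 836) (nat_lit 305720972880) (nat_lit 123) (nat_lit 5) (nat_lit 122) (nat_lit 5) (nat_lit 133) (nat_lit 5) (nat_lit 451) (nat_lit 442) (nat_lit 127)) (XT.lf (nat_lit 0) (nat_lit 500697560145) (nat_lit 760) (nat_lit 238163024558) (nat_lit 76) (nat_lit 21970295098)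 (nat_lit 123) (nat_lit 5) (nat_lit 133) (nat_lit 5) (nat_lit 124) (nat_lit 5) (nat_lit 452) (nat_lit 442) (nat_lit 126)))) (XT.nd (nat_lit 78) (nat_lit 836) (nat_lit 0) (XT.lf (nat_lit 0) (nat_lit 162703599503) (nat_lit 760) (nat_lit 414459345725) (nat_lit 836) (nat_lit 204191257489) (nat_lit 113) (nat_lit 5) (nat_lit 123) (nat_lit 5) (nat_lit 124) (nat_lit 5) (nat_lit 453) (nat_lit 442) (nat_lit 125)) (XT.nd (nat_lit 234) (nat_lit 836) (nat_lit 0) (XT.lf (nat_lit 0) (nat_lit 591882030338) (nat_lit 760) (nat_lit 69602967749) (nat_lit 836) (nat_lit 141217023771) (nat_lit 113) (nat_lit 5) (nat_lit 123) (nat_lit 5) (nat_lit 124) (nat_lit 5) (nat_lit 454) (nat_lit 442) (nat_lit 124)) (XT.lf (nat_lit 0) (nat_lit 108087567026) (nat_lit 456) (nat_lit 578540815134) (nat_lit 76) (nat_lit 184534904609) (nat_lit 102) (nat_lit 5) (nat_lit 108) (nat_lit 5) (nat_lit 103) (nat_lit 5) (nat_lit 457) (nat_lit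 442) (nat_lit 121))))) (XT.nd (nat_lit 234) (nat_lit 0) (nat_lit 76) (XT.nd (nat_lit 78) (nat_lit 0) (nat_lit 0) (XT.lf (nat_lit 0) (nat_lit 86761539729) (nat_lit 836) (nat_lit 111390496143) (nat_lit 836) (nat_lit 111390496143) (nat_lit 118) (nat_lit 3) (nat_lit 129) (nat_lit 3) (nat_lit 129) (nat_lit 5) (nat_lit 443) (nat_lit 443) (nat_lit 134)) (XT.nd (nat_lit 78) (nat_lit 0) (nat_lit 76) (XT.lf (nat_lit 76) (nat_lit 80578760175) (nat_lit 0) (nat_lit 98540623091) (nat_lit 836) (nat_lit 455379895934) (nat_lit 119) (nat_lit 5) (nat_lit 118) (nat_lit 3) (nat_lit 129) (nat_lit 5) (nat_lit 444) (nat_lit 443) (nat_lit 133)) (XT.lf (nat_lit 0) (nat_lit 192173119099) (nat_lit 760) (nat_lit 247059336689) (nat_lit 836) (nat_lit 211092868503) (nat_lit 119) (nat_lit 5) (nat_lit 129) (nat_lit 5) (nat_lit 130) (nat_lit 5) (nat_lit 445) (nat_lit 443) (nat_lit 132)))) (XT.nd (nat_lit 156) (nat_lit 0) (nat_lit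 76) (XT.nd (nat_lit 78) (nat_lit 0) (nat_lit 76) (XT.lf (nat_lit 76) (nat_lit 75960695243) (nat_lit 0) (nat_lit 132720215697) (nat_lit 836) (nat_lit 458121692241) (nat_lit 120) (nat_lit 5) (nat_lit 119) (nat_lit 5) (nat_lit 130) (nat_lit 5) (nat_lit 446) (nat_lit 443) (nat_lit 131)) (XT.lf (nat_lit 0) (nat_lit 233219399677) (nat_lit 760) (nat_lit 263206725643) (nat_lit 836) (nat_lit 187317355336) (nat_lit 120) (nat_lit 5) (nat_lit 130) (nat_lit 5) (nat_lit 131) (nat_lit 5) (nat_lit 447) (nat_lit 443) (nat_lit 130))) (XT.nd (nat_lit 78) (nat_lit 0) (nat_lit 76) (XT.lf (nat_lit 76) (nat_lit 81234478926) (nat_lit 0) (nat_lit 181194363786) (nat_lit 836) (nat_lit 438930357805) (nat_lit 121) (nat_lit 5) (nat_lit 120) (nat_lit 5) (nat_lit 131) (nat_lit 5) (nat_lit 448) (nat_lit 443) (nat_lit 129)) (XT.lf (nat_lit 0) (nat_lit 299968138587) (nat_lit 760) (nat_lit 270009005739) (nat_lit 836) (nat_lit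 149535093016) (nat_lit 121) (nat_lit 5) (nat_lit 131) (nat_lit 5) (nat_lit 132) (nat_lit 5) (nat_lit 449) (nat_lit 443) (nat_lit 128)))))) (XT.nd (nat_lit 52806) (nat_lit 0) (nat_lit 836) (XT.nd (nat_lit 234) (nat_lit 988) (nat_lit 0) (XT.nd (nat_lit 78) (nat_lit 0) (nat_lit 76) (XT.lf (nat_lit 76) (nat_lit 97771385096) (nat_lit 0) (nat_lit 246109890447) (nat_lit 836) (nat_lit 394466806655) (nat_lit 122) (nat_lit 5) (nat_lit 121) (nat_lit 5) (nat_lit 132) (nat_lit 5) (nat_lit 450) (nat_lit 443) (nat_lit 127)) (XT.nd (nat_lit 78) (nat_lit 0) (nat_lit 0) (XT.lf (nat_lit 0) (nat_lit 396104591370) (nat_lit 760) (nat_lit 266123987813) (nat_lit 836) (nat_lit 95591414016) (nat_lit 122) (nat_lit 5) (nat_lit 132) (nat_lit 5) (nat_lit 133) (nat_lit 5) (nat_lit 451) (nat_lit 443) (nat_lit 126)) (XT.lf (nat_lit 76) (nat_lit 127084251947) (nat_lit 0) (nat_lit 329873543012) (nat_lit 836) (nat_lit 321006768697)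 (nat_lit 123) (nat_lit 5) (nat_lit 122) (nat_lit 5) (nat_lit 133) (nat_lit 5) (nat_lit 452) (nat_lit 443) (nat_lit 125)))) (XT.nd (nat_lit 52416) (nat_lit 0) (nat_lit 760) (XT.nd (nat_lit 234) (nat_lit 1140) (nat_lit 0) (XT.lf (nat_lit 0) (nat_lit 525732666776) (nat_lit 760) (nat_lit 250070971696) (nat_lit 76) (nat_lit 23068773766) (nat_lit 123) (nat_lit 5) (nat_lit 133) (nat_lit 5) (nat_lit 124) (nat_lit 5) (nat_lit 453) (nat_lit 443) (nat_lit 124)) (XT.lf (nat_lit 0) (nat_lit 230866596307) (nat_lit 380) (nat_lit 565057402205) (nat_lit 456) (nat_lit 70029110577) (nat_lit 108) (nat_lit 5) (nat_lit 113) (nat_lit 5) (nat_lit 114) (nat_lit 5) (nat_lit 456) (nat_lit 443) (nat_lit 121))) (XT.nd (nat_lit 78) (nat_lit 0) (nat_lit 0) (XT.lf (nat_lit 0) (nat_lit 91099780668) (nat_lit 836) (nat_lit 116959934830) (nat_lit 836) (nat_lit 116959934830) (nat_lit 118) (nat_lit 3) (nat_lit 129) (nat_lit 3)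 (nat_lit 129) (nat_lit 5) (nat_lit 444) (nat_lit 444) (nat_lit 132)) (XT.lf (nat_lit 76) (nat_lit 84607867644) (nat_lit 0) (nat_lit 103467799720) (nat_lit 836) (nat_lit 478148559878) (nat_lit 119) (nat_lit 5) (nat_lit 118) (nat_lit 3) (nat_lit 129) (nat_lit 5) (nat_lit 445) (nat_lit 444) (nat_lit 131))))) (XT.nd (nat_lit 234) (nat_lit 0) (nat_lit 76) (XT.nd (nat_lit 78) (nat_lit 0) (nat_lit 0) (XT.lf (nat_lit 0) (nat_lit 201782072829) (nat_lit 760) (nat_lit 259412124809) (nat_lit 836) (nat_lit 221647377816) (nat_lit 119) (nat_lit 5) (nat_lit 129) (nat_lit 5) (nat_lit 130) (nat_lit 5) (nat_lit 446) (nat_lit 444) (nat_lit 130)) (XT.nd (nat_lit 78) (nat_lit 0) (nat_lit 76) (XT.lf (nat_lit 76) (nat_lit 79758905837) (nat_lit 0) (nat_lit 139356336991) (nat_lit 836) (nat_lit 481027476041) (nat_lit 120) (nat_lit 5) (nat_lit 119) (nat_lit 5) (nat_lit 130) (nat_lit 5) (nat_lit 447) (nat_lit 444) (nat_lit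 129)) (XT.lf (nat_lit 0) (nat_lit 244880640723) (nat_lit 760) (nat_lit 276366879041) (nat_lit 836) (nat_lit 196683121225) (nat_lit 120) (nat_lit 5) (nat_lit 130) (nat_lit 5) (nat_lit 131) (nat_lit 5) (nat_lit 448) (nat_lit 444) (nat_lit 128)))) (XT.nd (nat_lit 156) (nat_lit 0) (nat_lit 76) (XT.nd (nat_lit 78) (nat_lit 0) (nat_lit 76) (XT.lf (nat_lit 76) (nat_lit 85296382807) (nat_lit 0) (nat_lit 190254163004) (nat_lit 836) (nat_lit 460876601543) (nat_lit 121) (nat_lit 5) (nat_lit 120) (nat_lit 5) (nat_lit 131) (nat_lit 5) (nat_lit 449) (nat_lit 444) (nat_lit 127)) (XT.lf (nat_lit 0) (nat_lit 314966792848) (nat_lit 760) (nat_lit 283509270894) (nat_lit 836) (nat_lit 157011772966) (nat_lit 121) (nat_lit 5) (nat_lit 131) (nat_lit 5) (nat_lit 132) (nat_lit 5) (nat_lit 450) (nat_lit 444) (nat_lit 126))) (XT.nd (nat_lit 78) (nat_lit 0) (nat_lit 76) (XT.lf (nat_lit 76) (nat_lit 102660136497) (nat_lit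 0) (nat_lit 258415441221) (nat_lit 836) (nat_lit 414189896542) (nat_lit 122) (nat_lit 5) (nat_lit 121) (nat_lit 5) (nat_lit 132) (nat_lit 5) (nat_lit 451) (nat_lit 444) (nat_lit 125)) (XT.lf (nat_lit 0) (nat_lit 415910047147) (nat_lit 760) (nat_lit 279430001421) (nat_lit 836) (nat_lit 100370932858) (nat_lit 122) (nat_lit 5) (nat_lit 132) (nat_lit 5) (nat_lit 133) (nat_lit 5) (nat_lit 452) (nat_lit 444) (nat_lit 124))))))) (XT.nd (nat_lit 106002) (nat_lit 0) (nat_lit 0) (XT.nd (nat_lit 52962) (nat_lit 0) (nat_lit 0) (XT.nd (nat_lit 52650) (nat_lit 0) (nat_lit 76) (XT.nd (nat_lit 52494) (nat_lit 304) (nat_lit 0) (XT.lf (nat_lit 76) (nat_lit 133438647331) (nat_lit 0) (nat_lit 346367255668) (nat_lit 836) (nat_lit 337056877811) (nat_lit 123) (nat_lit 5) (nat_lit 122) (nat_lit 5) (nat_lit 133) (nat_lit 5) (nat_lit 453) (nat_lit 444) (nat_lit 123)) (XT.nd (nat_lit 78) (nat_lit 0) (nat_lit 0) (XT.lf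 (nat_lit 0) (nat_lit 95654918410) (nat_lit 836) (nat_lit 122807853459) (nat_lit 836) (nat_lit 122807853459) (nat_lit 118) (nat_lit 3) (nat_lit 129) (nat_lit 3) (nat_lit 129) (nat_lit 5) (nat_lit 445) (nat_lit 445) (nat_lit 130)) (XT.lf (nat_lit 76) (nat_lit 88838414733) (nat_lit 0) (nat_lit 108641321655) (nat_lit 836) (nat_lit 502055687779) (nat_lit 119) (nat_lit 5) (nat_lit 118) (nat_lit 3) (nat_lit 129) (nat_lit 5) (nat_lit 446) (nat_lit 445) (nat_lit 129)))) (XT.nd (nat_lit 156) (nat_lit 0) (nat_lit 76) (XT.nd (nat_lit 78) (nat_lit 0) (nat_lit 0) (XT.lf (nat_lit 0) (nat_lit 211871446561) (nat_lit 760) (nat_lit 272382568951) (nat_lit 836) (nat_lit 232729625063) (nat_lit 119) (nat_lit 5) (nat_lit 129) (nat_lit 5) (nat_lit 130) (nat_lit 5) (nat_lit 447) (nat_lit 445) (nat_lit 128)) (XT.lf (nat_lit 76) (nat_lit 83747010613) (nat_lit 0) (nat_lit 146324254075) (nat_lit 836) (nat_lit 505078576997)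 (nat_lit 120) (nat_lit 5) (nat_lit 119) (nat_lit 5) (nat_lit 130) (nat_lit 5) (nat_lit 448) (nat_lit 445) (nat_lit 127))) (XT.nd (nat_lit 78) (nat_lit 0) (nat_lit 0) (XT.lf (nat_lit 0) (nat_lit 257124918620) (nat_lit 760) (nat_lit 290185057111) (nat_lit 836) (nat_lit 206517184880) (nat_lit 120) (nat_lit 5) (nat_lit 130) (nat_lit 5) (nat_lit 131) (nat_lit 5) (nat_lit 449) (nat_lit 445) (nat_lit 126)) (XT.lf (nat_lit 76) (nat_lit 89561365154) (nat_lit 0) (nat_lit 199766944650) (nat_lit 836) (nat_lit 483920182956) (nat_lit 121) (nat_lit 5) (nat_lit 120) (nat_lit 5) (nat_lit 131) (nat_lit 5) (nat_lit 450) (nat_lit 445) (nat_lit 125))))) (XT.nd (nat_lit 52728) (nat_lit 228) (nat_lit 0) (XT.nd (nat_lit 78) (nat_lit 0) (nat_lit 0) (XT.lf (nat_lit 0) (nat_lit 330715356828) (nat_lit 760) (nat_lit 297684566518) (nat_lit 836) (nat_lit 164862293859) (nat_lit 121) (nat_lit 5) (nat_lit 131) (nat_lit 5)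 (nat_lit 132) (nat_lit 5) (nat_lit 451) (nat_lit 445) (nat_lit 124)) (XT.nd (nat_lit 234) (nat_lit 0) (nat_lit 152) (XT.lf (nat_lit 76) (nat_lit 107793308533) (nat_lit 0) (nat_lit 271336264304) (nat_lit 836) (nat_lit 434899164208) (nat_lit 122) (nat_lit 5) (nat_lit 121) (nat_lit 5) (nat_lit 132) (nat_lit 5) (nat_lit 452) (nat_lit 445) (nat_lit 123)) (XT.lf (nat_lit 0) (nat_lit 579620670947) (nat_lit 760) (nat_lit 275702884020) (nat_lit 76) (nat_lit 25433259019) (nat_lit 123) (nat_lit 5) (nat_lit 133) (nat_lit 5) (nat_lit 124) (nat_lit 5) (nat_lit 455) (nat_lit 445) (nat_lit 120)))) (XT.nd (nat_lit 156) (nat_lit 0) (nat_lit 76) (XT.nd (nat_lit 78) (nat_lit 0) (nat_lit 0) (XT.lf (nat_lit 0) (nat_lit 100437799215) (nat_lit 836) (nat_lit 128948175281) (nat_lit 836) (nat_lit 128948175281) (nat_lit 118) (nat_lit 3) (nat_lit 129) (nat_lit 3) (nat_lit 129) (nat_lit 5) (nat_lit 446) (nat_lit 446)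 (nat_lit 128)) (XT.lf (nat_lit 76) (nat_lit 93280474886) (nat_lit 0) (nat_lit 114073507419) (nat_lit 836) (nat_lit 527158199974) (nat_lit 119) (nat_lit 5) (nat_lit 118) (nat_lit 3) (nat_lit 129) (nat_lit 5) (nat_lit 447) (nat_lit 446) (nat_lit 127))) (XT.nd (nat_lit 78) (nat_lit 0) (nat_lit 0) (XT.lf (nat_lit 0) (nat_lit 222465263870) (nat_lit 760) (nat_lit 286001550370) (nat_lit 836) (nat_lit 244365995981) (nat_lit 119) (nat_lit 5) (nat_lit 129) (nat_lit 5) (nat_lit 130) (nat_lit 5) (nat_lit 448) (nat_lit 446) (nat_lit 126)) (XT.lf (nat_lit 76) (nat_lit 87934505801) (nat_lit 0) (nat_lit 153640557695) (nat_lit 836) (nat_lit 530332258368) (nat_lit 120) (nat_lit 5) (nat_lit 119) (nat_lit 5) (nat_lit 130) (nat_lit 5) (nat_lit 449) (nat_lit 446) (nat_lit 125)))))) (XT.nd (nat_lit 53196) (nat_lit 0) (nat_lit 0) (XT.nd (nat_lit 52884) (nat_lit 152) (nat_lit 0) (XT.nd (nat_lit 78) (nat_lit 0) (nat_lit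 0) (XT.lf (nat_lit 0) (nat_lit 269981387555) (nat_lit 760) (nat_lit 304694159507) (nat_lit 836) (nat_lit 216842960309) (nat_lit 120) (nat_lit 5) (nat_lit 130) (nat_lit 5) (nat_lit 131) (nat_lit 5) (nat_lit 450) (nat_lit 446) (nat_lit 124)) (XT.nd (nat_lit 234) (nat_lit 0) (nat_lit 152) (XT.lf (nat_lit 76) (nat_lit 94039581445) (nat_lit 0) (nat_lit 209755358545) (nat_lit 836) (nat_lit 508115966558) (nat_lit 121) (nat_lit 5) (nat_lit 120) (nat_lit 5) (nat_lit 131) (nat_lit 5) (nat_lit 451) (nat_lit 446) (nat_lit 123)) (XT.lf (nat_lit 0) (nat_lit 458541228521) (nat_lit 760) (nat_lit 308071246787) (nat_lit 836) (nat_lit 110658861423) (nat_lit 122) (nat_lit 5) (nat_lit 132) (nat_lit 5) (nat_lit 133) (nat_lit 5) (nat_lit 454) (nat_lit 446) (nat_lit 120)))) (XT.nd (nat_lit 156) (nat_lit 0) (nat_lit 76) (XT.nd (nat_lit 78) (nat_lit 0) (nat_lit 0) (XT.lf (nat_lit 0) (nat_lit 105459811519) (nat_lit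 836) (nat_lit 135395519781) (nat_lit 836) (nat_lit 135395519781) (nat_lit 118) (nat_lit 3) (nat_lit 129) (nat_lit 3) (nat_lit 129) (nat_lit 5) (nat_lit 447) (nat_lit 447) (nat_lit 126)) (XT.lf (nat_lit 76) (nat_lit 97944625085) (nat_lit 0) (nat_lit 119777291345) (nat_lit 836) (nat_lit 553515863086) (nat_lit 119) (nat_lit 5) (nat_lit 118) (nat_lit 3) (nat_lit 129) (nat_lit 5) (nat_lit 448) (nat_lit 447) (nat_lit 125))) (XT.nd (nat_lit 78) (nat_lit 0) (nat_lit 0) (XT.lf (nat_lit 0) (nat_lit 233588749267) (nat_lit 760) (nat_lit 300301494529) (nat_lit 836) (nat_lit 256584195704) (nat_lit 119) (nat_lit 5) (nat_lit 129) (nat_lit 5) (nat_lit 130) (nat_lit 5) (nat_lit 449) (nat_lit 447) (nat_lit 124)) (XT.lf (nat_lit 76) (nat_lit 92331362299) (nat_lit 0) (nat_lit 161322668043) (nat_lit 836) (nat_lit 556848646815) (nat_lit 120) (nat_lit 5) (nat_lit 119) (nat_lit 5) (nat_lit 130) (nat_lit 5) (nat_lit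 450) (nat_lit 447) (nat_lit 123))))) (XT.nd (nat_lit 53040) (nat_lit 0) (nat_lit 0) (XT.nd (nat_lit 52884) (nat_lit 152) (nat_lit 0) (XT.lf (nat_lit 0) (nat_lit 283480659203) (nat_lit 760) (nat_lit 319928731011) (nat_lit 836) (nat_lit 227685032301) (nat_lit 120) (nat_lit 5) (nat_lit 130) (nat_lit 5) (nat_lit 131) (nat_lit 5) (nat_lit 451) (nat_lit 447) (nat_lit 122)) (XT.nd (nat_lit 78) (nat_lit 0) (nat_lit 0) (XT.lf (nat_lit 0) (nat_lit 110732913064) (nat_lit 836) (nat_lit 142165237481) (nat_lit 836) (nat_lit 142165237481) (nat_lit 118) (nat_lit 3) (nat_lit 129) (nat_lit 3) (nat_lit 129) (nat_lit 5) (nat_lit 448) (nat_lit 448) (nat_lit 124)) (XT.lf (nat_lit 76) (nat_lit 102841971037) (nat_lit 0) (nat_lit 125766254375) (nat_lit 836) (nat_lit 581191432306) (nat_lit 119) (nat_lit 5) (nat_lit 118) (nat_lit 3) (nat_lit 129) (nat_lit 5) (nat_lit 449) (nat_lit 448) (nat_lit 123)))) (XT.nd (nat_lit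 53274) (nat_lit 76) (nat_lit 0) (XT.nd (nat_lit 234) (nat_lit 0) (nat_lit 76) (XT.lf (nat_lit 0) (nat_lit 245268388277) (nat_lit 760) (nat_lit 315316448295) (nat_lit 836) (nat_lit 269413314717) (nat_lit 119) (nat_lit 5) (nat_lit 129) (nat_lit 5) (nat_lit 130) (nat_lit 5) (nat_lit 450) (nat_lit 448) (nat_lit 122)) (XT.lf (nat_lit 76) (nat_lit 103678901314) (nat_lit 0) (nat_lit 231255401127) (nat_lit 836) (nat_lit 560197452767) (nat_lit 121) (nat_lit 5) (nat_lit 120) (nat_lit 5) (nat_lit 131) (nat_lit 5) (nat_lit 453) (nat_lit 448) (nat_lit 119))) (XT.nd (nat_lit 53040) (nat_lit 76) (nat_lit 0) (XT.lf (nat_lit 76) (nat_lit 101795559841) (nat_lit 0) (nat_lit 177858387897) (nat_lit 836) (nat_lit 613925234659) (nat_lit 120) (nat_lit 5) (nat_lit 119) (nat_lit 5) (nat_lit 130) (nat_lit 5) (nat_lit 452) (nat_lit 449) (nat_lit 119)) (XT.lf (nat_lit 76) (nat_lit 113383476666) (nat_lit 0) (nat_lit 138657470228)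 (nat_lit 836) (nat_lit 640763156616) (nat_lit 119) (nat_lit 5) (nat_lit 118) (nat_lit 3) (nat_lit 129) (nat_lit 5) (nat_lit 451) (nat_lit 450) (nat_lit 119))))))))

set_option maxRecDepth 10000000 in
noncomputable def Tp : PT := (PT.nd (nat_lit 9256104) (PT.nd (nat_lit 8618766) (PT.nd (nat_lit 7875738) (PT.nd (nat_lit 7132476) pc0 pc1) (PT.nd (nat_lit 477282) pc2 pc3)) (PT.nd (nat_lit 371904) (PT.nd (nat_lit 212316) pc4 pc5) (PT.nd (nat_lit 158652) pc6 pc7))) (PT.nd (nat_lit 372372) (PT.nd (nat_lit 211848) (PT.nd (nat_lit 106236) pc8 pc9) (PT.nd (nat_lit 104988) pc10 pc11)) (PT.nd (nat_lit 372216) (PT.nd (nat_lit 159354) pc12 pc13) (PT.nd (nat_lit 313638) pc14 pc15))))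

set_option maxRecDepth 10000000 in
noncomputable def Tx : XT := (XT.nd (nat_lit 14220414) (nat_lit 0) (nat_lit 76) XT.nil (XT.nd (nat_lit 9717942) (nat_lit 0) (nat_lit 0) (XT.nd (nat_lit 4507776) (nat_lit 0) (nat_lit 228) (XT.nd (nat_lit 3127566) (nat_lit 0) (nat_lit 152) (XT.nd (nat_lit 2177136) (nat_lit 0) (nat_lit 0) (XT.nd (nat_lit 1538550) (nat_lit 0) (nat_lit 0) (XT.nd (nat_lit 1061814) (nat_lit 0) (nat_lit 0) (XT.nd (nat_lit 743028) (nat_lit 0) (nat_lit 0) (XT.nd (nat_lit 530244) (nat_lit 0) (nat_lit 0) (XT.nd (nat_lit 371124) (nat_lit 0) (nat_lit 0) xc0 xc1) (XT.nd (nat_lit 106704) (nat_lit 0) (nat_lit 0) xc2 xc3)) (XT.nd (nat_lit 210288) (nat_lit 0) (nat_lit 0) (XT.nd (nat_lit 105456) (nat_lit 0) (nat_lit 0) xc4 xc5) (XT.nd (nat_lit 54288) (nat_lit 0) (nat_lit 0) xc6 xc7))) (XT.nd (nat_lit 264498) (nat_lit 0) (nat_lit 0) (XT.nd (nat_lit 157404) (nat_lit 0) (nat_lit 0) (XT.nd (nat_lit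 103662) (nat_lit 0) (nat_lit 0) xc8 xc9) (XT.nd (nat_lit 53586) (nat_lit 0) (nat_lit 0) xc10 xc11)) (XT.nd (nat_lit 106392) (nat_lit 0) (nat_lit 0) (XT.nd (nat_lit 53274) (nat_lit 0) (nat_lit 0) xc12 xc13) (XT.nd (nat_lit 52962) (nat_lit 0) (nat_lit 0) xc14 xc15)))) (XT.nd (nat_lit 369564) (nat_lit 0) (nat_lit 0) (XT.nd (nat_lit 209664) (nat_lit 0) (nat_lit 0) (XT.nd (nat_lit 105144) (nat_lit 0) (nat_lit 0) (XT.nd (nat_lit 52650) (nat_lit 0) (nat_lit 0) xc16 xc17) (XT.nd (nat_lit 52338) (nat_lit 0) (nat_lit 0) xc18 xc19)) (XT.nd (nat_lit 56238) (nat_lit 0) (nat_lit 0) (XT.nd (nat_lit 4212) (nat_lit 0) (nat_lit 0) xc20 xc21) (XT.nd (nat_lit 51870) (nat_lit 0) (nat_lit 0) xc22 xc23))) (XT.nd (nat_lit 158496) (nat_lit 0) (nat_lit 0) (XT.nd (nat_lit 55770) (nat_lit 0) (nat_lit 0) (XT.nd (nat_lit 51558) (nat_lit 0) (nat_lit 152) xc24 xc25) (XT.nd (nat_lit 51402) (nat_lit 0) (nat_lit 0) xc26 xc27))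 (XT.nd (nat_lit 55302) (nat_lit 0) (nat_lit 0) (XT.nd (nat_lit 4212) (nat_lit 152) (nat_lit 0) xc28 xc29) (XT.nd (nat_lit 50934) (nat_lit 0) (nat_lit 152) xc30 xc31))))) (XT.nd (nat_lit 526422) (nat_lit 0) (nat_lit 152) (XT.nd (nat_lit 265044) (nat_lit 0) (nat_lit 0) (XT.nd (nat_lit 156078) (nat_lit 0) (nat_lit 0) (XT.nd (nat_lit 101400) (nat_lit 0) (nat_lit 0) (XT.nd (nat_lit 50778) (nat_lit 0) (nat_lit 0) xc32 xc33) (XT.nd (nat_lit 4212) (nat_lit 152) (nat_lit 0) xc34 xc35)) (XT.nd (nat_lit 54522) (nat_lit 0) (nat_lit 0) (XT.nd (nat_lit 50310) (nat_lit 0) (nat_lit 152) xc36 xc37) (XT.nd (nat_lit 50154) (nat_lit 0) (nat_lit 152) xc38 xc39))) (XT.nd (nat_lit 153816) (nat_lit 0) (nat_lit 152) (XT.nd (nat_lit 54210) (nat_lit 0) (nat_lit 0) (XT.nd (nat_lit 49998) (nat_lit 0) (nat_lit 152) xc40 xc41) (XT.nd (nat_lit 49842) (nat_lit 0) (nat_lit 152) xc42 xc43)) (XT.nd (nat_lit 53820) (nat_lit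 0) (nat_lit 0) (XT.nd (nat_lit 4212) (nat_lit 76) (nat_lit 0) xc44 xc45) (XT.nd (nat_lit 4212) (nat_lit 0) (nat_lit 0) xc46 xc47)))) (XT.nd (nat_lit 213252) (nat_lit 0) (nat_lit 0) (XT.nd (nat_lit 106938) (nat_lit 0) (nat_lit 0) (XT.nd (nat_lit 53508) (nat_lit 0) (nat_lit 0) (XT.nd (nat_lit 4212) (nat_lit 0) (nat_lit 0) xc48 xc49) (XT.nd (nat_lit 4212) (nat_lit 0) (nat_lit 0) xc50 xc51)) (XT.nd (nat_lit 53196) (nat_lit 0) (nat_lit 0) (XT.nd (nat_lit 4212) (nat_lit 0) (nat_lit 0) xc52 xc53) (XT.nd (nat_lit 4212) (nat_lit 0) (nat_lit 0) xc54 xc55))) (XT.nd (nat_lit 105690) (nat_lit 0) (nat_lit 0) (XT.nd (nat_lit 52884) (nat_lit 0) (nat_lit 0) (XT.nd (nat_lit 4212) (nat_lit 0) (nat_lit 0) xc56 xc57) (XT.nd (nat_lit 4212) (nat_lit 0) (nat_lit 0) xc58 xc59)) (XT.nd (nat_lit 52572) (nat_lit 0) (nat_lit 0) (XT.nd (nat_lit 4212) (nat_lit 0) (nat_lit 0) xc60 xc61) (XT.nd (nat_lit 4212) (nat_lit 0)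 (nat_lit 0) xc62 xc63)))))) (XT.nd (nat_lit 693498) (nat_lit 0) (nat_lit 0) (XT.nd (nat_lit 371280) (nat_lit 0) (nat_lit 0) (XT.nd (nat_lit 164814) (nat_lit 0) (nat_lit 0) (XT.nd (nat_lit 104364) (nat_lit 0) (nat_lit 0) (XT.nd (nat_lit 52260) (nat_lit 0) (nat_lit 0) (XT.nd (nat_lit 4212) (nat_lit 76) (nat_lit 0) xc64 xc65) (XT.nd (nat_lit 4212) (nat_lit 228) (nat_lit 0) xc66 xc67)) (XT.nd (nat_lit 51948) (nat_lit 0) (nat_lit 0) (XT.nd (nat_lit 4212) (nat_lit 456) (nat_lit 0) xc68 xc69) (XT.nd (nat_lit 4212) (nat_lit 988) (nat_lit 0) xc70 xc71))) (XT.nd (nat_lit 103506) (nat_lit 0) (nat_lit 0) (XT.nd (nat_lit 51792) (nat_lit 0) (nat_lit 0) (XT.nd (nat_lit 47580) (nat_lit 0) (nat_lit 76) xc72 xc73) (XT.nd (nat_lit 47424) (nat_lit 0) (nat_lit 456) xc74 xc75)) (XT.nd (nat_lit 51480) (nat_lit 0) (nat_lit 0) (XT.nd (nat_lit 47268) (nat_lit 0) (nat_lit 1064) xc76 xc77) (XT.nd (nat_lit 4212) (nat_lit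 0) (nat_lit 0) xc78 xc79)))) (XT.nd (nat_lit 161772) (nat_lit 0) (nat_lit 0) (XT.nd (nat_lit 59670) (nat_lit 0) (nat_lit 0) (XT.nd (nat_lit 51246) (nat_lit 0) (nat_lit 0) (XT.nd (nat_lit 4212) (nat_lit 228) (nat_lit 0) xc80 xc81) (XT.nd (nat_lit 4212) (nat_lit 760) (nat_lit 0) xc82 xc83)) (XT.nd (nat_lit 51090) (nat_lit 0) (nat_lit 0) (XT.nd (nat_lit 46878) (nat_lit 0) (nat_lit 228) xc84 xc85) (XT.nd (nat_lit 46722) (nat_lit 0) (nat_lit 836) xc86 xc87))) (XT.nd (nat_lit 101478) (nat_lit 0) (nat_lit 0) (XT.nd (nat_lit 50778) (nat_lit 0) (nat_lit 0) (XT.nd (nat_lit 4212) (nat_lit 0) (nat_lit 0) xc88 xc89) (XT.nd (nat_lit 4212) (nat_lit 304) (nat_lit 0) xc90 xc91)) (XT.nd (nat_lit 8424) (nat_lit 0) (nat_lit 0) (XT.nd (nat_lit 4212) (nat_lit 1216) (nat_lit 0) xc92 xc93) (XT.nd (nat_lit 46254) (nat_lit 0) (nat_lit 532) xc94 xc95))))) (XT.nd (nat_lit 320268) (nat_lit 0) (nat_lit 0) (XT.nd (nat_lit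 159666) (nat_lit 0) (nat_lit 0) (XT.nd (nat_lit 100698) (nat_lit 0) (nat_lit 0) (XT.nd (nat_lit 50310) (nat_lit 0) (nat_lit 0) (XT.nd (nat_lit 46098) (nat_lit 0) (nat_lit 1976) xc96 xc97) (XT.nd (nat_lit 4212) (nat_lit 228) (nat_lit 0) xc98 xc99)) (XT.nd (nat_lit 8424) (nat_lit 0) (nat_lit 0) (XT.nd (nat_lit 4212) (nat_lit 1140) (nat_lit 0) xc100 xc101) (XT.nd (nat_lit 46254) (nat_lit 0) (nat_lit 456) xc102 xc103))) (XT.nd (nat_lit 101322) (nat_lit 0) (nat_lit 0) (XT.nd (nat_lit 50544) (nat_lit 0) (nat_lit 0) (XT.nd (nat_lit 46332) (nat_lit 0) (nat_lit 1748) xc104 xc105) (XT.nd (nat_lit 4212) (nat_lit 76) (nat_lit 0) xc106 xc107)) (XT.nd (nat_lit 50778) (nat_lit 0) (nat_lit 228) (XT.nd (nat_lit 4212) (nat_lit 760) (nat_lit 0) xc108 xc109) (XT.nd (nat_lit 4212) (nat_lit 1976) (nat_lit 0) xc110 xc111)))) (XT.nd (nat_lit 204048) (nat_lit 0) (nat_lit 76) (XT.nd (nat_lit 101868) (nat_lit 0) (nat_lit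 76) (XT.nd (nat_lit 50856) (nat_lit 0) (nat_lit 0) (XT.nd (nat_lit 46644) (nat_lit 0) (nat_lit 988) xc112 xc113) (XT.nd (nat_lit 46722) (nat_lit 0) (nat_lit 2508) xc114 xc115)) (XT.nd (nat_lit 51012) (nat_lit 0) (nat_lit 0) (XT.nd (nat_lit 4212) (nat_lit 228) (nat_lit 0) xc116 xc117) (XT.nd (nat_lit 4212) (nat_lit 988) (nat_lit 0) xc118 xc119))) (XT.nd (nat_lit 59670) (nat_lit 0) (nat_lit 0) (XT.nd (nat_lit 8424) (nat_lit 228) (nat_lit 0) (XT.nd (nat_lit 4212) (nat_lit 2204) (nat_lit 0) xc120 xc121) (XT.nd (nat_lit 46956) (nat_lit 0) (nat_lit 912) xc122 xc123)) (XT.nd (nat_lit 51246) (nat_lit 0) (nat_lit 0) (XT.nd (nat_lit 47034) (nat_lit 0) (nat_lit 2052) xc124 xc125) (XT.nd (nat_lit 4212) (nat_lit 152) (nat_lit 0) xc126 xc127))))))) (XT.nd (nat_lit 1599858) (nat_lit 0) (nat_lit 608) (XT.nd (nat_lit 745680) (nat_lit 0) (nat_lit 228) (XT.nd (nat_lit 370656) (nat_lit 0) (nat_lit 152) (XT.nd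 (nat_lit 163176) (nat_lit 0) (nat_lit 0) (XT.nd (nat_lit 59904) (nat_lit 0) (nat_lit 0) (XT.nd (nat_lit 51480) (nat_lit 0) (nat_lit 0) (XT.nd (nat_lit 4212) (nat_lit 684) (nat_lit 0) xc128 xc129) (XT.nd (nat_lit 4212) (nat_lit 1596) (nat_lit 0) xc130 xc131)) (XT.nd (nat_lit 51558) (nat_lit 0) (nat_lit 0) (XT.nd (nat_lit 47346) (nat_lit 0) (nat_lit 380) xc132 xc133) (XT.nd (nat_lit 47424) (nat_lit 0) (nat_lit 912) xc134 xc135))) (XT.nd (nat_lit 103584) (nat_lit 0) (nat_lit 0) (XT.nd (nat_lit 51714) (nat_lit 0) (nat_lit 0) (XT.nd (nat_lit 47502) (nat_lit 0) (nat_lit 1824) xc136 xc137) (XT.nd (nat_lit 4212) (nat_lit 152) (nat_lit 0) xc138 xc139)) (XT.nd (nat_lit 51870) (nat_lit 0) (nat_lit 0) (XT.nd (nat_lit 4212) (nat_lit 380) (nat_lit 0) xc140 xc141) (XT.nd (nat_lit 4212) (nat_lit 912) (nat_lit 0) xc142 xc143)))) (XT.nd (nat_lit 165048) (nat_lit 0) (nat_lit 0) (XT.nd (nat_lit 60528) (nat_lit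 0) (nat_lit 0) (XT.nd (nat_lit 52104) (nat_lit 0) (nat_lit 76) (XT.nd (nat_lit 4212) (nat_lit 1444) (nat_lit 0) xc144 xc145) (XT.nd (nat_lit 4212) (nat_lit 2128) (nat_lit 0) xc146 xc147)) (XT.nd (nat_lit 52182) (nat_lit 0) (nat_lit 0) (XT.nd (nat_lit 47970) (nat_lit 0) (nat_lit 304) xc148 xc149) (XT.nd (nat_lit 48048) (nat_lit 0) (nat_lit 684) xc150 xc151))) (XT.nd (nat_lit 104832) (nat_lit 0) (nat_lit 0) (XT.nd (nat_lit 52338) (nat_lit 0) (nat_lit 0) (XT.nd (nat_lit 48126) (nat_lit 0) (nat_lit 1140) xc152 xc153) (XT.nd (nat_lit 48204) (nat_lit 0) (nat_lit 1596) xc154 xc155)) (XT.nd (nat_lit 52494) (nat_lit 0) (nat_lit 0) (XT.nd (nat_lit 48282) (nat_lit 0) (nat_lit 2204) xc156 xc157) (XT.nd (nat_lit 4212) (nat_lit 76) (nat_lit 0) xc158 xc159))))) (XT.nd (nat_lit 424164) (nat_lit 0) (nat_lit 152) (XT.nd (nat_lit 211380) (nat_lit 0) (nat_lit 0) (XT.nd (nat_lit 105456) (nat_lit 0) (nat_lit 0)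 (XT.nd (nat_lit 52650) (nat_lit 0) (nat_lit 0) (XT.nd (nat_lit 4212) (nat_lit 152) (nat_lit 0) xc160 xc161) (XT.nd (nat_lit 4212) (nat_lit 228) (nat_lit 0) xc162 xc163)) (XT.nd (nat_lit 52884) (nat_lit 0) (nat_lit 0) (XT.nd (nat_lit 4212) (nat_lit 456) (nat_lit 0) xc164 xc165) (XT.nd (nat_lit 4212) (nat_lit 608) (nat_lit 0) xc166 xc167))) (XT.nd (nat_lit 106236) (nat_lit 0) (nat_lit 152) (XT.nd (nat_lit 53040) (nat_lit 0) (nat_lit 0) (XT.nd (nat_lit 4212) (nat_lit 608) (nat_lit 0) xc168 xc169) (XT.nd (nat_lit 4212) (nat_lit 684) (nat_lit 0) xc170 xc171)) (XT.nd (nat_lit 53196) (nat_lit 0) (nat_lit 0) (XT.nd (nat_lit 4212) (nat_lit 532) (nat_lit 0) xc172 xc173) (XT.nd (nat_lit 4212) (nat_lit 532) (nat_lit 0) xc174 xc175)))) (XT.nd (nat_lit 214344) (nat_lit 0) (nat_lit 76) (XT.nd (nat_lit 107016) (nat_lit 0) (nat_lit 76) (XT.nd (nat_lit 53430) (nat_lit 0) (nat_lit 0) (XT.nd (nat_lit 4212) (nat_lit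 456) (nat_lit 0) xc176 xc177) (XT.nd (nat_lit 4212) (nat_lit 304) (nat_lit 0) xc178 xc179)) (XT.nd (nat_lit 53586) (nat_lit 0) (nat_lit 0) (XT.nd (nat_lit 4212) (nat_lit 152) (nat_lit 0) xc180 xc181) (XT.nd (nat_lit 49452) (nat_lit 0) (nat_lit 2204) xc182 xc183))) (XT.nd (nat_lit 107640) (nat_lit 0) (nat_lit 76) (XT.nd (nat_lit 53742) (nat_lit 0) (nat_lit 0) (XT.nd (nat_lit 49530) (nat_lit 0) (nat_lit 1672) xc184 xc185) (XT.nd (nat_lit 49608) (nat_lit 0) (nat_lit 1140) xc186 xc187)) (XT.nd (nat_lit 53898) (nat_lit 0) (nat_lit 76) (XT.nd (nat_lit 49686) (nat_lit 0) (nat_lit 684) xc188 xc189) (XT.nd (nat_lit 49842) (nat_lit 0) (nat_lit 76) xc190 xc191)))))) (XT.nd (nat_lit 1114386) (nat_lit 0) (nat_lit 988) (XT.nd (nat_lit 528606) (nat_lit 0) (nat_lit 456) (XT.nd (nat_lit 263094) (nat_lit 0) (nat_lit 228) (XT.nd (nat_lit 154206) (nat_lit 0) (nat_lit 76) (XT.nd (nat_lit 99918) (nat_lit 0) (nat_lit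 76) (XT.nd (nat_lit 49920) (nat_lit 0) (nat_lit 76) xc192 xc193) (XT.nd (nat_lit 4212) (nat_lit 1368) (nat_lit 0) xc194 xc195)) (XT.nd (nat_lit 54366) (nat_lit 0) (nat_lit 0) (XT.nd (nat_lit 4212) (nat_lit 684) (nat_lit 0) xc196 xc197) (XT.nd (nat_lit 50232) (nat_lit 0) (nat_lit 1976) xc198 xc199))) (XT.nd (nat_lit 155688) (nat_lit 0) (nat_lit 76) (XT.nd (nat_lit 54600) (nat_lit 0) (nat_lit 0) (XT.nd (nat_lit 50388) (nat_lit 0) (nat_lit 760) xc200 xc201) (XT.nd (nat_lit 50466) (nat_lit 0) (nat_lit 76) xc202 xc203)) (XT.nd (nat_lit 54834) (nat_lit 0) (nat_lit 0) (XT.nd (nat_lit 4212) (nat_lit 1444) (nat_lit 0) xc204 xc205) (XT.nd (nat_lit 4212) (nat_lit 304) (nat_lit 0) xc206 xc207)))) (XT.nd (nat_lit 267852) (nat_lit 0) (nat_lit 228) (XT.nd (nat_lit 157014) (nat_lit 0) (nat_lit 76) (XT.nd (nat_lit 55068) (nat_lit 0) (nat_lit 76) (XT.nd (nat_lit 50856) (nat_lit 0) (nat_lit 532) xc208 xc209)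 (XT.nd (nat_lit 50934) (nat_lit 0) (nat_lit 0) xc210 xc211)) (XT.nd (nat_lit 55302) (nat_lit 0) (nat_lit 152) (XT.nd (nat_lit 4212) (nat_lit 532) (nat_lit 0) xc212 xc213) (XT.nd (nat_lit 51246) (nat_lit 0) (nat_lit 304) xc214 xc215))) (XT.nd (nat_lit 158496) (nat_lit 0) (nat_lit 228) (XT.nd (nat_lit 102726) (nat_lit 0) (nat_lit 76) (XT.nd (nat_lit 51324) (nat_lit 0) (nat_lit 76) xc216 xc217) (XT.nd (nat_lit 51480) (nat_lit 0) (nat_lit 988) xc218 xc219)) (XT.nd (nat_lit 103350) (nat_lit 0) (nat_lit 76) (XT.nd (nat_lit 51636) (nat_lit 0) (nat_lit 76) xc220 xc221) (XT.nd (nat_lit 51792) (nat_lit 0) (nat_lit 836) xc222 xc223))))) (XT.nd (nat_lit 793806) (nat_lit 0) (nat_lit 1444) (XT.nd (nat_lit 369720) (nat_lit 0) (nat_lit 532) (XT.nd (nat_lit 160212) (nat_lit 0) (nat_lit 228) (XT.nd (nat_lit 103896) (nat_lit 0) (nat_lit 228) (XT.nd (nat_lit 51870) (nat_lit 0) (nat_lit 152) xc224 xc225) (XT.nd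 (nat_lit 52104) (nat_lit 0) (nat_lit 76) xc226 xc227)) (XT.nd (nat_lit 104520) (nat_lit 0) (nat_lit 228) (XT.nd (nat_lit 52182) (nat_lit 0) (nat_lit 76) xc228 xc229) (XT.nd (nat_lit 52416) (nat_lit 0) (nat_lit 0) xc230 xc231))) (XT.nd (nat_lit 211224) (nat_lit 0) (nat_lit 532) (XT.nd (nat_lit 105378) (nat_lit 0) (nat_lit 228) (XT.nd (nat_lit 52650) (nat_lit 0) (nat_lit 228) xc232 xc233) (XT.nd (nat_lit 52806) (nat_lit 0) (nat_lit 76) xc234 xc235)) (XT.nd (nat_lit 106158) (nat_lit 0) (nat_lit 228) (XT.nd (nat_lit 53040) (nat_lit 0) (nat_lit 0) xc236 xc237) (XT.nd (nat_lit 53274) (nat_lit 0) (nat_lit 0) xc238 xc239)))) (XT.nd (nat_lit 480870) (nat_lit 0) (nat_lit 1216) (XT.nd (nat_lit 214500) (nat_lit 0) (nat_lit 456) (XT.nd (nat_lit 107016) (nat_lit 0) (nat_lit 152) (XT.nd (nat_lit 53430) (nat_lit 0) (nat_lit 152) xc240 xc241) (XT.nd (nat_lit 53664) (nat_lit 0) (nat_lit 152) xc242 xc243))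 (XT.nd (nat_lit 157794) (nat_lit 0) (nat_lit 380) (XT.nd (nat_lit 53898) (nat_lit 0) (nat_lit 152) xc244 xc245) (XT.nd (nat_lit 54210) (nat_lit 0) (nat_lit 152) xc246 xc247))) (XT.nd (nat_lit 371046) (nat_lit 0) (nat_lit 1368) (XT.nd (nat_lit 159432) (nat_lit 0) (nat_lit 380) (XT.nd (nat_lit 104754) (nat_lit 0) (nat_lit 380) xc248 xc249) (XT.nd (nat_lit 105534) (nat_lit 0) (nat_lit 456) xc250 xc251)) (XT.nd (nat_lit 265200) (nat_lit 0) (nat_lit 1140) (XT.nd (nat_lit 106548) (nat_lit 0) (nat_lit 228) xc252 xc253) (XT.nd (nat_lit 159900) (nat_lit 0) (nat_lit 684) xc254 xc255)))))))) XT.nil))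

set_option maxRecDepth 10000000 in
noncomputable def Te : XT := XT.nil

set_option maxRecDepth 10000000 in
noncomputable def Tz : ZL := (ZL.cons (nat_lit 76) (nat_lit 6) (nat_lit 313383997414177136134) (ZL.cons (nat_lit 152) (nat_lit 6) (nat_lit 306256328909940688210) (ZL.cons (nat_lit 228) (nat_lit 3) (nat_lit 152947380407587748509) (ZL.cons (nat_lit 304) (nat_lit 6) (nat_lit 298772276980492417892) (ZL.cons (nat_lit 380) (nat_lit 6) (nat_lit 291999587615283415234) (ZL.cons (nat_lit 456) (nat_lit 3) (nat_lit 145827618524420188001) (ZL.cons (nat_lit 532) (nat_lit 6) (nat_lit 284888263781813962442) (ZL.cons (nat_lit 608) (nat_lit 6) (nat_lit 278455245338301209562) (ZL.cons (nat_lit 684) (nat_lit 3) (nat_lit 139063646208939633718) (ZL.cons (nat_lit 760) (nat_lit 6) (nat_lit 271700575972612819038) (ZL.cons (nat_lit 836) (nat_lit 6) (nat_lit 265592812740192554274) (ZL.cons (nat_lit 912) (nat_lit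 3) (nat_lit 132640238312752495173) (ZL.cons (nat_lit 988) (nat_lit 6) (nat_lit 259179661346151276272) (ZL.cons (nat_lit 1064) (nat_lit 6) (nat_lit 253383604383886548926) (ZL.cons (nat_lit 1140) (nat_lit 3) (nat_lit 126543070708758720211) (ZL.cons (nat_lit 1216) (nat_lit 6) (nat_lit 247297744573508585214) (ZL.cons (nat_lit 1292) (nat_lit 6) (nat_lit 241800688916877070514) (ZL.cons (nat_lit 1368) (nat_lit 3) (nat_lit 120758695426834197874) (ZL.cons (nat_lit 1444) (nat_lit 6) (nat_lit 236028780477413980080) (ZL.cons (nat_lit 1520) (nat_lit 6) (nat_lit 230818845324801875310) (ZL.cons (nat_lit 1596) (nat_lit 3) (nat_lit 115274518822777759196) (ZL.cons (nat_lit 1672) (nat_lit 6) (nat_lit 225348413414559165306) (ZL.cons (nat_lit 1748) (nat_lit 6) (nat_lit 220414525345779691406) (ZL.cons (nat_lit 1824) (nat_lit 3) (nat_lit 110078782825629675741) (ZL.cons (nat_lit 1900) (nat_lit 6) (nat_lit 215233942873561243812)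 (ZL.cons (nat_lit 1976) (nat_lit 6) (nat_lit 210565822170089370610) (ZL.cons (nat_lit 2052) (nat_lit 3) (nat_lit 105160549325749285341) (ZL.cons (nat_lit 2128) (nat_lit 6) (nat_lit 205664295431443903746) (ZL.cons (nat_lit 2204) (nat_lit 6) (nat_lit 201252445586682827128) (ZL.cons (nat_lit 2280) (nat_lit 3) (nat_lit 100509687784488651695) (ZL.cons (nat_lit 2356) (nat_lit 6) (nat_lit 196620003249683696682) (ZL.cons (nat_lit 2432) (nat_lit 6) (nat_lit 192455703777564765512) (ZL.cons (nat_lit 2508) (nat_lit 3) (nat_lit 96116866166065466689) (ZL.cons (nat_lit 2584) (nat_lit 6) (nat_lit 188516562153877369568) (ZL.cons (nat_lit 2660) (nat_lit 6) (nat_lit 188083189331839887782) (ZL.cons (nat_lit 2736) (nat_lit 6) (nat_lit 184158492003571771692) (ZL.cons (nat_lit 2812) (nat_lit 3) (nat_lit 91973545313484061020) (ZL.cons (nat_lit 2888) (nat_lit 6) (nat_lit 180450295829878327688) (ZL.cons (nat_lit 2964)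 (nat_lit 6) (nat_lit 180037559808890249798) (ZL.cons (nat_lit 3040) (nat_lit 6) (nat_lit 176345288470896561830) (ZL.cons (nat_lit 3116) (nat_lit 3) (nat_lit 88071976913256066796) (ZL.cons (nat_lit 3192) (nat_lit 6) (nat_lit 172861485490753739836) (ZL.cons (nat_lit 3268) (nat_lit 6) (nat_lit 172468403566003189466) (ZL.cons (nat_lit 3344) (nat_lit 6) (nat_lit 169002157717219348504) (ZL.cons (nat_lit 3420) (nat_lit 3) (nat_lit 84405205218426613186) (ZL.cons (nat_lit 3496) (nat_lit 6) (nat_lit 165736963313853982514) (ZL.cons (nat_lit 3572) (nat_lit 6) (nat_lit 165362599575996315494) (ZL.cons (nat_lit 3648) (nat_lit 6) (nat_lit 162116761909954226092) (ZL.cons (nat_lit 3724) (nat_lit 3) (nat_lit 80967072726231340602) (ZL.cons (nat_lit 3800) (nat_lit 6) (nat_lit 159065169253807810334) (ZL.cons (nat_lit 3876) (nat_lit 6) (nat_lit 158708632360610032220) (ZL.cons (nat_lit 3952) (nat_lit 6) (nat_lit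 156200555910756719614) (ZL.cons (nat_lit 4028) (nat_lit 6) (nat_lit 155678380507362528902) (ZL.cons (nat_lit 4104) (nat_lit 3) (nat_lit 77752230035828147838) (ZL.cons (nat_lit 4180) (nat_lit 6) (nat_lit 152836175007355296240) (ZL.cons (nat_lit 4256) (nat_lit 6) (nat_lit 152496616061452650416) (ZL.cons (nat_lit 4332) (nat_lit 6) (nat_lit 150175248704635936062) (ZL.cons (nat_lit 4408) (nat_lit 6) (nat_lit 149677938796641468720) (ZL.cons (nat_lit 4484) (nat_lit 3) (nat_lit 74756150143222528061) (ZL.cons (nat_lit 4560) (nat_lit 6) (nat_lit 147041717140877962052) (ZL.cons (nat_lit 4636) (nat_lit 6) (nat_lit 146718327668589727936) (ZL.cons (nat_lit 4712) (nat_lit 6) (nat_lit 144581674375934122070) (ZL.cons (nat_lit 4788) (nat_lit 6) (nat_lit 144108045892129867456) (ZL.cons (nat_lit 4864) (nat_lit 3) (nat_lit 71975147465019022969) (ZL.cons (nat_lit 4940) (nat_lit 6) (nat_lit 142291953257131511056)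 (ZL.cons (nat_lit 5016) (nat_lit 6) (nat_lit 141675240000454855970) (ZL.cons (nat_lit 5092) (nat_lit 6) (nat_lit 141367250026847013954) (ZL.cons (nat_lit 5168) (nat_lit 6) (nat_lit 139414117598584514880) (ZL.cons (nat_lit 5244) (nat_lit 6) (nat_lit 138963042852104272392) (ZL.cons (nat_lit 5320) (nat_lit 3) (nat_lit 69406401920294125947) (ZL.cons (nat_lit 5396) (nat_lit 6) (nat_lit 137319295061752486226) (ZL.cons (nat_lit 5472) (nat_lit 6) (nat_lit 136731949103012814718) (ZL.cons (nat_lit 5548) (nat_lit 6) (nat_lit 136438625318624393748) (ZL.cons (nat_lit 5624) (nat_lit 6) (nat_lit 135385784717252027086) (ZL.cons (nat_lit 5700) (nat_lit 6) (nat_lit 134668656651598613652) (ZL.cons (nat_lit 5776) (nat_lit 6) (nat_lit 134239061654950763662) (ZL.cons (nat_lit 5852) (nat_lit 3) (nat_lit 67047988441039181595) (ZL.cons (nat_lit 5928) (nat_lit 6) (nat_lit 132768252896786873480) (ZL.cons (nat_lit 6004)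 (nat_lit 6) (nat_lit 132208875793225281564) (ZL.cons (nat_lit 6080) (nat_lit 6) (nat_lit 131929519808093452072) (ZL.cons (nat_lit 6156) (nat_lit 6) (nat_lit 131026213067732804344) (ZL.cons (nat_lit 6232) (nat_lit 6) (nat_lit 130343233957586696308) (ZL.cons (nat_lit 6308) (nat_lit 6) (nat_lit 129934095865541124890) (ZL.cons (nat_lit 6384) (nat_lit 3) (nat_lit 64898912326640847935) (ZL.cons (nat_lit 6460) (nat_lit 6) (nat_lit 129438389450557706076) (ZL.cons (nat_lit 6536) (nat_lit 6) (nat_lit 128637694143664439834) (ZL.cons (nat_lit 6612) (nat_lit 6) (nat_lit 128104954045034352296) (ZL.cons (nat_lit 6688) (nat_lit 6) (nat_lit 127838900725861181350) (ZL.cons (nat_lit 6764) (nat_lit 6) (nat_lit 127088195542377744862) (ZL.cons (nat_lit 6840) (nat_lit 6) (nat_lit 126437739247000499118) (ZL.cons (nat_lit 6916) (nat_lit 6) (nat_lit 126048083921242812052) (ZL.cons (nat_lit 6992) (nat_lit 3) (nat_lit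 62959150907164535063) (ZL.cons (nat_lit 7068) (nat_lit 6) (nat_lit 125691048871342595454) (ZL.cons (nat_lit 7144) (nat_lit 6) (nat_lit 124928481912396627606) (ZL.cons (nat_lit 7220) (nat_lit 6) (nat_lit 124421110389891782334) (ZL.cons (nat_lit 7296) (nat_lit 6) (nat_lit 124167726276393524288) (ZL.cons (nat_lit 7372) (nat_lit 6) (nat_lit 124442927590866050780) (ZL.cons (nat_lit 7448) (nat_lit 6) (nat_lit 123573588571378442832) (ZL.cons (nat_lit 7524) (nat_lit 6) (nat_lit 122954106385304875456) (ZL.cons (nat_lit 7600) (nat_lit 6) (nat_lit 122583006075059459204) (ZL.cons (nat_lit 7676) (nat_lit 3) (nat_lit 61229702034237471542) (ZL.cons (nat_lit 7752) (nat_lit 6) (nat_lit 123340859983613642870) (ZL.cons (nat_lit 7828) (nat_lit 6) (nat_lit 122369833287419711020) (ZL.cons (nat_lit 7904) (nat_lit 6) (nat_lit 121643579040804503544) (ZL.cons (nat_lit 7980) (nat_lit 6) (nat_lit 121160368066990365188)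 (ZL.cons (nat_lit 8056) (nat_lit 6) (nat_lit 120919049863658690862) (ZL.cons (nat_lit 8132) (nat_lit 6) (nat_lit 122382222079091913616) (ZL.cons (nat_lit 8208) (nat_lit 6) (nat_lit 121314349976511006620) (ZL.cons (nat_lit 8284) (nat_lit 6) (nat_lit 120486408053189475242) (ZL.cons (nat_lit 8360) (nat_lit 6) (nat_lit 119896425018833696786) (ZL.cons (nat_lit 8436) (nat_lit 6) (nat_lit 119542996151933300356) (ZL.cons (nat_lit 8512) (nat_lit 3) (nat_lit 59712639977593071075) (ZL.cons (nat_lit 8588) (nat_lit 6) (nat_lit 120404625583150166048) (ZL.cons (nat_lit 8664) (nat_lit 6) (nat_lit 119479838253441659524) (ZL.cons (nat_lit 8740) (nat_lit 6) (nat_lit 118788167542379557166) (ZL.cons (nat_lit 8816) (nat_lit 6) (nat_lit 118327966614937520636) (ZL.cons (nat_lit 8892) (nat_lit 6) (nat_lit 118098139754621640326) (ZL.cons (nat_lit 8968) (nat_lit 3) (nat_lit 58954815639000919652) (ZL.cons (nat_lit 9044)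 (nat_lit 6) (nat_lit 117978457500229926972) (ZL.cons (nat_lit 9120) (nat_lit 6) (nat_lit 118185100038871875900) (ZL.cons (nat_lit 9196) (nat_lit 6) (nat_lit 118530050899972071678) (ZL.cons (nat_lit 9272) (nat_lit 6) (nat_lit 119014131395104562392) (ZL.cons (nat_lit 9348) (nat_lit 6) (nat_lit 119638494096876806356) (ZL.cons (nat_lit 9424) (nat_lit 6) (nat_lit 118621473046799752072) (ZL.cons (nat_lit 9500) (nat_lit 6) (nat_lit 117832956929350674568) (ZL.cons (nat_lit 9576) (nat_lit 6) (nat_lit 117271068325202314136) (ZL.cons (nat_lit 9652) (nat_lit 6) (nat_lit 116934469404344793726) (ZL.cons (nat_lit 9728) (nat_lit 3) (nat_lit 58411179370388035811) (ZL.cons (nat_lit 9804) (nat_lit 6) (nat_lit 116493286487343670884) (ZL.cons (nat_lit 9880) (nat_lit 6) (nat_lit 116634380242911250604) (ZL.cons (nat_lit 9956) (nat_lit 6) (nat_lit 116916903691559666186) (ZL.cons (nat_lit 10032) (nat_lit 6) (nat_lit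 117341529508166651950) (ZL.cons (nat_lit 10108) (nat_lit 6) (nat_lit 117909268706581272150) (ZL.cons (nat_lit 10184) (nat_lit 6) (nat_lit 117028518868763646886) (ZL.cons (nat_lit 10260) (nat_lit 6) (nat_lit 116369784858228311308) (ZL.cons (nat_lit 10336) (nat_lit 6) (nat_lit 115931498260664466996) (ZL.cons (nat_lit 10412) (nat_lit 6) (nat_lit 115712615536554104792) (ZL.cons (nat_lit 10488) (nat_lit 3) (nat_lit 57606606454472465742) (ZL.cons (nat_lit 10564) (nat_lit 6) (nat_lit 115285480442284423536) (ZL.cons (nat_lit 10640) (nat_lit 6) (nat_lit 115502455107858469910) (ZL.cons (nat_lit 10716) (nat_lit 6) (nat_lit 115864653512013675478) (ZL.cons (nat_lit 10792) (nat_lit 6) (nat_lit 116372938031902790728) (ZL.cons (nat_lit 10868) (nat_lit 6) (nat_lit 115621970300998907390) (ZL.cons (nat_lit 10944) (nat_lit 6) (nat_lit 115086838297048087932) (ZL.cons (nat_lit 11020) (nat_lit 6) (nat_lit 114766267896231401826)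 (ZL.cons (nat_lit 11096) (nat_lit 3) (nat_lit 57329747917844880863) (ZL.cons (nat_lit 11172) (nat_lit 6) (nat_lit 114135188970799426062) (ZL.cons (nat_lit 11248) (nat_lit 6) (nat_lit 114283337414145384768) (ZL.cons (nat_lit 11324) (nat_lit 6) (nat_lit 114579987035226221128) (ZL.cons (nat_lit 11400) (nat_lit 6) (nat_lit 115025844142663556182) (ZL.cons (nat_lit 11476) (nat_lit 6) (nat_lit 114398478418344188964) (ZL.cons (nat_lit 11552) (nat_lit 6) (nat_lit 113981062611140527712) (ZL.cons (nat_lit 11628) (nat_lit 6) (nat_lit 113772602873892563710) (ZL.cons (nat_lit 11704) (nat_lit 3) (nat_lit 56590383519619218380) (ZL.cons (nat_lit 11780) (nat_lit 6) (nat_lit 113256647949244903414) (ZL.cons (nat_lit 11856) (nat_lit 6) (nat_lit 113484471348097652106) (ZL.cons (nat_lit 11932) (nat_lit 6) (nat_lit 113864779672460617952) (ZL.cons (nat_lit 12008) (nat_lit 6) (nat_lit 113355130144888408940) (ZL.cons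 (nat_lit 12084) (nat_lit 6) (nat_lit 113049825001253469792) (ZL.cons (nat_lit 12160) (nat_lit 3) (nat_lit 56474068662273572945) (ZL.cons (nat_lit 12236) (nat_lit 6) (nat_lit 112419942214431072318) (ZL.cons (nat_lit 12312) (nat_lit 6) (nat_lit 112575498079944328958) (ZL.cons (nat_lit 12388) (nat_lit 6) (nat_lit 112886980182079207136) (ZL.cons (nat_lit 12464) (nat_lit 6) (nat_lit 112489441318075720228) (ZL.cons (nat_lit 12540) (nat_lit 6) (nat_lit 112290908234982421180) (ZL.cons (nat_lit 12616) (nat_lit 3) (nat_lit 55885614026596214990) (ZL.cons (nat_lit 12692) (nat_lit 6) (nat_lit 111850903008699219966) (ZL.cons (nat_lit 12768) (nat_lit 6) (nat_lit 112090117577494606092) (ZL.cons (nat_lit 12844) (nat_lit 6) (nat_lit 111799350774032759284) (ZL.cons (nat_lit 12920) (nat_lit 3) (nat_lit 55851252683822892069) (ZL.cons (nat_lit 12996) (nat_lit 6) (nat_lit 111308960908002217728) (ZL.cons (nat_lit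 13072) (nat_lit 6) (nat_lit 111472294566791137200) (ZL.cons (nat_lit 13148) (nat_lit 6) (nat_lit 111283215440035614294) (ZL.cons (nat_lit 13224) (nat_lit 3) (nat_lit 55474190719759164689) (ZL.cons (nat_lit 13300) (nat_lit 6) (nat_lit 111032040142800458864) (ZL.cons (nat_lit 13376) (nat_lit 3) (nat_lit 55469903211215955552) (ZL.cons (nat_lit 13452) (nat_lit 6) (nat_lit 110768306080703545660) (ZL.cons (nat_lit 13528) (nat_lit 1) (nat_lit 18446744073709551617) ZL.nil))))))))))))))))))))))))))))))))))))))))))))))))))))))))))))))))))))))))))))))))))))))))))))))))))))))))))))))))))))))))))))))))))))))))))))))))))))))))))))))))))))))))))))))))))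

noncomputable def vl : XL := ⟨(nat_lit 0), (nat_lit 76), (nat_lit 44908844), (nat_lit 228), (nat_lit 296490260), (nat_lit 76), (nat_lit 44908844), (nat_lit 1), (nat_lit 5), (nat_lit 3), (nat_lit 4), (nat_lit 1), (nat_lit 4), (nat_lit 0), (nat_lit 0), (nat_lit 0)⟩

noncomputable def cp0 : Nat := (nat_lit 111954557358960405496132239142158481147856739764449718068746589868130299748576553647211600957571255664452517476820425956595693866040771372399157265536862656718600374941967308769358936197158682455137173508700519060285472844922681797036759553761411114117293753246448640817927998902944545643836761552130264942124825620555428292923839188305339422645769726206992767216504974633305627823474674996635682074469648450545197391726677161077517882352029542010857630842149513116432880251531966162400974514161742902265549670088921192552343787105645151496328201539403382779242187411764723619833898540109821062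2614199442681659565889573646208406842207639926283952920167208713691971372757970961523180381726337273607640399407653885497021329426108851657267464622672234127302996703430180993899288725309998822489080575775663846288122190335228419286143341396236577462767061906243158655994676950251187036480228320515473071664074116790865673499412650185545282478126863230682543325554946223035652046995013361905750778936626638763413670706857392188238850782774214865996208295706494078676926508628237171198514916276904297180229609787420833461423297820982342555400550312611960373731427060374354149018582625206010359688045167664345360741157182282547582154408937498494253863137785331580917597884426500139204924622365154953734371354478966229946969089198060581974826068142130440915810758535173962132155014625086463941273466881157159696719010537588367661820959791217934547877727129337965716527561216665293156794638743942761280164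0885000479503449188398569342839855701596419819743347329370577412701507879280033415530633744988991270708973335460856732630675016100144931726269076407862326976967105794570566593894006489331026956325787528015609345528974365896920443013163458080604383645565009398582018801150070771713642901197661308458605001120781580673983165265201200370546967391796912828734595640732267593660552977648959733505783423737120894443833774408422236349146131517507652211688035362526017287135402385549195616123290730899871460334701095762143879441824916684945744961511909078269328273817661568633863237547877120969952713923394335675176109794244065892486855188964734134473932236770299251133797320044654479121472998874198716650296167762083903387671388170797087506546012312172618231227228345738633473522615201265264174633311437133660059005991374395738123185716117846363036711959146664442247198918669636509878409275963746831989946552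0077740986884945314884274364916782153823918506442672479187469143941180872783730099236286153856260316714942958328196436708043719233228400327927461337716055012548561756150986319272988724209445168254546861224638224367938563727257073703777383341477537979355483623546769047101695668753627112672150296619381451330905992186022897978015618073910461370789200161631357630869569295845471557343755602378123360175379475386361362223405828513886220014236161095189076218972500015077830423783789534964519706080638527715181033196107677236244619920257521632090814534621093593613639149117047468447547674912748361629157008178516893565520519601215951034236996983433346788672589463669108293890152432989817242323546009007263095928947567374354817896740818217679633073931031152317019846072526176591762477296828125710238042222441845257229952389606214730648733363899563391196046413075889697756613130692874667166662644988527741795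200621329123811365035658089400668763802917243594250117741635213213194103867754967662528989378986087654699334030716247903762053904720440135630048969619225251363600265437594009854570397394278525097078106357332137245554850331513100580357178739628033669052735899396854388266312238587137072365100424121236097089898647785328548782934311788028181303644803513495171728458823893664597714672395221914730564833793880792550116800759931075347855654484524618141667519032145559378245214141923431980093695389050718992451702574762416004444927016490884053645840248067565193403442814675154479601239000794195196460155769459510272588452368277467369929777591868021672225875933488368148099617261132276767406846585734813444314964658267925227026175769974194874979734994420522431551576610972981553207169541937129435693056)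

noncomputable def cp1 : Nat := (nat_lit 1295737363027240030705894381789313124150227826389044197353158467599849569546560970425169029227364931333509044904709182335026270684678647309423665607689409263590691661247015603341978215100384173082046326567881376344044859254699975352277546805587392336565517453228516043955549863451122189325277939179909734573151209203534307292119332317035292132995948192381613636200758528182089409620438874336644713593713058057514281352333372240212552162013553606385304872426752679812122739042847540486680055551113120705156971299114711959387540440606330537111443583545102381175613136306121442104097615662976204789311582152461394036819333288539389157089609684346372951166009927376594063797839382316219200319173399387179442914153754063859177712310923083864327638061345425763549741741584912655656259488235464138148434870053195632196104233116219432225483415707440612320185239266272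9721023685943295116592683336343736329289178879801167175178957738769337415151591382174809218088806359124656997196617956400479425263050765826878208671236410440233713212160181313525160998352990429887498091563457349375051659992931803942166617688024314402233165987958197679238687964231147113671508794722186815313338341309631903259857542895303454016475296854150981656114272146574946124423140210386144533047935618391991197286642989003825905371390193673363729586197649028440983499524819903540999714227171838808850158124032467434703041499661143030331270065051263609754900511620013699258782065324726209620008728252369908491227440214188968388483919966709944967935876200007405326514698061407386679266678253928123666822557842606737451585004759886173367144469006688711790919936988717070550843217338123912259099387858483670116108183319834763622562491657076198409293042156636840918294312442543211593261424929853914542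7420362642734325758912541846157347748668910694219525829512404120919093443256994365474722884498952111858923474651528860558923112093795855473619801691230648512537740853345066337903643883231199907749303647009549258684205675609648716760274758388510804566686367765893884737111483028049114871708868653443880785541716902462237783091269042473580316217379885261164421880531147750004514486155879506862392134997231453807427660075106173193833277424755151508225349177185547616042938453367060128997551571337267619685294256988731276858026403206768009580867907726192795474786407602366713415187358216557471570122925669131795160739064048520041925158808369948940118681251109955290614953075627701061354190212091312446859005739087841596069249916401694701782827238934434092859082030214799024064002074322889595430382790493879454075246472042716035948786283060194688554869888213690196224484699439141479488735655906683000192995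5428192883309573575316932707111604502425662065247195963130287899612660350289693020788831525978812054707916616296080833512324741209201143622921562079531574531503437615540363202864428080264809535904688151620481006238275389004562684114912999706505966086552761941837325698586553468582457547961458366896411332461078179637089238204666129864710560743896060143483472205218228354520148156427498876882037698159391878980952762892784013511313816523981912936641365171108638762706655953315288234344157309968023103687996252473546931195678631479073119398666900122821254109954900441961913096387539397442506796482497098236171840385366122055404565743706395250805473332864814309883747881201010816433389901555000030160378123051157409142828320547585482352914284212308363408522422247828575690459444963372534503341887966380083222473055284599862576917507618888662260819244390148540419855940155554825246727570267904113583197601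86459568278530714299661465635206953528510387376768613308821865727284530723422262617880428049577022500007904117146655109945771987737241579261330984926162082777902301912591723778373525468827138402191455835030925887099074379936684024727954561947585327115895617518826630914823238981821934452835111143496729310395395782106810526383830945450366562229326470482631451626214952396284277224341049124484331877172697358658745341731912185988849088795876942759694995510824436089230621847981739095757786148372909421202813610567984166154304225280)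

noncomputable def rc0 : Nat := (nat_lit 1114400626226507752598953571769176835142170313664190568073690004460621015143931879206151304355198757017749493817251798435091630092785192664943937513165421459261010803052191662545286838930071566077971683181869483692905829867070766728799063468203320634184665491579093862898239651224057142032435420122851835937307681893816628089364150157926543168458250527944586409944221641024103082185226907120647514112913949437887864323542144572909912002454497635658340984215115851573473191552762453392146930957381111677535496766557633601538313999437818928194449812891752263431081640243863800519559795039830227145556988479062115051376025827744243495015152076406368821530608088758213737958245211691160662945913323247200381103580264950035283104812345394033872480832369121793949995502749451282749321804828891069026310105789950992466253197479194979178965726595687218504768553219933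1845718393727291306508419841222382562895777277676698583543333684486481614733309136058244489245166156416853167816903856385233697445585870263443668533449564048597470070942926726889088467092408082828608812944292878582882303179364494495831464636911630849344288526592424911548920355484565076704173070047562192297539067587072649847511485931821752438270885704172329830058268490873660135838450860176755146860574962770901183744596751873299475519327467859582754715582152019713374917658965091697083092174002260173514673871104238949918532303452927966138797361006561646839109912887216314442761150691732230908428358807514578864314224670444985852399204489201536388413347712853963259698808361565959070479031874370570820876252396825791295635737500218066171130997601131836170305039313000768291565137730279164240774443270182008165582640868950192956904338927745847291127509673523175461780998106183426426046836294677793597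6878932120689035351269692798868889332180407971174332468250999327442314940854371145904502515926720390066737941069405027370553603089107505344084942168924034782770038461589781047809376546529014895598908208291529205946801918731949120533829577379173490955826679085573581574482385810281045078398239545141896400916534204284962501091050839596091979673469382664823736049239959765606285613569972924335578402224865841136062461477527174139391106376013466624727081672569386912256278016251277943029873439078578042348081393541968845039705626995430659328235899683432332809261842360390029315276039646244016008422436571562600165142512648764281717671165934261426619866850563982547883907336492491846671882825706708223706391859738936740399769949208463765927283063469651610111156507334887339967532562134315136445990779023365572733545300518255792500400810219681828047940602588173911164449782049293529823710218050229233735184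6749167584480352910642963457012456257803728146823412902490455313282294781309529378506186888328694543189690943789696547786578799941315517414525515672262785565417161426294079733092157660435107661434484303931496141730141054515808734766683239692780144286082182772172461726524169917852046184138602974269227732762054089516627206921245542750746918690821937923478878737976683932244023987510419782006178357332516168489693141062455741870367025953819945487463010272476461706495624130484770086551553627863554075549970914092589422338394252569667242536145034536352080134435821999649087914035035815324573043137342534126462362149187744950697497844562100316927723675353325526499298788569346034284532671142895868806268797989741229170855901823820217210571297882696728361354583807206730021680190729980542034024859753387612939577092374003532810277535122463351971327889187308323574833191732990943624541393413773040581476536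52784769059896448083645690150970866944520764161455042158889633992793746310568808836071489274874685426192504223892789416841402858445349904941370392715679625168145419184336846410255270673852370186162946868526836493911579615365023141611501448101960823803283249711968261070676013110102406928414024824490253885530549200002430376020162786208517426571843490035452458409864588966945021815697321083679927672055981924900130242256932264181451492392260068598043595195360336338488185613022894218467957527178014052195049932140807935164705406976)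

noncomputable def rc1 : Nat := (nat_lit 1149449629039598418761811651878416950062958899714650513722583494034982487884013500721100414734879505036222683300802370682555657308726830220549526482463107472812504645852488706998700468209596648395117418803326303035870909681868770124492391885642029271372080001140668866647177674599552612287573538761314459811048110196758517190933884987074292166521127048693535802617325074643680457392542631445782469442358244143633711447170797811772204146473219638606220805655826711366816454607952911315684546643156053918545982243456019446153783045636660607244272269793108419012494384199028062481586997870918307213725171799369806848858202139160174886683856011181071305309918322797326193342483275384833289581882184690375144330554774769959236188051180076376237653454275036585178214601687582071655399226538275898371924443980233051058376739201779056554362039759671851039595456243394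8454540813109704931845226331684734612191613121890123897309727849094440390034237765305229795948276084384106445579371011676985865077497912653996344146706663709306672116587198220001827681526267767438856937736137503506633540994186180702329607366335726058882273537825187362169269969311695272150679081990874475998853669927771787202228952110654141162531963792800458403585712871488177838415599035461500027072358675157795053024092365751713938509594886504521053393339976550072381997354576763766467994407613672192007984389871620687094709826816444617188904085912317017846821839946460239014973653609794291347717688657928610883793508099089401965044122984144123254142188040804977730394279572091891648112890005255138647616088549685585813743237600585526336885363928320153749668640911832119622635316069852423927340870968157406069780769737957306940649300534889777540510907701770679302402495567847819658867681984181877835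5891482566413852049672173980621252794360347458067030916433324593229189306557361379680294348367502159392490502377193379922525760950507027824375210649007104606335116238601213230116361382511976366686344785680057482501964290140860845234386842746642484048761006427501864262042515655893296306839499959707827659818191961669165925982142915447411717408529265527628485948452612149975377778337090068837276144834864471013645813284600042592845737519154858733841765671003759710680359982528061944415066232117941954277992466763361925171099657554434462372351893621246033754302861103636550659475126176562898009189539220383347373757449945751982400827250339234987132233828997697370930126765678943165692609284154591867846543585670520412778242354046798604961884691823304280255211774124559746322477338815975483402983026404689750305967870442311527933077699038832401976505992990207867889191925596242708124248322376873782379484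9434169786195076930676725317588650479883547405637156743909935140131528001519219185796149149342827665384884431731708624505019527164197081945979408911690229529162383034038293909695813689808956202768179765775984183461863018373278468557655594577157030502587185125378885879179090824628315029030328117884428739743384020954068539841596050396454491550218952257402169343424871628167708877190000380972864252727753077928437579128532772431077395524960233900418324504714166713847477483968137072655848213477883741067987245454994332078156271174944443357801108205535501085210559269975146300862167370045260617272138935117154407838874925332407509884985209669042924319992488256500692108793322997109208155329195797676067932655067266105651049148131609597669266164906750300216942519287957753014596126788014510924832842488373269701587800136866771940023979721316354727218040817592400975138110264414116030786675904842222725919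59683164197316517730342887655732620962560525345193003516948271362251281601856370152219222358014969524946098215875324040875257796638559791697752414254442024290995742999561671465399017499766877735775861707657375410534120720402776541568724630210965087805632997514362055629955461301363650501185724322520315437766702563510822605886556368934863415086596771073668945768043326388699839847118404116218680788831734103865786895473291999915192593980137905218247638931513352226421036585865351651377107172688506852548925990521204607899932819456)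

noncomputable def rc2 : Nat := (nat_lit 1189026220117714273558711458777811666875291905308278673757771321805736040828943748646908067275136996552104353885425544020815022757434978642068645624936792463051576605898818896178896920619293166356816675003290569596242411461361632244216934147588895021181579565511068734487910244569879630266610531805392050277417316950956824322681389718824613142235622642754838053866417443279202626178018353018932899783432814335334636140099107034288733011000405249818887646129272117903401097500788675881400640588440714019053672958007797262495859399693578206881934882704334538376443685131216792644870527704257943591125651757849666117305542616673105093549087339695023702330937149446353473729557087520185827176459551195712310509202390237387476888655293801163024282263155532135931136944153489200181094579174935894009790793909975601141641124256246452133788988284707268251855991181862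9102537244530682293024139631557672549720101226121053666609868450534419503671109968024570134823383665908499529453292147269745276240887081966234631486241756452511168597214541455268946007740410749677240784873255076815546965659047765356144782400669126580394281418496291695369083059721153863225802624705843982312422452376926565456394004799287950658086562084406485236819262809713284911202935073556103599215481757015627940767234969401080580974028801448718606173865145190273365856733431986694597256334439984700003972430021039415779647526809103467794520275522759662641959336343246036335299589841781897131306008966801187275563462748645367395441884494818367701581413489712558981193298698413695239257343384253632416056043199982726522080429306887051412436253442735531747850635742009052193728617244452196890362809484096296873113521386778004064039949697834916781131744904012078150962167431267842252710934572585314759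8743066226498762854701811580394642903967765136904315358894240990417950819838587941320114270279578258459999717644941669086225689553333726361225689305546192951198555768766881522245444235005606576551852521923315768121411192136684926285506641049481485915048284859919692282941730929150312723983802286368269011062880906174965511381171549469834807948973924848711555539530650328788883542186187950912514462754680084381251928947879938458529047262491440591362649203462531104986521883295307240132891803800465963244029674678967446842903330607403961086816463410696970798406231582520283831009977850242047289500152009937651505559305368346126516859621572536328607964771737129728680462345096339082667026663379113601330575712850384761199501189863251608986876772281181886482362651686629469246042762259490214144015380635894847407655826098479184636227270784679763634504593686569338650495791400532984560205164230064067569254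7765936097011363618306314066441930001168742391099359735248840389220285163226085286726963610630915833823108408487678825149157053277624963515139976740028232610183016744623381944956258481961957125807637099987635261443552516813603728281901435600857263678648862858507355895271875342959457404876953884556097768766228461337403746139065333379657770313921670526505751790064533081222485635694962873234868880932206230590434237977481841879337606109706336341394642414074688736133686726333413879528559256457988337137001374070409301487105003023188420087197505276347836740245608193188703004602662311900748586397301919536841569193376970305545340321143546908076579564609799421241756338957633786354563124108967948021412652462789792505883944484276402555520638250729563841843085116862167741590283381185856903831367705279811937915488232236129317525679327651812594323439855484945560865969226584739311620004219040045774308865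52030269053627148499419519941620260516363941655962171468016669431303261867513666913800672084748720464926700057925869023015364390098173088616179384668628332029498336157134499184035068542743063029597463894339990083260809360013167609728764984102843366029892749120609507697319976708640505285986824681166996553463216245474252628821129325295150140014991290412309303593366827382878122754534050701808231554062042951662373871515166267982471994387662354714376778840033275055109055728496477886877413730588241377846096706177258894942042849280)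

noncomputable def rc3 : Nat := (nat_lit 1232631320905905988308268159254066272600962599471725147132093112854391998177827793812118843223306153021940626752864956474399218560722585034104116760554528783241008350011537450139436587060629913820905133839367326922238748614783255869363968864209833329949946399492257526246635626309850303701507811100937489138524761748932994058287833114996847433194158092063157968283030149192250870245959785280098484444769751641788503058838829694523148222499295490798643984706106899508514981362016832092636755110825464449986897826809561268871559786659431742220824565597368371955829148524811837344513142479453487271042431942146984627048022278908730893039272466137773674804024878378474816911941046049016519322528332166988876815274639116367635483395179620748927289848613113949570318293109780207117927223768461079653727062537177088739489991180121175377473950726272321329701716939220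8371138085602374782020536837398648430901706484603911152745539841033012516114881352500231553618725906897635101935127687497559645123877553217970261711896263142484079898791277768218703051779419985879142196937193176608004430870382339725415946103926371903269246487544890370817174775439077062398108826088004670769310386494972432773989862044802740925030311811607864082254630097199398094016277759267987120973209238003754748473117799491630729728861043991833559227746027505287521656752154749380238105212928966650484374484105616296144395778302644705628501394336386270168099435166766104670927982816141523622338987707270957357791009353504030554678862698362847994856311274552283323053044534664783651813456956293266242400089312007409470418573664049482352603477519243176243884438386879471103566675995741529919027150170747161713969062136643727017837621259844790214667676300839281213069508453831836401822250473101986318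9202083269282731750918012985170928852327355712150502011073727019826617716290351480170664834204730289578889004428745604838643002116119280580997723351664162569836629458841926712289556141763736886492992080489124351424580585658094870217963250196687341094128761148763275038296821989379822699278931456971610903503204521484051883776711895714997092418701699027914969165774490012368993328206528342234513306703483469410828839307232419198497221555213525735569023076745685090796508690215817889224653830065221638017035995028027063323734690633987475029328079043384281880383842620076602988676510079929777384718441383590144366567741003342668346273155748868515880752804435393059044388845682160316989062106243796526632380392705733727442716732248376736818229326280349573348027233403198223859089447881894263075080037392722986865427126876327250965534058752178437856968334399908428929585369149630137214759641449036704210375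0777772712218500968208980146491089875249808194491137182346812218721892805153712648339428282816380207010830727905388217098952667580548952986348201304343990997588866606406576698493430630157598262663020649557794875425497512045595428483255171146826906823744325020859255015885687442026343315095747932425516144687612450606371798072290093881144808181122562911188802543406749566596517400007500581506883859642763169235660101068835479386624826791321882191615469915484352412198062335170882035760817700969536631695591802487549341101276663955764431051403240735619662006972526847495792498542311850048627274701171194225735348584403978671501852645575592152932010797966089879351878543501651988263861199115922901007239848965233498261237149781226427386323700819180225322910484546740489679538812129998614663441102505279908400618476589019804245151223421844041894130936853541138681533357835422616568016855425921273117215532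64818104202656689342736555004459115044988870983746543137537498877710258832015909737805311629020900961989439783562483343308666874407404574338976388302380862721550301966230571893238400774227847876803304642741472667729340825053544981863530199363938195942997852745247357817001928122288953795912763921714480279709546113862226914521039142427294952985242270502496772576823222504948589172360629809785797864529601221370529788644454454008964949960583856885441097395920098771616411354011667619855614056727457636132675463320025736650866819072)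

noncomputable def rc4 : Nat := (nat_lit 1279512351260484960605440063568911097000180061197980790550791135470396611585113903654577327146048132786606676618467523322484283022159221717846306541316503553125132167681294406016482484303996202969792356764140066838867393069647073345956000067851973621007990249052344821075140786798407344665750313391794861138620743152814473314838140834735954193344377616183522446304458711183581572680175696023675515606490350159520884289771334123360401895932315595792349799623815346117641154182048012440986890337770296010230320902267275348833135266793750777748573066627743154548207374020425152490740096694128112382184849633804749485387526713567009420877571245218494824167537266459801474568070598745893088857659837730147758364098552513371710572669452396079598082070813833982283387061685690012050462818072719550406778291258959464061909878256563817557306692289436468528058921920144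0048115121243528723810920663691709304325706513613971457926990443188098556287736348908712260312211926979118188475140226131386970405532912277369166852835797542755673489104779920624220659401215836387636947005574829307847280328642947052368542465261042522017796843019654975255777588522204223802120803365169231282040070760469365259419978494048719906296451068350394694812379291627402200268037389574132116318764625165503806514374390167726206629942805059755612544925981290487794516128583844715118981259365724986820250829393050812628896981226132214115280851528040344082610722143357828072099381862221444396391179199817350358000318353118166725235490206305297958763579569535477197558019514182141577724397815252472424721552834606845007246343364384217401883471119938564842610726507465888911036645569669080253008796149643175213795022860448369412801926530296568670046477360203762751783176399868039971926930479088748040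0855038533404192289128337493848725247578632013391557381525328507951455985403258573906591499855322284524641591404341157569211668916528473146885295293384658618115894946142485772613145548511317717961838287766003853721782574014787701831098394730992256373122438511590195515465876605697518775940299271347303510939888276129775440702875728483684016729211652413667958767599285951995065436706609484290834032983432025908730151340042469020963442704499928795442446675968918835258879055150854524914726067460188601351230243027764553845136313729543426318272395858620236697798123953656687327704080753502343528359471285178880033134879885707250606095080976115054682807396015691072744668258470202889320727518486173489517813278465923448257060767732182411994124189131645180826383135957006193880095600921318237439800071194039318425092013605414006490271133228581399961512042326102484932885693450193949720959819982362950476556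0911533817410811140032482883447506201873869422417168459135970490974710742443356452761771212349919437742927908489820733698493304034326904974585219072215584816097092926861441954023125903931503704773858415237315534329238064940340535356395441234030333816696316918887936200247355081272303360206815242222791930289818795730241285764794819574570829267688361719827882272189736653121515880729422015795618780832951183358132942599121873497532510512459009998253235406612664847405150952021678571950060380159198014035578280680460993549256304372564934753168695357956847527905654719747804437601739705440017808965316412205056277748589102501214967366183772055811560419712095440163320197710382094028746698911111415789648034650279759953751923328685937888611479442802781648992787995432001501333088734192582755448463147254259102548869908257238211712607923154055125240942345827698413650051784632051589884085936576173624734940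28046235241320034643791679471810021773971244203585608088501610847487317914324323856131241799608583814857036528159115341588748513595314154137166750769759369482268629941834941828986987136037642382374850308089941701761200637807360269043590923475311884705511761593385610007506879888157267690510582539406141517756467486437707674463246036314276244688920874062458720437144379770280893665398807794381909078678705167207854227605485771248767327270654111662090455428075206325599713953942315281944776106427595787674010581644614495371213668352)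

noncomputable def rc5 : Nat := (nat_lit 1295737363027240030705894381789313124150227826389044197353158467599849569546560970425169029227364931333509044904709182335026270684678647309423665607689409263590691661247015603341978215100384173082046326567881376344044859254699975352277546805587392336565517453228516043955549863451122189325277939179909734573151209203534307292119332317035292132995948192381613636200758528182089409620438874336644713593713058057514281352333372240212552162013553606385304872426752679812122739042847540486680055551113120705156971299114711959387540440606330537111443583545102381175613136306121442104097615662976204789311582152461394036819333288539389157089609684346372951166009927376594063797839382316219200319173399387179442914153754063859177712310923083864327638061345425763549741741584912655656259488235464138148434870053195632196104233116219432225483415707440612320185239266272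9721023685943295116592683336343736329289178879801167175178957738769337415151591382174809218088806359124656997196617956400479425263050765826878208671236410440233713212160181313525160998352990429887498091563457349375051659992931803942166617688024314402233165987958197679238687964231147113671508794722186815313338341309631903259857542895303454016475296854150981656114272146574946124423140210386144533047935618391991197286642989003825905371390193673363729586197649028440983499524819903540999714227171838808850158124032467434703041499661143030331270065051263609754900511620013699258782065324726209620008728252369908491227440214188968388483919966709944967935876200007405326514698061407386679266678253928123666822557842606737451585004759886173367144469006688711790919936988717070550843217338123912259099387858483670116108183319834763622562491657076198409293042156636840918294312442543211593261424929853914542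7420362642734325758912541846157347748668910694219525829512404120919093443256994365474722884498952111858923474651528860558923112093795855473619801691230648512537740853345066337903643883231199907749303647009549258684205675609648716760274758388510804566686367765893884737111483028049114871708868653443880785541716902462237783091269042473580316217379885261164421880531147750004514486155879506862392134997231453807427660075106173193833277424755151508225349177185547616042938453367060128997551571337267619685294256988731276858026403206768009580867907726192795474786407602366713415187358216557471570122925669131795160739064048520041925158808369948940118681251109955290614953075627701061354190212091312446859005739087841596069249916401694701782827238934434092859082030214799024064002074322889595430382790493879454075246472042716035948786283060194688554869888213690196224484699439141479488735655906683000192995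5428192883309573575316932707111604502425662065247195963130287899612660350289693020788831525978812054707916616296080833512324741209201143622921562079531574531503437615540363202864428080264809535904688151620481006238275389004562684114912999706505966086552761941837325698586553468582457547961458366896411332461078179637089238204666129864710560743896060143483472205218228354520148156427498876882037698159391878980952762892784013511313816523981912936641365171108638762706655953315288234344157309968023103687996252473546931195678631479073119398666900122821254109954900441961913096387539397442506796482497098236171840385366122055404565743706395250805473332864814309883747881201010816433389901555000030160378123051157409142828320547585482352914284212308363408522422247828575690459444963372534503341887966380083222473055284599862576917507618888662260819244390148540419855940155554825246727570267904113583197601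86459568278530714299661465635206953528510387376768613308821865727284530723422262617880428049577022500007904117146655109945771987737241579261330984926162082777902301912591723778373525468827138402191455835030925887099074379936684024727954561947585327115895617518826630914823238981821934452835111143496729310395395782106810526383830945450366562229326470482631451626214952396284277224341049124484331877172697358658745341731912185988849088795876942759694995510824436089230621847981739095757786148372909421202813610567984166154304225280)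

end Vale.Agent.Lib.P154.PChain.BF.S4
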