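import Vale.Agent.Lib.P154.PChain.BF.R4_0

set_option linter.all false

namespace Vale.Agent.Lib.P154.PChain.BF.S5

open Vale.Agent.Lib.P154.Chain

noncomputable def pc0 : PT := (PT.nd (nat_lit 6548646) (PT.nd (nat_lit 6230172) (PT.nd (nat_lit 6070974) (PT.nd (nat_lit 6017778) (PT.nd (nat_lit 5911698) (PT.nd (nat_lit 5911620) PT.nil (PT.lf (nat_lit 76) (nat_lit 6) (nat_lit 1) (nat_lit 3) (nat_lit 199) (nat_lit 111) (nat_lit 200))) (PT.nd (nat_lit 53040) (PT.lf (nat_lit 76) (nat_lit 6) (nat_lit 1) (nat_lit 1) (nat_lit 200) (nat_lit 111) (nat_lit 199)) (PT.lf (nat_lit 228) (nat_lit 3) (nat_lit 3) (nat_lit 1) (nat_lit 199) (nat_lit 112) (nat_lit 199)))) (PT.nd (nat_lit 53040) (PT.nd (nat_lit 78) (PT.lf (nat_lit 304) (nat_lit 6) (nat_lit 4) (nat_lit 3) (nat_lit 198) (nat_lit 113) (nat_lit 199)) (PT.lf (nat_lit 304) (nat_lit 6) (nat_lit 4) (nat_lit 1) (nat_lit 199) (nat_lit 113) (nat_lit 198))) (PT.nd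 (nat_lit 78) (PT.lf (nat_lit 380) (nat_lit 6) (nat_lit 5) (nat_lit 3) (nat_lit 197) (nat_lit 114) (nat_lit 199)) (PT.lf (nat_lit 456) (nat_lit 3) (nat_lit 6) (nat_lit 1) (nat_lit 198) (nat_lit 114) (nat_lit 198))))) (PT.nd (nat_lit 106002) (PT.nd (nat_lit 52962) (PT.lf (nat_lit 380) (nat_lit 6) (nat_lit 5) (nat_lit 1) (nat_lit 199) (nat_lit 114) (nat_lit 197)) (PT.nd (nat_lit 78) (PT.lf (nat_lit 532) (nat_lit 6) (nat_lit 7) (nat_lit 3) (nat_lit 197) (nat_lit 115) (nat_lit 198)) (PT.lf (nat_lit 532) (nat_lit 6) (nat_lit 7) (nat_lit 1) (nat_lit 198) (nat_lit 115) (nat_lit 197)))) (PT.nd (nat_lit 156) (PT.nd (nat_lit 78) (PT.lf (nat_lit 608) (nat_lit 6) (nat_lit 8) (nat_lit 3) (nat_lit 196) (nat_lit 116) (nat_lit 198)) (PT.lf (nat_lit 684) (nat_lit 3) (nat_lit 9) (nat_lit 1) (nat_lit 197) (nat_lit 116) (nat_lit 197))) (PT.nd (nat_lit 52962) (PT.lf (nat_lit 608) (nat_lit 6) (nat_lit 8) (nat_lit 1)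 (nat_lit 198) (nat_lit 116) (nat_lit 196)) (PT.lf (nat_lit 760) (nat_lit 6) (nat_lit 10) (nat_lit 3) (nat_lit 196) (nat_lit 117) (nat_lit 197)))))) (PT.nd (nat_lit 159198) (PT.nd (nat_lit 53118) (PT.nd (nat_lit 52962) (PT.lf (nat_lit 760) (nat_lit 6) (nat_lit 10) (nat_lit 1) (nat_lit 197) (nat_lit 117) (nat_lit 196)) (PT.nd (nat_lit 78) (PT.lf (nat_lit 836) (nat_lit 6) (nat_lit 11) (nat_lit 3) (nat_lit 195) (nat_lit 118) (nat_lit 197)) (PT.lf (nat_lit 912) (nat_lit 3) (nat_lit 12) (nat_lit 1) (nat_lit 196) (nat_lit 118) (nat_lit 196)))) (PT.nd (nat_lit 53040) (PT.nd (nat_lit 52962) (PT.lf (nat_lit 836) (nat_lit 6) (nat_lit 11) (nat_lit 1) (nat_lit 197) (nat_lit 118) (nat_lit 195)) (PT.lf (nat_lit 988) (nat_lit 6) (nat_lit 13) (nat_lit 3) (nat_lit 195) (nat_lit 119) (nat_lit 196))) (PT.nd (nat_lit 52962) (PT.lf (nat_lit 988) (nat_lit 6) (nat_lit 13) (nat_lit 1) (nat_lit 196) (nat_lit 119) (nat_lit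 195)) (PT.lf (nat_lit 1064) (nat_lit 6) (nat_lit 14) (nat_lit 3) (nat_lit 194) (nat_lit 120) (nat_lit 196))))) (PT.nd (nat_lit 106080) (PT.nd (nat_lit 53040) (PT.nd (nat_lit 78) (PT.lf (nat_lit 1140) (nat_lit 3) (nat_lit 15) (nat_lit 1) (nat_lit 195) (nat_lit 120) (nat_lit 195)) (PT.lf (nat_lit 1064) (nat_lit 6) (nat_lit 14) (nat_lit 1) (nat_lit 196) (nat_lit 120) (nat_lit 194))) (PT.nd (nat_lit 78) (PT.lf (nat_lit 1216) (nat_lit 6) (nat_lit 16) (nat_lit 3) (nat_lit 194) (nat_lit 121) (nat_lit 195)) (PT.lf (nat_lit 1216) (nat_lit 6) (nat_lit 16) (nat_lit 1) (nat_lit 195) (nat_lit 121) (nat_lit 194)))) (PT.nd (nat_lit 156) (PT.nd (nat_lit 78) (PT.lf (nat_lit 1292) (nat_lit 6) (nat_lit 17) (nat_lit 3) (nat_lit 193) (nat_lit 122) (nat_lit 195)) (PT.lf (nat_lit 1368) (nat_lit 3) (nat_lit 18) (nat_lit 1) (nat_lit 194) (nat_lit 122) (nat_lit 194))) (PT.nd (nat_lit 52962) (PT.lf (nat_lit 1292) (nat_lit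 6) (nat_lit 17) (nat_lit 1) (nat_lit 195) (nat_lit 122) (nat_lit 193)) (PT.lf (nat_lit 1444) (nat_lit 6) (nat_lit 19) (nat_lit 3) (nat_lit 193) (nat_lit 123) (nat_lit 194))))))) (PT.nd (nat_lit 318474) (PT.nd (nat_lit 159198) (PT.nd (nat_lit 53118) (PT.nd (nat_lit 52962) (PT.lf (nat_lit 1444) (nat_lit 6) (nat_lit 19) (nat_lit 1) (nat_lit 194) (nat_lit 123) (nat_lit 193)) (PT.nd (nat_lit 78) (PT.lf (nat_lit 1520) (nat_lit 6) (nat_lit 20) (nat_lit 3) (nat_lit 192) (nat_lit 124) (nat_lit 194)) (PT.lf (nat_lit 1596) (nat_lit 3) (nat_lit 21) (nat_lit 1) (nat_lit 193) (nat_lit 124) (nat_lit 193)))) (PT.nd (nat_lit 53040) (PT.nd (nat_lit 52962) (PT.lf (nat_lit 1520) (nat_lit 6) (nat_lit 20) (nat_lit 1) (nat_lit 194) (nat_lit 124) (nat_lit 192)) (PT.lf (nat_lit 1672) (nat_lit 6) (nat_lit 22) (nat_lit 3) (nat_lit 192) (nat_lit 125) (nat_lit 193))) (PT.nd (nat_lit 52962) (PT.lf (nat_lit 1672) (nat_lit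 6) (nat_lit 22) (nat_lit 1) (nat_lit 193) (nat_lit 125) (nat_lit 192)) (PT.lf (nat_lit 1748) (nat_lit 6) (nat_lit 23) (nat_lit 3) (nat_lit 191) (nat_lit 126) (nat_lit 193))))) (PT.nd (nat_lit 106080) (PT.nd (nat_lit 53040) (PT.nd (nat_lit 78) (PT.lf (nat_lit 1824) (nat_lit 3) (nat_lit 24) (nat_lit 1) (nat_lit 192) (nat_lit 126) (nat_lit 192)) (PT.lf (nat_lit 1748) (nat_lit 6) (nat_lit 23) (nat_lit 1) (nat_lit 193) (nat_lit 126) (nat_lit 191))) (PT.nd (nat_lit 78) (PT.lf (nat_lit 1900) (nat_lit 6) (nat_lit 25) (nat_lit 3) (nat_lit 191) (nat_lit 127) (nat_lit 192)) (PT.lf (nat_lit 1900) (nat_lit 6) (nat_lit 25) (nat_lit 1) (nat_lit 192) (nat_lit 127) (nat_lit 191)))) (PT.nd (nat_lit 156) (PT.nd (nat_lit 78) (PT.lf (nat_lit 1976) (nat_lit 6) (nat_lit 26) (nat_lit 3) (nat_lit 190) (nat_lit 128) (nat_lit 192)) (PT.lf (nat_lit 2052) (nat_lit 3) (nat_lit 27) (nat_lit 1) (nat_lit 191) (nat_lit 128) (nat_lit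 191))) (PT.nd (nat_lit 52962) (PT.lf (nat_lit 1976) (nat_lit 6) (nat_lit 26) (nat_lit 1) (nat_lit 192) (nat_lit 128) (nat_lit 190)) (PT.lf (nat_lit 2128) (nat_lit 6) (nat_lit 28) (nat_lit 3) (nat_lit 190) (nat_lit 129) (nat_lit 191)))))) (PT.nd (nat_lit 159198) (PT.nd (nat_lit 53118) (PT.nd (nat_lit 52962) (PT.lf (nat_lit 2128) (nat_lit 6) (nat_lit 28) (nat_lit 1) (nat_lit 191) (nat_lit 129) (nat_lit 190)) (PT.nd (nat_lit 78) (PT.lf (nat_lit 2204) (nat_lit 6) (nat_lit 29) (nat_lit 3) (nat_lit 189) (nat_lit 130) (nat_lit 191)) (PT.lf (nat_lit 2280) (nat_lit 3) (nat_lit 30) (nat_lit 1) (nat_lit 190) (nat_lit 130) (nat_lit 190)))) (PT.nd (nat_lit 53040) (PT.nd (nat_lit 52962) (PT.lf (nat_lit 2204) (nat_lit 6) (nat_lit 29) (nat_lit 1) (nat_lit 191) (nat_lit 130) (nat_lit 189)) (PT.lf (nat_lit 2356) (nat_lit 6) (nat_lit 31) (nat_lit 3) (nat_lit 189) (nat_lit 131) (nat_lit 190))) (PT.nd (nat_lit 52962)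 (PT.lf (nat_lit 2356) (nat_lit 6) (nat_lit 31) (nat_lit 1) (nat_lit 190) (nat_lit 131) (nat_lit 189)) (PT.lf (nat_lit 2432) (nat_lit 6) (nat_lit 32) (nat_lit 3) (nat_lit 188) (nat_lit 132) (nat_lit 190))))) (PT.nd (nat_lit 53118) (PT.nd (nat_lit 52962) (PT.nd (nat_lit 78) (PT.lf (nat_lit 2508) (nat_lit 3) (nat_lit 33) (nat_lit 1) (nat_lit 189) (nat_lit 132) (nat_lit 189)) (PT.lf (nat_lit 2432) (nat_lit 6) (nat_lit 32) (nat_lit 1) (nat_lit 190) (nat_lit 132) (nat_lit 188))) (PT.nd (nat_lit 78) (PT.lf (nat_lit 2584) (nat_lit 6) (nat_lit 34) (nat_lit 3) (nat_lit 187) (nat_lit 133) (nat_lit 190)) (PT.lf (nat_lit 2660) (nat_lit 6) (nat_lit 35) (nat_lit 3) (nat_lit 188) (nat_lit 133) (nat_lit 189)))) (PT.nd (nat_lit 52962) (PT.nd (nat_lit 78) (PT.lf (nat_lit 2660) (nat_lit 6) (nat_lit 35) (nat_lit 1) (nat_lit 189) (nat_lit 133) (nat_lit 188)) (PT.lf (nat_lit 2584) (nat_lit 6) (nat_lit 34) (nat_lit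 1) (nat_lit 190) (nat_lit 133) (nat_lit 187))) (PT.nd (nat_lit 78) (PT.lf (nat_lit 2736) (nat_lit 6) (nat_lit 36) (nat_lit 3) (nat_lit 187) (nat_lit 134) (nat_lit 189)) (PT.lf (nat_lit 2812) (nat_lit 3) (nat_lit 37) (nat_lit 1) (nat_lit 188) (nat_lit 134) (nat_lit 188))))))))
noncomputable def pc1 : PT := (PT.nd (nat_lit 424710) (PT.nd (nat_lit 265200) (PT.nd (nat_lit 106158) (PT.nd (nat_lit 53040) (PT.nd (nat_lit 52884) (PT.lf (nat_lit 2736) (nat_lit 6) (nat_lit 36) (nat_lit 1) (nat_lit 189) (nat_lit 134) (nat_lit 187)) (PT.nd (nat_lit 78) (PT.lf (nat_lit 2888) (nat_lit 6) (nat_lit 38) (nat_lit 3) (nat_lit 186) (nat_lit 135) (nat_lit 189)) (PT.lf (nat_lit 2964) (nat_lit 6) (nat_lit 39) (nat_lit 3) (nat_lit 187) (nat_lit 135) (nat_lit 188)))) (PT.nd (nat_lit 52962) (PT.nd (nat_lit 78) (PT.lf (nat_lit 2964) (nat_lit 6) (nat_lit 39) (nat_lit 1) (nat_lit 188) (nat_lit 135) (nat_lit 187)) (PT.lf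 (nat_lit 2888) (nat_lit 6) (nat_lit 38) (nat_lit 1) (nat_lit 189) (nat_lit 135) (nat_lit 186))) (PT.nd (nat_lit 78) (PT.lf (nat_lit 3040) (nat_lit 6) (nat_lit 40) (nat_lit 3) (nat_lit 186) (nat_lit 136) (nat_lit 188)) (PT.lf (nat_lit 3116) (nat_lit 3) (nat_lit 41) (nat_lit 1) (nat_lit 187) (nat_lit 136) (nat_lit 187))))) (PT.nd (nat_lit 53118) (PT.nd (nat_lit 52962) (PT.nd (nat_lit 52884) (PT.lf (nat_lit 3040) (nat_lit 6) (nat_lit 40) (nat_lit 1) (nat_lit 188) (nat_lit 136) (nat_lit 186)) (PT.lf (nat_lit 3192) (nat_lit 6) (nat_lit 42) (nat_lit 3) (nat_lit 185) (nat_lit 137) (nat_lit 188))) (PT.nd (nat_lit 78) (PT.lf (nat_lit 3268) (nat_lit 6) (nat_lit 43) (nat_lit 3) (nat_lit 186) (nat_lit 137) (nat_lit 187)) (PT.lf (nat_lit 3268) (nat_lit 6) (nat_lit 43) (nat_lit 1) (nat_lit 187) (nat_lit 137) (nat_lit 186)))) (PT.nd (nat_lit 52962) (PT.nd (nat_lit 52884) (PT.lf (nat_lit 3192) (nat_lit 6) (nat_lit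 42) (nat_lit 1) (nat_lit 188) (nat_lit 137) (nat_lit 185)) (PT.lf (nat_lit 3344) (nat_lit 6) (nat_lit 44) (nat_lit 3) (nat_lit 185) (nat_lit 138) (nat_lit 187))) (PT.nd (nat_lit 78) (PT.lf (nat_lit 3420) (nat_lit 3) (nat_lit 45) (nat_lit 1) (nat_lit 186) (nat_lit 138) (nat_lit 186)) (PT.lf (nat_lit 3344) (nat_lit 6) (nat_lit 44) (nat_lit 1) (nat_lit 187) (nat_lit 138) (nat_lit 185)))))) (PT.nd (nat_lit 106158) (PT.nd (nat_lit 234) (PT.nd (nat_lit 78) (PT.lf (nat_lit 3496) (nat_lit 6) (nat_lit 46) (nat_lit 3) (nat_lit 184) (nat_lit 139) (nat_lit 187)) (PT.nd (nat_lit 78) (PT.lf (nat_lit 3572) (nat_lit 6) (nat_lit 47) (nat_lit 3) (nat_lit 185) (nat_lit 139) (nat_lit 186)) (PT.lf (nat_lit 3572) (nat_lit 6) (nat_lit 47) (nat_lit 1) (nat_lit 186) (nat_lit 139) (nat_lit 185)))) (PT.nd (nat_lit 52962) (PT.nd (nat_lit 52884) (PT.lf (nat_lit 3496) (nat_lit 6) (nat_lit 46) (nat_lit 1) (nat_lit 187) (nat_lit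 139) (nat_lit 184)) (PT.lf (nat_lit 3648) (nat_lit 6) (nat_lit 48) (nat_lit 3) (nat_lit 184) (nat_lit 140) (nat_lit 186))) (PT.nd (nat_lit 78) (PT.lf (nat_lit 3724) (nat_lit 3) (nat_lit 49) (nat_lit 1) (nat_lit 185) (nat_lit 140) (nat_lit 185)) (PT.lf (nat_lit 3648) (nat_lit 6) (nat_lit 48) (nat_lit 1) (nat_lit 186) (nat_lit 140) (nat_lit 184))))) (PT.nd (nat_lit 53040) (PT.nd (nat_lit 156) (PT.nd (nat_lit 78) (PT.lf (nat_lit 3800) (nat_lit 6) (nat_lit 50) (nat_lit 3) (nat_lit 183) (nat_lit 141) (nat_lit 186)) (PT.lf (nat_lit 3876) (nat_lit 6) (nat_lit 51) (nat_lit 3) (nat_lit 184) (nat_lit 141) (nat_lit 185))) (PT.nd (nat_lit 78) (PT.lf (nat_lit 3876) (nat_lit 6) (nat_lit 51) (nat_lit 1) (nat_lit 185) (nat_lit 141) (nat_lit 184)) (PT.lf (nat_lit 3800) (nat_lit 6) (nat_lit 50) (nat_lit 1) (nat_lit 186) (nat_lit 141) (nat_lit 183)))) (PT.nd (nat_lit 156) (PT.nd (nat_lit 78) (PT.lf (nat_lit 3952)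 (nat_lit 6) (nat_lit 52) (nat_lit 3) (nat_lit 182) (nat_lit 142) (nat_lit 186)) (PT.lf (nat_lit 4028) (nat_lit 6) (nat_lit 53) (nat_lit 3) (nat_lit 183) (nat_lit 142) (nat_lit 185))) (PT.nd (nat_lit 78) (PT.lf (nat_lit 4104) (nat_lit 3) (nat_lit 54) (nat_lit 1) (nat_lit 184) (nat_lit 142) (nat_lit 184)) (PT.lf (nat_lit 4028) (nat_lit 6) (nat_lit 53) (nat_lit 1) (nat_lit 185) (nat_lit 142) (nat_lit 183))))))) (PT.nd (nat_lit 212082) (PT.nd (nat_lit 106002) (PT.nd (nat_lit 52962) (PT.nd (nat_lit 52806) (PT.lf (nat_lit 3952) (nat_lit 6) (nat_lit 52) (nat_lit 1) (nat_lit 186) (nat_lit 142) (nat_lit 182)) (PT.nd (nat_lit 78) (PT.lf (nat_lit 4180) (nat_lit 6) (nat_lit 55) (nat_lit 3) (nat_lit 182) (nat_lit 143) (nat_lit 185)) (PT.lf (nat_lit 4256) (nat_lit 6) (nat_lit 56) (nat_lit 3) (nat_lit 183) (nat_lit 143) (nat_lit 184)))) (PT.nd (nat_lit 52884) (PT.nd (nat_lit 78) (PT.lf (nat_lit 4256) (nat_lit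 6) (nat_lit 56) (nat_lit 1) (nat_lit 184) (nat_lit 143) (nat_lit 183)) (PT.lf (nat_lit 4180) (nat_lit 6) (nat_lit 55) (nat_lit 1) (nat_lit 185) (nat_lit 143) (nat_lit 182))) (PT.nd (nat_lit 78) (PT.lf (nat_lit 4332) (nat_lit 6) (nat_lit 57) (nat_lit 3) (nat_lit 181) (nat_lit 144) (nat_lit 185)) (PT.lf (nat_lit 4408) (nat_lit 6) (nat_lit 58) (nat_lit 3) (nat_lit 182) (nat_lit 144) (nat_lit 184))))) (PT.nd (nat_lit 53040) (PT.nd (nat_lit 156) (PT.nd (nat_lit 78) (PT.lf (nat_lit 4484) (nat_lit 3) (nat_lit 59) (nat_lit 1) (nat_lit 183) (nat_lit 144) (nat_lit 183)) (PT.lf (nat_lit 4408) (nat_lit 6) (nat_lit 58) (nat_lit 1) (nat_lit 184) (nat_lit 144) (nat_lit 182))) (PT.nd (nat_lit 52806) (PT.lf (nat_lit 4332) (nat_lit 6) (nat_lit 57) (nat_lit 1) (nat_lit 185) (nat_lit 144) (nat_lit 181)) (PT.lf (nat_lit 4560) (nat_lit 6) (nat_lit 60) (nat_lit 3) (nat_lit 181) (nat_lit 145) (nat_lit 184)))) (PT.nd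 (nat_lit 156) (PT.nd (nat_lit 78) (PT.lf (nat_lit 4636) (nat_lit 6) (nat_lit 61) (nat_lit 3) (nat_lit 182) (nat_lit 145) (nat_lit 183)) (PT.lf (nat_lit 4636) (nat_lit 6) (nat_lit 61) (nat_lit 1) (nat_lit 183) (nat_lit 145) (nat_lit 182))) (PT.nd (nat_lit 52806) (PT.lf (nat_lit 4560) (nat_lit 6) (nat_lit 60) (nat_lit 1) (nat_lit 184) (nat_lit 145) (nat_lit 181)) (PT.lf (nat_lit 4712) (nat_lit 6) (nat_lit 62) (nat_lit 3) (nat_lit 180) (nat_lit 146) (nat_lit 184)))))) (PT.nd (nat_lit 53196) (PT.nd (nat_lit 234) (PT.nd (nat_lit 78) (PT.lf (nat_lit 4788) (nat_lit 6) (nat_lit 63) (nat_lit 3) (nat_lit 181) (nat_lit 146) (nat_lit 183)) (PT.nd (nat_lit 78) (PT.lf (nat_lit 4864) (nat_lit 3) (nat_lit 64) (nat_lit 1) (nat_lit 182) (nat_lit 146) (nat_lit 182)) (PT.lf (nat_lit 4788) (nat_lit 6) (nat_lit 63) (nat_lit 1) (nat_lit 183) (nat_lit 146) (nat_lit 181)))) (PT.nd (nat_lit 52806) (PT.nd (nat_lit 52728)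 (PT.lf (nat_lit 4712) (nat_lit 6) (nat_lit 62) (nat_lit 1) (nat_lit 184) (nat_lit 146) (nat_lit 180)) (PT.lf (nat_lit 4940) (nat_lit 6) (nat_lit 65) (nat_lit 3) (nat_lit 179) (nat_lit 147) (nat_lit 184))) (PT.nd (nat_lit 78) (PT.lf (nat_lit 5016) (nat_lit 6) (nat_lit 66) (nat_lit 3) (nat_lit 180) (nat_lit 147) (nat_lit 183)) (PT.lf (nat_lit 5092) (nat_lit 6) (nat_lit 67) (nat_lit 3) (nat_lit 181) (nat_lit 147) (nat_lit 182))))) (PT.nd (nat_lit 52962) (PT.nd (nat_lit 156) (PT.nd (nat_lit 78) (PT.lf (nat_lit 5092) (nat_lit 6) (nat_lit 67) (nat_lit 1) (nat_lit 182) (nat_lit 147) (nat_lit 181)) (PT.lf (nat_lit 5016) (nat_lit 6) (nat_lit 66) (nat_lit 1) (nat_lit 183) (nat_lit 147) (nat_lit 180))) (PT.nd (nat_lit 52728) (PT.lf (nat_lit 4940) (nat_lit 6) (nat_lit 65) (nat_lit 1) (nat_lit 184) (nat_lit 147) (nat_lit 179)) (PT.lf (nat_lit 5168) (nat_lit 6) (nat_lit 68) (nat_lit 3) (nat_lit 179) (nat_lit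 148) (nat_lit 183)))) (PT.nd (nat_lit 156) (PT.nd (nat_lit 78) (PT.lf (nat_lit 5244) (nat_lit 6) (nat_lit 69) (nat_lit 3) (nat_lit 180) (nat_lit 148) (nat_lit 182)) (PT.lf (nat_lit 5320) (nat_lit 3) (nat_lit 70) (nat_lit 1) (nat_lit 181) (nat_lit 148) (nat_lit 181))) (PT.nd (nat_lit 78) (PT.lf (nat_lit 5244) (nat_lit 6) (nat_lit 69) (nat_lit 1) (nat_lit 182) (nat_lit 148) (nat_lit 180)) (PT.lf (nat_lit 5168) (nat_lit 6) (nat_lit 68) (nat_lit 1) (nat_lit 183) (nat_lit 148) (nat_lit 179))))))))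
noncomputable def pc2 : PT := (PT.nd (nat_lit 212472) (PT.nd (nat_lit 106236) (PT.nd (nat_lit 53118) (PT.nd (nat_lit 234) (PT.nd (nat_lit 78) (PT.lf (nat_lit 5396) (nat_lit 6) (nat_lit 71) (nat_lit 3) (nat_lit 178) (nat_lit 149) (nat_lit 183)) (PT.nd (nat_lit 78) (PT.lf (nat_lit 5472) (nat_lit 6) (nat_lit 72) (nat_lit 3) (nat_lit 179) (nat_lit 149) (nat_lit 182)) (PT.lf (nat_lit 5548) (nat_lit 6) (nat_lit 73) (nat_lit 3) (nat_lit 180) (nat_lit 149) (nat_lit 181)))) (PT.nd (nat_lit 156) (PT.nd (nat_lit 78) (PT.lf (nat_lit 5548) (nat_lit 6) (nat_lit 73) (nat_lit 1) (nat_lit 181) (nat_lit 149) (nat_lit 180)) (PT.lf (nat_lit 5472) (nat_lit 6) (nat_lit 72) (nat_lit 1) (nat_lit 182) (nat_lit 149) (nat_lit 179))) (PT.nd (nat_lit 52650) (PT.lf (nat_lit 5396) (nat_lit 6) (nat_lit 71) (nat_lit 1) (nat_lit 183) (nat_lit 149) (nat_lit 178)) (PT.lf (nat_lit 5624) (nat_lit 6) (nat_lit 74) (nat_lit 3) (nat_lit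 177) (nat_lit 150) (nat_lit 183))))) (PT.nd (nat_lit 234) (PT.nd (nat_lit 78) (PT.lf (nat_lit 5700) (nat_lit 6) (nat_lit 75) (nat_lit 3) (nat_lit 178) (nat_lit 150) (nat_lit 182)) (PT.nd (nat_lit 78) (PT.lf (nat_lit 5776) (nat_lit 6) (nat_lit 76) (nat_lit 3) (nat_lit 179) (nat_lit 150) (nat_lit 181)) (PT.lf (nat_lit 5852) (nat_lit 3) (nat_lit 77) (nat_lit 1) (nat_lit 180) (nat_lit 150) (nat_lit 180)))) (PT.nd (nat_lit 156) (PT.nd (nat_lit 78) (PT.lf (nat_lit 5776) (nat_lit 6) (nat_lit 76) (nat_lit 1) (nat_lit 181) (nat_lit 150) (nat_lit 179)) (PT.lf (nat_lit 5700) (nat_lit 6) (nat_lit 75) (nat_lit 1) (nat_lit 182) (nat_lit 150) (nat_lit 178))) (PT.nd (nat_lit 52650) (PT.lf (nat_lit 5624) (nat_lit 6) (nat_lit 74) (nat_lit 1) (nat_lit 183) (nat_lit 150) (nat_lit 177)) (PT.lf (nat_lit 5928) (nat_lit 6) (nat_lit 78) (nat_lit 3) (nat_lit 177) (nat_lit 151) (nat_lit 182)))))) (PT.nd (nat_lit 53118)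 (PT.nd (nat_lit 234) (PT.nd (nat_lit 78) (PT.lf (nat_lit 6004) (nat_lit 6) (nat_lit 79) (nat_lit 3) (nat_lit 178) (nat_lit 151) (nat_lit 181)) (PT.nd (nat_lit 78) (PT.lf (nat_lit 6080) (nat_lit 6) (nat_lit 80) (nat_lit 3) (nat_lit 179) (nat_lit 151) (nat_lit 180)) (PT.lf (nat_lit 6080) (nat_lit 6) (nat_lit 80) (nat_lit 1) (nat_lit 180) (nat_lit 151) (nat_lit 179)))) (PT.nd (nat_lit 52728) (PT.nd (nat_lit 78) (PT.lf (nat_lit 6004) (nat_lit 6) (nat_lit 79) (nat_lit 1) (nat_lit 181) (nat_lit 151) (nat_lit 178)) (PT.lf (nat_lit 5928) (nat_lit 6) (nat_lit 78) (nat_lit 1) (nat_lit 182) (nat_lit 151) (nat_lit 177))) (PT.nd (nat_lit 78) (PT.lf (nat_lit 6156) (nat_lit 6) (nat_lit 81) (nat_lit 3) (nat_lit 176) (nat_lit 152) (nat_lit 182)) (PT.lf (nat_lit 6232) (nat_lit 6) (nat_lit 82) (nat_lit 3) (nat_lit 177) (nat_lit 152) (nat_lit 181))))) (PT.nd (nat_lit 312) (PT.nd (nat_lit 156) (PT.nd (nat_lit 78)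 (PT.lf (nat_lit 6308) (nat_lit 6) (nat_lit 83) (nat_lit 3) (nat_lit 178) (nat_lit 152) (nat_lit 180)) (PT.lf (nat_lit 6384) (nat_lit 3) (nat_lit 84) (nat_lit 1) (nat_lit 179) (nat_lit 152) (nat_lit 179))) (PT.nd (nat_lit 78) (PT.lf (nat_lit 6308) (nat_lit 6) (nat_lit 83) (nat_lit 1) (nat_lit 180) (nat_lit 152) (nat_lit 178)) (PT.lf (nat_lit 6232) (nat_lit 6) (nat_lit 82) (nat_lit 1) (nat_lit 181) (nat_lit 152) (nat_lit 177)))) (PT.nd (nat_lit 52650) (PT.nd (nat_lit 52572) (PT.lf (nat_lit 6156) (nat_lit 6) (nat_lit 81) (nat_lit 1) (nat_lit 182) (nat_lit 152) (nat_lit 176)) (PT.lf (nat_lit 6460) (nat_lit 6) (nat_lit 85) (nat_lit 3) (nat_lit 175) (nat_lit 153) (nat_lit 182))) (PT.nd (nat_lit 78) (PT.lf (nat_lit 6536) (nat_lit 6) (nat_lit 86) (nat_lit 3) (nat_lit 176) (nat_lit 153) (nat_lit 181)) (PT.lf (nat_lit 6612) (nat_lit 6) (nat_lit 87) (nat_lit 3) (nat_lit 177) (nat_lit 153) (nat_lit 180)))))))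 (PT.nd (nat_lit 106158) (PT.nd (nat_lit 53040) (PT.nd (nat_lit 234) (PT.nd (nat_lit 78) (PT.lf (nat_lit 6688) (nat_lit 6) (nat_lit 88) (nat_lit 3) (nat_lit 178) (nat_lit 153) (nat_lit 179)) (PT.nd (nat_lit 78) (PT.lf (nat_lit 6688) (nat_lit 6) (nat_lit 88) (nat_lit 1) (nat_lit 179) (nat_lit 153) (nat_lit 178)) (PT.lf (nat_lit 6612) (nat_lit 6) (nat_lit 87) (nat_lit 1) (nat_lit 180) (nat_lit 153) (nat_lit 177)))) (PT.nd (nat_lit 52650) (PT.nd (nat_lit 78) (PT.lf (nat_lit 6536) (nat_lit 6) (nat_lit 86) (nat_lit 1) (nat_lit 181) (nat_lit 153) (nat_lit 176)) (PT.lf (nat_lit 6460) (nat_lit 6) (nat_lit 85) (nat_lit 1) (nat_lit 182) (nat_lit 153) (nat_lit 175))) (PT.nd (nat_lit 78) (PT.lf (nat_lit 6764) (nat_lit 6) (nat_lit 89) (nat_lit 3) (nat_lit 175) (nat_lit 154) (nat_lit 181)) (PT.lf (nat_lit 6840) (nat_lit 6) (nat_lit 90) (nat_lit 3) (nat_lit 176) (nat_lit 154) (nat_lit 180))))) (PT.nd (nat_lit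 312) (PT.nd (nat_lit 156) (PT.nd (nat_lit 78) (PT.lf (nat_lit 6916) (nat_lit 6) (nat_lit 91) (nat_lit 3) (nat_lit 177) (nat_lit 154) (nat_lit 179)) (PT.lf (nat_lit 6992) (nat_lit 3) (nat_lit 92) (nat_lit 1) (nat_lit 178) (nat_lit 154) (nat_lit 178))) (PT.nd (nat_lit 78) (PT.lf (nat_lit 6916) (nat_lit 6) (nat_lit 91) (nat_lit 1) (nat_lit 179) (nat_lit 154) (nat_lit 177)) (PT.lf (nat_lit 6840) (nat_lit 6) (nat_lit 90) (nat_lit 1) (nat_lit 180) (nat_lit 154) (nat_lit 176)))) (PT.nd (nat_lit 52650) (PT.nd (nat_lit 52572) (PT.lf (nat_lit 6764) (nat_lit 6) (nat_lit 89) (nat_lit 1) (nat_lit 181) (nat_lit 154) (nat_lit 175)) (PT.lf (nat_lit 7068) (nat_lit 6) (nat_lit 93) (nat_lit 3) (nat_lit 174) (nat_lit 155) (nat_lit 181))) (PT.nd (nat_lit 78) (PT.lf (nat_lit 7144) (nat_lit 6) (nat_lit 94) (nat_lit 3) (nat_lit 175) (nat_lit 155) (nat_lit 180)) (PT.lf (nat_lit 7220) (nat_lit 6) (nat_lit 95) (nat_lit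 3) (nat_lit 176) (nat_lit 155) (nat_lit 179)))))) (PT.nd (nat_lit 52962) (PT.nd (nat_lit 234) (PT.nd (nat_lit 78) (PT.lf (nat_lit 7296) (nat_lit 6) (nat_lit 96) (nat_lit 3) (nat_lit 177) (nat_lit 155) (nat_lit 178)) (PT.nd (nat_lit 78) (PT.lf (nat_lit 7296) (nat_lit 6) (nat_lit 96) (nat_lit 1) (nat_lit 178) (nat_lit 155) (nat_lit 177)) (PT.lf (nat_lit 7220) (nat_lit 6) (nat_lit 95) (nat_lit 1) (nat_lit 179) (nat_lit 155) (nat_lit 176)))) (PT.nd (nat_lit 52572) (PT.nd (nat_lit 78) (PT.lf (nat_lit 7144) (nat_lit 6) (nat_lit 94) (nat_lit 1) (nat_lit 180) (nat_lit 155) (nat_lit 175)) (PT.lf (nat_lit 7068) (nat_lit 6) (nat_lit 93) (nat_lit 1) (nat_lit 181) (nat_lit 155) (nat_lit 174))) (PT.nd (nat_lit 78) (PT.lf (nat_lit 7372) (nat_lit 6) (nat_lit 97) (nat_lit 3) (nat_lit 173) (nat_lit 156) (nat_lit 181)) (PT.lf (nat_lit 7448) (nat_lit 6) (nat_lit 98) (nat_lit 3) (nat_lit 174) (nat_lit 156) (nat_lit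 180))))) (PT.nd (nat_lit 312) (PT.nd (nat_lit 156) (PT.nd (nat_lit 78) (PT.lf (nat_lit 7524) (nat_lit 6) (nat_lit 99) (nat_lit 3) (nat_lit 175) (nat_lit 156) (nat_lit 179)) (PT.lf (nat_lit 7600) (nat_lit 6) (nat_lit 100) (nat_lit 3) (nat_lit 176) (nat_lit 156) (nat_lit 178))) (PT.nd (nat_lit 78) (PT.lf (nat_lit 7676) (nat_lit 3) (nat_lit 101) (nat_lit 1) (nat_lit 177) (nat_lit 156) (nat_lit 177)) (PT.lf (nat_lit 7600) (nat_lit 6) (nat_lit 100) (nat_lit 1) (nat_lit 178) (nat_lit 156) (nat_lit 176)))) (PT.nd (nat_lit 156) (PT.nd (nat_lit 78) (PT.lf (nat_lit 7524) (nat_lit 6) (nat_lit 99) (nat_lit 1) (nat_lit 179) (nat_lit 156) (nat_lit 175)) (PT.lf (nat_lit 7448) (nat_lit 6) (nat_lit 98) (nat_lit 1) (nat_lit 180) (nat_lit 156) (nat_lit 174))) (PT.nd (nat_lit 52416) (PT.lf (nat_lit 7372) (nat_lit 6) (nat_lit 97) (nat_lit 1) (nat_lit 181) (nat_lit 156) (nat_lit 173)) (PT.lf (nat_lit 7752) (nat_lit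 6) (nat_lit 102) (nat_lit 3) (nat_lit 172) (nat_lit 157) (nat_lit 181))))))))
noncomputable def pc3 : PT := (PT.nd (nat_lit 159120) (PT.nd (nat_lit 53430) (PT.nd (nat_lit 546) (PT.nd (nat_lit 234) (PT.nd (nat_lit 78) (PT.lf (nat_lit 7828) (nat_lit 6) (nat_lit 103) (nat_lit 3) (nat_lit 173) (nat_lit 157) (nat_lit 180)) (PT.nd (nat_lit 78) (PT.lf (nat_lit 7904) (nat_lit 6) (nat_lit 104) (nat_lit 3) (nat_lit 174) (nat_lit 157) (nat_lit 179)) (PT.lf (nat_lit 7980) (nat_lit 6) (nat_lit 105) (nat_lit 3) (nat_lit 175) (nat_lit 157) (nat_lit 178)))) (PT.nd (nat_lit 156) (PT.nd (nat_lit 78) (PT.lf (nat_lit 8056) (nat_lit 6) (nat_lit 106) (nat_lit 3) (nat_lit 176) (nat_lit 157) (nat_lit 177)) (PT.lf (nat_lit 8056) (nat_lit 6) (nat_lit 106) (nat_lit 1) (nat_lit 177) (nat_lit 157) (nat_lit 176))) (PT.nd (nat_lit 78) (PT.lf (nat_lit 7980) (nat_lit 6) (nat_lit 105) (nat_lit 1) (nat_lit 178) (nat_lit 157) (nat_lit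 175)) (PT.lf (nat_lit 7904) (nat_lit 6) (nat_lit 104) (nat_lit 1) (nat_lit 179) (nat_lit 157) (nat_lit 174))))) (PT.nd (nat_lit 52572) (PT.nd (nat_lit 52416) (PT.nd (nat_lit 78) (PT.lf (nat_lit 7828) (nat_lit 6) (nat_lit 103) (nat_lit 1) (nat_lit 180) (nat_lit 157) (nat_lit 173)) (PT.lf (nat_lit 7752) (nat_lit 6) (nat_lit 102) (nat_lit 1) (nat_lit 181) (nat_lit 157) (nat_lit 172))) (PT.nd (nat_lit 78) (PT.lf (nat_lit 8132) (nat_lit 6) (nat_lit 107) (nat_lit 3) (nat_lit 171) (nat_lit 158) (nat_lit 181)) (PT.lf (nat_lit 8208) (nat_lit 6) (nat_lit 108) (nat_lit 3) (nat_lit 172) (nat_lit 158) (nat_lit 180)))) (PT.nd (nat_lit 156) (PT.nd (nat_lit 78) (PT.lf (nat_lit 8284) (nat_lit 6) (nat_lit 109) (nat_lit 3) (nat_lit 173) (nat_lit 158) (nat_lit 179)) (PT.lf (nat_lit 8360) (nat_lit 6) (nat_lit 110) (nat_lit 3) (nat_lit 174) (nat_lit 158) (nat_lit 178))) (PT.nd (nat_lit 78) (PT.lf (nat_lit 8436) (nat_lit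 6) (nat_lit 111) (nat_lit 3) (nat_lit 175) (nat_lit 158) (nat_lit 177)) (PT.lf (nat_lit 8512) (nat_lit 3) (nat_lit 112) (nat_lit 1) (nat_lit 176) (nat_lit 158) (nat_lit 176)))))) (PT.nd (nat_lit 52806) (PT.nd (nat_lit 234) (PT.nd (nat_lit 78) (PT.lf (nat_lit 8436) (nat_lit 6) (nat_lit 111) (nat_lit 1) (nat_lit 177) (nat_lit 158) (nat_lit 175)) (PT.nd (nat_lit 78) (PT.lf (nat_lit 8360) (nat_lit 6) (nat_lit 110) (nat_lit 1) (nat_lit 178) (nat_lit 158) (nat_lit 174)) (PT.lf (nat_lit 8284) (nat_lit 6) (nat_lit 109) (nat_lit 1) (nat_lit 179) (nat_lit 158) (nat_lit 173)))) (PT.nd (nat_lit 52416) (PT.nd (nat_lit 78) (PT.lf (nat_lit 8208) (nat_lit 6) (nat_lit 108) (nat_lit 1) (nat_lit 180) (nat_lit 158) (nat_lit 172)) (PT.lf (nat_lit 8132) (nat_lit 6) (nat_lit 107) (nat_lit 1) (nat_lit 181) (nat_lit 158) (nat_lit 171))) (PT.nd (nat_lit 78) (PT.lf (nat_lit 8588) (nat_lit 6) (nat_lit 113) (nat_lit 3) (nat_lit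 171) (nat_lit 159) (nat_lit 180)) (PT.lf (nat_lit 8664) (nat_lit 6) (nat_lit 114) (nat_lit 3) (nat_lit 172) (nat_lit 159) (nat_lit 179))))) (PT.nd (nat_lit 312) (PT.nd (nat_lit 156) (PT.nd (nat_lit 78) (PT.lf (nat_lit 8740) (nat_lit 6) (nat_lit 115) (nat_lit 3) (nat_lit 173) (nat_lit 159) (nat_lit 178)) (PT.lf (nat_lit 8816) (nat_lit 6) (nat_lit 116) (nat_lit 3) (nat_lit 174) (nat_lit 159) (nat_lit 177))) (PT.nd (nat_lit 78) (PT.lf (nat_lit 8892) (nat_lit 6) (nat_lit 117) (nat_lit 3) (nat_lit 175) (nat_lit 159) (nat_lit 176)) (PT.lf (nat_lit 8892) (nat_lit 6) (nat_lit 117) (nat_lit 1) (nat_lit 176) (nat_lit 159) (nat_lit 175)))) (PT.nd (nat_lit 156) (PT.nd (nat_lit 78) (PT.lf (nat_lit 8816) (nat_lit 6) (nat_lit 116) (nat_lit 1) (nat_lit 177) (nat_lit 159) (nat_lit 174)) (PT.lf (nat_lit 8740) (nat_lit 6) (nat_lit 115) (nat_lit 1) (nat_lit 178) (nat_lit 159) (nat_lit 173))) (PT.nd (nat_lit 78)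 (PT.lf (nat_lit 8664) (nat_lit 6) (nat_lit 114) (nat_lit 1) (nat_lit 179) (nat_lit 159) (nat_lit 172)) (PT.lf (nat_lit 8588) (nat_lit 6) (nat_lit 113) (nat_lit 1) (nat_lit 180) (nat_lit 159) (nat_lit 171))))))) (PT.nd (nat_lit 53352) (PT.nd (nat_lit 546) (PT.nd (nat_lit 234) (PT.nd (nat_lit 78) (PT.lf (nat_lit 9348) (nat_lit 6) (nat_lit 123) (nat_lit 3) (nat_lit 170) (nat_lit 160) (nat_lit 180)) (PT.nd (nat_lit 78) (PT.lf (nat_lit 9424) (nat_lit 6) (nat_lit 124) (nat_lit 3) (nat_lit 171) (nat_lit 160) (nat_lit 179)) (PT.lf (nat_lit 9500) (nat_lit 6) (nat_lit 125) (nat_lit 3) (nat_lit 172) (nat_lit 160) (nat_lit 178)))) (PT.nd (nat_lit 156) (PT.nd (nat_lit 78) (PT.lf (nat_lit 9576) (nat_lit 6) (nat_lit 126) (nat_lit 3) (nat_lit 173) (nat_lit 160) (nat_lit 177)) (PT.lf (nat_lit 9652) (nat_lit 6) (nat_lit 127) (nat_lit 3) (nat_lit 174) (nat_lit 160) (nat_lit 176))) (PT.nd (nat_lit 78) (PT.lf (nat_lit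 9728) (nat_lit 3) (nat_lit 128) (nat_lit 1) (nat_lit 175) (nat_lit 160) (nat_lit 175)) (PT.lf (nat_lit 9652) (nat_lit 6) (nat_lit 127) (nat_lit 1) (nat_lit 176) (nat_lit 160) (nat_lit 174))))) (PT.nd (nat_lit 52494) (PT.nd (nat_lit 156) (PT.nd (nat_lit 78) (PT.lf (nat_lit 9576) (nat_lit 6) (nat_lit 126) (nat_lit 1) (nat_lit 177) (nat_lit 160) (nat_lit 173)) (PT.lf (nat_lit 9500) (nat_lit 6) (nat_lit 125) (nat_lit 1) (nat_lit 178) (nat_lit 160) (nat_lit 172))) (PT.nd (nat_lit 78) (PT.lf (nat_lit 9424) (nat_lit 6) (nat_lit 124) (nat_lit 1) (nat_lit 179) (nat_lit 160) (nat_lit 171)) (PT.lf (nat_lit 9348) (nat_lit 6) (nat_lit 123) (nat_lit 1) (nat_lit 180) (nat_lit 160) (nat_lit 170)))) (PT.nd (nat_lit 156) (PT.nd (nat_lit 78) (PT.lf (nat_lit 9272) (nat_lit 6) (nat_lit 122) (nat_lit 3) (nat_lit 169) (nat_lit 161) (nat_lit 180)) (PT.lf (nat_lit 10108) (nat_lit 6) (nat_lit 133) (nat_lit 3) (nat_lit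 170) (nat_lit 161) (nat_lit 179))) (PT.nd (nat_lit 78) (PT.lf (nat_lit 10184) (nat_lit 6) (nat_lit 134) (nat_lit 3) (nat_lit 171) (nat_lit 161) (nat_lit 178)) (PT.lf (nat_lit 10260) (nat_lit 6) (nat_lit 135) (nat_lit 3) (nat_lit 172) (nat_lit 161) (nat_lit 177)))))) (PT.nd (nat_lit 546) (PT.nd (nat_lit 234) (PT.nd (nat_lit 78) (PT.lf (nat_lit 10336) (nat_lit 6) (nat_lit 136) (nat_lit 3) (nat_lit 173) (nat_lit 161) (nat_lit 176)) (PT.nd (nat_lit 78) (PT.lf (nat_lit 10412) (nat_lit 6) (nat_lit 137) (nat_lit 3) (nat_lit 174) (nat_lit 161) (nat_lit 175)) (PT.lf (nat_lit 10412) (nat_lit 6) (nat_lit 137) (nat_lit 1) (nat_lit 175) (nat_lit 161) (nat_lit 174)))) (PT.nd (nat_lit 156) (PT.nd (nat_lit 78) (PT.lf (nat_lit 10336) (nat_lit 6) (nat_lit 136) (nat_lit 1) (nat_lit 176) (nat_lit 161) (nat_lit 173)) (PT.lf (nat_lit 10260) (nat_lit 6) (nat_lit 135) (nat_lit 1) (nat_lit 177) (nat_lit 161) (nat_lit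 172))) (PT.nd (nat_lit 78) (PT.lf (nat_lit 10184) (nat_lit 6) (nat_lit 134) (nat_lit 1) (nat_lit 178) (nat_lit 161) (nat_lit 171)) (PT.lf (nat_lit 10108) (nat_lit 6) (nat_lit 133) (nat_lit 1) (nat_lit 179) (nat_lit 161) (nat_lit 170))))) (PT.nd (nat_lit 52416) (PT.nd (nat_lit 52260) (PT.nd (nat_lit 52182) (PT.lf (nat_lit 9272) (nat_lit 6) (nat_lit 122) (nat_lit 1) (nat_lit 180) (nat_lit 161) (nat_lit 169)) (PT.lf (nat_lit 9196) (nat_lit 6) (nat_lit 121) (nat_lit 3) (nat_lit 168) (nat_lit 162) (nat_lit 180))) (PT.nd (nat_lit 78) (PT.lf (nat_lit 10032) (nat_lit 6) (nat_lit 132) (nat_lit 3) (nat_lit 169) (nat_lit 162) (nat_lit 179)) (PT.lf (nat_lit 10792) (nat_lit 6) (nat_lit 142) (nat_lit 3) (nat_lit 170) (nat_lit 162) (nat_lit 178)))) (PT.nd (nat_lit 156) (PT.nd (nat_lit 78) (PT.lf (nat_lit 10868) (nat_lit 6) (nat_lit 143) (nat_lit 3) (nat_lit 171) (nat_lit 162) (nat_lit 177)) (PT.lf (nat_lit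 10944) (nat_lit 6) (nat_lit 144) (nat_lit 3) (nat_lit 172) (nat_lit 162) (nat_lit 176))) (PT.nd (nat_lit 78) (PT.lf (nat_lit 11020) (nat_lit 6) (nat_lit 145) (nat_lit 3) (nat_lit 173) (nat_lit 162) (nat_lit 175)) (PT.lf (nat_lit 11096) (nat_lit 3) (nat_lit 146) (nat_lit 1) (nat_lit 174) (nat_lit 162) (nat_lit 174))))))))
noncomputable def pc4 : PT := (PT.nd (nat_lit 106236) (PT.nd (nat_lit 53118) (PT.nd (nat_lit 52572) (PT.nd (nat_lit 234) (PT.nd (nat_lit 78) (PT.lf (nat_lit 11020) (nat_lit 6) (nat_lit 145) (nat_lit 1) (nat_lit 175) (nat_lit 162) (nat_lit 173)) (PT.nd (nat_lit 78) (PT.lf (nat_lit 10944) (nat_lit 6) (nat_lit 144) (nat_lit 1) (nat_lit 176) (nat_lit 162) (nat_lit 172)) (PT.lf (nat_lit 10868) (nat_lit 6) (nat_lit 143) (nat_lit 1) (nat_lit 177) (nat_lit 162) (nat_lit 171)))) (PT.nd (nat_lit 156) (PT.nd (nat_lit 78) (PT.lf (nat_lit 10792) (nat_lit 6) (nat_lit 142) (nat_lit 1) (nat_lit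 178) (nat_lit 162) (nat_lit 170)) (PT.lf (nat_lit 10032) (nat_lit 6) (nat_lit 132) (nat_lit 1) (nat_lit 179) (nat_lit 162) (nat_lit 169))) (PT.nd (nat_lit 52104) (PT.lf (nat_lit 9196) (nat_lit 6) (nat_lit 121) (nat_lit 1) (nat_lit 180) (nat_lit 162) (nat_lit 168)) (PT.lf (nat_lit 9120) (nat_lit 6) (nat_lit 120) (nat_lit 3) (nat_lit 167) (nat_lit 163) (nat_lit 180))))) (PT.nd (nat_lit 234) (PT.nd (nat_lit 78) (PT.lf (nat_lit 9956) (nat_lit 6) (nat_lit 131) (nat_lit 3) (nat_lit 168) (nat_lit 163) (nat_lit 179)) (PT.nd (nat_lit 78) (PT.lf (nat_lit 10716) (nat_lit 6) (nat_lit 141) (nat_lit 3) (nat_lit 169) (nat_lit 163) (nat_lit 178)) (PT.lf (nat_lit 11400) (nat_lit 6) (nat_lit 150) (nat_lit 3) (nat_lit 170) (nat_lit 163) (nat_lit 177)))) (PT.nd (nat_lit 156) (PT.nd (nat_lit 78) (PT.lf (nat_lit 11476) (nat_lit 6) (nat_lit 151) (nat_lit 3) (nat_lit 171) (nat_lit 163) (nat_lit 176)) (PT.lf (nat_lit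 11552) (nat_lit 6) (nat_lit 152) (nat_lit 3) (nat_lit 172) (nat_lit 163) (nat_lit 175))) (PT.nd (nat_lit 78) (PT.lf (nat_lit 11628) (nat_lit 6) (nat_lit 153) (nat_lit 3) (nat_lit 173) (nat_lit 163) (nat_lit 174)) (PT.lf (nat_lit 11628) (nat_lit 6) (nat_lit 153) (nat_lit 1) (nat_lit 174) (nat_lit 163) (nat_lit 173)))))) (PT.nd (nat_lit 52494) (PT.nd (nat_lit 234) (PT.nd (nat_lit 78) (PT.lf (nat_lit 11552) (nat_lit 6) (nat_lit 152) (nat_lit 1) (nat_lit 175) (nat_lit 163) (nat_lit 172)) (PT.nd (nat_lit 78) (PT.lf (nat_lit 11476) (nat_lit 6) (nat_lit 151) (nat_lit 1) (nat_lit 176) (nat_lit 163) (nat_lit 171)) (PT.lf (nat_lit 11400) (nat_lit 6) (nat_lit 150) (nat_lit 1) (nat_lit 177) (nat_lit 163) (nat_lit 170)))) (PT.nd (nat_lit 156) (PT.nd (nat_lit 78) (PT.lf (nat_lit 10716) (nat_lit 6) (nat_lit 141) (nat_lit 1) (nat_lit 178) (nat_lit 163) (nat_lit 169)) (PT.lf (nat_lit 9956) (nat_lit 6) (nat_lit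 131) (nat_lit 1) (nat_lit 179) (nat_lit 163) (nat_lit 168))) (PT.nd (nat_lit 52026) (PT.lf (nat_lit 9120) (nat_lit 6) (nat_lit 120) (nat_lit 1) (nat_lit 180) (nat_lit 163) (nat_lit 167)) (PT.lf (nat_lit 9044) (nat_lit 6) (nat_lit 119) (nat_lit 3) (nat_lit 166) (nat_lit 164) (nat_lit 180))))) (PT.nd (nat_lit 312) (PT.nd (nat_lit 156) (PT.nd (nat_lit 78) (PT.lf (nat_lit 9880) (nat_lit 6) (nat_lit 130) (nat_lit 3) (nat_lit 167) (nat_lit 164) (nat_lit 179)) (PT.lf (nat_lit 10640) (nat_lit 6) (nat_lit 140) (nat_lit 3) (nat_lit 168) (nat_lit 164) (nat_lit 178))) (PT.nd (nat_lit 78) (PT.lf (nat_lit 11324) (nat_lit 6) (nat_lit 149) (nat_lit 3) (nat_lit 169) (nat_lit 164) (nat_lit 177)) (PT.lf (nat_lit 11932) (nat_lit 6) (nat_lit 157) (nat_lit 3) (nat_lit 170) (nat_lit 164) (nat_lit 176)))) (PT.nd (nat_lit 156) (PT.nd (nat_lit 78) (PT.lf (nat_lit 12008) (nat_lit 6) (nat_lit 158) (nat_lit 3) (nat_lit 171)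 (nat_lit 164) (nat_lit 175)) (PT.lf (nat_lit 12084) (nat_lit 6) (nat_lit 159) (nat_lit 3) (nat_lit 172) (nat_lit 164) (nat_lit 174))) (PT.nd (nat_lit 78) (PT.lf (nat_lit 12160) (nat_lit 3) (nat_lit 160) (nat_lit 1) (nat_lit 173) (nat_lit 164) (nat_lit 173)) (PT.lf (nat_lit 12084) (nat_lit 6) (nat_lit 159) (nat_lit 1) (nat_lit 174) (nat_lit 164) (nat_lit 172))))))) (PT.nd (nat_lit 53040) (PT.nd (nat_lit 52416) (PT.nd (nat_lit 234) (PT.nd (nat_lit 78) (PT.lf (nat_lit 12008) (nat_lit 6) (nat_lit 158) (nat_lit 1) (nat_lit 175) (nat_lit 164) (nat_lit 171)) (PT.nd (nat_lit 78) (PT.lf (nat_lit 11932) (nat_lit 6) (nat_lit 157) (nat_lit 1) (nat_lit 176) (nat_lit 164) (nat_lit 170)) (PT.lf (nat_lit 11324) (nat_lit 6) (nat_lit 149) (nat_lit 1) (nat_lit 177) (nat_lit 164) (nat_lit 169)))) (PT.nd (nat_lit 156) (PT.nd (nat_lit 78) (PT.lf (nat_lit 10640) (nat_lit 6) (nat_lit 140) (nat_lit 1) (nat_lit 178) (nat_lit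 164) (nat_lit 168)) (PT.lf (nat_lit 9880) (nat_lit 6) (nat_lit 130) (nat_lit 1) (nat_lit 179) (nat_lit 164) (nat_lit 167))) (PT.nd (nat_lit 51948) (PT.lf (nat_lit 9044) (nat_lit 6) (nat_lit 119) (nat_lit 1) (nat_lit 180) (nat_lit 164) (nat_lit 166)) (PT.lf (nat_lit 8968) (nat_lit 3) (nat_lit 118) (nat_lit 3) (nat_lit 165) (nat_lit 165) (nat_lit 180))))) (PT.nd (nat_lit 312) (PT.nd (nat_lit 156) (PT.nd (nat_lit 78) (PT.lf (nat_lit 9804) (nat_lit 6) (nat_lit 129) (nat_lit 3) (nat_lit 166) (nat_lit 165) (nat_lit 179)) (PT.lf (nat_lit 10564) (nat_lit 6) (nat_lit 139) (nat_lit 3) (nat_lit 167) (nat_lit 165) (nat_lit 178))) (PT.nd (nat_lit 78) (PT.lf (nat_lit 11248) (nat_lit 6) (nat_lit 148) (nat_lit 3) (nat_lit 168) (nat_lit 165) (nat_lit 177)) (PT.lf (nat_lit 11856) (nat_lit 6) (nat_lit 156) (nat_lit 3) (nat_lit 169) (nat_lit 165) (nat_lit 176)))) (PT.nd (nat_lit 156) (PT.nd (nat_lit 78) (PT.lf (nat_lit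 12388) (nat_lit 6) (nat_lit 163) (nat_lit 3) (nat_lit 170) (nat_lit 165) (nat_lit 175)) (PT.lf (nat_lit 12464) (nat_lit 6) (nat_lit 164) (nat_lit 3) (nat_lit 171) (nat_lit 165) (nat_lit 174))) (PT.nd (nat_lit 78) (PT.lf (nat_lit 12540) (nat_lit 6) (nat_lit 165) (nat_lit 3) (nat_lit 172) (nat_lit 165) (nat_lit 173)) (PT.lf (nat_lit 12540) (nat_lit 6) (nat_lit 165) (nat_lit 1) (nat_lit 173) (nat_lit 165) (nat_lit 172)))))) (PT.nd (nat_lit 52338) (PT.nd (nat_lit 234) (PT.nd (nat_lit 78) (PT.lf (nat_lit 12464) (nat_lit 6) (nat_lit 164) (nat_lit 1) (nat_lit 174) (nat_lit 165) (nat_lit 171)) (PT.nd (nat_lit 78) (PT.lf (nat_lit 12388) (nat_lit 6) (nat_lit 163) (nat_lit 1) (nat_lit 175) (nat_lit 165) (nat_lit 170)) (PT.lf (nat_lit 11856) (nat_lit 6) (nat_lit 156) (nat_lit 1) (nat_lit 176) (nat_lit 165) (nat_lit 169)))) (PT.nd (nat_lit 156) (PT.nd (nat_lit 78) (PT.lf (nat_lit 11248) (nat_lit 6) (nat_lit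 148) (nat_lit 1) (nat_lit 177) (nat_lit 165) (nat_lit 168)) (PT.lf (nat_lit 10564) (nat_lit 6) (nat_lit 139) (nat_lit 1) (nat_lit 178) (nat_lit 165) (nat_lit 167))) (PT.nd (nat_lit 78) (PT.lf (nat_lit 9804) (nat_lit 6) (nat_lit 129) (nat_lit 1) (nat_lit 179) (nat_lit 165) (nat_lit 166)) (PT.lf (nat_lit 8968) (nat_lit 3) (nat_lit 118) (nat_lit 0) (nat_lit 180) (nat_lit 165) (nat_lit 165))))) (PT.nd (nat_lit 312) (PT.nd (nat_lit 156) (PT.nd (nat_lit 78) (PT.lf (nat_lit 9044) (nat_lit 6) (nat_lit 119) (nat_lit 5) (nat_lit 164) (nat_lit 166) (nat_lit 180)) (PT.lf (nat_lit 9804) (nat_lit 6) (nat_lit 129) (nat_lit 5) (nat_lit 165) (nat_lit 166) (nat_lit 179))) (PT.nd (nat_lit 78) (PT.lf (nat_lit 10488) (nat_lit 3) (nat_lit 138) (nat_lit 3) (nat_lit 166) (nat_lit 166) (nat_lit 178)) (PT.lf (nat_lit 11172) (nat_lit 6) (nat_lit 147) (nat_lit 3) (nat_lit 167) (nat_lit 166) (nat_lit 177)))) (PT.nd (nat_lit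 156) (PT.nd (nat_lit 78) (PT.lf (nat_lit 11780) (nat_lit 6) (nat_lit 155) (nat_lit 3) (nat_lit 168) (nat_lit 166) (nat_lit 176)) (PT.lf (nat_lit 12312) (nat_lit 6) (nat_lit 162) (nat_lit 3) (nat_lit 169) (nat_lit 166) (nat_lit 175))) (PT.nd (nat_lit 78) (PT.lf (nat_lit 12768) (nat_lit 6) (nat_lit 168) (nat_lit 3) (nat_lit 170) (nat_lit 166) (nat_lit 174)) (PT.lf (nat_lit 12844) (nat_lit 6) (nat_lit 169) (nat_lit 3) (nat_lit 171) (nat_lit 166) (nat_lit 173))))))))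
noncomputable def pc5 : PT := (PT.nd (nat_lit 105690) (PT.nd (nat_lit 52884) (PT.nd (nat_lit 546) (PT.nd (nat_lit 234) (PT.nd (nat_lit 78) (PT.lf (nat_lit 12920) (nat_lit 3) (nat_lit 170) (nat_lit 1) (nat_lit 172) (nat_lit 166) (nat_lit 172)) (PT.nd (nat_lit 78) (PT.lf (nat_lit 12844) (nat_lit 6) (nat_lit 169) (nat_lit 1) (nat_lit 173) (nat_lit 166) (nat_lit 171)) (PT.lf (nat_lit 12768) (nat_lit 6) (nat_lit 168) (nat_lit 1) (nat_lit 174) (nat_lit 166) (nat_lit 170)))) (PT.nd (nat_lit 156) (PT.nd (nat_lit 78) (PT.lf (nat_lit 12312) (nat_lit 6) (nat_lit 162) (nat_lit 1) (nat_lit 175) (nat_lit 166) (nat_lit 169)) (PT.lf (nat_lit 11780) (nat_lit 6) (nat_lit 155) (nat_lit 1) (nat_lit 176) (nat_lit 166) (nat_lit 168))) (PT.nd (nat_lit 78) (PT.lf (nat_lit 11172) (nat_lit 6) (nat_lit 147) (nat_lit 1) (nat_lit 177) (nat_lit 166) (nat_lit 167)) (PT.lf (nat_lit 10488) (nat_lit 3) (nat_lit 138) (nat_lit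 0) (nat_lit 178) (nat_lit 166) (nat_lit 166))))) (PT.nd (nat_lit 52026) (PT.nd (nat_lit 51870) (PT.nd (nat_lit 78) (PT.lf (nat_lit 9804) (nat_lit 6) (nat_lit 129) (nat_lit 0) (nat_lit 179) (nat_lit 166) (nat_lit 165)) (PT.lf (nat_lit 9044) (nat_lit 6) (nat_lit 119) (nat_lit 0) (nat_lit 180) (nat_lit 166) (nat_lit 164))) (PT.nd (nat_lit 78) (PT.lf (nat_lit 9120) (nat_lit 6) (nat_lit 120) (nat_lit 5) (nat_lit 163) (nat_lit 167) (nat_lit 180)) (PT.lf (nat_lit 9880) (nat_lit 6) (nat_lit 130) (nat_lit 5) (nat_lit 164) (nat_lit 167) (nat_lit 179)))) (PT.nd (nat_lit 156) (PT.nd (nat_lit 78) (PT.lf (nat_lit 10564) (nat_lit 6) (nat_lit 139) (nat_lit 5) (nat_lit 165) (nat_lit 167) (nat_lit 178)) (PT.lf (nat_lit 11172) (nat_lit 6) (nat_lit 147) (nat_lit 5) (nat_lit 166) (nat_lit 167) (nat_lit 177))) (PT.nd (nat_lit 78) (PT.lf (nat_lit 11704) (nat_lit 3) (nat_lit 154) (nat_lit 3) (nat_lit 167) (nat_lit 167)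 (nat_lit 176)) (PT.lf (nat_lit 12236) (nat_lit 6) (nat_lit 161) (nat_lit 3) (nat_lit 168) (nat_lit 167) (nat_lit 175)))))) (PT.nd (nat_lit 546) (PT.nd (nat_lit 234) (PT.nd (nat_lit 78) (PT.lf (nat_lit 12692) (nat_lit 6) (nat_lit 167) (nat_lit 3) (nat_lit 169) (nat_lit 167) (nat_lit 174)) (PT.nd (nat_lit 78) (PT.lf (nat_lit 13072) (nat_lit 6) (nat_lit 172) (nat_lit 3) (nat_lit 170) (nat_lit 167) (nat_lit 173)) (PT.lf (nat_lit 13148) (nat_lit 6) (nat_lit 173) (nat_lit 3) (nat_lit 171) (nat_lit 167) (nat_lit 172)))) (PT.nd (nat_lit 156) (PT.nd (nat_lit 78) (PT.lf (nat_lit 13148) (nat_lit 6) (nat_lit 173) (nat_lit 1) (nat_lit 172) (nat_lit 167) (nat_lit 171)) (PT.lf (nat_lit 13072) (nat_lit 6) (nat_lit 172) (nat_lit 1) (nat_lit 173) (nat_lit 167) (nat_lit 170))) (PT.nd (nat_lit 78) (PT.lf (nat_lit 12692) (nat_lit 6) (nat_lit 167) (nat_lit 1) (nat_lit 174) (nat_lit 167) (nat_lit 169)) (PT.lf (nat_lit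 12236) (nat_lit 6) (nat_lit 161) (nat_lit 1) (nat_lit 175) (nat_lit 167) (nat_lit 168))))) (PT.nd (nat_lit 312) (PT.nd (nat_lit 156) (PT.nd (nat_lit 78) (PT.lf (nat_lit 11704) (nat_lit 3) (nat_lit 154) (nat_lit 0) (nat_lit 176) (nat_lit 167) (nat_lit 167)) (PT.lf (nat_lit 11172) (nat_lit 6) (nat_lit 147) (nat_lit 0) (nat_lit 177) (nat_lit 167) (nat_lit 166))) (PT.nd (nat_lit 78) (PT.lf (nat_lit 10564) (nat_lit 6) (nat_lit 139) (nat_lit 0) (nat_lit 178) (nat_lit 167) (nat_lit 165)) (PT.lf (nat_lit 9880) (nat_lit 6) (nat_lit 130) (nat_lit 0) (nat_lit 179) (nat_lit 167) (nat_lit 164)))) (PT.nd (nat_lit 51792) (PT.nd (nat_lit 51714) (PT.lf (nat_lit 9120) (nat_lit 6) (nat_lit 120) (nat_lit 0) (nat_lit 180) (nat_lit 167) (nat_lit 163)) (PT.lf (nat_lit 9196) (nat_lit 6) (nat_lit 121) (nat_lit 5) (nat_lit 162) (nat_lit 168) (nat_lit 180))) (PT.nd (nat_lit 78) (PT.lf (nat_lit 9956) (nat_lit 6) (nat_lit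 131) (nat_lit 5) (nat_lit 163) (nat_lit 168) (nat_lit 179)) (PT.lf (nat_lit 10640) (nat_lit 6) (nat_lit 140) (nat_lit 5) (nat_lit 164) (nat_lit 168) (nat_lit 178))))))) (PT.nd (nat_lit 1170) (PT.nd (nat_lit 546) (PT.nd (nat_lit 234) (PT.nd (nat_lit 78) (PT.lf (nat_lit 11248) (nat_lit 6) (nat_lit 148) (nat_lit 5) (nat_lit 165) (nat_lit 168) (nat_lit 177)) (PT.nd (nat_lit 78) (PT.lf (nat_lit 11780) (nat_lit 6) (nat_lit 155) (nat_lit 5) (nat_lit 166) (nat_lit 168) (nat_lit 176)) (PT.lf (nat_lit 12236) (nat_lit 6) (nat_lit 161) (nat_lit 5) (nat_lit 167) (nat_lit 168) (nat_lit 175)))) (PT.nd (nat_lit 156) (PT.nd (nat_lit 78) (PT.lf (nat_lit 12616) (nat_lit 3) (nat_lit 166) (nat_lit 3) (nat_lit 168) (nat_lit 168) (nat_lit 174)) (PT.lf (nat_lit 12996) (nat_lit 6) (nat_lit 171) (nat_lit 3) (nat_lit 169) (nat_lit 168) (nat_lit 173))) (PT.nd (nat_lit 78) (PT.lf (nat_lit 13300) (nat_lit 6) (nat_lit 175)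 (nat_lit 3) (nat_lit 170) (nat_lit 168) (nat_lit 172)) (PT.lf (nat_lit 13376) (nat_lit 3) (nat_lit 176) (nat_lit 1) (nat_lit 171) (nat_lit 168) (nat_lit 171))))) (PT.nd (nat_lit 312) (PT.nd (nat_lit 156) (PT.nd (nat_lit 78) (PT.lf (nat_lit 13300) (nat_lit 6) (nat_lit 175) (nat_lit 1) (nat_lit 172) (nat_lit 168) (nat_lit 170)) (PT.lf (nat_lit 12996) (nat_lit 6) (nat_lit 171) (nat_lit 1) (nat_lit 173) (nat_lit 168) (nat_lit 169))) (PT.nd (nat_lit 78) (PT.lf (nat_lit 12616) (nat_lit 3) (nat_lit 166) (nat_lit 0) (nat_lit 174) (nat_lit 168) (nat_lit 168)) (PT.lf (nat_lit 12236) (nat_lit 6) (nat_lit 161) (nat_lit 0) (nat_lit 175) (nat_lit 168) (nat_lit 167)))) (PT.nd (nat_lit 156) (PT.nd (nat_lit 78) (PT.lf (nat_lit 11780) (nat_lit 6) (nat_lit 155) (nat_lit 0) (nat_lit 176) (nat_lit 168) (nat_lit 166)) (PT.lf (nat_lit 11248) (nat_lit 6) (nat_lit 148) (nat_lit 0) (nat_lit 177) (nat_lit 168) (nat_lit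 165))) (PT.nd (nat_lit 78) (PT.lf (nat_lit 10640) (nat_lit 6) (nat_lit 140) (nat_lit 0) (nat_lit 178) (nat_lit 168) (nat_lit 164)) (PT.lf (nat_lit 9956) (nat_lit 6) (nat_lit 131) (nat_lit 0) (nat_lit 179) (nat_lit 168) (nat_lit 163)))))) (PT.nd (nat_lit 52104) (PT.nd (nat_lit 51792) (PT.nd (nat_lit 51636) (PT.lf (nat_lit 9196) (nat_lit 6) (nat_lit 121) (nat_lit 0) (nat_lit 180) (nat_lit 168) (nat_lit 162)) (PT.nd (nat_lit 78) (PT.lf (nat_lit 9272) (nat_lit 6) (nat_lit 122) (nat_lit 5) (nat_lit 161) (nat_lit 169) (nat_lit 180)) (PT.lf (nat_lit 10032) (nat_lit 6) (nat_lit 132) (nat_lit 5) (nat_lit 162) (nat_lit 169) (nat_lit 179)))) (PT.nd (nat_lit 156) (PT.nd (nat_lit 78) (PT.lf (nat_lit 10716) (nat_lit 6) (nat_lit 141) (nat_lit 5) (nat_lit 163) (nat_lit 169) (nat_lit 178)) (PT.lf (nat_lit 11324) (nat_lit 6) (nat_lit 149) (nat_lit 5) (nat_lit 164) (nat_lit 169) (nat_lit 177))) (PT.nd (nat_lit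 78) (PT.lf (nat_lit 11856) (nat_lit 6) (nat_lit 156) (nat_lit 5) (nat_lit 165) (nat_lit 169) (nat_lit 176)) (PT.lf (nat_lit 12312) (nat_lit 6) (nat_lit 162) (nat_lit 5) (nat_lit 166) (nat_lit 169) (nat_lit 175))))) (PT.nd (nat_lit 312) (PT.nd (nat_lit 156) (PT.nd (nat_lit 78) (PT.lf (nat_lit 12692) (nat_lit 6) (nat_lit 167) (nat_lit 5) (nat_lit 167) (nat_lit 169) (nat_lit 174)) (PT.lf (nat_lit 12996) (nat_lit 6) (nat_lit 171) (nat_lit 5) (nat_lit 168) (nat_lit 169) (nat_lit 173))) (PT.nd (nat_lit 78) (PT.lf (nat_lit 13224) (nat_lit 3) (nat_lit 174) (nat_lit 3) (nat_lit 169) (nat_lit 169) (nat_lit 172)) (PT.lf (nat_lit 13452) (nat_lit 6) (nat_lit 177) (nat_lit 3) (nat_lit 170) (nat_lit 169) (nat_lit 171)))) (PT.nd (nat_lit 156) (PT.nd (nat_lit 78) (PT.lf (nat_lit 13452) (nat_lit 6) (nat_lit 177) (nat_lit 1) (nat_lit 171) (nat_lit 169) (nat_lit 170)) (PT.lf (nat_lit 13224) (nat_lit 3) (nat_lit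 174) (nat_lit 0) (nat_lit 172) (nat_lit 169) (nat_lit 169))) (PT.nd (nat_lit 78) (PT.lf (nat_lit 12996) (nat_lit 6) (nat_lit 171) (nat_lit 0) (nat_lit 173) (nat_lit 169) (nat_lit 168)) (PT.lf (nat_lit 12692) (nat_lit 6) (nat_lit 167) (nat_lit 0) (nat_lit 174) (nat_lit 169) (nat_lit 167))))))))
noncomputable def pc6 : PT := (PT.nd (nat_lit 105144) (PT.nd (nat_lit 52650) (PT.nd (nat_lit 52026) (PT.nd (nat_lit 234) (PT.nd (nat_lit 78) (PT.lf (nat_lit 12312) (nat_lit 6) (nat_lit 162) (nat_lit 0) (nat_lit 175) (nat_lit 169) (nat_lit 166)) (PT.nd (nat_lit 78) (PT.lf (nat_lit 11856) (nat_lit 6) (nat_lit 156) (nat_lit 0) (nat_lit 176) (nat_lit 169) (nat_lit 165)) (PT.lf (nat_lit 11324) (nat_lit 6) (nat_lit 149) (nat_lit 0) (nat_lit 177) (nat_lit 169) (nat_lit 164)))) (PT.nd (nat_lit 156) (PT.nd (nat_lit 78) (PT.lf (nat_lit 10716) (nat_lit 6) (nat_lit 141) (nat_lit 0) (nat_lit 178) (nat_lit 169) (nat_lit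 163)) (PT.lf (nat_lit 10032) (nat_lit 6) (nat_lit 132) (nat_lit 0) (nat_lit 179) (nat_lit 169) (nat_lit 162))) (PT.nd (nat_lit 51558) (PT.lf (nat_lit 9272) (nat_lit 6) (nat_lit 122) (nat_lit 0) (nat_lit 180) (nat_lit 169) (nat_lit 161)) (PT.lf (nat_lit 9348) (nat_lit 6) (nat_lit 123) (nat_lit 5) (nat_lit 160) (nat_lit 170) (nat_lit 180))))) (PT.nd (nat_lit 312) (PT.nd (nat_lit 156) (PT.nd (nat_lit 78) (PT.lf (nat_lit 10108) (nat_lit 6) (nat_lit 133) (nat_lit 5) (nat_lit 161) (nat_lit 170) (nat_lit 179)) (PT.lf (nat_lit 10792) (nat_lit 6) (nat_lit 142) (nat_lit 5) (nat_lit 162) (nat_lit 170) (nat_lit 178))) (PT.nd (nat_lit 78) (PT.lf (nat_lit 11400) (nat_lit 6) (nat_lit 150) (nat_lit 5) (nat_lit 163) (nat_lit 170) (nat_lit 177)) (PT.lf (nat_lit 11932) (nat_lit 6) (nat_lit 157) (nat_lit 5) (nat_lit 164) (nat_lit 170) (nat_lit 176)))) (PT.nd (nat_lit 156) (PT.nd (nat_lit 78) (PT.lf (nat_lit 12388)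 (nat_lit 6) (nat_lit 163) (nat_lit 5) (nat_lit 165) (nat_lit 170) (nat_lit 175)) (PT.lf (nat_lit 12768) (nat_lit 6) (nat_lit 168) (nat_lit 5) (nat_lit 166) (nat_lit 170) (nat_lit 174))) (PT.nd (nat_lit 78) (PT.lf (nat_lit 13072) (nat_lit 6) (nat_lit 172) (nat_lit 5) (nat_lit 167) (nat_lit 170) (nat_lit 173)) (PT.lf (nat_lit 13300) (nat_lit 6) (nat_lit 175) (nat_lit 5) (nat_lit 168) (nat_lit 170) (nat_lit 172)))))) (PT.nd (nat_lit 546) (PT.nd (nat_lit 234) (PT.nd (nat_lit 78) (PT.lf (nat_lit 13452) (nat_lit 6) (nat_lit 177) (nat_lit 5) (nat_lit 169) (nat_lit 170) (nat_lit 171)) (PT.nd (nat_lit 78) (PT.lf (nat_lit 13528) (nat_lit 1) (nat_lit 178) (nat_lit 0) (nat_lit 170) (nat_lit 170) (nat_lit 170)) (PT.lf (nat_lit 13452) (nat_lit 6) (nat_lit 177) (nat_lit 0) (nat_lit 171) (nat_lit 170) (nat_lit 169)))) (PT.nd (nat_lit 156) (PT.nd (nat_lit 78) (PT.lf (nat_lit 13300) (nat_lit 6) (nat_lit 175) (nat_lit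 0) (nat_lit 172) (nat_lit 170) (nat_lit 168)) (PT.lf (nat_lit 13072) (nat_lit 6) (nat_lit 172) (nat_lit 0) (nat_lit 173) (nat_lit 170) (nat_lit 167))) (PT.nd (nat_lit 78) (PT.lf (nat_lit 12768) (nat_lit 6) (nat_lit 168) (nat_lit 0) (nat_lit 174) (nat_lit 170) (nat_lit 166)) (PT.lf (nat_lit 12388) (nat_lit 6) (nat_lit 163) (nat_lit 0) (nat_lit 175) (nat_lit 170) (nat_lit 165))))) (PT.nd (nat_lit 312) (PT.nd (nat_lit 156) (PT.nd (nat_lit 78) (PT.lf (nat_lit 11932) (nat_lit 6) (nat_lit 157) (nat_lit 0) (nat_lit 176) (nat_lit 170) (nat_lit 164)) (PT.lf (nat_lit 11400) (nat_lit 6) (nat_lit 150) (nat_lit 0) (nat_lit 177) (nat_lit 170) (nat_lit 163))) (PT.nd (nat_lit 78) (PT.lf (nat_lit 10792) (nat_lit 6) (nat_lit 142) (nat_lit 0) (nat_lit 178) (nat_lit 170) (nat_lit 162)) (PT.lf (nat_lit 10108) (nat_lit 6) (nat_lit 133) (nat_lit 0) (nat_lit 179) (nat_lit 170) (nat_lit 161)))) (PT.nd (nat_lit 51480)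 (PT.nd (nat_lit 51402) (PT.lf (nat_lit 9348) (nat_lit 6) (nat_lit 123) (nat_lit 0) (nat_lit 180) (nat_lit 170) (nat_lit 160)) (PT.lf (nat_lit 8132) (nat_lit 6) (nat_lit 107) (nat_lit 5) (nat_lit 158) (nat_lit 171) (nat_lit 181))) (PT.nd (nat_lit 78) (PT.lf (nat_lit 8588) (nat_lit 6) (nat_lit 113) (nat_lit 5) (nat_lit 159) (nat_lit 171) (nat_lit 180)) (PT.lf (nat_lit 9424) (nat_lit 6) (nat_lit 124) (nat_lit 5) (nat_lit 160) (nat_lit 171) (nat_lit 179))))))) (PT.nd (nat_lit 1170) (PT.nd (nat_lit 546) (PT.nd (nat_lit 234) (PT.nd (nat_lit 78) (PT.lf (nat_lit 10184) (nat_lit 6) (nat_lit 134) (nat_lit 5) (nat_lit 161) (nat_lit 171) (nat_lit 178)) (PT.nd (nat_lit 78) (PT.lf (nat_lit 10868) (nat_lit 6) (nat_lit 143) (nat_lit 5) (nat_lit 162) (nat_lit 171) (nat_lit 177)) (PT.lf (nat_lit 11476) (nat_lit 6) (nat_lit 151) (nat_lit 5) (nat_lit 163) (nat_lit 171) (nat_lit 176)))) (PT.nd (nat_lit 156) (PT.nd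 (nat_lit 78) (PT.lf (nat_lit 12008) (nat_lit 6) (nat_lit 158) (nat_lit 5) (nat_lit 164) (nat_lit 171) (nat_lit 175)) (PT.lf (nat_lit 12464) (nat_lit 6) (nat_lit 164) (nat_lit 5) (nat_lit 165) (nat_lit 171) (nat_lit 174))) (PT.nd (nat_lit 78) (PT.lf (nat_lit 12844) (nat_lit 6) (nat_lit 169) (nat_lit 5) (nat_lit 166) (nat_lit 171) (nat_lit 173)) (PT.lf (nat_lit 13148) (nat_lit 6) (nat_lit 173) (nat_lit 5) (nat_lit 167) (nat_lit 171) (nat_lit 172))))) (PT.nd (nat_lit 312) (PT.nd (nat_lit 156) (PT.nd (nat_lit 78) (PT.lf (nat_lit 13376) (nat_lit 3) (nat_lit 176) (nat_lit 4) (nat_lit 168) (nat_lit 171) (nat_lit 171)) (PT.lf (nat_lit 13452) (nat_lit 6) (nat_lit 177) (nat_lit 4) (nat_lit 169) (nat_lit 171) (nat_lit 170))) (PT.nd (nat_lit 78) (PT.lf (nat_lit 13452) (nat_lit 6) (nat_lit 177) (nat_lit 2) (nat_lit 170) (nat_lit 171) (nat_lit 169)) (PT.lf (nat_lit 13376) (nat_lit 3) (nat_lit 176) (nat_lit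 0) (nat_lit 171) (nat_lit 171) (nat_lit 168)))) (PT.nd (nat_lit 156) (PT.nd (nat_lit 78) (PT.lf (nat_lit 13148) (nat_lit 6) (nat_lit 173) (nat_lit 0) (nat_lit 172) (nat_lit 171) (nat_lit 167)) (PT.lf (nat_lit 12844) (nat_lit 6) (nat_lit 169) (nat_lit 0) (nat_lit 173) (nat_lit 171) (nat_lit 166))) (PT.nd (nat_lit 78) (PT.lf (nat_lit 12464) (nat_lit 6) (nat_lit 164) (nat_lit 0) (nat_lit 174) (nat_lit 171) (nat_lit 165)) (PT.lf (nat_lit 12008) (nat_lit 6) (nat_lit 158) (nat_lit 0) (nat_lit 175) (nat_lit 171) (nat_lit 164)))))) (PT.nd (nat_lit 51714) (PT.nd (nat_lit 234) (PT.nd (nat_lit 78) (PT.lf (nat_lit 11476) (nat_lit 6) (nat_lit 151) (nat_lit 0) (nat_lit 176) (nat_lit 171) (nat_lit 163)) (PT.nd (nat_lit 78) (PT.lf (nat_lit 10868) (nat_lit 6) (nat_lit 143) (nat_lit 0) (nat_lit 177) (nat_lit 171) (nat_lit 162)) (PT.lf (nat_lit 10184) (nat_lit 6) (nat_lit 134) (nat_lit 0) (nat_lit 178) (nat_lit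 171) (nat_lit 161)))) (PT.nd (nat_lit 156) (PT.nd (nat_lit 78) (PT.lf (nat_lit 9424) (nat_lit 6) (nat_lit 124) (nat_lit 0) (nat_lit 179) (nat_lit 171) (nat_lit 160)) (PT.lf (nat_lit 8588) (nat_lit 6) (nat_lit 113) (nat_lit 0) (nat_lit 180) (nat_lit 171) (nat_lit 159))) (PT.nd (nat_lit 51246) (PT.lf (nat_lit 8132) (nat_lit 6) (nat_lit 107) (nat_lit 0) (nat_lit 181) (nat_lit 171) (nat_lit 158)) (PT.lf (nat_lit 7752) (nat_lit 6) (nat_lit 102) (nat_lit 5) (nat_lit 157) (nat_lit 172) (nat_lit 181))))) (PT.nd (nat_lit 312) (PT.nd (nat_lit 156) (PT.nd (nat_lit 78) (PT.lf (nat_lit 8208) (nat_lit 6) (nat_lit 108) (nat_lit 5) (nat_lit 158) (nat_lit 172) (nat_lit 180)) (PT.lf (nat_lit 8664) (nat_lit 6) (nat_lit 114) (nat_lit 5) (nat_lit 159) (nat_lit 172) (nat_lit 179))) (PT.nd (nat_lit 78) (PT.lf (nat_lit 9500) (nat_lit 6) (nat_lit 125) (nat_lit 5) (nat_lit 160) (nat_lit 172) (nat_lit 178)) (PT.lf (nat_lit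 10260) (nat_lit 6) (nat_lit 135) (nat_lit 5) (nat_lit 161) (nat_lit 172) (nat_lit 177)))) (PT.nd (nat_lit 156) (PT.nd (nat_lit 78) (PT.lf (nat_lit 10944) (nat_lit 6) (nat_lit 144) (nat_lit 5) (nat_lit 162) (nat_lit 172) (nat_lit 176)) (PT.lf (nat_lit 11552) (nat_lit 6) (nat_lit 152) (nat_lit 5) (nat_lit 163) (nat_lit 172) (nat_lit 175))) (PT.nd (nat_lit 78) (PT.lf (nat_lit 12084) (nat_lit 6) (nat_lit 159) (nat_lit 5) (nat_lit 164) (nat_lit 172) (nat_lit 174)) (PT.lf (nat_lit 12540) (nat_lit 6) (nat_lit 165) (nat_lit 5) (nat_lit 165) (nat_lit 172) (nat_lit 173))))))))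
noncomputable def pc7 : PT := (PT.nd (nat_lit 53430) (PT.nd (nat_lit 1170) (PT.nd (nat_lit 546) (PT.nd (nat_lit 234) (PT.nd (nat_lit 78) (PT.lf (nat_lit 12920) (nat_lit 3) (nat_lit 170) (nat_lit 4) (nat_lit 166) (nat_lit 172) (nat_lit 172)) (PT.nd (nat_lit 78) (PT.lf (nat_lit 13148) (nat_lit 6) (nat_lit 173) (nat_lit 4) (nat_lit 167) (nat_lit 172) (nat_lit 171)) (PT.lf (nat_lit 13300) (nat_lit 6) (nat_lit 175) (nat_lit 4) (nat_lit 168) (nat_lit 172) (nat_lit 170)))) (PT.nd (nat_lit 156) (PT.nd (nat_lit 78) (PT.lf (nat_lit 13224) (nat_lit 3) (nat_lit 174) (nat_lit 2) (nat_lit 169) (nat_lit 172) (nat_lit 169)) (PT.lf (nat_lit 13300) (nat_lit 6) (nat_lit 175) (nat_lit 2) (nat_lit 170) (nat_lit 172) (nat_lit 168))) (PT.nd (nat_lit 78) (PT.lf (nat_lit 13148) (nat_lit 6) (nat_lit 173) (nat_lit 2) (nat_lit 171) (nat_lit 172) (nat_lit 167)) (PT.lf (nat_lit 12920) (nat_lit 3) (nat_lit 170) (nat_lit 0)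 (nat_lit 172) (nat_lit 172) (nat_lit 166))))) (PT.nd (nat_lit 312) (PT.nd (nat_lit 156) (PT.nd (nat_lit 78) (PT.lf (nat_lit 12540) (nat_lit 6) (nat_lit 165) (nat_lit 0) (nat_lit 173) (nat_lit 172) (nat_lit 165)) (PT.lf (nat_lit 12084) (nat_lit 6) (nat_lit 159) (nat_lit 0) (nat_lit 174) (nat_lit 172) (nat_lit 164))) (PT.nd (nat_lit 78) (PT.lf (nat_lit 11552) (nat_lit 6) (nat_lit 152) (nat_lit 0) (nat_lit 175) (nat_lit 172) (nat_lit 163)) (PT.lf (nat_lit 10944) (nat_lit 6) (nat_lit 144) (nat_lit 0) (nat_lit 176) (nat_lit 172) (nat_lit 162)))) (PT.nd (nat_lit 156) (PT.nd (nat_lit 78) (PT.lf (nat_lit 10260) (nat_lit 6) (nat_lit 135) (nat_lit 0) (nat_lit 177) (nat_lit 172) (nat_lit 161)) (PT.lf (nat_lit 9500) (nat_lit 6) (nat_lit 125) (nat_lit 0) (nat_lit 178) (nat_lit 172) (nat_lit 160))) (PT.nd (nat_lit 78) (PT.lf (nat_lit 8664) (nat_lit 6) (nat_lit 114) (nat_lit 0) (nat_lit 179) (nat_lit 172) (nat_lit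 159)) (PT.lf (nat_lit 8208) (nat_lit 6) (nat_lit 108) (nat_lit 0) (nat_lit 180) (nat_lit 172) (nat_lit 158)))))) (PT.nd (nat_lit 51636) (PT.nd (nat_lit 51324) (PT.nd (nat_lit 51168) (PT.lf (nat_lit 7752) (nat_lit 6) (nat_lit 102) (nat_lit 0) (nat_lit 181) (nat_lit 172) (nat_lit 157)) (PT.nd (nat_lit 78) (PT.lf (nat_lit 7372) (nat_lit 6) (nat_lit 97) (nat_lit 5) (nat_lit 156) (nat_lit 173) (nat_lit 181)) (PT.lf (nat_lit 7828) (nat_lit 6) (nat_lit 103) (nat_lit 5) (nat_lit 157) (nat_lit 173) (nat_lit 180)))) (PT.nd (nat_lit 156) (PT.nd (nat_lit 78) (PT.lf (nat_lit 8284) (nat_lit 6) (nat_lit 109) (nat_lit 5) (nat_lit 158) (nat_lit 173) (nat_lit 179)) (PT.lf (nat_lit 8740) (nat_lit 6) (nat_lit 115) (nat_lit 5) (nat_lit 159) (nat_lit 173) (nat_lit 178))) (PT.nd (nat_lit 78) (PT.lf (nat_lit 9576) (nat_lit 6) (nat_lit 126) (nat_lit 5) (nat_lit 160) (nat_lit 173) (nat_lit 177)) (PT.lf (nat_lit 10336)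 (nat_lit 6) (nat_lit 136) (nat_lit 5) (nat_lit 161) (nat_lit 173) (nat_lit 176))))) (PT.nd (nat_lit 312) (PT.nd (nat_lit 156) (PT.nd (nat_lit 78) (PT.lf (nat_lit 11020) (nat_lit 6) (nat_lit 145) (nat_lit 5) (nat_lit 162) (nat_lit 173) (nat_lit 175)) (PT.lf (nat_lit 11628) (nat_lit 6) (nat_lit 153) (nat_lit 5) (nat_lit 163) (nat_lit 173) (nat_lit 174))) (PT.nd (nat_lit 78) (PT.lf (nat_lit 12160) (nat_lit 3) (nat_lit 160) (nat_lit 4) (nat_lit 164) (nat_lit 173) (nat_lit 173)) (PT.lf (nat_lit 12540) (nat_lit 6) (nat_lit 165) (nat_lit 4) (nat_lit 165) (nat_lit 173) (nat_lit 172)))) (PT.nd (nat_lit 156) (PT.nd (nat_lit 78) (PT.lf (nat_lit 12844) (nat_lit 6) (nat_lit 169) (nat_lit 4) (nat_lit 166) (nat_lit 173) (nat_lit 171)) (PT.lf (nat_lit 13072) (nat_lit 6) (nat_lit 172) (nat_lit 4) (nat_lit 167) (nat_lit 173) (nat_lit 170))) (PT.nd (nat_lit 78) (PT.lf (nat_lit 12996) (nat_lit 6) (nat_lit 171) (nat_lit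 4) (nat_lit 168) (nat_lit 173) (nat_lit 169)) (PT.lf (nat_lit 12996) (nat_lit 6) (nat_lit 171) (nat_lit 2) (nat_lit 169) (nat_lit 173) (nat_lit 168))))))) (PT.nd (nat_lit 52182) (PT.nd (nat_lit 546) (PT.nd (nat_lit 234) (PT.nd (nat_lit 78) (PT.lf (nat_lit 13072) (nat_lit 6) (nat_lit 172) (nat_lit 2) (nat_lit 170) (nat_lit 173) (nat_lit 167)) (PT.nd (nat_lit 78) (PT.lf (nat_lit 12844) (nat_lit 6) (nat_lit 169) (nat_lit 2) (nat_lit 171) (nat_lit 173) (nat_lit 166)) (PT.lf (nat_lit 12540) (nat_lit 6) (nat_lit 165) (nat_lit 2) (nat_lit 172) (nat_lit 173) (nat_lit 165)))) (PT.nd (nat_lit 156) (PT.nd (nat_lit 78) (PT.lf (nat_lit 12160) (nat_lit 3) (nat_lit 160) (nat_lit 0) (nat_lit 173) (nat_lit 173) (nat_lit 164)) (PT.lf (nat_lit 11628) (nat_lit 6) (nat_lit 153) (nat_lit 0) (nat_lit 174) (nat_lit 173) (nat_lit 163))) (PT.nd (nat_lit 78) (PT.lf (nat_lit 11020) (nat_lit 6) (nat_lit 145) (nat_lit 0)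 (nat_lit 175) (nat_lit 173) (nat_lit 162)) (PT.lf (nat_lit 10336) (nat_lit 6) (nat_lit 136) (nat_lit 0) (nat_lit 176) (nat_lit 173) (nat_lit 161))))) (PT.nd (nat_lit 312) (PT.nd (nat_lit 156) (PT.nd (nat_lit 78) (PT.lf (nat_lit 9576) (nat_lit 6) (nat_lit 126) (nat_lit 0) (nat_lit 177) (nat_lit 173) (nat_lit 160)) (PT.lf (nat_lit 8740) (nat_lit 6) (nat_lit 115) (nat_lit 0) (nat_lit 178) (nat_lit 173) (nat_lit 159))) (PT.nd (nat_lit 78) (PT.lf (nat_lit 8284) (nat_lit 6) (nat_lit 109) (nat_lit 0) (nat_lit 179) (nat_lit 173) (nat_lit 158)) (PT.lf (nat_lit 7828) (nat_lit 6) (nat_lit 103) (nat_lit 0) (nat_lit 180) (nat_lit 173) (nat_lit 157)))) (PT.nd (nat_lit 51168) (PT.nd (nat_lit 51090) (PT.lf (nat_lit 7372) (nat_lit 6) (nat_lit 97) (nat_lit 0) (nat_lit 181) (nat_lit 173) (nat_lit 156)) (PT.lf (nat_lit 7068) (nat_lit 6) (nat_lit 93) (nat_lit 5) (nat_lit 155) (nat_lit 174) (nat_lit 181))) (PT.nd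 (nat_lit 78) (PT.lf (nat_lit 7448) (nat_lit 6) (nat_lit 98) (nat_lit 5) (nat_lit 156) (nat_lit 174) (nat_lit 180)) (PT.lf (nat_lit 7904) (nat_lit 6) (nat_lit 104) (nat_lit 5) (nat_lit 157) (nat_lit 174) (nat_lit 179)))))) (PT.nd (nat_lit 546) (PT.nd (nat_lit 234) (PT.nd (nat_lit 78) (PT.lf (nat_lit 8360) (nat_lit 6) (nat_lit 110) (nat_lit 5) (nat_lit 158) (nat_lit 174) (nat_lit 178)) (PT.nd (nat_lit 78) (PT.lf (nat_lit 8816) (nat_lit 6) (nat_lit 116) (nat_lit 5) (nat_lit 159) (nat_lit 174) (nat_lit 177)) (PT.lf (nat_lit 9652) (nat_lit 6) (nat_lit 127) (nat_lit 5) (nat_lit 160) (nat_lit 174) (nat_lit 176)))) (PT.nd (nat_lit 156) (PT.nd (nat_lit 78) (PT.lf (nat_lit 10412) (nat_lit 6) (nat_lit 137) (nat_lit 5) (nat_lit 161) (nat_lit 174) (nat_lit 175)) (PT.lf (nat_lit 11096) (nat_lit 3) (nat_lit 146) (nat_lit 4) (nat_lit 162) (nat_lit 174) (nat_lit 174))) (PT.nd (nat_lit 78) (PT.lf (nat_lit 11628)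 (nat_lit 6) (nat_lit 153) (nat_lit 4) (nat_lit 163) (nat_lit 174) (nat_lit 173)) (PT.lf (nat_lit 12084) (nat_lit 6) (nat_lit 159) (nat_lit 4) (nat_lit 164) (nat_lit 174) (nat_lit 172))))) (PT.nd (nat_lit 312) (PT.nd (nat_lit 156) (PT.nd (nat_lit 78) (PT.lf (nat_lit 12464) (nat_lit 6) (nat_lit 164) (nat_lit 4) (nat_lit 165) (nat_lit 174) (nat_lit 171)) (PT.lf (nat_lit 12768) (nat_lit 6) (nat_lit 168) (nat_lit 4) (nat_lit 166) (nat_lit 174) (nat_lit 170))) (PT.nd (nat_lit 78) (PT.lf (nat_lit 12692) (nat_lit 6) (nat_lit 167) (nat_lit 4) (nat_lit 167) (nat_lit 174) (nat_lit 169)) (PT.lf (nat_lit 12616) (nat_lit 3) (nat_lit 166) (nat_lit 2) (nat_lit 168) (nat_lit 174) (nat_lit 168)))) (PT.nd (nat_lit 156) (PT.nd (nat_lit 78) (PT.lf (nat_lit 12692) (nat_lit 6) (nat_lit 167) (nat_lit 2) (nat_lit 169) (nat_lit 174) (nat_lit 167)) (PT.lf (nat_lit 12768) (nat_lit 6) (nat_lit 168) (nat_lit 2) (nat_lit 170)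 (nat_lit 174) (nat_lit 166))) (PT.nd (nat_lit 78) (PT.lf (nat_lit 12464) (nat_lit 6) (nat_lit 164) (nat_lit 2) (nat_lit 171) (nat_lit 174) (nat_lit 165)) (PT.lf (nat_lit 12084) (nat_lit 6) (nat_lit 159) (nat_lit 2) (nat_lit 172) (nat_lit 174) (nat_lit 164))))))))
noncomputable def pc8 : PT := (PT.nd (nat_lit 53118) (PT.nd (nat_lit 51948) (PT.nd (nat_lit 546) (PT.nd (nat_lit 234) (PT.nd (nat_lit 78) (PT.lf (nat_lit 11628) (nat_lit 6) (nat_lit 153) (nat_lit 2) (nat_lit 173) (nat_lit 174) (nat_lit 163)) (PT.nd (nat_lit 78) (PT.lf (nat_lit 11096) (nat_lit 3) (nat_lit 146) (nat_lit 0) (nat_lit 174) (nat_lit 174) (nat_lit 162)) (PT.lf (nat_lit 10412) (nat_lit 6) (nat_lit 137) (nat_lit 0) (nat_lit 175) (nat_lit 174) (nat_lit 161)))) (PT.nd (nat_lit 156) (PT.nd (nat_lit 78) (PT.lf (nat_lit 9652) (nat_lit 6) (nat_lit 127) (nat_lit 0) (nat_lit 176) (nat_lit 174) (nat_lit 160)) (PT.lf (nat_lit 8816) (nat_lit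 6) (nat_lit 116) (nat_lit 0) (nat_lit 177) (nat_lit 174) (nat_lit 159))) (PT.nd (nat_lit 78) (PT.lf (nat_lit 8360) (nat_lit 6) (nat_lit 110) (nat_lit 0) (nat_lit 178) (nat_lit 174) (nat_lit 158)) (PT.lf (nat_lit 7904) (nat_lit 6) (nat_lit 104) (nat_lit 0) (nat_lit 179) (nat_lit 174) (nat_lit 157))))) (PT.nd (nat_lit 51090) (PT.nd (nat_lit 78) (PT.lf (nat_lit 7448) (nat_lit 6) (nat_lit 98) (nat_lit 0) (nat_lit 180) (nat_lit 174) (nat_lit 156)) (PT.nd (nat_lit 50934) (PT.lf (nat_lit 7068) (nat_lit 6) (nat_lit 93) (nat_lit 0) (nat_lit 181) (nat_lit 174) (nat_lit 155)) (PT.lf (nat_lit 6460) (nat_lit 6) (nat_lit 85) (nat_lit 5) (nat_lit 153) (nat_lit 175) (nat_lit 182)))) (PT.nd (nat_lit 156) (PT.nd (nat_lit 78) (PT.lf (nat_lit 6764) (nat_lit 6) (nat_lit 89) (nat_lit 5) (nat_lit 154) (nat_lit 175) (nat_lit 181)) (PT.lf (nat_lit 7144) (nat_lit 6) (nat_lit 94) (nat_lit 5) (nat_lit 155) (nat_lit 175)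 (nat_lit 180))) (PT.nd (nat_lit 78) (PT.lf (nat_lit 7524) (nat_lit 6) (nat_lit 99) (nat_lit 5) (nat_lit 156) (nat_lit 175) (nat_lit 179)) (PT.lf (nat_lit 7980) (nat_lit 6) (nat_lit 105) (nat_lit 5) (nat_lit 157) (nat_lit 175) (nat_lit 178)))))) (PT.nd (nat_lit 546) (PT.nd (nat_lit 234) (PT.nd (nat_lit 78) (PT.lf (nat_lit 8436) (nat_lit 6) (nat_lit 111) (nat_lit 5) (nat_lit 158) (nat_lit 175) (nat_lit 177)) (PT.nd (nat_lit 78) (PT.lf (nat_lit 8892) (nat_lit 6) (nat_lit 117) (nat_lit 5) (nat_lit 159) (nat_lit 175) (nat_lit 176)) (PT.lf (nat_lit 9728) (nat_lit 3) (nat_lit 128) (nat_lit 4) (nat_lit 160) (nat_lit 175) (nat_lit 175)))) (PT.nd (nat_lit 156) (PT.nd (nat_lit 78) (PT.lf (nat_lit 10412) (nat_lit 6) (nat_lit 137) (nat_lit 4) (nat_lit 161) (nat_lit 175) (nat_lit 174)) (PT.lf (nat_lit 11020) (nat_lit 6) (nat_lit 145) (nat_lit 4) (nat_lit 162) (nat_lit 175) (nat_lit 173))) (PT.nd (nat_lit 78)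 (PT.lf (nat_lit 11552) (nat_lit 6) (nat_lit 152) (nat_lit 4) (nat_lit 163) (nat_lit 175) (nat_lit 172)) (PT.lf (nat_lit 12008) (nat_lit 6) (nat_lit 158) (nat_lit 4) (nat_lit 164) (nat_lit 175) (nat_lit 171))))) (PT.nd (nat_lit 312) (PT.nd (nat_lit 156) (PT.nd (nat_lit 78) (PT.lf (nat_lit 12388) (nat_lit 6) (nat_lit 163) (nat_lit 4) (nat_lit 165) (nat_lit 175) (nat_lit 170)) (PT.lf (nat_lit 12312) (nat_lit 6) (nat_lit 162) (nat_lit 4) (nat_lit 166) (nat_lit 175) (nat_lit 169))) (PT.nd (nat_lit 78) (PT.lf (nat_lit 12236) (nat_lit 6) (nat_lit 161) (nat_lit 4) (nat_lit 167) (nat_lit 175) (nat_lit 168)) (PT.lf (nat_lit 12236) (nat_lit 6) (nat_lit 161) (nat_lit 2) (nat_lit 168) (nat_lit 175) (nat_lit 167)))) (PT.nd (nat_lit 156) (PT.nd (nat_lit 78) (PT.lf (nat_lit 12312) (nat_lit 6) (nat_lit 162) (nat_lit 2) (nat_lit 169) (nat_lit 175) (nat_lit 166)) (PT.lf (nat_lit 12388) (nat_lit 6) (nat_lit 163)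 (nat_lit 2) (nat_lit 170) (nat_lit 175) (nat_lit 165))) (PT.nd (nat_lit 78) (PT.lf (nat_lit 12008) (nat_lit 6) (nat_lit 158) (nat_lit 2) (nat_lit 171) (nat_lit 175) (nat_lit 164)) (PT.lf (nat_lit 11552) (nat_lit 6) (nat_lit 152) (nat_lit 2) (nat_lit 172) (nat_lit 175) (nat_lit 163))))))) (PT.nd (nat_lit 51870) (PT.nd (nat_lit 546) (PT.nd (nat_lit 234) (PT.nd (nat_lit 78) (PT.lf (nat_lit 11020) (nat_lit 6) (nat_lit 145) (nat_lit 2) (nat_lit 173) (nat_lit 175) (nat_lit 162)) (PT.nd (nat_lit 78) (PT.lf (nat_lit 10412) (nat_lit 6) (nat_lit 137) (nat_lit 2) (nat_lit 174) (nat_lit 175) (nat_lit 161)) (PT.lf (nat_lit 9728) (nat_lit 3) (nat_lit 128) (nat_lit 0) (nat_lit 175) (nat_lit 175) (nat_lit 160)))) (PT.nd (nat_lit 156) (PT.nd (nat_lit 78) (PT.lf (nat_lit 8892) (nat_lit 6) (nat_lit 117) (nat_lit 0) (nat_lit 176) (nat_lit 175) (nat_lit 159)) (PT.lf (nat_lit 8436) (nat_lit 6) (nat_lit 111) (nat_lit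 0) (nat_lit 177) (nat_lit 175) (nat_lit 158))) (PT.nd (nat_lit 78) (PT.lf (nat_lit 7980) (nat_lit 6) (nat_lit 105) (nat_lit 0) (nat_lit 178) (nat_lit 175) (nat_lit 157)) (PT.lf (nat_lit 7524) (nat_lit 6) (nat_lit 99) (nat_lit 0) (nat_lit 179) (nat_lit 175) (nat_lit 156))))) (PT.nd (nat_lit 51012) (PT.nd (nat_lit 156) (PT.nd (nat_lit 78) (PT.lf (nat_lit 7144) (nat_lit 6) (nat_lit 94) (nat_lit 0) (nat_lit 180) (nat_lit 175) (nat_lit 155)) (PT.lf (nat_lit 6764) (nat_lit 6) (nat_lit 89) (nat_lit 0) (nat_lit 181) (nat_lit 175) (nat_lit 154))) (PT.nd (nat_lit 50778) (PT.lf (nat_lit 6460) (nat_lit 6) (nat_lit 85) (nat_lit 0) (nat_lit 182) (nat_lit 175) (nat_lit 153)) (PT.lf (nat_lit 6156) (nat_lit 6) (nat_lit 81) (nat_lit 5) (nat_lit 152) (nat_lit 176) (nat_lit 182)))) (PT.nd (nat_lit 156) (PT.nd (nat_lit 78) (PT.lf (nat_lit 6536) (nat_lit 6) (nat_lit 86) (nat_lit 5) (nat_lit 153) (nat_lit 176) (nat_lit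 181)) (PT.lf (nat_lit 6840) (nat_lit 6) (nat_lit 90) (nat_lit 5) (nat_lit 154) (nat_lit 176) (nat_lit 180))) (PT.nd (nat_lit 78) (PT.lf (nat_lit 7220) (nat_lit 6) (nat_lit 95) (nat_lit 5) (nat_lit 155) (nat_lit 176) (nat_lit 179)) (PT.lf (nat_lit 7600) (nat_lit 6) (nat_lit 100) (nat_lit 5) (nat_lit 156) (nat_lit 176) (nat_lit 178)))))) (PT.nd (nat_lit 546) (PT.nd (nat_lit 234) (PT.nd (nat_lit 78) (PT.lf (nat_lit 8056) (nat_lit 6) (nat_lit 106) (nat_lit 5) (nat_lit 157) (nat_lit 176) (nat_lit 177)) (PT.nd (nat_lit 78) (PT.lf (nat_lit 8512) (nat_lit 3) (nat_lit 112) (nat_lit 4) (nat_lit 158) (nat_lit 176) (nat_lit 176)) (PT.lf (nat_lit 8892) (nat_lit 6) (nat_lit 117) (nat_lit 4) (nat_lit 159) (nat_lit 176) (nat_lit 175)))) (PT.nd (nat_lit 156) (PT.nd (nat_lit 78) (PT.lf (nat_lit 9652) (nat_lit 6) (nat_lit 127) (nat_lit 4) (nat_lit 160) (nat_lit 176) (nat_lit 174)) (PT.lf (nat_lit 10336) (nat_lit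 6) (nat_lit 136) (nat_lit 4) (nat_lit 161) (nat_lit 176) (nat_lit 173))) (PT.nd (nat_lit 78) (PT.lf (nat_lit 10944) (nat_lit 6) (nat_lit 144) (nat_lit 4) (nat_lit 162) (nat_lit 176) (nat_lit 172)) (PT.lf (nat_lit 11476) (nat_lit 6) (nat_lit 151) (nat_lit 4) (nat_lit 163) (nat_lit 176) (nat_lit 171))))) (PT.nd (nat_lit 312) (PT.nd (nat_lit 156) (PT.nd (nat_lit 78) (PT.lf (nat_lit 11932) (nat_lit 6) (nat_lit 157) (nat_lit 4) (nat_lit 164) (nat_lit 176) (nat_lit 170)) (PT.lf (nat_lit 11856) (nat_lit 6) (nat_lit 156) (nat_lit 4) (nat_lit 165) (nat_lit 176) (nat_lit 169))) (PT.nd (nat_lit 78) (PT.lf (nat_lit 11780) (nat_lit 6) (nat_lit 155) (nat_lit 4) (nat_lit 166) (nat_lit 176) (nat_lit 168)) (PT.lf (nat_lit 11704) (nat_lit 3) (nat_lit 154) (nat_lit 2) (nat_lit 167) (nat_lit 176) (nat_lit 167)))) (PT.nd (nat_lit 156) (PT.nd (nat_lit 78) (PT.lf (nat_lit 11780) (nat_lit 6) (nat_lit 155) (nat_lit 2)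 (nat_lit 168) (nat_lit 176) (nat_lit 166)) (PT.lf (nat_lit 11856) (nat_lit 6) (nat_lit 156) (nat_lit 2) (nat_lit 169) (nat_lit 176) (nat_lit 165))) (PT.nd (nat_lit 78) (PT.lf (nat_lit 11932) (nat_lit 6) (nat_lit 157) (nat_lit 2) (nat_lit 170) (nat_lit 176) (nat_lit 164)) (PT.lf (nat_lit 11476) (nat_lit 6) (nat_lit 151) (nat_lit 2) (nat_lit 171) (nat_lit 176) (nat_lit 163))))))))
noncomputable def pc9 : PT := (PT.nd (nat_lit 52884) (PT.nd (nat_lit 51714) (PT.nd (nat_lit 546) (PT.nd (nat_lit 234) (PT.nd (nat_lit 78) (PT.lf (nat_lit 10944) (nat_lit 6) (nat_lit 144) (nat_lit 2) (nat_lit 172) (nat_lit 176) (nat_lit 162)) (PT.nd (nat_lit 78) (PT.lf (nat_lit 10336) (nat_lit 6) (nat_lit 136) (nat_lit 2) (nat_lit 173) (nat_lit 176) (nat_lit 161)) (PT.lf (nat_lit 9652) (nat_lit 6) (nat_lit 127) (nat_lit 2) (nat_lit 174) (nat_lit 176) (nat_lit 160)))) (PT.nd (nat_lit 156) (PT.nd (nat_lit 78) (PT.lf (nat_lit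 8892) (nat_lit 6) (nat_lit 117) (nat_lit 2) (nat_lit 175) (nat_lit 176) (nat_lit 159)) (PT.lf (nat_lit 8512) (nat_lit 3) (nat_lit 112) (nat_lit 0) (nat_lit 176) (nat_lit 176) (nat_lit 158))) (PT.nd (nat_lit 78) (PT.lf (nat_lit 8056) (nat_lit 6) (nat_lit 106) (nat_lit 0) (nat_lit 177) (nat_lit 176) (nat_lit 157)) (PT.lf (nat_lit 7600) (nat_lit 6) (nat_lit 100) (nat_lit 0) (nat_lit 178) (nat_lit 176) (nat_lit 156))))) (PT.nd (nat_lit 50856) (PT.nd (nat_lit 156) (PT.nd (nat_lit 78) (PT.lf (nat_lit 7220) (nat_lit 6) (nat_lit 95) (nat_lit 0) (nat_lit 179) (nat_lit 176) (nat_lit 155)) (PT.lf (nat_lit 6840) (nat_lit 6) (nat_lit 90) (nat_lit 0) (nat_lit 180) (nat_lit 176) (nat_lit 154))) (PT.nd (nat_lit 78) (PT.lf (nat_lit 6536) (nat_lit 6) (nat_lit 86) (nat_lit 0) (nat_lit 181) (nat_lit 176) (nat_lit 153)) (PT.lf (nat_lit 6156) (nat_lit 6) (nat_lit 81) (nat_lit 0) (nat_lit 182) (nat_lit 176) (nat_lit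 152)))) (PT.nd (nat_lit 156) (PT.nd (nat_lit 78) (PT.lf (nat_lit 5624) (nat_lit 6) (nat_lit 74) (nat_lit 5) (nat_lit 150) (nat_lit 177) (nat_lit 183)) (PT.lf (nat_lit 5928) (nat_lit 6) (nat_lit 78) (nat_lit 5) (nat_lit 151) (nat_lit 177) (nat_lit 182))) (PT.nd (nat_lit 78) (PT.lf (nat_lit 6232) (nat_lit 6) (nat_lit 82) (nat_lit 5) (nat_lit 152) (nat_lit 177) (nat_lit 181)) (PT.lf (nat_lit 6612) (nat_lit 6) (nat_lit 87) (nat_lit 5) (nat_lit 153) (nat_lit 177) (nat_lit 180)))))) (PT.nd (nat_lit 546) (PT.nd (nat_lit 234) (PT.nd (nat_lit 78) (PT.lf (nat_lit 6916) (nat_lit 6) (nat_lit 91) (nat_lit 5) (nat_lit 154) (nat_lit 177) (nat_lit 179)) (PT.nd (nat_lit 78) (PT.lf (nat_lit 7296) (nat_lit 6) (nat_lit 96) (nat_lit 5) (nat_lit 155) (nat_lit 177) (nat_lit 178)) (PT.lf (nat_lit 7676) (nat_lit 3) (nat_lit 101) (nat_lit 4) (nat_lit 156) (nat_lit 177) (nat_lit 177)))) (PT.nd (nat_lit 156) (PT.nd (nat_lit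 78) (PT.lf (nat_lit 8056) (nat_lit 6) (nat_lit 106) (nat_lit 4) (nat_lit 157) (nat_lit 177) (nat_lit 176)) (PT.lf (nat_lit 8436) (nat_lit 6) (nat_lit 111) (nat_lit 4) (nat_lit 158) (nat_lit 177) (nat_lit 175))) (PT.nd (nat_lit 78) (PT.lf (nat_lit 8816) (nat_lit 6) (nat_lit 116) (nat_lit 4) (nat_lit 159) (nat_lit 177) (nat_lit 174)) (PT.lf (nat_lit 9576) (nat_lit 6) (nat_lit 126) (nat_lit 4) (nat_lit 160) (nat_lit 177) (nat_lit 173))))) (PT.nd (nat_lit 312) (PT.nd (nat_lit 156) (PT.nd (nat_lit 78) (PT.lf (nat_lit 10260) (nat_lit 6) (nat_lit 135) (nat_lit 4) (nat_lit 161) (nat_lit 177) (nat_lit 172)) (PT.lf (nat_lit 10868) (nat_lit 6) (nat_lit 143) (nat_lit 4) (nat_lit 162) (nat_lit 177) (nat_lit 171))) (PT.nd (nat_lit 78) (PT.lf (nat_lit 11400) (nat_lit 6) (nat_lit 150) (nat_lit 4) (nat_lit 163) (nat_lit 177) (nat_lit 170)) (PT.lf (nat_lit 11324) (nat_lit 6) (nat_lit 149) (nat_lit 4) (nat_lit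 164) (nat_lit 177) (nat_lit 169)))) (PT.nd (nat_lit 156) (PT.nd (nat_lit 78) (PT.lf (nat_lit 11248) (nat_lit 6) (nat_lit 148) (nat_lit 4) (nat_lit 165) (nat_lit 177) (nat_lit 168)) (PT.lf (nat_lit 11172) (nat_lit 6) (nat_lit 147) (nat_lit 4) (nat_lit 166) (nat_lit 177) (nat_lit 167))) (PT.nd (nat_lit 78) (PT.lf (nat_lit 11172) (nat_lit 6) (nat_lit 147) (nat_lit 2) (nat_lit 167) (nat_lit 177) (nat_lit 166)) (PT.lf (nat_lit 11248) (nat_lit 6) (nat_lit 148) (nat_lit 2) (nat_lit 168) (nat_lit 177) (nat_lit 165))))))) (PT.nd (nat_lit 51558) (PT.nd (nat_lit 546) (PT.nd (nat_lit 234) (PT.nd (nat_lit 78) (PT.lf (nat_lit 11324) (nat_lit 6) (nat_lit 149) (nat_lit 2) (nat_lit 169) (nat_lit 177) (nat_lit 164)) (PT.nd (nat_lit 78) (PT.lf (nat_lit 11400) (nat_lit 6) (nat_lit 150) (nat_lit 2) (nat_lit 170) (nat_lit 177) (nat_lit 163)) (PT.lf (nat_lit 10868) (nat_lit 6) (nat_lit 143) (nat_lit 2) (nat_lit 171)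 (nat_lit 177) (nat_lit 162)))) (PT.nd (nat_lit 156) (PT.nd (nat_lit 78) (PT.lf (nat_lit 10260) (nat_lit 6) (nat_lit 135) (nat_lit 2) (nat_lit 172) (nat_lit 177) (nat_lit 161)) (PT.lf (nat_lit 9576) (nat_lit 6) (nat_lit 126) (nat_lit 2) (nat_lit 173) (nat_lit 177) (nat_lit 160))) (PT.nd (nat_lit 78) (PT.lf (nat_lit 8816) (nat_lit 6) (nat_lit 116) (nat_lit 2) (nat_lit 174) (nat_lit 177) (nat_lit 159)) (PT.lf (nat_lit 8436) (nat_lit 6) (nat_lit 111) (nat_lit 2) (nat_lit 175) (nat_lit 177) (nat_lit 158))))) (PT.nd (nat_lit 312) (PT.nd (nat_lit 156) (PT.nd (nat_lit 78) (PT.lf (nat_lit 8056) (nat_lit 6) (nat_lit 106) (nat_lit 2) (nat_lit 176) (nat_lit 177) (nat_lit 157)) (PT.lf (nat_lit 7676) (nat_lit 3) (nat_lit 101) (nat_lit 0) (nat_lit 177) (nat_lit 177) (nat_lit 156))) (PT.nd (nat_lit 78) (PT.lf (nat_lit 7296) (nat_lit 6) (nat_lit 96) (nat_lit 0) (nat_lit 178) (nat_lit 177) (nat_lit 155)) (PT.lf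 (nat_lit 6916) (nat_lit 6) (nat_lit 91) (nat_lit 0) (nat_lit 179) (nat_lit 177) (nat_lit 154)))) (PT.nd (nat_lit 156) (PT.nd (nat_lit 78) (PT.lf (nat_lit 6612) (nat_lit 6) (nat_lit 87) (nat_lit 0) (nat_lit 180) (nat_lit 177) (nat_lit 153)) (PT.lf (nat_lit 6232) (nat_lit 6) (nat_lit 82) (nat_lit 0) (nat_lit 181) (nat_lit 177) (nat_lit 152))) (PT.nd (nat_lit 78) (PT.lf (nat_lit 5928) (nat_lit 6) (nat_lit 78) (nat_lit 0) (nat_lit 182) (nat_lit 177) (nat_lit 151)) (PT.lf (nat_lit 5624) (nat_lit 6) (nat_lit 74) (nat_lit 0) (nat_lit 183) (nat_lit 177) (nat_lit 150)))))) (PT.nd (nat_lit 546) (PT.nd (nat_lit 234) (PT.nd (nat_lit 78) (PT.lf (nat_lit 5396) (nat_lit 6) (nat_lit 71) (nat_lit 5) (nat_lit 149) (nat_lit 178) (nat_lit 183)) (PT.nd (nat_lit 78) (PT.lf (nat_lit 5700) (nat_lit 6) (nat_lit 75) (nat_lit 5) (nat_lit 150) (nat_lit 178) (nat_lit 182)) (PT.lf (nat_lit 6004) (nat_lit 6) (nat_lit 79) (nat_lit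 5) (nat_lit 151) (nat_lit 178) (nat_lit 181)))) (PT.nd (nat_lit 156) (PT.nd (nat_lit 78) (PT.lf (nat_lit 6308) (nat_lit 6) (nat_lit 83) (nat_lit 5) (nat_lit 152) (nat_lit 178) (nat_lit 180)) (PT.lf (nat_lit 6688) (nat_lit 6) (nat_lit 88) (nat_lit 5) (nat_lit 153) (nat_lit 178) (nat_lit 179))) (PT.nd (nat_lit 78) (PT.lf (nat_lit 6992) (nat_lit 3) (nat_lit 92) (nat_lit 4) (nat_lit 154) (nat_lit 178) (nat_lit 178)) (PT.lf (nat_lit 7296) (nat_lit 6) (nat_lit 96) (nat_lit 4) (nat_lit 155) (nat_lit 178) (nat_lit 177))))) (PT.nd (nat_lit 312) (PT.nd (nat_lit 156) (PT.nd (nat_lit 78) (PT.lf (nat_lit 7600) (nat_lit 6) (nat_lit 100) (nat_lit 4) (nat_lit 156) (nat_lit 178) (nat_lit 176)) (PT.lf (nat_lit 7980) (nat_lit 6) (nat_lit 105) (nat_lit 4) (nat_lit 157) (nat_lit 178) (nat_lit 175))) (PT.nd (nat_lit 78) (PT.lf (nat_lit 8360) (nat_lit 6) (nat_lit 110) (nat_lit 4) (nat_lit 158) (nat_lit 178) (nat_lit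 174)) (PT.lf (nat_lit 8740) (nat_lit 6) (nat_lit 115) (nat_lit 4) (nat_lit 159) (nat_lit 178) (nat_lit 173)))) (PT.nd (nat_lit 156) (PT.nd (nat_lit 78) (PT.lf (nat_lit 9500) (nat_lit 6) (nat_lit 125) (nat_lit 4) (nat_lit 160) (nat_lit 178) (nat_lit 172)) (PT.lf (nat_lit 10184) (nat_lit 6) (nat_lit 134) (nat_lit 4) (nat_lit 161) (nat_lit 178) (nat_lit 171))) (PT.nd (nat_lit 78) (PT.lf (nat_lit 10792) (nat_lit 6) (nat_lit 142) (nat_lit 4) (nat_lit 162) (nat_lit 178) (nat_lit 170)) (PT.lf (nat_lit 10716) (nat_lit 6) (nat_lit 141) (nat_lit 4) (nat_lit 163) (nat_lit 178) (nat_lit 169))))))))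
noncomputable def pc10 : PT := (PT.nd (nat_lit 52572) (PT.nd (nat_lit 1170) (PT.nd (nat_lit 546) (PT.nd (nat_lit 234) (PT.nd (nat_lit 78) (PT.lf (nat_lit 10640) (nat_lit 6) (nat_lit 140) (nat_lit 4) (nat_lit 164) (nat_lit 178) (nat_lit 168)) (PT.nd (nat_lit 78) (PT.lf (nat_lit 10564) (nat_lit 6) (nat_lit 139) (nat_lit 4) (nat_lit 165) (nat_lit 178) (nat_lit 167)) (PT.lf (nat_lit 10488) (nat_lit 3) (nat_lit 138) (nat_lit 2) (nat_lit 166) (nat_lit 178) (nat_lit 166)))) (PT.nd (nat_lit 156) (PT.nd (nat_lit 78) (PT.lf (nat_lit 10564) (nat_lit 6) (nat_lit 139) (nat_lit 2) (nat_lit 167) (nat_lit 178) (nat_lit 165)) (PT.lf (nat_lit 10640) (nat_lit 6) (nat_lit 140) (nat_lit 2) (nat_lit 168) (nat_lit 178) (nat_lit 164))) (PT.nd (nat_lit 78) (PT.lf (nat_lit 10716) (nat_lit 6) (nat_lit 141) (nat_lit 2) (nat_lit 169) (nat_lit 178) (nat_lit 163)) (PT.lf (nat_lit 10792) (nat_lit 6) (nat_lit 142) (nat_lit 2)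 (nat_lit 170) (nat_lit 178) (nat_lit 162))))) (PT.nd (nat_lit 312) (PT.nd (nat_lit 156) (PT.nd (nat_lit 78) (PT.lf (nat_lit 10184) (nat_lit 6) (nat_lit 134) (nat_lit 2) (nat_lit 171) (nat_lit 178) (nat_lit 161)) (PT.lf (nat_lit 9500) (nat_lit 6) (nat_lit 125) (nat_lit 2) (nat_lit 172) (nat_lit 178) (nat_lit 160))) (PT.nd (nat_lit 78) (PT.lf (nat_lit 8740) (nat_lit 6) (nat_lit 115) (nat_lit 2) (nat_lit 173) (nat_lit 178) (nat_lit 159)) (PT.lf (nat_lit 8360) (nat_lit 6) (nat_lit 110) (nat_lit 2) (nat_lit 174) (nat_lit 178) (nat_lit 158)))) (PT.nd (nat_lit 156) (PT.nd (nat_lit 78) (PT.lf (nat_lit 7980) (nat_lit 6) (nat_lit 105) (nat_lit 2) (nat_lit 175) (nat_lit 178) (nat_lit 157)) (PT.lf (nat_lit 7600) (nat_lit 6) (nat_lit 100) (nat_lit 2) (nat_lit 176) (nat_lit 178) (nat_lit 156))) (PT.nd (nat_lit 78) (PT.lf (nat_lit 7296) (nat_lit 6) (nat_lit 96) (nat_lit 2) (nat_lit 177) (nat_lit 178) (nat_lit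 155)) (PT.lf (nat_lit 6992) (nat_lit 3) (nat_lit 92) (nat_lit 0) (nat_lit 178) (nat_lit 178) (nat_lit 154)))))) (PT.nd (nat_lit 50778) (PT.nd (nat_lit 234) (PT.nd (nat_lit 78) (PT.lf (nat_lit 6688) (nat_lit 6) (nat_lit 88) (nat_lit 0) (nat_lit 179) (nat_lit 178) (nat_lit 153)) (PT.nd (nat_lit 78) (PT.lf (nat_lit 6308) (nat_lit 6) (nat_lit 83) (nat_lit 0) (nat_lit 180) (nat_lit 178) (nat_lit 152)) (PT.lf (nat_lit 6004) (nat_lit 6) (nat_lit 79) (nat_lit 0) (nat_lit 181) (nat_lit 178) (nat_lit 151)))) (PT.nd (nat_lit 50388) (PT.nd (nat_lit 78) (PT.lf (nat_lit 5700) (nat_lit 6) (nat_lit 75) (nat_lit 0) (nat_lit 182) (nat_lit 178) (nat_lit 150)) (PT.lf (nat_lit 5396) (nat_lit 6) (nat_lit 71) (nat_lit 0) (nat_lit 183) (nat_lit 178) (nat_lit 149))) (PT.nd (nat_lit 78) (PT.lf (nat_lit 4940) (nat_lit 6) (nat_lit 65) (nat_lit 5) (nat_lit 147) (nat_lit 179) (nat_lit 184)) (PT.lf (nat_lit 5168) (nat_lit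 6) (nat_lit 68) (nat_lit 5) (nat_lit 148) (nat_lit 179) (nat_lit 183))))) (PT.nd (nat_lit 312) (PT.nd (nat_lit 156) (PT.nd (nat_lit 78) (PT.lf (nat_lit 5472) (nat_lit 6) (nat_lit 72) (nat_lit 5) (nat_lit 149) (nat_lit 179) (nat_lit 182)) (PT.lf (nat_lit 5776) (nat_lit 6) (nat_lit 76) (nat_lit 5) (nat_lit 150) (nat_lit 179) (nat_lit 181))) (PT.nd (nat_lit 78) (PT.lf (nat_lit 6080) (nat_lit 6) (nat_lit 80) (nat_lit 5) (nat_lit 151) (nat_lit 179) (nat_lit 180)) (PT.lf (nat_lit 6384) (nat_lit 3) (nat_lit 84) (nat_lit 4) (nat_lit 152) (nat_lit 179) (nat_lit 179)))) (PT.nd (nat_lit 156) (PT.nd (nat_lit 78) (PT.lf (nat_lit 6688) (nat_lit 6) (nat_lit 88) (nat_lit 4) (nat_lit 153) (nat_lit 179) (nat_lit 178)) (PT.lf (nat_lit 6916) (nat_lit 6) (nat_lit 91) (nat_lit 4) (nat_lit 154) (nat_lit 179) (nat_lit 177))) (PT.nd (nat_lit 78) (PT.lf (nat_lit 7220) (nat_lit 6) (nat_lit 95) (nat_lit 4) (nat_lit 155)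 (nat_lit 179) (nat_lit 176)) (PT.lf (nat_lit 7524) (nat_lit 6) (nat_lit 99) (nat_lit 4) (nat_lit 156) (nat_lit 179) (nat_lit 175))))))) (PT.nd (nat_lit 1170) (PT.nd (nat_lit 546) (PT.nd (nat_lit 234) (PT.nd (nat_lit 78) (PT.lf (nat_lit 7904) (nat_lit 6) (nat_lit 104) (nat_lit 4) (nat_lit 157) (nat_lit 179) (nat_lit 174)) (PT.nd (nat_lit 78) (PT.lf (nat_lit 8284) (nat_lit 6) (nat_lit 109) (nat_lit 4) (nat_lit 158) (nat_lit 179) (nat_lit 173)) (PT.lf (nat_lit 8664) (nat_lit 6) (nat_lit 114) (nat_lit 4) (nat_lit 159) (nat_lit 179) (nat_lit 172)))) (PT.nd (nat_lit 156) (PT.nd (nat_lit 78) (PT.lf (nat_lit 9424) (nat_lit 6) (nat_lit 124) (nat_lit 4) (nat_lit 160) (nat_lit 179) (nat_lit 171)) (PT.lf (nat_lit 10108) (nat_lit 6) (nat_lit 133) (nat_lit 4) (nat_lit 161) (nat_lit 179) (nat_lit 170))) (PT.nd (nat_lit 78) (PT.lf (nat_lit 10032) (nat_lit 6) (nat_lit 132) (nat_lit 4) (nat_lit 162) (nat_lit 179)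 (nat_lit 169)) (PT.lf (nat_lit 9956) (nat_lit 6) (nat_lit 131) (nat_lit 4) (nat_lit 163) (nat_lit 179) (nat_lit 168))))) (PT.nd (nat_lit 312) (PT.nd (nat_lit 156) (PT.nd (nat_lit 78) (PT.lf (nat_lit 9880) (nat_lit 6) (nat_lit 130) (nat_lit 4) (nat_lit 164) (nat_lit 179) (nat_lit 167)) (PT.lf (nat_lit 9804) (nat_lit 6) (nat_lit 129) (nat_lit 4) (nat_lit 165) (nat_lit 179) (nat_lit 166))) (PT.nd (nat_lit 78) (PT.lf (nat_lit 9804) (nat_lit 6) (nat_lit 129) (nat_lit 2) (nat_lit 166) (nat_lit 179) (nat_lit 165)) (PT.lf (nat_lit 9880) (nat_lit 6) (nat_lit 130) (nat_lit 2) (nat_lit 167) (nat_lit 179) (nat_lit 164)))) (PT.nd (nat_lit 156) (PT.nd (nat_lit 78) (PT.lf (nat_lit 9956) (nat_lit 6) (nat_lit 131) (nat_lit 2) (nat_lit 168) (nat_lit 179) (nat_lit 163)) (PT.lf (nat_lit 10032) (nat_lit 6) (nat_lit 132) (nat_lit 2) (nat_lit 169) (nat_lit 179) (nat_lit 162))) (PT.nd (nat_lit 78) (PT.lf (nat_lit 10108)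 (nat_lit 6) (nat_lit 133) (nat_lit 2) (nat_lit 170) (nat_lit 179) (nat_lit 161)) (PT.lf (nat_lit 9424) (nat_lit 6) (nat_lit 124) (nat_lit 2) (nat_lit 171) (nat_lit 179) (nat_lit 160)))))) (PT.nd (nat_lit 546) (PT.nd (nat_lit 234) (PT.nd (nat_lit 78) (PT.lf (nat_lit 8664) (nat_lit 6) (nat_lit 114) (nat_lit 2) (nat_lit 172) (nat_lit 179) (nat_lit 159)) (PT.nd (nat_lit 78) (PT.lf (nat_lit 8284) (nat_lit 6) (nat_lit 109) (nat_lit 2) (nat_lit 173) (nat_lit 179) (nat_lit 158)) (PT.lf (nat_lit 7904) (nat_lit 6) (nat_lit 104) (nat_lit 2) (nat_lit 174) (nat_lit 179) (nat_lit 157)))) (PT.nd (nat_lit 156) (PT.nd (nat_lit 78) (PT.lf (nat_lit 7524) (nat_lit 6) (nat_lit 99) (nat_lit 2) (nat_lit 175) (nat_lit 179) (nat_lit 156)) (PT.lf (nat_lit 7220) (nat_lit 6) (nat_lit 95) (nat_lit 2) (nat_lit 176) (nat_lit 179) (nat_lit 155))) (PT.nd (nat_lit 78) (PT.lf (nat_lit 6916) (nat_lit 6) (nat_lit 91) (nat_lit 2)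 (nat_lit 177) (nat_lit 179) (nat_lit 154)) (PT.lf (nat_lit 6688) (nat_lit 6) (nat_lit 88) (nat_lit 2) (nat_lit 178) (nat_lit 179) (nat_lit 153))))) (PT.nd (nat_lit 312) (PT.nd (nat_lit 156) (PT.nd (nat_lit 78) (PT.lf (nat_lit 6384) (nat_lit 3) (nat_lit 84) (nat_lit 0) (nat_lit 179) (nat_lit 179) (nat_lit 152)) (PT.lf (nat_lit 6080) (nat_lit 6) (nat_lit 80) (nat_lit 0) (nat_lit 180) (nat_lit 179) (nat_lit 151))) (PT.nd (nat_lit 78) (PT.lf (nat_lit 5776) (nat_lit 6) (nat_lit 76) (nat_lit 0) (nat_lit 181) (nat_lit 179) (nat_lit 150)) (PT.lf (nat_lit 5472) (nat_lit 6) (nat_lit 72) (nat_lit 0) (nat_lit 182) (nat_lit 179) (nat_lit 149)))) (PT.nd (nat_lit 50232) (PT.nd (nat_lit 78) (PT.lf (nat_lit 5168) (nat_lit 6) (nat_lit 68) (nat_lit 0) (nat_lit 183) (nat_lit 179) (nat_lit 148)) (PT.lf (nat_lit 4940) (nat_lit 6) (nat_lit 65) (nat_lit 0) (nat_lit 184) (nat_lit 179) (nat_lit 147))) (PT.nd (nat_lit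 78) (PT.lf (nat_lit 4712) (nat_lit 6) (nat_lit 62) (nat_lit 5) (nat_lit 146) (nat_lit 180) (nat_lit 184)) (PT.lf (nat_lit 5016) (nat_lit 6) (nat_lit 66) (nat_lit 5) (nat_lit 147) (nat_lit 180) (nat_lit 183))))))))
noncomputable def pc11 : PT := (PT.nd (nat_lit 2340) (PT.nd (nat_lit 1170) (PT.nd (nat_lit 546) (PT.nd (nat_lit 234) (PT.nd (nat_lit 78) (PT.lf (nat_lit 5244) (nat_lit 6) (nat_lit 69) (nat_lit 5) (nat_lit 148) (nat_lit 180) (nat_lit 182)) (PT.nd (nat_lit 78) (PT.lf (nat_lit 5548) (nat_lit 6) (nat_lit 73) (nat_lit 5) (nat_lit 149) (nat_lit 180) (nat_lit 181)) (PT.lf (nat_lit 5852) (nat_lit 3) (nat_lit 77) (nat_lit 4) (nat_lit 150) (nat_lit 180) (nat_lit 180)))) (PT.nd (nat_lit 156) (PT.nd (nat_lit 78) (PT.lf (nat_lit 6080) (nat_lit 6) (nat_lit 80) (nat_lit 4) (nat_lit 151) (nat_lit 180) (nat_lit 179)) (PT.lf (nat_lit 6308) (nat_lit 6) (nat_lit 83) (nat_lit 4) (nat_lit 152) (nat_lit 180)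 (nat_lit 178))) (PT.nd (nat_lit 78) (PT.lf (nat_lit 6612) (nat_lit 6) (nat_lit 87) (nat_lit 4) (nat_lit 153) (nat_lit 180) (nat_lit 177)) (PT.lf (nat_lit 6840) (nat_lit 6) (nat_lit 90) (nat_lit 4) (nat_lit 154) (nat_lit 180) (nat_lit 176))))) (PT.nd (nat_lit 312) (PT.nd (nat_lit 156) (PT.nd (nat_lit 78) (PT.lf (nat_lit 7144) (nat_lit 6) (nat_lit 94) (nat_lit 4) (nat_lit 155) (nat_lit 180) (nat_lit 175)) (PT.lf (nat_lit 7448) (nat_lit 6) (nat_lit 98) (nat_lit 4) (nat_lit 156) (nat_lit 180) (nat_lit 174))) (PT.nd (nat_lit 78) (PT.lf (nat_lit 7828) (nat_lit 6) (nat_lit 103) (nat_lit 4) (nat_lit 157) (nat_lit 180) (nat_lit 173)) (PT.lf (nat_lit 8208) (nat_lit 6) (nat_lit 108) (nat_lit 4) (nat_lit 158) (nat_lit 180) (nat_lit 172)))) (PT.nd (nat_lit 156) (PT.nd (nat_lit 78) (PT.lf (nat_lit 8588) (nat_lit 6) (nat_lit 113) (nat_lit 4) (nat_lit 159) (nat_lit 180) (nat_lit 171)) (PT.lf (nat_lit 9348) (nat_lit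 6) (nat_lit 123) (nat_lit 4) (nat_lit 160) (nat_lit 180) (nat_lit 170))) (PT.nd (nat_lit 78) (PT.lf (nat_lit 9272) (nat_lit 6) (nat_lit 122) (nat_lit 4) (nat_lit 161) (nat_lit 180) (nat_lit 169)) (PT.lf (nat_lit 9196) (nat_lit 6) (nat_lit 121) (nat_lit 4) (nat_lit 162) (nat_lit 180) (nat_lit 168)))))) (PT.nd (nat_lit 546) (PT.nd (nat_lit 234) (PT.nd (nat_lit 78) (PT.lf (nat_lit 9120) (nat_lit 6) (nat_lit 120) (nat_lit 4) (nat_lit 163) (nat_lit 180) (nat_lit 167)) (PT.nd (nat_lit 78) (PT.lf (nat_lit 9044) (nat_lit 6) (nat_lit 119) (nat_lit 4) (nat_lit 164) (nat_lit 180) (nat_lit 166)) (PT.lf (nat_lit 8968) (nat_lit 3) (nat_lit 118) (nat_lit 2) (nat_lit 165) (nat_lit 180) (nat_lit 165)))) (PT.nd (nat_lit 156) (PT.nd (nat_lit 78) (PT.lf (nat_lit 9044) (nat_lit 6) (nat_lit 119) (nat_lit 2) (nat_lit 166) (nat_lit 180) (nat_lit 164)) (PT.lf (nat_lit 9120) (nat_lit 6) (nat_lit 120) (nat_lit 2) (nat_lit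 167) (nat_lit 180) (nat_lit 163))) (PT.nd (nat_lit 78) (PT.lf (nat_lit 9196) (nat_lit 6) (nat_lit 121) (nat_lit 2) (nat_lit 168) (nat_lit 180) (nat_lit 162)) (PT.lf (nat_lit 9272) (nat_lit 6) (nat_lit 122) (nat_lit 2) (nat_lit 169) (nat_lit 180) (nat_lit 161))))) (PT.nd (nat_lit 312) (PT.nd (nat_lit 156) (PT.nd (nat_lit 78) (PT.lf (nat_lit 9348) (nat_lit 6) (nat_lit 123) (nat_lit 2) (nat_lit 170) (nat_lit 180) (nat_lit 160)) (PT.lf (nat_lit 8588) (nat_lit 6) (nat_lit 113) (nat_lit 2) (nat_lit 171) (nat_lit 180) (nat_lit 159))) (PT.nd (nat_lit 78) (PT.lf (nat_lit 8208) (nat_lit 6) (nat_lit 108) (nat_lit 2) (nat_lit 172) (nat_lit 180) (nat_lit 158)) (PT.lf (nat_lit 7828) (nat_lit 6) (nat_lit 103) (nat_lit 2) (nat_lit 173) (nat_lit 180) (nat_lit 157)))) (PT.nd (nat_lit 156) (PT.nd (nat_lit 78) (PT.lf (nat_lit 7448) (nat_lit 6) (nat_lit 98) (nat_lit 2) (nat_lit 174) (nat_lit 180) (nat_lit 156)) (PT.lf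 (nat_lit 7144) (nat_lit 6) (nat_lit 94) (nat_lit 2) (nat_lit 175) (nat_lit 180) (nat_lit 155))) (PT.nd (nat_lit 78) (PT.lf (nat_lit 6840) (nat_lit 6) (nat_lit 90) (nat_lit 2) (nat_lit 176) (nat_lit 180) (nat_lit 154)) (PT.lf (nat_lit 6612) (nat_lit 6) (nat_lit 87) (nat_lit 2) (nat_lit 177) (nat_lit 180) (nat_lit 153))))))) (PT.nd (nat_lit 51090) (PT.nd (nat_lit 50466) (PT.nd (nat_lit 234) (PT.nd (nat_lit 78) (PT.lf (nat_lit 6308) (nat_lit 6) (nat_lit 83) (nat_lit 2) (nat_lit 178) (nat_lit 180) (nat_lit 152)) (PT.nd (nat_lit 78) (PT.lf (nat_lit 6080) (nat_lit 6) (nat_lit 80) (nat_lit 2) (nat_lit 179) (nat_lit 180) (nat_lit 151)) (PT.lf (nat_lit 5852) (nat_lit 3) (nat_lit 77) (nat_lit 0) (nat_lit 180) (nat_lit 180) (nat_lit 150)))) (PT.nd (nat_lit 156) (PT.nd (nat_lit 78) (PT.lf (nat_lit 5548) (nat_lit 6) (nat_lit 73) (nat_lit 0) (nat_lit 181) (nat_lit 180) (nat_lit 149)) (PT.lf (nat_lit 5244)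 (nat_lit 6) (nat_lit 69) (nat_lit 0) (nat_lit 182) (nat_lit 180) (nat_lit 148))) (PT.nd (nat_lit 78) (PT.lf (nat_lit 5016) (nat_lit 6) (nat_lit 66) (nat_lit 0) (nat_lit 183) (nat_lit 180) (nat_lit 147)) (PT.lf (nat_lit 4712) (nat_lit 6) (nat_lit 62) (nat_lit 0) (nat_lit 184) (nat_lit 180) (nat_lit 146))))) (PT.nd (nat_lit 312) (PT.nd (nat_lit 156) (PT.nd (nat_lit 78) (PT.lf (nat_lit 4332) (nat_lit 6) (nat_lit 57) (nat_lit 5) (nat_lit 144) (nat_lit 181) (nat_lit 185)) (PT.lf (nat_lit 4560) (nat_lit 6) (nat_lit 60) (nat_lit 5) (nat_lit 145) (nat_lit 181) (nat_lit 184))) (PT.nd (nat_lit 78) (PT.lf (nat_lit 4788) (nat_lit 6) (nat_lit 63) (nat_lit 5) (nat_lit 146) (nat_lit 181) (nat_lit 183)) (PT.lf (nat_lit 5092) (nat_lit 6) (nat_lit 67) (nat_lit 5) (nat_lit 147) (nat_lit 181) (nat_lit 182)))) (PT.nd (nat_lit 156) (PT.nd (nat_lit 78) (PT.lf (nat_lit 5320) (nat_lit 3) (nat_lit 70) (nat_lit 4) (nat_lit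 148) (nat_lit 181) (nat_lit 181)) (PT.lf (nat_lit 5548) (nat_lit 6) (nat_lit 73) (nat_lit 4) (nat_lit 149) (nat_lit 181) (nat_lit 180))) (PT.nd (nat_lit 78) (PT.lf (nat_lit 5776) (nat_lit 6) (nat_lit 76) (nat_lit 4) (nat_lit 150) (nat_lit 181) (nat_lit 179)) (PT.lf (nat_lit 6004) (nat_lit 6) (nat_lit 79) (nat_lit 4) (nat_lit 151) (nat_lit 181) (nat_lit 178)))))) (PT.nd (nat_lit 1482) (PT.nd (nat_lit 234) (PT.nd (nat_lit 78) (PT.lf (nat_lit 6232) (nat_lit 6) (nat_lit 82) (nat_lit 4) (nat_lit 152) (nat_lit 181) (nat_lit 177)) (PT.nd (nat_lit 78) (PT.lf (nat_lit 6536) (nat_lit 6) (nat_lit 86) (nat_lit 4) (nat_lit 153) (nat_lit 181) (nat_lit 176)) (PT.lf (nat_lit 6764) (nat_lit 6) (nat_lit 89) (nat_lit 4) (nat_lit 154) (nat_lit 181) (nat_lit 175)))) (PT.nd (nat_lit 156) (PT.nd (nat_lit 78) (PT.lf (nat_lit 7068) (nat_lit 6) (nat_lit 93) (nat_lit 4) (nat_lit 155) (nat_lit 181) (nat_lit 174)) (PT.lf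 (nat_lit 7372) (nat_lit 6) (nat_lit 97) (nat_lit 4) (nat_lit 156) (nat_lit 181) (nat_lit 173))) (PT.nd (nat_lit 78) (PT.lf (nat_lit 7752) (nat_lit 6) (nat_lit 102) (nat_lit 4) (nat_lit 157) (nat_lit 181) (nat_lit 172)) (PT.lf (nat_lit 8132) (nat_lit 6) (nat_lit 107) (nat_lit 4) (nat_lit 158) (nat_lit 181) (nat_lit 171))))) (PT.nd (nat_lit 312) (PT.nd (nat_lit 156) (PT.nd (nat_lit 78) (PT.lf (nat_lit 8132) (nat_lit 6) (nat_lit 107) (nat_lit 2) (nat_lit 171) (nat_lit 181) (nat_lit 158)) (PT.lf (nat_lit 7752) (nat_lit 6) (nat_lit 102) (nat_lit 2) (nat_lit 172) (nat_lit 181) (nat_lit 157))) (PT.nd (nat_lit 78) (PT.lf (nat_lit 7372) (nat_lit 6) (nat_lit 97) (nat_lit 2) (nat_lit 173) (nat_lit 181) (nat_lit 156)) (PT.lf (nat_lit 7068) (nat_lit 6) (nat_lit 93) (nat_lit 2) (nat_lit 174) (nat_lit 181) (nat_lit 155)))) (PT.nd (nat_lit 156) (PT.nd (nat_lit 78) (PT.lf (nat_lit 6764) (nat_lit 6) (nat_lit 89)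 (nat_lit 2) (nat_lit 175) (nat_lit 181) (nat_lit 154)) (PT.lf (nat_lit 6536) (nat_lit 6) (nat_lit 86) (nat_lit 2) (nat_lit 176) (nat_lit 181) (nat_lit 153))) (PT.nd (nat_lit 78) (PT.lf (nat_lit 6232) (nat_lit 6) (nat_lit 82) (nat_lit 2) (nat_lit 177) (nat_lit 181) (nat_lit 152)) (PT.lf (nat_lit 6004) (nat_lit 6) (nat_lit 79) (nat_lit 2) (nat_lit 178) (nat_lit 181) (nat_lit 151))))))))
noncomputable def pc12 : PT := (PT.nd (nat_lit 53586) (PT.nd (nat_lit 50778) (PT.nd (nat_lit 50232) (PT.nd (nat_lit 234) (PT.nd (nat_lit 78) (PT.lf (nat_lit 5776) (nat_lit 6) (nat_lit 76) (nat_lit 2) (nat_lit 179) (nat_lit 181) (nat_lit 150)) (PT.nd (nat_lit 78) (PT.lf (nat_lit 5548) (nat_lit 6) (nat_lit 73) (nat_lit 2) (nat_lit 180) (nat_lit 181) (nat_lit 149)) (PT.lf (nat_lit 5320) (nat_lit 3) (nat_lit 70) (nat_lit 0) (nat_lit 181) (nat_lit 181) (nat_lit 148)))) (PT.nd (nat_lit 156) (PT.nd (nat_lit 78) (PT.lf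 (nat_lit 5092) (nat_lit 6) (nat_lit 67) (nat_lit 0) (nat_lit 182) (nat_lit 181) (nat_lit 147)) (PT.lf (nat_lit 4788) (nat_lit 6) (nat_lit 63) (nat_lit 0) (nat_lit 183) (nat_lit 181) (nat_lit 146))) (PT.nd (nat_lit 78) (PT.lf (nat_lit 4560) (nat_lit 6) (nat_lit 60) (nat_lit 0) (nat_lit 184) (nat_lit 181) (nat_lit 145)) (PT.lf (nat_lit 4332) (nat_lit 6) (nat_lit 57) (nat_lit 0) (nat_lit 185) (nat_lit 181) (nat_lit 144))))) (PT.nd (nat_lit 234) (PT.nd (nat_lit 78) (PT.lf (nat_lit 3952) (nat_lit 6) (nat_lit 52) (nat_lit 5) (nat_lit 142) (nat_lit 182) (nat_lit 186)) (PT.nd (nat_lit 78) (PT.lf (nat_lit 4180) (nat_lit 6) (nat_lit 55) (nat_lit 5) (nat_lit 143) (nat_lit 182) (nat_lit 185)) (PT.lf (nat_lit 4408) (nat_lit 6) (nat_lit 58) (nat_lit 5) (nat_lit 144) (nat_lit 182) (nat_lit 184)))) (PT.nd (nat_lit 156) (PT.nd (nat_lit 78) (PT.lf (nat_lit 4636) (nat_lit 6) (nat_lit 61) (nat_lit 5) (nat_lit 145)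 (nat_lit 182) (nat_lit 183)) (PT.lf (nat_lit 4864) (nat_lit 3) (nat_lit 64) (nat_lit 4) (nat_lit 146) (nat_lit 182) (nat_lit 182))) (PT.nd (nat_lit 78) (PT.lf (nat_lit 5092) (nat_lit 6) (nat_lit 67) (nat_lit 4) (nat_lit 147) (nat_lit 182) (nat_lit 181)) (PT.lf (nat_lit 5244) (nat_lit 6) (nat_lit 69) (nat_lit 4) (nat_lit 148) (nat_lit 182) (nat_lit 180)))))) (PT.nd (nat_lit 2184) (PT.nd (nat_lit 234) (PT.nd (nat_lit 78) (PT.lf (nat_lit 5472) (nat_lit 6) (nat_lit 72) (nat_lit 4) (nat_lit 149) (nat_lit 182) (nat_lit 179)) (PT.nd (nat_lit 78) (PT.lf (nat_lit 5700) (nat_lit 6) (nat_lit 75) (nat_lit 4) (nat_lit 150) (nat_lit 182) (nat_lit 178)) (PT.lf (nat_lit 5928) (nat_lit 6) (nat_lit 78) (nat_lit 4) (nat_lit 151) (nat_lit 182) (nat_lit 177)))) (PT.nd (nat_lit 1794) (PT.nd (nat_lit 78) (PT.lf (nat_lit 6156) (nat_lit 6) (nat_lit 81) (nat_lit 4) (nat_lit 152) (nat_lit 182) (nat_lit 176)) (PT.lf (nat_lit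 6460) (nat_lit 6) (nat_lit 85) (nat_lit 4) (nat_lit 153) (nat_lit 182) (nat_lit 175))) (PT.nd (nat_lit 78) (PT.lf (nat_lit 6460) (nat_lit 6) (nat_lit 85) (nat_lit 2) (nat_lit 175) (nat_lit 182) (nat_lit 153)) (PT.lf (nat_lit 6156) (nat_lit 6) (nat_lit 81) (nat_lit 2) (nat_lit 176) (nat_lit 182) (nat_lit 152))))) (PT.nd (nat_lit 312) (PT.nd (nat_lit 156) (PT.nd (nat_lit 78) (PT.lf (nat_lit 5928) (nat_lit 6) (nat_lit 78) (nat_lit 2) (nat_lit 177) (nat_lit 182) (nat_lit 151)) (PT.lf (nat_lit 5700) (nat_lit 6) (nat_lit 75) (nat_lit 2) (nat_lit 178) (nat_lit 182) (nat_lit 150))) (PT.nd (nat_lit 78) (PT.lf (nat_lit 5472) (nat_lit 6) (nat_lit 72) (nat_lit 2) (nat_lit 179) (nat_lit 182) (nat_lit 149)) (PT.lf (nat_lit 5244) (nat_lit 6) (nat_lit 69) (nat_lit 2) (nat_lit 180) (nat_lit 182) (nat_lit 148)))) (PT.nd (nat_lit 156) (PT.nd (nat_lit 78) (PT.lf (nat_lit 5092) (nat_lit 6) (nat_lit 67) (nat_lit 2)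 (nat_lit 181) (nat_lit 182) (nat_lit 147)) (PT.lf (nat_lit 4864) (nat_lit 3) (nat_lit 64) (nat_lit 0) (nat_lit 182) (nat_lit 182) (nat_lit 146))) (PT.nd (nat_lit 78) (PT.lf (nat_lit 4636) (nat_lit 6) (nat_lit 61) (nat_lit 0) (nat_lit 183) (nat_lit 182) (nat_lit 145)) (PT.lf (nat_lit 4408) (nat_lit 6) (nat_lit 58) (nat_lit 0) (nat_lit 184) (nat_lit 182) (nat_lit 144))))))) (PT.nd (nat_lit 52728) (PT.nd (nat_lit 50076) (PT.nd (nat_lit 49764) (PT.nd (nat_lit 78) (PT.lf (nat_lit 4180) (nat_lit 6) (nat_lit 55) (nat_lit 0) (nat_lit 185) (nat_lit 182) (nat_lit 143)) (PT.nd (nat_lit 49608) (PT.lf (nat_lit 3952) (nat_lit 6) (nat_lit 52) (nat_lit 0) (nat_lit 186) (nat_lit 182) (nat_lit 142)) (PT.lf (nat_lit 3800) (nat_lit 6) (nat_lit 50) (nat_lit 5) (nat_lit 141) (nat_lit 183) (nat_lit 186)))) (PT.nd (nat_lit 156) (PT.nd (nat_lit 78) (PT.lf (nat_lit 4028) (nat_lit 6) (nat_lit 53) (nat_lit 5) (nat_lit 142)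 (nat_lit 183) (nat_lit 185)) (PT.lf (nat_lit 4256) (nat_lit 6) (nat_lit 56) (nat_lit 5) (nat_lit 143) (nat_lit 183) (nat_lit 184))) (PT.nd (nat_lit 78) (PT.lf (nat_lit 4484) (nat_lit 3) (nat_lit 59) (nat_lit 4) (nat_lit 144) (nat_lit 183) (nat_lit 183)) (PT.lf (nat_lit 4636) (nat_lit 6) (nat_lit 61) (nat_lit 4) (nat_lit 145) (nat_lit 183) (nat_lit 182))))) (PT.nd (nat_lit 312) (PT.nd (nat_lit 156) (PT.nd (nat_lit 78) (PT.lf (nat_lit 4788) (nat_lit 6) (nat_lit 63) (nat_lit 4) (nat_lit 146) (nat_lit 183) (nat_lit 181)) (PT.lf (nat_lit 5016) (nat_lit 6) (nat_lit 66) (nat_lit 4) (nat_lit 147) (nat_lit 183) (nat_lit 180))) (PT.nd (nat_lit 78) (PT.lf (nat_lit 5168) (nat_lit 6) (nat_lit 68) (nat_lit 4) (nat_lit 148) (nat_lit 183) (nat_lit 179)) (PT.lf (nat_lit 5396) (nat_lit 6) (nat_lit 71) (nat_lit 4) (nat_lit 149) (nat_lit 183) (nat_lit 178)))) (PT.nd (nat_lit 2184) (PT.nd (nat_lit 2106) (PT.lf (nat_lit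 5624) (nat_lit 6) (nat_lit 74) (nat_lit 4) (nat_lit 150) (nat_lit 183) (nat_lit 177)) (PT.lf (nat_lit 5624) (nat_lit 6) (nat_lit 74) (nat_lit 2) (nat_lit 177) (nat_lit 183) (nat_lit 150))) (PT.nd (nat_lit 78) (PT.lf (nat_lit 5396) (nat_lit 6) (nat_lit 71) (nat_lit 2) (nat_lit 178) (nat_lit 183) (nat_lit 149)) (PT.lf (nat_lit 5168) (nat_lit 6) (nat_lit 68) (nat_lit 2) (nat_lit 179) (nat_lit 183) (nat_lit 148)))))) (PT.nd (nat_lit 49920) (PT.nd (nat_lit 234) (PT.nd (nat_lit 78) (PT.lf (nat_lit 5016) (nat_lit 6) (nat_lit 66) (nat_lit 2) (nat_lit 180) (nat_lit 183) (nat_lit 147)) (PT.nd (nat_lit 78) (PT.lf (nat_lit 4788) (nat_lit 6) (nat_lit 63) (nat_lit 2) (nat_lit 181) (nat_lit 183) (nat_lit 146)) (PT.lf (nat_lit 4636) (nat_lit 6) (nat_lit 61) (nat_lit 2) (nat_lit 182) (nat_lit 183) (nat_lit 145)))) (PT.nd (nat_lit 156) (PT.nd (nat_lit 78) (PT.lf (nat_lit 4484) (nat_lit 3) (nat_lit 59) (nat_lit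 0) (nat_lit 183) (nat_lit 183) (nat_lit 144)) (PT.lf (nat_lit 4256) (nat_lit 6) (nat_lit 56) (nat_lit 0) (nat_lit 184) (nat_lit 183) (nat_lit 143))) (PT.nd (nat_lit 78) (PT.lf (nat_lit 4028) (nat_lit 6) (nat_lit 53) (nat_lit 0) (nat_lit 185) (nat_lit 183) (nat_lit 142)) (PT.lf (nat_lit 3800) (nat_lit 6) (nat_lit 50) (nat_lit 0) (nat_lit 186) (nat_lit 183) (nat_lit 141))))) (PT.nd (nat_lit 312) (PT.nd (nat_lit 156) (PT.nd (nat_lit 78) (PT.lf (nat_lit 3496) (nat_lit 6) (nat_lit 46) (nat_lit 5) (nat_lit 139) (nat_lit 184) (nat_lit 187)) (PT.lf (nat_lit 3648) (nat_lit 6) (nat_lit 48) (nat_lit 5) (nat_lit 140) (nat_lit 184) (nat_lit 186))) (PT.nd (nat_lit 78) (PT.lf (nat_lit 3876) (nat_lit 6) (nat_lit 51) (nat_lit 5) (nat_lit 141) (nat_lit 184) (nat_lit 185)) (PT.lf (nat_lit 4104) (nat_lit 3) (nat_lit 54) (nat_lit 4) (nat_lit 142) (nat_lit 184) (nat_lit 184)))) (PT.nd (nat_lit 156) (PT.nd (nat_lit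 78) (PT.lf (nat_lit 4256) (nat_lit 6) (nat_lit 56) (nat_lit 4) (nat_lit 143) (nat_lit 184) (nat_lit 183)) (PT.lf (nat_lit 4408) (nat_lit 6) (nat_lit 58) (nat_lit 4) (nat_lit 144) (nat_lit 184) (nat_lit 182))) (PT.nd (nat_lit 78) (PT.lf (nat_lit 4560) (nat_lit 6) (nat_lit 60) (nat_lit 4) (nat_lit 145) (nat_lit 184) (nat_lit 181)) (PT.lf (nat_lit 4712) (nat_lit 6) (nat_lit 62) (nat_lit 4) (nat_lit 146) (nat_lit 184) (nat_lit 180))))))))
noncomputable def pc13 : PT := (PT.nd (nat_lit 105612) (PT.nd (nat_lit 52728) (PT.nd (nat_lit 2964) (PT.nd (nat_lit 2652) (PT.nd (nat_lit 2496) (PT.lf (nat_lit 4940) (nat_lit 6) (nat_lit 65) (nat_lit 4) (nat_lit 147) (nat_lit 184) (nat_lit 179)) (PT.nd (nat_lit 78) (PT.lf (nat_lit 4940) (nat_lit 6) (nat_lit 65) (nat_lit 2) (nat_lit 179) (nat_lit 184) (nat_lit 147)) (PT.lf (nat_lit 4712) (nat_lit 6) (nat_lit 62) (nat_lit 2) (nat_lit 180) (nat_lit 184) (nat_lit 146))))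 (PT.nd (nat_lit 156) (PT.nd (nat_lit 78) (PT.lf (nat_lit 4560) (nat_lit 6) (nat_lit 60) (nat_lit 2) (nat_lit 181) (nat_lit 184) (nat_lit 145)) (PT.lf (nat_lit 4408) (nat_lit 6) (nat_lit 58) (nat_lit 2) (nat_lit 182) (nat_lit 184) (nat_lit 144))) (PT.nd (nat_lit 78) (PT.lf (nat_lit 4256) (nat_lit 6) (nat_lit 56) (nat_lit 2) (nat_lit 183) (nat_lit 184) (nat_lit 143)) (PT.lf (nat_lit 4104) (nat_lit 3) (nat_lit 54) (nat_lit 0) (nat_lit 184) (nat_lit 184) (nat_lit 142))))) (PT.nd (nat_lit 49452) (PT.nd (nat_lit 156) (PT.nd (nat_lit 78) (PT.lf (nat_lit 3876) (nat_lit 6) (nat_lit 51) (nat_lit 0) (nat_lit 185) (nat_lit 184) (nat_lit 141)) (PT.lf (nat_lit 3648) (nat_lit 6) (nat_lit 48) (nat_lit 0) (nat_lit 186) (nat_lit 184) (nat_lit 140))) (PT.nd (nat_lit 49218) (PT.lf (nat_lit 3496) (nat_lit 6) (nat_lit 46) (nat_lit 0) (nat_lit 187) (nat_lit 184) (nat_lit 139)) (PT.lf (nat_lit 3192) (nat_lit 6) (nat_lit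 42) (nat_lit 5) (nat_lit 137) (nat_lit 185) (nat_lit 188)))) (PT.nd (nat_lit 156) (PT.nd (nat_lit 78) (PT.lf (nat_lit 3344) (nat_lit 6) (nat_lit 44) (nat_lit 5) (nat_lit 138) (nat_lit 185) (nat_lit 187)) (PT.lf (nat_lit 3572) (nat_lit 6) (nat_lit 47) (nat_lit 5) (nat_lit 139) (nat_lit 185) (nat_lit 186))) (PT.nd (nat_lit 78) (PT.lf (nat_lit 3724) (nat_lit 3) (nat_lit 49) (nat_lit 4) (nat_lit 140) (nat_lit 185) (nat_lit 185)) (PT.lf (nat_lit 3876) (nat_lit 6) (nat_lit 51) (nat_lit 4) (nat_lit 141) (nat_lit 185) (nat_lit 184)))))) (PT.nd (nat_lit 3354) (PT.nd (nat_lit 3042) (PT.nd (nat_lit 78) (PT.lf (nat_lit 4028) (nat_lit 6) (nat_lit 53) (nat_lit 4) (nat_lit 142) (nat_lit 185) (nat_lit 183)) (PT.nd (nat_lit 78) (PT.lf (nat_lit 4180) (nat_lit 6) (nat_lit 55) (nat_lit 4) (nat_lit 143) (nat_lit 185) (nat_lit 182)) (PT.lf (nat_lit 4332) (nat_lit 6) (nat_lit 57) (nat_lit 4) (nat_lit 144) (nat_lit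 185) (nat_lit 181)))) (PT.nd (nat_lit 156) (PT.nd (nat_lit 78) (PT.lf (nat_lit 4332) (nat_lit 6) (nat_lit 57) (nat_lit 2) (nat_lit 181) (nat_lit 185) (nat_lit 144)) (PT.lf (nat_lit 4180) (nat_lit 6) (nat_lit 55) (nat_lit 2) (nat_lit 182) (nat_lit 185) (nat_lit 143))) (PT.nd (nat_lit 78) (PT.lf (nat_lit 4028) (nat_lit 6) (nat_lit 53) (nat_lit 2) (nat_lit 183) (nat_lit 185) (nat_lit 142)) (PT.lf (nat_lit 3876) (nat_lit 6) (nat_lit 51) (nat_lit 2) (nat_lit 184) (nat_lit 185) (nat_lit 141))))) (PT.nd (nat_lit 49218) (PT.nd (nat_lit 156) (PT.nd (nat_lit 78) (PT.lf (nat_lit 3724) (nat_lit 3) (nat_lit 49) (nat_lit 0) (nat_lit 185) (nat_lit 185) (nat_lit 140)) (PT.lf (nat_lit 3572) (nat_lit 6) (nat_lit 47) (nat_lit 0) (nat_lit 186) (nat_lit 185) (nat_lit 139))) (PT.nd (nat_lit 78) (PT.lf (nat_lit 3344) (nat_lit 6) (nat_lit 44) (nat_lit 0) (nat_lit 187) (nat_lit 185) (nat_lit 138)) (PT.lf (nat_lit 3192)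 (nat_lit 6) (nat_lit 42) (nat_lit 0) (nat_lit 188) (nat_lit 185) (nat_lit 137)))) (PT.nd (nat_lit 156) (PT.nd (nat_lit 78) (PT.lf (nat_lit 2888) (nat_lit 6) (nat_lit 38) (nat_lit 5) (nat_lit 135) (nat_lit 186) (nat_lit 189)) (PT.lf (nat_lit 3040) (nat_lit 6) (nat_lit 40) (nat_lit 5) (nat_lit 136) (nat_lit 186) (nat_lit 188))) (PT.nd (nat_lit 78) (PT.lf (nat_lit 3268) (nat_lit 6) (nat_lit 43) (nat_lit 5) (nat_lit 137) (nat_lit 186) (nat_lit 187)) (PT.lf (nat_lit 3420) (nat_lit 3) (nat_lit 45) (nat_lit 4) (nat_lit 138) (nat_lit 186) (nat_lit 186))))))) (PT.nd (nat_lit 52884) (PT.nd (nat_lit 3588) (PT.nd (nat_lit 234) (PT.nd (nat_lit 78) (PT.lf (nat_lit 3572) (nat_lit 6) (nat_lit 47) (nat_lit 4) (nat_lit 139) (nat_lit 186) (nat_lit 185)) (PT.nd (nat_lit 78) (PT.lf (nat_lit 3648) (nat_lit 6) (nat_lit 48) (nat_lit 4) (nat_lit 140) (nat_lit 186) (nat_lit 184)) (PT.lf (nat_lit 3800) (nat_lit 6) (nat_lit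 50) (nat_lit 4) (nat_lit 141) (nat_lit 186) (nat_lit 183)))) (PT.nd (nat_lit 3198) (PT.nd (nat_lit 3120) (PT.lf (nat_lit 3952) (nat_lit 6) (nat_lit 52) (nat_lit 4) (nat_lit 142) (nat_lit 186) (nat_lit 182)) (PT.lf (nat_lit 3952) (nat_lit 6) (nat_lit 52) (nat_lit 2) (nat_lit 182) (nat_lit 186) (nat_lit 142))) (PT.nd (nat_lit 78) (PT.lf (nat_lit 3800) (nat_lit 6) (nat_lit 50) (nat_lit 2) (nat_lit 183) (nat_lit 186) (nat_lit 141)) (PT.lf (nat_lit 3648) (nat_lit 6) (nat_lit 48) (nat_lit 2) (nat_lit 184) (nat_lit 186) (nat_lit 140))))) (PT.nd (nat_lit 312) (PT.nd (nat_lit 156) (PT.nd (nat_lit 78) (PT.lf (nat_lit 3572) (nat_lit 6) (nat_lit 47) (nat_lit 2) (nat_lit 185) (nat_lit 186) (nat_lit 139)) (PT.lf (nat_lit 3420) (nat_lit 3) (nat_lit 45) (nat_lit 0) (nat_lit 186) (nat_lit 186) (nat_lit 138))) (PT.nd (nat_lit 78) (PT.lf (nat_lit 3268) (nat_lit 6) (nat_lit 43) (nat_lit 0) (nat_lit 187) (nat_lit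 186) (nat_lit 137)) (PT.lf (nat_lit 3040) (nat_lit 6) (nat_lit 40) (nat_lit 0) (nat_lit 188) (nat_lit 186) (nat_lit 136)))) (PT.nd (nat_lit 48828) (PT.nd (nat_lit 48750) (PT.lf (nat_lit 2888) (nat_lit 6) (nat_lit 38) (nat_lit 0) (nat_lit 189) (nat_lit 186) (nat_lit 135)) (PT.lf (nat_lit 2584) (nat_lit 6) (nat_lit 34) (nat_lit 5) (nat_lit 133) (nat_lit 187) (nat_lit 190))) (PT.nd (nat_lit 78) (PT.lf (nat_lit 2736) (nat_lit 6) (nat_lit 36) (nat_lit 5) (nat_lit 134) (nat_lit 187) (nat_lit 189)) (PT.lf (nat_lit 2964) (nat_lit 6) (nat_lit 39) (nat_lit 5) (nat_lit 135) (nat_lit 187) (nat_lit 188)))))) (PT.nd (nat_lit 3978) (PT.nd (nat_lit 234) (PT.nd (nat_lit 78) (PT.lf (nat_lit 3116) (nat_lit 3) (nat_lit 41) (nat_lit 4) (nat_lit 136) (nat_lit 187) (nat_lit 187)) (PT.nd (nat_lit 78) (PT.lf (nat_lit 3268) (nat_lit 6) (nat_lit 43) (nat_lit 4) (nat_lit 137) (nat_lit 187) (nat_lit 186)) (PT.lf (nat_lit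 3344) (nat_lit 6) (nat_lit 44) (nat_lit 4) (nat_lit 138) (nat_lit 187) (nat_lit 185)))) (PT.nd (nat_lit 3588) (PT.nd (nat_lit 3510) (PT.lf (nat_lit 3496) (nat_lit 6) (nat_lit 46) (nat_lit 4) (nat_lit 139) (nat_lit 187) (nat_lit 184)) (PT.lf (nat_lit 3496) (nat_lit 6) (nat_lit 46) (nat_lit 2) (nat_lit 184) (nat_lit 187) (nat_lit 139))) (PT.nd (nat_lit 78) (PT.lf (nat_lit 3344) (nat_lit 6) (nat_lit 44) (nat_lit 2) (nat_lit 185) (nat_lit 187) (nat_lit 138)) (PT.lf (nat_lit 3268) (nat_lit 6) (nat_lit 43) (nat_lit 2) (nat_lit 186) (nat_lit 187) (nat_lit 137))))) (PT.nd (nat_lit 48828) (PT.nd (nat_lit 156) (PT.nd (nat_lit 78) (PT.lf (nat_lit 3116) (nat_lit 3) (nat_lit 41) (nat_lit 0) (nat_lit 187) (nat_lit 187) (nat_lit 136)) (PT.lf (nat_lit 2964) (nat_lit 6) (nat_lit 39) (nat_lit 0) (nat_lit 188) (nat_lit 187) (nat_lit 135))) (PT.nd (nat_lit 78) (PT.lf (nat_lit 2736) (nat_lit 6) (nat_lit 36) (nat_lit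 0) (nat_lit 189) (nat_lit 187) (nat_lit 134)) (PT.lf (nat_lit 2584) (nat_lit 6) (nat_lit 34) (nat_lit 0) (nat_lit 190) (nat_lit 187) (nat_lit 133)))) (PT.nd (nat_lit 156) (PT.nd (nat_lit 78) (PT.lf (nat_lit 2432) (nat_lit 6) (nat_lit 32) (nat_lit 5) (nat_lit 132) (nat_lit 188) (nat_lit 190)) (PT.lf (nat_lit 2660) (nat_lit 6) (nat_lit 35) (nat_lit 5) (nat_lit 133) (nat_lit 188) (nat_lit 189))) (PT.nd (nat_lit 78) (PT.lf (nat_lit 2812) (nat_lit 3) (nat_lit 37) (nat_lit 4) (nat_lit 134) (nat_lit 188) (nat_lit 188)) (PT.lf (nat_lit 2964) (nat_lit 6) (nat_lit 39) (nat_lit 4) (nat_lit 135) (nat_lit 188) (nat_lit 187))))))))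
noncomputable def pc14 : PT := (PT.nd (nat_lit 110526) (PT.nd (nat_lit 57096) (PT.nd (nat_lit 4212) (PT.nd (nat_lit 3900) (PT.nd (nat_lit 78) (PT.lf (nat_lit 3040) (nat_lit 6) (nat_lit 40) (nat_lit 4) (nat_lit 136) (nat_lit 188) (nat_lit 186)) (PT.nd (nat_lit 3744) (PT.lf (nat_lit 3192) (nat_lit 6) (nat_lit 42) (nat_lit 4) (nat_lit 137) (nat_lit 188) (nat_lit 185)) (PT.lf (nat_lit 3192) (nat_lit 6) (nat_lit 42) (nat_lit 2) (nat_lit 185) (nat_lit 188) (nat_lit 137)))) (PT.nd (nat_lit 156) (PT.nd (nat_lit 78) (PT.lf (nat_lit 3040) (nat_lit 6) (nat_lit 40) (nat_lit 2) (nat_lit 186) (nat_lit 188) (nat_lit 136)) (PT.lf (nat_lit 2964) (nat_lit 6) (nat_lit 39) (nat_lit 2) (nat_lit 187) (nat_lit 188) (nat_lit 135))) (PT.nd (nat_lit 78) (PT.lf (nat_lit 2812) (nat_lit 3) (nat_lit 37) (nat_lit 0) (nat_lit 188) (nat_lit 188) (nat_lit 134)) (PT.lf (nat_lit 2660) (nat_lit 6) (nat_lit 35) (nat_lit 0) (nat_lit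 189) (nat_lit 188) (nat_lit 133))))) (PT.nd (nat_lit 48672) (PT.nd (nat_lit 48516) (PT.nd (nat_lit 48438) (PT.lf (nat_lit 2432) (nat_lit 6) (nat_lit 32) (nat_lit 0) (nat_lit 190) (nat_lit 188) (nat_lit 132)) (PT.lf (nat_lit 2204) (nat_lit 6) (nat_lit 29) (nat_lit 5) (nat_lit 130) (nat_lit 189) (nat_lit 191))) (PT.nd (nat_lit 78) (PT.lf (nat_lit 2356) (nat_lit 6) (nat_lit 31) (nat_lit 5) (nat_lit 131) (nat_lit 189) (nat_lit 190)) (PT.lf (nat_lit 2508) (nat_lit 3) (nat_lit 33) (nat_lit 4) (nat_lit 132) (nat_lit 189) (nat_lit 189)))) (PT.nd (nat_lit 156) (PT.nd (nat_lit 78) (PT.lf (nat_lit 2660) (nat_lit 6) (nat_lit 35) (nat_lit 4) (nat_lit 133) (nat_lit 189) (nat_lit 188)) (PT.lf (nat_lit 2736) (nat_lit 6) (nat_lit 36) (nat_lit 4) (nat_lit 134) (nat_lit 189) (nat_lit 187))) (PT.nd (nat_lit 3978) (PT.lf (nat_lit 2888) (nat_lit 6) (nat_lit 38) (nat_lit 4) (nat_lit 135) (nat_lit 189) (nat_lit 186))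 (PT.lf (nat_lit 2888) (nat_lit 6) (nat_lit 38) (nat_lit 2) (nat_lit 186) (nat_lit 189) (nat_lit 135)))))) (PT.nd (nat_lit 48672) (PT.nd (nat_lit 234) (PT.nd (nat_lit 78) (PT.lf (nat_lit 2736) (nat_lit 6) (nat_lit 36) (nat_lit 2) (nat_lit 187) (nat_lit 189) (nat_lit 134)) (PT.nd (nat_lit 78) (PT.lf (nat_lit 2660) (nat_lit 6) (nat_lit 35) (nat_lit 2) (nat_lit 188) (nat_lit 189) (nat_lit 133)) (PT.lf (nat_lit 2508) (nat_lit 3) (nat_lit 33) (nat_lit 0) (nat_lit 189) (nat_lit 189) (nat_lit 132)))) (PT.nd (nat_lit 48282) (PT.nd (nat_lit 78) (PT.lf (nat_lit 2356) (nat_lit 6) (nat_lit 31) (nat_lit 0) (nat_lit 190) (nat_lit 189) (nat_lit 131)) (PT.lf (nat_lit 2204) (nat_lit 6) (nat_lit 29) (nat_lit 0) (nat_lit 191) (nat_lit 189) (nat_lit 130))) (PT.nd (nat_lit 78) (PT.lf (nat_lit 1976) (nat_lit 6) (nat_lit 26) (nat_lit 5) (nat_lit 128) (nat_lit 190) (nat_lit 192)) (PT.lf (nat_lit 2128) (nat_lit 6) (nat_lit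 28) (nat_lit 5) (nat_lit 129) (nat_lit 190) (nat_lit 191))))) (PT.nd (nat_lit 4446) (PT.nd (nat_lit 156) (PT.nd (nat_lit 78) (PT.lf (nat_lit 2280) (nat_lit 3) (nat_lit 30) (nat_lit 4) (nat_lit 130) (nat_lit 190) (nat_lit 190)) (PT.lf (nat_lit 2356) (nat_lit 6) (nat_lit 31) (nat_lit 4) (nat_lit 131) (nat_lit 190) (nat_lit 189))) (PT.nd (nat_lit 78) (PT.lf (nat_lit 2432) (nat_lit 6) (nat_lit 32) (nat_lit 4) (nat_lit 132) (nat_lit 190) (nat_lit 188)) (PT.lf (nat_lit 2584) (nat_lit 6) (nat_lit 34) (nat_lit 4) (nat_lit 133) (nat_lit 190) (nat_lit 187)))) (PT.nd (nat_lit 156) (PT.nd (nat_lit 78) (PT.lf (nat_lit 2584) (nat_lit 6) (nat_lit 34) (nat_lit 2) (nat_lit 187) (nat_lit 190) (nat_lit 133)) (PT.lf (nat_lit 2432) (nat_lit 6) (nat_lit 32) (nat_lit 2) (nat_lit 188) (nat_lit 190) (nat_lit 132))) (PT.nd (nat_lit 78) (PT.lf (nat_lit 2356) (nat_lit 6) (nat_lit 31) (nat_lit 2) (nat_lit 189) (nat_lit 190)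 (nat_lit 131)) (PT.lf (nat_lit 2280) (nat_lit 3) (nat_lit 30) (nat_lit 0) (nat_lit 190) (nat_lit 190) (nat_lit 130))))))) (PT.nd (nat_lit 101244) (PT.nd (nat_lit 52962) (PT.nd (nat_lit 48126) (PT.nd (nat_lit 78) (PT.lf (nat_lit 2128) (nat_lit 6) (nat_lit 28) (nat_lit 0) (nat_lit 191) (nat_lit 190) (nat_lit 129)) (PT.nd (nat_lit 47970) (PT.lf (nat_lit 1976) (nat_lit 6) (nat_lit 26) (nat_lit 0) (nat_lit 192) (nat_lit 190) (nat_lit 128)) (PT.lf (nat_lit 1748) (nat_lit 6) (nat_lit 23) (nat_lit 5) (nat_lit 126) (nat_lit 191) (nat_lit 193)))) (PT.nd (nat_lit 156) (PT.nd (nat_lit 78) (PT.lf (nat_lit 1900) (nat_lit 6) (nat_lit 25) (nat_lit 5) (nat_lit 127) (nat_lit 191) (nat_lit 192)) (PT.lf (nat_lit 2052) (nat_lit 3) (nat_lit 27) (nat_lit 4) (nat_lit 128) (nat_lit 191) (nat_lit 191))) (PT.nd (nat_lit 78) (PT.lf (nat_lit 2128) (nat_lit 6) (nat_lit 28) (nat_lit 4) (nat_lit 129) (nat_lit 191) (nat_lit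 190)) (PT.lf (nat_lit 2204) (nat_lit 6) (nat_lit 29) (nat_lit 4) (nat_lit 130) (nat_lit 191) (nat_lit 189))))) (PT.nd (nat_lit 312) (PT.nd (nat_lit 156) (PT.nd (nat_lit 78) (PT.lf (nat_lit 2204) (nat_lit 6) (nat_lit 29) (nat_lit 2) (nat_lit 189) (nat_lit 191) (nat_lit 130)) (PT.lf (nat_lit 2128) (nat_lit 6) (nat_lit 28) (nat_lit 2) (nat_lit 190) (nat_lit 191) (nat_lit 129))) (PT.nd (nat_lit 78) (PT.lf (nat_lit 2052) (nat_lit 3) (nat_lit 27) (nat_lit 0) (nat_lit 191) (nat_lit 191) (nat_lit 128)) (PT.lf (nat_lit 1900) (nat_lit 6) (nat_lit 25) (nat_lit 0) (nat_lit 192) (nat_lit 191) (nat_lit 127)))) (PT.nd (nat_lit 47814) (PT.nd (nat_lit 47736) (PT.lf (nat_lit 1748) (nat_lit 6) (nat_lit 23) (nat_lit 0) (nat_lit 193) (nat_lit 191) (nat_lit 126)) (PT.lf (nat_lit 1520) (nat_lit 6) (nat_lit 20) (nat_lit 5) (nat_lit 124) (nat_lit 192) (nat_lit 194))) (PT.nd (nat_lit 78) (PT.lf (nat_lit 1672) (nat_lit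 6) (nat_lit 22) (nat_lit 5) (nat_lit 125) (nat_lit 192) (nat_lit 193)) (PT.lf (nat_lit 1824) (nat_lit 3) (nat_lit 24) (nat_lit 4) (nat_lit 126) (nat_lit 192) (nat_lit 192)))))) (PT.nd (nat_lit 52728) (PT.nd (nat_lit 4992) (PT.nd (nat_lit 78) (PT.lf (nat_lit 1900) (nat_lit 6) (nat_lit 25) (nat_lit 4) (nat_lit 127) (nat_lit 192) (nat_lit 191)) (PT.nd (nat_lit 4836) (PT.lf (nat_lit 1976) (nat_lit 6) (nat_lit 26) (nat_lit 4) (nat_lit 128) (nat_lit 192) (nat_lit 190)) (PT.lf (nat_lit 1976) (nat_lit 6) (nat_lit 26) (nat_lit 2) (nat_lit 190) (nat_lit 192) (nat_lit 128)))) (PT.nd (nat_lit 156) (PT.nd (nat_lit 78) (PT.lf (nat_lit 1900) (nat_lit 6) (nat_lit 25) (nat_lit 2) (nat_lit 191) (nat_lit 192) (nat_lit 127)) (PT.lf (nat_lit 1824) (nat_lit 3) (nat_lit 24) (nat_lit 0) (nat_lit 192) (nat_lit 192) (nat_lit 126))) (PT.nd (nat_lit 78) (PT.lf (nat_lit 1672) (nat_lit 6) (nat_lit 22) (nat_lit 0) (nat_lit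 193) (nat_lit 192) (nat_lit 125)) (PT.lf (nat_lit 1520) (nat_lit 6) (nat_lit 20) (nat_lit 0) (nat_lit 194) (nat_lit 192) (nat_lit 124))))) (PT.nd (nat_lit 312) (PT.nd (nat_lit 156) (PT.nd (nat_lit 78) (PT.lf (nat_lit 1292) (nat_lit 6) (nat_lit 17) (nat_lit 5) (nat_lit 122) (nat_lit 193) (nat_lit 195)) (PT.lf (nat_lit 1444) (nat_lit 6) (nat_lit 19) (nat_lit 5) (nat_lit 123) (nat_lit 193) (nat_lit 194))) (PT.nd (nat_lit 78) (PT.lf (nat_lit 1596) (nat_lit 3) (nat_lit 21) (nat_lit 4) (nat_lit 124) (nat_lit 193) (nat_lit 193)) (PT.lf (nat_lit 1672) (nat_lit 6) (nat_lit 22) (nat_lit 4) (nat_lit 125) (nat_lit 193) (nat_lit 192)))) (PT.nd (nat_lit 5148) (PT.nd (nat_lit 5070) (PT.lf (nat_lit 1748) (nat_lit 6) (nat_lit 23) (nat_lit 4) (nat_lit 126) (nat_lit 193) (nat_lit 191)) (PT.lf (nat_lit 1748) (nat_lit 6) (nat_lit 23) (nat_lit 2) (nat_lit 191) (nat_lit 193) (nat_lit 126))) (PT.nd (nat_lit 78) (PT.lf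 (nat_lit 1672) (nat_lit 6) (nat_lit 22) (nat_lit 2) (nat_lit 192) (nat_lit 193) (nat_lit 125)) (PT.lf (nat_lit 1596) (nat_lit 3) (nat_lit 21) (nat_lit 0) (nat_lit 193) (nat_lit 193) (nat_lit 124))))))))
noncomputable def pc15 : PT := (PT.nd (nat_lit 159588) (PT.nd (nat_lit 100542) (PT.nd (nat_lit 52962) (PT.nd (nat_lit 47424) (PT.nd (nat_lit 78) (PT.lf (nat_lit 1444) (nat_lit 6) (nat_lit 19) (nat_lit 0) (nat_lit 194) (nat_lit 193) (nat_lit 123)) (PT.nd (nat_lit 47268) (PT.lf (nat_lit 1292) (nat_lit 6) (nat_lit 17) (nat_lit 0) (nat_lit 195) (nat_lit 193) (nat_lit 122)) (PT.lf (nat_lit 1064) (nat_lit 6) (nat_lit 14) (nat_lit 5) (nat_lit 120) (nat_lit 194) (nat_lit 196)))) (PT.nd (nat_lit 156) (PT.nd (nat_lit 78) (PT.lf (nat_lit 1216) (nat_lit 6) (nat_lit 16) (nat_lit 5) (nat_lit 121) (nat_lit 194) (nat_lit 195)) (PT.lf (nat_lit 1368) (nat_lit 3) (nat_lit 18) (nat_lit 4) (nat_lit 122) (nat_lit 194)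 (nat_lit 194))) (PT.nd (nat_lit 78) (PT.lf (nat_lit 1444) (nat_lit 6) (nat_lit 19) (nat_lit 4) (nat_lit 123) (nat_lit 194) (nat_lit 193)) (PT.lf (nat_lit 1520) (nat_lit 6) (nat_lit 20) (nat_lit 4) (nat_lit 124) (nat_lit 194) (nat_lit 192))))) (PT.nd (nat_lit 312) (PT.nd (nat_lit 156) (PT.nd (nat_lit 78) (PT.lf (nat_lit 1520) (nat_lit 6) (nat_lit 20) (nat_lit 2) (nat_lit 192) (nat_lit 194) (nat_lit 124)) (PT.lf (nat_lit 1444) (nat_lit 6) (nat_lit 19) (nat_lit 2) (nat_lit 193) (nat_lit 194) (nat_lit 123))) (PT.nd (nat_lit 78) (PT.lf (nat_lit 1368) (nat_lit 3) (nat_lit 18) (nat_lit 0) (nat_lit 194) (nat_lit 194) (nat_lit 122)) (PT.lf (nat_lit 1216) (nat_lit 6) (nat_lit 16) (nat_lit 0) (nat_lit 195) (nat_lit 194) (nat_lit 121)))) (PT.nd (nat_lit 47112) (PT.nd (nat_lit 47034) (PT.lf (nat_lit 1064) (nat_lit 6) (nat_lit 14) (nat_lit 0) (nat_lit 196) (nat_lit 194) (nat_lit 120)) (PT.lf (nat_lit 836)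 (nat_lit 6) (nat_lit 11) (nat_lit 5) (nat_lit 118) (nat_lit 195) (nat_lit 197))) (PT.nd (nat_lit 78) (PT.lf (nat_lit 988) (nat_lit 6) (nat_lit 13) (nat_lit 5) (nat_lit 119) (nat_lit 195) (nat_lit 196)) (PT.lf (nat_lit 1140) (nat_lit 3) (nat_lit 15) (nat_lit 4) (nat_lit 120) (nat_lit 195) (nat_lit 195)))))) (PT.nd (nat_lit 52728) (PT.nd (nat_lit 5694) (PT.nd (nat_lit 78) (PT.lf (nat_lit 1216) (nat_lit 6) (nat_lit 16) (nat_lit 4) (nat_lit 121) (nat_lit 195) (nat_lit 194)) (PT.nd (nat_lit 5538) (PT.lf (nat_lit 1292) (nat_lit 6) (nat_lit 17) (nat_lit 4) (nat_lit 122) (nat_lit 195) (nat_lit 193)) (PT.lf (nat_lit 1292) (nat_lit 6) (nat_lit 17) (nat_lit 2) (nat_lit 193) (nat_lit 195) (nat_lit 122)))) (PT.nd (nat_lit 156) (PT.nd (nat_lit 78) (PT.lf (nat_lit 1216) (nat_lit 6) (nat_lit 16) (nat_lit 2) (nat_lit 194) (nat_lit 195) (nat_lit 121)) (PT.lf (nat_lit 1140) (nat_lit 3) (nat_lit 15) (nat_lit 0)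 (nat_lit 195) (nat_lit 195) (nat_lit 120))) (PT.nd (nat_lit 78) (PT.lf (nat_lit 988) (nat_lit 6) (nat_lit 13) (nat_lit 0) (nat_lit 196) (nat_lit 195) (nat_lit 119)) (PT.lf (nat_lit 836) (nat_lit 6) (nat_lit 11) (nat_lit 0) (nat_lit 197) (nat_lit 195) (nat_lit 118))))) (PT.nd (nat_lit 312) (PT.nd (nat_lit 156) (PT.nd (nat_lit 78) (PT.lf (nat_lit 608) (nat_lit 6) (nat_lit 8) (nat_lit 5) (nat_lit 116) (nat_lit 196) (nat_lit 198)) (PT.lf (nat_lit 760) (nat_lit 6) (nat_lit 10) (nat_lit 5) (nat_lit 117) (nat_lit 196) (nat_lit 197))) (PT.nd (nat_lit 78) (PT.lf (nat_lit 912) (nat_lit 3) (nat_lit 12) (nat_lit 4) (nat_lit 118) (nat_lit 196) (nat_lit 196)) (PT.lf (nat_lit 988) (nat_lit 6) (nat_lit 13) (nat_lit 4) (nat_lit 119) (nat_lit 196) (nat_lit 195)))) (PT.nd (nat_lit 5850) (PT.nd (nat_lit 5772) (PT.lf (nat_lit 1064) (nat_lit 6) (nat_lit 14) (nat_lit 4) (nat_lit 120) (nat_lit 196) (nat_lit 194)) (PT.lf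 (nat_lit 1064) (nat_lit 6) (nat_lit 14) (nat_lit 2) (nat_lit 194) (nat_lit 196) (nat_lit 120))) (PT.nd (nat_lit 78) (PT.lf (nat_lit 988) (nat_lit 6) (nat_lit 13) (nat_lit 2) (nat_lit 195) (nat_lit 196) (nat_lit 119)) (PT.lf (nat_lit 912) (nat_lit 3) (nat_lit 12) (nat_lit 0) (nat_lit 196) (nat_lit 196) (nat_lit 118))))))) (PT.nd (nat_lit 99918) (PT.nd (nat_lit 52962) (PT.nd (nat_lit 46722) (PT.nd (nat_lit 78) (PT.lf (nat_lit 760) (nat_lit 6) (nat_lit 10) (nat_lit 0) (nat_lit 197) (nat_lit 196) (nat_lit 117)) (PT.nd (nat_lit 46566) (PT.lf (nat_lit 608) (nat_lit 6) (nat_lit 8) (nat_lit 0) (nat_lit 198) (nat_lit 196) (nat_lit 116)) (PT.lf (nat_lit 380) (nat_lit 6) (nat_lit 5) (nat_lit 5) (nat_lit 114) (nat_lit 197) (nat_lit 199)))) (PT.nd (nat_lit 156) (PT.nd (nat_lit 78) (PT.lf (nat_lit 532) (nat_lit 6) (nat_lit 7) (nat_lit 5) (nat_lit 115) (nat_lit 197) (nat_lit 198)) (PT.lf (nat_lit 684) (nat_lit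 3) (nat_lit 9) (nat_lit 4) (nat_lit 116) (nat_lit 197) (nat_lit 197))) (PT.nd (nat_lit 78) (PT.lf (nat_lit 760) (nat_lit 6) (nat_lit 10) (nat_lit 4) (nat_lit 117) (nat_lit 197) (nat_lit 196)) (PT.lf (nat_lit 836) (nat_lit 6) (nat_lit 11) (nat_lit 4) (nat_lit 118) (nat_lit 197) (nat_lit 195))))) (PT.nd (nat_lit 312) (PT.nd (nat_lit 156) (PT.nd (nat_lit 78) (PT.lf (nat_lit 836) (nat_lit 6) (nat_lit 11) (nat_lit 2) (nat_lit 195) (nat_lit 197) (nat_lit 118)) (PT.lf (nat_lit 760) (nat_lit 6) (nat_lit 10) (nat_lit 2) (nat_lit 196) (nat_lit 197) (nat_lit 117))) (PT.nd (nat_lit 78) (PT.lf (nat_lit 684) (nat_lit 3) (nat_lit 9) (nat_lit 0) (nat_lit 197) (nat_lit 197) (nat_lit 116)) (PT.lf (nat_lit 532) (nat_lit 6) (nat_lit 7) (nat_lit 0) (nat_lit 198) (nat_lit 197) (nat_lit 115)))) (PT.nd (nat_lit 46488) (PT.nd (nat_lit 46410) (PT.lf (nat_lit 380) (nat_lit 6) (nat_lit 5) (nat_lit 0) (nat_lit 199) (nat_lit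 197) (nat_lit 114)) (PT.lf (nat_lit 304) (nat_lit 6) (nat_lit 4) (nat_lit 5) (nat_lit 113) (nat_lit 198) (nat_lit 199))) (PT.nd (nat_lit 78) (PT.lf (nat_lit 456) (nat_lit 3) (nat_lit 6) (nat_lit 4) (nat_lit 114) (nat_lit 198) (nat_lit 198)) (PT.lf (nat_lit 532) (nat_lit 6) (nat_lit 7) (nat_lit 4) (nat_lit 115) (nat_lit 198) (nat_lit 197)))))) (PT.nd (nat_lit 52884) (PT.nd (nat_lit 6396) (PT.nd (nat_lit 6240) (PT.lf (nat_lit 608) (nat_lit 6) (nat_lit 8) (nat_lit 4) (nat_lit 116) (nat_lit 198) (nat_lit 196)) (PT.nd (nat_lit 78) (PT.lf (nat_lit 608) (nat_lit 6) (nat_lit 8) (nat_lit 2) (nat_lit 196) (nat_lit 198) (nat_lit 116)) (PT.lf (nat_lit 532) (nat_lit 6) (nat_lit 7) (nat_lit 2) (nat_lit 197) (nat_lit 198) (nat_lit 115)))) (PT.nd (nat_lit 46332) (PT.nd (nat_lit 78) (PT.lf (nat_lit 456) (nat_lit 3) (nat_lit 6) (nat_lit 0) (nat_lit 198) (nat_lit 198) (nat_lit 114)) (PT.lf (nat_lit 304) (nat_lit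 6) (nat_lit 4) (nat_lit 0) (nat_lit 199) (nat_lit 198) (nat_lit 113))) (PT.nd (nat_lit 78) (PT.lf (nat_lit 76) (nat_lit 6) (nat_lit 1) (nat_lit 5) (nat_lit 111) (nat_lit 199) (nat_lit 200)) (PT.lf (nat_lit 228) (nat_lit 3) (nat_lit 3) (nat_lit 4) (nat_lit 112) (nat_lit 199) (nat_lit 199))))) (PT.nd (nat_lit 6708) (PT.nd (nat_lit 6552) (PT.nd (nat_lit 78) (PT.lf (nat_lit 304) (nat_lit 6) (nat_lit 4) (nat_lit 4) (nat_lit 113) (nat_lit 199) (nat_lit 198)) (PT.lf (nat_lit 380) (nat_lit 6) (nat_lit 5) (nat_lit 4) (nat_lit 114) (nat_lit 199) (nat_lit 197))) (PT.nd (nat_lit 78) (PT.lf (nat_lit 380) (nat_lit 6) (nat_lit 5) (nat_lit 2) (nat_lit 197) (nat_lit 199) (nat_lit 114)) (PT.lf (nat_lit 304) (nat_lit 6) (nat_lit 4) (nat_lit 2) (nat_lit 198) (nat_lit 199) (nat_lit 113)))) (PT.nd (nat_lit 46254) (PT.nd (nat_lit 78) (PT.lf (nat_lit 228) (nat_lit 3) (nat_lit 3) (nat_lit 0) (nat_lit 199) (nat_lit 199)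 (nat_lit 112)) (PT.lf (nat_lit 76) (nat_lit 6) (nat_lit 1) (nat_lit 0) (nat_lit 200) (nat_lit 199) (nat_lit 111))) (PT.nd (nat_lit 6864) (PT.lf (nat_lit 76) (nat_lit 6) (nat_lit 1) (nat_lit 4) (nat_lit 111) (nat_lit 200) (nat_lit 199)) (PT.lf (nat_lit 76) (nat_lit 6) (nat_lit 1) (nat_lit 2) (nat_lit 199) (nat_lit 200) (nat_lit 111))))))))
noncomputable def xc0 : XT := (XT.nd (nat_lit 211848) (nat_lit 0) (nat_lit 0) (XT.nd (nat_lit 106236) (nat_lit 0) (nat_lit 0) (XT.nd (nat_lit 53196) (nat_lit 0) (nat_lit 0) (XT.nd (nat_lit 52962) (nat_lit 0) (nat_lit 0) (XT.nd (nat_lit 78) (nat_lit 0) (nat_lit 0) (XT.lf (nat_lit 0) (nat_lit 20033621926) (nat_lit 76) (nat_lit 11737770050) (nat_lit 76) (nat_lit 11737770050) (nat_lit 3) (nat_lit 4) (nat_lit 4) (nat_lit 5) (nat_lit 4) (nat_lit 4) (nat_lit 436) (nat_lit 292) (nat_lit 292)) (XT.nd (nat_lit 78) (nat_lit 0) (nat_lit 0) (XT.lf (nat_lit 0) (nat_lit 58095668230)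 (nat_lit 76) (nat_lit 16577241154) (nat_lit 76) (nat_lit 16453684945) (nat_lit 3) (nat_lit 4) (nat_lit 4) (nat_lit 5) (nat_lit 4) (nat_lit 4) (nat_lit 437) (nat_lit 292) (nat_lit 291)) (XT.lf (nat_lit 0) (nat_lit 76520884372) (nat_lit 76) (nat_lit 9584131729) (nat_lit 76) (nat_lit 9342902940) (nat_lit 3) (nat_lit 4) (nat_lit 4) (nat_lit 5) (nat_lit 4) (nat_lit 4) (nat_lit 438) (nat_lit 292) (nat_lit 290)))) (XT.nd (nat_lit 78) (nat_lit 0) (nat_lit 0) (XT.lf (nat_lit 0) (nat_lit 2650652916) (nat_lit 76) (nat_lit 18524222315) (nat_lit 76) (nat_lit 18524222315) (nat_lit 3) (nat_lit 4) (nat_lit 4) (nat_lit 5) (nat_lit 4) (nat_lit 4) (nat_lit 434) (nat_lit 293) (nat_lit 293)) (XT.nd (nat_lit 78) (nat_lit 0) (nat_lit 0) (XT.lf (nat_lit 0) (nat_lit 22392686419) (nat_lit 76) (nat_lit 30425187111) (nat_lit 76) (nat_lit 30295453092) (nat_lit 3) (nat_lit 4) (nat_lit 4) (nat_lit 5) (nat_lit 4) (nat_lit 4)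 (nat_lit 435) (nat_lit 293) (nat_lit 292)) (XT.lf (nat_lit 0) (nat_lit 39808775107) (nat_lit 76) (nat_lit 23733376410) (nat_lit 76) (nat_lit 23480086181) (nat_lit 3) (nat_lit 4) (nat_lit 4) (nat_lit 5) (nat_lit 4) (nat_lit 4) (nat_lit 436) (nat_lit 293) (nat_lit 291))))) (XT.nd (nat_lit 52806) (nat_lit 0) (nat_lit 0) (XT.nd (nat_lit 78) (nat_lit 0) (nat_lit 0) (XT.lf (nat_lit 0) (nat_lit 57591038775) (nat_lit 76) (nat_lit 16957079643) (nat_lit 76) (nat_lit 16586116834) (nat_lit 3) (nat_lit 4) (nat_lit 4) (nat_lit 5) (nat_lit 4) (nat_lit 4) (nat_lit 437) (nat_lit 293) (nat_lit 290)) (XT.nd (nat_lit 52650) (nat_lit 0) (nat_lit 76) (XT.lf (nat_lit 0) (nat_lit 75781816146) (nat_lit 76) (nat_lit 10080162771) (nat_lit 76) (nat_lit 9597130838) (nat_lit 3) (nat_lit 4) (nat_lit 4) (nat_lit 5) (nat_lit 4) (nat_lit 4) (nat_lit 438) (nat_lit 293) (nat_lit 289)) (XT.lf (nat_lit 0) (nat_lit 11314927133) (nat_lit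 152) (nat_lit 13621146510) (nat_lit 0) (nat_lit 11314927133) (nat_lit 4) (nat_lit 5) (nat_lit 6) (nat_lit 4) (nat_lit 4) (nat_lit 4) (nat_lit 432) (nat_lit 294) (nat_lit 294)))) (XT.nd (nat_lit 78) (nat_lit 76) (nat_lit 0) (XT.lf (nat_lit 0) (nat_lit 32359682224) (nat_lit 152) (nat_lit 11281535731) (nat_lit 0) (nat_lit 32223461504) (nat_lit 4) (nat_lit 5) (nat_lit 6) (nat_lit 4) (nat_lit 4) (nat_lit 4) (nat_lit 433) (nat_lit 294) (nat_lit 293)) (XT.nd (nat_lit 78) (nat_lit 0) (nat_lit 0) (XT.lf (nat_lit 0) (nat_lit 5029913651) (nat_lit 76) (nat_lit 37319172754) (nat_lit 76) (nat_lit 37053218014) (nat_lit 3) (nat_lit 4) (nat_lit 4) (nat_lit 5) (nat_lit 4) (nat_lit 4) (nat_lit 434) (nat_lit 294) (nat_lit 292)) (XT.lf (nat_lit 0) (nat_lit 21862825492) (nat_lit 76) (nat_lit 30824017525) (nat_lit 76) (nat_lit 30434506576) (nat_lit 3) (nat_lit 4) (nat_lit 4) (nat_lit 5) (nat_lit 4) (nat_lit 4) (nat_lit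 435) (nat_lit 294) (nat_lit 291)))))) (XT.nd (nat_lit 52884) (nat_lit 0) (nat_lit 0) (XT.nd (nat_lit 52650) (nat_lit 0) (nat_lit 76) (XT.nd (nat_lit 78) (nat_lit 0) (nat_lit 0) (XT.lf (nat_lit 0) (nat_lit 39032753471) (nat_lit 76) (nat_lit 24254209004) (nat_lit 76) (nat_lit 23747025474) (nat_lit 3) (nat_lit 4) (nat_lit 4) (nat_lit 5) (nat_lit 4) (nat_lit 4) (nat_lit 436) (nat_lit 294) (nat_lit 290)) (XT.nd (nat_lit 78) (nat_lit 0) (nat_lit 0) (XT.lf (nat_lit 0) (nat_lit 56580578368) (nat_lit 76) (nat_lit 17594104790) (nat_lit 76) (nat_lit 16974852136) (nat_lit 3) (nat_lit 4) (nat_lit 4) (nat_lit 5) (nat_lit 4) (nat_lit 4) (nat_lit 437) (nat_lit 294) (nat_lit 289)) (XT.lf (nat_lit 0) (nat_lit 74548080719) (nat_lit 76) (nat_lit 10827847491) (nat_lit 76) (nat_lit 10101862339) (nat_lit 3) (nat_lit 4) (nat_lit 4) (nat_lit 5) (nat_lit 4) (nat_lit 4) (nat_lit 438) (nat_lit 294) (nat_lit 288)))) (XT.nd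 (nat_lit 78) (nat_lit 0) (nat_lit 0) (XT.lf (nat_lit 0) (nat_lit 2001364486) (nat_lit 152) (nat_lit 29132155852) (nat_lit 0) (nat_lit 2001364486) (nat_lit 4) (nat_lit 5) (nat_lit 6) (nat_lit 4) (nat_lit 4) (nat_lit 4) (nat_lit 430) (nat_lit 295) (nat_lit 295)) (XT.nd (nat_lit 78) (nat_lit 0) (nat_lit 0) (XT.lf (nat_lit 0) (nat_lit 13231117426) (nat_lit 152) (nat_lit 42988511753) (nat_lit 0) (nat_lit 13088085670) (nat_lit 4) (nat_lit 5) (nat_lit 6) (nat_lit 4) (nat_lit 4) (nat_lit 4) (nat_lit 431) (nat_lit 295) (nat_lit 294)) (XT.lf (nat_lit 0) (nat_lit 22631896234) (nat_lit 152) (nat_lit 27521694181) (nat_lit 0) (nat_lit 22352643756) (nat_lit 4) (nat_lit 5) (nat_lit 6) (nat_lit 4) (nat_lit 4) (nat_lit 4) (nat_lit 432) (nat_lit 295) (nat_lit 293))))) (XT.nd (nat_lit 234) (nat_lit 0) (nat_lit 0) (XT.nd (nat_lit 78) (nat_lit 76) (nat_lit 0) (XT.lf (nat_lit 0) (nat_lit 32227448200) (nat_lit 152)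 (nat_lit 11827033235) (nat_lit 0) (nat_lit 31818461703) (nat_lit 4) (nat_lit 5) (nat_lit 6) (nat_lit 4) (nat_lit 4) (nat_lit 4) (nat_lit 433) (nat_lit 295) (nat_lit 292)) (XT.nd (nat_lit 78) (nat_lit 0) (nat_lit 0) (XT.lf (nat_lit 0) (nat_lit 4215090933) (nat_lit 76) (nat_lit 37866046977) (nat_lit 76) (nat_lit 37333504271) (nat_lit 3) (nat_lit 4) (nat_lit 4) (nat_lit 5) (nat_lit 4) (nat_lit 4) (nat_lit 434) (nat_lit 295) (nat_lit 291)) (XT.lf (nat_lit 0) (nat_lit 20801842064) (nat_lit 76) (nat_lit 31492893929) (nat_lit 76) (nat_lit 30842678642) (nat_lit 3) (nat_lit 4) (nat_lit 4) (nat_lit 5) (nat_lit 4) (nat_lit 4) (nat_lit 435) (nat_lit 295) (nat_lit 290)))) (XT.nd (nat_lit 78) (nat_lit 0) (nat_lit 0) (XT.lf (nat_lit 0) (nat_lit 37737331272) (nat_lit 76) (nat_lit 25039277960) (nat_lit 76) (nat_lit 24276993550) (nat_lit 3) (nat_lit 4) (nat_lit 4) (nat_lit 5) (nat_lit 4) (nat_lit 4) (nat_lit 436)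 (nat_lit 295) (nat_lit 289)) (XT.nd (nat_lit 78) (nat_lit 0) (nat_lit 0) (XT.lf (nat_lit 0) (nat_lit 55061881149) (nat_lit 76) (nat_lit 18489833320) (nat_lit 76) (nat_lit 17620816411) (nat_lit 3) (nat_lit 4) (nat_lit 4) (nat_lit 5) (nat_lit 4) (nat_lit 4) (nat_lit 437) (nat_lit 295) (nat_lit 288)) (XT.lf (nat_lit 0) (nat_lit 72816740624) (nat_lit 76) (nat_lit 11828966092) (nat_lit 76) (nat_lit 10858299184) (nat_lit 3) (nat_lit 4) (nat_lit 4) (nat_lit 5) (nat_lit 4) (nat_lit 4) (nat_lit 438) (nat_lit 295) (nat_lit 287))))))) (XT.nd (nat_lit 53040) (nat_lit 0) (nat_lit 0) (XT.nd (nat_lit 468) (nat_lit 76) (nat_lit 0) (XT.nd (nat_lit 234) (nat_lit 0) (nat_lit 0) (XT.nd (nat_lit 78) (nat_lit 152) (nat_lit 0) (XT.lf (nat_lit 0) (nat_lit 16728945683) (nat_lit 76) (nat_lit 6792142844) (nat_lit 76) (nat_lit 6792142844) (nat_lit 6) (nat_lit 4) (nat_lit 7) (nat_lit 5) (nat_lit 7) (nat_lit 4) (nat_lit 428)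 (nat_lit 296) (nat_lit 296)) (XT.nd (nat_lit 78) (nat_lit 152) (nat_lit 0) (XT.lf (nat_lit 0) (nat_lit 53477111039) (nat_lit 76) (nat_lit 5028473156) (nat_lit 76) (nat_lit 4873784312) (nat_lit 6) (nat_lit 4) (nat_lit 7) (nat_lit 5) (nat_lit 7) (nat_lit 4) (nat_lit 429) (nat_lit 296) (nat_lit 295)) (XT.lf (nat_lit 0) (nat_lit 4004873036) (nat_lit 152) (nat_lit 58557682924) (nat_lit 0) (nat_lit 3711657935) (nat_lit 4) (nat_lit 5) (nat_lit 6) (nat_lit 4) (nat_lit 4) (nat_lit 4) (nat_lit 430) (nat_lit 296) (nat_lit 294)))) (XT.nd (nat_lit 78) (nat_lit 0) (nat_lit 0) (XT.lf (nat_lit 0) (nat_lit 13092271701) (nat_lit 152) (nat_lit 43561284131) (nat_lit 0) (nat_lit 12662835879) (nat_lit 4) (nat_lit 5) (nat_lit 6) (nat_lit 4) (nat_lit 4) (nat_lit 4) (nat_lit 431) (nat_lit 296) (nat_lit 293)) (XT.nd (nat_lit 78) (nat_lit 0) (nat_lit 0) (XT.lf (nat_lit 0) (nat_lit 22358774517) (nat_lit 152) (nat_lit 28360562903)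 (nat_lit 0) (nat_lit 21799604676) (nat_lit 4) (nat_lit 5) (nat_lit 6) (nat_lit 4) (nat_lit 4) (nat_lit 4) (nat_lit 432) (nat_lit 296) (nat_lit 292)) (XT.lf (nat_lit 0) (nat_lit 31826444587) (nat_lit 152) (nat_lit 12919327045) (nat_lit 0) (nat_lit 31143718537) (nat_lit 4) (nat_lit 5) (nat_lit 6) (nat_lit 4) (nat_lit 4) (nat_lit 4) (nat_lit 433) (nat_lit 296) (nat_lit 291))))) (XT.nd (nat_lit 234) (nat_lit 0) (nat_lit 0) (XT.nd (nat_lit 78) (nat_lit 0) (nat_lit 0) (XT.lf (nat_lit 0) (nat_lit 2854897624) (nat_lit 76) (nat_lit 38690369381) (nat_lit 76) (nat_lit 37889970751) (nat_lit 3) (nat_lit 4) (nat_lit 4) (nat_lit 5) (nat_lit 4) (nat_lit 4) (nat_lit 434) (nat_lit 296) (nat_lit 290)) (XT.nd (nat_lit 78) (nat_lit 0) (nat_lit 0) (XT.lf (nat_lit 0) (nat_lit 19207209985) (nat_lit 76) (nat_lit 32433408885) (nat_lit 76) (nat_lit 31520941131) (nat_lit 3) (nat_lit 4) (nat_lit 4) (nat_lit 5) (nat_lit 4)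 (nat_lit 4) (nat_lit 435) (nat_lit 296) (nat_lit 289)) (XT.lf (nat_lit 0) (nat_lit 35919424172) (nat_lit 76) (nat_lit 26090452491) (nat_lit 76) (nat_lit 25071252237) (nat_lit 3) (nat_lit 4) (nat_lit 4) (nat_lit 5) (nat_lit 4) (nat_lit 4) (nat_lit 436) (nat_lit 296) (nat_lit 288)))) (XT.nd (nat_lit 78) (nat_lit 0) (nat_lit 0) (XT.lf (nat_lit 0) (nat_lit 53031331174) (nat_lit 76) (nat_lit 19646397921) (nat_lit 76) (nat_lit 18525547668) (nat_lit 3) (nat_lit 4) (nat_lit 4) (nat_lit 5) (nat_lit 4) (nat_lit 4) (nat_lit 437) (nat_lit 296) (nat_lit 287)) (XT.nd (nat_lit 52182) (nat_lit 0) (nat_lit 304) (XT.lf (nat_lit 0) (nat_lit 70583673624) (nat_lit 76) (nat_lit 13085902188) (nat_lit 76) (nat_lit 11868242413) (nat_lit 3) (nat_lit 4) (nat_lit 4) (nat_lit 5) (nat_lit 4) (nat_lit 4) (nat_lit 438) (nat_lit 296) (nat_lit 286)) (XT.lf (nat_lit 0) (nat_lit 12609790407) (nat_lit 152) (nat_lit 2544315303) (nat_lit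 0) (nat_lit 12609790407) (nat_lit 7) (nat_lit 5) (nat_lit 9) (nat_lit 4) (nat_lit 7) (nat_lit 4) (nat_lit 426) (nat_lit 297) (nat_lit 297)))))) (XT.nd (nat_lit 468) (nat_lit 76) (nat_lit 0) (XT.nd (nat_lit 234) (nat_lit 152) (nat_lit 0) (XT.nd (nat_lit 78) (nat_lit 0) (nat_lit 0) (XT.lf (nat_lit 0) (nat_lit 13814241808) (nat_lit 76) (nat_lit 22180798287) (nat_lit 76) (nat_lit 22018375000) (nat_lit 6) (nat_lit 4) (nat_lit 7) (nat_lit 5) (nat_lit 7) (nat_lit 4) (nat_lit 427) (nat_lit 297) (nat_lit 296)) (XT.nd (nat_lit 78) (nat_lit 0) (nat_lit 0) (XT.lf (nat_lit 0) (nat_lit 33161982896) (nat_lit 76) (nat_lit 13893041290) (nat_lit 76) (nat_lit 13575929158) (nat_lit 6) (nat_lit 4) (nat_lit 7) (nat_lit 5) (nat_lit 7) (nat_lit 4) (nat_lit 428) (nat_lit 297) (nat_lit 295)) (XT.lf (nat_lit 0) (nat_lit 52899384980) (nat_lit 76) (nat_lit 5476592868) (nat_lit 76) (nat_lit 5012158027) (nat_lit 6) (nat_lit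 4) (nat_lit 7) (nat_lit 5) (nat_lit 7) (nat_lit 4) (nat_lit 429) (nat_lit 297) (nat_lit 294)))) (XT.nd (nat_lit 78) (nat_lit 0) (nat_lit 0) (XT.lf (nat_lit 0) (nat_lit 3718095234) (nat_lit 152) (nat_lit 59438495082) (nat_lit 0) (nat_lit 3130966901) (nat_lit 4) (nat_lit 5) (nat_lit 6) (nat_lit 4) (nat_lit 4) (nat_lit 4) (nat_lit 430) (nat_lit 297) (nat_lit 293)) (XT.nd (nat_lit 78) (nat_lit 0) (nat_lit 0) (XT.lf (nat_lit 0) (nat_lit 12671217908) (nat_lit 152) (nat_lit 44708192633) (nat_lit 0) (nat_lit 11954355555) (nat_lit 4) (nat_lit 5) (nat_lit 6) (nat_lit 4) (nat_lit 4) (nat_lit 4) (nat_lit 431) (nat_lit 297) (nat_lit 292)) (XT.lf (nat_lit 0) (nat_lit 21809838828) (nat_lit 152) (nat_lit 29760896493) (nat_lit 0) (nat_lit 20969420266) (nat_lit 4) (nat_lit 5) (nat_lit 6) (nat_lit 4) (nat_lit 4) (nat_lit 4) (nat_lit 432) (nat_lit 297) (nat_lit 291))))) (XT.nd (nat_lit 234) (nat_lit 0) (nat_lit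 0) (XT.nd (nat_lit 78) (nat_lit 76) (nat_lit 0) (XT.lf (nat_lit 0) (nat_lit 31155716616) (nat_lit 152) (nat_lit 14561017862) (nat_lit 0) (nat_lit 30197625474) (nat_lit 4) (nat_lit 5) (nat_lit 6) (nat_lit 4) (nat_lit 4) (nat_lit 4) (nat_lit 433) (nat_lit 297) (nat_lit 290)) (XT.nd (nat_lit 78) (nat_lit 0) (nat_lit 0) (XT.lf (nat_lit 0) (nat_lit 946095170) (nat_lit 76) (nat_lit 39794102639) (nat_lit 76) (nat_lit 38723942372) (nat_lit 3) (nat_lit 4) (nat_lit 4) (nat_lit 5) (nat_lit 4) (nat_lit 4) (nat_lit 434) (nat_lit 297) (nat_lit 289)) (XT.lf (nat_lit 0) (nat_lit 17075132510) (nat_lit 76) (nat_lit 33647801716) (nat_lit 76) (nat_lit 32470908951) (nat_lit 3) (nat_lit 4) (nat_lit 4) (nat_lit 5) (nat_lit 4) (nat_lit 4) (nat_lit 435) (nat_lit 297) (nat_lit 288)))) (XT.nd (nat_lit 156) (nat_lit 0) (nat_lit 0) (XT.nd (nat_lit 78) (nat_lit 0) (nat_lit 0) (XT.lf (nat_lit 0) (nat_lit 33574703822) (nat_lit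 76) (nat_lit 27410235392) (nat_lit 76) (nat_lit 26131692628) (nat_lit 3) (nat_lit 4) (nat_lit 4) (nat_lit 5) (nat_lit 4) (nat_lit 4) (nat_lit 436) (nat_lit 297) (nat_lit 287)) (XT.lf (nat_lit 0) (nat_lit 50484093798) (nat_lit 76) (nat_lit 21066552318) (nat_lit 76) (nat_lit 19691200031) (nat_lit 3) (nat_lit 4) (nat_lit 4) (nat_lit 5) (nat_lit 4) (nat_lit 4) (nat_lit 437) (nat_lit 297) (nat_lit 286))) (XT.nd (nat_lit 52026) (nat_lit 0) (nat_lit 304) (XT.lf (nat_lit 0) (nat_lit 67843562892) (nat_lit 76) (nat_lit 14601648486) (nat_lit 76) (nat_lit 13134096653) (nat_lit 3) (nat_lit 4) (nat_lit 4) (nat_lit 5) (nat_lit 4) (nat_lit 4) (nat_lit 438) (nat_lit 297) (nat_lit 285)) (XT.lf (nat_lit 0) (nat_lit 2429846146) (nat_lit 152) (nat_lit 20600732145) (nat_lit 0) (nat_lit 2429846146) (nat_lit 7) (nat_lit 5) (nat_lit 9) (nat_lit 4) (nat_lit 7) (nat_lit 4) (nat_lit 424) (nat_lit 298) (nat_lit 298))))))))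
noncomputable def xc1 : XT := (XT.nd (nat_lit 53742) (nat_lit 0) (nat_lit 0) (XT.nd (nat_lit 936) (nat_lit 0) (nat_lit 0) (XT.nd (nat_lit 468) (nat_lit 76) (nat_lit 0) (XT.nd (nat_lit 234) (nat_lit 152) (nat_lit 0) (XT.nd (nat_lit 78) (nat_lit 76) (nat_lit 0) (XT.lf (nat_lit 0) (nat_lit 14953450670) (nat_lit 152) (nat_lit 23429412256) (nat_lit 0) (nat_lit 14782906218) (nat_lit 7) (nat_lit 5) (nat_lit 9) (nat_lit 4) (nat_lit 7) (nat_lit 4) (nat_lit 425) (nat_lit 298) (nat_lit 297)) (XT.nd (nat_lit 78) (nat_lit 76) (nat_lit 0) (XT.lf (nat_lit 0) (nat_lit 25236056979) (nat_lit 152) (nat_lit 5393271548) (nat_lit 0) (nat_lit 24903089241) (nat_lit 7) (nat_lit 5) (nat_lit 9) (nat_lit 4) (nat_lit 7) (nat_lit 4) (nat_lit 426) (nat_lit 298) (nat_lit 296)) (XT.lf (nat_lit 0) (nat_lit 13207629446) (nat_lit 76) (nat_lit 22651323984) (nat_lit 76) (nat_lit 22163667401) (nat_lit 6) (nat_lit 4) (nat_lit 7) (nat_lit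 5) (nat_lit 7) (nat_lit 4) (nat_lit 427) (nat_lit 298) (nat_lit 295)))) (XT.nd (nat_lit 78) (nat_lit 152) (nat_lit 0) (XT.lf (nat_lit 0) (nat_lit 32273552944) (nat_lit 76) (nat_lit 14502931097) (nat_lit 76) (nat_lit 13867951804) (nat_lit 6) (nat_lit 4) (nat_lit 7) (nat_lit 5) (nat_lit 7) (nat_lit 4) (nat_lit 428) (nat_lit 298) (nat_lit 294)) (XT.nd (nat_lit 78) (nat_lit 152) (nat_lit 0) (XT.lf (nat_lit 0) (nat_lit 51742557323) (nat_lit 76) (nat_lit 6219210398) (nat_lit 76) (nat_lit 5443923763) (nat_lit 6) (nat_lit 4) (nat_lit 7) (nat_lit 5) (nat_lit 7) (nat_lit 4) (nat_lit 429) (nat_lit 298) (nat_lit 293)) (XT.lf (nat_lit 0) (nat_lit 3141712760) (nat_lit 152) (nat_lit 60908845351) (nat_lit 0) (nat_lit 2259273270) (nat_lit 4) (nat_lit 5) (nat_lit 6) (nat_lit 4) (nat_lit 4) (nat_lit 4) (nat_lit 430) (nat_lit 298) (nat_lit 292))))) (XT.nd (nat_lit 234) (nat_lit 76) (nat_lit 0) (XT.nd (nat_lit 78)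 (nat_lit 0) (nat_lit 0) (XT.lf (nat_lit 0) (nat_lit 11966953538) (nat_lit 152) (nat_lit 46431967991) (nat_lit 0) (nat_lit 10960957839) (nat_lit 4) (nat_lit 5) (nat_lit 6) (nat_lit 4) (nat_lit 4) (nat_lit 4) (nat_lit 431) (nat_lit 298) (nat_lit 291)) (XT.nd (nat_lit 78) (nat_lit 0) (nat_lit 0) (XT.lf (nat_lit 0) (nat_lit 20983782176) (nat_lit 152) (nat_lit 31726029078) (nat_lit 0) (nat_lit 19860113897) (nat_lit 4) (nat_lit 5) (nat_lit 6) (nat_lit 4) (nat_lit 4) (nat_lit 4) (nat_lit 432) (nat_lit 298) (nat_lit 290)) (XT.lf (nat_lit 0) (nat_lit 30213667316) (nat_lit 152) (nat_lit 16756014474) (nat_lit 0) (nat_lit 28977929912) (nat_lit 4) (nat_lit 5) (nat_lit 6) (nat_lit 4) (nat_lit 4) (nat_lit 4) (nat_lit 433) (nat_lit 298) (nat_lit 289)))) (XT.nd (nat_lit 78) (nat_lit 76) (nat_lit 0) (XT.lf (nat_lit 0) (nat_lit 39678584872) (nat_lit 152) (nat_lit 1486281285) (nat_lit 0) (nat_lit 38336114970) (nat_lit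 4) (nat_lit 5) (nat_lit 6) (nat_lit 4) (nat_lit 4) (nat_lit 4) (nat_lit 434) (nat_lit 298) (nat_lit 288)) (XT.nd (nat_lit 78) (nat_lit 0) (nat_lit 0) (XT.lf (nat_lit 0) (nat_lit 14400533266) (nat_lit 76) (nat_lit 35138963833) (nat_lit 76) (nat_lit 33694843931) (nat_lit 3) (nat_lit 4) (nat_lit 4) (nat_lit 5) (nat_lit 4) (nat_lit 4) (nat_lit 435) (nat_lit 298) (nat_lit 287)) (XT.lf (nat_lit 0) (nat_lit 30697587553) (nat_lit 76) (nat_lit 29001769005) (nat_lit 76) (nat_lit 27460839580) (nat_lit 3) (nat_lit 4) (nat_lit 4) (nat_lit 5) (nat_lit 4) (nat_lit 4) (nat_lit 436) (nat_lit 298) (nat_lit 286)))))) (XT.nd (nat_lit 52260) (nat_lit 0) (nat_lit 76) (XT.nd (nat_lit 52026) (nat_lit 0) (nat_lit 304) (XT.nd (nat_lit 78) (nat_lit 0) (nat_lit 0) (XT.lf (nat_lit 0) (nat_lit 47414104172) (nat_lit 76) (nat_lit 22753677831) (nat_lit 76) (nat_lit 21120548861) (nat_lit 3) (nat_lit 4) (nat_lit 4) (nat_lit 5)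 (nat_lit 4) (nat_lit 4) (nat_lit 437) (nat_lit 298) (nat_lit 285)) (XT.nd (nat_lit 51870) (nat_lit 0) (nat_lit 456) (XT.lf (nat_lit 0) (nat_lit 64589884354) (nat_lit 76) (nat_lit 16379813904) (nat_lit 76) (nat_lit 14658875843) (nat_lit 3) (nat_lit 4) (nat_lit 4) (nat_lit 5) (nat_lit 4) (nat_lit 4) (nat_lit 438) (nat_lit 298) (nat_lit 284)) (XT.lf (nat_lit 0) (nat_lit 9010734276) (nat_lit 76) (nat_lit 7182925585) (nat_lit 76) (nat_lit 7182925585) (nat_lit 9) (nat_lit 4) (nat_lit 10) (nat_lit 5) (nat_lit 10) (nat_lit 4) (nat_lit 422) (nat_lit 299) (nat_lit 299)))) (XT.nd (nat_lit 78) (nat_lit 152) (nat_lit 0) (XT.lf (nat_lit 0) (nat_lit 38924750069) (nat_lit 76) (nat_lit 5023116249) (nat_lit 76) (nat_lit 4838672425) (nat_lit 9) (nat_lit 4) (nat_lit 10) (nat_lit 5) (nat_lit 10) (nat_lit 4) (nat_lit 423) (nat_lit 299) (nat_lit 298)) (XT.nd (nat_lit 78) (nat_lit 0) (nat_lit 0) (XT.lf (nat_lit 0) (nat_lit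 4876992266) (nat_lit 152) (nat_lit 41521337278) (nat_lit 0) (nat_lit 4527376140) (nat_lit 7) (nat_lit 5) (nat_lit 9) (nat_lit 4) (nat_lit 7) (nat_lit 4) (nat_lit 424) (nat_lit 299) (nat_lit 297)) (XT.lf (nat_lit 0) (nat_lit 14816682357) (nat_lit 152) (nat_lit 24053926185) (nat_lit 0) (nat_lit 14304642945) (nat_lit 7) (nat_lit 5) (nat_lit 9) (nat_lit 4) (nat_lit 7) (nat_lit 4) (nat_lit 425) (nat_lit 299) (nat_lit 296))))) (XT.nd (nat_lit 234) (nat_lit 152) (nat_lit 0) (XT.nd (nat_lit 78) (nat_lit 76) (nat_lit 0) (XT.lf (nat_lit 0) (nat_lit 24952556965) (nat_lit 152) (nat_lit 6307919706) (nat_lit 0) (nat_lit 24285828708) (nat_lit 7) (nat_lit 5) (nat_lit 9) (nat_lit 4) (nat_lit 7) (nat_lit 4) (nat_lit 426) (nat_lit 299) (nat_lit 295)) (XT.nd (nat_lit 78) (nat_lit 0) (nat_lit 0) (XT.lf (nat_lit 0) (nat_lit 11992960406) (nat_lit 76) (nat_lit 23431072391) (nat_lit 76) (nat_lit 22617021424) (nat_lit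 6) (nat_lit 4) (nat_lit 7) (nat_lit 5) (nat_lit 7) (nat_lit 4) (nat_lit 427) (nat_lit 299) (nat_lit 294)) (XT.lf (nat_lit 0) (nat_lit 30790486200) (nat_lit 76) (nat_lit 15415407227) (nat_lit 76) (nat_lit 14461048918) (nat_lit 6) (nat_lit 4) (nat_lit 7) (nat_lit 5) (nat_lit 7) (nat_lit 4) (nat_lit 428) (nat_lit 299) (nat_lit 293)))) (XT.nd (nat_lit 156) (nat_lit 0) (nat_lit 0) (XT.nd (nat_lit 78) (nat_lit 152) (nat_lit 0) (XT.lf (nat_lit 0) (nat_lit 50003873717) (nat_lit 76) (nat_lit 7258093883) (nat_lit 76) (nat_lit 6170109534) (nat_lit 6) (nat_lit 4) (nat_lit 7) (nat_lit 5) (nat_lit 7) (nat_lit 4) (nat_lit 429) (nat_lit 299) (nat_lit 292)) (XT.lf (nat_lit 0) (nat_lit 2274353276) (nat_lit 152) (nat_lit 62972234566) (nat_lit 0) (nat_lit 1094501583) (nat_lit 4) (nat_lit 5) (nat_lit 6) (nat_lit 4) (nat_lit 4) (nat_lit 4) (nat_lit 430) (nat_lit 299) (nat_lit 291))) (XT.nd (nat_lit 78) (nat_lit 0)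 (nat_lit 0) (XT.lf (nat_lit 0) (nat_lit 10977801772) (nat_lit 152) (nat_lit 48736714433) (nat_lit 0) (nat_lit 9680277498) (nat_lit 4) (nat_lit 5) (nat_lit 6) (nat_lit 4) (nat_lit 4) (nat_lit 4) (nat_lit 431) (nat_lit 299) (nat_lit 290)) (XT.lf (nat_lit 0) (nat_lit 19878637761) (nat_lit 152) (nat_lit 34260639547) (nat_lit 0) (nat_lit 18469044364) (nat_lit 4) (nat_lit 5) (nat_lit 6) (nat_lit 4) (nat_lit 4) (nat_lit 4) (nat_lit 432) (nat_lit 299) (nat_lit 289))))))) (XT.nd (nat_lit 52572) (nat_lit 0) (nat_lit 0) (XT.nd (nat_lit 52104) (nat_lit 0) (nat_lit 304) (XT.nd (nat_lit 234) (nat_lit 0) (nat_lit 0) (XT.nd (nat_lit 78) (nat_lit 76) (nat_lit 0) (XT.lf (nat_lit 0) (nat_lit 28998053710) (nat_lit 152) (nat_lit 19509543062) (nat_lit 0) (nat_lit 27481727814) (nat_lit 4) (nat_lit 5) (nat_lit 6) (nat_lit 4) (nat_lit 4) (nat_lit 4) (nat_lit 433) (nat_lit 299) (nat_lit 288)) (XT.nd (nat_lit 78) (nat_lit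 76) (nat_lit 0) (XT.lf (nat_lit 0) (nat_lit 38357762515) (nat_lit 152) (nat_lit 4448303321) (nat_lit 0) (nat_lit 36739786619) (nat_lit 4) (nat_lit 5) (nat_lit 6) (nat_lit 4) (nat_lit 4) (nat_lit 4) (nat_lit 434) (nat_lit 299) (nat_lit 287)) (XT.lf (nat_lit 0) (nat_lit 11177044159) (nat_lit 76) (nat_lit 36910445622) (nat_lit 76) (nat_lit 35195660203) (nat_lit 3) (nat_lit 4) (nat_lit 4) (nat_lit 5) (nat_lit 4) (nat_lit 4) (nat_lit 435) (nat_lit 299) (nat_lit 286)))) (XT.nd (nat_lit 78) (nat_lit 0) (nat_lit 0) (XT.lf (nat_lit 0) (nat_lit 27281225089) (nat_lit 76) (nat_lit 30868842694) (nat_lit 76) (nat_lit 29061857730) (nat_lit 3) (nat_lit 4) (nat_lit 4) (nat_lit 5) (nat_lit 4) (nat_lit 4) (nat_lit 436) (nat_lit 299) (nat_lit 285)) (XT.nd (nat_lit 78) (nat_lit 0) (nat_lit 0) (XT.lf (nat_lit 0) (nat_lit 43814052797) (nat_lit 76) (nat_lit 24711791425) (nat_lit 76) (nat_lit 22816997370) (nat_lit 3)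 (nat_lit 4) (nat_lit 4) (nat_lit 5) (nat_lit 4) (nat_lit 4) (nat_lit 437) (nat_lit 299) (nat_lit 284)) (XT.lf (nat_lit 0) (nat_lit 60814891158) (nat_lit 76) (nat_lit 18424632170) (nat_lit 76) (nat_lit 16446210409) (nat_lit 3) (nat_lit 4) (nat_lit 4) (nat_lit 5) (nat_lit 4) (nat_lit 4) (nat_lit 438) (nat_lit 299) (nat_lit 283))))) (XT.nd (nat_lit 234) (nat_lit 152) (nat_lit 0) (XT.nd (nat_lit 78) (nat_lit 76) (nat_lit 0) (XT.lf (nat_lit 0) (nat_lit 5256966898) (nat_lit 152) (nat_lit 10980797241) (nat_lit 0) (nat_lit 5256966898) (nat_lit 10) (nat_lit 5) (nat_lit 12) (nat_lit 4) (nat_lit 10) (nat_lit 4) (nat_lit 420) (nat_lit 300) (nat_lit 300)) (XT.nd (nat_lit 78) (nat_lit 76) (nat_lit 0) (XT.lf (nat_lit 0) (nat_lit 21275982991) (nat_lit 152) (nat_lit 2467186594) (nat_lit 0) (nat_lit 21082316976) (nat_lit 10) (nat_lit 5) (nat_lit 12) (nat_lit 4) (nat_lit 10) (nat_lit 4) (nat_lit 421) (nat_lit 300)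 (nat_lit 299)) (XT.lf (nat_lit 0) (nat_lit 17698852293) (nat_lit 76) (nat_lit 14718668177) (nat_lit 76) (nat_lit 14340558338) (nat_lit 9) (nat_lit 4) (nat_lit 10) (nat_lit 5) (nat_lit 10) (nat_lit 4) (nat_lit 422) (nat_lit 300) (nat_lit 298)))) (XT.nd (nat_lit 78) (nat_lit 152) (nat_lit 0) (XT.lf (nat_lit 0) (nat_lit 38294880229) (nat_lit 76) (nat_lit 5527505629) (nat_lit 76) (nat_lit 4973735004) (nat_lit 9) (nat_lit 4) (nat_lit 10) (nat_lit 5) (nat_lit 10) (nat_lit 4) (nat_lit 423) (nat_lit 300) (nat_lit 297)) (XT.nd (nat_lit 78) (nat_lit 0) (nat_lit 0) (XT.lf (nat_lit 0) (nat_lit 4579317251) (nat_lit 152) (nat_lit 42481717844) (nat_lit 0) (nat_lit 3879252581) (nat_lit 7) (nat_lit 5) (nat_lit 9) (nat_lit 4) (nat_lit 7) (nat_lit 4) (nat_lit 424) (nat_lit 300) (nat_lit 296)) (XT.lf (nat_lit 0) (nat_lit 14372275641) (nat_lit 152) (nat_lit 25304440980) (nat_lit 0) (nat_lit 13517522126) (nat_lit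 7) (nat_lit 5) (nat_lit 9) (nat_lit 4) (nat_lit 7) (nat_lit 4) (nat_lit 425) (nat_lit 300) (nat_lit 295)))))) (XT.nd (nat_lit 468) (nat_lit 76) (nat_lit 0) (XT.nd (nat_lit 234) (nat_lit 152) (nat_lit 0) (XT.nd (nat_lit 78) (nat_lit 76) (nat_lit 0) (XT.lf (nat_lit 0) (nat_lit 24368405772) (nat_lit 152) (nat_lit 7834752815) (nat_lit 0) (nat_lit 23366329548) (nat_lit 7) (nat_lit 5) (nat_lit 9) (nat_lit 4) (nat_lit 7) (nat_lit 4) (nat_lit 426) (nat_lit 300) (nat_lit 294)) (XT.nd (nat_lit 78) (nat_lit 0) (nat_lit 0) (XT.lf (nat_lit 0) (nat_lit 10167342620) (nat_lit 76) (nat_lit 24521900050) (nat_lit 76) (nat_lit 23379516484) (nat_lit 6) (nat_lit 4) (nat_lit 7) (nat_lit 5) (nat_lit 7) (nat_lit 4) (nat_lit 427) (nat_lit 300) (nat_lit 293)) (XT.lf (nat_lit 0) (nat_lit 28709251552) (nat_lit 76) (nat_lit 16632642242) (nat_lit 76) (nat_lit 15356632635) (nat_lit 6) (nat_lit 4) (nat_lit 7) (nat_lit 5) (nat_lit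 7) (nat_lit 4) (nat_lit 428) (nat_lit 300) (nat_lit 292)))) (XT.nd (nat_lit 78) (nat_lit 152) (nat_lit 0) (XT.lf (nat_lit 0) (nat_lit 47679194438) (nat_lit 76) (nat_lit 8595716856) (nat_lit 76) (nat_lit 7192444354) (nat_lit 6) (nat_lit 4) (nat_lit 7) (nat_lit 5) (nat_lit 7) (nat_lit 4) (nat_lit 429) (nat_lit 300) (nat_lit 291)) (XT.nd (nat_lit 78) (nat_lit 0) (nat_lit 0) (XT.lf (nat_lit 0) (nat_lit 744133105) (nat_lit 76) (nat_lit 373407960) (nat_lit 152) (nat_lit 65263757022) (nat_lit 4) (nat_lit 5) (nat_lit 5) (nat_lit 5) (nat_lit 6) (nat_lit 4) (nat_lit 430) (nat_lit 300) (nat_lit 290)) (XT.lf (nat_lit 0) (nat_lit 9701407487) (nat_lit 152) (nat_lit 51627919450) (nat_lit 0) (nat_lit 8109265295) (nat_lit 4) (nat_lit 5) (nat_lit 6) (nat_lit 4) (nat_lit 4) (nat_lit 4) (nat_lit 431) (nat_lit 300) (nat_lit 289))))) (XT.nd (nat_lit 234) (nat_lit 76) (nat_lit 0) (XT.nd (nat_lit 78) (nat_lit 0) (nat_lit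 0) (XT.lf (nat_lit 0) (nat_lit 18491774286) (nat_lit 152) (nat_lit 37370762684) (nat_lit 0) (nat_lit 16792899595) (nat_lit 4) (nat_lit 5) (nat_lit 6) (nat_lit 4) (nat_lit 4) (nat_lit 4) (nat_lit 432) (nat_lit 300) (nat_lit 288)) (XT.nd (nat_lit 78) (nat_lit 0) (nat_lit 0) (XT.lf (nat_lit 0) (nat_lit 27505981483) (nat_lit 152) (nat_lit 22828159648) (nat_lit 0) (nat_lit 25705456793) (nat_lit 4) (nat_lit 5) (nat_lit 6) (nat_lit 4) (nat_lit 4) (nat_lit 4) (nat_lit 433) (nat_lit 300) (nat_lit 287)) (XT.lf (nat_lit 0) (nat_lit 36765491475) (nat_lit 152) (nat_lit 7965485095) (nat_lit 0) (nat_lit 34868157263) (nat_lit 4) (nat_lit 5) (nat_lit 6) (nat_lit 4) (nat_lit 4) (nat_lit 4) (nat_lit 434) (nat_lit 300) (nat_lit 286)))) (XT.nd (nat_lit 156) (nat_lit 0) (nat_lit 0) (XT.nd (nat_lit 78) (nat_lit 0) (nat_lit 0) (XT.lf (nat_lit 0) (nat_lit 7396990215) (nat_lit 76) (nat_lit 38966464896) (nat_lit 76) (nat_lit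 36976931138) (nat_lit 3) (nat_lit 4) (nat_lit 4) (nat_lit 5) (nat_lit 4) (nat_lit 4) (nat_lit 435) (nat_lit 300) (nat_lit 285)) (XT.lf (nat_lit 0) (nat_lit 23317482233) (nat_lit 76) (nat_lit 33015901873) (nat_lit 76) (nat_lit 30938559024) (nat_lit 3) (nat_lit 4) (nat_lit 4) (nat_lit 5) (nat_lit 4) (nat_lit 4) (nat_lit 436) (nat_lit 300) (nat_lit 284))) (XT.nd (nat_lit 78) (nat_lit 0) (nat_lit 0) (XT.lf (nat_lit 0) (nat_lit 39675368121) (nat_lit 76) (nat_lit 26945555276) (nat_lit 76) (nat_lit 24784584722) (nat_lit 3) (nat_lit 4) (nat_lit 4) (nat_lit 5) (nat_lit 4) (nat_lit 4) (nat_lit 437) (nat_lit 300) (nat_lit 283)) (XT.lf (nat_lit 0) (nat_lit 56509595224) (nat_lit 76) (nat_lit 20740971899) (nat_lit 76) (nat_lit 18500355911) (nat_lit 3) (nat_lit 4) (nat_lit 4) (nat_lit 5) (nat_lit 4) (nat_lit 4) (nat_lit 438) (nat_lit 300) (nat_lit 282))))))))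
noncomputable def xc2 : XT := (XT.nd (nat_lit 53274) (nat_lit 0) (nat_lit 0) (XT.nd (nat_lit 936) (nat_lit 228) (nat_lit 0) (XT.nd (nat_lit 468) (nat_lit 228) (nat_lit 0) (XT.nd (nat_lit 234) (nat_lit 76) (nat_lit 0) (XT.nd (nat_lit 78) (nat_lit 152) (nat_lit 0) (XT.lf (nat_lit 0) (nat_lit 9789130825) (nat_lit 76) (nat_lit 5002472498) (nat_lit 76) (nat_lit 5002472498) (nat_lit 12) (nat_lit 4) (nat_lit 13) (nat_lit 5) (nat_lit 13) (nat_lit 4) (nat_lit 418) (nat_lit 301) (nat_lit 301)) (XT.nd (nat_lit 78) (nat_lit 0) (nat_lit 0) (XT.lf (nat_lit 0) (nat_lit 73932698) (nat_lit 76) (nat_lit 65664589) (nat_lit 152) (nat_lit 41111121603) (nat_lit 10) (nat_lit 5) (nat_lit 11) (nat_lit 5) (nat_lit 12) (nat_lit 4) (nat_lit 419) (nat_lit 301) (nat_lit 300)) (XT.lf (nat_lit 0) (nat_lit 10548900825) (nat_lit 152) (nat_lit 22293731379) (nat_lit 0) (nat_lit 10151885493) (nat_lit 10) (nat_lit 5) (nat_lit 12)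 (nat_lit 4) (nat_lit 10) (nat_lit 4) (nat_lit 420) (nat_lit 301) (nat_lit 299)))) (XT.nd (nat_lit 78) (nat_lit 76) (nat_lit 0) (XT.lf (nat_lit 0) (nat_lit 21150585937) (nat_lit 152) (nat_lit 3115644345) (nat_lit 0) (nat_lit 20569126781) (nat_lit 10) (nat_lit 5) (nat_lit 12) (nat_lit 4) (nat_lit 10) (nat_lit 4) (nat_lit 421) (nat_lit 301) (nat_lit 298)) (XT.nd (nat_lit 78) (nat_lit 0) (nat_lit 0) (XT.lf (nat_lit 0) (nat_lit 16730235381) (nat_lit 76) (nat_lit 15399849399) (nat_lit 76) (nat_lit 14642729458) (nat_lit 9) (nat_lit 4) (nat_lit 10) (nat_lit 5) (nat_lit 10) (nat_lit 4) (nat_lit 422) (nat_lit 301) (nat_lit 297)) (XT.lf (nat_lit 0) (nat_lit 37033640859) (nat_lit 76) (nat_lit 6353041491) (nat_lit 76) (nat_lit 5428625564) (nat_lit 9) (nat_lit 4) (nat_lit 10) (nat_lit 5) (nat_lit 10) (nat_lit 4) (nat_lit 423) (nat_lit 301) (nat_lit 296))))) (XT.nd (nat_lit 234) (nat_lit 76) (nat_lit 0) (XT.nd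 (nat_lit 78) (nat_lit 0) (nat_lit 0) (XT.lf (nat_lit 0) (nat_lit 3965958498) (nat_lit 152) (nat_lit 44084892609) (nat_lit 0) (nat_lit 2913778462) (nat_lit 7) (nat_lit 5) (nat_lit 9) (nat_lit 4) (nat_lit 7) (nat_lit 4) (nat_lit 424) (nat_lit 301) (nat_lit 295)) (XT.nd (nat_lit 78) (nat_lit 0) (nat_lit 0) (XT.lf (nat_lit 0) (nat_lit 13619172410) (nat_lit 152) (nat_lit 27183934058) (nat_lit 0) (nat_lit 12419669666) (nat_lit 7) (nat_lit 5) (nat_lit 9) (nat_lit 4) (nat_lit 7) (nat_lit 4) (nat_lit 425) (nat_lit 301) (nat_lit 294)) (XT.lf (nat_lit 0) (nat_lit 23482212563) (nat_lit 152) (nat_lit 9977406192) (nat_lit 0) (nat_lit 22142402476) (nat_lit 7) (nat_lit 5) (nat_lit 9) (nat_lit 4) (nat_lit 7) (nat_lit 4) (nat_lit 426) (nat_lit 301) (nat_lit 293)))) (XT.nd (nat_lit 78) (nat_lit 0) (nat_lit 0) (XT.lf (nat_lit 0) (nat_lit 7726429377) (nat_lit 76) (nat_lit 25926404172) (nat_lit 76) (nat_lit 24452968045)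 (nat_lit 6) (nat_lit 4) (nat_lit 7) (nat_lit 5) (nat_lit 7) (nat_lit 4) (nat_lit 427) (nat_lit 301) (nat_lit 292)) (XT.nd (nat_lit 78) (nat_lit 0) (nat_lit 0) (XT.lf (nat_lit 0) (nat_lit 26024893679) (nat_lit 76) (nat_lit 18157534321) (nat_lit 76) (nat_lit 16556835298) (nat_lit 6) (nat_lit 4) (nat_lit 7) (nat_lit 5) (nat_lit 7) (nat_lit 4) (nat_lit 428) (nat_lit 301) (nat_lit 291)) (XT.lf (nat_lit 0) (nat_lit 44762984537) (nat_lit 76) (nat_lit 10235264133) (nat_lit 76) (nat_lit 8513362353) (nat_lit 6) (nat_lit 4) (nat_lit 7) (nat_lit 5) (nat_lit 7) (nat_lit 4) (nat_lit 429) (nat_lit 301) (nat_lit 290)))))) (XT.nd (nat_lit 468) (nat_lit 0) (nat_lit 0) (XT.nd (nat_lit 234) (nat_lit 76) (nat_lit 0) (XT.nd (nat_lit 78) (nat_lit 152) (nat_lit 0) (XT.lf (nat_lit 0) (nat_lit 63985316454) (nat_lit 76) (nat_lit 2140731060) (nat_lit 76) (nat_lit 303398082) (nat_lit 6) (nat_lit 4) (nat_lit 7) (nat_lit 5)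 (nat_lit 7) (nat_lit 4) (nat_lit 430) (nat_lit 301) (nat_lit 289)) (XT.nd (nat_lit 78) (nat_lit 0) (nat_lit 0) (XT.lf (nat_lit 0) (nat_lit 8134731647) (nat_lit 152) (nat_lit 55112466865) (nat_lit 0) (nat_lit 6244180723) (nat_lit 4) (nat_lit 5) (nat_lit 6) (nat_lit 4) (nat_lit 4) (nat_lit 4) (nat_lit 431) (nat_lit 301) (nat_lit 288)) (XT.lf (nat_lit 0) (nat_lit 16819889694) (nat_lit 152) (nat_lit 41063803547) (nat_lit 0) (nat_lit 14827688771) (nat_lit 4) (nat_lit 5) (nat_lit 6) (nat_lit 4) (nat_lit 4) (nat_lit 4) (nat_lit 432) (nat_lit 301) (nat_lit 287)))) (XT.nd (nat_lit 78) (nat_lit 76) (nat_lit 0) (XT.lf (nat_lit 0) (nat_lit 25733898079) (nat_lit 152) (nat_lit 26719765698) (nat_lit 0) (nat_lit 23644887633) (nat_lit 4) (nat_lit 5) (nat_lit 6) (nat_lit 4) (nat_lit 4) (nat_lit 4) (nat_lit 433) (nat_lit 301) (nat_lit 286)) (XT.nd (nat_lit 78) (nat_lit 76) (nat_lit 0) (XT.lf (nat_lit 0) (nat_lit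 34897980632) (nat_lit 152) (nat_lit 12046200849) (nat_lit 0) (nat_lit 32716770641) (nat_lit 4) (nat_lit 5) (nat_lit 6) (nat_lit 4) (nat_lit 4) (nat_lit 4) (nat_lit 434) (nat_lit 301) (nat_lit 285)) (XT.lf (nat_lit 0) (nat_lit 3051371305) (nat_lit 76) (nat_lit 41311916940) (nat_lit 76) (nat_lit 39042897857) (nat_lit 3) (nat_lit 4) (nat_lit 4) (nat_lit 5) (nat_lit 4) (nat_lit 4) (nat_lit 435) (nat_lit 301) (nat_lit 284))))) (XT.nd (nat_lit 51558) (nat_lit 0) (nat_lit 608) (XT.nd (nat_lit 78) (nat_lit 0) (nat_lit 0) (XT.lf (nat_lit 0) (nat_lit 18796921503) (nat_lit 76) (nat_lit 35448058589) (nat_lit 76) (nat_lit 33095411800) (nat_lit 3) (nat_lit 4) (nat_lit 4) (nat_lit 5) (nat_lit 4) (nat_lit 4) (nat_lit 436) (nat_lit 301) (nat_lit 283)) (XT.nd (nat_lit 78) (nat_lit 0) (nat_lit 0) (XT.lf (nat_lit 0) (nat_lit 34988196132) (nat_lit 76) (nat_lit 29460287870) (nat_lit 76) (nat_lit 27027995647) (nat_lit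 3) (nat_lit 4) (nat_lit 4) (nat_lit 5) (nat_lit 4) (nat_lit 4) (nat_lit 437) (nat_lit 301) (nat_lit 282)) (XT.lf (nat_lit 0) (nat_lit 51663745848) (nat_lit 76) (nat_lit 23334348186) (nat_lit 76) (nat_lit 20826203169) (nat_lit 3) (nat_lit 4) (nat_lit 4) (nat_lit 5) (nat_lit 4) (nat_lit 4) (nat_lit 438) (nat_lit 301) (nat_lit 281)))) (XT.nd (nat_lit 156) (nat_lit 152) (nat_lit 0) (XT.nd (nat_lit 78) (nat_lit 0) (nat_lit 0) (XT.lf (nat_lit 0) (nat_lit 3621068962) (nat_lit 152) (nat_lit 11015235386) (nat_lit 0) (nat_lit 3621068962) (nat_lit 13) (nat_lit 5) (nat_lit 15) (nat_lit 4) (nat_lit 13) (nat_lit 4) (nat_lit 416) (nat_lit 302) (nat_lit 302)) (XT.lf (nat_lit 0) (nat_lit 18241201873) (nat_lit 152) (nat_lit 1751673747) (nat_lit 0) (nat_lit 18021279587) (nat_lit 13) (nat_lit 5) (nat_lit 15) (nat_lit 4) (nat_lit 13) (nat_lit 4) (nat_lit 417) (nat_lit 302) (nat_lit 301))) (XT.nd (nat_lit 78) (nat_lit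 76) (nat_lit 0) (XT.lf (nat_lit 0) (nat_lit 19243302651) (nat_lit 76) (nat_lit 10389665199) (nat_lit 76) (nat_lit 9960293118) (nat_lit 12) (nat_lit 4) (nat_lit 13) (nat_lit 5) (nat_lit 13) (nat_lit 4) (nat_lit 418) (nat_lit 302) (nat_lit 300)) (XT.lf (nat_lit 0) (nat_lit 19000255) (nat_lit 152) (nat_lit 590277557) (nat_lit 76) (nat_lit 40651473008) (nat_lit 11) (nat_lit 5) (nat_lit 13) (nat_lit 5) (nat_lit 12) (nat_lit 4) (nat_lit 419) (nat_lit 302) (nat_lit 299))))))) (XT.nd (nat_lit 936) (nat_lit 76) (nat_lit 0) (XT.nd (nat_lit 468) (nat_lit 228) (nat_lit 0) (XT.nd (nat_lit 234) (nat_lit 152) (nat_lit 0) (XT.nd (nat_lit 78) (nat_lit 76) (nat_lit 0) (XT.lf (nat_lit 0) (nat_lit 10256869834) (nat_lit 152) (nat_lit 23290932872) (nat_lit 0) (nat_lit 9461893896) (nat_lit 10) (nat_lit 5) (nat_lit 12) (nat_lit 4) (nat_lit 10) (nat_lit 4) (nat_lit 420) (nat_lit 302) (nat_lit 298)) (XT.nd (nat_lit 78)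 (nat_lit 76) (nat_lit 0) (XT.lf (nat_lit 0) (nat_lit 20705827248) (nat_lit 152) (nat_lit 4414103795) (nat_lit 0) (nat_lit 19735190525) (nat_lit 10) (nat_lit 5) (nat_lit 12) (nat_lit 4) (nat_lit 10) (nat_lit 4) (nat_lit 421) (nat_lit 302) (nat_lit 297)) (XT.lf (nat_lit 0) (nat_lit 15113311585) (nat_lit 76) (nat_lit 16411016694) (nat_lit 76) (nat_lit 15273083986) (nat_lit 9) (nat_lit 4) (nat_lit 10) (nat_lit 5) (nat_lit 10) (nat_lit 4) (nat_lit 422) (nat_lit 302) (nat_lit 296)))) (XT.nd (nat_lit 78) (nat_lit 152) (nat_lit 0) (XT.lf (nat_lit 0) (nat_lit 35138029008) (nat_lit 76) (nat_lit 7501689396) (nat_lit 76) (nat_lit 6204427178) (nat_lit 9) (nat_lit 4) (nat_lit 10) (nat_lit 5) (nat_lit 10) (nat_lit 4) (nat_lit 423) (nat_lit 302) (nat_lit 295)) (XT.nd (nat_lit 78) (nat_lit 0) (nat_lit 0) (XT.lf (nat_lit 0) (nat_lit 3035455629) (nat_lit 152) (nat_lit 46334678655) (nat_lit 0) (nat_lit 1628655037)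 (nat_lit 7) (nat_lit 5) (nat_lit 9) (nat_lit 4) (nat_lit 7) (nat_lit 4) (nat_lit 424) (nat_lit 302) (nat_lit 294)) (XT.lf (nat_lit 0) (nat_lit 12555579563) (nat_lit 152) (nat_lit 29696880403) (nat_lit 0) (nat_lit 11008471629) (nat_lit 7) (nat_lit 5) (nat_lit 9) (nat_lit 4) (nat_lit 7) (nat_lit 4) (nat_lit 425) (nat_lit 302) (nat_lit 293))))) (XT.nd (nat_lit 234) (nat_lit 152) (nat_lit 0) (XT.nd (nat_lit 78) (nat_lit 76) (nat_lit 0) (XT.lf (nat_lit 0) (nat_lit 22291867355) (nat_lit 152) (nat_lit 12740981393) (nat_lit 0) (nat_lit 20611133381) (nat_lit 7) (nat_lit 5) (nat_lit 9) (nat_lit 4) (nat_lit 7) (nat_lit 4) (nat_lit 426) (nat_lit 302) (nat_lit 292)) (XT.nd (nat_lit 78) (nat_lit 0) (nat_lit 0) (XT.lf (nat_lit 0) (nat_lit 4664408982) (nat_lit 76) (nat_lit 27647928813) (nat_lit 76) (nat_lit 25839931944) (nat_lit 6) (nat_lit 4) (nat_lit 7) (nat_lit 5) (nat_lit 7) (nat_lit 4) (nat_lit 427) (nat_lit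 302) (nat_lit 291)) (XT.lf (nat_lit 0) (nat_lit 22731021255) (nat_lit 76) (nat_lit 19993714160) (nat_lit 76) (nat_lit 18064514533) (nat_lit 6) (nat_lit 4) (nat_lit 7) (nat_lit 5) (nat_lit 7) (nat_lit 4) (nat_lit 428) (nat_lit 302) (nat_lit 290)))) (XT.nd (nat_lit 78) (nat_lit 152) (nat_lit 0) (XT.lf (nat_lit 0) (nat_lit 41248300657) (nat_lit 76) (nat_lit 12180639398) (nat_lit 76) (nat_lit 10136008574) (nat_lit 6) (nat_lit 4) (nat_lit 7) (nat_lit 5) (nat_lit 7) (nat_lit 4) (nat_lit 429) (nat_lit 302) (nat_lit 289)) (XT.nd (nat_lit 78) (nat_lit 152) (nat_lit 0) (XT.lf (nat_lit 0) (nat_lit 60260335949) (nat_lit 76) (nat_lit 4190101969) (nat_lit 76) (nat_lit 2035536671) (nat_lit 6) (nat_lit 4) (nat_lit 7) (nat_lit 5) (nat_lit 7) (nat_lit 4) (nat_lit 430) (nat_lit 302) (nat_lit 288)) (XT.lf (nat_lit 0) (nat_lit 6274044074) (nat_lit 152) (nat_lit 59198653218) (nat_lit 0) (nat_lit 4080583106) (nat_lit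 4) (nat_lit 5) (nat_lit 6) (nat_lit 4) (nat_lit 4) (nat_lit 4) (nat_lit 431) (nat_lit 302) (nat_lit 287)))))) (XT.nd (nat_lit 468) (nat_lit 0) (nat_lit 0) (XT.nd (nat_lit 234) (nat_lit 76) (nat_lit 0) (XT.nd (nat_lit 78) (nat_lit 0) (nat_lit 0) (XT.lf (nat_lit 0) (nat_lit 14859003309) (nat_lit 152) (nat_lit 45348555088) (nat_lit 0) (nat_lit 12568732818) (nat_lit 4) (nat_lit 5) (nat_lit 6) (nat_lit 4) (nat_lit 4) (nat_lit 4) (nat_lit 432) (nat_lit 302) (nat_lit 286)) (XT.nd (nat_lit 78) (nat_lit 0) (nat_lit 0) (XT.lf (nat_lit 0) (nat_lit 23677584254) (nat_lit 152) (nat_lit 31193626943) (nat_lit 0) (nat_lit 21295114218) (nat_lit 4) (nat_lit 5) (nat_lit 6) (nat_lit 4) (nat_lit 4) (nat_lit 4) (nat_lit 433) (nat_lit 302) (nat_lit 285)) (XT.lf (nat_lit 0) (nat_lit 32750783531) (nat_lit 152) (nat_lit 16700166573) (nat_lit 0) (nat_lit 30280504404) (nat_lit 4) (nat_lit 5) (nat_lit 6) (nat_lit 4) (nat_lit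 4) (nat_lit 4) (nat_lit 434) (nat_lit 302) (nat_lit 284)))) (XT.nd (nat_lit 78) (nat_lit 76) (nat_lit 0) (XT.lf (nat_lit 0) (nat_lit 42100203995) (nat_lit 152) (nat_lit 1833665738) (nat_lit 0) (nat_lit 39546297162) (nat_lit 4) (nat_lit 5) (nat_lit 6) (nat_lit 4) (nat_lit 4) (nat_lit 4) (nat_lit 435) (nat_lit 302) (nat_lit 283)) (XT.nd (nat_lit 78) (nat_lit 0) (nat_lit 0) (XT.lf (nat_lit 0) (nat_lit 13708779658) (nat_lit 76) (nat_lit 38171103690) (nat_lit 76) (nat_lit 35537551422) (nat_lit 3) (nat_lit 4) (nat_lit 4) (nat_lit 5) (nat_lit 4) (nat_lit 4) (nat_lit 436) (nat_lit 302) (nat_lit 282)) (XT.lf (nat_lit 0) (nat_lit 29741376899) (nat_lit 76) (nat_lit 32261976664) (nat_lit 76) (nat_lit 29552571602) (nat_lit 3) (nat_lit 4) (nat_lit 4) (nat_lit 5) (nat_lit 4) (nat_lit 4) (nat_lit 437) (nat_lit 302) (nat_lit 281))))) (XT.nd (nat_lit 51402) (nat_lit 0) (nat_lit 684) (XT.nd (nat_lit 51246) (nat_lit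 0) (nat_lit 912) (XT.lf (nat_lit 0) (nat_lit 46265805293) (nat_lit 76) (nat_lit 26210935735) (nat_lit 76) (nat_lit 23429289917) (nat_lit 3) (nat_lit 4) (nat_lit 4) (nat_lit 5) (nat_lit 4) (nat_lit 4) (nat_lit 438) (nat_lit 302) (nat_lit 280)) (XT.nd (nat_lit 78) (nat_lit 0) (nat_lit 0) (XT.lf (nat_lit 0) (nat_lit 3181358909) (nat_lit 76) (nat_lit 6843328625) (nat_lit 76) (nat_lit 6843328625) (nat_lit 15) (nat_lit 4) (nat_lit 16) (nat_lit 5) (nat_lit 16) (nat_lit 4) (nat_lit 414) (nat_lit 303) (nat_lit 303)) (XT.lf (nat_lit 0) (nat_lit 28240982228) (nat_lit 76) (nat_lit 3544933518) (nat_lit 76) (nat_lit 3307087566) (nat_lit 15) (nat_lit 4) (nat_lit 16) (nat_lit 5) (nat_lit 16) (nat_lit 4) (nat_lit 415) (nat_lit 303) (nat_lit 302)))) (XT.nd (nat_lit 156) (nat_lit 76) (nat_lit 0) (XT.nd (nat_lit 78) (nat_lit 0) (nat_lit 0) (XT.lf (nat_lit 0) (nat_lit 7297768010) (nat_lit 152) (nat_lit 22375314652)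 (nat_lit 0) (nat_lit 6846927325) (nat_lit 13) (nat_lit 5) (nat_lit 15) (nat_lit 4) (nat_lit 13) (nat_lit 4) (nat_lit 416) (nat_lit 303) (nat_lit 301)) (XT.lf (nat_lit 0) (nat_lit 18129890707) (nat_lit 152) (nat_lit 2424940370) (nat_lit 0) (nat_lit 17469600227) (nat_lit 13) (nat_lit 5) (nat_lit 15) (nat_lit 4) (nat_lit 13) (nat_lit 4) (nat_lit 417) (nat_lit 303) (nat_lit 300))) (XT.nd (nat_lit 78) (nat_lit 0) (nat_lit 0) (XT.lf (nat_lit 0) (nat_lit 18237628131) (nat_lit 76) (nat_lit 11115369727) (nat_lit 76) (nat_lit 10255603251) (nat_lit 12) (nat_lit 4) (nat_lit 13) (nat_lit 5) (nat_lit 13) (nat_lit 4) (nat_lit 418) (nat_lit 303) (nat_lit 299)) (XT.lf (nat_lit 0) (nat_lit 39361172923) (nat_lit 76) (nat_lit 1484650775) (nat_lit 76) (nat_lit 434907160) (nat_lit 12) (nat_lit 4) (nat_lit 13) (nat_lit 5) (nat_lit 13) (nat_lit 4) (nat_lit 419) (nat_lit 303) (nat_lit 298))))))))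
noncomputable def xc3 : XT := (XT.nd (nat_lit 52962) (nat_lit 0) (nat_lit 0) (XT.nd (nat_lit 936) (nat_lit 76) (nat_lit 0) (XT.nd (nat_lit 468) (nat_lit 228) (nat_lit 0) (XT.nd (nat_lit 234) (nat_lit 152) (nat_lit 0) (XT.nd (nat_lit 78) (nat_lit 76) (nat_lit 0) (XT.lf (nat_lit 0) (nat_lit 9637145512) (nat_lit 152) (nat_lit 24955573250) (nat_lit 0) (nat_lit 8442316169) (nat_lit 10) (nat_lit 5) (nat_lit 12) (nat_lit 4) (nat_lit 10) (nat_lit 4) (nat_lit 420) (nat_lit 303) (nat_lit 297)) (XT.nd (nat_lit 78) (nat_lit 76) (nat_lit 0) (XT.lf (nat_lit 0) (nat_lit 19940647975) (nat_lit 152) (nat_lit 6365656512) (nat_lit 0) (nat_lit 18578522646) (nat_lit 10) (nat_lit 5) (nat_lit 12) (nat_lit 4) (nat_lit 10) (nat_lit 4) (nat_lit 421) (nat_lit 303) (nat_lit 296)) (XT.lf (nat_lit 0) (nat_lit 12844231086) (nat_lit 76) (nat_lit 17754577606) (nat_lit 76) (nat_lit 16233122766) (nat_lit 9) (nat_lit 4) (nat_lit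 10) (nat_lit 5) (nat_lit 10) (nat_lit 4) (nat_lit 422) (nat_lit 303) (nat_lit 295)))) (XT.nd (nat_lit 78) (nat_lit 152) (nat_lit 0) (XT.lf (nat_lit 0) (nat_lit 32603531315) (nat_lit 76) (nat_lit 8976184222) (nat_lit 76) (nat_lit 7302986992) (nat_lit 9) (nat_lit 4) (nat_lit 10) (nat_lit 5) (nat_lit 10) (nat_lit 4) (nat_lit 423) (nat_lit 303) (nat_lit 294)) (XT.nd (nat_lit 78) (nat_lit 0) (nat_lit 0) (XT.lf (nat_lit 0) (nat_lit 1785593160) (nat_lit 152) (nat_lit 49236432615) (nat_lit 0) (nat_lit 20822488) (nat_lit 7) (nat_lit 5) (nat_lit 9) (nat_lit 4) (nat_lit 7) (nat_lit 4) (nat_lit 424) (nat_lit 303) (nat_lit 293)) (XT.lf (nat_lit 0) (nat_lit 11178964734) (nat_lit 152) (nat_lit 32849263219) (nat_lit 0) (nat_lit 9280568021) (nat_lit 7) (nat_lit 5) (nat_lit 9) (nat_lit 4) (nat_lit 7) (nat_lit 4) (nat_lit 425) (nat_lit 303) (nat_lit 292))))) (XT.nd (nat_lit 234) (nat_lit 152) (nat_lit 0) (XT.nd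 (nat_lit 78) (nat_lit 76) (nat_lit 0) (XT.lf (nat_lit 0) (nat_lit 20794535992) (nat_lit 152) (nat_lit 16132058358) (nat_lit 0) (nat_lit 18768876384) (nat_lit 7) (nat_lit 5) (nat_lit 9) (nat_lit 4) (nat_lit 7) (nat_lit 4) (nat_lit 426) (nat_lit 303) (nat_lit 291)) (XT.nd (nat_lit 78) (nat_lit 0) (nat_lit 0) (XT.lf (nat_lit 0) (nat_lit 973990907) (nat_lit 76) (nat_lit 29690572841) (nat_lit 76) (nat_lit 27543710476) (nat_lit 6) (nat_lit 4) (nat_lit 7) (nat_lit 5) (nat_lit 7) (nat_lit 4) (nat_lit 427) (nat_lit 303) (nat_lit 290)) (XT.lf (nat_lit 0) (nat_lit 18819791724) (nat_lit 76) (nat_lit 22145553614) (nat_lit 76) (nat_lit 19883260051) (nat_lit 6) (nat_lit 4) (nat_lit 7) (nat_lit 5) (nat_lit 7) (nat_lit 4) (nat_lit 428) (nat_lit 303) (nat_lit 289)))) (XT.nd (nat_lit 78) (nat_lit 152) (nat_lit 0) (XT.lf (nat_lit 0) (nat_lit 37126774502) (nat_lit 76) (nat_lit 14436474497) (nat_lit 76) (nat_lit 12064246460)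 (nat_lit 6) (nat_lit 4) (nat_lit 7) (nat_lit 5) (nat_lit 7) (nat_lit 4) (nat_lit 429) (nat_lit 303) (nat_lit 288)) (XT.nd (nat_lit 78) (nat_lit 152) (nat_lit 0) (XT.lf (nat_lit 0) (nat_lit 55938527294) (nat_lit 76) (nat_lit 6544980539) (nat_lit 76) (nat_lit 4068053003) (nat_lit 6) (nat_lit 4) (nat_lit 7) (nat_lit 5) (nat_lit 7) (nat_lit 4) (nat_lit 430) (nat_lit 303) (nat_lit 287)) (XT.lf (nat_lit 0) (nat_lit 4114914558) (nat_lit 152) (nat_lit 63896207525) (nat_lit 0) (nat_lit 1613321019) (nat_lit 4) (nat_lit 5) (nat_lit 6) (nat_lit 4) (nat_lit 4) (nat_lit 4) (nat_lit 431) (nat_lit 303) (nat_lit 286)))))) (XT.nd (nat_lit 468) (nat_lit 0) (nat_lit 0) (XT.nd (nat_lit 234) (nat_lit 76) (nat_lit 0) (XT.nd (nat_lit 78) (nat_lit 0) (nat_lit 0) (XT.lf (nat_lit 0) (nat_lit 12604446353) (nat_lit 152) (nat_lit 50235219098) (nat_lit 0) (nat_lit 10010653269) (nat_lit 4) (nat_lit 5) (nat_lit 6) (nat_lit 4)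 (nat_lit 4) (nat_lit 4) (nat_lit 432) (nat_lit 303) (nat_lit 285)) (XT.nd (nat_lit 78) (nat_lit 0) (nat_lit 0) (XT.lf (nat_lit 0) (nat_lit 21332144023) (nat_lit 152) (nat_lit 36260395432) (nat_lit 0) (nat_lit 18650541847) (nat_lit 4) (nat_lit 5) (nat_lit 6) (nat_lit 4) (nat_lit 4) (nat_lit 4) (nat_lit 433) (nat_lit 303) (nat_lit 284)) (XT.lf (nat_lit 0) (nat_lit 30318787799) (nat_lit 152) (nat_lit 21938463137) (nat_lit 0) (nat_lit 27553557918) (nat_lit 4) (nat_lit 5) (nat_lit 6) (nat_lit 4) (nat_lit 4) (nat_lit 4) (nat_lit 434) (nat_lit 303) (nat_lit 283)))) (XT.nd (nat_lit 78) (nat_lit 76) (nat_lit 0) (XT.lf (nat_lit 0) (nat_lit 39585774452) (nat_lit 152) (nat_lit 7235322375) (nat_lit 0) (nat_lit 36740899137) (nat_lit 4) (nat_lit 5) (nat_lit 6) (nat_lit 4) (nat_lit 4) (nat_lit 4) (nat_lit 435) (nat_lit 303) (nat_lit 282)) (XT.nd (nat_lit 78) (nat_lit 0) (nat_lit 0) (XT.lf (nat_lit 0) (nat_lit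 8040942075) (nat_lit 76) (nat_lit 41191520617) (nat_lit 76) (nat_lit 38270792507) (nat_lit 3) (nat_lit 4) (nat_lit 4) (nat_lit 5) (nat_lit 4) (nat_lit 4) (nat_lit 436) (nat_lit 303) (nat_lit 281)) (XT.lf (nat_lit 0) (nat_lit 23922417994) (nat_lit 76) (nat_lit 35357292346) (nat_lit 76) (nat_lit 32364323480) (nat_lit 3) (nat_lit 4) (nat_lit 4) (nat_lit 5) (nat_lit 4) (nat_lit 4) (nat_lit 437) (nat_lit 303) (nat_lit 280))))) (XT.nd (nat_lit 51246) (nat_lit 0) (nat_lit 760) (XT.nd (nat_lit 51090) (nat_lit 0) (nat_lit 988) (XT.lf (nat_lit 0) (nat_lit 40302921320) (nat_lit 76) (nat_lit 29377583566) (nat_lit 76) (nat_lit 26315813979) (nat_lit 3) (nat_lit 4) (nat_lit 4) (nat_lit 5) (nat_lit 4) (nat_lit 4) (nat_lit 438) (nat_lit 303) (nat_lit 279)) (XT.nd (nat_lit 78) (nat_lit 152) (nat_lit 0) (XT.lf (nat_lit 0) (nat_lit 13602360052) (nat_lit 76) (nat_lit 1005252794) (nat_lit 76) (nat_lit 1005252794)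 (nat_lit 18) (nat_lit 4) (nat_lit 19) (nat_lit 5) (nat_lit 19) (nat_lit 4) (nat_lit 412) (nat_lit 304) (nat_lit 304)) (XT.lf (nat_lit 0) (nat_lit 8921231753) (nat_lit 152) (nat_lit 14856970410) (nat_lit 0) (nat_lit 8671493504) (nat_lit 16) (nat_lit 5) (nat_lit 18) (nat_lit 4) (nat_lit 16) (nat_lit 4) (nat_lit 413) (nat_lit 304) (nat_lit 303)))) (XT.nd (nat_lit 156) (nat_lit 152) (nat_lit 0) (XT.nd (nat_lit 78) (nat_lit 0) (nat_lit 0) (XT.lf (nat_lit 0) (nat_lit 6014973811) (nat_lit 76) (nat_lit 14106981279) (nat_lit 76) (nat_lit 13619397078) (nat_lit 15) (nat_lit 4) (nat_lit 16) (nat_lit 5) (nat_lit 16) (nat_lit 4) (nat_lit 414) (nat_lit 304) (nat_lit 302)) (XT.lf (nat_lit 0) (nat_lit 27562053450) (nat_lit 76) (nat_lit 4127720194) (nat_lit 76) (nat_lit 3413616039) (nat_lit 15) (nat_lit 4) (nat_lit 16) (nat_lit 5) (nat_lit 16) (nat_lit 4) (nat_lit 415) (nat_lit 304) (nat_lit 301))) (XT.nd (nat_lit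 78) (nat_lit 0) (nat_lit 0) (XT.lf (nat_lit 0) (nat_lit 7013950036) (nat_lit 152) (nat_lit 23410667349) (nat_lit 0) (nat_lit 6111195235) (nat_lit 13) (nat_lit 5) (nat_lit 15) (nat_lit 4) (nat_lit 13) (nat_lit 4) (nat_lit 416) (nat_lit 304) (nat_lit 300)) (XT.lf (nat_lit 0) (nat_lit 17687081065) (nat_lit 152) (nat_lit 3773076632) (nat_lit 0) (nat_lit 16584850269) (nat_lit 13) (nat_lit 5) (nat_lit 15) (nat_lit 4) (nat_lit 13) (nat_lit 4) (nat_lit 417) (nat_lit 304) (nat_lit 299))))))) (XT.nd (nat_lit 936) (nat_lit 228) (nat_lit 0) (XT.nd (nat_lit 468) (nat_lit 228) (nat_lit 0) (XT.nd (nat_lit 234) (nat_lit 76) (nat_lit 0) (XT.nd (nat_lit 78) (nat_lit 152) (nat_lit 0) (XT.lf (nat_lit 0) (nat_lit 16558843628) (nat_lit 76) (nat_lit 12183786448) (nat_lit 76) (nat_lit 10891578513) (nat_lit 12) (nat_lit 4) (nat_lit 13) (nat_lit 5) (nat_lit 13) (nat_lit 4) (nat_lit 418) (nat_lit 304) (nat_lit 298)) (XT.nd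 (nat_lit 78) (nat_lit 152) (nat_lit 0) (XT.lf (nat_lit 0) (nat_lit 37393038242) (nat_lit 76) (nat_lit 2695426134) (nat_lit 76) (nat_lit 1222287590) (nat_lit 12) (nat_lit 4) (nat_lit 13) (nat_lit 5) (nat_lit 13) (nat_lit 4) (nat_lit 419) (nat_lit 304) (nat_lit 297)) (XT.lf (nat_lit 0) (nat_lit 8688252325) (nat_lit 152) (nat_lit 27291615944) (nat_lit 0) (nat_lit 7090724744) (nat_lit 10) (nat_lit 5) (nat_lit 12) (nat_lit 4) (nat_lit 10) (nat_lit 4) (nat_lit 420) (nat_lit 304) (nat_lit 296)))) (XT.nd (nat_lit 78) (nat_lit 76) (nat_lit 0) (XT.lf (nat_lit 0) (nat_lit 18853226264) (nat_lit 152) (nat_lit 8974949053) (nat_lit 0) (nat_lit 17096369172) (nat_lit 10) (nat_lit 5) (nat_lit 12) (nat_lit 4) (nat_lit 10) (nat_lit 4) (nat_lit 421) (nat_lit 304) (nat_lit 295)) (XT.nd (nat_lit 78) (nat_lit 0) (nat_lit 0) (XT.lf (nat_lit 0) (nat_lit 9917591313) (nat_lit 76) (nat_lit 19433731087) (nat_lit 76) (nat_lit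 17525131605) (nat_lit 9) (nat_lit 4) (nat_lit 10) (nat_lit 5) (nat_lit 10) (nat_lit 4) (nat_lit 422) (nat_lit 304) (nat_lit 294)) (XT.lf (nat_lit 0) (nat_lit 29424113260) (nat_lit 76) (nat_lit 10780036670) (nat_lit 76) (nat_lit 8726920625) (nat_lit 9) (nat_lit 4) (nat_lit 10) (nat_lit 5) (nat_lit 10) (nat_lit 4) (nat_lit 423) (nat_lit 304) (nat_lit 293))))) (XT.nd (nat_lit 234) (nat_lit 76) (nat_lit 0) (XT.nd (nat_lit 78) (nat_lit 76) (nat_lit 0) (XT.lf (nat_lit 0) (nat_lit 248684145) (nat_lit 152) (nat_lit 1685922050) (nat_lit 76) (nat_lit 49161246436) (nat_lit 8) (nat_lit 5) (nat_lit 10) (nat_lit 5) (nat_lit 9) (nat_lit 4) (nat_lit 424) (nat_lit 304) (nat_lit 292)) (XT.nd (nat_lit 78) (nat_lit 0) (nat_lit 0) (XT.lf (nat_lit 0) (nat_lit 9486050269) (nat_lit 152) (nat_lit 36648588181) (nat_lit 0) (nat_lit 7231844785) (nat_lit 7) (nat_lit 5) (nat_lit 9) (nat_lit 4) (nat_lit 7) (nat_lit 4) (nat_lit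 425) (nat_lit 304) (nat_lit 291)) (XT.lf (nat_lit 0) (nat_lit 18986653400) (nat_lit 152) (nat_lit 20158711080) (nat_lit 0) (nat_lit 16611245159) (nat_lit 7) (nat_lit 5) (nat_lit 9) (nat_lit 4) (nat_lit 7) (nat_lit 4) (nat_lit 426) (nat_lit 304) (nat_lit 290)))) (XT.nd (nat_lit 78) (nat_lit 76) (nat_lit 0) (XT.lf (nat_lit 0) (nat_lit 28737825106) (nat_lit 152) (nat_lit 3288170514) (nat_lit 0) (nat_lit 26246985667) (nat_lit 7) (nat_lit 5) (nat_lit 9) (nat_lit 4) (nat_lit 7) (nat_lit 4) (nat_lit 427) (nat_lit 304) (nat_lit 289)) (XT.nd (nat_lit 78) (nat_lit 0) (nat_lit 0) (XT.lf (nat_lit 0) (nat_lit 14281892637) (nat_lit 76) (nat_lit 24618176113) (nat_lit 76) (nat_lit 22017402200) (nat_lit 6) (nat_lit 4) (nat_lit 7) (nat_lit 5) (nat_lit 7) (nat_lit 4) (nat_lit 428) (nat_lit 304) (nat_lit 288)) (XT.lf (nat_lit 0) (nat_lit 32388592915) (nat_lit 76) (nat_lit 17008140466) (nat_lit 76) (nat_lit 14302667054)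 (nat_lit 6) (nat_lit 4) (nat_lit 7) (nat_lit 5) (nat_lit 7) (nat_lit 4) (nat_lit 429) (nat_lit 304) (nat_lit 287)))))) (XT.nd (nat_lit 468) (nat_lit 76) (nat_lit 0) (XT.nd (nat_lit 234) (nat_lit 0) (nat_lit 0) (XT.nd (nat_lit 78) (nat_lit 152) (nat_lit 0) (XT.lf (nat_lit 0) (nat_lit 51009600469) (nat_lit 76) (nat_lit 9210973623) (nat_lit 76) (nat_lit 6405786403) (nat_lit 6) (nat_lit 4) (nat_lit 7) (nat_lit 5) (nat_lit 7) (nat_lit 4) (nat_lit 430) (nat_lit 304) (nat_lit 286)) (XT.nd (nat_lit 78) (nat_lit 0) (nat_lit 0) (XT.lf (nat_lit 0) (nat_lit 476973479) (nat_lit 76) (nat_lit 1186635501) (nat_lit 152) (nat_lit 68041085603) (nat_lit 4) (nat_lit 5) (nat_lit 5) (nat_lit 5) (nat_lit 6) (nat_lit 4) (nat_lit 431) (nat_lit 304) (nat_lit 285)) (XT.lf (nat_lit 0) (nat_lit 10050850834) (nat_lit 152) (nat_lit 55735430491) (nat_lit 0) (nat_lit 7147359459) (nat_lit 4) (nat_lit 5) (nat_lit 6) (nat_lit 4)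 (nat_lit 4) (nat_lit 4) (nat_lit 432) (nat_lit 304) (nat_lit 284)))) (XT.nd (nat_lit 78) (nat_lit 0) (nat_lit 0) (XT.lf (nat_lit 0) (nat_lit 18691993003) (nat_lit 152) (nat_lit 41932134900) (nat_lit 0) (nat_lit 15704873922) (nat_lit 4) (nat_lit 5) (nat_lit 6) (nat_lit 4) (nat_lit 4) (nat_lit 4) (nat_lit 433) (nat_lit 304) (nat_lit 283)) (XT.nd (nat_lit 78) (nat_lit 0) (nat_lit 0) (XT.lf (nat_lit 0) (nat_lit 27596202968) (nat_lit 152) (nat_lit 27773562677) (nat_lit 0) (nat_lit 24529438453) (nat_lit 4) (nat_lit 5) (nat_lit 6) (nat_lit 4) (nat_lit 4) (nat_lit 4) (nat_lit 434) (nat_lit 304) (nat_lit 282)) (XT.lf (nat_lit 0) (nat_lit 36784681231) (nat_lit 152) (nat_lit 13226002935) (nat_lit 0) (nat_lit 33642063922) (nat_lit 4) (nat_lit 5) (nat_lit 6) (nat_lit 4) (nat_lit 4) (nat_lit 4) (nat_lit 435) (nat_lit 304) (nat_lit 281))))) (XT.nd (nat_lit 51090) (nat_lit 0) (nat_lit 988) (XT.nd (nat_lit 78)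 (nat_lit 0) (nat_lit 0) (XT.lf (nat_lit 0) (nat_lit 1779913902) (nat_lit 76) (nat_lit 44516500838) (nat_lit 76) (nat_lit 41301642773) (nat_lit 3) (nat_lit 4) (nat_lit 4) (nat_lit 5) (nat_lit 4) (nat_lit 4) (nat_lit 436) (nat_lit 304) (nat_lit 280)) (XT.nd (nat_lit 78) (nat_lit 0) (nat_lit 0) (XT.lf (nat_lit 0) (nat_lit 17517464754) (nat_lit 76) (nat_lit 38753604716) (nat_lit 76) (nat_lit 35469945930) (nat_lit 3) (nat_lit 4) (nat_lit 4) (nat_lit 5) (nat_lit 4) (nat_lit 4) (nat_lit 437) (nat_lit 304) (nat_lit 279)) (XT.lf (nat_lit 0) (nat_lit 33760896585) (nat_lit 76) (nat_lit 32841831315) (nat_lit 76) (nat_lit 29492648033) (nat_lit 3) (nat_lit 4) (nat_lit 4) (nat_lit 5) (nat_lit 4) (nat_lit 4) (nat_lit 438) (nat_lit 304) (nat_lit 278)))) (XT.nd (nat_lit 156) (nat_lit 152) (nat_lit 0) (XT.nd (nat_lit 78) (nat_lit 76) (nat_lit 0) (XT.lf (nat_lit 0) (nat_lit 3165806762) (nat_lit 152) (nat_lit 8144143595)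 (nat_lit 0) (nat_lit 3165806762) (nat_lit 19) (nat_lit 5) (nat_lit 21) (nat_lit 4) (nat_lit 19) (nat_lit 4) (nat_lit 410) (nat_lit 305) (nat_lit 305)) (XT.lf (nat_lit 0) (nat_lit 4937865478) (nat_lit 76) (nat_lit 12696433080) (nat_lit 76) (nat_lit 12426341164) (nat_lit 18) (nat_lit 4) (nat_lit 19) (nat_lit 5) (nat_lit 19) (nat_lit 4) (nat_lit 411) (nat_lit 305) (nat_lit 304))) (XT.nd (nat_lit 78) (nat_lit 152) (nat_lit 0) (XT.lf (nat_lit 0) (nat_lit 26860926796) (nat_lit 76) (nat_lit 2448701497) (nat_lit 76) (nat_lit 1921379184) (nat_lit 18) (nat_lit 4) (nat_lit 19) (nat_lit 5) (nat_lit 19) (nat_lit 4) (nat_lit 412) (nat_lit 305) (nat_lit 303)) (XT.lf (nat_lit 0) (nat_lit 8827135139) (nat_lit 152) (nat_lit 15555934864) (nat_lit 0) (nat_lit 8077325776) (nat_lit 16) (nat_lit 5) (nat_lit 18) (nat_lit 4) (nat_lit 16) (nat_lit 4) (nat_lit 413) (nat_lit 305) (nat_lit 302))))))))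
noncomputable def xc4 : XT := (XT.nd (nat_lit 1872) (nat_lit 0) (nat_lit 0) (XT.nd (nat_lit 936) (nat_lit 304) (nat_lit 0) (XT.nd (nat_lit 468) (nat_lit 380) (nat_lit 0) (XT.nd (nat_lit 234) (nat_lit 76) (nat_lit 0) (XT.nd (nat_lit 78) (nat_lit 152) (nat_lit 0) (XT.lf (nat_lit 0) (nat_lit 4970913824) (nat_lit 76) (nat_lit 14881369936) (nat_lit 76) (nat_lit 13905040620) (nat_lit 15) (nat_lit 4) (nat_lit 16) (nat_lit 5) (nat_lit 16) (nat_lit 4) (nat_lit 414) (nat_lit 305) (nat_lit 301)) (XT.nd (nat_lit 78) (nat_lit 152) (nat_lit 0) (XT.lf (nat_lit 0) (nat_lit 26202579396) (nat_lit 76) (nat_lit 5056835183) (nat_lit 76) (nat_lit 3864772576) (nat_lit 15) (nat_lit 4) (nat_lit 16) (nat_lit 5) (nat_lit 16) (nat_lit 4) (nat_lit 415) (nat_lit 305) (nat_lit 300)) (XT.lf (nat_lit 0) (nat_lit 6390008243) (nat_lit 152) (nat_lit 25138993988) (nat_lit 0) (nat_lit 5033189911) (nat_lit 13) (nat_lit 5) (nat_lit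 15) (nat_lit 4) (nat_lit 13) (nat_lit 4) (nat_lit 416) (nat_lit 305) (nat_lit 299)))) (XT.nd (nat_lit 78) (nat_lit 76) (nat_lit 0) (XT.lf (nat_lit 0) (nat_lit 16911718637) (nat_lit 152) (nat_lit 5799292380) (nat_lit 0) (nat_lit 15364923166) (nat_lit 13) (nat_lit 5) (nat_lit 15) (nat_lit 4) (nat_lit 13) (nat_lit 4) (nat_lit 417) (nat_lit 305) (nat_lit 298)) (XT.nd (nat_lit 78) (nat_lit 0) (nat_lit 0) (XT.lf (nat_lit 0) (nat_lit 14202952035) (nat_lit 76) (nat_lit 13597459212) (nat_lit 76) (nat_lit 11869733133) (nat_lit 12) (nat_lit 4) (nat_lit 13) (nat_lit 5) (nat_lit 13) (nat_lit 4) (nat_lit 418) (nat_lit 305) (nat_lit 297)) (XT.lf (nat_lit 0) (nat_lit 34761575051) (nat_lit 76) (nat_lit 4244678552) (nat_lit 76) (nat_lit 2344637608) (nat_lit 12) (nat_lit 4) (nat_lit 13) (nat_lit 5) (nat_lit 13) (nat_lit 4) (nat_lit 419) (nat_lit 305) (nat_lit 296))))) (XT.nd (nat_lit 234) (nat_lit 152) (nat_lit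 0) (XT.nd (nat_lit 78) (nat_lit 76) (nat_lit 0) (XT.lf (nat_lit 0) (nat_lit 7407931004) (nat_lit 152) (nat_lit 30304622958) (nat_lit 0) (nat_lit 5403901547) (nat_lit 10) (nat_lit 5) (nat_lit 12) (nat_lit 4) (nat_lit 10) (nat_lit 4) (nat_lit 420) (nat_lit 305) (nat_lit 295)) (XT.nd (nat_lit 78) (nat_lit 76) (nat_lit 0) (XT.lf (nat_lit 0) (nat_lit 17440973014) (nat_lit 152) (nat_lit 12248194017) (nat_lit 0) (nat_lit 15285201167) (nat_lit 10) (nat_lit 5) (nat_lit 12) (nat_lit 4) (nat_lit 10) (nat_lit 4) (nat_lit 421) (nat_lit 305) (nat_lit 294)) (XT.lf (nat_lit 0) (nat_lit 6326424075) (nat_lit 76) (nat_lit 21452475123) (nat_lit 76) (nat_lit 19152186714) (nat_lit 9) (nat_lit 4) (nat_lit 10) (nat_lit 5) (nat_lit 10) (nat_lit 4) (nat_lit 422) (nat_lit 305) (nat_lit 293)))) (XT.nd (nat_lit 78) (nat_lit 152) (nat_lit 0) (XT.lf (nat_lit 0) (nat_lit 25592204802) (nat_lit 76) (nat_lit 12917541626) (nat_lit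 76) (nat_lit 10479618396) (nat_lit 9) (nat_lit 4) (nat_lit 10) (nat_lit 5) (nat_lit 10) (nat_lit 4) (nat_lit 423) (nat_lit 305) (nat_lit 292)) (XT.nd (nat_lit 78) (nat_lit 152) (nat_lit 0) (XT.lf (nat_lit 0) (nat_lit 45351255993) (nat_lit 76) (nat_lit 4187728013) (nat_lit 76) (nat_lit 1618724000) (nat_lit 9) (nat_lit 4) (nat_lit 10) (nat_lit 5) (nat_lit 10) (nat_lit 4) (nat_lit 424) (nat_lit 305) (nat_lit 291)) (XT.lf (nat_lit 0) (nat_lit 7472805420) (nat_lit 152) (nat_lit 41103901300) (nat_lit 0) (nat_lit 4857424009) (nat_lit 7) (nat_lit 5) (nat_lit 9) (nat_lit 4) (nat_lit 7) (nat_lit 4) (nat_lit 425) (nat_lit 305) (nat_lit 290)))))) (XT.nd (nat_lit 468) (nat_lit 228) (nat_lit 0) (XT.nd (nat_lit 234) (nat_lit 0) (nat_lit 0) (XT.nd (nat_lit 78) (nat_lit 76) (nat_lit 0) (XT.lf (nat_lit 0) (nat_lit 16863915097) (nat_lit 152) (nat_lit 24830526829) (nat_lit 0) (nat_lit 14133102488) (nat_lit 7) (nat_lit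 5) (nat_lit 9) (nat_lit 4) (nat_lit 7) (nat_lit 4) (nat_lit 426) (nat_lit 305) (nat_lit 289)) (XT.nd (nat_lit 78) (nat_lit 76) (nat_lit 0) (XT.lf (nat_lit 0) (nat_lit 26510807322) (nat_lit 152) (nat_lit 8166179242) (nat_lit 0) (nat_lit 23670060239) (nat_lit 7) (nat_lit 5) (nat_lit 9) (nat_lit 4) (nat_lit 7) (nat_lit 4) (nat_lit 427) (nat_lit 305) (nat_lit 288)) (XT.lf (nat_lit 0) (nat_lit 9106519471) (nat_lit 76) (nat_lit 27417468851) (nat_lit 76) (nat_lit 24472022269) (nat_lit 6) (nat_lit 4) (nat_lit 7) (nat_lit 5) (nat_lit 7) (nat_lit 4) (nat_lit 428) (nat_lit 305) (nat_lit 287)))) (XT.nd (nat_lit 78) (nat_lit 0) (nat_lit 0) (XT.lf (nat_lit 0) (nat_lit 27022474511) (nat_lit 76) (nat_lit 19901760319) (nat_lit 76) (nat_lit 16856599929) (nat_lit 6) (nat_lit 4) (nat_lit 7) (nat_lit 5) (nat_lit 7) (nat_lit 4) (nat_lit 429) (nat_lit 305) (nat_lit 286)) (XT.nd (nat_lit 78) (nat_lit 0) (nat_lit 0)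 (XT.lf (nat_lit 0) (nat_lit 45461819934) (nat_lit 76) (nat_lit 12194428824) (nat_lit 76) (nat_lit 9054302902) (nat_lit 6) (nat_lit 4) (nat_lit 7) (nat_lit 5) (nat_lit 7) (nat_lit 4) (nat_lit 430) (nat_lit 305) (nat_lit 285)) (XT.lf (nat_lit 0) (nat_lit 64468458944) (nat_lit 76) (nat_lit 4277123575) (nat_lit 76) (nat_lit 1046554289) (nat_lit 6) (nat_lit 4) (nat_lit 7) (nat_lit 5) (nat_lit 7) (nat_lit 4) (nat_lit 431) (nat_lit 305) (nat_lit 284))))) (XT.nd (nat_lit 234) (nat_lit 76) (nat_lit 0) (XT.nd (nat_lit 78) (nat_lit 0) (nat_lit 0) (XT.lf (nat_lit 0) (nat_lit 7192136762) (nat_lit 152) (nat_lit 61862285008) (nat_lit 0) (nat_lit 3972034021) (nat_lit 4) (nat_lit 5) (nat_lit 6) (nat_lit 4) (nat_lit 4) (nat_lit 4) (nat_lit 432) (nat_lit 305) (nat_lit 283)) (XT.nd (nat_lit 78) (nat_lit 0) (nat_lit 0) (XT.lf (nat_lit 0) (nat_lit 15750845120) (nat_lit 152) (nat_lit 48222349489) (nat_lit 0) (nat_lit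 12451096945) (nat_lit 4) (nat_lit 5) (nat_lit 6) (nat_lit 4) (nat_lit 4) (nat_lit 4) (nat_lit 433) (nat_lit 305) (nat_lit 282)) (XT.lf (nat_lit 0) (nat_lit 24576546695) (nat_lit 152) (nat_lit 34219358286) (nat_lit 0) (nat_lit 21200945726) (nat_lit 4) (nat_lit 5) (nat_lit 6) (nat_lit 4) (nat_lit 4) (nat_lit 4) (nat_lit 434) (nat_lit 305) (nat_lit 281)))) (XT.nd (nat_lit 78) (nat_lit 76) (nat_lit 0) (XT.lf (nat_lit 0) (nat_lit 33690255062) (nat_lit 152) (nat_lit 19819970945) (nat_lit 0) (nat_lit 30242413336) (nat_lit 4) (nat_lit 5) (nat_lit 6) (nat_lit 4) (nat_lit 4) (nat_lit 4) (nat_lit 435) (nat_lit 305) (nat_lit 280)) (XT.nd (nat_lit 78) (nat_lit 76) (nat_lit 0) (XT.lf (nat_lit 0) (nat_lit 43113669526) (nat_lit 152) (nat_lit 4989903210) (nat_lit 0) (nat_lit 39597027080) (nat_lit 4) (nat_lit 5) (nat_lit 6) (nat_lit 4) (nat_lit 4) (nat_lit 4) (nat_lit 436) (nat_lit 305) (nat_lit 279)) (XT.lf (nat_lit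 0) (nat_lit 10511267288) (nat_lit 76) (nat_lit 42459000231) (nat_lit 76) (nat_lit 38876833289) (nat_lit 3) (nat_lit 4) (nat_lit 4) (nat_lit 5) (nat_lit 4) (nat_lit 4) (nat_lit 437) (nat_lit 305) (nat_lit 278))))))) (XT.nd (nat_lit 51636) (nat_lit 0) (nat_lit 228) (XT.nd (nat_lit 51168) (nat_lit 0) (nat_lit 684) (XT.nd (nat_lit 50934) (nat_lit 0) (nat_lit 1140) (XT.nd (nat_lit 50778) (nat_lit 0) (nat_lit 1368) (XT.lf (nat_lit 0) (nat_lit 26624154840) (nat_lit 76) (nat_lit 36611927191) (nat_lit 76) (nat_lit 32967355967) (nat_lit 3) (nat_lit 4) (nat_lit 4) (nat_lit 5) (nat_lit 4) (nat_lit 4) (nat_lit 438) (nat_lit 305) (nat_lit 277)) (XT.nd (nat_lit 78) (nat_lit 76) (nat_lit 0) (XT.lf (nat_lit 0) (nat_lit 5945332435) (nat_lit 152) (nat_lit 1556427497) (nat_lit 0) (nat_lit 5945332435) (nat_lit 22) (nat_lit 5) (nat_lit 24) (nat_lit 4) (nat_lit 22) (nat_lit 4) (nat_lit 408) (nat_lit 306) (nat_lit 306))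 (XT.lf (nat_lit 0) (nat_lit 18790844021) (nat_lit 76) (nat_lit 4700194688) (nat_lit 76) (nat_lit 4408090280) (nat_lit 21) (nat_lit 4) (nat_lit 22) (nat_lit 5) (nat_lit 22) (nat_lit 4) (nat_lit 409) (nat_lit 306) (nat_lit 305)))) (XT.nd (nat_lit 78) (nat_lit 76) (nat_lit 0) (XT.lf (nat_lit 0) (nat_lit 6434206245) (nat_lit 152) (nat_lit 16642226086) (nat_lit 0) (nat_lit 5880517816) (nat_lit 19) (nat_lit 5) (nat_lit 21) (nat_lit 4) (nat_lit 19) (nat_lit 4) (nat_lit 410) (nat_lit 306) (nat_lit 304)) (XT.nd (nat_lit 78) (nat_lit 0) (nat_lit 0) (XT.lf (nat_lit 0) (nat_lit 4233089197) (nat_lit 76) (nat_lit 13324642777) (nat_lit 76) (nat_lit 12513723952) (nat_lit 18) (nat_lit 4) (nat_lit 19) (nat_lit 5) (nat_lit 19) (nat_lit 4) (nat_lit 411) (nat_lit 306) (nat_lit 303)) (XT.lf (nat_lit 0) (nat_lit 25828728318) (nat_lit 76) (nat_lit 3237010235) (nat_lit 76) (nat_lit 2181110079) (nat_lit 18) (nat_lit 4)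 (nat_lit 19) (nat_lit 5) (nat_lit 19) (nat_lit 4) (nat_lit 412) (nat_lit 306) (nat_lit 302))))) (XT.nd (nat_lit 234) (nat_lit 228) (nat_lit 0) (XT.nd (nat_lit 78) (nat_lit 76) (nat_lit 0) (XT.lf (nat_lit 0) (nat_lit 8388979622) (nat_lit 152) (nat_lit 16955527973) (nat_lit 0) (nat_lit 7137313885) (nat_lit 16) (nat_lit 5) (nat_lit 18) (nat_lit 4) (nat_lit 16) (nat_lit 4) (nat_lit 413) (nat_lit 306) (nat_lit 301)) (XT.nd (nat_lit 78) (nat_lit 0) (nat_lit 0) (XT.lf (nat_lit 0) (nat_lit 3228052001) (nat_lit 76) (nat_lit 16011667005) (nat_lit 76) (nat_lit 14544267979) (nat_lit 15) (nat_lit 4) (nat_lit 16) (nat_lit 5) (nat_lit 16) (nat_lit 4) (nat_lit 414) (nat_lit 306) (nat_lit 300)) (XT.lf (nat_lit 0) (nat_lit 24159323224) (nat_lit 76) (nat_lit 6334490662) (nat_lit 76) (nat_lit 4661631360) (nat_lit 15) (nat_lit 4) (nat_lit 16) (nat_lit 5) (nat_lit 16) (nat_lit 4) (nat_lit 415) (nat_lit 306) (nat_lit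 299)))) (XT.nd (nat_lit 78) (nat_lit 76) (nat_lit 0) (XT.lf (nat_lit 0) (nat_lit 5424457057) (nat_lit 152) (nat_lit 27564409634) (nat_lit 0) (nat_lit 3610344674) (nat_lit 13) (nat_lit 5) (nat_lit 15) (nat_lit 4) (nat_lit 13) (nat_lit 4) (nat_lit 416) (nat_lit 306) (nat_lit 298)) (XT.nd (nat_lit 78) (nat_lit 76) (nat_lit 0) (XT.lf (nat_lit 0) (nat_lit 15801957321) (nat_lit 152) (nat_lit 8508411939) (nat_lit 0) (nat_lit 13806914330) (nat_lit 13) (nat_lit 5) (nat_lit 15) (nat_lit 4) (nat_lit 13) (nat_lit 4) (nat_lit 417) (nat_lit 306) (nat_lit 297)) (XT.lf (nat_lit 0) (nat_lit 11164344087) (nat_lit 76) (nat_lit 15359753906) (nat_lit 76) (nat_lit 13192396049) (nat_lit 12) (nat_lit 4) (nat_lit 13) (nat_lit 5) (nat_lit 13) (nat_lit 4) (nat_lit 418) (nat_lit 306) (nat_lit 296)))))) (XT.nd (nat_lit 468) (nat_lit 228) (nat_lit 0) (XT.nd (nat_lit 234) (nat_lit 76) (nat_lit 0) (XT.nd (nat_lit 78) (nat_lit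 152) (nat_lit 0) (XT.lf (nat_lit 0) (nat_lit 31460517962) (nat_lit 76) (nat_lit 6136096726) (nat_lit 76) (nat_lit 3804629474) (nat_lit 12) (nat_lit 4) (nat_lit 13) (nat_lit 5) (nat_lit 13) (nat_lit 4) (nat_lit 419) (nat_lit 306) (nat_lit 295)) (XT.nd (nat_lit 78) (nat_lit 0) (nat_lit 0) (XT.lf (nat_lit 0) (nat_lit 5793133163) (nat_lit 152) (nat_lit 34001768120) (nat_lit 0) (nat_lit 3377830333) (nat_lit 10) (nat_lit 5) (nat_lit 12) (nat_lit 4) (nat_lit 10) (nat_lit 4) (nat_lit 420) (nat_lit 306) (nat_lit 294)) (XT.lf (nat_lit 0) (nat_lit 15700525717) (nat_lit 152) (nat_lit 16193184845) (nat_lit 0) (nat_lit 13140706325) (nat_lit 10) (nat_lit 5) (nat_lit 12) (nat_lit 4) (nat_lit 10) (nat_lit 4) (nat_lit 421) (nat_lit 306) (nat_lit 293)))) (XT.nd (nat_lit 78) (nat_lit 0) (nat_lit 0) (XT.lf (nat_lit 0) (nat_lit 2062178974) (nat_lit 76) (nat_lit 23815616248) (nat_lit 76) (nat_lit 21118162034) (nat_lit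 9) (nat_lit 4) (nat_lit 10) (nat_lit 5) (nat_lit 10) (nat_lit 4) (nat_lit 422) (nat_lit 306) (nat_lit 292)) (XT.nd (nat_lit 78) (nat_lit 0) (nat_lit 0) (XT.lf (nat_lit 0) (nat_lit 21098682349) (nat_lit 76) (nat_lit 15393788389) (nat_lit 76) (nat_lit 12565253393) (nat_lit 9) (nat_lit 4) (nat_lit 10) (nat_lit 5) (nat_lit 10) (nat_lit 4) (nat_lit 423) (nat_lit 306) (nat_lit 291)) (XT.lf (nat_lit 0) (nat_lit 40639374157) (nat_lit 76) (nat_lit 6771694431) (nat_lit 76) (nat_lit 3818320594) (nat_lit 9) (nat_lit 4) (nat_lit 10) (nat_lit 5) (nat_lit 10) (nat_lit 4) (nat_lit 424) (nat_lit 306) (nat_lit 290))))) (XT.nd (nat_lit 234) (nat_lit 76) (nat_lit 0) (XT.nd (nat_lit 78) (nat_lit 0) (nat_lit 0) (XT.lf (nat_lit 0) (nat_lit 5134436747) (nat_lit 152) (nat_lit 46225810465) (nat_lit 0) (nat_lit 2151652310) (nat_lit 7) (nat_lit 5) (nat_lit 9) (nat_lit 4) (nat_lit 7) (nat_lit 4) (nat_lit 425) (nat_lit 306)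 (nat_lit 289)) (XT.nd (nat_lit 78) (nat_lit 0) (nat_lit 0) (XT.lf (nat_lit 0) (nat_lit 14421266943) (nat_lit 152) (nat_lit 30158628973) (nat_lit 0) (nat_lit 11328548032) (nat_lit 7) (nat_lit 5) (nat_lit 9) (nat_lit 4) (nat_lit 7) (nat_lit 4) (nat_lit 426) (nat_lit 306) (nat_lit 288)) (XT.lf (nat_lit 0) (nat_lit 23968845377) (nat_lit 152) (nat_lit 13690655654) (nat_lit 0) (nat_lit 20771426967) (nat_lit 7) (nat_lit 5) (nat_lit 9) (nat_lit 4) (nat_lit 7) (nat_lit 4) (nat_lit 427) (nat_lit 306) (nat_lit 287)))) (XT.nd (nat_lit 156) (nat_lit 0) (nat_lit 0) (XT.nd (nat_lit 78) (nat_lit 0) (nat_lit 0) (XT.lf (nat_lit 0) (nat_lit 3281349909) (nat_lit 76) (nat_lit 30550096812) (nat_lit 76) (nat_lit 27252964594) (nat_lit 6) (nat_lit 4) (nat_lit 7) (nat_lit 5) (nat_lit 7) (nat_lit 4) (nat_lit 428) (nat_lit 306) (nat_lit 286)) (XT.lf (nat_lit 0) (nat_lit 21015642818) (nat_lit 76) (nat_lit 23124223628) (nat_lit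 76) (nat_lit 19732125878) (nat_lit 6) (nat_lit 4) (nat_lit 7) (nat_lit 5) (nat_lit 7) (nat_lit 4) (nat_lit 429) (nat_lit 306) (nat_lit 285))) (XT.nd (nat_lit 78) (nat_lit 0) (nat_lit 0) (XT.lf (nat_lit 0) (nat_lit 39281976687) (nat_lit 76) (nat_lit 15502449606) (nat_lit 76) (nat_lit 12019908492) (nat_lit 6) (nat_lit 4) (nat_lit 7) (nat_lit 5) (nat_lit 7) (nat_lit 4) (nat_lit 430) (nat_lit 306) (nat_lit 284)) (XT.lf (nat_lit 0) (nat_lit 58123842789) (nat_lit 76) (nat_lit 7666627666) (nat_lit 76) (nat_lit 4097950015) (nat_lit 6) (nat_lit 4) (nat_lit 7) (nat_lit 5) (nat_lit 7) (nat_lit 4) (nat_lit 431) (nat_lit 306) (nat_lit 283))))))))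
noncomputable def xc5 : XT := (XT.nd (nat_lit 52494) (nat_lit 0) (nat_lit 0) (XT.nd (nat_lit 51480) (nat_lit 0) (nat_lit 456) (XT.nd (nat_lit 468) (nat_lit 0) (nat_lit 0) (XT.nd (nat_lit 234) (nat_lit 76) (nat_lit 0) (XT.nd (nat_lit 78) (nat_lit 0) (nat_lit 0) (XT.lf (nat_lit 0) (nat_lit 4021497675) (nat_lit 152) (nat_lit 68630370397) (nat_lit 0) (nat_lit 477116657) (nat_lit 4) (nat_lit 5) (nat_lit 6) (nat_lit 4) (nat_lit 4) (nat_lit 4) (nat_lit 432) (nat_lit 306) (nat_lit 282)) (XT.nd (nat_lit 78) (nat_lit 0) (nat_lit 0) (XT.lf (nat_lit 0) (nat_lit 12501697642) (nat_lit 152) (nat_lit 55146015899) (nat_lit 0) (nat_lit 8881463830) (nat_lit 4) (nat_lit 5) (nat_lit 6) (nat_lit 4) (nat_lit 4) (nat_lit 4) (nat_lit 433) (nat_lit 306) (nat_lit 281)) (XT.lf (nat_lit 0) (nat_lit 21252629321) (nat_lit 152) (nat_lit 41291197098) (nat_lit 0) (nat_lit 17560154753) (nat_lit 4) (nat_lit 5) (nat_lit 6) (nat_lit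 4) (nat_lit 4) (nat_lit 4) (nat_lit 434) (nat_lit 306) (nat_lit 280)))) (XT.nd (nat_lit 78) (nat_lit 76) (nat_lit 0) (XT.lf (nat_lit 0) (nat_lit 30295128263) (nat_lit 152) (nat_lit 27032926329) (nat_lit 0) (nat_lit 26533852974) (nat_lit 4) (nat_lit 5) (nat_lit 6) (nat_lit 4) (nat_lit 4) (nat_lit 4) (nat_lit 435) (nat_lit 306) (nat_lit 279)) (XT.nd (nat_lit 78) (nat_lit 76) (nat_lit 0) (XT.lf (nat_lit 0) (nat_lit 39650724227) (nat_lit 152) (nat_lit 12337255329) (nat_lit 0) (nat_lit 35823924443) (nat_lit 4) (nat_lit 5) (nat_lit 6) (nat_lit 4) (nat_lit 4) (nat_lit 4) (nat_lit 436) (nat_lit 306) (nat_lit 278)) (XT.lf (nat_lit 0) (nat_lit 2887144176) (nat_lit 76) (nat_lit 46482301263) (nat_lit 76) (nat_lit 42593097196) (nat_lit 3) (nat_lit 4) (nat_lit 4) (nat_lit 5) (nat_lit 4) (nat_lit 4) (nat_lit 437) (nat_lit 306) (nat_lit 277))))) (XT.nd (nat_lit 50778) (nat_lit 0) (nat_lit 1216) (XT.nd (nat_lit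 50622) (nat_lit 0) (nat_lit 1444) (XT.lf (nat_lit 0) (nat_lit 18875703842) (nat_lit 76) (nat_lit 40696847614) (nat_lit 76) (nat_lit 36748210898) (nat_lit 3) (nat_lit 4) (nat_lit 4) (nat_lit 5) (nat_lit 4) (nat_lit 4) (nat_lit 438) (nat_lit 306) (nat_lit 276)) (XT.nd (nat_lit 78) (nat_lit 152) (nat_lit 0) (XT.lf (nat_lit 0) (nat_lit 2711490738) (nat_lit 76) (nat_lit 4901748470) (nat_lit 76) (nat_lit 4901748470) (nat_lit 24) (nat_lit 4) (nat_lit 25) (nat_lit 5) (nat_lit 25) (nat_lit 4) (nat_lit 406) (nat_lit 307) (nat_lit 307)) (XT.lf (nat_lit 0) (nat_lit 970882751) (nat_lit 152) (nat_lit 24307406832) (nat_lit 0) (nat_lit 664173122) (nat_lit 22) (nat_lit 5) (nat_lit 24) (nat_lit 4) (nat_lit 22) (nat_lit 4) (nat_lit 407) (nat_lit 307) (nat_lit 306)))) (XT.nd (nat_lit 78) (nat_lit 228) (nat_lit 0) (XT.lf (nat_lit 0) (nat_lit 12017827384) (nat_lit 152) (nat_lit 3462736683) (nat_lit 0) (nat_lit 11419013348)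 (nat_lit 22) (nat_lit 5) (nat_lit 24) (nat_lit 4) (nat_lit 22) (nat_lit 4) (nat_lit 408) (nat_lit 307) (nat_lit 305)) (XT.nd (nat_lit 78) (nat_lit 152) (nat_lit 0) (XT.lf (nat_lit 0) (nat_lit 18094146600) (nat_lit 76) (nat_lit 5346360288) (nat_lit 76) (nat_lit 4469351578) (nat_lit 21) (nat_lit 4) (nat_lit 22) (nat_lit 5) (nat_lit 22) (nat_lit 4) (nat_lit 409) (nat_lit 307) (nat_lit 304)) (XT.lf (nat_lit 0) (nat_lit 6188540246) (nat_lit 152) (nat_lit 17704885482) (nat_lit 0) (nat_lit 5079845083) (nat_lit 19) (nat_lit 5) (nat_lit 21) (nat_lit 4) (nat_lit 19) (nat_lit 4) (nat_lit 410) (nat_lit 307) (nat_lit 303)))))) (XT.nd (nat_lit 468) (nat_lit 304) (nat_lit 0) (XT.nd (nat_lit 234) (nat_lit 228) (nat_lit 0) (XT.nd (nat_lit 78) (nat_lit 152) (nat_lit 0) (XT.lf (nat_lit 0) (nat_lit 2821858597) (nat_lit 76) (nat_lit 14312465992) (nat_lit 76) (nat_lit 12958789498) (nat_lit 18) (nat_lit 4) (nat_lit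 19) (nat_lit 5) (nat_lit 19) (nat_lit 4) (nat_lit 411) (nat_lit 307) (nat_lit 302)) (XT.nd (nat_lit 78) (nat_lit 152) (nat_lit 0) (XT.lf (nat_lit 0) (nat_lit 24105667053) (nat_lit 76) (nat_lit 4377308726) (nat_lit 76) (nat_lit 2790316679) (nat_lit 18) (nat_lit 4) (nat_lit 19) (nat_lit 5) (nat_lit 19) (nat_lit 4) (nat_lit 412) (nat_lit 307) (nat_lit 301)) (XT.lf (nat_lit 0) (nat_lit 7605721974) (nat_lit 152) (nat_lit 19059082101) (nat_lit 0) (nat_lit 5849219707) (nat_lit 16) (nat_lit 5) (nat_lit 18) (nat_lit 4) (nat_lit 16) (nat_lit 4) (nat_lit 413) (nat_lit 307) (nat_lit 300)))) (XT.nd (nat_lit 78) (nat_lit 152) (nat_lit 0) (XT.lf (nat_lit 0) (nat_lit 782238672) (nat_lit 76) (nat_lit 17500563669) (nat_lit 76) (nat_lit 15538601126) (nat_lit 15) (nat_lit 4) (nat_lit 16) (nat_lit 5) (nat_lit 16) (nat_lit 4) (nat_lit 414) (nat_lit 307) (nat_lit 299)) (XT.nd (nat_lit 78) (nat_lit 152) (nat_lit 0)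 (XT.lf (nat_lit 0) (nat_lit 21427420039) (nat_lit 76) (nat_lit 7963728668) (nat_lit 76) (nat_lit 5806089673) (nat_lit 15) (nat_lit 4) (nat_lit 16) (nat_lit 5) (nat_lit 16) (nat_lit 4) (nat_lit 415) (nat_lit 307) (nat_lit 298)) (XT.lf (nat_lit 0) (nat_lit 4114997547) (nat_lit 152) (nat_lit 30692689084) (nat_lit 0) (nat_lit 1839271797) (nat_lit 13) (nat_lit 5) (nat_lit 15) (nat_lit 4) (nat_lit 13) (nat_lit 4) (nat_lit 416) (nat_lit 307) (nat_lit 297))))) (XT.nd (nat_lit 234) (nat_lit 228) (nat_lit 0) (XT.nd (nat_lit 78) (nat_lit 76) (nat_lit 0) (XT.lf (nat_lit 0) (nat_lit 14355154830) (nat_lit 152) (nat_lit 11906885593) (nat_lit 0) (nat_lit 11907114215) (nat_lit 13) (nat_lit 5) (nat_lit 15) (nat_lit 4) (nat_lit 13) (nat_lit 4) (nat_lit 417) (nat_lit 307) (nat_lit 296)) (XT.nd (nat_lit 78) (nat_lit 0) (nat_lit 0) (XT.lf (nat_lit 0) (nat_lit 7435785003) (nat_lit 76) (nat_lit 17474866469) (nat_lit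 76) (nat_lit 14862716459) (nat_lit 12) (nat_lit 4) (nat_lit 13) (nat_lit 5) (nat_lit 13) (nat_lit 4) (nat_lit 418) (nat_lit 307) (nat_lit 295)) (XT.lf (nat_lit 0) (nat_lit 27482007316) (nat_lit 76) (nat_lit 8374184033) (nat_lit 76) (nat_lit 5605739360) (nat_lit 12) (nat_lit 4) (nat_lit 13) (nat_lit 5) (nat_lit 13) (nat_lit 4) (nat_lit 419) (nat_lit 307) (nat_lit 294)))) (XT.nd (nat_lit 156) (nat_lit 76) (nat_lit 0) (XT.nd (nat_lit 78) (nat_lit 0) (nat_lit 0) (XT.lf (nat_lit 0) (nat_lit 3840014047) (nat_lit 152) (nat_lit 38391854156) (nat_lit 0) (nat_lit 1007687122) (nat_lit 10) (nat_lit 5) (nat_lit 12) (nat_lit 4) (nat_lit 10) (nat_lit 4) (nat_lit 420) (nat_lit 307) (nat_lit 293)) (XT.lf (nat_lit 0) (nat_lit 13627740453) (nat_lit 152) (nat_lit 20819314373) (nat_lit 0) (nat_lit 10657778707) (nat_lit 10) (nat_lit 5) (nat_lit 12) (nat_lit 4) (nat_lit 10) (nat_lit 4) (nat_lit 421) (nat_lit 307) (nat_lit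 292))) (XT.nd (nat_lit 78) (nat_lit 76) (nat_lit 0) (XT.lf (nat_lit 0) (nat_lit 23671219272) (nat_lit 152) (nat_lit 2828994418) (nat_lit 0) (nat_lit 20570176744) (nat_lit 10) (nat_lit 5) (nat_lit 12) (nat_lit 4) (nat_lit 10) (nat_lit 4) (nat_lit 422) (nat_lit 307) (nat_lit 291)) (XT.lf (nat_lit 0) (nat_lit 15932847037) (nat_lit 76) (nat_lit 18214672783) (nat_lit 76) (nat_lit 14988791415) (nat_lit 9) (nat_lit 4) (nat_lit 10) (nat_lit 5) (nat_lit 10) (nat_lit 4) (nat_lit 423) (nat_lit 307) (nat_lit 290))))))) (XT.nd (nat_lit 936) (nat_lit 76) (nat_lit 0) (XT.nd (nat_lit 468) (nat_lit 152) (nat_lit 0) (XT.nd (nat_lit 234) (nat_lit 76) (nat_lit 0) (XT.nd (nat_lit 78) (nat_lit 152) (nat_lit 0) (XT.lf (nat_lit 0) (nat_lit 35265577527) (nat_lit 76) (nat_lit 9695168973) (nat_lit 76) (nat_lit 6350393471) (nat_lit 9) (nat_lit 4) (nat_lit 10) (nat_lit 5) (nat_lit 10) (nat_lit 4) (nat_lit 424) (nat_lit 307)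 (nat_lit 289)) (XT.nd (nat_lit 78) (nat_lit 0) (nat_lit 0) (XT.lf (nat_lit 0) (nat_lit 1564457512) (nat_lit 76) (nat_lit 909663434) (nat_lit 152) (nat_lit 51125591503) (nat_lit 7) (nat_lit 5) (nat_lit 8) (nat_lit 5) (nat_lit 9) (nat_lit 4) (nat_lit 425) (nat_lit 307) (nat_lit 288)) (XT.lf (nat_lit 0) (nat_lit 11652893110) (nat_lit 152) (nat_lit 36155703472) (nat_lit 0) (nat_lit 8190904280) (nat_lit 7) (nat_lit 5) (nat_lit 9) (nat_lit 4) (nat_lit 7) (nat_lit 4) (nat_lit 426) (nat_lit 307) (nat_lit 287)))) (XT.nd (nat_lit 78) (nat_lit 76) (nat_lit 0) (XT.lf (nat_lit 0) (nat_lit 21105886981) (nat_lit 152) (nat_lit 19874753263) (nat_lit 0) (nat_lit 17544184343) (nat_lit 7) (nat_lit 5) (nat_lit 9) (nat_lit 4) (nat_lit 7) (nat_lit 4) (nat_lit 427) (nat_lit 307) (nat_lit 286)) (XT.nd (nat_lit 78) (nat_lit 76) (nat_lit 0) (XT.lf (nat_lit 0) (nat_lit 30846865446) (nat_lit 152) (nat_lit 3144895904) (nat_lit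 0) (nat_lit 27190197276) (nat_lit 7) (nat_lit 5) (nat_lit 9) (nat_lit 4) (nat_lit 7) (nat_lit 4) (nat_lit 428) (nat_lit 307) (nat_lit 285)) (XT.lf (nat_lit 0) (nat_lit 14353795855) (nat_lit 76) (nat_lit 26683202923) (nat_lit 76) (nat_lit 22936091390) (nat_lit 6) (nat_lit 4) (nat_lit 7) (nat_lit 5) (nat_lit 7) (nat_lit 4) (nat_lit 429) (nat_lit 307) (nat_lit 284))))) (XT.nd (nat_lit 234) (nat_lit 76) (nat_lit 0) (XT.nd (nat_lit 78) (nat_lit 76) (nat_lit 0) (XT.lf (nat_lit 0) (nat_lit 32455356817) (nat_lit 76) (nat_lit 19142912210) (nat_lit 76) (nat_lit 15309664140) (nat_lit 6) (nat_lit 4) (nat_lit 7) (nat_lit 5) (nat_lit 7) (nat_lit 4) (nat_lit 430) (nat_lit 307) (nat_lit 283)) (XT.nd (nat_lit 78) (nat_lit 76) (nat_lit 0) (XT.lf (nat_lit 0) (nat_lit 51140296339) (nat_lit 76) (nat_lit 11384693421) (nat_lit 76) (nat_lit 7469410553) (nat_lit 6) (nat_lit 4) (nat_lit 7) (nat_lit 5) (nat_lit 7) (nat_lit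 4) (nat_lit 431) (nat_lit 307) (nat_lit 282)) (XT.lf (nat_lit 0) (nat_lit 591563368) (nat_lit 152) (nat_lit 2792537607) (nat_lit 76) (nat_lit 69855565374) (nat_lit 5) (nat_lit 5) (nat_lit 7) (nat_lit 5) (nat_lit 6) (nat_lit 4) (nat_lit 432) (nat_lit 307) (nat_lit 281)))) (XT.nd (nat_lit 78) (nat_lit 0) (nat_lit 0) (XT.lf (nat_lit 0) (nat_lit 8936814504) (nat_lit 152) (nat_lit 62719619052) (nat_lit 0) (nat_lit 4987475450) (nat_lit 4) (nat_lit 5) (nat_lit 6) (nat_lit 4) (nat_lit 4) (nat_lit 4) (nat_lit 433) (nat_lit 307) (nat_lit 280)) (XT.nd (nat_lit 78) (nat_lit 0) (nat_lit 0) (XT.lf (nat_lit 0) (nat_lit 17616536758) (nat_lit 152) (nat_lit 49005916822) (nat_lit 0) (nat_lit 13598396984) (nat_lit 4) (nat_lit 5) (nat_lit 6) (nat_lit 4) (nat_lit 4) (nat_lit 4) (nat_lit 434) (nat_lit 307) (nat_lit 279)) (XT.lf (nat_lit 0) (nat_lit 26591217200) (nat_lit 152) (nat_lit 34882042789) (nat_lit 0) (nat_lit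 22507552930) (nat_lit 4) (nat_lit 5) (nat_lit 6) (nat_lit 4) (nat_lit 4) (nat_lit 4) (nat_lit 435) (nat_lit 307) (nat_lit 278)))))) (XT.nd (nat_lit 50856) (nat_lit 0) (nat_lit 988) (XT.nd (nat_lit 50622) (nat_lit 0) (nat_lit 1596) (XT.nd (nat_lit 78) (nat_lit 76) (nat_lit 0) (XT.lf (nat_lit 0) (nat_lit 35882224117) (nat_lit 152) (nat_lit 20314368680) (nat_lit 0) (nat_lit 31736155566) (nat_lit 4) (nat_lit 5) (nat_lit 6) (nat_lit 4) (nat_lit 4) (nat_lit 4) (nat_lit 436) (nat_lit 307) (nat_lit 277)) (XT.nd (nat_lit 78) (nat_lit 76) (nat_lit 0) (XT.lf (nat_lit 0) (nat_lit 45511678954) (nat_lit 152) (nat_lit 5268209557) (nat_lit 0) (nat_lit 41306177753) (nat_lit 4) (nat_lit 5) (nat_lit 6) (nat_lit 4) (nat_lit 4) (nat_lit 4) (nat_lit 437) (nat_lit 307) (nat_lit 276)) (XT.lf (nat_lit 0) (nat_lit 10497094898) (nat_lit 76) (nat_lit 45106318583) (nat_lit 76) (nat_lit 40844214860) (nat_lit 3) (nat_lit 4)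 (nat_lit 4) (nat_lit 5) (nat_lit 4) (nat_lit 4) (nat_lit 438) (nat_lit 307) (nat_lit 275)))) (XT.nd (nat_lit 78) (nat_lit 228) (nat_lit 0) (XT.lf (nat_lit 0) (nat_lit 5053625557) (nat_lit 76) (nat_lit 3307991810) (nat_lit 76) (nat_lit 3307991810) (nat_lit 27) (nat_lit 4) (nat_lit 28) (nat_lit 5) (nat_lit 28) (nat_lit 4) (nat_lit 404) (nat_lit 308) (nat_lit 308)) (XT.nd (nat_lit 78) (nat_lit 76) (nat_lit 0) (XT.lf (nat_lit 0) (nat_lit 4232945462) (nat_lit 152) (nat_lit 16031783068) (nat_lit 0) (nat_lit 3901239000) (nat_lit 25) (nat_lit 5) (nat_lit 27) (nat_lit 4) (nat_lit 25) (nat_lit 4) (nat_lit 405) (nat_lit 308) (nat_lit 307)) (XT.lf (nat_lit 0) (nat_lit 5070266866) (nat_lit 76) (nat_lit 10306389256) (nat_lit 76) (nat_lit 9658771876) (nat_lit 24) (nat_lit 4) (nat_lit 25) (nat_lit 5) (nat_lit 25) (nat_lit 4) (nat_lit 406) (nat_lit 308) (nat_lit 306))))) (XT.nd (nat_lit 234) (nat_lit 380) (nat_lit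 0) (XT.nd (nat_lit 78) (nat_lit 76) (nat_lit 0) (XT.lf (nat_lit 0) (nat_lit 924856274) (nat_lit 152) (nat_lit 25024664295) (nat_lit 0) (nat_lit 3997129) (nat_lit 22) (nat_lit 5) (nat_lit 24) (nat_lit 4) (nat_lit 22) (nat_lit 4) (nat_lit 407) (nat_lit 308) (nat_lit 305)) (XT.nd (nat_lit 78) (nat_lit 76) (nat_lit 0) (XT.lf (nat_lit 0) (nat_lit 11800803655) (nat_lit 152) (nat_lit 4513214802) (nat_lit 0) (nat_lit 10601749836) (nat_lit 22) (nat_lit 5) (nat_lit 24) (nat_lit 4) (nat_lit 22) (nat_lit 4) (nat_lit 408) (nat_lit 308) (nat_lit 304)) (XT.lf (nat_lit 0) (nat_lit 16699092954) (nat_lit 76) (nat_lit 6348125570) (nat_lit 76) (nat_lit 4884124441) (nat_lit 21) (nat_lit 4) (nat_lit 22) (nat_lit 5) (nat_lit 22) (nat_lit 4) (nat_lit 409) (nat_lit 308) (nat_lit 303)))) (XT.nd (nat_lit 156) (nat_lit 152) (nat_lit 0) (XT.nd (nat_lit 78) (nat_lit 76) (nat_lit 0) (XT.lf (nat_lit 0) (nat_lit 5594030609)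 (nat_lit 152) (nat_lit 19478795522) (nat_lit 0) (nat_lit 3927688961) (nat_lit 19) (nat_lit 5) (nat_lit 21) (nat_lit 4) (nat_lit 19) (nat_lit 4) (nat_lit 410) (nat_lit 308) (nat_lit 302)) (XT.lf (nat_lit 0) (nat_lit 700813605) (nat_lit 76) (nat_lit 15662254685) (nat_lit 76) (nat_lit 13762597483) (nat_lit 18) (nat_lit 4) (nat_lit 19) (nat_lit 5) (nat_lit 19) (nat_lit 4) (nat_lit 411) (nat_lit 308) (nat_lit 301))) (XT.nd (nat_lit 78) (nat_lit 152) (nat_lit 0) (XT.lf (nat_lit 0) (nat_lit 21687640476) (nat_lit 76) (nat_lit 5872311968) (nat_lit 76) (nat_lit 3750449478) (nat_lit 18) (nat_lit 4) (nat_lit 19) (nat_lit 5) (nat_lit 19) (nat_lit 4) (nat_lit 412) (nat_lit 308) (nat_lit 300)) (XT.lf (nat_lit 0) (nat_lit 6475497297) (nat_lit 152) (nat_lit 21871605712) (nat_lit 0) (nat_lit 4209976351) (nat_lit 16) (nat_lit 5) (nat_lit 18) (nat_lit 4) (nat_lit 16) (nat_lit 4) (nat_lit 413) (nat_lit 308) (nat_lit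 299))))))))
noncomputable def xc6 : XT := (XT.nd (nat_lit 52182) (nat_lit 0) (nat_lit 304) (XT.nd (nat_lit 936) (nat_lit 456) (nat_lit 0) (XT.nd (nat_lit 468) (nat_lit 228) (nat_lit 0) (XT.nd (nat_lit 234) (nat_lit 76) (nat_lit 0) (XT.nd (nat_lit 78) (nat_lit 228) (nat_lit 0) (XT.lf (nat_lit 0) (nat_lit 17002059864) (nat_lit 152) (nat_lit 2326056445) (nat_lit 0) (nat_lit 14540862466) (nat_lit 16) (nat_lit 5) (nat_lit 18) (nat_lit 4) (nat_lit 16) (nat_lit 4) (nat_lit 414) (nat_lit 308) (nat_lit 298)) (XT.nd (nat_lit 78) (nat_lit 152) (nat_lit 0) (XT.lf (nat_lit 0) (nat_lit 18000365308) (nat_lit 76) (nat_lit 9948428340) (nat_lit 76) (nat_lit 7300872415) (nat_lit 15) (nat_lit 4) (nat_lit 16) (nat_lit 5) (nat_lit 16) (nat_lit 4) (nat_lit 415) (nat_lit 308) (nat_lit 297)) (XT.lf (nat_lit 0) (nat_lit 2171396068) (nat_lit 76) (nat_lit 289902603) (nat_lit 152) (nat_lit 34244164741) (nat_lit 13) (nat_lit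 5) (nat_lit 14) (nat_lit 5) (nat_lit 15) (nat_lit 4) (nat_lit 416) (nat_lit 308) (nat_lit 296)))) (XT.nd (nat_lit 78) (nat_lit 76) (nat_lit 0) (XT.lf (nat_lit 0) (nat_lit 12567866396) (nat_lit 152) (nat_lit 16002804945) (nat_lit 0) (nat_lit 9660999489) (nat_lit 13) (nat_lit 5) (nat_lit 15) (nat_lit 4) (nat_lit 13) (nat_lit 4) (nat_lit 417) (nat_lit 308) (nat_lit 295)) (XT.nd (nat_lit 78) (nat_lit 0) (nat_lit 0) (XT.lf (nat_lit 0) (nat_lit 3008397262) (nat_lit 76) (nat_lit 19947832884) (nat_lit 76) (nat_lit 16884671316) (nat_lit 12) (nat_lit 4) (nat_lit 13) (nat_lit 5) (nat_lit 13) (nat_lit 4) (nat_lit 418) (nat_lit 308) (nat_lit 294)) (XT.lf (nat_lit 0) (nat_lit 22816570467) (nat_lit 76) (nat_lit 10964269252) (nat_lit 76) (nat_lit 7752255624) (nat_lit 12) (nat_lit 4) (nat_lit 13) (nat_lit 5) (nat_lit 13) (nat_lit 4) (nat_lit 419) (nat_lit 308) (nat_lit 293))))) (XT.nd (nat_lit 234) (nat_lit 76)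 (nat_lit 0) (XT.nd (nat_lit 78) (nat_lit 76) (nat_lit 0) (XT.lf (nat_lit 0) (nat_lit 1562492864) (nat_lit 152) (nat_lit 181916979) (nat_lit 76) (nat_lit 41572118812) (nat_lit 11) (nat_lit 5) (nat_lit 13) (nat_lit 5) (nat_lit 12) (nat_lit 4) (nat_lit 420) (nat_lit 308) (nat_lit 292)) (XT.nd (nat_lit 78) (nat_lit 0) (nat_lit 0) (XT.lf (nat_lit 0) (nat_lit 11217682018) (nat_lit 152) (nat_lit 26137597194) (nat_lit 0) (nat_lit 7830506581) (nat_lit 10) (nat_lit 5) (nat_lit 12) (nat_lit 4) (nat_lit 10) (nat_lit 4) (nat_lit 421) (nat_lit 308) (nat_lit 291)) (XT.lf (nat_lit 0) (nat_lit 21152620113) (nat_lit 152) (nat_lit 8361375644) (nat_lit 0) (nat_lit 17640605836) (nat_lit 10) (nat_lit 5) (nat_lit 12) (nat_lit 4) (nat_lit 10) (nat_lit 4) (nat_lit 422) (nat_lit 308) (nat_lit 290)))) (XT.nd (nat_lit 78) (nat_lit 0) (nat_lit 0) (XT.lf (nat_lit 0) (nat_lit 10082399259) (nat_lit 76) (nat_lit 21386911201)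 (nat_lit 76) (nat_lit 17756002790) (nat_lit 9) (nat_lit 4) (nat_lit 10) (nat_lit 5) (nat_lit 10) (nat_lit 4) (nat_lit 423) (nat_lit 308) (nat_lit 289)) (XT.nd (nat_lit 78) (nat_lit 0) (nat_lit 0) (XT.lf (nat_lit 0) (nat_lit 29217071352) (nat_lit 76) (nat_lit 12965112294) (nat_lit 76) (nat_lit 9220971375) (nat_lit 9) (nat_lit 4) (nat_lit 10) (nat_lit 5) (nat_lit 10) (nat_lit 4) (nat_lit 424) (nat_lit 308) (nat_lit 288)) (XT.lf (nat_lit 0) (nat_lit 48921791607) (nat_lit 76) (nat_lit 4312980632) (nat_lit 76) (nat_lit 460999230) (nat_lit 9) (nat_lit 4) (nat_lit 10) (nat_lit 5) (nat_lit 10) (nat_lit 4) (nat_lit 425) (nat_lit 308) (nat_lit 287)))))) (XT.nd (nat_lit 468) (nat_lit 228) (nat_lit 0) (XT.nd (nat_lit 234) (nat_lit 76) (nat_lit 0) (XT.nd (nat_lit 78) (nat_lit 0) (nat_lit 0) (XT.lf (nat_lit 0) (nat_lit 8552202231) (nat_lit 152) (nat_lit 42836029073) (nat_lit 0) (nat_lit 4712700653) (nat_lit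 7) (nat_lit 5) (nat_lit 9) (nat_lit 4) (nat_lit 7) (nat_lit 4) (nat_lit 426) (nat_lit 308) (nat_lit 286)) (XT.nd (nat_lit 78) (nat_lit 0) (nat_lit 0) (XT.lf (nat_lit 0) (nat_lit 17915115566) (nat_lit 152) (nat_lit 26733196113) (nat_lit 0) (nat_lit 13980648455) (nat_lit 7) (nat_lit 5) (nat_lit 9) (nat_lit 4) (nat_lit 7) (nat_lit 4) (nat_lit 427) (nat_lit 308) (nat_lit 285)) (XT.lf (nat_lit 0) (nat_lit 27570303044) (nat_lit 152) (nat_lit 10172974229) (nat_lit 0) (nat_lit 23545392570) (nat_lit 7) (nat_lit 5) (nat_lit 9) (nat_lit 4) (nat_lit 7) (nat_lit 4) (nat_lit 428) (nat_lit 308) (nat_lit 284)))) (XT.nd (nat_lit 78) (nat_lit 0) (nat_lit 0) (XT.lf (nat_lit 0) (nat_lit 7021072083) (nat_lit 76) (nat_lit 30587171966) (nat_lit 76) (nat_lit 26476124955) (nat_lit 6) (nat_lit 4) (nat_lit 7) (nat_lit 5) (nat_lit 7) (nat_lit 4) (nat_lit 429) (nat_lit 308) (nat_lit 283)) (XT.nd (nat_lit 78) (nat_lit 0)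 (nat_lit 0) (XT.lf (nat_lit 0) (nat_lit 24965706465) (nat_lit 76) (nat_lit 23124484403) (nat_lit 76) (nat_lit 18931402595) (nat_lit 6) (nat_lit 4) (nat_lit 7) (nat_lit 5) (nat_lit 7) (nat_lit 4) (nat_lit 430) (nat_lit 308) (nat_lit 282)) (XT.lf (nat_lit 0) (nat_lit 43501192102) (nat_lit 76) (nat_lit 15440173377) (nat_lit 76) (nat_lit 11168963191) (nat_lit 6) (nat_lit 4) (nat_lit 7) (nat_lit 5) (nat_lit 7) (nat_lit 4) (nat_lit 431) (nat_lit 308) (nat_lit 281))))) (XT.nd (nat_lit 234) (nat_lit 76) (nat_lit 0) (XT.nd (nat_lit 78) (nat_lit 152) (nat_lit 0) (XT.lf (nat_lit 0) (nat_lit 62671661103) (nat_lit 76) (nat_lit 7515942907) (nat_lit 76) (nat_lit 3170324742) (nat_lit 6) (nat_lit 4) (nat_lit 7) (nat_lit 5) (nat_lit 7) (nat_lit 4) (nat_lit 432) (nat_lit 308) (nat_lit 280)) (XT.nd (nat_lit 78) (nat_lit 0) (nat_lit 0) (XT.lf (nat_lit 0) (nat_lit 5047707887) (nat_lit 152) (nat_lit 70961191335) (nat_lit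 0) (nat_lit 759860404) (nat_lit 4) (nat_lit 5) (nat_lit 6) (nat_lit 4) (nat_lit 4) (nat_lit 4) (nat_lit 433) (nat_lit 308) (nat_lit 279)) (XT.lf (nat_lit 0) (nat_lit 13659611642) (nat_lit 152) (nat_lit 57381885841) (nat_lit 0) (nat_lit 9306239663) (nat_lit 4) (nat_lit 5) (nat_lit 6) (nat_lit 4) (nat_lit 4) (nat_lit 4) (nat_lit 434) (nat_lit 308) (nat_lit 278)))) (XT.nd (nat_lit 156) (nat_lit 76) (nat_lit 0) (XT.nd (nat_lit 78) (nat_lit 0) (nat_lit 0) (XT.lf (nat_lit 0) (nat_lit 22569703036) (nat_lit 152) (nat_lit 43386008698) (nat_lit 0) (nat_lit 18153926776) (nat_lit 4) (nat_lit 5) (nat_lit 6) (nat_lit 4) (nat_lit 4) (nat_lit 4) (nat_lit 435) (nat_lit 308) (nat_lit 277)) (XT.lf (nat_lit 0) (nat_lit 31799196575) (nat_lit 152) (nat_lit 28940236390) (nat_lit 0) (nat_lit 27323987665) (nat_lit 4) (nat_lit 5) (nat_lit 6) (nat_lit 4) (nat_lit 4) (nat_lit 4) (nat_lit 436) (nat_lit 308) (nat_lit 276)))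 (XT.nd (nat_lit 78) (nat_lit 76) (nat_lit 0) (XT.lf (nat_lit 0) (nat_lit 41370067242) (nat_lit 152) (nat_lit 14010174220) (nat_lit 0) (nat_lit 36838255809) (nat_lit 4) (nat_lit 5) (nat_lit 6) (nat_lit 4) (nat_lit 4) (nat_lit 4) (nat_lit 437) (nat_lit 308) (nat_lit 275)) (XT.lf (nat_lit 0) (nat_lit 1468378940) (nat_lit 76) (nat_lit 49850838841) (nat_lit 76) (nat_lit 45265120243) (nat_lit 3) (nat_lit 4) (nat_lit 4) (nat_lit 5) (nat_lit 4) (nat_lit 4) (nat_lit 438) (nat_lit 308) (nat_lit 274))))))) (XT.nd (nat_lit 936) (nat_lit 684) (nat_lit 0) (XT.nd (nat_lit 468) (nat_lit 532) (nat_lit 0) (XT.nd (nat_lit 234) (nat_lit 304) (nat_lit 0) (XT.nd (nat_lit 78) (nat_lit 228) (nat_lit 0) (XT.lf (nat_lit 0) (nat_lit 5827931091) (nat_lit 76) (nat_lit 2536997722) (nat_lit 76) (nat_lit 2536997722) (nat_lit 30) (nat_lit 4) (nat_lit 31) (nat_lit 5) (nat_lit 31) (nat_lit 4) (nat_lit 402) (nat_lit 309) (nat_lit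 309)) (XT.nd (nat_lit 78) (nat_lit 76) (nat_lit 0) (XT.lf (nat_lit 0) (nat_lit 5751215547) (nat_lit 152) (nat_lit 11410865689) (nat_lit 0) (nat_lit 5392475007) (nat_lit 28) (nat_lit 5) (nat_lit 30) (nat_lit 4) (nat_lit 28) (nat_lit 4) (nat_lit 403) (nat_lit 309) (nat_lit 308)) (XT.lf (nat_lit 0) (nat_lit 9758662300) (nat_lit 76) (nat_lit 7143182744) (nat_lit 76) (nat_lit 6442784547) (nat_lit 27) (nat_lit 4) (nat_lit 28) (nat_lit 5) (nat_lit 28) (nat_lit 4) (nat_lit 404) (nat_lit 309) (nat_lit 307)))) (XT.nd (nat_lit 78) (nat_lit 152) (nat_lit 0) (XT.lf (nat_lit 0) (nat_lit 4216053836) (nat_lit 152) (nat_lit 16740738419) (nat_lit 0) (nat_lit 3220144670) (nat_lit 25) (nat_lit 5) (nat_lit 27) (nat_lit 4) (nat_lit 25) (nat_lit 4) (nat_lit 405) (nat_lit 309) (nat_lit 306)) (XT.nd (nat_lit 78) (nat_lit 76) (nat_lit 0) (XT.lf (nat_lit 0) (nat_lit 4011283237) (nat_lit 76) (nat_lit 11168646183) (nat_lit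 76) (nat_lit 9871869477) (nat_lit 24) (nat_lit 4) (nat_lit 25) (nat_lit 5) (nat_lit 25) (nat_lit 4) (nat_lit 406) (nat_lit 309) (nat_lit 305)) (XT.lf (nat_lit 0) (nat_lit 540660513) (nat_lit 152) (nat_lit 485776377) (nat_lit 76) (nat_lit 24948776822) (nat_lit 23) (nat_lit 5) (nat_lit 25) (nat_lit 5) (nat_lit 24) (nat_lit 4) (nat_lit 407) (nat_lit 309) (nat_lit 304))))) (XT.nd (nat_lit 234) (nat_lit 228) (nat_lit 0) (XT.nd (nat_lit 78) (nat_lit 228) (nat_lit 0) (XT.lf (nat_lit 0) (nat_lit 11239076962) (nat_lit 152) (nat_lit 6266790488) (nat_lit 0) (nat_lit 9436928468) (nat_lit 22) (nat_lit 5) (nat_lit 24) (nat_lit 4) (nat_lit 22) (nat_lit 4) (nat_lit 408) (nat_lit 309) (nat_lit 303)) (XT.nd (nat_lit 78) (nat_lit 152) (nat_lit 0) (XT.lf (nat_lit 0) (nat_lit 14602361527) (nat_lit 76) (nat_lit 7707875689) (nat_lit 76) (nat_lit 5653396425) (nat_lit 21) (nat_lit 4) (nat_lit 22) (nat_lit 5) (nat_lit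 22) (nat_lit 4) (nat_lit 409) (nat_lit 309) (nat_lit 302)) (XT.lf (nat_lit 0) (nat_lit 4649261835) (nat_lit 152) (nat_lit 21968179800) (nat_lit 0) (nat_lit 2421306221) (nat_lit 19) (nat_lit 5) (nat_lit 21) (nat_lit 4) (nat_lit 19) (nat_lit 4) (nat_lit 410) (nat_lit 309) (nat_lit 301)))) (XT.nd (nat_lit 78) (nat_lit 228) (nat_lit 0) (XT.lf (nat_lit 0) (nat_lit 15262650599) (nat_lit 152) (nat_lit 2093432474) (nat_lit 0) (nat_lit 12812489697) (nat_lit 19) (nat_lit 5) (nat_lit 21) (nat_lit 4) (nat_lit 19) (nat_lit 4) (nat_lit 411) (nat_lit 309) (nat_lit 300)) (XT.nd (nat_lit 78) (nat_lit 152) (nat_lit 0) (XT.lf (nat_lit 0) (nat_lit 18568891379) (nat_lit 76) (nat_lit 7725579491) (nat_lit 76) (nat_lit 5063794505) (nat_lit 18) (nat_lit 4) (nat_lit 19) (nat_lit 5) (nat_lit 19) (nat_lit 4) (nat_lit 412) (nat_lit 309) (nat_lit 299)) (XT.lf (nat_lit 0) (nat_lit 4995614579) (nat_lit 152) (nat_lit 25399795289)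 (nat_lit 0) (nat_lit 2215680857) (nat_lit 16) (nat_lit 5) (nat_lit 18) (nat_lit 4) (nat_lit 16) (nat_lit 4) (nat_lit 413) (nat_lit 309) (nat_lit 298)))))) (XT.nd (nat_lit 468) (nat_lit 380) (nat_lit 0) (XT.nd (nat_lit 234) (nat_lit 152) (nat_lit 0) (XT.nd (nat_lit 78) (nat_lit 152) (nat_lit 0) (XT.lf (nat_lit 0) (nat_lit 15385988154) (nat_lit 152) (nat_lit 6121395748) (nat_lit 0) (nat_lit 12419695906) (nat_lit 16) (nat_lit 5) (nat_lit 18) (nat_lit 4) (nat_lit 16) (nat_lit 4) (nat_lit 414) (nat_lit 309) (nat_lit 297)) (XT.nd (nat_lit 78) (nat_lit 76) (nat_lit 0) (XT.lf (nat_lit 0) (nat_lit 13869999377) (nat_lit 76) (nat_lit 12293315153) (nat_lit 76) (nat_lit 9149538594) (nat_lit 15) (nat_lit 4) (nat_lit 16) (nat_lit 5) (nat_lit 16) (nat_lit 4) (nat_lit 415) (nat_lit 309) (nat_lit 296)) (XT.lf (nat_lit 0) (nat_lit 500680676) (nat_lit 152) (nat_lit 2296427463) (nat_lit 76) (nat_lit 33976519749)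 (nat_lit 14) (nat_lit 5) (nat_lit 16) (nat_lit 5) (nat_lit 15) (nat_lit 4) (nat_lit 416) (nat_lit 309) (nat_lit 295)))) (XT.nd (nat_lit 78) (nat_lit 76) (nat_lit 0) (XT.lf (nat_lit 0) (nat_lit 10435836569) (nat_lit 152) (nat_lit 20805922186) (nat_lit 0) (nat_lit 7063222259) (nat_lit 13) (nat_lit 5) (nat_lit 15) (nat_lit 4) (nat_lit 13) (nat_lit 4) (nat_lit 417) (nat_lit 309) (nat_lit 294)) (XT.nd (nat_lit 78) (nat_lit 76) (nat_lit 0) (XT.lf (nat_lit 0) (nat_lit 20676639735) (nat_lit 152) (nat_lit 2086828555) (nat_lit 0) (nat_lit 17155173366) (nat_lit 13) (nat_lit 5) (nat_lit 15) (nat_lit 4) (nat_lit 13) (nat_lit 4) (nat_lit 418) (nat_lit 309) (nat_lit 293)) (XT.lf (nat_lit 0) (nat_lit 17453099233) (nat_lit 76) (nat_lit 13912519252) (nat_lit 76) (nat_lit 10249289017) (nat_lit 12) (nat_lit 4) (nat_lit 13) (nat_lit 5) (nat_lit 13) (nat_lit 4) (nat_lit 419) (nat_lit 309) (nat_lit 292))))) (XT.nd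 (nat_lit 234) (nat_lit 228) (nat_lit 0) (XT.nd (nat_lit 78) (nat_lit 152) (nat_lit 0) (XT.lf (nat_lit 0) (nat_lit 37571000998) (nat_lit 76) (nat_lit 4814668165) (nat_lit 76) (nat_lit 1016424724) (nat_lit 12) (nat_lit 4) (nat_lit 13) (nat_lit 5) (nat_lit 13) (nat_lit 4) (nat_lit 420) (nat_lit 309) (nat_lit 291)) (XT.nd (nat_lit 78) (nat_lit 0) (nat_lit 0) (XT.lf (nat_lit 0) (nat_lit 8464612176) (nat_lit 152) (nat_lit 32160695887) (nat_lit 0) (nat_lit 4652158345) (nat_lit 10) (nat_lit 5) (nat_lit 12) (nat_lit 4) (nat_lit 10) (nat_lit 4) (nat_lit 421) (nat_lit 309) (nat_lit 290)) (XT.lf (nat_lit 0) (nat_lit 18296178154) (nat_lit 152) (nat_lit 14588377580) (nat_lit 0) (nat_lit 14364830189) (nat_lit 10) (nat_lit 5) (nat_lit 12) (nat_lit 4) (nat_lit 10) (nat_lit 4) (nat_lit 422) (nat_lit 309) (nat_lit 289)))) (XT.nd (nat_lit 156) (nat_lit 152) (nat_lit 0) (XT.nd (nat_lit 78) (nat_lit 0) (nat_lit 0)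 (XT.lf (nat_lit 0) (nat_lit 3533409377) (nat_lit 76) (nat_lit 24918056590) (nat_lit 76) (nat_lit 20873476118) (nat_lit 9) (nat_lit 4) (nat_lit 10) (nat_lit 5) (nat_lit 10) (nat_lit 4) (nat_lit 423) (nat_lit 309) (nat_lit 288)) (XT.lf (nat_lit 0) (nat_lit 22479454425) (nat_lit 76) (nat_lit 16589309972) (nat_lit 76) (nat_lit 12436889015) (nat_lit 9) (nat_lit 4) (nat_lit 10) (nat_lit 5) (nat_lit 10) (nat_lit 4) (nat_lit 424) (nat_lit 309) (nat_lit 287))) (XT.nd (nat_lit 78) (nat_lit 152) (nat_lit 0) (XT.lf (nat_lit 0) (nat_lit 42004529875) (nat_lit 76) (nat_lit 8025799538) (nat_lit 76) (nat_lit 3770673358) (nat_lit 9) (nat_lit 4) (nat_lit 10) (nat_lit 5) (nat_lit 10) (nat_lit 4) (nat_lit 425) (nat_lit 309) (nat_lit 286)) (XT.lf (nat_lit 0) (nat_lit 5111811709) (nat_lit 152) (nat_lit 50215511314) (nat_lit 0) (nat_lit 885655711) (nat_lit 7) (nat_lit 5) (nat_lit 9) (nat_lit 4) (nat_lit 7) (nat_lit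 4) (nat_lit 426) (nat_lit 309) (nat_lit 285))))))))
noncomputable def xc7 : XT := (XT.nd (nat_lit 52026) (nat_lit 0) (nat_lit 0) (XT.nd (nat_lit 51012) (nat_lit 0) (nat_lit 1064) (XT.nd (nat_lit 468) (nat_lit 152) (nat_lit 0) (XT.nd (nat_lit 234) (nat_lit 76) (nat_lit 0) (XT.nd (nat_lit 78) (nat_lit 0) (nat_lit 0) (XT.lf (nat_lit 0) (nat_lit 14388934057) (nat_lit 152) (nat_lit 34282313830) (nat_lit 0) (nat_lit 10072334696) (nat_lit 7) (nat_lit 5) (nat_lit 9) (nat_lit 4) (nat_lit 7) (nat_lit 4) (nat_lit 427) (nat_lit 309) (nat_lit 284)) (XT.nd (nat_lit 78) (nat_lit 0) (nat_lit 0) (XT.lf (nat_lit 0) (nat_lit 23962415834) (nat_lit 152) (nat_lit 17883649541) (nat_lit 0) (nat_lit 19559679936) (nat_lit 7) (nat_lit 5) (nat_lit 9) (nat_lit 4) (nat_lit 7) (nat_lit 4) (nat_lit 428) (nat_lit 309) (nat_lit 283)) (XT.lf (nat_lit 0) (nat_lit 33855051045) (nat_lit 152) (nat_lit 980474009) (nat_lit 0) (nat_lit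 29370280349) (nat_lit 7) (nat_lit 5) (nat_lit 9) (nat_lit 4) (nat_lit 7) (nat_lit 4) (nat_lit 429) (nat_lit 309) (nat_lit 282)))) (XT.nd (nat_lit 78) (nat_lit 0) (nat_lit 0) (XT.lf (nat_lit 0) (nat_lit 16795193132) (nat_lit 76) (nat_lit 27456646120) (nat_lit 76) (nat_lit 22893747046) (nat_lit 6) (nat_lit 4) (nat_lit 7) (nat_lit 5) (nat_lit 7) (nat_lit 4) (nat_lit 430) (nat_lit 309) (nat_lit 281)) (XT.nd (nat_lit 78) (nat_lit 0) (nat_lit 0) (XT.lf (nat_lit 0) (nat_lit 35188341736) (nat_lit 76) (nat_lit 19842723439) (nat_lit 76) (nat_lit 15205416386) (nat_lit 6) (nat_lit 4) (nat_lit 7) (nat_lit 5) (nat_lit 7) (nat_lit 4) (nat_lit 431) (nat_lit 309) (nat_lit 280)) (XT.lf (nat_lit 0) (nat_lit 54223251657) (nat_lit 76) (nat_lit 11985529489) (nat_lit 76) (nat_lit 7277357694) (nat_lit 6) (nat_lit 4) (nat_lit 7) (nat_lit 5) (nat_lit 7) (nat_lit 4) (nat_lit 432) (nat_lit 309) (nat_lit 279))))) (XT.nd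 (nat_lit 234) (nat_lit 0) (nat_lit 0) (XT.nd (nat_lit 78) (nat_lit 76) (nat_lit 0) (XT.lf (nat_lit 0) (nat_lit 891561537) (nat_lit 152) (nat_lit 2965792105) (nat_lit 76) (nat_lit 73044679550) (nat_lit 5) (nat_lit 5) (nat_lit 7) (nat_lit 5) (nat_lit 6) (nat_lit 4) (nat_lit 433) (nat_lit 309) (nat_lit 278)) (XT.nd (nat_lit 78) (nat_lit 0) (nat_lit 0) (XT.lf (nat_lit 0) (nat_lit 9372432722) (nat_lit 152) (nat_lit 66439046936) (nat_lit 0) (nat_lit 4673463367) (nat_lit 4) (nat_lit 5) (nat_lit 6) (nat_lit 4) (nat_lit 4) (nat_lit 4) (nat_lit 434) (nat_lit 309) (nat_lit 277)) (XT.lf (nat_lit 0) (nat_lit 18221010739) (nat_lit 152) (nat_lit 52565071594) (nat_lit 0) (nat_lit 13462608734) (nat_lit 4) (nat_lit 5) (nat_lit 6) (nat_lit 4) (nat_lit 4) (nat_lit 4) (nat_lit 435) (nat_lit 309) (nat_lit 276)))) (XT.nd (nat_lit 78) (nat_lit 0) (nat_lit 0) (XT.lf (nat_lit 0) (nat_lit 27391920107) (nat_lit 152) (nat_lit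 38235396239) (nat_lit 0) (nat_lit 22576915580) (nat_lit 4) (nat_lit 5) (nat_lit 6) (nat_lit 4) (nat_lit 4) (nat_lit 4) (nat_lit 436) (nat_lit 309) (nat_lit 275)) (XT.nd (nat_lit 78) (nat_lit 0) (nat_lit 0) (XT.lf (nat_lit 0) (nat_lit 36906996326) (nat_lit 152) (nat_lit 23415902596) (nat_lit 0) (nat_lit 32038084634) (nat_lit 4) (nat_lit 5) (nat_lit 6) (nat_lit 4) (nat_lit 4) (nat_lit 4) (nat_lit 437) (nat_lit 309) (nat_lit 274)) (XT.lf (nat_lit 0) (nat_lit 46788894340) (nat_lit 152) (nat_lit 8071306156) (nat_lit 0) (nat_lit 41868642491) (nat_lit 4) (nat_lit 5) (nat_lit 6) (nat_lit 4) (nat_lit 4) (nat_lit 4) (nat_lit 438) (nat_lit 309) (nat_lit 273)))))) (XT.nd (nat_lit 468) (nat_lit 532) (nat_lit 0) (XT.nd (nat_lit 234) (nat_lit 380) (nat_lit 0) (XT.nd (nat_lit 78) (nat_lit 228) (nat_lit 0) (XT.lf (nat_lit 0) (nat_lit 5360365468) (nat_lit 76) (nat_lit 2421635100) (nat_lit 76) (nat_lit 2421635100)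 (nat_lit 33) (nat_lit 4) (nat_lit 34) (nat_lit 5) (nat_lit 34) (nat_lit 4) (nat_lit 400) (nat_lit 310) (nat_lit 310)) (XT.nd (nat_lit 78) (nat_lit 76) (nat_lit 0) (XT.lf (nat_lit 0) (nat_lit 5880124019) (nat_lit 152) (nat_lit 9718104325) (nat_lit 0) (nat_lit 5492146126) (nat_lit 31) (nat_lit 5) (nat_lit 33) (nat_lit 4) (nat_lit 31) (nat_lit 4) (nat_lit 401) (nat_lit 310) (nat_lit 309)) (XT.lf (nat_lit 0) (nat_lit 11311397678) (nat_lit 76) (nat_lit 5627653745) (nat_lit 76) (nat_lit 4870173096) (nat_lit 30) (nat_lit 4) (nat_lit 31) (nat_lit 5) (nat_lit 31) (nat_lit 4) (nat_lit 402) (nat_lit 310) (nat_lit 308)))) (XT.nd (nat_lit 78) (nat_lit 228) (nat_lit 0) (XT.lf (nat_lit 0) (nat_lit 5765495380) (nat_lit 152) (nat_lit 12111528202) (nat_lit 0) (nat_lit 4688419617) (nat_lit 28) (nat_lit 5) (nat_lit 30) (nat_lit 4) (nat_lit 28) (nat_lit 4) (nat_lit 403) (nat_lit 310) (nat_lit 307)) (XT.nd (nat_lit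 78) (nat_lit 152) (nat_lit 0) (XT.lf (nat_lit 0) (nat_lit 8712065881) (nat_lit 76) (nat_lit 8025637154) (nat_lit 76) (nat_lit 6623173147) (nat_lit 27) (nat_lit 4) (nat_lit 28) (nat_lit 5) (nat_lit 28) (nat_lit 4) (nat_lit 404) (nat_lit 310) (nat_lit 306)) (XT.lf (nat_lit 0) (nat_lit 3850523902) (nat_lit 152) (nat_lit 18160337108) (nat_lit 0) (nat_lit 2188040820) (nat_lit 25) (nat_lit 5) (nat_lit 27) (nat_lit 4) (nat_lit 25) (nat_lit 4) (nat_lit 405) (nat_lit 310) (nat_lit 305))))) (XT.nd (nat_lit 234) (nat_lit 304) (nat_lit 0) (XT.nd (nat_lit 78) (nat_lit 152) (nat_lit 0) (XT.lf (nat_lit 0) (nat_lit 2243509201) (nat_lit 76) (nat_lit 12392320716) (nat_lit 76) (nat_lit 10443297120) (nat_lit 24) (nat_lit 4) (nat_lit 25) (nat_lit 5) (nat_lit 25) (nat_lit 4) (nat_lit 406) (nat_lit 310) (nat_lit 304)) (XT.nd (nat_lit 78) (nat_lit 152) (nat_lit 0) (XT.lf (nat_lit 0) (nat_lit 23422434768) (nat_lit 76)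 (nat_lit 2403447810) (nat_lit 76) (nat_lit 181528486) (nat_lit 24) (nat_lit 4) (nat_lit 25) (nat_lit 5) (nat_lit 25) (nat_lit 4) (nat_lit 407) (nat_lit 310) (nat_lit 303)) (XT.lf (nat_lit 0) (nat_lit 10331309858) (nat_lit 152) (nat_lit 8727638923) (nat_lit 0) (nat_lit 7921775862) (nat_lit 22) (nat_lit 5) (nat_lit 24) (nat_lit 4) (nat_lit 22) (nat_lit 4) (nat_lit 408) (nat_lit 310) (nat_lit 302)))) (XT.nd (nat_lit 156) (nat_lit 76) (nat_lit 0) (XT.nd (nat_lit 78) (nat_lit 152) (nat_lit 0) (XT.lf (nat_lit 0) (nat_lit 11798960102) (nat_lit 76) (nat_lit 9428848145) (nat_lit 76) (nat_lit 6778999130) (nat_lit 21) (nat_lit 4) (nat_lit 22) (nat_lit 5) (nat_lit 22) (nat_lit 4) (nat_lit 409) (nat_lit 310) (nat_lit 301)) (XT.lf (nat_lit 0) (nat_lit 3351984474) (nat_lit 152) (nat_lit 25178965422) (nat_lit 0) (nat_lit 557110238) (nat_lit 19) (nat_lit 5) (nat_lit 21) (nat_lit 4) (nat_lit 19) (nat_lit 4) (nat_lit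 410) (nat_lit 310) (nat_lit 300))) (XT.nd (nat_lit 78) (nat_lit 76) (nat_lit 0) (XT.lf (nat_lit 0) (nat_lit 13823552031) (nat_lit 152) (nat_lit 5581538481) (nat_lit 0) (nat_lit 10817053712) (nat_lit 19) (nat_lit 5) (nat_lit 21) (nat_lit 4) (nat_lit 19) (nat_lit 4) (nat_lit 411) (nat_lit 310) (nat_lit 299)) (XT.lf (nat_lit 0) (nat_lit 14741994171) (nat_lit 76) (nat_lit 9941523838) (nat_lit 76) (nat_lit 6733478772) (nat_lit 18) (nat_lit 4) (nat_lit 19) (nat_lit 5) (nat_lit 19) (nat_lit 4) (nat_lit 412) (nat_lit 310) (nat_lit 298))))))) (XT.nd (nat_lit 936) (nat_lit 380) (nat_lit 0) (XT.nd (nat_lit 468) (nat_lit 304) (nat_lit 0) (XT.nd (nat_lit 234) (nat_lit 152) (nat_lit 0) (XT.nd (nat_lit 78) (nat_lit 76) (nat_lit 0) (XT.lf (nat_lit 0) (nat_lit 3022737472) (nat_lit 76) (nat_lit 141169828) (nat_lit 152) (nat_lit 29512238466) (nat_lit 16) (nat_lit 5) (nat_lit 17) (nat_lit 5) (nat_lit 18) (nat_lit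 4) (nat_lit 413) (nat_lit 310) (nat_lit 297)) (XT.nd (nat_lit 78) (nat_lit 76) (nat_lit 0) (XT.lf (nat_lit 0) (nat_lit 13423220062) (nat_lit 152) (nat_lit 10628080054) (nat_lit 0) (nat_lit 9944770364) (nat_lit 16) (nat_lit 5) (nat_lit 18) (nat_lit 4) (nat_lit 16) (nat_lit 4) (nat_lit 414) (nat_lit 310) (nat_lit 296)) (XT.lf (nat_lit 0) (nat_lit 9026488043) (nat_lit 76) (nat_lit 15003972171) (nat_lit 76) (nat_lit 11356489796) (nat_lit 15) (nat_lit 4) (nat_lit 16) (nat_lit 5) (nat_lit 16) (nat_lit 4) (nat_lit 415) (nat_lit 310) (nat_lit 295)))) (XT.nd (nat_lit 78) (nat_lit 152) (nat_lit 0) (XT.lf (nat_lit 0) (nat_lit 29403378152) (nat_lit 76) (nat_lit 5628280221) (nat_lit 76) (nat_lit 1819814343) (nat_lit 15) (nat_lit 4) (nat_lit 16) (nat_lit 5) (nat_lit 16) (nat_lit 4) (nat_lit 416) (nat_lit 310) (nat_lit 294)) (XT.nd (nat_lit 78) (nat_lit 0) (nat_lit 0) (XT.lf (nat_lit 0) (nat_lit 7953989088)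 (nat_lit 152) (nat_lit 26327673307) (nat_lit 0) (nat_lit 4107597341) (nat_lit 13) (nat_lit 5) (nat_lit 15) (nat_lit 4) (nat_lit 13) (nat_lit 4) (nat_lit 417) (nat_lit 310) (nat_lit 293)) (XT.lf (nat_lit 0) (nat_lit 18081799844) (nat_lit 152) (nat_lit 7830869116) (nat_lit 0) (nat_lit 14093644231) (nat_lit 13) (nat_lit 5) (nat_lit 15) (nat_lit 4) (nat_lit 13) (nat_lit 4) (nat_lit 418) (nat_lit 310) (nat_lit 292))))) (XT.nd (nat_lit 234) (nat_lit 76) (nat_lit 0) (XT.nd (nat_lit 78) (nat_lit 152) (nat_lit 0) (XT.lf (nat_lit 0) (nat_lit 11378823445) (nat_lit 76) (nat_lit 17225953676) (nat_lit 76) (nat_lit 13102784858) (nat_lit 12) (nat_lit 4) (nat_lit 13) (nat_lit 5) (nat_lit 13) (nat_lit 4) (nat_lit 419) (nat_lit 310) (nat_lit 291)) (XT.nd (nat_lit 78) (nat_lit 152) (nat_lit 0) (XT.lf (nat_lit 0) (nat_lit 31291089441) (nat_lit 76) (nat_lit 8229274215) (nat_lit 76) (nat_lit 3977521391) (nat_lit 12)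 (nat_lit 4) (nat_lit 13) (nat_lit 5) (nat_lit 13) (nat_lit 4) (nat_lit 420) (nat_lit 310) (nat_lit 290)) (XT.lf (nat_lit 0) (nat_lit 5361976001) (nat_lit 152) (nat_lit 38902951163) (nat_lit 0) (nat_lit 1115166505) (nat_lit 10) (nat_lit 5) (nat_lit 12) (nat_lit 4) (nat_lit 10) (nat_lit 4) (nat_lit 421) (nat_lit 310) (nat_lit 289)))) (XT.nd (nat_lit 78) (nat_lit 76) (nat_lit 0) (XT.lf (nat_lit 0) (nat_lit 15095092343) (nat_lit 152) (nat_lit 21524826421) (nat_lit 0) (nat_lit 10735050338) (nat_lit 10) (nat_lit 5) (nat_lit 12) (nat_lit 4) (nat_lit 10) (nat_lit 4) (nat_lit 422) (nat_lit 310) (nat_lit 288)) (XT.nd (nat_lit 78) (nat_lit 76) (nat_lit 0) (XT.lf (nat_lit 0) (nat_lit 25122653306) (nat_lit 152) (nat_lit 3656935258) (nat_lit 0) (nat_lit 20654770818) (nat_lit 10) (nat_lit 5) (nat_lit 12) (nat_lit 4) (nat_lit 10) (nat_lit 4) (nat_lit 423) (nat_lit 310) (nat_lit 287)) (XT.lf (nat_lit 0) (nat_lit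 15036684801) (nat_lit 76) (nat_lit 20576391049) (nat_lit 76) (nat_lit 16005803338) (nat_lit 9) (nat_lit 4) (nat_lit 10) (nat_lit 5) (nat_lit 10) (nat_lit 4) (nat_lit 424) (nat_lit 310) (nat_lit 286)))))) (XT.nd (nat_lit 468) (nat_lit 152) (nat_lit 0) (XT.nd (nat_lit 234) (nat_lit 76) (nat_lit 0) (XT.nd (nat_lit 78) (nat_lit 152) (nat_lit 0) (XT.lf (nat_lit 0) (nat_lit 34390669961) (nat_lit 76) (nat_lit 12097281784) (nat_lit 76) (nat_lit 7428879574) (nat_lit 9) (nat_lit 4) (nat_lit 10) (nat_lit 5) (nat_lit 10) (nat_lit 4) (nat_lit 425) (nat_lit 310) (nat_lit 285)) (XT.nd (nat_lit 78) (nat_lit 76) (nat_lit 0) (XT.lf (nat_lit 0) (nat_lit 1375189614) (nat_lit 152) (nat_lit 1969923956) (nat_lit 76) (nat_lit 52989244620) (nat_lit 8) (nat_lit 5) (nat_lit 10) (nat_lit 5) (nat_lit 9) (nat_lit 4) (nat_lit 426) (nat_lit 310) (nat_lit 284)) (XT.lf (nat_lit 0) (nat_lit 10518946785) (nat_lit 152) (nat_lit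 42540080502) (nat_lit 0) (nat_lit 5809937555) (nat_lit 7) (nat_lit 5) (nat_lit 9) (nat_lit 4) (nat_lit 7) (nat_lit 4) (nat_lit 427) (nat_lit 310) (nat_lit 283)))) (XT.nd (nat_lit 78) (nat_lit 76) (nat_lit 0) (XT.lf (nat_lit 0) (nat_lit 20014613608) (nat_lit 152) (nat_lit 26295280590) (nat_lit 0) (nat_lit 15223569581) (nat_lit 7) (nat_lit 5) (nat_lit 9) (nat_lit 4) (nat_lit 7) (nat_lit 4) (nat_lit 428) (nat_lit 310) (nat_lit 282)) (XT.nd (nat_lit 78) (nat_lit 76) (nat_lit 0) (XT.lf (nat_lit 0) (nat_lit 29833139338) (nat_lit 152) (nat_lit 9538642559) (nat_lit 0) (nat_lit 24963966933) (nat_lit 7) (nat_lit 5) (nat_lit 9) (nat_lit 4) (nat_lit 7) (nat_lit 4) (nat_lit 429) (nat_lit 310) (nat_lit 281)) (XT.lf (nat_lit 0) (nat_lit 7924363214) (nat_lit 76) (nat_lit 32149712031) (nat_lit 76) (nat_lit 27206131646) (nat_lit 6) (nat_lit 4) (nat_lit 7) (nat_lit 5) (nat_lit 7) (nat_lit 4) (nat_lit 430) (nat_lit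 310) (nat_lit 280))))) (XT.nd (nat_lit 234) (nat_lit 152) (nat_lit 0) (XT.nd (nat_lit 78) (nat_lit 0) (nat_lit 0) (XT.lf (nat_lit 0) (nat_lit 26181952738) (nat_lit 76) (nat_lit 24602825869) (nat_lit 76) (nat_lit 19588380742) (nat_lit 6) (nat_lit 4) (nat_lit 7) (nat_lit 5) (nat_lit 7) (nat_lit 4) (nat_lit 431) (nat_lit 310) (nat_lit 279)) (XT.nd (nat_lit 78) (nat_lit 0) (nat_lit 0) (XT.lf (nat_lit 0) (nat_lit 45087758775) (nat_lit 76) (nat_lit 16809476224) (nat_lit 76) (nat_lit 11727540866) (nat_lit 6) (nat_lit 4) (nat_lit 7) (nat_lit 5) (nat_lit 7) (nat_lit 4) (nat_lit 432) (nat_lit 310) (nat_lit 278)) (XT.lf (nat_lit 0) (nat_lit 64686795147) (nat_lit 76) (nat_lit 8751107499) (nat_lit 76) (nat_lit 3604895732) (nat_lit 6) (nat_lit 4) (nat_lit 7) (nat_lit 5) (nat_lit 7) (nat_lit 4) (nat_lit 433) (nat_lit 310) (nat_lit 277)))) (XT.nd (nat_lit 156) (nat_lit 0) (nat_lit 0) (XT.nd (nat_lit 78) (nat_lit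 0) (nat_lit 0) (XT.lf (nat_lit 0) (nat_lit 4430690000) (nat_lit 76) (nat_lit 317151081) (nat_lit 152) (nat_lit 75884862346) (nat_lit 4) (nat_lit 5) (nat_lit 5) (nat_lit 5) (nat_lit 6) (nat_lit 4) (nat_lit 434) (nat_lit 310) (nat_lit 276)) (XT.lf (nat_lit 0) (nat_lit 13534786277) (nat_lit 152) (nat_lit 62441086389) (nat_lit 0) (nat_lit 8422429001) (nat_lit 4) (nat_lit 5) (nat_lit 6) (nat_lit 4) (nat_lit 4) (nat_lit 4) (nat_lit 435) (nat_lit 310) (nat_lit 275))) (XT.nd (nat_lit 78) (nat_lit 0) (nat_lit 0) (XT.lf (nat_lit 0) (nat_lit 22649901198) (nat_lit 152) (nat_lit 48221979561) (nat_lit 0) (nat_lit 17483636757) (nat_lit 4) (nat_lit 5) (nat_lit 6) (nat_lit 4) (nat_lit 4) (nat_lit 4) (nat_lit 436) (nat_lit 310) (nat_lit 274)) (XT.lf (nat_lit 0) (nat_lit 32111839848) (nat_lit 152) (nat_lit 33507789277) (nat_lit 0) (nat_lit 26894235250) (nat_lit 4) (nat_lit 5) (nat_lit 6) (nat_lit 4) (nat_lit 4)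 (nat_lit 4) (nat_lit 437) (nat_lit 310) (nat_lit 273))))))))
noncomputable def xc8 : XT := (XT.nd (nat_lit 51792) (nat_lit 0) (nat_lit 0) (XT.nd (nat_lit 50856) (nat_lit 0) (nat_lit 608) (XT.nd (nat_lit 50388) (nat_lit 0) (nat_lit 1368) (XT.nd (nat_lit 50154) (nat_lit 0) (nat_lit 1976) (XT.nd (nat_lit 49998) (nat_lit 0) (nat_lit 2280) (XT.lf (nat_lit 0) (nat_lit 41943130653) (nat_lit 152) (nat_lit 18263481750) (nat_lit 0) (nat_lit 36676630667) (nat_lit 4) (nat_lit 5) (nat_lit 6) (nat_lit 4) (nat_lit 4) (nat_lit 4) (nat_lit 438) (nat_lit 310) (nat_lit 272)) (XT.nd (nat_lit 78) (nat_lit 152) (nat_lit 0) (XT.lf (nat_lit 0) (nat_lit 3923519296) (nat_lit 76) (nat_lit 2821969612) (nat_lit 76) (nat_lit 2821969612) (nat_lit 36) (nat_lit 4) (nat_lit 37) (nat_lit 5) (nat_lit 37) (nat_lit 4) (nat_lit 398) (nat_lit 311) (nat_lit 311)) (XT.lf (nat_lit 0) (nat_lit 4916422755) (nat_lit 152) (nat_lit 10344541510)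 (nat_lit 0) (nat_lit 4496824663) (nat_lit 34) (nat_lit 5) (nat_lit 36) (nat_lit 4) (nat_lit 34) (nat_lit 4) (nat_lit 399) (nat_lit 311) (nat_lit 310)))) (XT.nd (nat_lit 78) (nat_lit 228) (nat_lit 0) (XT.lf (nat_lit 0) (nat_lit 10380392607) (nat_lit 76) (nat_lit 5425713707) (nat_lit 76) (nat_lit 4606498385) (nat_lit 33) (nat_lit 4) (nat_lit 34) (nat_lit 5) (nat_lit 34) (nat_lit 4) (nat_lit 400) (nat_lit 311) (nat_lit 309)) (XT.nd (nat_lit 78) (nat_lit 76) (nat_lit 0) (XT.lf (nat_lit 0) (nat_lit 5927781377) (nat_lit 152) (nat_lit 10410476986) (nat_lit 0) (nat_lit 4762923939) (nat_lit 31) (nat_lit 5) (nat_lit 33) (nat_lit 4) (nat_lit 31) (nat_lit 4) (nat_lit 401) (nat_lit 311) (nat_lit 308)) (XT.lf (nat_lit 0) (nat_lit 10277184011) (nat_lit 76) (nat_lit 6532466234) (nat_lit 76) (nat_lit 5015701410) (nat_lit 30) (nat_lit 4) (nat_lit 31) (nat_lit 5) (nat_lit 31) (nat_lit 4) (nat_lit 402) (nat_lit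 311) (nat_lit 307))))) (XT.nd (nat_lit 234) (nat_lit 228) (nat_lit 0) (XT.nd (nat_lit 78) (nat_lit 228) (nat_lit 0) (XT.lf (nat_lit 0) (nat_lit 5435348505) (nat_lit 152) (nat_lit 13514521473) (nat_lit 0) (nat_lit 3637373053) (nat_lit 28) (nat_lit 5) (nat_lit 30) (nat_lit 4) (nat_lit 28) (nat_lit 4) (nat_lit 403) (nat_lit 311) (nat_lit 306)) (XT.nd (nat_lit 78) (nat_lit 152) (nat_lit 0) (XT.lf (nat_lit 0) (nat_lit 6964969961) (nat_lit 76) (nat_lit 9265447934) (nat_lit 76) (nat_lit 7157578915) (nat_lit 27) (nat_lit 4) (nat_lit 28) (nat_lit 5) (nat_lit 28) (nat_lit 4) (nat_lit 404) (nat_lit 311) (nat_lit 305)) (XT.lf (nat_lit 0) (nat_lit 3135485350) (nat_lit 152) (nat_lit 20293959134) (nat_lit 0) (nat_lit 802470061) (nat_lit 25) (nat_lit 5) (nat_lit 27) (nat_lit 4) (nat_lit 25) (nat_lit 4) (nat_lit 405) (nat_lit 311) (nat_lit 304)))) (XT.nd (nat_lit 78) (nat_lit 228) (nat_lit 0) (XT.lf (nat_lit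 0) (nat_lit 13745342865) (nat_lit 152) (nat_lit 232634348) (nat_lit 0) (nat_lit 11139431847) (nat_lit 25) (nat_lit 5) (nat_lit 27) (nat_lit 4) (nat_lit 25) (nat_lit 4) (nat_lit 406) (nat_lit 311) (nat_lit 303)) (XT.nd (nat_lit 78) (nat_lit 152) (nat_lit 0) (XT.lf (nat_lit 0) (nat_lit 20651482155) (nat_lit 76) (nat_lit 4132288482) (nat_lit 76) (nat_lit 1266476772) (nat_lit 24) (nat_lit 4) (nat_lit 25) (nat_lit 5) (nat_lit 25) (nat_lit 4) (nat_lit 407) (nat_lit 311) (nat_lit 302)) (XT.lf (nat_lit 0) (nat_lit 9075340995) (nat_lit 152) (nat_lit 11901619269) (nat_lit 0) (nat_lit 6052684509) (nat_lit 22) (nat_lit 5) (nat_lit 24) (nat_lit 4) (nat_lit 22) (nat_lit 4) (nat_lit 408) (nat_lit 311) (nat_lit 301)))))) (XT.nd (nat_lit 468) (nat_lit 304) (nat_lit 0) (XT.nd (nat_lit 234) (nat_lit 228) (nat_lit 0) (XT.nd (nat_lit 78) (nat_lit 152) (nat_lit 0) (XT.lf (nat_lit 0) (nat_lit 8282213912) (nat_lit 76)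 (nat_lit 11515140493) (nat_lit 76) (nat_lit 8263612560) (nat_lit 21) (nat_lit 4) (nat_lit 22) (nat_lit 5) (nat_lit 22) (nat_lit 4) (nat_lit 409) (nat_lit 311) (nat_lit 300)) (XT.nd (nat_lit 78) (nat_lit 0) (nat_lit 0) (XT.lf (nat_lit 0) (nat_lit 12915185) (nat_lit 76) (nat_lit 1702560639) (nat_lit 152) (nat_lit 27432602530) (nat_lit 19) (nat_lit 5) (nat_lit 20) (nat_lit 5) (nat_lit 21) (nat_lit 4) (nat_lit 410) (nat_lit 311) (nat_lit 299)) (XT.lf (nat_lit 0) (nat_lit 12035609511) (nat_lit 152) (nat_lit 9785484828) (nat_lit 0) (nat_lit 8465615445) (nat_lit 19) (nat_lit 5) (nat_lit 21) (nat_lit 4) (nat_lit 19) (nat_lit 4) (nat_lit 411) (nat_lit 311) (nat_lit 298)))) (XT.nd (nat_lit 78) (nat_lit 152) (nat_lit 0) (XT.lf (nat_lit 0) (nat_lit 10197837190) (nat_lit 76) (nat_lit 12525421067) (nat_lit 76) (nat_lit 8763477718) (nat_lit 18) (nat_lit 4) (nat_lit 19) (nat_lit 5) (nat_lit 19) (nat_lit 4) (nat_lit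 412) (nat_lit 311) (nat_lit 297)) (XT.nd (nat_lit 78) (nat_lit 76) (nat_lit 0) (XT.lf (nat_lit 0) (nat_lit 1018365354) (nat_lit 152) (nat_lit 1877470519) (nat_lit 76) (nat_lit 29855292969) (nat_lit 17) (nat_lit 5) (nat_lit 19) (nat_lit 5) (nat_lit 18) (nat_lit 4) (nat_lit 413) (nat_lit 311) (nat_lit 296)) (XT.lf (nat_lit 0) (nat_lit 11109082332) (nat_lit 152) (nat_lit 15856839563) (nat_lit 0) (nat_lit 7110193161) (nat_lit 16) (nat_lit 5) (nat_lit 18) (nat_lit 4) (nat_lit 16) (nat_lit 4) (nat_lit 414) (nat_lit 311) (nat_lit 295))))) (XT.nd (nat_lit 234) (nat_lit 76) (nat_lit 0) (XT.nd (nat_lit 78) (nat_lit 152) (nat_lit 0) (XT.lf (nat_lit 0) (nat_lit 3458299134) (nat_lit 76) (nat_lit 18086853339) (nat_lit 76) (nat_lit 13926980666) (nat_lit 15) (nat_lit 4) (nat_lit 16) (nat_lit 5) (nat_lit 16) (nat_lit 4) (nat_lit 415) (nat_lit 311) (nat_lit 294)) (XT.nd (nat_lit 78) (nat_lit 152) (nat_lit 0) (XT.lf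 (nat_lit 0) (nat_lit 23611030355) (nat_lit 76) (nat_lit 8821122503) (nat_lit 76) (nat_lit 4507932208) (nat_lit 15) (nat_lit 4) (nat_lit 16) (nat_lit 5) (nat_lit 16) (nat_lit 4) (nat_lit 416) (nat_lit 311) (nat_lit 293)) (XT.lf (nat_lit 0) (nat_lit 5116414793) (nat_lit 152) (nat_lit 32581205336) (nat_lit 0) (nat_lit 787087534) (nat_lit 13) (nat_lit 5) (nat_lit 15) (nat_lit 4) (nat_lit 13) (nat_lit 4) (nat_lit 417) (nat_lit 311) (nat_lit 292)))) (XT.nd (nat_lit 78) (nat_lit 76) (nat_lit 0) (XT.lf (nat_lit 0) (nat_lit 15136613730) (nat_lit 152) (nat_lit 14296105374) (nat_lit 0) (nat_lit 10672273265) (nat_lit 13) (nat_lit 5) (nat_lit 15) (nat_lit 4) (nat_lit 13) (nat_lit 4) (nat_lit 418) (nat_lit 311) (nat_lit 291)) (XT.nd (nat_lit 78) (nat_lit 0) (nat_lit 0) (XT.lf (nat_lit 0) (nat_lit 4579280540) (nat_lit 76) (nat_lit 20912461654) (nat_lit 76) (nat_lit 16319537184) (nat_lit 12) (nat_lit 4) (nat_lit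 13) (nat_lit 5) (nat_lit 13) (nat_lit 4) (nat_lit 419) (nat_lit 311) (nat_lit 290)) (XT.lf (nat_lit 0) (nat_lit 24295702946) (nat_lit 76) (nat_lit 12012136122) (nat_lit 76) (nat_lit 7296750694) (nat_lit 12) (nat_lit 4) (nat_lit 13) (nat_lit 5) (nat_lit 13) (nat_lit 4) (nat_lit 420) (nat_lit 311) (nat_lit 289))))))) (XT.nd (nat_lit 936) (nat_lit 152) (nat_lit 0) (XT.nd (nat_lit 468) (nat_lit 228) (nat_lit 0) (XT.nd (nat_lit 234) (nat_lit 76) (nat_lit 0) (XT.nd (nat_lit 78) (nat_lit 76) (nat_lit 0) (XT.lf (nat_lit 0) (nat_lit 1938520659) (nat_lit 152) (nat_lit 896817972) (nat_lit 76) (nat_lit 42657489261) (nat_lit 11) (nat_lit 5) (nat_lit 13) (nat_lit 5) (nat_lit 12) (nat_lit 4) (nat_lit 421) (nat_lit 311) (nat_lit 288)) (XT.nd (nat_lit 78) (nat_lit 0) (nat_lit 0) (XT.lf (nat_lit 0) (nat_lit 11541741047) (nat_lit 152) (nat_lit 29187237520) (nat_lit 0) (nat_lit 6742623949) (nat_lit 10) (nat_lit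 5) (nat_lit 12) (nat_lit 4) (nat_lit 10) (nat_lit 4) (nat_lit 422) (nat_lit 311) (nat_lit 287)) (XT.lf (nat_lit 0) (nat_lit 21480005288) (nat_lit 152) (nat_lit 11495485646) (nat_lit 0) (nat_lit 16578182968) (nat_lit 10) (nat_lit 5) (nat_lit 12) (nat_lit 4) (nat_lit 10) (nat_lit 4) (nat_lit 423) (nat_lit 311) (nat_lit 286)))) (XT.nd (nat_lit 78) (nat_lit 0) (nat_lit 0) (XT.lf (nat_lit 0) (nat_lit 6871041601) (nat_lit 76) (nat_lit 24935848576) (nat_lit 76) (nat_lit 19936211759) (nat_lit 9) (nat_lit 4) (nat_lit 10) (nat_lit 5) (nat_lit 10) (nat_lit 4) (nat_lit 424) (nat_lit 311) (nat_lit 285)) (XT.nd (nat_lit 78) (nat_lit 0) (nat_lit 0) (XT.lf (nat_lit 0) (nat_lit 26062083627) (nat_lit 76) (nat_lit 16537121377) (nat_lit 76) (nat_lit 11444327894) (nat_lit 9) (nat_lit 4) (nat_lit 10) (nat_lit 5) (nat_lit 10) (nat_lit 4) (nat_lit 425) (nat_lit 311) (nat_lit 284)) (XT.lf (nat_lit 0) (nat_lit 45894550683)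 (nat_lit 76) (nat_lit 7875394230) (nat_lit 76) (nat_lit 2693880114) (nat_lit 9) (nat_lit 4) (nat_lit 10) (nat_lit 5) (nat_lit 10) (nat_lit 4) (nat_lit 426) (nat_lit 311) (nat_lit 283))))) (XT.nd (nat_lit 234) (nat_lit 76) (nat_lit 0) (XT.nd (nat_lit 78) (nat_lit 0) (nat_lit 0) (XT.lf (nat_lit 0) (nat_lit 6295939493) (nat_lit 152) (nat_lit 51526157479) (nat_lit 0) (nat_lit 1183308467) (nat_lit 7) (nat_lit 5) (nat_lit 9) (nat_lit 4) (nat_lit 7) (nat_lit 4) (nat_lit 427) (nat_lit 311) (nat_lit 282)) (XT.nd (nat_lit 78) (nat_lit 0) (nat_lit 0) (XT.lf (nat_lit 0) (nat_lit 15717496837) (nat_lit 152) (nat_lit 35427895068) (nat_lit 0) (nat_lit 10526737432) (nat_lit 7) (nat_lit 5) (nat_lit 9) (nat_lit 4) (nat_lit 7) (nat_lit 4) (nat_lit 428) (nat_lit 311) (nat_lit 281)) (XT.lf (nat_lit 0) (nat_lit 25465442110) (nat_lit 152) (nat_lit 18810816563) (nat_lit 0) (nat_lit 20200274726) (nat_lit 7) (nat_lit 5)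 (nat_lit 9) (nat_lit 4) (nat_lit 7) (nat_lit 4) (nat_lit 429) (nat_lit 311) (nat_lit 280)))) (XT.nd (nat_lit 78) (nat_lit 76) (nat_lit 0) (XT.lf (nat_lit 0) (nat_lit 35562984707) (nat_lit 152) (nat_lit 1635357491) (nat_lit 0) (nat_lit 30226952581) (nat_lit 7) (nat_lit 5) (nat_lit 9) (nat_lit 4) (nat_lit 7) (nat_lit 4) (nat_lit 430) (nat_lit 311) (nat_lit 279)) (XT.nd (nat_lit 78) (nat_lit 0) (nat_lit 0) (XT.lf (nat_lit 0) (nat_lit 16460581327) (nat_lit 76) (nat_lit 29731814245) (nat_lit 76) (nat_lit 24328291889) (nat_lit 6) (nat_lit 4) (nat_lit 7) (nat_lit 5) (nat_lit 7) (nat_lit 4) (nat_lit 431) (nat_lit 311) (nat_lit 278)) (XT.lf (nat_lit 0) (nat_lit 35243431282) (nat_lit 76) (nat_lit 21999268699) (nat_lit 76) (nat_lit 16531469933) (nat_lit 6) (nat_lit 4) (nat_lit 7) (nat_lit 5) (nat_lit 7) (nat_lit 4) (nat_lit 432) (nat_lit 311) (nat_lit 277)))))) (XT.nd (nat_lit 50232) (nat_lit 0) (nat_lit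 1976) (XT.nd (nat_lit 234) (nat_lit 0) (nat_lit 0) (XT.nd (nat_lit 78) (nat_lit 152) (nat_lit 0) (XT.lf (nat_lit 0) (nat_lit 54725366625) (nat_lit 76) (nat_lit 13998808641) (nat_lit 76) (nat_lit 8469794246) (nat_lit 6) (nat_lit 4) (nat_lit 7) (nat_lit 5) (nat_lit 7) (nat_lit 4) (nat_lit 433) (nat_lit 311) (nat_lit 276)) (XT.nd (nat_lit 78) (nat_lit 152) (nat_lit 0) (XT.lf (nat_lit 0) (nat_lit 74952772916) (nat_lit 76) (nat_lit 5711385356) (nat_lit 76) (nat_lit 124070362) (nat_lit 6) (nat_lit 4) (nat_lit 7) (nat_lit 5) (nat_lit 7) (nat_lit 4) (nat_lit 434) (nat_lit 311) (nat_lit 275)) (XT.lf (nat_lit 0) (nat_lit 8499871976) (nat_lit 152) (nat_lit 73037567404) (nat_lit 0) (nat_lit 3021387147) (nat_lit 4) (nat_lit 5) (nat_lit 6) (nat_lit 4) (nat_lit 4) (nat_lit 4) (nat_lit 435) (nat_lit 311) (nat_lit 274)))) (XT.nd (nat_lit 78) (nat_lit 0) (nat_lit 0) (XT.lf (nat_lit 0) (nat_lit 17561849327) (nat_lit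 152) (nat_lit 58923763934) (nat_lit 0) (nat_lit 12032024342) (nat_lit 4) (nat_lit 5) (nat_lit 6) (nat_lit 4) (nat_lit 4) (nat_lit 4) (nat_lit 436) (nat_lit 311) (nat_lit 273)) (XT.nd (nat_lit 78) (nat_lit 0) (nat_lit 0) (XT.lf (nat_lit 0) (nat_lit 26973180769) (nat_lit 152) (nat_lit 44309862563) (nat_lit 0) (nat_lit 21394460396) (nat_lit 4) (nat_lit 5) (nat_lit 6) (nat_lit 4) (nat_lit 4) (nat_lit 4) (nat_lit 437) (nat_lit 311) (nat_lit 272)) (XT.lf (nat_lit 0) (nat_lit 36756274232) (nat_lit 152) (nat_lit 29161068287) (nat_lit 0) (nat_lit 31130986823) (nat_lit 4) (nat_lit 5) (nat_lit 6) (nat_lit 4) (nat_lit 4) (nat_lit 4) (nat_lit 438) (nat_lit 311) (nat_lit 271))))) (XT.nd (nat_lit 234) (nat_lit 456) (nat_lit 0) (XT.nd (nat_lit 78) (nat_lit 228) (nat_lit 0) (XT.lf (nat_lit 0) (nat_lit 1744799225) (nat_lit 152) (nat_lit 3621103968) (nat_lit 152) (nat_lit 3621103968) (nat_lit 39) (nat_lit 4) (nat_lit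 41) (nat_lit 5) (nat_lit 41) (nat_lit 4) (nat_lit 396) (nat_lit 312) (nat_lit 312)) (XT.nd (nat_lit 78) (nat_lit 76) (nat_lit 0) (XT.lf (nat_lit 0) (nat_lit 3108006359) (nat_lit 152) (nat_lit 12780874399) (nat_lit 0) (nat_lit 2654211023) (nat_lit 37) (nat_lit 5) (nat_lit 39) (nat_lit 4) (nat_lit 37) (nat_lit 4) (nat_lit 397) (nat_lit 312) (nat_lit 311)) (XT.lf (nat_lit 0) (nat_lit 7510831888) (nat_lit 76) (nat_lit 6257681790) (nat_lit 76) (nat_lit 5371700419) (nat_lit 36) (nat_lit 4) (nat_lit 37) (nat_lit 5) (nat_lit 37) (nat_lit 4) (nat_lit 398) (nat_lit 312) (nat_lit 310)))) (XT.nd (nat_lit 156) (nat_lit 228) (nat_lit 0) (XT.nd (nat_lit 78) (nat_lit 76) (nat_lit 0) (XT.lf (nat_lit 0) (nat_lit 4999846931) (nat_lit 152) (nat_lit 11028620571) (nat_lit 0) (nat_lit 3740053613) (nat_lit 34) (nat_lit 5) (nat_lit 36) (nat_lit 4) (nat_lit 34) (nat_lit 4) (nat_lit 399) (nat_lit 312) (nat_lit 309)) (XT.lf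 (nat_lit 0) (nat_lit 9358567289) (nat_lit 76) (nat_lit 6355215672) (nat_lit 76) (nat_lit 4714834515) (nat_lit 33) (nat_lit 4) (nat_lit 34) (nat_lit 5) (nat_lit 34) (nat_lit 4) (nat_lit 400) (nat_lit 312) (nat_lit 308))) (XT.nd (nat_lit 78) (nat_lit 76) (nat_lit 0) (XT.lf (nat_lit 0) (nat_lit 5635231667) (nat_lit 152) (nat_lit 11796870814) (nat_lit 0) (nat_lit 3690721216) (nat_lit 31) (nat_lit 5) (nat_lit 33) (nat_lit 4) (nat_lit 31) (nat_lit 4) (nat_lit 401) (nat_lit 312) (nat_lit 307)) (XT.lf (nat_lit 0) (nat_lit 8550758767) (nat_lit 76) (nat_lit 7790587227) (nat_lit 76) (nat_lit 5510926883) (nat_lit 30) (nat_lit 4) (nat_lit 31) (nat_lit 5) (nat_lit 31) (nat_lit 4) (nat_lit 402) (nat_lit 312) (nat_lit 306))))))))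
noncomputable def xc9 : XT := (XT.nd (nat_lit 1950) (nat_lit 304) (nat_lit 0) (XT.nd (nat_lit 936) (nat_lit 608) (nat_lit 0) (XT.nd (nat_lit 468) (nat_lit 456) (nat_lit 0) (XT.nd (nat_lit 234) (nat_lit 228) (nat_lit 0) (XT.nd (nat_lit 78) (nat_lit 228) (nat_lit 0) (XT.lf (nat_lit 0) (nat_lit 4759988860) (nat_lit 152) (nat_lit 15623185962) (nat_lit 0) (nat_lit 2236832824) (nat_lit 28) (nat_lit 5) (nat_lit 30) (nat_lit 4) (nat_lit 28) (nat_lit 4) (nat_lit 403) (nat_lit 312) (nat_lit 305)) (XT.nd (nat_lit 78) (nat_lit 152) (nat_lit 0) (XT.lf (nat_lit 0) (nat_lit 4513214789) (nat_lit 76) (nat_lit 10865567013) (nat_lit 76) (nat_lit 8047274247) (nat_lit 27) (nat_lit 4) (nat_lit 28) (nat_lit 5) (nat_lit 28) (nat_lit 4) (nat_lit 404) (nat_lit 312) (nat_lit 304)) (XT.lf (nat_lit 0) (nat_lit 1119878314) (nat_lit 76) (nat_lit 958571774) (nat_lit 152) (nat_lit 22197327152) (nat_lit 25) (nat_lit 5) (nat_lit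 26) (nat_lit 5) (nat_lit 27) (nat_lit 4) (nat_lit 405) (nat_lit 312) (nat_lit 303)))) (XT.nd (nat_lit 78) (nat_lit 228) (nat_lit 0) (XT.lf (nat_lit 0) (nat_lit 12532538445) (nat_lit 152) (nat_lit 3369876504) (nat_lit 0) (nat_lit 9263535455) (nat_lit 25) (nat_lit 5) (nat_lit 27) (nat_lit 4) (nat_lit 25) (nat_lit 4) (nat_lit 406) (nat_lit 312) (nat_lit 302)) (XT.nd (nat_lit 78) (nat_lit 152) (nat_lit 0) (XT.lf (nat_lit 0) (nat_lit 17175441602) (nat_lit 76) (nat_lit 6222534807) (nat_lit 76) (nat_lit 2706007348) (nat_lit 24) (nat_lit 4) (nat_lit 25) (nat_lit 5) (nat_lit 25) (nat_lit 4) (nat_lit 407) (nat_lit 312) (nat_lit 301)) (XT.lf (nat_lit 0) (nat_lit 7468179970) (nat_lit 152) (nat_lit 15796288622) (nat_lit 0) (nat_lit 3825204194) (nat_lit 22) (nat_lit 5) (nat_lit 24) (nat_lit 4) (nat_lit 22) (nat_lit 4) (nat_lit 408) (nat_lit 312) (nat_lit 300))))) (XT.nd (nat_lit 234) (nat_lit 228) (nat_lit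 0) (XT.nd (nat_lit 78) (nat_lit 152) (nat_lit 0) (XT.lf (nat_lit 0) (nat_lit 4043749754) (nat_lit 76) (nat_lit 13971720095) (nat_lit 76) (nat_lit 10110771512) (nat_lit 21) (nat_lit 4) (nat_lit 22) (nat_lit 5) (nat_lit 22) (nat_lit 4) (nat_lit 409) (nat_lit 312) (nat_lit 299)) (XT.nd (nat_lit 78) (nat_lit 152) (nat_lit 0) (XT.lf (nat_lit 0) (nat_lit 24685999680) (nat_lit 76) (nat_lit 4300154325) (nat_lit 76) (nat_lit 231612593) (nat_lit 21) (nat_lit 4) (nat_lit 22) (nat_lit 5) (nat_lit 22) (nat_lit 4) (nat_lit 410) (nat_lit 312) (nat_lit 298)) (XT.lf (nat_lit 0) (nat_lit 9894566034) (nat_lit 152) (nat_lit 14715280908) (nat_lit 0) (nat_lit 5752576235) (nat_lit 19) (nat_lit 5) (nat_lit 21) (nat_lit 4) (nat_lit 19) (nat_lit 4) (nat_lit 411) (nat_lit 312) (nat_lit 297)))) (XT.nd (nat_lit 78) (nat_lit 152) (nat_lit 0) (XT.lf (nat_lit 0) (nat_lit 4925601016) (nat_lit 76) (nat_lit 15483423313) (nat_lit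 76) (nat_lit 11158624674) (nat_lit 18) (nat_lit 4) (nat_lit 19) (nat_lit 5) (nat_lit 19) (nat_lit 4) (nat_lit 412) (nat_lit 312) (nat_lit 296)) (XT.nd (nat_lit 78) (nat_lit 152) (nat_lit 0) (XT.lf (nat_lit 0) (nat_lit 25379012800) (nat_lit 76) (nat_lit 5977901012) (nat_lit 76) (nat_lit 1478998716) (nat_lit 18) (nat_lit 4) (nat_lit 19) (nat_lit 5) (nat_lit 19) (nat_lit 4) (nat_lit 413) (nat_lit 312) (nat_lit 295)) (XT.lf (nat_lit 0) (nat_lit 8438065113) (nat_lit 152) (nat_lit 21820123702) (nat_lit 0) (nat_lit 3909215303) (nat_lit 16) (nat_lit 5) (nat_lit 18) (nat_lit 4) (nat_lit 16) (nat_lit 4) (nat_lit 414) (nat_lit 312) (nat_lit 294)))))) (XT.nd (nat_lit 468) (nat_lit 304) (nat_lit 0) (XT.nd (nat_lit 234) (nat_lit 152) (nat_lit 0) (XT.nd (nat_lit 78) (nat_lit 152) (nat_lit 0) (XT.lf (nat_lit 0) (nat_lit 18728848946) (nat_lit 152) (nat_lit 2792253618) (nat_lit 0) (nat_lit 14046681515) (nat_lit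 16) (nat_lit 5) (nat_lit 18) (nat_lit 4) (nat_lit 16) (nat_lit 4) (nat_lit 415) (nat_lit 312) (nat_lit 293)) (XT.nd (nat_lit 78) (nat_lit 76) (nat_lit 0) (XT.lf (nat_lit 0) (nat_lit 17091421624) (nat_lit 76) (nat_lit 12388292886) (nat_lit 76) (nat_lit 7560108673) (nat_lit 15) (nat_lit 4) (nat_lit 16) (nat_lit 5) (nat_lit 16) (nat_lit 4) (nat_lit 416) (nat_lit 312) (nat_lit 292)) (XT.lf (nat_lit 0) (nat_lit 1954647039) (nat_lit 152) (nat_lit 999314324) (nat_lit 76) (nat_lit 35636442001) (nat_lit 14) (nat_lit 5) (nat_lit 16) (nat_lit 5) (nat_lit 15) (nat_lit 4) (nat_lit 417) (nat_lit 312) (nat_lit 291)))) (XT.nd (nat_lit 78) (nat_lit 76) (nat_lit 0) (XT.lf (nat_lit 0) (nat_lit 11834069044) (nat_lit 152) (nat_lit 21497930747) (nat_lit 0) (nat_lit 6882914345) (nat_lit 13) (nat_lit 5) (nat_lit 15) (nat_lit 4) (nat_lit 13) (nat_lit 4) (nat_lit 418) (nat_lit 312) (nat_lit 290)) (XT.nd (nat_lit 78) (nat_lit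 76) (nat_lit 0) (XT.lf (nat_lit 0) (nat_lit 22047571571) (nat_lit 152) (nat_lit 2903925066) (nat_lit 0) (nat_lit 16973955914) (nat_lit 13) (nat_lit 5) (nat_lit 15) (nat_lit 4) (nat_lit 13) (nat_lit 4) (nat_lit 419) (nat_lit 312) (nat_lit 289)) (XT.lf (nat_lit 0) (nat_lit 16568185832) (nat_lit 76) (nat_lit 16172260701) (nat_lit 76) (nat_lit 10982015560) (nat_lit 12) (nat_lit 4) (nat_lit 13) (nat_lit 5) (nat_lit 13) (nat_lit 4) (nat_lit 420) (nat_lit 312) (nat_lit 288))))) (XT.nd (nat_lit 234) (nat_lit 152) (nat_lit 0) (XT.nd (nat_lit 78) (nat_lit 152) (nat_lit 0) (XT.lf (nat_lit 0) (nat_lit 36710432156) (nat_lit 76) (nat_lit 7102434322) (nat_lit 76) (nat_lit 1801113483) (nat_lit 12) (nat_lit 4) (nat_lit 13) (nat_lit 5) (nat_lit 13) (nat_lit 4) (nat_lit 421) (nat_lit 312) (nat_lit 287)) (XT.nd (nat_lit 78) (nat_lit 0) (nat_lit 0) (XT.lf (nat_lit 0) (nat_lit 7627663906) (nat_lit 152) (nat_lit 37593854715)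 (nat_lit 0) (nat_lit 2378045247) (nat_lit 10) (nat_lit 5) (nat_lit 12) (nat_lit 4) (nat_lit 10) (nat_lit 4) (nat_lit 422) (nat_lit 312) (nat_lit 286)) (XT.lf (nat_lit 0) (nat_lit 17480883650) (nat_lit 152) (nat_lit 20069854543) (nat_lit 0) (nat_lit 12133450493) (nat_lit 10) (nat_lit 5) (nat_lit 12) (nat_lit 4) (nat_lit 10) (nat_lit 4) (nat_lit 423) (nat_lit 312) (nat_lit 285)))) (XT.nd (nat_lit 156) (nat_lit 76) (nat_lit 0) (XT.nd (nat_lit 78) (nat_lit 76) (nat_lit 0) (XT.lf (nat_lit 0) (nat_lit 27660725125) (nat_lit 152) (nat_lit 1997169592) (nat_lit 0) (nat_lit 22220135304) (nat_lit 10) (nat_lit 5) (nat_lit 12) (nat_lit 4) (nat_lit 10) (nat_lit 4) (nat_lit 424) (nat_lit 312) (nat_lit 284)) (XT.lf (nat_lit 0) (nat_lit 16998940905) (nat_lit 76) (nat_lit 21355889362) (nat_lit 76) (nat_lit 15826578908) (nat_lit 9) (nat_lit 4) (nat_lit 10) (nat_lit 5) (nat_lit 10) (nat_lit 4) (nat_lit 425) (nat_lit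 312) (nat_lit 283))) (XT.nd (nat_lit 78) (nat_lit 76) (nat_lit 0) (XT.lf (nat_lit 0) (nat_lit 36683613735) (nat_lit 76) (nat_lit 12767071119) (nat_lit 76) (nat_lit 7153264823) (nat_lit 9) (nat_lit 4) (nat_lit 10) (nat_lit 5) (nat_lit 10) (nat_lit 4) (nat_lit 426) (nat_lit 312) (nat_lit 282)) (XT.lf (nat_lit 0) (nat_lit 1767935230) (nat_lit 152) (nat_lit 2105370006) (nat_lit 76) (nat_lit 55278181666) (nat_lit 8) (nat_lit 5) (nat_lit 10) (nat_lit 5) (nat_lit 9) (nat_lit 4) (nat_lit 427) (nat_lit 312) (nat_lit 281))))))) (XT.nd (nat_lit 50544) (nat_lit 0) (nat_lit 1520) (XT.nd (nat_lit 468) (nat_lit 152) (nat_lit 0) (XT.nd (nat_lit 234) (nat_lit 76) (nat_lit 0) (XT.nd (nat_lit 78) (nat_lit 0) (nat_lit 0) (XT.lf (nat_lit 0) (nat_lit 11060834289) (nat_lit 152) (nat_lit 45303237298) (nat_lit 0) (nat_lit 5458000558) (nat_lit 7) (nat_lit 5) (nat_lit 9) (nat_lit 4) (nat_lit 7) (nat_lit 4) (nat_lit 428)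 (nat_lit 312) (nat_lit 280)) (XT.nd (nat_lit 78) (nat_lit 0) (nat_lit 0) (XT.lf (nat_lit 0) (nat_lit 20741560080) (nat_lit 152) (nat_lit 28819072626) (nat_lit 0) (nat_lit 15067861606) (nat_lit 7) (nat_lit 5) (nat_lit 9) (nat_lit 4) (nat_lit 7) (nat_lit 4) (nat_lit 429) (nat_lit 312) (nat_lit 279)) (XT.lf (nat_lit 0) (nat_lit 30775084121) (nat_lit 152) (nat_lit 11770198157) (nat_lit 0) (nat_lit 25033895417) (nat_lit 7) (nat_lit 5) (nat_lit 9) (nat_lit 4) (nat_lit 7) (nat_lit 4) (nat_lit 430) (nat_lit 312) (nat_lit 278)))) (XT.nd (nat_lit 78) (nat_lit 0) (nat_lit 0) (XT.lf (nat_lit 0) (nat_lit 6001081378) (nat_lit 76) (nat_lit 35241900444) (nat_lit 76) (nat_lit 29436435329) (nat_lit 6) (nat_lit 4) (nat_lit 7) (nat_lit 5) (nat_lit 7) (nat_lit 4) (nat_lit 431) (nat_lit 312) (nat_lit 277)) (XT.nd (nat_lit 78) (nat_lit 0) (nat_lit 0) (XT.lf (nat_lit 0) (nat_lit 24666830304) (nat_lit 76) (nat_lit 27567263563)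 (nat_lit 76) (nat_lit 21700582820) (nat_lit 6) (nat_lit 4) (nat_lit 7) (nat_lit 5) (nat_lit 7) (nat_lit 4) (nat_lit 432) (nat_lit 312) (nat_lit 276)) (XT.lf (nat_lit 0) (nat_lit 44037240857) (nat_lit 76) (nat_lit 19621954615) (nat_lit 76) (nat_lit 13696973273) (nat_lit 6) (nat_lit 4) (nat_lit 7) (nat_lit 5) (nat_lit 7) (nat_lit 4) (nat_lit 433) (nat_lit 312) (nat_lit 275))))) (XT.nd (nat_lit 234) (nat_lit 0) (nat_lit 0) (XT.nd (nat_lit 78) (nat_lit 152) (nat_lit 0) (XT.lf (nat_lit 0) (nat_lit 64158433062) (nat_lit 76) (nat_lit 11387056198) (nat_lit 76) (nat_lit 5406550476) (nat_lit 6) (nat_lit 4) (nat_lit 7) (nat_lit 5) (nat_lit 7) (nat_lit 4) (nat_lit 434) (nat_lit 312) (nat_lit 274)) (XT.nd (nat_lit 78) (nat_lit 0) (nat_lit 0) (XT.lf (nat_lit 0) (nat_lit 323099790) (nat_lit 76) (nat_lit 2808174039) (nat_lit 152) (nat_lit 81598564202) (nat_lit 4) (nat_lit 5) (nat_lit 5) (nat_lit 5) (nat_lit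 6) (nat_lit 4) (nat_lit 435) (nat_lit 312) (nat_lit 273)) (XT.lf (nat_lit 0) (nat_lit 12115650085) (nat_lit 152) (nat_lit 70366229798) (nat_lit 0) (nat_lit 6209098306) (nat_lit 4) (nat_lit 5) (nat_lit 6) (nat_lit 4) (nat_lit 4) (nat_lit 4) (nat_lit 436) (nat_lit 312) (nat_lit 272)))) (XT.nd (nat_lit 78) (nat_lit 0) (nat_lit 0) (XT.lf (nat_lit 0) (nat_lit 21478784185) (nat_lit 152) (nat_lit 55847841678) (nat_lit 0) (nat_lit 15525665370) (nat_lit 4) (nat_lit 5) (nat_lit 6) (nat_lit 4) (nat_lit 4) (nat_lit 4) (nat_lit 437) (nat_lit 312) (nat_lit 271)) (XT.nd (nat_lit 49686) (nat_lit 0) (nat_lit 3116) (XT.lf (nat_lit 0) (nat_lit 31215975418) (nat_lit 152) (nat_lit 40790012403) (nat_lit 0) (nat_lit 25218507045) (nat_lit 4) (nat_lit 5) (nat_lit 6) (nat_lit 4) (nat_lit 4) (nat_lit 4) (nat_lit 438) (nat_lit 312) (nat_lit 270)) (XT.lf (nat_lit 0) (nat_lit 3744516653) (nat_lit 152) (nat_lit 967349044)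 (nat_lit 0) (nat_lit 3744516653) (nat_lit 45) (nat_lit 5) (nat_lit 47) (nat_lit 4) (nat_lit 45) (nat_lit 4) (nat_lit 394) (nat_lit 313) (nat_lit 313)))))) (XT.nd (nat_lit 468) (nat_lit 684) (nat_lit 0) (XT.nd (nat_lit 234) (nat_lit 304) (nat_lit 0) (XT.nd (nat_lit 78) (nat_lit 304) (nat_lit 0) (XT.lf (nat_lit 0) (nat_lit 661427987) (nat_lit 152) (nat_lit 16602170024) (nat_lit 0) (nat_lit 170648330) (nat_lit 41) (nat_lit 5) (nat_lit 43) (nat_lit 4) (nat_lit 41) (nat_lit 4) (nat_lit 395) (nat_lit 313) (nat_lit 312)) (XT.nd (nat_lit 78) (nat_lit 152) (nat_lit 0) (XT.lf (nat_lit 0) (nat_lit 3157532666) (nat_lit 152) (nat_lit 7889966570) (nat_lit 152) (nat_lit 6931777718) (nat_lit 39) (nat_lit 4) (nat_lit 41) (nat_lit 5) (nat_lit 41) (nat_lit 4) (nat_lit 396) (nat_lit 313) (nat_lit 311)) (XT.lf (nat_lit 0) (nat_lit 3229784778) (nat_lit 152) (nat_lit 13456648904) (nat_lit 0) (nat_lit 1867318304) (nat_lit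 37) (nat_lit 5) (nat_lit 39) (nat_lit 4) (nat_lit 37) (nat_lit 4) (nat_lit 397) (nat_lit 313) (nat_lit 310)))) (XT.nd (nat_lit 78) (nat_lit 228) (nat_lit 0) (XT.lf (nat_lit 0) (nat_lit 6501411283) (nat_lit 76) (nat_lit 7214389406) (nat_lit 76) (nat_lit 5440317184) (nat_lit 36) (nat_lit 4) (nat_lit 37) (nat_lit 5) (nat_lit 37) (nat_lit 4) (nat_lit 398) (nat_lit 313) (nat_lit 309)) (XT.nd (nat_lit 78) (nat_lit 76) (nat_lit 0) (XT.lf (nat_lit 0) (nat_lit 4747295821) (nat_lit 152) (nat_lit 12398407453) (nat_lit 0) (nat_lit 2644307768) (nat_lit 34) (nat_lit 5) (nat_lit 36) (nat_lit 4) (nat_lit 34) (nat_lit 4) (nat_lit 399) (nat_lit 313) (nat_lit 308)) (XT.lf (nat_lit 0) (nat_lit 7652822064) (nat_lit 76) (nat_lit 7633989196) (nat_lit 76) (nat_lit 5168536535) (nat_lit 33) (nat_lit 4) (nat_lit 34) (nat_lit 5) (nat_lit 34) (nat_lit 4) (nat_lit 400) (nat_lit 313) (nat_lit 307))))) (XT.nd (nat_lit 234)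 (nat_lit 304) (nat_lit 0) (XT.nd (nat_lit 78) (nat_lit 228) (nat_lit 0) (XT.lf (nat_lit 0) (nat_lit 5001778344) (nat_lit 152) (nat_lit 13880586748) (nat_lit 0) (nat_lit 2272985092) (nat_lit 31) (nat_lit 5) (nat_lit 33) (nat_lit 4) (nat_lit 31) (nat_lit 4) (nat_lit 401) (nat_lit 313) (nat_lit 306)) (XT.nd (nat_lit 78) (nat_lit 152) (nat_lit 0) (XT.lf (nat_lit 0) (nat_lit 6128011410) (nat_lit 76) (nat_lit 9405012248) (nat_lit 76) (nat_lit 6357028622) (nat_lit 30) (nat_lit 4) (nat_lit 31) (nat_lit 5) (nat_lit 31) (nat_lit 4) (nat_lit 402) (nat_lit 313) (nat_lit 305)) (XT.lf (nat_lit 0) (nat_lit 3737808444) (nat_lit 152) (nat_lit 18442542299) (nat_lit 0) (nat_lit 483464311) (nat_lit 28) (nat_lit 5) (nat_lit 30) (nat_lit 4) (nat_lit 28) (nat_lit 4) (nat_lit 403) (nat_lit 313) (nat_lit 304)))) (XT.nd (nat_lit 156) (nat_lit 152) (nat_lit 0) (XT.nd (nat_lit 78) (nat_lit 76) (nat_lit 0) (XT.lf (nat_lit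 0) (nat_lit 1350962852) (nat_lit 76) (nat_lit 12829804198) (nat_lit 76) (nat_lit 9294377465) (nat_lit 27) (nat_lit 4) (nat_lit 28) (nat_lit 5) (nat_lit 28) (nat_lit 4) (nat_lit 404) (nat_lit 313) (nat_lit 303)) (XT.lf (nat_lit 0) (nat_lit 702377617) (nat_lit 152) (nat_lit 2377297883) (nat_lit 76) (nat_lit 21250154560) (nat_lit 26) (nat_lit 5) (nat_lit 28) (nat_lit 5) (nat_lit 27) (nat_lit 4) (nat_lit 405) (nat_lit 313) (nat_lit 302))) (XT.nd (nat_lit 78) (nat_lit 76) (nat_lit 0) (XT.lf (nat_lit 0) (nat_lit 10972963044) (nat_lit 152) (nat_lit 7219465836) (nat_lit 0) (nat_lit 7033084742) (nat_lit 25) (nat_lit 5) (nat_lit 27) (nat_lit 4) (nat_lit 25) (nat_lit 4) (nat_lit 406) (nat_lit 313) (nat_lit 301)) (XT.lf (nat_lit 0) (nat_lit 12986036821) (nat_lit 76) (nat_lit 8679163561) (nat_lit 76) (nat_lit 4503547669) (nat_lit 24) (nat_lit 4) (nat_lit 25) (nat_lit 5) (nat_lit 25) (nat_lit 4) (nat_lit 407)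 (nat_lit 313) (nat_lit 300))))))))
noncomputable def xc10 : XT := (XT.nd (nat_lit 1950) (nat_lit 152) (nat_lit 0) (XT.nd (nat_lit 936) (nat_lit 532) (nat_lit 0) (XT.nd (nat_lit 468) (nat_lit 380) (nat_lit 0) (XT.nd (nat_lit 234) (nat_lit 228) (nat_lit 0) (XT.nd (nat_lit 78) (nat_lit 76) (nat_lit 0) (XT.lf (nat_lit 0) (nat_lit 5506000209) (nat_lit 152) (nat_lit 20420920005) (nat_lit 0) (nat_lit 1234031391) (nat_lit 22) (nat_lit 5) (nat_lit 24) (nat_lit 4) (nat_lit 22) (nat_lit 4) (nat_lit 408) (nat_lit 313) (nat_lit 299)) (XT.nd (nat_lit 78) (nat_lit 76) (nat_lit 0) (XT.lf (nat_lit 0) (nat_lit 15886818309) (nat_lit 152) (nat_lit 908444135) (nat_lit 0) (nat_lit 11407256342) (nat_lit 22) (nat_lit 5) (nat_lit 24) (nat_lit 4) (nat_lit 22) (nat_lit 4) (nat_lit 409) (nat_lit 313) (nat_lit 298)) (XT.lf (nat_lit 0) (nat_lit 19474199215) (nat_lit 76) (nat_lit 7250550678) (nat_lit 76) (nat_lit 2573280949)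 (nat_lit 21) (nat_lit 4) (nat_lit 22) (nat_lit 5) (nat_lit 22) (nat_lit 4) (nat_lit 410) (nat_lit 313) (nat_lit 297)))) (XT.nd (nat_lit 78) (nat_lit 76) (nat_lit 0) (XT.lf (nat_lit 0) (nat_lit 7395323876) (nat_lit 152) (nat_lit 20382664334) (nat_lit 0) (nat_lit 2671476464) (nat_lit 19) (nat_lit 5) (nat_lit 21) (nat_lit 4) (nat_lit 19) (nat_lit 4) (nat_lit 411) (nat_lit 313) (nat_lit 296)) (XT.nd (nat_lit 78) (nat_lit 76) (nat_lit 0) (XT.lf (nat_lit 0) (nat_lit 17745757623) (nat_lit 152) (nat_lit 1066050793) (nat_lit 0) (nat_lit 12847806554) (nat_lit 19) (nat_lit 5) (nat_lit 21) (nat_lit 4) (nat_lit 19) (nat_lit 4) (nat_lit 412) (nat_lit 313) (nat_lit 295)) (XT.lf (nat_lit 0) (nat_lit 19144532257) (nat_lit 76) (nat_lit 9425412471) (nat_lit 76) (nat_lit 4361648395) (nat_lit 18) (nat_lit 4) (nat_lit 19) (nat_lit 5) (nat_lit 19) (nat_lit 4) (nat_lit 413) (nat_lit 313) (nat_lit 294))))) (XT.nd (nat_lit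 234) (nat_lit 152) (nat_lit 0) (XT.nd (nat_lit 78) (nat_lit 76) (nat_lit 0) (XT.lf (nat_lit 0) (nat_lit 5403808838) (nat_lit 152) (nat_lit 28532130768) (nat_lit 0) (nat_lit 334215414) (nat_lit 16) (nat_lit 5) (nat_lit 18) (nat_lit 4) (nat_lit 16) (nat_lit 4) (nat_lit 414) (nat_lit 313) (nat_lit 293)) (XT.nd (nat_lit 78) (nat_lit 76) (nat_lit 0) (XT.lf (nat_lit 0) (nat_lit 15587885032) (nat_lit 152) (nat_lit 9713579485) (nat_lit 0) (nat_lit 10372274826) (nat_lit 16) (nat_lit 5) (nat_lit 18) (nat_lit 4) (nat_lit 16) (nat_lit 4) (nat_lit 415) (nat_lit 313) (nat_lit 292)) (XT.lf (nat_lit 0) (nat_lit 9829029082) (nat_lit 76) (nat_lit 16338284631) (nat_lit 76) (nat_lit 10983610824) (nat_lit 15) (nat_lit 4) (nat_lit 16) (nat_lit 5) (nat_lit 16) (nat_lit 4) (nat_lit 416) (nat_lit 313) (nat_lit 291)))) (XT.nd (nat_lit 78) (nat_lit 152) (nat_lit 0) (XT.lf (nat_lit 0) (nat_lit 30154797724) (nat_lit 76)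 (nat_lit 7018679757) (nat_lit 76) (nat_lit 1531564423) (nat_lit 15) (nat_lit 4) (nat_lit 16) (nat_lit 5) (nat_lit 16) (nat_lit 4) (nat_lit 417) (nat_lit 313) (nat_lit 290)) (XT.nd (nat_lit 78) (nat_lit 0) (nat_lit 0) (XT.lf (nat_lit 0) (nat_lit 8166302586) (nat_lit 152) (nat_lit 29453492439) (nat_lit 0) (nat_lit 2716545188) (nat_lit 13) (nat_lit 5) (nat_lit 15) (nat_lit 4) (nat_lit 13) (nat_lit 4) (nat_lit 418) (nat_lit 313) (nat_lit 289)) (XT.lf (nat_lit 0) (nat_lit 18286845977) (nat_lit 152) (nat_lit 11042364830) (nat_lit 0) (nat_lit 12720459096) (nat_lit 13) (nat_lit 5) (nat_lit 15) (nat_lit 4) (nat_lit 13) (nat_lit 4) (nat_lit 419) (nat_lit 313) (nat_lit 288)))))) (XT.nd (nat_lit 468) (nat_lit 228) (nat_lit 0) (XT.nd (nat_lit 234) (nat_lit 76) (nat_lit 0) (XT.nd (nat_lit 78) (nat_lit 152) (nat_lit 0) (XT.lf (nat_lit 0) (nat_lit 8090139250) (nat_lit 76) (nat_lit 20719553010) (nat_lit 76) (nat_lit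 15042090430) (nat_lit 12) (nat_lit 4) (nat_lit 13) (nat_lit 5) (nat_lit 13) (nat_lit 4) (nat_lit 420) (nat_lit 313) (nat_lit 287)) (XT.nd (nat_lit 78) (nat_lit 152) (nat_lit 0) (XT.lf (nat_lit 0) (nat_lit 28063208517) (nat_lit 76) (nat_lit 11732960778) (nat_lit 76) (nat_lit 5949711819) (nat_lit 12) (nat_lit 4) (nat_lit 13) (nat_lit 5) (nat_lit 13) (nat_lit 4) (nat_lit 421) (nat_lit 313) (nat_lit 286)) (XT.lf (nat_lit 0) (nat_lit 950541025) (nat_lit 76) (nat_lit 2416226914) (nat_lit 152) (nat_lit 44371693097) (nat_lit 10) (nat_lit 5) (nat_lit 11) (nat_lit 5) (nat_lit 12) (nat_lit 4) (nat_lit 422) (nat_lit 313) (nat_lit 285)))) (XT.nd (nat_lit 78) (nat_lit 76) (nat_lit 0) (XT.lf (nat_lit 0) (nat_lit 13115766673) (nat_lit 152) (nat_lit 29400457114) (nat_lit 0) (nat_lit 7309990696) (nat_lit 10) (nat_lit 5) (nat_lit 12) (nat_lit 4) (nat_lit 10) (nat_lit 4) (nat_lit 423) (nat_lit 313) (nat_lit 284))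 (XT.nd (nat_lit 78) (nat_lit 76) (nat_lit 0) (XT.lf (nat_lit 0) (nat_lit 23218470282) (nat_lit 152) (nat_lit 11479927902) (nat_lit 0) (nat_lit 17323973672) (nat_lit 10) (nat_lit 5) (nat_lit 12) (nat_lit 4) (nat_lit 10) (nat_lit 4) (nat_lit 424) (nat_lit 313) (nat_lit 283)) (XT.lf (nat_lit 0) (nat_lit 7179662885) (nat_lit 76) (nat_lit 26565058998) (nat_lit 76) (nat_lit 20586066547) (nat_lit 9) (nat_lit 4) (nat_lit 10) (nat_lit 5) (nat_lit 10) (nat_lit 4) (nat_lit 425) (nat_lit 313) (nat_lit 282))))) (XT.nd (nat_lit 234) (nat_lit 76) (nat_lit 0) (XT.nd (nat_lit 78) (nat_lit 152) (nat_lit 0) (XT.lf (nat_lit 0) (nat_lit 26723579310) (nat_lit 76) (nat_lit 18045677805) (nat_lit 76) (nat_lit 11986213124) (nat_lit 9) (nat_lit 4) (nat_lit 10) (nat_lit 5) (nat_lit 10) (nat_lit 4) (nat_lit 426) (nat_lit 313) (nat_lit 281)) (XT.nd (nat_lit 78) (nat_lit 152) (nat_lit 0) (XT.lf (nat_lit 0) (nat_lit 46969881431)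 (nat_lit 76) (nat_lit 9235895127) (nat_lit 76) (nat_lit 3099790227) (nat_lit 9) (nat_lit 4) (nat_lit 10) (nat_lit 5) (nat_lit 10) (nat_lit 4) (nat_lit 427) (nat_lit 313) (nat_lit 280)) (XT.lf (nat_lit 0) (nat_lit 6033538675) (nat_lit 152) (nat_lit 55944819997) (nat_lit 0) (nat_lit 5290535) (nat_lit 7) (nat_lit 5) (nat_lit 9) (nat_lit 4) (nat_lit 7) (nat_lit 4) (nat_lit 428) (nat_lit 313) (nat_lit 279)))) (XT.nd (nat_lit 156) (nat_lit 76) (nat_lit 0) (XT.nd (nat_lit 78) (nat_lit 0) (nat_lit 0) (XT.lf (nat_lit 0) (nat_lit 15650245910) (nat_lit 152) (nat_lit 39587239928) (nat_lit 0) (nat_lit 9554507539) (nat_lit 7) (nat_lit 5) (nat_lit 9) (nat_lit 4) (nat_lit 7) (nat_lit 4) (nat_lit 429) (nat_lit 313) (nat_lit 278)) (XT.lf (nat_lit 0) (nat_lit 25622799899) (nat_lit 152) (nat_lit 22658922225) (nat_lit 0) (nat_lit 19462785118) (nat_lit 7) (nat_lit 5) (nat_lit 9) (nat_lit 4) (nat_lit 7) (nat_lit 4)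 (nat_lit 430) (nat_lit 313) (nat_lit 277))) (XT.nd (nat_lit 78) (nat_lit 76) (nat_lit 0) (XT.lf (nat_lit 0) (nat_lit 35974944818) (nat_lit 152) (nat_lit 5119561367) (nat_lit 0) (nat_lit 29753714409) (nat_lit 7) (nat_lit 5) (nat_lit 9) (nat_lit 4) (nat_lit 7) (nat_lit 4) (nat_lit 431) (nat_lit 313) (nat_lit 276)) (XT.lf (nat_lit 0) (nat_lit 13332773458) (nat_lit 76) (nat_lit 33526717947) (nat_lit 76) (nat_lit 27247186939) (nat_lit 6) (nat_lit 4) (nat_lit 7) (nat_lit 5) (nat_lit 7) (nat_lit 4) (nat_lit 432) (nat_lit 313) (nat_lit 275))))))) (XT.nd (nat_lit 50388) (nat_lit 0) (nat_lit 1292) (XT.nd (nat_lit 49920) (nat_lit 0) (nat_lit 2508) (XT.nd (nat_lit 234) (nat_lit 152) (nat_lit 0) (XT.nd (nat_lit 78) (nat_lit 0) (nat_lit 0) (XT.lf (nat_lit 0) (nat_lit 32596969925) (nat_lit 76) (nat_lit 25633933867) (nat_lit 76) (nat_lit 19298878479) (nat_lit 6) (nat_lit 4) (nat_lit 7) (nat_lit 5) (nat_lit 7)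 (nat_lit 4) (nat_lit 433) (nat_lit 313) (nat_lit 274)) (XT.nd (nat_lit 78) (nat_lit 0) (nat_lit 0) (XT.lf (nat_lit 0) (nat_lit 52617005858) (nat_lit 76) (nat_lit 17449059132) (nat_lit 76) (nat_lit 11061123383) (nat_lit 6) (nat_lit 4) (nat_lit 7) (nat_lit 5) (nat_lit 7) (nat_lit 4) (nat_lit 434) (nat_lit 313) (nat_lit 273)) (XT.lf (nat_lit 0) (nat_lit 73440548008) (nat_lit 76) (nat_lit 8952605947) (nat_lit 76) (nat_lit 2514307948) (nat_lit 6) (nat_lit 4) (nat_lit 7) (nat_lit 5) (nat_lit 7) (nat_lit 4) (nat_lit 435) (nat_lit 313) (nat_lit 272)))) (XT.nd (nat_lit 78) (nat_lit 0) (nat_lit 0) (XT.lf (nat_lit 0) (nat_lit 6298336330) (nat_lit 152) (nat_lit 82576621120) (nat_lit 0) (nat_lit 994539) (nat_lit 4) (nat_lit 5) (nat_lit 6) (nat_lit 4) (nat_lit 4) (nat_lit 4) (nat_lit 436) (nat_lit 313) (nat_lit 271)) (XT.nd (nat_lit 78) (nat_lit 0) (nat_lit 0) (XT.lf (nat_lit 0) (nat_lit 15615568200) (nat_lit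 152) (nat_lit 68149198000) (nat_lit 0) (nat_lit 9273876850) (nat_lit 4) (nat_lit 5) (nat_lit 6) (nat_lit 4) (nat_lit 4) (nat_lit 4) (nat_lit 437) (nat_lit 313) (nat_lit 270)) (XT.lf (nat_lit 0) (nat_lit 25309043023) (nat_lit 152) (nat_lit 53178002059) (nat_lit 0) (nat_lit 18925113999) (nat_lit 4) (nat_lit 5) (nat_lit 6) (nat_lit 4) (nat_lit 4) (nat_lit 4) (nat_lit 438) (nat_lit 313) (nat_lit 269))))) (XT.nd (nat_lit 234) (nat_lit 608) (nat_lit 0) (XT.nd (nat_lit 78) (nat_lit 304) (nat_lit 0) (XT.lf (nat_lit 0) (nat_lit 1968409010) (nat_lit 152) (nat_lit 4033491088) (nat_lit 0) (nat_lit 1968409010) (nat_lit 49) (nat_lit 5) (nat_lit 51) (nat_lit 4) (nat_lit 49) (nat_lit 4) (nat_lit 392) (nat_lit 314) (nat_lit 314)) (XT.nd (nat_lit 78) (nat_lit 152) (nat_lit 0) (XT.lf (nat_lit 0) (nat_lit 11432927624) (nat_lit 152) (nat_lit 2765761979) (nat_lit 152) (nat_lit 2219060435) (nat_lit 47) (nat_lit 4)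 (nat_lit 49) (nat_lit 5) (nat_lit 49) (nat_lit 4) (nat_lit 393) (nat_lit 314) (nat_lit 313)) (XT.lf (nat_lit 0) (nat_lit 7848985384) (nat_lit 152) (nat_lit 2256210804) (nat_lit 0) (nat_lit 6812704139) (nat_lit 45) (nat_lit 5) (nat_lit 47) (nat_lit 4) (nat_lit 45) (nat_lit 4) (nat_lit 394) (nat_lit 314) (nat_lit 312)))) (XT.nd (nat_lit 78) (nat_lit 304) (nat_lit 0) (XT.lf (nat_lit 0) (nat_lit 168662038) (nat_lit 76) (nat_lit 662064442) (nat_lit 152) (nat_lit 16613921019) (nat_lit 41) (nat_lit 5) (nat_lit 42) (nat_lit 5) (nat_lit 43) (nat_lit 4) (nat_lit 395) (nat_lit 314) (nat_lit 311)) (XT.nd (nat_lit 78) (nat_lit 152) (nat_lit 0) (XT.lf (nat_lit 0) (nat_lit 2160544680) (nat_lit 152) (nat_lit 8876595902) (nat_lit 152) (nat_lit 6957936794) (nat_lit 39) (nat_lit 4) (nat_lit 41) (nat_lit 5) (nat_lit 41) (nat_lit 4) (nat_lit 396) (nat_lit 314) (nat_lit 310)) (XT.lf (nat_lit 0) (nat_lit 3019836228)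 (nat_lit 152) (nat_lit 14809806903) (nat_lit 0) (nat_lit 745454648) (nat_lit 37) (nat_lit 5) (nat_lit 39) (nat_lit 4) (nat_lit 37) (nat_lit 4) (nat_lit 397) (nat_lit 314) (nat_lit 309)))))) (XT.nd (nat_lit 468) (nat_lit 532) (nat_lit 0) (XT.nd (nat_lit 234) (nat_lit 380) (nat_lit 0) (XT.nd (nat_lit 78) (nat_lit 228) (nat_lit 0) (XT.lf (nat_lit 0) (nat_lit 4816373396) (nat_lit 76) (nat_lit 8516339947) (nat_lit 76) (nat_lit 5849952894) (nat_lit 36) (nat_lit 4) (nat_lit 37) (nat_lit 5) (nat_lit 37) (nat_lit 4) (nat_lit 398) (nat_lit 314) (nat_lit 308)) (XT.nd (nat_lit 78) (nat_lit 76) (nat_lit 0) (XT.lf (nat_lit 0) (nat_lit 4158168112) (nat_lit 152) (nat_lit 14457163553) (nat_lit 0) (nat_lit 1206978210) (nat_lit 34) (nat_lit 5) (nat_lit 36) (nat_lit 4) (nat_lit 34) (nat_lit 4) (nat_lit 399) (nat_lit 314) (nat_lit 307)) (XT.lf (nat_lit 0) (nat_lit 5259095635) (nat_lit 76) (nat_lit 9265078979) (nat_lit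 76) (nat_lit 5968684688) (nat_lit 33) (nat_lit 4) (nat_lit 34) (nat_lit 5) (nat_lit 34) (nat_lit 4) (nat_lit 400) (nat_lit 314) (nat_lit 306)))) (XT.nd (nat_lit 78) (nat_lit 228) (nat_lit 0) (XT.lf (nat_lit 0) (nat_lit 4025913186) (nat_lit 152) (nat_lit 16666586014) (nat_lit 0) (nat_lit 506340006) (nat_lit 31) (nat_lit 5) (nat_lit 33) (nat_lit 4) (nat_lit 31) (nat_lit 4) (nat_lit 401) (nat_lit 314) (nat_lit 305)) (XT.nd (nat_lit 78) (nat_lit 152) (nat_lit 0) (XT.lf (nat_lit 0) (nat_lit 3003173495) (nat_lit 76) (nat_lit 11379585168) (nat_lit 76) (nat_lit 7556021156) (nat_lit 30) (nat_lit 4) (nat_lit 31) (nat_lit 5) (nat_lit 31) (nat_lit 4) (nat_lit 402) (nat_lit 314) (nat_lit 304)) (XT.lf (nat_lit 0) (nat_lit 723037749) (nat_lit 76) (nat_lit 1659285816) (nat_lit 152) (nat_lit 20335967490) (nat_lit 28) (nat_lit 5) (nat_lit 29) (nat_lit 5) (nat_lit 30) (nat_lit 4) (nat_lit 403) (nat_lit 314) (nat_lit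 303))))) (XT.nd (nat_lit 234) (nat_lit 304) (nat_lit 0) (XT.nd (nat_lit 78) (nat_lit 228) (nat_lit 0) (XT.lf (nat_lit 0) (nat_lit 12657834549) (nat_lit 152) (nat_lit 2479958973) (nat_lit 0) (nat_lit 8396856166) (nat_lit 28) (nat_lit 5) (nat_lit 30) (nat_lit 4) (nat_lit 28) (nat_lit 4) (nat_lit 404) (nat_lit 314) (nat_lit 302)) (XT.nd (nat_lit 78) (nat_lit 152) (nat_lit 0) (XT.lf (nat_lit 0) (nat_lit 17819224600) (nat_lit 76) (nat_lit 5545506574) (nat_lit 76) (nat_lit 1029577987) (nat_lit 27) (nat_lit 4) (nat_lit 28) (nat_lit 5) (nat_lit 28) (nat_lit 4) (nat_lit 405) (nat_lit 314) (nat_lit 301)) (XT.lf (nat_lit 0) (nat_lit 9062903389) (nat_lit 152) (nat_lit 11790568032) (nat_lit 0) (nat_lit 4442769112) (nat_lit 25) (nat_lit 5) (nat_lit 27) (nat_lit 4) (nat_lit 25) (nat_lit 4) (nat_lit 406) (nat_lit 314) (nat_lit 300)))) (XT.nd (nat_lit 156) (nat_lit 76) (nat_lit 0) (XT.nd (nat_lit 78) (nat_lit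 152) (nat_lit 0) (XT.lf (nat_lit 0) (nat_lit 8073293039) (nat_lit 76) (nat_lit 11508023860) (nat_lit 76) (nat_lit 6663377592) (nat_lit 24) (nat_lit 4) (nat_lit 25) (nat_lit 5) (nat_lit 25) (nat_lit 4) (nat_lit 407) (nat_lit 314) (nat_lit 299)) (XT.lf (nat_lit 0) (nat_lit 1439687150) (nat_lit 76) (nat_lit 1761374111) (nat_lit 152) (nat_lit 24042081739) (nat_lit 22) (nat_lit 5) (nat_lit 23) (nat_lit 5) (nat_lit 24) (nat_lit 4) (nat_lit 408) (nat_lit 314) (nat_lit 298))) (XT.nd (nat_lit 78) (nat_lit 76) (nat_lit 0) (XT.lf (nat_lit 0) (nat_lit 13443423401) (nat_lit 152) (nat_lit 6510862273) (nat_lit 0) (nat_lit 8334582426) (nat_lit 22) (nat_lit 5) (nat_lit 24) (nat_lit 4) (nat_lit 22) (nat_lit 4) (nat_lit 409) (nat_lit 314) (nat_lit 297)) (XT.lf (nat_lit 0) (nat_lit 13530256488) (nat_lit 76) (nat_lit 10578224011) (nat_lit 76) (nat_lit 5281089930) (nat_lit 21) (nat_lit 4) (nat_lit 22) (nat_lit 5)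 (nat_lit 22) (nat_lit 4) (nat_lit 410) (nat_lit 314) (nat_lit 296))))))))
noncomputable def xc11 : XT := (XT.nd (nat_lit 1950) (nat_lit 152) (nat_lit 0) (XT.nd (nat_lit 936) (nat_lit 456) (nat_lit 0) (XT.nd (nat_lit 468) (nat_lit 228) (nat_lit 0) (XT.nd (nat_lit 234) (nat_lit 228) (nat_lit 0) (XT.nd (nat_lit 78) (nat_lit 76) (nat_lit 0) (XT.lf (nat_lit 0) (nat_lit 3738985482) (nat_lit 76) (nat_lit 800643252) (nat_lit 152) (nat_lit 26008181895) (nat_lit 19) (nat_lit 5) (nat_lit 20) (nat_lit 5) (nat_lit 21) (nat_lit 4) (nat_lit 411) (nat_lit 314) (nat_lit 295)) (XT.nd (nat_lit 78) (nat_lit 76) (nat_lit 0) (XT.lf (nat_lit 0) (nat_lit 14771245582) (nat_lit 152) (nat_lit 7701803112) (nat_lit 0) (nat_lit 9288480294) (nat_lit 19) (nat_lit 5) (nat_lit 21) (nat_lit 4) (nat_lit 19) (nat_lit 4) (nat_lit 412) (nat_lit 314) (nat_lit 294)) (XT.lf (nat_lit 0) (nat_lit 12165656188) (nat_lit 76) (nat_lit 13256862105)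 (nat_lit 76) (nat_lit 7616179668) (nat_lit 18) (nat_lit 4) (nat_lit 19) (nat_lit 5) (nat_lit 19) (nat_lit 4) (nat_lit 413) (nat_lit 314) (nat_lit 293)))) (XT.nd (nat_lit 78) (nat_lit 152) (nat_lit 0) (XT.lf (nat_lit 0) (nat_lit 2050576614) (nat_lit 152) (nat_lit 1628409194) (nat_lit 76) (nat_lit 30704081974) (nat_lit 17) (nat_lit 5) (nat_lit 19) (nat_lit 5) (nat_lit 18) (nat_lit 4) (nat_lit 414) (nat_lit 314) (nat_lit 292)) (XT.nd (nat_lit 78) (nat_lit 76) (nat_lit 0) (XT.lf (nat_lit 0) (nat_lit 12081538960) (nat_lit 152) (nat_lit 17389641685) (nat_lit 0) (nat_lit 6320067860) (nat_lit 16) (nat_lit 5) (nat_lit 18) (nat_lit 4) (nat_lit 16) (nat_lit 4) (nat_lit 415) (nat_lit 314) (nat_lit 291)) (XT.lf (nat_lit 0) (nat_lit 1806561317) (nat_lit 76) (nat_lit 20680502481) (nat_lit 76) (nat_lit 14786589856) (nat_lit 15) (nat_lit 4) (nat_lit 16) (nat_lit 5) (nat_lit 16) (nat_lit 4) (nat_lit 416) (nat_lit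 314) (nat_lit 290))))) (XT.nd (nat_lit 234) (nat_lit 76) (nat_lit 0) (XT.nd (nat_lit 78) (nat_lit 152) (nat_lit 0) (XT.lf (nat_lit 0) (nat_lit 21947913888) (nat_lit 76) (nat_lit 11451362888) (nat_lit 76) (nat_lit 5431315476) (nat_lit 15) (nat_lit 4) (nat_lit 16) (nat_lit 5) (nat_lit 16) (nat_lit 4) (nat_lit 417) (nat_lit 314) (nat_lit 289)) (XT.nd (nat_lit 78) (nat_lit 0) (nat_lit 0) (XT.lf (nat_lit 0) (nat_lit 2269279831) (nat_lit 76) (nat_lit 1873309139) (nat_lit 152) (nat_lit 36326430518) (nat_lit 13) (nat_lit 5) (nat_lit 14) (nat_lit 5) (nat_lit 15) (nat_lit 4) (nat_lit 418) (nat_lit 314) (nat_lit 288)) (XT.lf (nat_lit 0) (nat_lit 14156592458) (nat_lit 152) (nat_lit 19944774248) (nat_lit 0) (nat_lit 8084181051) (nat_lit 13) (nat_lit 5) (nat_lit 15) (nat_lit 4) (nat_lit 13) (nat_lit 4) (nat_lit 419) (nat_lit 314) (nat_lit 287)))) (XT.nd (nat_lit 78) (nat_lit 76) (nat_lit 0) (XT.lf (nat_lit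 0) (nat_lit 24517354698) (nat_lit 152) (nat_lit 1136013725) (nat_lit 0) (nat_lit 18339156911) (nat_lit 13) (nat_lit 5) (nat_lit 15) (nat_lit 4) (nat_lit 13) (nat_lit 4) (nat_lit 420) (nat_lit 314) (nat_lit 286)) (XT.nd (nat_lit 78) (nat_lit 0) (nat_lit 0) (XT.lf (nat_lit 0) (nat_lit 18653325634) (nat_lit 76) (nat_lit 16757518320) (nat_lit 76) (nat_lit 10478571600) (nat_lit 12) (nat_lit 4) (nat_lit 13) (nat_lit 5) (nat_lit 13) (nat_lit 4) (nat_lit 421) (nat_lit 314) (nat_lit 285)) (XT.lf (nat_lit 0) (nat_lit 39141301726) (nat_lit 76) (nat_lit 7559597064) (nat_lit 76) (nat_lit 1184698980) (nat_lit 12) (nat_lit 4) (nat_lit 13) (nat_lit 5) (nat_lit 13) (nat_lit 4) (nat_lit 422) (nat_lit 314) (nat_lit 284)))))) (XT.nd (nat_lit 468) (nat_lit 152) (nat_lit 0) (XT.nd (nat_lit 234) (nat_lit 152) (nat_lit 0) (XT.nd (nat_lit 78) (nat_lit 0) (nat_lit 0) (XT.lf (nat_lit 0) (nat_lit 8374261222) (nat_lit 152)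 (nat_lit 39509509080) (nat_lit 0) (nat_lit 2096319148) (nat_lit 10) (nat_lit 5) (nat_lit 12) (nat_lit 4) (nat_lit 10) (nat_lit 4) (nat_lit 423) (nat_lit 314) (nat_lit 283)) (XT.nd (nat_lit 78) (nat_lit 0) (nat_lit 0) (XT.lf (nat_lit 0) (nat_lit 18403500197) (nat_lit 152) (nat_lit 21733890096) (nat_lit 0) (nat_lit 12041062282) (nat_lit 10) (nat_lit 5) (nat_lit 12) (nat_lit 4) (nat_lit 10) (nat_lit 4) (nat_lit 424) (nat_lit 314) (nat_lit 282)) (XT.lf (nat_lit 0) (nat_lit 28790770168) (nat_lit 152) (nat_lit 3352410131) (nat_lit 0) (nat_lit 22347860024) (nat_lit 10) (nat_lit 5) (nat_lit 12) (nat_lit 4) (nat_lit 10) (nat_lit 4) (nat_lit 425) (nat_lit 314) (nat_lit 281)))) (XT.nd (nat_lit 78) (nat_lit 76) (nat_lit 0) (XT.lf (nat_lit 0) (nat_lit 15990733038) (nat_lit 76) (nat_lit 23723782400) (nat_lit 76) (nat_lit 17204232037) (nat_lit 9) (nat_lit 4) (nat_lit 10) (nat_lit 5) (nat_lit 10) (nat_lit 4)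 (nat_lit 426) (nat_lit 314) (nat_lit 280)) (XT.nd (nat_lit 78) (nat_lit 76) (nat_lit 0) (XT.lf (nat_lit 0) (nat_lit 36109364951) (nat_lit 76) (nat_lit 14976981173) (nat_lit 76) (nat_lit 8384440126) (nat_lit 9) (nat_lit 4) (nat_lit 10) (nat_lit 5) (nat_lit 10) (nat_lit 4) (nat_lit 427) (nat_lit 314) (nat_lit 279)) (XT.lf (nat_lit 0) (nat_lit 731690242) (nat_lit 152) (nat_lit 5176724793) (nat_lit 76) (nat_lit 56245588696) (nat_lit 8) (nat_lit 5) (nat_lit 10) (nat_lit 5) (nat_lit 9) (nat_lit 4) (nat_lit 428) (nat_lit 314) (nat_lit 278))))) (XT.nd (nat_lit 234) (nat_lit 76) (nat_lit 0) (XT.nd (nat_lit 78) (nat_lit 0) (nat_lit 0) (XT.lf (nat_lit 0) (nat_lit 10179377424) (nat_lit 152) (nat_lit 51140956964) (nat_lit 0) (nat_lit 3647085494) (nat_lit 7) (nat_lit 5) (nat_lit 9) (nat_lit 4) (nat_lit 7) (nat_lit 4) (nat_lit 429) (nat_lit 314) (nat_lit 277)) (XT.nd (nat_lit 78) (nat_lit 0) (nat_lit 0) (XT.lf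 (nat_lit 0) (nat_lit 20093864696) (nat_lit 152) (nat_lit 34327455227) (nat_lit 0) (nat_lit 13500357138) (nat_lit 7) (nat_lit 5) (nat_lit 9) (nat_lit 4) (nat_lit 7) (nat_lit 4) (nat_lit 430) (nat_lit 314) (nat_lit 276)) (XT.lf (nat_lit 0) (nat_lit 30390707980) (nat_lit 152) (nat_lit 16897442909) (nat_lit 0) (nat_lit 23738899823) (nat_lit 7) (nat_lit 5) (nat_lit 9) (nat_lit 4) (nat_lit 7) (nat_lit 4) (nat_lit 431) (nat_lit 314) (nat_lit 275)))) (XT.nd (nat_lit 156) (nat_lit 0) (nat_lit 0) (XT.nd (nat_lit 78) (nat_lit 0) (nat_lit 0) (XT.lf (nat_lit 0) (nat_lit 1214274894) (nat_lit 76) (nat_lit 39891821028) (nat_lit 76) (nat_lit 33184488492) (nat_lit 6) (nat_lit 4) (nat_lit 7) (nat_lit 5) (nat_lit 7) (nat_lit 4) (nat_lit 432) (nat_lit 314) (nat_lit 274)) (XT.lf (nat_lit 0) (nat_lit 20377315089) (nat_lit 76) (nat_lit 32049060631) (nat_lit 76) (nat_lit 25288847732) (nat_lit 6) (nat_lit 4) (nat_lit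 7) (nat_lit 5) (nat_lit 7) (nat_lit 4) (nat_lit 433) (nat_lit 314) (nat_lit 273))) (XT.nd (nat_lit 78) (nat_lit 0) (nat_lit 0) (XT.lf (nat_lit 0) (nat_lit 40301011715) (nat_lit 76) (nat_lit 23911827499) (nat_lit 76) (nat_lit 17101252352) (nat_lit 6) (nat_lit 4) (nat_lit 7) (nat_lit 5) (nat_lit 7) (nat_lit 4) (nat_lit 434) (nat_lit 314) (nat_lit 272)) (XT.lf (nat_lit 0) (nat_lit 61032802144) (nat_lit 76) (nat_lit 15460747269) (nat_lit 76) (nat_lit 8602208074) (nat_lit 6) (nat_lit 4) (nat_lit 7) (nat_lit 5) (nat_lit 7) (nat_lit 4) (nat_lit 435) (nat_lit 314) (nat_lit 271))))))) (XT.nd (nat_lit 50232) (nat_lit 0) (nat_lit 1216) (XT.nd (nat_lit 49764) (nat_lit 0) (nat_lit 2432) (XT.nd (nat_lit 49530) (nat_lit 0) (nat_lit 3420) (XT.nd (nat_lit 78) (nat_lit 76) (nat_lit 0) (XT.lf (nat_lit 0) (nat_lit 224061651) (nat_lit 152) (nat_lit 6449374085) (nat_lit 76) (nat_lit 82395723548) (nat_lit 5) (nat_lit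 5) (nat_lit 7) (nat_lit 5) (nat_lit 6) (nat_lit 4) (nat_lit 436) (nat_lit 314) (nat_lit 270)) (XT.nd (nat_lit 78) (nat_lit 0) (nat_lit 0) (XT.lf (nat_lit 0) (nat_lit 9369572776) (nat_lit 152) (nat_lit 81243220472) (nat_lit 0) (nat_lit 2624209627) (nat_lit 4) (nat_lit 5) (nat_lit 6) (nat_lit 4) (nat_lit 4) (nat_lit 4) (nat_lit 437) (nat_lit 314) (nat_lit 269)) (XT.lf (nat_lit 0) (nat_lit 19021412923) (nat_lit 152) (nat_lit 66354532468) (nat_lit 0) (nat_lit 12235823418) (nat_lit 4) (nat_lit 5) (nat_lit 6) (nat_lit 4) (nat_lit 4) (nat_lit 4) (nat_lit 438) (nat_lit 314) (nat_lit 268)))) (XT.nd (nat_lit 78) (nat_lit 304) (nat_lit 0) (XT.lf (nat_lit 0) (nat_lit 82229573) (nat_lit 152) (nat_lit 7360512486) (nat_lit 0) (nat_lit 82229573) (nat_lit 53) (nat_lit 5) (nat_lit 55) (nat_lit 4) (nat_lit 53) (nat_lit 4) (nat_lit 390) (nat_lit 315) (nat_lit 315)) (XT.nd (nat_lit 78) (nat_lit 152) (nat_lit 0) (XT.lf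 (nat_lit 0) (nat_lit 4047057572) (nat_lit 152) (nat_lit 6015270130) (nat_lit 152) (nat_lit 5424012410) (nat_lit 51) (nat_lit 4) (nat_lit 53) (nat_lit 5) (nat_lit 53) (nat_lit 4) (nat_lit 391) (nat_lit 315) (nat_lit 314)) (XT.lf (nat_lit 0) (nat_lit 4341029368) (nat_lit 152) (nat_lit 8384404134) (nat_lit 0) (nat_lit 3220291203) (nat_lit 49) (nat_lit 5) (nat_lit 51) (nat_lit 4) (nat_lit 49) (nat_lit 4) (nat_lit 392) (nat_lit 315) (nat_lit 313))))) (XT.nd (nat_lit 234) (nat_lit 456) (nat_lit 0) (XT.nd (nat_lit 78) (nat_lit 380) (nat_lit 0) (XT.lf (nat_lit 0) (nat_lit 10800865228) (nat_lit 152) (nat_lit 3634221595) (nat_lit 152) (nat_lit 1992815292) (nat_lit 47) (nat_lit 4) (nat_lit 49) (nat_lit 5) (nat_lit 49) (nat_lit 4) (nat_lit 393) (nat_lit 315) (nat_lit 312)) (XT.nd (nat_lit 78) (nat_lit 228) (nat_lit 0) (XT.lf (nat_lit 0) (nat_lit 7893417401) (nat_lit 152) (nat_lit 3221514458) (nat_lit 0)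 (nat_lit 5818387576) (nat_lit 45) (nat_lit 5) (nat_lit 47) (nat_lit 4) (nat_lit 45) (nat_lit 4) (nat_lit 394) (nat_lit 315) (nat_lit 311)) (XT.lf (nat_lit 0) (nat_lit 688619083) (nat_lit 228) (nat_lit 1135639249) (nat_lit 76) (nat_lit 15640926082) (nat_lit 42) (nat_lit 5) (nat_lit 45) (nat_lit 5) (nat_lit 43) (nat_lit 4) (nat_lit 395) (nat_lit 315) (nat_lit 310)))) (XT.nd (nat_lit 78) (nat_lit 228) (nat_lit 0) (XT.lf (nat_lit 0) (nat_lit 496260711) (nat_lit 152) (nat_lit 10204445048) (nat_lit 152) (nat_lit 7320747449) (nat_lit 39) (nat_lit 4) (nat_lit 41) (nat_lit 5) (nat_lit 41) (nat_lit 4) (nat_lit 396) (nat_lit 315) (nat_lit 309)) (XT.nd (nat_lit 78) (nat_lit 76) (nat_lit 0) (XT.lf (nat_lit 0) (nat_lit 1756399267) (nat_lit 76) (nat_lit 728262064) (nat_lit 152) (nat_lit 16122308634) (nat_lit 37) (nat_lit 5) (nat_lit 38) (nat_lit 5) (nat_lit 39) (nat_lit 4) (nat_lit 397) (nat_lit 315) (nat_lit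 308)) (XT.lf (nat_lit 0) (nat_lit 2451706231) (nat_lit 76) (nat_lit 10166633297) (nat_lit 76) (nat_lit 6601582871) (nat_lit 36) (nat_lit 4) (nat_lit 37) (nat_lit 5) (nat_lit 37) (nat_lit 4) (nat_lit 398) (nat_lit 315) (nat_lit 307)))))) (XT.nd (nat_lit 468) (nat_lit 608) (nat_lit 0) (XT.nd (nat_lit 234) (nat_lit 228) (nat_lit 0) (XT.nd (nat_lit 78) (nat_lit 228) (nat_lit 0) (XT.lf (nat_lit 0) (nat_lit 2649893866) (nat_lit 76) (nat_lit 586808011) (nat_lit 152) (nat_lit 16628623417) (nat_lit 34) (nat_lit 5) (nat_lit 35) (nat_lit 5) (nat_lit 36) (nat_lit 4) (nat_lit 399) (nat_lit 315) (nat_lit 306)) (XT.nd (nat_lit 78) (nat_lit 152) (nat_lit 0) (XT.lf (nat_lit 0) (nat_lit 2171688654) (nat_lit 76) (nat_lit 11252368566) (nat_lit 76) (nat_lit 7117184088) (nat_lit 33) (nat_lit 4) (nat_lit 34) (nat_lit 5) (nat_lit 34) (nat_lit 4) (nat_lit 400) (nat_lit 315) (nat_lit 305)) (XT.lf (nat_lit 0) (nat_lit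 1075599981) (nat_lit 76) (nat_lit 1645530568) (nat_lit 152) (nat_lit 18531789224) (nat_lit 31) (nat_lit 5) (nat_lit 32) (nat_lit 5) (nat_lit 33) (nat_lit 4) (nat_lit 401) (nat_lit 315) (nat_lit 304)))) (XT.nd (nat_lit 78) (nat_lit 228) (nat_lit 0) (XT.lf (nat_lit 0) (nat_lit 12895802236) (nat_lit 152) (nat_lit 814975459) (nat_lit 0) (nat_lit 8287554114) (nat_lit 31) (nat_lit 5) (nat_lit 33) (nat_lit 4) (nat_lit 31) (nat_lit 4) (nat_lit 402) (nat_lit 315) (nat_lit 303)) (XT.nd (nat_lit 78) (nat_lit 76) (nat_lit 0) (XT.lf (nat_lit 0) (nat_lit 716235602) (nat_lit 152) (nat_lit 3430018494) (nat_lit 76) (nat_lit 18636533397) (nat_lit 29) (nat_lit 5) (nat_lit 31) (nat_lit 5) (nat_lit 30) (nat_lit 4) (nat_lit 403) (nat_lit 315) (nat_lit 302)) (XT.lf (nat_lit 0) (nat_lit 10801964249) (nat_lit 152) (nat_lit 6997591788) (nat_lit 0) (nat_lit 5805289028) (nat_lit 28) (nat_lit 5) (nat_lit 30) (nat_lit 4)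 (nat_lit 28) (nat_lit 4) (nat_lit 404) (nat_lit 315) (nat_lit 301))))) (XT.nd (nat_lit 234) (nat_lit 304) (nat_lit 0) (XT.nd (nat_lit 78) (nat_lit 228) (nat_lit 0) (XT.lf (nat_lit 0) (nat_lit 12963946472) (nat_lit 76) (nat_lit 8372608692) (nat_lit 76) (nat_lit 3133123754) (nat_lit 27) (nat_lit 4) (nat_lit 28) (nat_lit 5) (nat_lit 28) (nat_lit 4) (nat_lit 405) (nat_lit 315) (nat_lit 300)) (XT.nd (nat_lit 78) (nat_lit 76) (nat_lit 0) (XT.lf (nat_lit 0) (nat_lit 6797811717) (nat_lit 152) (nat_lit 17094066670) (nat_lit 0) (nat_lit 1486421145) (nat_lit 25) (nat_lit 5) (nat_lit 27) (nat_lit 4) (nat_lit 25) (nat_lit 4) (nat_lit 406) (nat_lit 315) (nat_lit 299)) (XT.lf (nat_lit 0) (nat_lit 2425513248) (nat_lit 76) (nat_lit 14715851086) (nat_lit 76) (nat_lit 9190639570) (nat_lit 24) (nat_lit 4) (nat_lit 25) (nat_lit 5) (nat_lit 25) (nat_lit 4) (nat_lit 407) (nat_lit 315) (nat_lit 298)))) (XT.nd (nat_lit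 156) (nat_lit 152) (nat_lit 0) (XT.nd (nat_lit 78) (nat_lit 76) (nat_lit 0) (XT.lf (nat_lit 0) (nat_lit 591098210) (nat_lit 152) (nat_lit 4528921142) (nat_lit 76) (nat_lit 22215126621) (nat_lit 23) (nat_lit 5) (nat_lit 25) (nat_lit 5) (nat_lit 24) (nat_lit 4) (nat_lit 408) (nat_lit 315) (nat_lit 297)) (XT.lf (nat_lit 0) (nat_lit 10640596522) (nat_lit 152) (nat_lit 12855751874) (nat_lit 0) (nat_lit 4890312631) (nat_lit 22) (nat_lit 5) (nat_lit 24) (nat_lit 4) (nat_lit 22) (nat_lit 4) (nat_lit 409) (nat_lit 315) (nat_lit 296))) (XT.nd (nat_lit 78) (nat_lit 76) (nat_lit 0) (XT.lf (nat_lit 0) (nat_lit 6840019256) (nat_lit 76) (nat_lit 14291097358) (nat_lit 76) (nat_lit 8361486699) (nat_lit 21) (nat_lit 4) (nat_lit 22) (nat_lit 5) (nat_lit 22) (nat_lit 4) (nat_lit 410) (nat_lit 315) (nat_lit 295)) (XT.lf (nat_lit 0) (nat_lit 1375354301) (nat_lit 152) (nat_lit 3308428824) (nat_lit 76) (nat_lit 25972271882)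 (nat_lit 20) (nat_lit 5) (nat_lit 22) (nat_lit 5) (nat_lit 21) (nat_lit 4) (nat_lit 411) (nat_lit 315) (nat_lit 294))))))))
noncomputable def xc12 : XT := (XT.nd (nat_lit 1872) (nat_lit 152) (nat_lit 0) (XT.nd (nat_lit 936) (nat_lit 380) (nat_lit 0) (XT.nd (nat_lit 468) (nat_lit 304) (nat_lit 0) (XT.nd (nat_lit 234) (nat_lit 228) (nat_lit 0) (XT.nd (nat_lit 78) (nat_lit 76) (nat_lit 0) (XT.lf (nat_lit 0) (nat_lit 11431058144) (nat_lit 152) (nat_lit 15093571567) (nat_lit 0) (nat_lit 5350424435) (nat_lit 19) (nat_lit 5) (nat_lit 21) (nat_lit 4) (nat_lit 19) (nat_lit 4) (nat_lit 412) (nat_lit 315) (nat_lit 293)) (XT.nd (nat_lit 78) (nat_lit 0) (nat_lit 0) (XT.lf (nat_lit 0) (nat_lit 4425768221) (nat_lit 76) (nat_lit 17481372412) (nat_lit 76) (nat_lit 11250341417) (nat_lit 18) (nat_lit 4) (nat_lit 19) (nat_lit 5) (nat_lit 19) (nat_lit 4) (nat_lit 413) (nat_lit 315) (nat_lit 292)) (XT.lf (nat_lit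 0) (nat_lit 24844040447) (nat_lit 76) (nat_lit 8017809512) (nat_lit 76) (nat_lit 1643543008) (nat_lit 18) (nat_lit 4) (nat_lit 19) (nat_lit 5) (nat_lit 19) (nat_lit 4) (nat_lit 414) (nat_lit 315) (nat_lit 291)))) (XT.nd (nat_lit 78) (nat_lit 76) (nat_lit 0) (XT.lf (nat_lit 0) (nat_lit 8201462286) (nat_lit 152) (nat_lit 25838716557) (nat_lit 0) (nat_lit 1880412504) (nat_lit 16) (nat_lit 5) (nat_lit 18) (nat_lit 4) (nat_lit 16) (nat_lit 4) (nat_lit 415) (nat_lit 315) (nat_lit 290)) (XT.nd (nat_lit 78) (nat_lit 76) (nat_lit 0) (XT.lf (nat_lit 0) (nat_lit 18497443282) (nat_lit 152) (nat_lit 6858583522) (nat_lit 0) (nat_lit 12050258713) (nat_lit 16) (nat_lit 5) (nat_lit 18) (nat_lit 4) (nat_lit 16) (nat_lit 4) (nat_lit 416) (nat_lit 315) (nat_lit 289)) (XT.lf (nat_lit 0) (nat_lit 12970635432) (nat_lit 76) (nat_lit 16282302867) (nat_lit 76) (nat_lit 9714989930) (nat_lit 15) (nat_lit 4) (nat_lit 16)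 (nat_lit 5) (nat_lit 16) (nat_lit 4) (nat_lit 417) (nat_lit 315) (nat_lit 288))))) (XT.nd (nat_lit 234) (nat_lit 152) (nat_lit 0) (XT.nd (nat_lit 78) (nat_lit 152) (nat_lit 0) (XT.lf (nat_lit 0) (nat_lit 33591734391) (nat_lit 76) (nat_lit 6850383662) (nat_lit 76) (nat_lit 168662756) (nat_lit 15) (nat_lit 4) (nat_lit 16) (nat_lit 5) (nat_lit 16) (nat_lit 4) (nat_lit 418) (nat_lit 315) (nat_lit 287)) (XT.nd (nat_lit 78) (nat_lit 0) (nat_lit 0) (XT.lf (nat_lit 0) (nat_lit 9646977078) (nat_lit 152) (nat_lit 29632349531) (nat_lit 0) (nat_lit 3054083023) (nat_lit 13) (nat_lit 5) (nat_lit 15) (nat_lit 4) (nat_lit 13) (nat_lit 4) (nat_lit 419) (nat_lit 315) (nat_lit 286)) (XT.lf (nat_lit 0) (nat_lit 19927437721) (nat_lit 152) (nat_lit 10981565964) (nat_lit 0) (nat_lit 13233794733) (nat_lit 13) (nat_lit 5) (nat_lit 15) (nat_lit 4) (nat_lit 13) (nat_lit 4) (nat_lit 420) (nat_lit 315) (nat_lit 285)))) (XT.nd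 (nat_lit 78) (nat_lit 76) (nat_lit 0) (XT.lf (nat_lit 0) (nat_lit 8458379024) (nat_lit 76) (nat_lit 22188070179) (nat_lit 76) (nat_lit 15398475826) (nat_lit 12) (nat_lit 4) (nat_lit 13) (nat_lit 5) (nat_lit 13) (nat_lit 4) (nat_lit 421) (nat_lit 315) (nat_lit 284)) (XT.nd (nat_lit 78) (nat_lit 76) (nat_lit 0) (XT.lf (nat_lit 0) (nat_lit 28800213614) (nat_lit 76) (nat_lit 13062049709) (nat_lit 76) (nat_lit 6181073104) (nat_lit 12) (nat_lit 4) (nat_lit 13) (nat_lit 5) (nat_lit 13) (nat_lit 4) (nat_lit 422) (nat_lit 315) (nat_lit 283)) (XT.lf (nat_lit 0) (nat_lit 3282571766) (nat_lit 152) (nat_lit 304386634) (nat_lit 76) (nat_lit 46558096743) (nat_lit 11) (nat_lit 5) (nat_lit 13) (nat_lit 5) (nat_lit 12) (nat_lit 4) (nat_lit 423) (nat_lit 315) (nat_lit 282)))))) (XT.nd (nat_lit 468) (nat_lit 76) (nat_lit 0) (XT.nd (nat_lit 234) (nat_lit 152) (nat_lit 0) (XT.nd (nat_lit 78) (nat_lit 76) (nat_lit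 0) (XT.lf (nat_lit 0) (nat_lit 13204350655) (nat_lit 152) (nat_lit 32783470368) (nat_lit 0) (nat_lit 6358822774) (nat_lit 10) (nat_lit 5) (nat_lit 12) (nat_lit 4) (nat_lit 10) (nat_lit 4) (nat_lit 424) (nat_lit 315) (nat_lit 281)) (XT.nd (nat_lit 78) (nat_lit 76) (nat_lit 0) (XT.lf (nat_lit 0) (nat_lit 23524986037) (nat_lit 152) (nat_lit 14533428252) (nat_lit 0) (nat_lit 16602817938) (nat_lit 10) (nat_lit 5) (nat_lit 12) (nat_lit 4) (nat_lit 10) (nat_lit 4) (nat_lit 425) (nat_lit 315) (nat_lit 280)) (XT.lf (nat_lit 0) (nat_lit 4459520525) (nat_lit 76) (nat_lit 29814904201) (nat_lit 76) (nat_lit 22819745417) (nat_lit 9) (nat_lit 4) (nat_lit 10) (nat_lit 5) (nat_lit 10) (nat_lit 4) (nat_lit 426) (nat_lit 315) (nat_lit 279)))) (XT.nd (nat_lit 78) (nat_lit 152) (nat_lit 0) (XT.lf (nat_lit 0) (nat_lit 24456561762) (nat_lit 76) (nat_lit 21128085309) (nat_lit 76) (nat_lit 14063411587) (nat_lit 9) (nat_lit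 4) (nat_lit 10) (nat_lit 5) (nat_lit 10) (nat_lit 4) (nat_lit 427) (nat_lit 315) (nat_lit 278)) (XT.nd (nat_lit 78) (nat_lit 152) (nat_lit 0) (XT.lf (nat_lit 0) (nat_lit 45216063743) (nat_lit 76) (nat_lit 12124033840) (nat_lit 76) (nat_lit 4993155416) (nat_lit 9) (nat_lit 4) (nat_lit 10) (nat_lit 5) (nat_lit 10) (nat_lit 4) (nat_lit 428) (nat_lit 315) (nat_lit 277)) (XT.lf (nat_lit 0) (nat_lit 1620512611) (nat_lit 76) (nat_lit 2721577602) (nat_lit 152) (nat_lit 60812316450) (nat_lit 7) (nat_lit 5) (nat_lit 8) (nat_lit 5) (nat_lit 9) (nat_lit 4) (nat_lit 429) (nat_lit 315) (nat_lit 276))))) (XT.nd (nat_lit 234) (nat_lit 76) (nat_lit 0) (XT.nd (nat_lit 78) (nat_lit 0) (nat_lit 0) (XT.lf (nat_lit 0) (nat_lit 14175114381) (nat_lit 152) (nat_lit 46803579386) (nat_lit 0) (nat_lit 7132415218) (nat_lit 7) (nat_lit 5) (nat_lit 9) (nat_lit 4) (nat_lit 7) (nat_lit 4) (nat_lit 430) (nat_lit 315) (nat_lit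 275)) (XT.nd (nat_lit 78) (nat_lit 0) (nat_lit 0) (XT.lf (nat_lit 0) (nat_lit 24419289441) (nat_lit 152) (nat_lit 29477708534) (nat_lit 0) (nat_lit 17321065898) (nat_lit 7) (nat_lit 5) (nat_lit 9) (nat_lit 4) (nat_lit 7) (nat_lit 4) (nat_lit 431) (nat_lit 315) (nat_lit 274)) (XT.lf (nat_lit 0) (nat_lit 35072844818) (nat_lit 152) (nat_lit 11488867956) (nat_lit 0) (nat_lit 27921740913) (nat_lit 7) (nat_lit 5) (nat_lit 9) (nat_lit 4) (nat_lit 7) (nat_lit 4) (nat_lit 432) (nat_lit 315) (nat_lit 273)))) (XT.nd (nat_lit 78) (nat_lit 0) (nat_lit 0) (XT.lf (nat_lit 0) (nat_lit 7349181932) (nat_lit 76) (nat_lit 38882609019) (nat_lit 76) (nat_lit 31681142865) (nat_lit 6) (nat_lit 4) (nat_lit 7) (nat_lit 5) (nat_lit 7) (nat_lit 4) (nat_lit 433) (nat_lit 315) (nat_lit 272)) (XT.nd (nat_lit 78) (nat_lit 0) (nat_lit 0) (XT.lf (nat_lit 0) (nat_lit 27181126837) (nat_lit 76) (nat_lit 30790748842) (nat_lit 76)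 (nat_lit 23541318641) (nat_lit 6) (nat_lit 4) (nat_lit 7) (nat_lit 5) (nat_lit 7) (nat_lit 4) (nat_lit 434) (nat_lit 315) (nat_lit 271)) (XT.lf (nat_lit 0) (nat_lit 47825534675) (nat_lit 76) (nat_lit 22382880950) (nat_lit 76) (nat_lit 15087770705) (nat_lit 6) (nat_lit 4) (nat_lit 7) (nat_lit 5) (nat_lit 7) (nat_lit 4) (nat_lit 435) (nat_lit 315) (nat_lit 270))))))) (XT.nd (nat_lit 50076) (nat_lit 0) (nat_lit 1368) (XT.nd (nat_lit 49608) (nat_lit 0) (nat_lit 2812) (XT.nd (nat_lit 49374) (nat_lit 0) (nat_lit 3724) (XT.nd (nat_lit 78) (nat_lit 152) (nat_lit 0) (XT.lf (nat_lit 0) (nat_lit 69331558799) (nat_lit 76) (nat_lit 13638986610) (nat_lit 76) (nat_lit 6300371560) (nat_lit 6) (nat_lit 4) (nat_lit 7) (nat_lit 5) (nat_lit 7) (nat_lit 4) (nat_lit 436) (nat_lit 315) (nat_lit 269)) (XT.nd (nat_lit 78) (nat_lit 76) (nat_lit 0) (XT.lf (nat_lit 0) (nat_lit 2786347395) (nat_lit 152) (nat_lit 1723762983)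 (nat_lit 76) (nat_lit 88935919986) (nat_lit 5) (nat_lit 5) (nat_lit 7) (nat_lit 5) (nat_lit 6) (nat_lit 4) (nat_lit 437) (nat_lit 315) (nat_lit 268)) (XT.lf (nat_lit 0) (nat_lit 12338114570) (nat_lit 152) (nat_lit 80350976323) (nat_lit 0) (nat_lit 5134708418) (nat_lit 4) (nat_lit 5) (nat_lit 6) (nat_lit 4) (nat_lit 4) (nat_lit 4) (nat_lit 438) (nat_lit 315) (nat_lit 267)))) (XT.nd (nat_lit 78) (nat_lit 456) (nat_lit 0) (XT.lf (nat_lit 0) (nat_lit 3423763189) (nat_lit 152) (nat_lit 1845315865) (nat_lit 152) (nat_lit 1845315865) (nat_lit 59) (nat_lit 4) (nat_lit 61) (nat_lit 5) (nat_lit 61) (nat_lit 4) (nat_lit 388) (nat_lit 316) (nat_lit 316)) (XT.nd (nat_lit 78) (nat_lit 304) (nat_lit 0) (XT.lf (nat_lit 0) (nat_lit 5833724853) (nat_lit 152) (nat_lit 3603351327) (nat_lit 0) (nat_lit 5194279629) (nat_lit 57) (nat_lit 5) (nat_lit 59) (nat_lit 4) (nat_lit 57) (nat_lit 4) (nat_lit 389) (nat_lit 316)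 (nat_lit 315)) (XT.lf (nat_lit 0) (nat_lit 14673463) (nat_lit 76) (nat_lit 607550250) (nat_lit 152) (nat_lit 14432623916) (nat_lit 53) (nat_lit 5) (nat_lit 54) (nat_lit 5) (nat_lit 55) (nat_lit 4) (nat_lit 390) (nat_lit 316) (nat_lit 314))))) (XT.nd (nat_lit 234) (nat_lit 456) (nat_lit 0) (XT.nd (nat_lit 78) (nat_lit 304) (nat_lit 0) (XT.lf (nat_lit 0) (nat_lit 3423184948) (nat_lit 152) (nat_lit 6924216622) (nat_lit 152) (nat_lit 5149035706) (nat_lit 51) (nat_lit 4) (nat_lit 53) (nat_lit 5) (nat_lit 53) (nat_lit 4) (nat_lit 391) (nat_lit 316) (nat_lit 313)) (XT.nd (nat_lit 78) (nat_lit 152) (nat_lit 0) (XT.lf (nat_lit 0) (nat_lit 4433887652) (nat_lit 152) (nat_lit 9337425770) (nat_lit 0) (nat_lit 2189742896) (nat_lit 49) (nat_lit 5) (nat_lit 51) (nat_lit 4) (nat_lit 49) (nat_lit 4) (nat_lit 392) (nat_lit 316) (nat_lit 312)) (XT.lf (nat_lit 0) (nat_lit 9535235526) (nat_lit 152) (nat_lit 4826507044)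 (nat_lit 152) (nat_lit 2086487872) (nat_lit 47) (nat_lit 4) (nat_lit 49) (nat_lit 5) (nat_lit 49) (nat_lit 4) (nat_lit 393) (nat_lit 316) (nat_lit 311)))) (XT.nd (nat_lit 78) (nat_lit 304) (nat_lit 0) (XT.lf (nat_lit 0) (nat_lit 7622435148) (nat_lit 152) (nat_lit 4832907393) (nat_lit 0) (nat_lit 4503716196) (nat_lit 45) (nat_lit 5) (nat_lit 47) (nat_lit 4) (nat_lit 45) (nat_lit 4) (nat_lit 394) (nat_lit 316) (nat_lit 310)) (XT.nd (nat_lit 78) (nat_lit 76) (nat_lit 0) (XT.lf (nat_lit 0) (nat_lit 229947140) (nat_lit 228) (nat_lit 3088598794) (nat_lit 76) (nat_lit 14177504658) (nat_lit 42) (nat_lit 5) (nat_lit 45) (nat_lit 5) (nat_lit 43) (nat_lit 4) (nat_lit 395) (nat_lit 316) (nat_lit 309)) (XT.lf (nat_lit 0) (nat_lit 10055074034) (nat_lit 152) (nat_lit 1803390808) (nat_lit 0) (nat_lit 6199471999) (nat_lit 41) (nat_lit 5) (nat_lit 43) (nat_lit 4) (nat_lit 41) (nat_lit 4) (nat_lit 396) (nat_lit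 316) (nat_lit 308)))))) (XT.nd (nat_lit 468) (nat_lit 684) (nat_lit 0) (XT.nd (nat_lit 234) (nat_lit 304) (nat_lit 0) (XT.nd (nat_lit 78) (nat_lit 228) (nat_lit 0) (XT.lf (nat_lit 0) (nat_lit 1635638944) (nat_lit 228) (nat_lit 919793681) (nat_lit 76) (nat_lit 16093632216) (nat_lit 38) (nat_lit 5) (nat_lit 41) (nat_lit 5) (nat_lit 39) (nat_lit 4) (nat_lit 397) (nat_lit 316) (nat_lit 307)) (XT.nd (nat_lit 78) (nat_lit 152) (nat_lit 0) (XT.lf (nat_lit 0) (nat_lit 11576728815) (nat_lit 152) (nat_lit 586546936) (nat_lit 0) (nat_lit 7104526802) (nat_lit 37) (nat_lit 5) (nat_lit 39) (nat_lit 4) (nat_lit 37) (nat_lit 4) (nat_lit 398) (nat_lit 316) (nat_lit 306)) (XT.lf (nat_lit 0) (nat_lit 1997712707) (nat_lit 152) (nat_lit 755474283) (nat_lit 76) (nat_lit 17165462440) (nat_lit 35) (nat_lit 5) (nat_lit 37) (nat_lit 5) (nat_lit 36) (nat_lit 4) (nat_lit 399) (nat_lit 316) (nat_lit 305)))) (XT.nd (nat_lit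 78) (nat_lit 228) (nat_lit 0) (XT.lf (nat_lit 0) (nat_lit 11999380941) (nat_lit 152) (nat_lit 1585201236) (nat_lit 0) (nat_lit 7015560597) (nat_lit 34) (nat_lit 5) (nat_lit 36) (nat_lit 4) (nat_lit 34) (nat_lit 4) (nat_lit 400) (nat_lit 316) (nat_lit 304)) (XT.nd (nat_lit 78) (nat_lit 76) (nat_lit 0) (XT.lf (nat_lit 0) (nat_lit 1106702778) (nat_lit 152) (nat_lit 3035414232) (nat_lit 76) (nat_lit 17174932269) (nat_lit 32) (nat_lit 5) (nat_lit 34) (nat_lit 5) (nat_lit 33) (nat_lit 4) (nat_lit 401) (nat_lit 316) (nat_lit 303)) (XT.lf (nat_lit 0) (nat_lit 11096381568) (nat_lit 152) (nat_lit 5279158133) (nat_lit 0) (nat_lit 5692477317) (nat_lit 31) (nat_lit 5) (nat_lit 33) (nat_lit 4) (nat_lit 31) (nat_lit 4) (nat_lit 402) (nat_lit 316) (nat_lit 302))))) (XT.nd (nat_lit 234) (nat_lit 380) (nat_lit 0) (XT.nd (nat_lit 78) (nat_lit 228) (nat_lit 0) (XT.lf (nat_lit 0) (nat_lit 14562168419) (nat_lit 76)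 (nat_lit 6981074141) (nat_lit 76) (nat_lit 1314571181) (nat_lit 30) (nat_lit 4) (nat_lit 31) (nat_lit 5) (nat_lit 31) (nat_lit 4) (nat_lit 403) (nat_lit 316) (nat_lit 301)) (XT.nd (nat_lit 78) (nat_lit 76) (nat_lit 0) (XT.lf (nat_lit 0) (nat_lit 8595751130) (nat_lit 152) (nat_lit 12239054010) (nat_lit 0) (nat_lit 2851482227) (nat_lit 28) (nat_lit 5) (nat_lit 30) (nat_lit 4) (nat_lit 28) (nat_lit 4) (nat_lit 404) (nat_lit 316) (nat_lit 300)) (XT.lf (nat_lit 0) (nat_lit 7382230243) (nat_lit 76) (nat_lit 11574805687) (nat_lit 76) (nat_lit 5599289433) (nat_lit 27) (nat_lit 4) (nat_lit 28) (nat_lit 5) (nat_lit 28) (nat_lit 4) (nat_lit 405) (nat_lit 316) (nat_lit 299)))) (XT.nd (nat_lit 156) (nat_lit 228) (nat_lit 0) (XT.nd (nat_lit 78) (nat_lit 0) (nat_lit 0) (XT.lf (nat_lit 0) (nat_lit 2310686206) (nat_lit 76) (nat_lit 1879677355) (nat_lit 152) (nat_lit 21280980379) (nat_lit 25) (nat_lit 5) (nat_lit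 26) (nat_lit 5) (nat_lit 27) (nat_lit 4) (nat_lit 406) (nat_lit 316) (nat_lit 298)) (XT.lf (nat_lit 0) (nat_lit 14377702549) (nat_lit 152) (nat_lit 3893266020) (nat_lit 0) (nat_lit 8158770521) (nat_lit 25) (nat_lit 5) (nat_lit 27) (nat_lit 4) (nat_lit 25) (nat_lit 4) (nat_lit 407) (nat_lit 316) (nat_lit 297))) (XT.nd (nat_lit 78) (nat_lit 152) (nat_lit 0) (XT.lf (nat_lit 0) (nat_lit 16199394694) (nat_lit 76) (nat_lit 8825513385) (nat_lit 76) (nat_lit 2412639458) (nat_lit 24) (nat_lit 4) (nat_lit 25) (nat_lit 5) (nat_lit 25) (nat_lit 4) (nat_lit 408) (nat_lit 316) (nat_lit 296)) (XT.lf (nat_lit 0) (nat_lit 7471664274) (nat_lit 152) (nat_lit 19958219817) (nat_lit 0) (nat_lit 1066246315) (nat_lit 22) (nat_lit 5) (nat_lit 24) (nat_lit 4) (nat_lit 22) (nat_lit 4) (nat_lit 409) (nat_lit 316) (nat_lit 295))))))))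
noncomputable def xc13 : XT := (XT.nd (nat_lit 1950) (nat_lit 152) (nat_lit 0) (XT.nd (nat_lit 936) (nat_lit 532) (nat_lit 0) (XT.nd (nat_lit 468) (nat_lit 228) (nat_lit 0) (XT.nd (nat_lit 234) (nat_lit 228) (nat_lit 0) (XT.nd (nat_lit 78) (nat_lit 228) (nat_lit 0) (XT.lf (nat_lit 0) (nat_lit 17791456437) (nat_lit 152) (nat_lit 600490676) (nat_lit 0) (nat_lit 11215251081) (nat_lit 22) (nat_lit 5) (nat_lit 24) (nat_lit 4) (nat_lit 22) (nat_lit 4) (nat_lit 410) (nat_lit 316) (nat_lit 294)) (XT.nd (nat_lit 78) (nat_lit 152) (nat_lit 0) (XT.lf (nat_lit 0) (nat_lit 19710349031) (nat_lit 76) (nat_lit 8901401078) (nat_lit 76) (nat_lit 2162541058) (nat_lit 21) (nat_lit 4) (nat_lit 22) (nat_lit 5) (nat_lit 22) (nat_lit 4) (nat_lit 411) (nat_lit 316) (nat_lit 293)) (XT.lf (nat_lit 0) (nat_lit 7717242481) (nat_lit 152) (nat_lit 23258955606) (nat_lit 0) (nat_lit 1024262651) (nat_lit 19) (nat_lit 5) (nat_lit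 21) (nat_lit 4) (nat_lit 19) (nat_lit 4) (nat_lit 412) (nat_lit 316) (nat_lit 292)))) (XT.nd (nat_lit 78) (nat_lit 228) (nat_lit 0) (XT.lf (nat_lit 0) (nat_lit 18054791604) (nat_lit 152) (nat_lit 4013679849) (nat_lit 0) (nat_lit 11218576264) (nat_lit 19) (nat_lit 5) (nat_lit 21) (nat_lit 4) (nat_lit 19) (nat_lit 4) (nat_lit 413) (nat_lit 316) (nat_lit 291)) (XT.nd (nat_lit 78) (nat_lit 152) (nat_lit 0) (XT.lf (nat_lit 0) (nat_lit 16142391346) (nat_lit 76) (nat_lit 12734587987) (nat_lit 76) (nat_lit 5761957875) (nat_lit 18) (nat_lit 4) (nat_lit 19) (nat_lit 5) (nat_lit 19) (nat_lit 4) (nat_lit 414) (nat_lit 316) (nat_lit 290)) (XT.lf (nat_lit 0) (nat_lit 951292337) (nat_lit 76) (nat_lit 3016117159) (nat_lit 152) (nat_lit 32093796549) (nat_lit 16) (nat_lit 5) (nat_lit 17) (nat_lit 5) (nat_lit 18) (nat_lit 4) (nat_lit 415) (nat_lit 316) (nat_lit 289))))) (XT.nd (nat_lit 234) (nat_lit 152) (nat_lit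 0) (XT.nd (nat_lit 78) (nat_lit 76) (nat_lit 0) (XT.lf (nat_lit 0) (nat_lit 14146609090) (nat_lit 152) (nat_lit 16272995007) (nat_lit 0) (nat_lit 7130802138) (nat_lit 16) (nat_lit 5) (nat_lit 18) (nat_lit 4) (nat_lit 16) (nat_lit 4) (nat_lit 416) (nat_lit 316) (nat_lit 288)) (XT.nd (nat_lit 78) (nat_lit 0) (nat_lit 0) (XT.lf (nat_lit 0) (nat_lit 3201587886) (nat_lit 76) (nat_lit 21523001933) (nat_lit 76) (nat_lit 14392787012) (nat_lit 15) (nat_lit 4) (nat_lit 16) (nat_lit 5) (nat_lit 16) (nat_lit 4) (nat_lit 417) (nat_lit 316) (nat_lit 287)) (XT.lf (nat_lit 0) (nat_lit 23663381307) (nat_lit 76) (nat_lit 12169230039) (nat_lit 76) (nat_lit 4930055148) (nat_lit 15) (nat_lit 4) (nat_lit 16) (nat_lit 5) (nat_lit 16) (nat_lit 4) (nat_lit 418) (nat_lit 316) (nat_lit 286)))) (XT.nd (nat_lit 78) (nat_lit 0) (nat_lit 0) (XT.lf (nat_lit 0) (nat_lit 2341399618) (nat_lit 76) (nat_lit 2429214130) (nat_lit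 152) (nat_lit 37722293298) (nat_lit 13) (nat_lit 5) (nat_lit 14) (nat_lit 5) (nat_lit 15) (nat_lit 4) (nat_lit 419) (nat_lit 316) (nat_lit 285)) (XT.nd (nat_lit 78) (nat_lit 0) (nat_lit 0) (XT.lf (nat_lit 0) (nat_lit 14951245589) (nat_lit 152) (nat_lit 21627827011) (nat_lit 0) (nat_lit 7726220154) (nat_lit 13) (nat_lit 5) (nat_lit 15) (nat_lit 4) (nat_lit 13) (nat_lit 4) (nat_lit 420) (nat_lit 316) (nat_lit 284)) (XT.lf (nat_lit 0) (nat_lit 25516114043) (nat_lit 152) (nat_lit 2496225218) (nat_lit 0) (nat_lit 18199706356) (nat_lit 13) (nat_lit 5) (nat_lit 15) (nat_lit 4) (nat_lit 13) (nat_lit 4) (nat_lit 421) (nat_lit 316) (nat_lit 283)))))) (XT.nd (nat_lit 468) (nat_lit 228) (nat_lit 0) (XT.nd (nat_lit 234) (nat_lit 76) (nat_lit 0) (XT.nd (nat_lit 78) (nat_lit 152) (nat_lit 0) (XT.lf (nat_lit 0) (nat_lit 17656747212) (nat_lit 76) (nat_lit 18980002710) (nat_lit 76) (nat_lit 11576564306) (nat_lit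 12) (nat_lit 4) (nat_lit 13) (nat_lit 5) (nat_lit 13) (nat_lit 4) (nat_lit 422) (nat_lit 316) (nat_lit 282)) (XT.nd (nat_lit 78) (nat_lit 152) (nat_lit 0) (XT.lf (nat_lit 0) (nat_lit 38597794996) (nat_lit 76) (nat_lit 9603275073) (nat_lit 76) (nat_lit 2116950273) (nat_lit 12) (nat_lit 4) (nat_lit 13) (nat_lit 5) (nat_lit 13) (nat_lit 4) (nat_lit 423) (nat_lit 316) (nat_lit 281)) (XT.lf (nat_lit 0) (nat_lit 7608642729) (nat_lit 152) (nat_lit 44654977243) (nat_lit 0) (nat_lit 263726006) (nat_lit 10) (nat_lit 5) (nat_lit 12) (nat_lit 4) (nat_lit 10) (nat_lit 4) (nat_lit 424) (nat_lit 316) (nat_lit 280)))) (XT.nd (nat_lit 78) (nat_lit 76) (nat_lit 0) (XT.lf (nat_lit 0) (nat_lit 17865816598) (nat_lit 152) (nat_lit 26530114030) (nat_lit 0) (nat_lit 10447909190) (nat_lit 10) (nat_lit 5) (nat_lit 12) (nat_lit 4) (nat_lit 10) (nat_lit 4) (nat_lit 425) (nat_lit 316) (nat_lit 279)) (XT.nd (nat_lit 78) (nat_lit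 76) (nat_lit 0) (XT.lf (nat_lit 0) (nat_lit 28511948111) (nat_lit 152) (nat_lit 7743404564) (nat_lit 0) (nat_lit 21024525765) (nat_lit 10) (nat_lit 5) (nat_lit 12) (nat_lit 4) (nat_lit 10) (nat_lit 4) (nat_lit 426) (nat_lit 316) (nat_lit 278)) (XT.lf (nat_lit 0) (nat_lit 11983727095) (nat_lit 76) (nat_lit 27703853019) (nat_lit 76) (nat_lit 20150225971) (nat_lit 9) (nat_lit 4) (nat_lit 10) (nat_lit 5) (nat_lit 10) (nat_lit 4) (nat_lit 427) (nat_lit 316) (nat_lit 277))))) (XT.nd (nat_lit 234) (nat_lit 76) (nat_lit 0) (XT.nd (nat_lit 78) (nat_lit 152) (nat_lit 0) (XT.lf (nat_lit 0) (nat_lit 32632942750) (nat_lit 76) (nat_lit 18754207296) (nat_lit 76) (nat_lit 11137528151) (nat_lit 9) (nat_lit 4) (nat_lit 10) (nat_lit 5) (nat_lit 10) (nat_lit 4) (nat_lit 428) (nat_lit 316) (nat_lit 276)) (XT.nd (nat_lit 78) (nat_lit 152) (nat_lit 0) (XT.lf (nat_lit 0) (nat_lit 54099298263) (nat_lit 76) (nat_lit 9463300030)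 (nat_lit 76) (nat_lit 1786571268) (nat_lit 9) (nat_lit 4) (nat_lit 10) (nat_lit 5) (nat_lit 10) (nat_lit 4) (nat_lit 429) (nat_lit 316) (nat_lit 275)) (XT.lf (nat_lit 0) (nat_lit 7852456692) (nat_lit 152) (nat_lit 60116999758) (nat_lit 0) (nat_lit 343797592) (nat_lit 7) (nat_lit 5) (nat_lit 9) (nat_lit 4) (nat_lit 7) (nat_lit 4) (nat_lit 430) (nat_lit 316) (nat_lit 274)))) (XT.nd (nat_lit 156) (nat_lit 76) (nat_lit 0) (XT.nd (nat_lit 78) (nat_lit 0) (nat_lit 0) (XT.lf (nat_lit 0) (nat_lit 18046471539) (nat_lit 152) (nat_lit 42890311256) (nat_lit 0) (nat_lit 10484932077) (nat_lit 7) (nat_lit 5) (nat_lit 9) (nat_lit 4) (nat_lit 7) (nat_lit 4) (nat_lit 431) (nat_lit 316) (nat_lit 273)) (XT.lf (nat_lit 0) (nat_lit 28652255284) (nat_lit 152) (nat_lit 24995930058) (nat_lit 0) (nat_lit 21040353573) (nat_lit 7) (nat_lit 5) (nat_lit 9) (nat_lit 4) (nat_lit 7) (nat_lit 4) (nat_lit 432) (nat_lit 316) (nat_lit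 272))) (XT.nd (nat_lit 78) (nat_lit 76) (nat_lit 0) (XT.lf (nat_lit 0) (nat_lit 39695059792) (nat_lit 152) (nat_lit 6391250493) (nat_lit 0) (nat_lit 32035194035) (nat_lit 7) (nat_lit 5) (nat_lit 9) (nat_lit 4) (nat_lit 7) (nat_lit 4) (nat_lit 433) (nat_lit 316) (nat_lit 271)) (XT.lf (nat_lit 0) (nat_lit 13226113403) (nat_lit 76) (nat_lit 38102201546) (nat_lit 76) (nat_lit 30396655743) (nat_lit 6) (nat_lit 4) (nat_lit 7) (nat_lit 5) (nat_lit 7) (nat_lit 4) (nat_lit 434) (nat_lit 316) (nat_lit 270))))))) (XT.nd (nat_lit 49920) (nat_lit 0) (nat_lit 1672) (XT.nd (nat_lit 49452) (nat_lit 0) (nat_lit 3268) (XT.nd (nat_lit 234) (nat_lit 152) (nat_lit 0) (XT.nd (nat_lit 78) (nat_lit 0) (nat_lit 0) (XT.lf (nat_lit 0) (nat_lit 33787299726) (nat_lit 76) (nat_lit 29735488262) (nat_lit 76) (nat_lit 21986437655) (nat_lit 6) (nat_lit 4) (nat_lit 7) (nat_lit 5) (nat_lit 7) (nat_lit 4) (nat_lit 435) (nat_lit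 316) (nat_lit 269)) (XT.nd (nat_lit 78) (nat_lit 0) (nat_lit 0) (XT.lf (nat_lit 0) (nat_lit 55214065264) (nat_lit 76) (nat_lit 21030788786) (nat_lit 76) (nat_lit 13240305032) (nat_lit 6) (nat_lit 4) (nat_lit 7) (nat_lit 5) (nat_lit 7) (nat_lit 4) (nat_lit 436) (nat_lit 316) (nat_lit 268)) (XT.lf (nat_lit 0) (nat_lit 77557426124) (nat_lit 76) (nat_lit 11967377643) (nat_lit 76) (nat_lit 4137433749) (nat_lit 6) (nat_lit 4) (nat_lit 7) (nat_lit 5) (nat_lit 7) (nat_lit 4) (nat_lit 437) (nat_lit 316) (nat_lit 267)))) (XT.nd (nat_lit 49062) (nat_lit 0) (nat_lit 4332) (XT.lf (nat_lit 0) (nat_lit 2823910730) (nat_lit 76) (nat_lit 2442806368) (nat_lit 152) (nat_lit 92781333870) (nat_lit 4) (nat_lit 5) (nat_lit 5) (nat_lit 5) (nat_lit 6) (nat_lit 4) (nat_lit 438) (nat_lit 316) (nat_lit 266)) (XT.nd (nat_lit 78) (nat_lit 380) (nat_lit 0) (XT.lf (nat_lit 0) (nat_lit 2955056175) (nat_lit 228) (nat_lit 826893903)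 (nat_lit 0) (nat_lit 2955056175) (nat_lit 66) (nat_lit 5) (nat_lit 69) (nat_lit 4) (nat_lit 66) (nat_lit 4) (nat_lit 386) (nat_lit 317) (nat_lit 317)) (XT.lf (nat_lit 0) (nat_lit 1606208699) (nat_lit 228) (nat_lit 11324642459) (nat_lit 0) (nat_lit 914648689) (nat_lit 61) (nat_lit 5) (nat_lit 64) (nat_lit 4) (nat_lit 61) (nat_lit 4) (nat_lit 387) (nat_lit 317) (nat_lit 316))))) (XT.nd (nat_lit 234) (nat_lit 532) (nat_lit 0) (XT.nd (nat_lit 78) (nat_lit 380) (nat_lit 0) (XT.lf (nat_lit 0) (nat_lit 6551272629) (nat_lit 152) (nat_lit 4516292262) (nat_lit 152) (nat_lit 3166103671) (nat_lit 59) (nat_lit 4) (nat_lit 61) (nat_lit 5) (nat_lit 61) (nat_lit 4) (nat_lit 388) (nat_lit 317) (nat_lit 315)) (XT.nd (nat_lit 78) (nat_lit 228) (nat_lit 0) (XT.lf (nat_lit 0) (nat_lit 6177058147) (nat_lit 152) (nat_lit 4206966983) (nat_lit 0) (nat_lit 4257199985) (nat_lit 57) (nat_lit 5) (nat_lit 59) (nat_lit 4)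 (nat_lit 57) (nat_lit 4) (nat_lit 389) (nat_lit 317) (nat_lit 314)) (XT.lf (nat_lit 0) (nat_lit 786345312) (nat_lit 228) (nat_lit 903572844) (nat_lit 76) (nat_lit 13379599753) (nat_lit 54) (nat_lit 5) (nat_lit 57) (nat_lit 5) (nat_lit 55) (nat_lit 4) (nat_lit 390) (nat_lit 317) (nat_lit 313)))) (XT.nd (nat_lit 78) (nat_lit 304) (nat_lit 0) (XT.lf (nat_lit 0) (nat_lit 2173954289) (nat_lit 152) (nat_lit 8153016045) (nat_lit 152) (nat_lit 5189685310) (nat_lit 51) (nat_lit 4) (nat_lit 53) (nat_lit 5) (nat_lit 53) (nat_lit 4) (nat_lit 391) (nat_lit 317) (nat_lit 312)) (XT.nd (nat_lit 78) (nat_lit 152) (nat_lit 0) (XT.lf (nat_lit 0) (nat_lit 4215613963) (nat_lit 152) (nat_lit 10928316186) (nat_lit 0) (nat_lit 842719416) (nat_lit 49) (nat_lit 5) (nat_lit 51) (nat_lit 4) (nat_lit 49) (nat_lit 4) (nat_lit 392) (nat_lit 317) (nat_lit 311)) (XT.lf (nat_lit 0) (nat_lit 7633025113) (nat_lit 152) (nat_lit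 6345457101) (nat_lit 152) (nat_lit 2500301205) (nat_lit 47) (nat_lit 4) (nat_lit 49) (nat_lit 5) (nat_lit 49) (nat_lit 4) (nat_lit 393) (nat_lit 317) (nat_lit 310)))))) (XT.nd (nat_lit 468) (nat_lit 684) (nat_lit 0) (XT.nd (nat_lit 234) (nat_lit 456) (nat_lit 0) (XT.nd (nat_lit 78) (nat_lit 304) (nat_lit 0) (XT.lf (nat_lit 0) (nat_lit 7035393430) (nat_lit 152) (nat_lit 7094226259) (nat_lit 0) (nat_lit 2865559828) (nat_lit 45) (nat_lit 5) (nat_lit 47) (nat_lit 4) (nat_lit 45) (nat_lit 4) (nat_lit 394) (nat_lit 317) (nat_lit 309)) (XT.nd (nat_lit 78) (nat_lit 152) (nat_lit 0) (XT.lf (nat_lit 0) (nat_lit 11833676708) (nat_lit 152) (nat_lit 5144621244) (nat_lit 152) (nat_lit 558909035) (nat_lit 43) (nat_lit 4) (nat_lit 45) (nat_lit 5) (nat_lit 45) (nat_lit 4) (nat_lit 395) (nat_lit 317) (nat_lit 308)) (XT.lf (nat_lit 0) (nat_lit 9092262155) (nat_lit 152) (nat_lit 4756970689) (nat_lit 0) (nat_lit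 4255575678) (nat_lit 41) (nat_lit 5) (nat_lit 43) (nat_lit 4) (nat_lit 41) (nat_lit 4) (nat_lit 396) (nat_lit 317) (nat_lit 307)))) (XT.nd (nat_lit 78) (nat_lit 228) (nat_lit 0) (XT.lf (nat_lit 0) (nat_lit 477863516) (nat_lit 228) (nat_lit 4232850875) (nat_lit 76) (nat_lit 13990554762) (nat_lit 38) (nat_lit 5) (nat_lit 41) (nat_lit 5) (nat_lit 39) (nat_lit 4) (nat_lit 397) (nat_lit 317) (nat_lit 306)) (XT.nd (nat_lit 78) (nat_lit 152) (nat_lit 0) (XT.lf (nat_lit 0) (nat_lit 10229861262) (nat_lit 152) (nat_lit 4255966070) (nat_lit 0) (nat_lit 4839859561) (nat_lit 37) (nat_lit 5) (nat_lit 39) (nat_lit 4) (nat_lit 37) (nat_lit 4) (nat_lit 398) (nat_lit 317) (nat_lit 305)) (XT.lf (nat_lit 0) (nat_lit 451205131) (nat_lit 152) (nat_lit 4796559158) (nat_lit 76) (nat_lit 14734256322) (nat_lit 35) (nat_lit 5) (nat_lit 37) (nat_lit 5) (nat_lit 36) (nat_lit 4) (nat_lit 399) (nat_lit 317) (nat_lit 304)))))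 (XT.nd (nat_lit 234) (nat_lit 380) (nat_lit 0) (XT.nd (nat_lit 78) (nat_lit 228) (nat_lit 0) (XT.lf (nat_lit 0) (nat_lit 10258876547) (nat_lit 152) (nat_lit 5995909608) (nat_lit 0) (nat_lit 4414554099) (nat_lit 34) (nat_lit 5) (nat_lit 36) (nat_lit 4) (nat_lit 34) (nat_lit 4) (nat_lit 400) (nat_lit 317) (nat_lit 303)) (XT.nd (nat_lit 78) (nat_lit 152) (nat_lit 0) (XT.lf (nat_lit 0) (nat_lit 13552448362) (nat_lit 76) (nat_lit 6983767219) (nat_lit 76) (nat_lit 855444266) (nat_lit 33) (nat_lit 4) (nat_lit 34) (nat_lit 5) (nat_lit 34) (nat_lit 4) (nat_lit 401) (nat_lit 317) (nat_lit 302)) (XT.lf (nat_lit 0) (nat_lit 8951343982) (nat_lit 152) (nat_lit 10458606264) (nat_lit 0) (nat_lit 2738917163) (nat_lit 31) (nat_lit 5) (nat_lit 33) (nat_lit 4) (nat_lit 31) (nat_lit 4) (nat_lit 402) (nat_lit 317) (nat_lit 301)))) (XT.nd (nat_lit 156) (nat_lit 152) (nat_lit 0) (XT.nd (nat_lit 78) (nat_lit 152) (nat_lit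 0) (XT.lf (nat_lit 0) (nat_lit 9046491979) (nat_lit 76) (nat_lit 10179925979) (nat_lit 76) (nat_lit 3717405151) (nat_lit 30) (nat_lit 4) (nat_lit 31) (nat_lit 5) (nat_lit 31) (nat_lit 4) (nat_lit 403) (nat_lit 317) (nat_lit 300)) (XT.lf (nat_lit 0) (nat_lit 5557582986) (nat_lit 76) (nat_lit 480982819) (nat_lit 152) (nat_lit 17740465994) (nat_lit 28) (nat_lit 5) (nat_lit 29) (nat_lit 5) (nat_lit 30) (nat_lit 4) (nat_lit 404) (nat_lit 317) (nat_lit 299))) (XT.nd (nat_lit 78) (nat_lit 76) (nat_lit 0) (XT.lf (nat_lit 0) (nat_lit 1060786112) (nat_lit 76) (nat_lit 15159721838) (nat_lit 76) (nat_lit 8433946849) (nat_lit 27) (nat_lit 4) (nat_lit 28) (nat_lit 5) (nat_lit 28) (nat_lit 4) (nat_lit 405) (nat_lit 317) (nat_lit 298)) (XT.lf (nat_lit 0) (nat_lit 1277125151) (nat_lit 152) (nat_lit 4342959094) (nat_lit 76) (nat_lit 19954227815) (nat_lit 26) (nat_lit 5) (nat_lit 28) (nat_lit 5) (nat_lit 27) (nat_lit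 4) (nat_lit 406) (nat_lit 317) (nat_lit 297))))))))
noncomputable def xc14 : XT := (XT.nd (nat_lit 1950) (nat_lit 76) (nat_lit 0) (XT.nd (nat_lit 936) (nat_lit 608) (nat_lit 0) (XT.nd (nat_lit 468) (nat_lit 380) (nat_lit 0) (XT.nd (nat_lit 234) (nat_lit 152) (nat_lit 0) (XT.nd (nat_lit 78) (nat_lit 228) (nat_lit 0) (XT.lf (nat_lit 0) (nat_lit 11276148031) (nat_lit 152) (nat_lit 10913524312) (nat_lit 0) (nat_lit 4348688509) (nat_lit 25) (nat_lit 5) (nat_lit 27) (nat_lit 4) (nat_lit 25) (nat_lit 4) (nat_lit 407) (nat_lit 317) (nat_lit 296)) (XT.nd (nat_lit 78) (nat_lit 152) (nat_lit 0) (XT.lf (nat_lit 0) (nat_lit 8833194568) (nat_lit 76) (nat_lit 12915196825) (nat_lit 76) (nat_lit 5803030732) (nat_lit 24) (nat_lit 4) (nat_lit 25) (nat_lit 5) (nat_lit 25) (nat_lit 4) (nat_lit 408) (nat_lit 317) (nat_lit 295)) (XT.lf (nat_lit 0) (nat_lit 750584422) (nat_lit 76) (nat_lit 3209347367) (nat_lit 152)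 (nat_lit 24656679583) (nat_lit 22) (nat_lit 5) (nat_lit 23) (nat_lit 5) (nat_lit 24) (nat_lit 4) (nat_lit 409) (nat_lit 317) (nat_lit 294)))) (XT.nd (nat_lit 78) (nat_lit 152) (nat_lit 0) (XT.lf (nat_lit 0) (nat_lit 14148895191) (nat_lit 152) (nat_lit 8672274816) (nat_lit 0) (nat_lit 6910437505) (nat_lit 22) (nat_lit 5) (nat_lit 24) (nat_lit 4) (nat_lit 22) (nat_lit 4) (nat_lit 410) (nat_lit 317) (nat_lit 293)) (XT.nd (nat_lit 78) (nat_lit 76) (nat_lit 0) (XT.lf (nat_lit 0) (nat_lit 11288678026) (nat_lit 76) (nat_lit 13504338915) (nat_lit 76) (nat_lit 6110972025) (nat_lit 21) (nat_lit 4) (nat_lit 22) (nat_lit 5) (nat_lit 22) (nat_lit 4) (nat_lit 411) (nat_lit 317) (nat_lit 292)) (XT.lf (nat_lit 0) (nat_lit 3658355617) (nat_lit 152) (nat_lit 114437561) (nat_lit 76) (nat_lit 28364132195) (nat_lit 20) (nat_lit 5) (nat_lit 22) (nat_lit 5) (nat_lit 21) (nat_lit 4) (nat_lit 412) (nat_lit 317) (nat_lit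 291))))) (XT.nd (nat_lit 234) (nat_lit 228) (nat_lit 0) (XT.nd (nat_lit 78) (nat_lit 76) (nat_lit 0) (XT.lf (nat_lit 0) (nat_lit 13867086084) (nat_lit 152) (nat_lit 13150884057) (nat_lit 0) (nat_lit 6409409696) (nat_lit 19) (nat_lit 5) (nat_lit 21) (nat_lit 4) (nat_lit 19) (nat_lit 4) (nat_lit 413) (nat_lit 317) (nat_lit 290)) (XT.nd (nat_lit 78) (nat_lit 0) (nat_lit 0) (XT.lf (nat_lit 0) (nat_lit 6649699876) (nat_lit 76) (nat_lit 17861258461) (nat_lit 76) (nat_lit 10273663242) (nat_lit 18) (nat_lit 4) (nat_lit 19) (nat_lit 5) (nat_lit 19) (nat_lit 4) (nat_lit 414) (nat_lit 317) (nat_lit 289)) (XT.lf (nat_lit 0) (nat_lit 27376118364) (nat_lit 76) (nat_lit 8273037979) (nat_lit 76) (nat_lit 561710542) (nat_lit 18) (nat_lit 4) (nat_lit 19) (nat_lit 5) (nat_lit 19) (nat_lit 4) (nat_lit 415) (nat_lit 317) (nat_lit 288)))) (XT.nd (nat_lit 78) (nat_lit 76) (nat_lit 0) (XT.lf (nat_lit 0) (nat_lit 9406836322)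 (nat_lit 152) (nat_lit 26494340919) (nat_lit 0) (nat_lit 1805702685) (nat_lit 16) (nat_lit 5) (nat_lit 18) (nat_lit 4) (nat_lit 16) (nat_lit 4) (nat_lit 416) (nat_lit 317) (nat_lit 287)) (XT.nd (nat_lit 78) (nat_lit 76) (nat_lit 0) (XT.lf (nat_lit 0) (nat_lit 19874414546) (nat_lit 152) (nat_lit 7238429449) (nat_lit 0) (nat_lit 12164320939) (nat_lit 16) (nat_lit 5) (nat_lit 18) (nat_lit 4) (nat_lit 16) (nat_lit 4) (nat_lit 417) (nat_lit 317) (nat_lit 286)) (XT.lf (nat_lit 0) (nat_lit 12927585474) (nat_lit 76) (nat_lit 17906592057) (nat_lit 76) (nat_lit 10092727049) (nat_lit 15) (nat_lit 4) (nat_lit 16) (nat_lit 5) (nat_lit 16) (nat_lit 4) (nat_lit 418) (nat_lit 317) (nat_lit 285)))))) (XT.nd (nat_lit 468) (nat_lit 304) (nat_lit 0) (XT.nd (nat_lit 234) (nat_lit 152) (nat_lit 0) (XT.nd (nat_lit 78) (nat_lit 152) (nat_lit 0) (XT.lf (nat_lit 0) (nat_lit 33956948652) (nat_lit 76) (nat_lit 8308586806)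 (nat_lit 76) (nat_lit 395891892) (nat_lit 15) (nat_lit 4) (nat_lit 16) (nat_lit 5) (nat_lit 16) (nat_lit 4) (nat_lit 419) (nat_lit 317) (nat_lit 284)) (XT.nd (nat_lit 78) (nat_lit 0) (nat_lit 0) (XT.lf (nat_lit 0) (nat_lit 9576930225) (nat_lit 152) (nat_lit 33100145109) (nat_lit 0) (nat_lit 1803319901) (nat_lit 13) (nat_lit 5) (nat_lit 15) (nat_lit 4) (nat_lit 13) (nat_lit 4) (nat_lit 420) (nat_lit 317) (nat_lit 283)) (XT.lf (nat_lit 0) (nat_lit 20072431141) (nat_lit 152) (nat_lit 14105009748) (nat_lit 0) (nat_lit 12211790101) (nat_lit 13) (nat_lit 5) (nat_lit 15) (nat_lit 4) (nat_lit 13) (nat_lit 4) (nat_lit 421) (nat_lit 317) (nat_lit 282)))) (XT.nd (nat_lit 78) (nat_lit 76) (nat_lit 0) (XT.lf (nat_lit 0) (nat_lit 5684370456) (nat_lit 76) (nat_lit 25327546432) (nat_lit 76) (nat_lit 17384018995) (nat_lit 12) (nat_lit 4) (nat_lit 13) (nat_lit 5) (nat_lit 13) (nat_lit 4) (nat_lit 422) (nat_lit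 317) (nat_lit 281)) (XT.nd (nat_lit 78) (nat_lit 76) (nat_lit 0) (XT.lf (nat_lit 0) (nat_lit 26499175716) (nat_lit 76) (nat_lit 16012929396) (nat_lit 76) (nat_lit 7990462535) (nat_lit 12) (nat_lit 4) (nat_lit 13) (nat_lit 5) (nat_lit 13) (nat_lit 4) (nat_lit 423) (nat_lit 317) (nat_lit 280)) (XT.lf (nat_lit 0) (nat_lit 1709774339) (nat_lit 152) (nat_lit 4626805357) (nat_lit 76) (nat_lit 46381208032) (nat_lit 11) (nat_lit 5) (nat_lit 13) (nat_lit 5) (nat_lit 12) (nat_lit 4) (nat_lit 424) (nat_lit 317) (nat_lit 279))))) (XT.nd (nat_lit 234) (nat_lit 228) (nat_lit 0) (XT.nd (nat_lit 78) (nat_lit 0) (nat_lit 0) (XT.lf (nat_lit 0) (nat_lit 11799787637) (nat_lit 152) (nat_lit 39371031004) (nat_lit 0) (nat_lit 3868479237) (nat_lit 10) (nat_lit 5) (nat_lit 12) (nat_lit 4) (nat_lit 10) (nat_lit 4) (nat_lit 425) (nat_lit 317) (nat_lit 278)) (XT.nd (nat_lit 78) (nat_lit 0) (nat_lit 0) (XT.lf (nat_lit 0)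 (nat_lit 22388357686) (nat_lit 152) (nat_lit 20697862493) (nat_lit 0) (nat_lit 14390844584) (nat_lit 10) (nat_lit 5) (nat_lit 12) (nat_lit 4) (nat_lit 10) (nat_lit 4) (nat_lit 426) (nat_lit 317) (nat_lit 277)) (XT.lf (nat_lit 0) (nat_lit 33393974334) (nat_lit 152) (nat_lit 1312710755) (nat_lit 0) (nat_lit 25333409134) (nat_lit 10) (nat_lit 5) (nat_lit 12) (nat_lit 4) (nat_lit 10) (nat_lit 4) (nat_lit 427) (nat_lit 317) (nat_lit 276)))) (XT.nd (nat_lit 156) (nat_lit 152) (nat_lit 0) (XT.nd (nat_lit 78) (nat_lit 0) (nat_lit 0) (XT.lf (nat_lit 0) (nat_lit 19205344783) (nat_lit 76) (nat_lit 25822110167) (nat_lit 76) (nat_lit 17701495351) (nat_lit 9) (nat_lit 4) (nat_lit 10) (nat_lit 5) (nat_lit 10) (nat_lit 4) (nat_lit 428) (nat_lit 317) (nat_lit 275)) (XT.lf (nat_lit 0) (nat_lit 40571667347) (nat_lit 76) (nat_lit 16580550516) (nat_lit 76) (nat_lit 8402745588) (nat_lit 9) (nat_lit 4) (nat_lit 10)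 (nat_lit 5) (nat_lit 10) (nat_lit 4) (nat_lit 429) (nat_lit 317) (nat_lit 274))) (XT.nd (nat_lit 78) (nat_lit 76) (nat_lit 0) (XT.lf (nat_lit 0) (nat_lit 1234445586) (nat_lit 152) (nat_lit 5726347160) (nat_lit 76) (nat_lit 61564092548) (nat_lit 8) (nat_lit 5) (nat_lit 10) (nat_lit 5) (nat_lit 9) (nat_lit 4) (nat_lit 430) (nat_lit 317) (nat_lit 273)) (XT.lf (nat_lit 0) (nat_lit 11257080897) (nat_lit 152) (nat_lit 57167185843) (nat_lit 0) (nat_lit 3214221851) (nat_lit 7) (nat_lit 5) (nat_lit 9) (nat_lit 4) (nat_lit 7) (nat_lit 4) (nat_lit 431) (nat_lit 317) (nat_lit 272))))))) (XT.nd (nat_lit 49764) (nat_lit 0) (nat_lit 2052) (XT.nd (nat_lit 468) (nat_lit 0) (nat_lit 0) (XT.nd (nat_lit 234) (nat_lit 76) (nat_lit 0) (XT.nd (nat_lit 78) (nat_lit 0) (nat_lit 0) (XT.lf (nat_lit 0) (nat_lit 21817367850) (nat_lit 152) (nat_lit 39362765958) (nat_lit 0) (nat_lit 13726544757) (nat_lit 7) (nat_lit 5) (nat_lit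 9) (nat_lit 4) (nat_lit 7) (nat_lit 4) (nat_lit 432) (nat_lit 317) (nat_lit 271)) (XT.nd (nat_lit 78) (nat_lit 0) (nat_lit 0) (XT.lf (nat_lit 0) (nat_lit 32816842080) (nat_lit 152) (nat_lit 20843763836) (nat_lit 0) (nat_lit 24680338943) (nat_lit 7) (nat_lit 5) (nat_lit 9) (nat_lit 4) (nat_lit 7) (nat_lit 4) (nat_lit 433) (nat_lit 317) (nat_lit 270)) (XT.lf (nat_lit 0) (nat_lit 44281692813) (nat_lit 152) (nat_lit 1566086614) (nat_lit 0) (nat_lit 36101684871) (nat_lit 7) (nat_lit 5) (nat_lit 9) (nat_lit 4) (nat_lit 7) (nat_lit 4) (nat_lit 434) (nat_lit 317) (nat_lit 269)))) (XT.nd (nat_lit 78) (nat_lit 0) (nat_lit 0) (XT.lf (nat_lit 0) (nat_lit 18884672928) (nat_lit 76) (nat_lit 37536075411) (nat_lit 76) (nat_lit 29314634323) (nat_lit 6) (nat_lit 4) (nat_lit 7) (nat_lit 5) (nat_lit 7) (nat_lit 4) (nat_lit 435) (nat_lit 317) (nat_lit 268)) (XT.nd (nat_lit 78) (nat_lit 0) (nat_lit 0) (XT.lf (nat_lit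 0) (nat_lit 40235954098) (nat_lit 76) (nat_lit 28868704378) (nat_lit 76) (nat_lit 20607803149) (nat_lit 6) (nat_lit 4) (nat_lit 7) (nat_lit 5) (nat_lit 7) (nat_lit 4) (nat_lit 436) (nat_lit 317) (nat_lit 267)) (XT.lf (nat_lit 0) (nat_lit 62507425084) (nat_lit 76) (nat_lit 19840844132) (nat_lit 76) (nat_lit 11542361818) (nat_lit 6) (nat_lit 4) (nat_lit 7) (nat_lit 5) (nat_lit 7) (nat_lit 4) (nat_lit 437) (nat_lit 317) (nat_lit 266))))) (XT.nd (nat_lit 49062) (nat_lit 0) (nat_lit 4028) (XT.nd (nat_lit 48906) (nat_lit 0) (nat_lit 4788) (XT.lf (nat_lit 0) (nat_lit 85752113199) (nat_lit 76) (nat_lit 10430999770) (nat_lit 76) (nat_lit 2096725946) (nat_lit 6) (nat_lit 4) (nat_lit 7) (nat_lit 5) (nat_lit 7) (nat_lit 4) (nat_lit 438) (nat_lit 317) (nat_lit 265)) (XT.nd (nat_lit 78) (nat_lit 152) (nat_lit 0) (XT.lf (nat_lit 0) (nat_lit 718853203) (nat_lit 228) (nat_lit 4951519781) (nat_lit 0) (nat_lit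 718853203) (nat_lit 71) (nat_lit 5) (nat_lit 74) (nat_lit 4) (nat_lit 71) (nat_lit 4) (nat_lit 384) (nat_lit 318) (nat_lit 318)) (XT.lf (nat_lit 0) (nat_lit 7252731045) (nat_lit 152) (nat_lit 3318925481) (nat_lit 152) (nat_lit 2548565666) (nat_lit 69) (nat_lit 4) (nat_lit 71) (nat_lit 5) (nat_lit 71) (nat_lit 4) (nat_lit 385) (nat_lit 318) (nat_lit 317)))) (XT.nd (nat_lit 78) (nat_lit 532) (nat_lit 0) (XT.lf (nat_lit 0) (nat_lit 6499383045) (nat_lit 228) (nat_lit 1940250203) (nat_lit 0) (nat_lit 5039154084) (nat_lit 66) (nat_lit 5) (nat_lit 69) (nat_lit 4) (nat_lit 66) (nat_lit 4) (nat_lit 386) (nat_lit 318) (nat_lit 316)) (XT.nd (nat_lit 78) (nat_lit 152) (nat_lit 0) (XT.lf (nat_lit 0) (nat_lit 1934501975) (nat_lit 152) (nat_lit 71960278) (nat_lit 228) (nat_lit 11848843090) (nat_lit 61) (nat_lit 5) (nat_lit 63) (nat_lit 5) (nat_lit 64) (nat_lit 4) (nat_lit 387) (nat_lit 318) (nat_lit 315)) (XT.lf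 (nat_lit 0) (nat_lit 5661806013) (nat_lit 152) (nat_lit 5645051128) (nat_lit 152) (nat_lit 2941459211) (nat_lit 59) (nat_lit 4) (nat_lit 61) (nat_lit 5) (nat_lit 61) (nat_lit 4) (nat_lit 388) (nat_lit 318) (nat_lit 314)))))) (XT.nd (nat_lit 468) (nat_lit 912) (nat_lit 0) (XT.nd (nat_lit 234) (nat_lit 456) (nat_lit 0) (XT.nd (nat_lit 78) (nat_lit 456) (nat_lit 0) (XT.lf (nat_lit 0) (nat_lit 6225096970) (nat_lit 152) (nat_lit 5415635474) (nat_lit 0) (nat_lit 3020254780) (nat_lit 57) (nat_lit 5) (nat_lit 59) (nat_lit 4) (nat_lit 57) (nat_lit 4) (nat_lit 389) (nat_lit 318) (nat_lit 313)) (XT.nd (nat_lit 78) (nat_lit 228) (nat_lit 0) (XT.lf (nat_lit 0) (nat_lit 652848123) (nat_lit 228) (nat_lit 2431937324) (nat_lit 76) (nat_lit 12009334583) (nat_lit 54) (nat_lit 5) (nat_lit 57) (nat_lit 5) (nat_lit 55) (nat_lit 4) (nat_lit 390) (nat_lit 318) (nat_lit 312)) (XT.lf (nat_lit 0) (nat_lit 296391236) (nat_lit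 152) (nat_lit 9704594111) (nat_lit 152) (nat_lit 5546058009) (nat_lit 51) (nat_lit 4) (nat_lit 53) (nat_lit 5) (nat_lit 53) (nat_lit 4) (nat_lit 391) (nat_lit 318) (nat_lit 311)))) (XT.nd (nat_lit 78) (nat_lit 304) (nat_lit 0) (XT.lf (nat_lit 0) (nat_lit 2853381519) (nat_lit 76) (nat_lit 840385382) (nat_lit 152) (nat_lit 12328556131) (nat_lit 49) (nat_lit 5) (nat_lit 50) (nat_lit 5) (nat_lit 51) (nat_lit 4) (nat_lit 392) (nat_lit 318) (nat_lit 310)) (XT.nd (nat_lit 78) (nat_lit 152) (nat_lit 0) (XT.lf (nat_lit 0) (nat_lit 5089704917) (nat_lit 152) (nat_lit 8194688314) (nat_lit 152) (nat_lit 3235240560) (nat_lit 47) (nat_lit 4) (nat_lit 49) (nat_lit 5) (nat_lit 49) (nat_lit 4) (nat_lit 393) (nat_lit 318) (nat_lit 309)) (XT.lf (nat_lit 0) (nat_lit 6130894527) (nat_lit 152) (nat_lit 10010855148) (nat_lit 0) (nat_lit 900018101) (nat_lit 45) (nat_lit 5) (nat_lit 47) (nat_lit 4) (nat_lit 45) (nat_lit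 4) (nat_lit 394) (nat_lit 318) (nat_lit 308))))) (XT.nd (nat_lit 234) (nat_lit 456) (nat_lit 0) (XT.nd (nat_lit 78) (nat_lit 304) (nat_lit 0) (XT.lf (nat_lit 0) (nat_lit 8602073985) (nat_lit 152) (nat_lit 7306814187) (nat_lit 152) (nat_lit 1679862897) (nat_lit 43) (nat_lit 4) (nat_lit 45) (nat_lit 5) (nat_lit 45) (nat_lit 4) (nat_lit 395) (nat_lit 318) (nat_lit 307)) (XT.nd (nat_lit 78) (nat_lit 152) (nat_lit 0) (XT.lf (nat_lit 0) (nat_lit 7805207352) (nat_lit 152) (nat_lit 8381195099) (nat_lit 0) (nat_lit 1975920511) (nat_lit 41) (nat_lit 5) (nat_lit 43) (nat_lit 4) (nat_lit 41) (nat_lit 4) (nat_lit 396) (nat_lit 318) (nat_lit 306)) (XT.lf (nat_lit 0) (nat_lit 10529097580) (nat_lit 152) (nat_lit 7206447172) (nat_lit 152) (nat_lit 1028372393) (nat_lit 39) (nat_lit 4) (nat_lit 41) (nat_lit 5) (nat_lit 41) (nat_lit 4) (nat_lit 397) (nat_lit 318) (nat_lit 305)))) (XT.nd (nat_lit 156) (nat_lit 228)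 (nat_lit 0) (XT.nd (nat_lit 78) (nat_lit 76) (nat_lit 0) (XT.lf (nat_lit 0) (nat_lit 8550962742) (nat_lit 152) (nat_lit 8613129501) (nat_lit 0) (nat_lit 2230328015) (nat_lit 37) (nat_lit 5) (nat_lit 39) (nat_lit 4) (nat_lit 37) (nat_lit 4) (nat_lit 398) (nat_lit 318) (nat_lit 304)) (XT.lf (nat_lit 0) (nat_lit 10507202385) (nat_lit 76) (nat_lit 8088255804) (nat_lit 76) (nat_lit 1460474531) (nat_lit 36) (nat_lit 4) (nat_lit 37) (nat_lit 5) (nat_lit 37) (nat_lit 4) (nat_lit 399) (nat_lit 318) (nat_lit 303))) (XT.nd (nat_lit 78) (nat_lit 76) (nat_lit 0) (XT.lf (nat_lit 0) (nat_lit 8177524381) (nat_lit 152) (nat_lit 11113315616) (nat_lit 0) (nat_lit 1458784777) (nat_lit 34) (nat_lit 5) (nat_lit 36) (nat_lit 4) (nat_lit 34) (nat_lit 4) (nat_lit 400) (nat_lit 318) (nat_lit 302)) (XT.lf (nat_lit 0) (nat_lit 8102841563) (nat_lit 76) (nat_lit 10181717014) (nat_lit 76) (nat_lit 3192500738) (nat_lit 33)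 (nat_lit 4) (nat_lit 34) (nat_lit 5) (nat_lit 34) (nat_lit 4) (nat_lit 401) (nat_lit 318) (nat_lit 301))))))))
noncomputable def xc15 : XT := (XT.nd (nat_lit 1950) (nat_lit 304) (nat_lit 0) (XT.nd (nat_lit 936) (nat_lit 684) (nat_lit 0) (XT.nd (nat_lit 468) (nat_lit 456) (nat_lit 0) (XT.nd (nat_lit 234) (nat_lit 304) (nat_lit 0) (XT.nd (nat_lit 78) (nat_lit 152) (nat_lit 0) (XT.lf (nat_lit 0) (nat_lit 5869565151) (nat_lit 76) (nat_lit 591704925) (nat_lit 152) (nat_lit 15779634776) (nat_lit 31) (nat_lit 5) (nat_lit 32) (nat_lit 5) (nat_lit 33) (nat_lit 4) (nat_lit 402) (nat_lit 318) (nat_lit 300)) (XT.nd (nat_lit 78) (nat_lit 76) (nat_lit 0) (XT.lf (nat_lit 0) (nat_lit 2799839690) (nat_lit 76) (nat_lit 13757658498) (nat_lit 76) (nat_lit 6483732848) (nat_lit 30) (nat_lit 4) (nat_lit 31) (nat_lit 5) (nat_lit 31) (nat_lit 4) (nat_lit 403) (nat_lit 318) (nat_lit 299)) (XT.lf (nat_lit 0) (nat_lit 3161946828)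 (nat_lit 152) (nat_lit 1082016227) (nat_lit 76) (nat_lit 19638207314) (nat_lit 29) (nat_lit 5) (nat_lit 31) (nat_lit 5) (nat_lit 30) (nat_lit 4) (nat_lit 404) (nat_lit 318) (nat_lit 298)))) (XT.nd (nat_lit 78) (nat_lit 228) (nat_lit 0) (XT.lf (nat_lit 0) (nat_lit 13178279742) (nat_lit 152) (nat_lit 5898054134) (nat_lit 0) (nat_lit 5686232269) (nat_lit 28) (nat_lit 5) (nat_lit 30) (nat_lit 4) (nat_lit 28) (nat_lit 4) (nat_lit 405) (nat_lit 318) (nat_lit 297)) (XT.nd (nat_lit 78) (nat_lit 152) (nat_lit 0) (XT.lf (nat_lit 0) (nat_lit 13964213676) (nat_lit 76) (nat_lit 9707645772) (nat_lit 76) (nat_lit 2015838142) (nat_lit 27) (nat_lit 4) (nat_lit 28) (nat_lit 5) (nat_lit 28) (nat_lit 4) (nat_lit 406) (nat_lit 318) (nat_lit 296)) (XT.lf (nat_lit 0) (nat_lit 7806000609) (nat_lit 152) (nat_lit 18699307030) (nat_lit 0) (nat_lit 153519641) (nat_lit 25) (nat_lit 5) (nat_lit 27) (nat_lit 4) (nat_lit 25)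 (nat_lit 4) (nat_lit 407) (nat_lit 318) (nat_lit 295))))) (XT.nd (nat_lit 234) (nat_lit 228) (nat_lit 0) (XT.nd (nat_lit 78) (nat_lit 152) (nat_lit 0) (XT.lf (nat_lit 0) (nat_lit 696054815) (nat_lit 76) (nat_lit 17404775948) (nat_lit 76) (nat_lit 9576383961) (nat_lit 24) (nat_lit 4) (nat_lit 25) (nat_lit 5) (nat_lit 25) (nat_lit 4) (nat_lit 408) (nat_lit 318) (nat_lit 294)) (XT.nd (nat_lit 78) (nat_lit 76) (nat_lit 0) (XT.lf (nat_lit 0) (nat_lit 155769944) (nat_lit 152) (nat_lit 7679713304) (nat_lit 76) (nat_lit 20911145575) (nat_lit 23) (nat_lit 5) (nat_lit 25) (nat_lit 5) (nat_lit 24) (nat_lit 4) (nat_lit 409) (nat_lit 318) (nat_lit 293)) (XT.lf (nat_lit 0) (nat_lit 10129009663) (nat_lit 152) (nat_lit 17528025109) (nat_lit 0) (nat_lit 2211065224) (nat_lit 22) (nat_lit 5) (nat_lit 24) (nat_lit 4) (nat_lit 22) (nat_lit 4) (nat_lit 410) (nat_lit 318) (nat_lit 292)))) (XT.nd (nat_lit 78) (nat_lit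 152) (nat_lit 0) (XT.lf (nat_lit 0) (nat_lit 2076449953) (nat_lit 76) (nat_lit 18517444393) (nat_lit 76) (nat_lit 10451967379) (nat_lit 21) (nat_lit 4) (nat_lit 22) (nat_lit 5) (nat_lit 22) (nat_lit 4) (nat_lit 411) (nat_lit 318) (nat_lit 291)) (XT.nd (nat_lit 78) (nat_lit 152) (nat_lit 0) (XT.lf (nat_lit 0) (nat_lit 22675553402) (nat_lit 76) (nat_lit 8906474208) (nat_lit 76) (nat_lit 700489980) (nat_lit 21) (nat_lit 4) (nat_lit 22) (nat_lit 5) (nat_lit 22) (nat_lit 4) (nat_lit 412) (nat_lit 318) (nat_lit 290)) (XT.lf (nat_lit 0) (nat_lit 9291510155) (nat_lit 152) (nat_lit 23093962329) (nat_lit 0) (nat_lit 1194616346) (nat_lit 19) (nat_lit 5) (nat_lit 21) (nat_lit 4) (nat_lit 19) (nat_lit 4) (nat_lit 413) (nat_lit 318) (nat_lit 289)))))) (XT.nd (nat_lit 468) (nat_lit 380) (nat_lit 0) (XT.nd (nat_lit 234) (nat_lit 76) (nat_lit 0) (XT.nd (nat_lit 78) (nat_lit 228) (nat_lit 0) (XT.lf (nat_lit 0)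 (nat_lit 19788541503) (nat_lit 152) (nat_lit 3585281476) (nat_lit 0) (nat_lit 11567915475) (nat_lit 19) (nat_lit 5) (nat_lit 21) (nat_lit 4) (nat_lit 19) (nat_lit 4) (nat_lit 414) (nat_lit 318) (nat_lit 288)) (XT.nd (nat_lit 78) (nat_lit 152) (nat_lit 0) (XT.lf (nat_lit 0) (nat_lit 16912287204) (nat_lit 76) (nat_lit 13898817187) (nat_lit 76) (nat_lit 5560350950) (nat_lit 18) (nat_lit 4) (nat_lit 19) (nat_lit 5) (nat_lit 19) (nat_lit 4) (nat_lit 415) (nat_lit 318) (nat_lit 287)) (XT.lf (nat_lit 0) (nat_lit 289358115) (nat_lit 76) (nat_lit 4016086772) (nat_lit 152) (nat_lit 33569476107) (nat_lit 16) (nat_lit 5) (nat_lit 17) (nat_lit 5) (nat_lit 18) (nat_lit 4) (nat_lit 416) (nat_lit 318) (nat_lit 286)))) (XT.nd (nat_lit 78) (nat_lit 76) (nat_lit 0) (XT.lf (nat_lit 0) (nat_lit 14658582902) (nat_lit 152) (nat_lit 18439805290) (nat_lit 0) (nat_lit 6350253242) (nat_lit 16) (nat_lit 5) (nat_lit 18)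 (nat_lit 4) (nat_lit 16) (nat_lit 4) (nat_lit 417) (nat_lit 318) (nat_lit 285)) (XT.nd (nat_lit 78) (nat_lit 0) (nat_lit 0) (XT.lf (nat_lit 0) (nat_lit 1358785472) (nat_lit 76) (nat_lit 24076130101) (nat_lit 76) (nat_lit 15668970536) (nat_lit 15) (nat_lit 4) (nat_lit 16) (nat_lit 5) (nat_lit 16) (nat_lit 4) (nat_lit 418) (nat_lit 318) (nat_lit 284)) (XT.lf (nat_lit 0) (nat_lit 22250534538) (nat_lit 76) (nat_lit 14545631436) (nat_lit 76) (nat_lit 6044348151) (nat_lit 15) (nat_lit 4) (nat_lit 16) (nat_lit 5) (nat_lit 16) (nat_lit 4) (nat_lit 419) (nat_lit 318) (nat_lit 283))))) (XT.nd (nat_lit 234) (nat_lit 228) (nat_lit 0) (XT.nd (nat_lit 78) (nat_lit 76) (nat_lit 0) (XT.lf (nat_lit 0) (nat_lit 3844015076) (nat_lit 152) (nat_lit 787574317) (nat_lit 76) (nat_lit 40035363794) (nat_lit 14) (nat_lit 5) (nat_lit 16) (nat_lit 5) (nat_lit 15) (nat_lit 4) (nat_lit 420) (nat_lit 318) (nat_lit 282)) (XT.nd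 (nat_lit 78) (nat_lit 0) (nat_lit 0) (XT.lf (nat_lit 0) (nat_lit 14221132233) (nat_lit 152) (nat_lit 26560667970) (nat_lit 0) (nat_lit 5797542029) (nat_lit 13) (nat_lit 5) (nat_lit 15) (nat_lit 4) (nat_lit 13) (nat_lit 4) (nat_lit 421) (nat_lit 318) (nat_lit 281)) (XT.lf (nat_lit 0) (nat_lit 25043057933) (nat_lit 152) (nat_lit 7005989384) (nat_lit 0) (nat_lit 16540528303) (nat_lit 13) (nat_lit 5) (nat_lit 15) (nat_lit 4) (nat_lit 13) (nat_lit 4) (nat_lit 422) (nat_lit 318) (nat_lit 280)))) (XT.nd (nat_lit 156) (nat_lit 152) (nat_lit 0) (XT.nd (nat_lit 78) (nat_lit 0) (nat_lit 0) (XT.lf (nat_lit 0) (nat_lit 13549151973) (nat_lit 76) (nat_lit 22864329992) (nat_lit 76) (nat_lit 14286619957) (nat_lit 12) (nat_lit 4) (nat_lit 13) (nat_lit 5) (nat_lit 13) (nat_lit 4) (nat_lit 423) (nat_lit 318) (nat_lit 279)) (XT.lf (nat_lit 0) (nat_lit 35043718306) (nat_lit 76) (nat_lit 13261581808) (nat_lit 76) (nat_lit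 4612271387) (nat_lit 12) (nat_lit 4) (nat_lit 13) (nat_lit 5) (nat_lit 13) (nat_lit 4) (nat_lit 424) (nat_lit 318) (nat_lit 278))) (XT.nd (nat_lit 78) (nat_lit 0) (nat_lit 0) (XT.lf (nat_lit 0) (nat_lit 2129498689) (nat_lit 76) (nat_lit 3213851041) (nat_lit 152) (nat_lit 49903795246) (nat_lit 10) (nat_lit 5) (nat_lit 11) (nat_lit 5) (nat_lit 12) (nat_lit 4) (nat_lit 425) (nat_lit 318) (nat_lit 277)) (XT.lf (nat_lit 0) (nat_lit 15846205836) (nat_lit 152) (nat_lit 34521718517) (nat_lit 0) (nat_lit 7319560278) (nat_lit 10) (nat_lit 5) (nat_lit 12) (nat_lit 4) (nat_lit 10) (nat_lit 4) (nat_lit 426) (nat_lit 318) (nat_lit 276))))))) (XT.nd (nat_lit 49608) (nat_lit 0) (nat_lit 2964) (XT.nd (nat_lit 468) (nat_lit 76) (nat_lit 0) (XT.nd (nat_lit 234) (nat_lit 152) (nat_lit 0) (XT.nd (nat_lit 78) (nat_lit 76) (nat_lit 0) (XT.lf (nat_lit 0) (nat_lit 26799612540) (nat_lit 152) (nat_lit 15239551773) (nat_lit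 0) (nat_lit 18212917365) (nat_lit 10) (nat_lit 5) (nat_lit 12) (nat_lit 4) (nat_lit 10) (nat_lit 4) (nat_lit 427) (nat_lit 318) (nat_lit 275)) (XT.nd (nat_lit 78) (nat_lit 0) (nat_lit 0) (XT.lf (nat_lit 0) (nat_lit 4901299372) (nat_lit 76) (nat_lit 33344570793) (nat_lit 76) (nat_lit 24700685508) (nat_lit 9) (nat_lit 4) (nat_lit 10) (nat_lit 5) (nat_lit 10) (nat_lit 4) (nat_lit 428) (nat_lit 318) (nat_lit 274)) (XT.lf (nat_lit 0) (nat_lit 26172352460) (nat_lit 76) (nat_lit 24150008871) (nat_lit 76) (nat_lit 15451656813) (nat_lit 9) (nat_lit 4) (nat_lit 10) (nat_lit 5) (nat_lit 10) (nat_lit 4) (nat_lit 429) (nat_lit 318) (nat_lit 273)))) (XT.nd (nat_lit 78) (nat_lit 152) (nat_lit 0) (XT.lf (nat_lit 0) (nat_lit 48320955894) (nat_lit 76) (nat_lit 14587476322) (nat_lit 76) (nat_lit 5837251148) (nat_lit 9) (nat_lit 4) (nat_lit 10) (nat_lit 5) (nat_lit 10) (nat_lit 4) (nat_lit 430) (nat_lit 318) (nat_lit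 272)) (XT.nd (nat_lit 78) (nat_lit 76) (nat_lit 0) (XT.lf (nat_lit 0) (nat_lit 4084140523) (nat_lit 152) (nat_lit 508822879) (nat_lit 76) (nat_lit 67274462107) (nat_lit 8) (nat_lit 5) (nat_lit 10) (nat_lit 5) (nat_lit 9) (nat_lit 4) (nat_lit 431) (nat_lit 318) (nat_lit 271)) (XT.lf (nat_lit 0) (nat_lit 14551908974) (nat_lit 152) (nat_lit 54623582410) (nat_lit 0) (nat_lit 5962900635) (nat_lit 7) (nat_lit 5) (nat_lit 9) (nat_lit 4) (nat_lit 7) (nat_lit 4) (nat_lit 432) (nat_lit 318) (nat_lit 270))))) (XT.nd (nat_lit 234) (nat_lit 0) (nat_lit 0) (XT.nd (nat_lit 78) (nat_lit 76) (nat_lit 0) (XT.lf (nat_lit 0) (nat_lit 25510116273) (nat_lit 152) (nat_lit 36186177852) (nat_lit 0) (nat_lit 16877603130) (nat_lit 7) (nat_lit 5) (nat_lit 9) (nat_lit 4) (nat_lit 7) (nat_lit 4) (nat_lit 433) (nat_lit 318) (nat_lit 269)) (XT.nd (nat_lit 78) (nat_lit 76) (nat_lit 0) (XT.lf (nat_lit 0) (nat_lit 36935665166)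 (nat_lit 152) (nat_lit 16986212595) (nat_lit 0) (nat_lit 28261718876) (nat_lit 7) (nat_lit 5) (nat_lit 9) (nat_lit 4) (nat_lit 7) (nat_lit 4) (nat_lit 434) (nat_lit 318) (nat_lit 268)) (XT.lf (nat_lit 0) (nat_lit 3082171836) (nat_lit 76) (nat_lit 45803215225) (nat_lit 76) (nat_lit 37089808795) (nat_lit 6) (nat_lit 4) (nat_lit 7) (nat_lit 5) (nat_lit 7) (nat_lit 4) (nat_lit 435) (nat_lit 318) (nat_lit 267)))) (XT.nd (nat_lit 78) (nat_lit 0) (nat_lit 0) (XT.lf (nat_lit 0) (nat_lit 24361563132) (nat_lit 76) (nat_lit 37171395089) (nat_lit 76) (nat_lit 28420407573) (nat_lit 6) (nat_lit 4) (nat_lit 7) (nat_lit 5) (nat_lit 7) (nat_lit 4) (nat_lit 436) (nat_lit 318) (nat_lit 266)) (XT.nd (nat_lit 78) (nat_lit 0) (nat_lit 0) (XT.lf (nat_lit 0) (nat_lit 46564567572) (nat_lit 76) (nat_lit 28177392842) (nat_lit 76) (nat_lit 19390613816) (nat_lit 6) (nat_lit 4) (nat_lit 7) (nat_lit 5) (nat_lit 7) (nat_lit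 4) (nat_lit 437) (nat_lit 318) (nat_lit 265)) (XT.lf (nat_lit 0) (nat_lit 69744049452) (nat_lit 76) (nat_lit 18799794191) (nat_lit 76) (nat_lit 9978928013) (nat_lit 6) (nat_lit 4) (nat_lit 7) (nat_lit 5) (nat_lit 7) (nat_lit 4) (nat_lit 438) (nat_lit 318) (nat_lit 264)))))) (XT.nd (nat_lit 468) (nat_lit 1216) (nat_lit 0) (XT.nd (nat_lit 234) (nat_lit 760) (nat_lit 0) (XT.nd (nat_lit 78) (nat_lit 608) (nat_lit 0) (XT.lf (nat_lit 0) (nat_lit 3198603669) (nat_lit 152) (nat_lit 1434578580) (nat_lit 152) (nat_lit 1434578580) (nat_lit 79) (nat_lit 4) (nat_lit 81) (nat_lit 5) (nat_lit 81) (nat_lit 4) (nat_lit 382) (nat_lit 319) (nat_lit 319)) (XT.nd (nat_lit 78) (nat_lit 380) (nat_lit 0) (XT.lf (nat_lit 0) (nat_lit 5854547137) (nat_lit 228) (nat_lit 1575613062) (nat_lit 0) (nat_lit 5021402996) (nat_lit 76) (nat_lit 5) (nat_lit 79) (nat_lit 4) (nat_lit 76) (nat_lit 4) (nat_lit 383) (nat_lit 319) (nat_lit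 318)) (XT.lf (nat_lit 0) (nat_lit 2088499940) (nat_lit 228) (nat_lit 10185449169) (nat_lit 0) (nat_lit 509262319) (nat_lit 71) (nat_lit 5) (nat_lit 74) (nat_lit 4) (nat_lit 71) (nat_lit 4) (nat_lit 384) (nat_lit 319) (nat_lit 317)))) (XT.nd (nat_lit 78) (nat_lit 608) (nat_lit 0) (XT.lf (nat_lit 0) (nat_lit 6690386540) (nat_lit 152) (nat_lit 4376101470) (nat_lit 152) (nat_lit 2063187834) (nat_lit 69) (nat_lit 4) (nat_lit 71) (nat_lit 5) (nat_lit 71) (nat_lit 4) (nat_lit 385) (nat_lit 319) (nat_lit 316)) (XT.nd (nat_lit 78) (nat_lit 380) (nat_lit 0) (XT.lf (nat_lit 0) (nat_lit 6808369191) (nat_lit 228) (nat_lit 2800319446) (nat_lit 0) (nat_lit 3884434533) (nat_lit 66) (nat_lit 5) (nat_lit 69) (nat_lit 4) (nat_lit 66) (nat_lit 4) (nat_lit 386) (nat_lit 319) (nat_lit 315)) (XT.lf (nat_lit 0) (nat_lit 748884157) (nat_lit 152) (nat_lit 1378653817) (nat_lit 228) (nat_lit 11747066437) (nat_lit 61) (nat_lit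 5) (nat_lit 63) (nat_lit 5) (nat_lit 64) (nat_lit 4) (nat_lit 387) (nat_lit 319) (nat_lit 314))))) (XT.nd (nat_lit 234) (nat_lit 684) (nat_lit 0) (XT.nd (nat_lit 78) (nat_lit 380) (nat_lit 0) (XT.lf (nat_lit 0) (nat_lit 4177008754) (nat_lit 152) (nat_lit 7079595848) (nat_lit 152) (nat_lit 3016163482) (nat_lit 59) (nat_lit 4) (nat_lit 61) (nat_lit 5) (nat_lit 61) (nat_lit 4) (nat_lit 388) (nat_lit 319) (nat_lit 313)) (XT.nd (nat_lit 78) (nat_lit 228) (nat_lit 0) (XT.lf (nat_lit 0) (nat_lit 5977955700) (nat_lit 152) (nat_lit 7232234583) (nat_lit 0) (nat_lit 1480498906) (nat_lit 57) (nat_lit 5) (nat_lit 59) (nat_lit 4) (nat_lit 57) (nat_lit 4) (nat_lit 389) (nat_lit 319) (nat_lit 312)) (XT.lf (nat_lit 0) (nat_lit 221273246) (nat_lit 228) (nat_lit 4574345272) (nat_lit 76) (nat_lit 10333098286) (nat_lit 54) (nat_lit 5) (nat_lit 57) (nat_lit 5) (nat_lit 55) (nat_lit 4) (nat_lit 390) (nat_lit 319) (nat_lit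 311)))) (XT.nd (nat_lit 156) (nat_lit 304) (nat_lit 0) (XT.nd (nat_lit 78) (nat_lit 304) (nat_lit 0) (XT.lf (nat_lit 0) (nat_lit 9389952533) (nat_lit 152) (nat_lit 2170771980) (nat_lit 0) (nat_lit 4026309788) (nat_lit 53) (nat_lit 5) (nat_lit 55) (nat_lit 4) (nat_lit 53) (nat_lit 4) (nat_lit 391) (nat_lit 319) (nat_lit 310)) (XT.lf (nat_lit 0) (nat_lit 87488) (nat_lit 76) (nat_lit 2870353954) (nat_lit 152) (nat_lit 13197620090) (nat_lit 49) (nat_lit 5) (nat_lit 50) (nat_lit 5) (nat_lit 51) (nat_lit 4) (nat_lit 392) (nat_lit 319) (nat_lit 309))) (XT.nd (nat_lit 78) (nat_lit 152) (nat_lit 0) (XT.lf (nat_lit 0) (nat_lit 1899219413) (nat_lit 152) (nat_lit 10378603614) (nat_lit 152) (nat_lit 4293055794) (nat_lit 47) (nat_lit 4) (nat_lit 49) (nat_lit 5) (nat_lit 49) (nat_lit 4) (nat_lit 393) (nat_lit 319) (nat_lit 308)) (XT.lf (nat_lit 0) (nat_lit 3495083119) (nat_lit 76) (nat_lit 1425403603) (nat_lit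 152) (nat_lit 12178036661) (nat_lit 45) (nat_lit 5) (nat_lit 46) (nat_lit 5) (nat_lit 47) (nat_lit 4) (nat_lit 394) (nat_lit 319) (nat_lit 307))))))))
noncomputable def xc16 : XT := (XT.nd (nat_lit 1872) (nat_lit 760) (nat_lit 0) (XT.nd (nat_lit 936) (nat_lit 836) (nat_lit 0) (XT.nd (nat_lit 468) (nat_lit 532) (nat_lit 0) (XT.nd (nat_lit 234) (nat_lit 380) (nat_lit 0) (XT.nd (nat_lit 78) (nat_lit 304) (nat_lit 0) (XT.lf (nat_lit 0) (nat_lit 4707271352) (nat_lit 152) (nat_lit 9812594857) (nat_lit 152) (nat_lit 3131006983) (nat_lit 43) (nat_lit 4) (nat_lit 45) (nat_lit 5) (nat_lit 45) (nat_lit 4) (nat_lit 395) (nat_lit 319) (nat_lit 306)) (XT.nd (nat_lit 78) (nat_lit 152) (nat_lit 0) (XT.lf (nat_lit 0) (nat_lit 5539411517) (nat_lit 76) (nat_lit 657756447) (nat_lit 152) (nat_lit 12033259453) (nat_lit 41) (nat_lit 5) (nat_lit 42) (nat_lit 5) (nat_lit 43) (nat_lit 4) (nat_lit 396) (nat_lit 319) (nat_lit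 305)) (XT.lf (nat_lit 0) (nat_lit 5903958533) (nat_lit 152) (nat_lit 10050601992) (nat_lit 152) (nat_lit 2882656545) (nat_lit 39) (nat_lit 4) (nat_lit 41) (nat_lit 5) (nat_lit 41) (nat_lit 4) (nat_lit 397) (nat_lit 319) (nat_lit 304)))) (XT.nd (nat_lit 78) (nat_lit 228) (nat_lit 0) (XT.lf (nat_lit 0) (nat_lit 5798380467) (nat_lit 76) (nat_lit 744815028) (nat_lit 152) (nat_lit 12930756018) (nat_lit 37) (nat_lit 5) (nat_lit 38) (nat_lit 5) (nat_lit 39) (nat_lit 4) (nat_lit 398) (nat_lit 319) (nat_lit 303)) (XT.nd (nat_lit 78) (nat_lit 152) (nat_lit 0) (XT.lf (nat_lit 0) (nat_lit 5123752504) (nat_lit 76) (nat_lit 11287917882) (nat_lit 76) (nat_lit 3729080480) (nat_lit 36) (nat_lit 4) (nat_lit 37) (nat_lit 5) (nat_lit 37) (nat_lit 4) (nat_lit 399) (nat_lit 319) (nat_lit 302)) (XT.lf (nat_lit 0) (nat_lit 3872813845) (nat_lit 76) (nat_lit 1895778380) (nat_lit 152) (nat_lit 15072048560) (nat_lit 34)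 (nat_lit 5) (nat_lit 35) (nat_lit 5) (nat_lit 36) (nat_lit 4) (nat_lit 400) (nat_lit 319) (nat_lit 301))))) (XT.nd (nat_lit 234) (nat_lit 304) (nat_lit 0) (XT.nd (nat_lit 78) (nat_lit 152) (nat_lit 0) (XT.lf (nat_lit 0) (nat_lit 1931014924) (nat_lit 76) (nat_lit 13754756090) (nat_lit 76) (nat_lit 5888005499) (nat_lit 33) (nat_lit 4) (nat_lit 34) (nat_lit 5) (nat_lit 34) (nat_lit 4) (nat_lit 401) (nat_lit 319) (nat_lit 300)) (XT.nd (nat_lit 78) (nat_lit 76) (nat_lit 0) (XT.lf (nat_lit 0) (nat_lit 3651893194) (nat_lit 152) (nat_lit 698737719) (nat_lit 76) (nat_lit 17992767706) (nat_lit 32) (nat_lit 5) (nat_lit 34) (nat_lit 5) (nat_lit 33) (nat_lit 4) (nat_lit 402) (nat_lit 319) (nat_lit 299)) (XT.lf (nat_lit 0) (nat_lit 13570431108) (nat_lit 152) (nat_lit 4110847502) (nat_lit 0) (nat_lit 5467781765) (nat_lit 31) (nat_lit 5) (nat_lit 33) (nat_lit 4) (nat_lit 31) (nat_lit 4) (nat_lit 403) (nat_lit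 319) (nat_lit 298)))) (XT.nd (nat_lit 78) (nat_lit 228) (nat_lit 0) (XT.lf (nat_lit 0) (nat_lit 15638181224) (nat_lit 76) (nat_lit 8337894033) (nat_lit 76) (nat_lit 19204082) (nat_lit 30) (nat_lit 4) (nat_lit 31) (nat_lit 5) (nat_lit 31) (nat_lit 4) (nat_lit 404) (nat_lit 319) (nat_lit 297)) (XT.nd (nat_lit 78) (nat_lit 76) (nat_lit 0) (XT.lf (nat_lit 0) (nat_lit 9782760446) (nat_lit 152) (nat_lit 13592764508) (nat_lit 0) (nat_lit 1506602279) (nat_lit 28) (nat_lit 5) (nat_lit 30) (nat_lit 4) (nat_lit 28) (nat_lit 4) (nat_lit 405) (nat_lit 319) (nat_lit 296)) (XT.lf (nat_lit 0) (nat_lit 5922256182) (nat_lit 76) (nat_lit 14178342379) (nat_lit 76) (nat_lit 5711936445) (nat_lit 27) (nat_lit 4) (nat_lit 28) (nat_lit 5) (nat_lit 28) (nat_lit 4) (nat_lit 406) (nat_lit 319) (nat_lit 295)))))) (XT.nd (nat_lit 468) (nat_lit 380) (nat_lit 0) (XT.nd (nat_lit 234) (nat_lit 228) (nat_lit 0) (XT.nd (nat_lit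 78) (nat_lit 152) (nat_lit 0) (XT.lf (nat_lit 0) (nat_lit 4007518193) (nat_lit 152) (nat_lit 512332350) (nat_lit 76) (nat_lit 22270119050) (nat_lit 26) (nat_lit 5) (nat_lit 28) (nat_lit 5) (nat_lit 27) (nat_lit 4) (nat_lit 407) (nat_lit 319) (nat_lit 294)) (XT.nd (nat_lit 78) (nat_lit 76) (nat_lit 0) (XT.lf (nat_lit 0) (nat_lit 14152666760) (nat_lit 152) (nat_lit 8070774469) (nat_lit 0) (nat_lit 5589409850) (nat_lit 25) (nat_lit 5) (nat_lit 27) (nat_lit 4) (nat_lit 25) (nat_lit 4) (nat_lit 408) (nat_lit 319) (nat_lit 293)) (XT.lf (nat_lit 0) (nat_lit 11962890121) (nat_lit 76) (nat_lit 12823680986) (nat_lit 76) (nat_lit 4100867596) (nat_lit 24) (nat_lit 4) (nat_lit 25) (nat_lit 5) (nat_lit 25) (nat_lit 4) (nat_lit 409) (nat_lit 319) (nat_lit 292)))) (XT.nd (nat_lit 78) (nat_lit 76) (nat_lit 0) (XT.lf (nat_lit 0) (nat_lit 2798949673) (nat_lit 76) (nat_lit 2951652108) (nat_lit 152) (nat_lit 24265547653)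 (nat_lit 22) (nat_lit 5) (nat_lit 23) (nat_lit 5) (nat_lit 24) (nat_lit 4) (nat_lit 410) (nat_lit 319) (nat_lit 291)) (XT.nd (nat_lit 78) (nat_lit 76) (nat_lit 0) (XT.lf (nat_lit 0) (nat_lit 16080788040) (nat_lit 152) (nat_lit 7793169704) (nat_lit 0) (nat_lit 7323997386) (nat_lit 22) (nat_lit 5) (nat_lit 24) (nat_lit 4) (nat_lit 22) (nat_lit 4) (nat_lit 411) (nat_lit 319) (nat_lit 290)) (XT.lf (nat_lit 0) (nat_lit 12487359570) (nat_lit 76) (nat_lit 14421334087) (nat_lit 76) (nat_lit 5530727038) (nat_lit 21) (nat_lit 4) (nat_lit 22) (nat_lit 5) (nat_lit 22) (nat_lit 4) (nat_lit 412) (nat_lit 319) (nat_lit 289))))) (XT.nd (nat_lit 234) (nat_lit 152) (nat_lit 0) (XT.nd (nat_lit 78) (nat_lit 152) (nat_lit 0) (XT.lf (nat_lit 0) (nat_lit 4362275970) (nat_lit 152) (nat_lit 162631013) (nat_lit 76) (nat_lit 29219278114) (nat_lit 20) (nat_lit 5) (nat_lit 22) (nat_lit 5) (nat_lit 21) (nat_lit 4) (nat_lit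 413) (nat_lit 319) (nat_lit 288)) (XT.nd (nat_lit 78) (nat_lit 76) (nat_lit 0) (XT.lf (nat_lit 0) (nat_lit 14735229581) (nat_lit 152) (nat_lit 14512330175) (nat_lit 0) (nat_lit 5861999825) (nat_lit 19) (nat_lit 5) (nat_lit 21) (nat_lit 4) (nat_lit 19) (nat_lit 4) (nat_lit 414) (nat_lit 319) (nat_lit 287)) (XT.lf (nat_lit 0) (nat_lit 5617772929) (nat_lit 76) (nat_lit 19956238946) (nat_lit 76) (nat_lit 10970780419) (nat_lit 18) (nat_lit 4) (nat_lit 19) (nat_lit 5) (nat_lit 19) (nat_lit 4) (nat_lit 415) (nat_lit 319) (nat_lit 286)))) (XT.nd (nat_lit 78) (nat_lit 152) (nat_lit 0) (XT.lf (nat_lit 0) (nat_lit 26764797105) (nat_lit 76) (nat_lit 10189672607) (nat_lit 76) (nat_lit 1097329537) (nat_lit 18) (nat_lit 4) (nat_lit 19) (nat_lit 5) (nat_lit 19) (nat_lit 4) (nat_lit 416) (nat_lit 319) (nat_lit 285)) (XT.nd (nat_lit 78) (nat_lit 0) (nat_lit 0) (XT.lf (nat_lit 0) (nat_lit 9033900617) (nat_lit 152)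 (nat_lit 30491684091) (nat_lit 0) (nat_lit 107553168) (nat_lit 16) (nat_lit 5) (nat_lit 18) (nat_lit 4) (nat_lit 16) (nat_lit 4) (nat_lit 417) (nat_lit 319) (nat_lit 284)) (XT.lf (nat_lit 0) (nat_lit 19728387116) (nat_lit 152) (nat_lit 10854536892) (nat_lit 0) (nat_lit 10707915947) (nat_lit 16) (nat_lit 5) (nat_lit 18) (nat_lit 4) (nat_lit 16) (nat_lit 4) (nat_lit 418) (nat_lit 319) (nat_lit 283))))))) (XT.nd (nat_lit 936) (nat_lit 228) (nat_lit 0) (XT.nd (nat_lit 468) (nat_lit 228) (nat_lit 0) (XT.nd (nat_lit 234) (nat_lit 76) (nat_lit 0) (XT.nd (nat_lit 78) (nat_lit 152) (nat_lit 0) (XT.lf (nat_lit 0) (nat_lit 9690124546) (nat_lit 76) (nat_lit 21226326869) (nat_lit 76) (nat_lit 12116214062) (nat_lit 15) (nat_lit 4) (nat_lit 16) (nat_lit 5) (nat_lit 16) (nat_lit 4) (nat_lit 419) (nat_lit 319) (nat_lit 282)) (XT.nd (nat_lit 78) (nat_lit 152) (nat_lit 0) (XT.lf (nat_lit 0) (nat_lit 31232965836)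 (nat_lit 76) (nat_lit 11412332305) (nat_lit 76) (nat_lit 2216846510) (nat_lit 15) (nat_lit 4) (nat_lit 16) (nat_lit 5) (nat_lit 16) (nat_lit 4) (nat_lit 420) (nat_lit 319) (nat_lit 281)) (XT.lf (nat_lit 0) (nat_lit 6879288923) (nat_lit 76) (nat_lit 1079372320) (nat_lit 152) (nat_lit 38823859479) (nat_lit 13) (nat_lit 5) (nat_lit 14) (nat_lit 5) (nat_lit 15) (nat_lit 4) (nat_lit 421) (nat_lit 319) (nat_lit 280)))) (XT.nd (nat_lit 78) (nat_lit 76) (nat_lit 0) (XT.lf (nat_lit 0) (nat_lit 18710289069) (nat_lit 152) (nat_lit 20456062463) (nat_lit 0) (nat_lit 9628513128) (nat_lit 13) (nat_lit 5) (nat_lit 15) (nat_lit 4) (nat_lit 13) (nat_lit 4) (nat_lit 422) (nat_lit 319) (nat_lit 279)) (XT.nd (nat_lit 78) (nat_lit 76) (nat_lit 0) (XT.lf (nat_lit 0) (nat_lit 29893401519) (nat_lit 152) (nat_lit 277585134) (nat_lit 0) (nat_lit 20740025192) (nat_lit 13) (nat_lit 5) (nat_lit 15) (nat_lit 4) (nat_lit 13)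 (nat_lit 4) (nat_lit 423) (nat_lit 319) (nat_lit 278)) (XT.lf (nat_lit 0) (nat_lit 21102403671) (nat_lit 76) (nat_lit 20624695008) (nat_lit 76) (nat_lit 11403127837) (nat_lit 12) (nat_lit 4) (nat_lit 13) (nat_lit 5) (nat_lit 13) (nat_lit 4) (nat_lit 424) (nat_lit 319) (nat_lit 277))))) (XT.nd (nat_lit 234) (nat_lit 76) (nat_lit 0) (XT.nd (nat_lit 78) (nat_lit 152) (nat_lit 0) (XT.lf (nat_lit 0) (nat_lit 43344279554) (nat_lit 76) (nat_lit 10702897580) (nat_lit 76) (nat_lit 1416386749) (nat_lit 12) (nat_lit 4) (nat_lit 13) (nat_lit 5) (nat_lit 13) (nat_lit 4) (nat_lit 425) (nat_lit 319) (nat_lit 276)) (XT.nd (nat_lit 78) (nat_lit 0) (nat_lit 0) (XT.lf (nat_lit 0) (nat_lit 8661670620) (nat_lit 76) (nat_lit 210266599) (nat_lit 152) (nat_lit 49039641191) (nat_lit 10) (nat_lit 5) (nat_lit 11) (nat_lit 5) (nat_lit 12) (nat_lit 4) (nat_lit 426) (nat_lit 319) (nat_lit 275)) (XT.lf (nat_lit 0) (nat_lit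 19773598955) (nat_lit 152) (nat_lit 30063800782) (nat_lit 0) (nat_lit 10640329295) (nat_lit 10) (nat_lit 5) (nat_lit 12) (nat_lit 4) (nat_lit 10) (nat_lit 4) (nat_lit 427) (nat_lit 319) (nat_lit 274)))) (XT.nd (nat_lit 78) (nat_lit 76) (nat_lit 0) (XT.lf (nat_lit 0) (nat_lit 31125386336) (nat_lit 152) (nat_lit 10112002065) (nat_lit 0) (nat_lit 21937649902) (nat_lit 10) (nat_lit 5) (nat_lit 12) (nat_lit 4) (nat_lit 10) (nat_lit 4) (nat_lit 428) (nat_lit 319) (nat_lit 273)) (XT.nd (nat_lit 78) (nat_lit 0) (nat_lit 0) (XT.lf (nat_lit 0) (nat_lit 10867069520) (nat_lit 76) (nat_lit 32189697614) (nat_lit 76) (nat_lit 22950088064) (nat_lit 9) (nat_lit 4) (nat_lit 10) (nat_lit 5) (nat_lit 10) (nat_lit 4) (nat_lit 429) (nat_lit 319) (nat_lit 272)) (XT.lf (nat_lit 0) (nat_lit 32929260730) (nat_lit 76) (nat_lit 22669793391) (nat_lit 76) (nat_lit 13380780873) (nat_lit 9) (nat_lit 4) (nat_lit 10) (nat_lit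 5) (nat_lit 10) (nat_lit 4) (nat_lit 430) (nat_lit 319) (nat_lit 271)))))) (XT.nd (nat_lit 468) (nat_lit 0) (nat_lit 0) (XT.nd (nat_lit 234) (nat_lit 76) (nat_lit 0) (XT.nd (nat_lit 78) (nat_lit 152) (nat_lit 0) (XT.lf (nat_lit 0) (nat_lit 55925851923) (nat_lit 76) (nat_lit 12757120688) (nat_lit 76) (nat_lit 3421057724) (nat_lit 9) (nat_lit 4) (nat_lit 10) (nat_lit 5) (nat_lit 10) (nat_lit 4) (nat_lit 431) (nat_lit 319) (nat_lit 270)) (XT.nd (nat_lit 78) (nat_lit 0) (nat_lit 0) (XT.lf (nat_lit 0) (nat_lit 4546603191) (nat_lit 76) (nat_lit 2314222475) (nat_lit 152) (nat_lit 68522737938) (nat_lit 7) (nat_lit 5) (nat_lit 8) (nat_lit 5) (nat_lit 9) (nat_lit 4) (nat_lit 432) (nat_lit 319) (nat_lit 269)) (XT.lf (nat_lit 0) (nat_lit 17757485404) (nat_lit 152) (nat_lit 52455022098) (nat_lit 0) (nat_lit 8608408652) (nat_lit 7) (nat_lit 5) (nat_lit 9) (nat_lit 4) (nat_lit 7) (nat_lit 4) (nat_lit 433) (nat_lit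 319) (nat_lit 268)))) (XT.nd (nat_lit 78) (nat_lit 76) (nat_lit 0) (XT.lf (nat_lit 0) (nat_lit 29145603973) (nat_lit 152) (nat_lit 33329068237) (nat_lit 0) (nat_lit 19957067082) (nat_lit 7) (nat_lit 5) (nat_lit 9) (nat_lit 4) (nat_lit 7) (nat_lit 4) (nat_lit 434) (nat_lit 319) (nat_lit 267)) (XT.nd (nat_lit 78) (nat_lit 76) (nat_lit 0) (XT.lf (nat_lit 0) (nat_lit 41030050221) (nat_lit 152) (nat_lit 13391315123) (nat_lit 0) (nat_lit 31803932244) (nat_lit 7) (nat_lit 5) (nat_lit 9) (nat_lit 4) (nat_lit 7) (nat_lit 4) (nat_lit 435) (nat_lit 319) (nat_lit 266)) (XT.lf (nat_lit 0) (nat_lit 7553096197) (nat_lit 76) (nat_lit 45958629232) (nat_lit 76) (nat_lit 36696719744) (nat_lit 6) (nat_lit 4) (nat_lit 7) (nat_lit 5) (nat_lit 7) (nat_lit 4) (nat_lit 436) (nat_lit 319) (nat_lit 265))))) (XT.nd (nat_lit 48750) (nat_lit 0) (nat_lit 4940) (XT.nd (nat_lit 78) (nat_lit 0) (nat_lit 0) (XT.lf (nat_lit 0)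 (nat_lit 29690894402) (nat_lit 76) (nat_lit 36996872696) (nat_lit 76) (nat_lit 27700876056) (nat_lit 6) (nat_lit 4) (nat_lit 7) (nat_lit 5) (nat_lit 7) (nat_lit 4) (nat_lit 437) (nat_lit 319) (nat_lit 264)) (XT.nd (nat_lit 48594) (nat_lit 0) (nat_lit 6156) (XT.lf (nat_lit 0) (nat_lit 52808275106) (nat_lit 76) (nat_lit 27649984248) (nat_lit 76) (nat_lit 18321523653) (nat_lit 6) (nat_lit 4) (nat_lit 7) (nat_lit 5) (nat_lit 7) (nat_lit 4) (nat_lit 438) (nat_lit 319) (nat_lit 263)) (XT.lf (nat_lit 0) (nat_lit 2288430164) (nat_lit 228) (nat_lit 1194033789) (nat_lit 0) (nat_lit 2288430164) (nat_lit 87) (nat_lit 5) (nat_lit 90) (nat_lit 4) (nat_lit 87) (nat_lit 4) (nat_lit 380) (nat_lit 320) (nat_lit 320)))) (XT.nd (nat_lit 156) (nat_lit 608) (nat_lit 0) (XT.nd (nat_lit 78) (nat_lit 152) (nat_lit 0) (XT.lf (nat_lit 0) (nat_lit 1391217643) (nat_lit 228) (nat_lit 9953164888) (nat_lit 0) (nat_lit 490172256)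 (nat_lit 81) (nat_lit 5) (nat_lit 84) (nat_lit 4) (nat_lit 81) (nat_lit 4) (nat_lit 381) (nat_lit 320) (nat_lit 319)) (XT.lf (nat_lit 0) (nat_lit 6130915030) (nat_lit 152) (nat_lit 3884189031) (nat_lit 152) (nat_lit 2125005179) (nat_lit 79) (nat_lit 4) (nat_lit 81) (nat_lit 5) (nat_lit 81) (nat_lit 4) (nat_lit 382) (nat_lit 320) (nat_lit 318))) (XT.nd (nat_lit 78) (nat_lit 380) (nat_lit 0) (XT.lf (nat_lit 0) (nat_lit 6421634623) (nat_lit 228) (nat_lit 2118976353) (nat_lit 0) (nat_lit 3920218526) (nat_lit 76) (nat_lit 5) (nat_lit 79) (nat_lit 4) (nat_lit 76) (nat_lit 4) (nat_lit 383) (nat_lit 320) (nat_lit 317)) (XT.lf (nat_lit 0) (nat_lit 1757090559) (nat_lit 152) (nat_lit 712955229) (nat_lit 228) (nat_lit 10327248528) (nat_lit 71) (nat_lit 5) (nat_lit 73) (nat_lit 5) (nat_lit 74) (nat_lit 4) (nat_lit 384) (nat_lit 320) (nat_lit 316))))))))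
noncomputable def xc17 : XT := (XT.nd (nat_lit 1950) (nat_lit 1292) (nat_lit 0) (XT.nd (nat_lit 936) (nat_lit 1292) (nat_lit 0) (XT.nd (nat_lit 468) (nat_lit 1064) (nat_lit 0) (XT.nd (nat_lit 234) (nat_lit 608) (nat_lit 0) (XT.nd (nat_lit 78) (nat_lit 456) (nat_lit 0) (XT.lf (nat_lit 0) (nat_lit 5564358613) (nat_lit 152) (nat_lit 5722610719) (nat_lit 152) (nat_lit 1861636325) (nat_lit 69) (nat_lit 4) (nat_lit 71) (nat_lit 5) (nat_lit 71) (nat_lit 4) (nat_lit 385) (nat_lit 320) (nat_lit 315)) (XT.nd (nat_lit 78) (nat_lit 228) (nat_lit 0) (XT.lf (nat_lit 0) (nat_lit 6837806470) (nat_lit 228) (nat_lit 4236043318) (nat_lit 0) (nat_lit 2443204366) (nat_lit 66) (nat_lit 5) (nat_lit 69) (nat_lit 4) (nat_lit 66) (nat_lit 4) (nat_lit 386) (nat_lit 320) (nat_lit 314)) (XT.lf (nat_lit 0) (nat_lit 1970653975) (nat_lit 228) (nat_lit 1009491938) (nat_lit 76) (nat_lit 10923269196) (nat_lit 63) (nat_lit 5) (nat_lit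 66) (nat_lit 5) (nat_lit 64) (nat_lit 4) (nat_lit 387) (nat_lit 320) (nat_lit 313)))) (XT.nd (nat_lit 78) (nat_lit 304) (nat_lit 0) (XT.lf (nat_lit 0) (nat_lit 2093345620) (nat_lit 152) (nat_lit 8823342005) (nat_lit 152) (nat_lit 3390394350) (nat_lit 59) (nat_lit 4) (nat_lit 61) (nat_lit 5) (nat_lit 61) (nat_lit 4) (nat_lit 388) (nat_lit 320) (nat_lit 312)) (XT.nd (nat_lit 78) (nat_lit 152) (nat_lit 0) (XT.lf (nat_lit 0) (nat_lit 5065618991) (nat_lit 76) (nat_lit 373012540) (nat_lit 152) (nat_lit 9291662631) (nat_lit 57) (nat_lit 5) (nat_lit 58) (nat_lit 5) (nat_lit 59) (nat_lit 4) (nat_lit 389) (nat_lit 320) (nat_lit 311)) (XT.lf (nat_lit 0) (nat_lit 7832348931) (nat_lit 152) (nat_lit 6821346769) (nat_lit 152) (nat_lit 519545075) (nat_lit 55) (nat_lit 4) (nat_lit 57) (nat_lit 5) (nat_lit 57) (nat_lit 4) (nat_lit 390) (nat_lit 320) (nat_lit 310))))) (XT.nd (nat_lit 234) (nat_lit 608) (nat_lit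 0) (XT.nd (nat_lit 78) (nat_lit 304) (nat_lit 0) (XT.lf (nat_lit 0) (nat_lit 8480073739) (nat_lit 152) (nat_lit 5258466484) (nat_lit 0) (nat_lit 1898553772) (nat_lit 53) (nat_lit 5) (nat_lit 55) (nat_lit 4) (nat_lit 53) (nat_lit 4) (nat_lit 391) (nat_lit 320) (nat_lit 309)) (XT.nd (nat_lit 78) (nat_lit 76) (nat_lit 0) (XT.lf (nat_lit 0) (nat_lit 1769057863) (nat_lit 228) (nat_lit 3431538118) (nat_lit 76) (nat_lit 10922616566) (nat_lit 50) (nat_lit 5) (nat_lit 53) (nat_lit 5) (nat_lit 51) (nat_lit 4) (nat_lit 392) (nat_lit 320) (nat_lit 308)) (XT.lf (nat_lit 0) (nat_lit 10975081418) (nat_lit 152) (nat_lit 1908053779) (nat_lit 0) (nat_lit 3748944132) (nat_lit 49) (nat_lit 5) (nat_lit 51) (nat_lit 4) (nat_lit 49) (nat_lit 4) (nat_lit 393) (nat_lit 320) (nat_lit 307)))) (XT.nd (nat_lit 78) (nat_lit 380) (nat_lit 0) (XT.lf (nat_lit 0) (nat_lit 3406543217) (nat_lit 228) (nat_lit 699385134) (nat_lit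 76) (nat_lit 13059495468) (nat_lit 46) (nat_lit 5) (nat_lit 49) (nat_lit 5) (nat_lit 47) (nat_lit 4) (nat_lit 394) (nat_lit 320) (nat_lit 306)) (XT.nd (nat_lit 78) (nat_lit 152) (nat_lit 0) (XT.lf (nat_lit 0) (nat_lit 139995470) (nat_lit 152) (nat_lit 12667929399) (nat_lit 152) (nat_lit 4915796399) (nat_lit 43) (nat_lit 4) (nat_lit 45) (nat_lit 5) (nat_lit 45) (nat_lit 4) (nat_lit 395) (nat_lit 320) (nat_lit 305)) (XT.lf (nat_lit 0) (nat_lit 595656163) (nat_lit 76) (nat_lit 3685099266) (nat_lit 152) (nat_lit 14028035407) (nat_lit 41) (nat_lit 5) (nat_lit 42) (nat_lit 5) (nat_lit 43) (nat_lit 4) (nat_lit 396) (nat_lit 320) (nat_lit 304)))))) (XT.nd (nat_lit 468) (nat_lit 608) (nat_lit 0) (XT.nd (nat_lit 234) (nat_lit 380) (nat_lit 0) (XT.nd (nat_lit 78) (nat_lit 152) (nat_lit 0) (XT.lf (nat_lit 0) (nat_lit 586814387) (nat_lit 152) (nat_lit 13254776132) (nat_lit 152) (nat_lit 5079893481) (nat_lit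 39) (nat_lit 4) (nat_lit 41) (nat_lit 5) (nat_lit 41) (nat_lit 4) (nat_lit 397) (nat_lit 320) (nat_lit 303)) (XT.nd (nat_lit 78) (nat_lit 0) (nat_lit 0) (XT.lf (nat_lit 0) (nat_lit 90379528) (nat_lit 76) (nat_lit 4129599937) (nat_lit 152) (nat_lit 15343944542) (nat_lit 37) (nat_lit 5) (nat_lit 38) (nat_lit 5) (nat_lit 39) (nat_lit 4) (nat_lit 398) (nat_lit 320) (nat_lit 302)) (XT.lf (nat_lit 0) (nat_lit 13895129923) (nat_lit 152) (nat_lit 954159986) (nat_lit 0) (nat_lit 5387239159) (nat_lit 37) (nat_lit 5) (nat_lit 39) (nat_lit 4) (nat_lit 37) (nat_lit 4) (nat_lit 399) (nat_lit 320) (nat_lit 301)))) (XT.nd (nat_lit 78) (nat_lit 228) (nat_lit 0) (XT.lf (nat_lit 0) (nat_lit 3051289347) (nat_lit 152) (nat_lit 2579098123) (nat_lit 76) (nat_lit 15311469178) (nat_lit 35) (nat_lit 5) (nat_lit 37) (nat_lit 5) (nat_lit 36) (nat_lit 4) (nat_lit 400) (nat_lit 320) (nat_lit 300)) (XT.nd (nat_lit 78) (nat_lit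 152) (nat_lit 0) (XT.lf (nat_lit 0) (nat_lit 12781514255) (nat_lit 152) (nat_lit 4880593009) (nat_lit 0) (nat_lit 4018498991) (nat_lit 34) (nat_lit 5) (nat_lit 36) (nat_lit 4) (nat_lit 34) (nat_lit 4) (nat_lit 401) (nat_lit 320) (nat_lit 299)) (XT.lf (nat_lit 0) (nat_lit 546432298) (nat_lit 152) (nat_lit 7887405616) (nat_lit 76) (nat_lit 14021857592) (nat_lit 32) (nat_lit 5) (nat_lit 34) (nat_lit 5) (nat_lit 33) (nat_lit 4) (nat_lit 402) (nat_lit 320) (nat_lit 298))))) (XT.nd (nat_lit 234) (nat_lit 304) (nat_lit 0) (XT.nd (nat_lit 78) (nat_lit 228) (nat_lit 0) (XT.lf (nat_lit 0) (nat_lit 10251949632) (nat_lit 152) (nat_lit 11714518306) (nat_lit 0) (nat_lit 1301284575) (nat_lit 31) (nat_lit 5) (nat_lit 33) (nat_lit 4) (nat_lit 31) (nat_lit 4) (nat_lit 403) (nat_lit 320) (nat_lit 297)) (XT.nd (nat_lit 78) (nat_lit 152) (nat_lit 0) (XT.lf (nat_lit 0) (nat_lit 7691371737) (nat_lit 76) (nat_lit 12792122577)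 (nat_lit 76) (nat_lit 3635704560) (nat_lit 30) (nat_lit 4) (nat_lit 31) (nat_lit 5) (nat_lit 31) (nat_lit 4) (nat_lit 404) (nat_lit 320) (nat_lit 296)) (XT.lf (nat_lit 0) (nat_lit 2920419658) (nat_lit 76) (nat_lit 3125291118) (nat_lit 152) (nat_lit 18967116598) (nat_lit 28) (nat_lit 5) (nat_lit 29) (nat_lit 5) (nat_lit 30) (nat_lit 4) (nat_lit 405) (nat_lit 320) (nat_lit 295)))) (XT.nd (nat_lit 156) (nat_lit 228) (nat_lit 0) (XT.nd (nat_lit 78) (nat_lit 76) (nat_lit 0) (XT.lf (nat_lit 0) (nat_lit 16182828452) (nat_lit 152) (nat_lit 2844166091) (nat_lit 0) (nat_lit 6921666104) (nat_lit 28) (nat_lit 5) (nat_lit 30) (nat_lit 4) (nat_lit 28) (nat_lit 4) (nat_lit 406) (nat_lit 320) (nat_lit 294)) (XT.lf (nat_lit 0) (nat_lit 17319017525) (nat_lit 76) (nat_lit 9522774317) (nat_lit 76) (nat_lit 89051635) (nat_lit 27) (nat_lit 4) (nat_lit 28) (nat_lit 5) (nat_lit 28) (nat_lit 4) (nat_lit 407) (nat_lit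 320) (nat_lit 293))) (XT.nd (nat_lit 78) (nat_lit 76) (nat_lit 0) (XT.lf (nat_lit 0) (nat_lit 9829677567) (nat_lit 152) (nat_lit 17619754183) (nat_lit 0) (nat_lit 511167027) (nat_lit 25) (nat_lit 5) (nat_lit 27) (nat_lit 4) (nat_lit 25) (nat_lit 4) (nat_lit 408) (nat_lit 320) (nat_lit 292)) (XT.lf (nat_lit 0) (nat_lit 2054205229) (nat_lit 76) (nat_lit 18228440801) (nat_lit 76) (nat_lit 8757971708) (nat_lit 24) (nat_lit 4) (nat_lit 25) (nat_lit 5) (nat_lit 25) (nat_lit 4) (nat_lit 409) (nat_lit 320) (nat_lit 291))))))) (XT.nd (nat_lit 936) (nat_lit 532) (nat_lit 0) (XT.nd (nat_lit 468) (nat_lit 380) (nat_lit 0) (XT.nd (nat_lit 234) (nat_lit 152) (nat_lit 0) (XT.nd (nat_lit 78) (nat_lit 152) (nat_lit 0) (XT.lf (nat_lit 0) (nat_lit 1073482497) (nat_lit 152) (nat_lit 7436022053) (nat_lit 76) (nat_lit 21664496702) (nat_lit 23) (nat_lit 5) (nat_lit 25) (nat_lit 5) (nat_lit 24) (nat_lit 4) (nat_lit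 410) (nat_lit 320) (nat_lit 290)) (XT.nd (nat_lit 78) (nat_lit 76) (nat_lit 0) (XT.lf (nat_lit 0) (nat_lit 11194366696) (nat_lit 152) (nat_lit 18442309285) (nat_lit 0) (nat_lit 1725412899) (nat_lit 22) (nat_lit 5) (nat_lit 24) (nat_lit 4) (nat_lit 22) (nat_lit 4) (nat_lit 411) (nat_lit 320) (nat_lit 289)) (XT.lf (nat_lit 0) (nat_lit 1470590930) (nat_lit 76) (nat_lit 20367445651) (nat_lit 76) (nat_lit 10771047669) (nat_lit 21) (nat_lit 4) (nat_lit 22) (nat_lit 5) (nat_lit 22) (nat_lit 4) (nat_lit 412) (nat_lit 320) (nat_lit 288)))) (XT.nd (nat_lit 78) (nat_lit 152) (nat_lit 0) (XT.lf (nat_lit 0) (nat_lit 22460559402) (nat_lit 76) (nat_lit 10587314600) (nat_lit 76) (nat_lit 869541203) (nat_lit 21) (nat_lit 4) (nat_lit 22) (nat_lit 5) (nat_lit 22) (nat_lit 4) (nat_lit 413) (nat_lit 320) (nat_lit 287)) (XT.nd (nat_lit 78) (nat_lit 0) (nat_lit 0) (XT.lf (nat_lit 0) (nat_lit 9000434008) (nat_lit 76)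 (nat_lit 277301478) (nat_lit 152) (nat_lit 26012586710) (nat_lit 19) (nat_lit 5) (nat_lit 20) (nat_lit 5) (nat_lit 21) (nat_lit 4) (nat_lit 414) (nat_lit 320) (nat_lit 286)) (XT.lf (nat_lit 0) (nat_lit 19988221372) (nat_lit 152) (nat_lit 6406808116) (nat_lit 0) (nat_lit 10334376606) (nat_lit 19) (nat_lit 5) (nat_lit 21) (nat_lit 4) (nat_lit 19) (nat_lit 4) (nat_lit 415) (nat_lit 320) (nat_lit 285))))) (XT.nd (nat_lit 234) (nat_lit 152) (nat_lit 0) (XT.nd (nat_lit 78) (nat_lit 152) (nat_lit 0) (XT.lf (nat_lit 0) (nat_lit 14476657328) (nat_lit 76) (nat_lit 16759683808) (nat_lit 76) (nat_lit 7004044239) (nat_lit 18) (nat_lit 4) (nat_lit 19) (nat_lit 5) (nat_lit 19) (nat_lit 4) (nat_lit 416) (nat_lit 320) (nat_lit 284)) (XT.nd (nat_lit 78) (nat_lit 76) (nat_lit 0) (XT.lf (nat_lit 0) (nat_lit 3086635973) (nat_lit 152) (nat_lit 3586715974) (nat_lit 76) (nat_lit 33154751780) (nat_lit 17) (nat_lit 5)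 (nat_lit 19) (nat_lit 5) (nat_lit 18) (nat_lit 4) (nat_lit 417) (nat_lit 320) (nat_lit 283)) (XT.lf (nat_lit 0) (nat_lit 13615952857) (nat_lit 152) (nat_lit 23914117189) (nat_lit 0) (nat_lit 3960692772) (nat_lit 16) (nat_lit 5) (nat_lit 18) (nat_lit 4) (nat_lit 16) (nat_lit 4) (nat_lit 418) (nat_lit 320) (nat_lit 282)))) (XT.nd (nat_lit 78) (nat_lit 152) (nat_lit 0) (XT.lf (nat_lit 0) (nat_lit 24648480004) (nat_lit 152) (nat_lit 3680929350) (nat_lit 0) (nat_lit 14907846931) (nat_lit 16) (nat_lit 5) (nat_lit 18) (nat_lit 4) (nat_lit 16) (nat_lit 4) (nat_lit 419) (nat_lit 320) (nat_lit 281)) (XT.nd (nat_lit 78) (nat_lit 76) (nat_lit 0) (XT.lf (nat_lit 0) (nat_lit 17669777984) (nat_lit 76) (nat_lit 18610899686) (nat_lit 76) (nat_lit 8788959005) (nat_lit 15) (nat_lit 4) (nat_lit 16) (nat_lit 5) (nat_lit 16) (nat_lit 4) (nat_lit 420) (nat_lit 320) (nat_lit 280)) (XT.lf (nat_lit 0) (nat_lit 1390416071)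 (nat_lit 152) (nat_lit 7076831871) (nat_lit 76) (nat_lit 38528393019) (nat_lit 14) (nat_lit 5) (nat_lit 16) (nat_lit 5) (nat_lit 15) (nat_lit 4) (nat_lit 421) (nat_lit 320) (nat_lit 279)))))) (XT.nd (nat_lit 468) (nat_lit 228) (nat_lit 0) (XT.nd (nat_lit 234) (nat_lit 152) (nat_lit 0) (XT.nd (nat_lit 78) (nat_lit 76) (nat_lit 0) (XT.lf (nat_lit 0) (nat_lit 11943890629) (nat_lit 152) (nat_lit 34808795303) (nat_lit 0) (nat_lit 2261245100) (nat_lit 13) (nat_lit 5) (nat_lit 15) (nat_lit 4) (nat_lit 13) (nat_lit 4) (nat_lit 422) (nat_lit 320) (nat_lit 278)) (XT.nd (nat_lit 78) (nat_lit 76) (nat_lit 0) (XT.lf (nat_lit 0) (nat_lit 23072651798) (nat_lit 152) (nat_lit 14737242995) (nat_lit 0) (nat_lit 13321815426) (nat_lit 13) (nat_lit 5) (nat_lit 15) (nat_lit 4) (nat_lit 13) (nat_lit 4) (nat_lit 423) (nat_lit 320) (nat_lit 277)) (XT.lf (nat_lit 0) (nat_lit 6251110228) (nat_lit 76) (nat_lit 28460715887)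 (nat_lit 76) (nat_lit 18644935854) (nat_lit 12) (nat_lit 4) (nat_lit 13) (nat_lit 5) (nat_lit 13) (nat_lit 4) (nat_lit 424) (nat_lit 320) (nat_lit 276)))) (XT.nd (nat_lit 78) (nat_lit 152) (nat_lit 0) (XT.lf (nat_lit 0) (nat_lit 28394071790) (nat_lit 76) (nat_lit 18587583741) (nat_lit 76) (nat_lit 8709952603) (nat_lit 12) (nat_lit 4) (nat_lit 13) (nat_lit 5) (nat_lit 13) (nat_lit 4) (nat_lit 425) (nat_lit 320) (nat_lit 275)) (XT.nd (nat_lit 78) (nat_lit 76) (nat_lit 0) (XT.lf (nat_lit 0) (nat_lit 1589102538) (nat_lit 152) (nat_lit 6710658798) (nat_lit 76) (nat_lit 49845913635) (nat_lit 11) (nat_lit 5) (nat_lit 13) (nat_lit 5) (nat_lit 12) (nat_lit 4) (nat_lit 426) (nat_lit 320) (nat_lit 274)) (XT.lf (nat_lit 0) (nat_lit 12299204978) (nat_lit 152) (nat_lit 45820753612) (nat_lit 0) (nat_lit 2597614950) (nat_lit 10) (nat_lit 5) (nat_lit 12) (nat_lit 4) (nat_lit 10) (nat_lit 4) (nat_lit 427) (nat_lit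 320) (nat_lit 273))))) (XT.nd (nat_lit 234) (nat_lit 152) (nat_lit 0) (XT.nd (nat_lit 78) (nat_lit 76) (nat_lit 0) (XT.lf (nat_lit 0) (nat_lit 23605891445) (nat_lit 152) (nat_lit 25957917205) (nat_lit 0) (nat_lit 13852428301) (nat_lit 10) (nat_lit 5) (nat_lit 12) (nat_lit 4) (nat_lit 10) (nat_lit 4) (nat_lit 428) (nat_lit 320) (nat_lit 272)) (XT.nd (nat_lit 78) (nat_lit 76) (nat_lit 0) (XT.lf (nat_lit 0) (nat_lit 35389858073) (nat_lit 152) (nat_lit 5275627296) (nat_lit 0) (nat_lit 25586991961) (nat_lit 10) (nat_lit 5) (nat_lit 12) (nat_lit 4) (nat_lit 10) (nat_lit 4) (nat_lit 429) (nat_lit 320) (nat_lit 271)) (XT.lf (nat_lit 0) (nat_lit 16599271231) (nat_lit 76) (nat_lit 31239453044) (nat_lit 76) (nat_lit 21389536486) (nat_lit 9) (nat_lit 4) (nat_lit 10) (nat_lit 5) (nat_lit 10) (nat_lit 4) (nat_lit 430) (nat_lit 320) (nat_lit 270)))) (XT.nd (nat_lit 156) (nat_lit 152) (nat_lit 0) (XT.nd (nat_lit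 78) (nat_lit 0) (nat_lit 0) (XT.lf (nat_lit 0) (nat_lit 39517483991) (nat_lit 76) (nat_lit 21365445489) (nat_lit 76) (nat_lit 11470718982) (nat_lit 9) (nat_lit 4) (nat_lit 10) (nat_lit 5) (nat_lit 10) (nat_lit 4) (nat_lit 431) (nat_lit 320) (nat_lit 269)) (XT.lf (nat_lit 0) (nat_lit 63428582828) (nat_lit 76) (nat_lit 11073226654) (nat_lit 76) (nat_lit 1135824006) (nat_lit 9) (nat_lit 4) (nat_lit 10) (nat_lit 5) (nat_lit 10) (nat_lit 4) (nat_lit 432) (nat_lit 320) (nat_lit 268))) (XT.nd (nat_lit 78) (nat_lit 0) (nat_lit 0) (XT.lf (nat_lit 0) (nat_lit 9392074046) (nat_lit 76) (nat_lit 149857302) (nat_lit 152) (nat_lit 69540615136) (nat_lit 7) (nat_lit 5) (nat_lit 8) (nat_lit 5) (nat_lit 9) (nat_lit 4) (nat_lit 433) (nat_lit 320) (nat_lit 267)) (XT.lf (nat_lit 0) (nat_lit 20892961471) (nat_lit 152) (nat_lit 50633565101) (nat_lit 0) (nat_lit 11167956509) (nat_lit 7) (nat_lit 5) (nat_lit 9) (nat_lit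 4) (nat_lit 7) (nat_lit 4) (nat_lit 434) (nat_lit 320) (nat_lit 266))))))))
noncomputable def xc18 : XT := (XT.nd (nat_lit 50310) (nat_lit 0) (nat_lit 532) (XT.nd (nat_lit 49296) (nat_lit 0) (nat_lit 2432) (XT.nd (nat_lit 48828) (nat_lit 0) (nat_lit 4788) (XT.nd (nat_lit 234) (nat_lit 0) (nat_lit 0) (XT.nd (nat_lit 78) (nat_lit 76) (nat_lit 0) (XT.lf (nat_lit 0) (nat_lit 32743457312) (nat_lit 152) (nat_lit 30762942505) (nat_lit 0) (nat_lit 22982660840) (nat_lit 7) (nat_lit 5) (nat_lit 9) (nat_lit 4) (nat_lit 7) (nat_lit 4) (nat_lit 435) (nat_lit 320) (nat_lit 265)) (XT.nd (nat_lit 78) (nat_lit 76) (nat_lit 0) (XT.lf (nat_lit 0) (nat_lit 45120193818) (nat_lit 152) (nat_lit 10029853122) (nat_lit 0) (nat_lit 35325310193) (nat_lit 7) (nat_lit 5) (nat_lit 9) (nat_lit 4) (nat_lit 7) (nat_lit 4) (nat_lit 436) (nat_lit 320) (nat_lit 264)) (XT.lf (nat_lit 0) (nat_lit 11846230162) (nat_lit 76) (nat_lit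 46320282457) (nat_lit 76) (nat_lit 36492934878) (nat_lit 6) (nat_lit 4) (nat_lit 7) (nat_lit 5) (nat_lit 7) (nat_lit 4) (nat_lit 437) (nat_lit 320) (nat_lit 263)))) (XT.nd (nat_lit 48438) (nat_lit 0) (nat_lit 6384) (XT.lf (nat_lit 0) (nat_lit 34904466889) (nat_lit 76) (nat_lit 37002641821) (nat_lit 76) (nat_lit 27144376189) (nat_lit 6) (nat_lit 4) (nat_lit 7) (nat_lit 5) (nat_lit 7) (nat_lit 4) (nat_lit 438) (nat_lit 320) (nat_lit 262)) (XT.nd (nat_lit 78) (nat_lit 228) (nat_lit 0) (XT.lf (nat_lit 0) (nat_lit 96955543) (nat_lit 228) (nat_lit 5303002544) (nat_lit 0) (nat_lit 96955543) (nat_lit 93) (nat_lit 5) (nat_lit 96) (nat_lit 4) (nat_lit 93) (nat_lit 4) (nat_lit 378) (nat_lit 321) (nat_lit 321)) (XT.lf (nat_lit 0) (nat_lit 4639589105) (nat_lit 228) (nat_lit 3813602542) (nat_lit 228) (nat_lit 2809887537) (nat_lit 90) (nat_lit 4) (nat_lit 93) (nat_lit 5) (nat_lit 93) (nat_lit 4) (nat_lit 379)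 (nat_lit 321) (nat_lit 320))))) (XT.nd (nat_lit 234) (nat_lit 760) (nat_lit 0) (XT.nd (nat_lit 78) (nat_lit 608) (nat_lit 0) (XT.lf (nat_lit 0) (nat_lit 5401852944) (nat_lit 228) (nat_lit 2645144231) (nat_lit 0) (nat_lit 3499295608) (nat_lit 87) (nat_lit 5) (nat_lit 90) (nat_lit 4) (nat_lit 87) (nat_lit 4) (nat_lit 380) (nat_lit 321) (nat_lit 319)) (XT.nd (nat_lit 78) (nat_lit 152) (nat_lit 0) (XT.lf (nat_lit 0) (nat_lit 1348574618) (nat_lit 152) (nat_lit 688378373) (nat_lit 228) (nat_lit 9806650400) (nat_lit 81) (nat_lit 5) (nat_lit 83) (nat_lit 5) (nat_lit 84) (nat_lit 4) (nat_lit 381) (nat_lit 321) (nat_lit 318)) (XT.lf (nat_lit 0) (nat_lit 5331404076) (nat_lit 152) (nat_lit 5172517535) (nat_lit 152) (nat_lit 1649961298) (nat_lit 79) (nat_lit 4) (nat_lit 81) (nat_lit 5) (nat_lit 81) (nat_lit 4) (nat_lit 382) (nat_lit 321) (nat_lit 317)))) (XT.nd (nat_lit 78) (nat_lit 532) (nat_lit 0) (XT.lf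 (nat_lit 0) (nat_lit 6724015665) (nat_lit 228) (nat_lit 3206996657) (nat_lit 0) (nat_lit 2548371858) (nat_lit 76) (nat_lit 5) (nat_lit 79) (nat_lit 4) (nat_lit 76) (nat_lit 4) (nat_lit 383) (nat_lit 321) (nat_lit 316)) (XT.nd (nat_lit 78) (nat_lit 152) (nat_lit 0) (XT.lf (nat_lit 0) (nat_lit 350474233) (nat_lit 152) (nat_lit 2233673192) (nat_lit 228) (nat_lit 10236560296) (nat_lit 71) (nat_lit 5) (nat_lit 73) (nat_lit 5) (nat_lit 74) (nat_lit 4) (nat_lit 384) (nat_lit 321) (nat_lit 315)) (XT.lf (nat_lit 0) (nat_lit 3871966246) (nat_lit 152) (nat_lit 7361659202) (nat_lit 152) (nat_lit 1943431254) (nat_lit 69) (nat_lit 4) (nat_lit 71) (nat_lit 5) (nat_lit 71) (nat_lit 4) (nat_lit 385) (nat_lit 321) (nat_lit 314)))))) (XT.nd (nat_lit 468) (nat_lit 1140) (nat_lit 0) (XT.nd (nat_lit 234) (nat_lit 608) (nat_lit 0) (XT.nd (nat_lit 78) (nat_lit 380) (nat_lit 0) (XT.lf (nat_lit 0) (nat_lit 6587764971)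 (nat_lit 228) (nat_lit 6250840212) (nat_lit 0) (nat_lit 712032083) (nat_lit 66) (nat_lit 5) (nat_lit 69) (nat_lit 4) (nat_lit 66) (nat_lit 4) (nat_lit 386) (nat_lit 321) (nat_lit 313)) (XT.nd (nat_lit 78) (nat_lit 152) (nat_lit 0) (XT.lf (nat_lit 0) (nat_lit 1538454441) (nat_lit 228) (nat_lit 3338686946) (nat_lit 76) (nat_lit 9064574112) (nat_lit 63) (nat_lit 5) (nat_lit 66) (nat_lit 5) (nat_lit 64) (nat_lit 4) (nat_lit 387) (nat_lit 321) (nat_lit 312)) (XT.lf (nat_lit 0) (nat_lit 10292008163) (nat_lit 228) (nat_lit 582550593) (nat_lit 0) (nat_lit 3476609631) (nat_lit 61) (nat_lit 5) (nat_lit 64) (nat_lit 4) (nat_lit 61) (nat_lit 4) (nat_lit 388) (nat_lit 321) (nat_lit 311)))) (XT.nd (nat_lit 78) (nat_lit 304) (nat_lit 0) (XT.lf (nat_lit 0) (nat_lit 2046760323) (nat_lit 76) (nat_lit 2573048337) (nat_lit 152) (nat_lit 10159668728) (nat_lit 57) (nat_lit 5) (nat_lit 58) (nat_lit 5) (nat_lit 59)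 (nat_lit 4) (nat_lit 389) (nat_lit 321) (nat_lit 310)) (XT.nd (nat_lit 78) (nat_lit 152) (nat_lit 0) (XT.lf (nat_lit 0) (nat_lit 4489517786) (nat_lit 152) (nat_lit 9166677250) (nat_lit 152) (nat_lit 1571599534) (nat_lit 55) (nat_lit 4) (nat_lit 57) (nat_lit 5) (nat_lit 57) (nat_lit 4) (nat_lit 390) (nat_lit 321) (nat_lit 309)) (XT.lf (nat_lit 0) (nat_lit 6712058373) (nat_lit 76) (nat_lit 559654863) (nat_lit 152) (nat_lit 8425552470) (nat_lit 53) (nat_lit 5) (nat_lit 54) (nat_lit 5) (nat_lit 55) (nat_lit 4) (nat_lit 391) (nat_lit 321) (nat_lit 308))))) (XT.nd (nat_lit 234) (nat_lit 608) (nat_lit 0) (XT.nd (nat_lit 78) (nat_lit 304) (nat_lit 0) (XT.lf (nat_lit 0) (nat_lit 359567897) (nat_lit 228) (nat_lit 7505340465) (nat_lit 76) (nat_lit 8323821807) (nat_lit 50) (nat_lit 5) (nat_lit 53) (nat_lit 5) (nat_lit 51) (nat_lit 4) (nat_lit 392) (nat_lit 321) (nat_lit 307)) (XT.nd (nat_lit 78) (nat_lit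 228) (nat_lit 0) (XT.lf (nat_lit 0) (nat_lit 9378954123) (nat_lit 152) (nat_lit 6329227999) (nat_lit 0) (nat_lit 995022283) (nat_lit 49) (nat_lit 5) (nat_lit 51) (nat_lit 4) (nat_lit 49) (nat_lit 4) (nat_lit 393) (nat_lit 321) (nat_lit 306)) (XT.lf (nat_lit 0) (nat_lit 1609833501) (nat_lit 228) (nat_lit 5485998955) (nat_lit 76) (nat_lit 10146064687) (nat_lit 46) (nat_lit 5) (nat_lit 49) (nat_lit 5) (nat_lit 47) (nat_lit 4) (nat_lit 394) (nat_lit 321) (nat_lit 305)))) (XT.nd (nat_lit 156) (nat_lit 304) (nat_lit 0) (XT.nd (nat_lit 78) (nat_lit 228) (nat_lit 0) (XT.lf (nat_lit 0) (nat_lit 10818114586) (nat_lit 152) (nat_lit 5010901364) (nat_lit 0) (nat_lit 1976979000) (nat_lit 45) (nat_lit 5) (nat_lit 47) (nat_lit 4) (nat_lit 45) (nat_lit 4) (nat_lit 395) (nat_lit 321) (nat_lit 304)) (XT.lf (nat_lit 0) (nat_lit 2080501458) (nat_lit 228) (nat_lit 4943569395) (nat_lit 76) (nat_lit 11372656109) (nat_lit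 42) (nat_lit 5) (nat_lit 45) (nat_lit 5) (nat_lit 43) (nat_lit 4) (nat_lit 396) (nat_lit 321) (nat_lit 303))) (XT.nd (nat_lit 78) (nat_lit 228) (nat_lit 0) (XT.lf (nat_lit 0) (nat_lit 11443848347) (nat_lit 152) (nat_lit 5328938402) (nat_lit 0) (nat_lit 2242564486) (nat_lit 41) (nat_lit 5) (nat_lit 43) (nat_lit 4) (nat_lit 41) (nat_lit 4) (nat_lit 397) (nat_lit 321) (nat_lit 302)) (XT.lf (nat_lit 0) (nat_lit 1614801397) (nat_lit 228) (nat_lit 6210185725) (nat_lit 76) (nat_lit 11838394290) (nat_lit 38) (nat_lit 5) (nat_lit 41) (nat_lit 5) (nat_lit 39) (nat_lit 4) (nat_lit 398) (nat_lit 321) (nat_lit 301))))))) (XT.nd (nat_lit 936) (nat_lit 836) (nat_lit 0) (XT.nd (nat_lit 468) (nat_lit 532) (nat_lit 0) (XT.nd (nat_lit 234) (nat_lit 228) (nat_lit 0) (XT.nd (nat_lit 78) (nat_lit 228) (nat_lit 0) (XT.lf (nat_lit 0) (nat_lit 11086718577) (nat_lit 152) (nat_lit 7645853017) (nat_lit 0) (nat_lit 1609517569)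 (nat_lit 37) (nat_lit 5) (nat_lit 39) (nat_lit 4) (nat_lit 37) (nat_lit 4) (nat_lit 399) (nat_lit 321) (nat_lit 300)) (XT.nd (nat_lit 78) (nat_lit 76) (nat_lit 0) (XT.lf (nat_lit 0) (nat_lit 23844669) (nat_lit 152) (nat_lit 9681486552) (nat_lit 76) (nat_lit 11348041170) (nat_lit 35) (nat_lit 5) (nat_lit 37) (nat_lit 5) (nat_lit 36) (nat_lit 4) (nat_lit 400) (nat_lit 321) (nat_lit 299)) (XT.lf (nat_lit 0) (nat_lit 9403896804) (nat_lit 76) (nat_lit 140164964) (nat_lit 152) (nat_lit 12254365476) (nat_lit 34) (nat_lit 5) (nat_lit 35) (nat_lit 5) (nat_lit 36) (nat_lit 4) (nat_lit 401) (nat_lit 321) (nat_lit 298)))) (XT.nd (nat_lit 78) (nat_lit 152) (nat_lit 0) (XT.lf (nat_lit 0) (nat_lit 6722189315) (nat_lit 76) (nat_lit 12879686901) (nat_lit 76) (nat_lit 2977020815) (nat_lit 33) (nat_lit 4) (nat_lit 34) (nat_lit 5) (nat_lit 34) (nat_lit 4) (nat_lit 402) (nat_lit 321) (nat_lit 297)) (XT.nd (nat_lit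 78) (nat_lit 0) (nat_lit 0) (XT.lf (nat_lit 0) (nat_lit 3281639380) (nat_lit 76) (nat_lit 3317489198) (nat_lit 152) (nat_lit 16798312191) (nat_lit 31) (nat_lit 5) (nat_lit 32) (nat_lit 5) (nat_lit 33) (nat_lit 4) (nat_lit 403) (nat_lit 321) (nat_lit 296)) (XT.lf (nat_lit 0) (nat_lit 16631792334) (nat_lit 152) (nat_lit 1007220173) (nat_lit 0) (nat_lit 6615845255) (nat_lit 31) (nat_lit 5) (nat_lit 33) (nat_lit 4) (nat_lit 31) (nat_lit 4) (nat_lit 404) (nat_lit 321) (nat_lit 295))))) (XT.nd (nat_lit 234) (nat_lit 228) (nat_lit 0) (XT.nd (nat_lit 78) (nat_lit 152) (nat_lit 0) (XT.lf (nat_lit 0) (nat_lit 2006916259) (nat_lit 152) (nat_lit 6128531074) (nat_lit 76) (nat_lit 17018069927) (nat_lit 29) (nat_lit 5) (nat_lit 31) (nat_lit 5) (nat_lit 30) (nat_lit 4) (nat_lit 405) (nat_lit 321) (nat_lit 294)) (XT.nd (nat_lit 78) (nat_lit 76) (nat_lit 0) (XT.lf (nat_lit 0) (nat_lit 11945909122) (nat_lit 152)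 (nat_lit 12281448884) (nat_lit 0) (nat_lit 1867939973) (nat_lit 28) (nat_lit 5) (nat_lit 30) (nat_lit 4) (nat_lit 28) (nat_lit 4) (nat_lit 406) (nat_lit 321) (nat_lit 293)) (XT.lf (nat_lit 0) (nat_lit 7526237120) (nat_lit 76) (nat_lit 14899467290) (nat_lit 76) (nat_lit 4657154967) (nat_lit 27) (nat_lit 4) (nat_lit 28) (nat_lit 5) (nat_lit 28) (nat_lit 4) (nat_lit 407) (nat_lit 321) (nat_lit 292)))) (XT.nd (nat_lit 78) (nat_lit 76) (nat_lit 0) (XT.lf (nat_lit 0) (nat_lit 83508742) (nat_lit 76) (nat_lit 5080204742) (nat_lit 152) (nat_lit 22955831821) (nat_lit 25) (nat_lit 5) (nat_lit 26) (nat_lit 5) (nat_lit 27) (nat_lit 4) (nat_lit 408) (nat_lit 321) (nat_lit 291)) (XT.nd (nat_lit 78) (nat_lit 76) (nat_lit 0) (XT.lf (nat_lit 0) (nat_lit 15466494451) (nat_lit 152) (nat_lit 8511757626) (nat_lit 0) (nat_lit 5225820920) (nat_lit 25) (nat_lit 5) (nat_lit 27) (nat_lit 4) (nat_lit 25) (nat_lit 4) (nat_lit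 409) (nat_lit 321) (nat_lit 290)) (XT.lf (nat_lit 0) (nat_lit 11859567529) (nat_lit 76) (nat_lit 14430795777) (nat_lit 76) (nat_lit 4052291360) (nat_lit 24) (nat_lit 4) (nat_lit 25) (nat_lit 5) (nat_lit 25) (nat_lit 4) (nat_lit 410) (nat_lit 321) (nat_lit 289)))))) (XT.nd (nat_lit 468) (nat_lit 380) (nat_lit 0) (XT.nd (nat_lit 234) (nat_lit 228) (nat_lit 0) (XT.nd (nat_lit 78) (nat_lit 76) (nat_lit 0) (XT.lf (nat_lit 0) (nat_lit 1558981783) (nat_lit 76) (nat_lit 4386217089) (nat_lit 152) (nat_lit 25592788813) (nat_lit 22) (nat_lit 5) (nat_lit 23) (nat_lit 5) (nat_lit 24) (nat_lit 4) (nat_lit 411) (nat_lit 321) (nat_lit 288)) (XT.nd (nat_lit 78) (nat_lit 76) (nat_lit 0) (XT.lf (nat_lit 0) (nat_lit 16457964002) (nat_lit 152) (nat_lit 10198022278) (nat_lit 0) (nat_lit 6132926521) (nat_lit 22) (nat_lit 5) (nat_lit 24) (nat_lit 4) (nat_lit 22) (nat_lit 4) (nat_lit 412) (nat_lit 321) (nat_lit 287))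 (XT.lf (nat_lit 0) (nat_lit 10447769861) (nat_lit 76) (nat_lit 17047640608) (nat_lit 76) (nat_lit 6607007494) (nat_lit 21) (nat_lit 4) (nat_lit 22) (nat_lit 5) (nat_lit 22) (nat_lit 4) (nat_lit 413) (nat_lit 321) (nat_lit 286)))) (XT.nd (nat_lit 78) (nat_lit 152) (nat_lit 0) (XT.lf (nat_lit 0) (nat_lit 3496062811) (nat_lit 152) (nat_lit 3453716687) (nat_lit 76) (nat_lit 28531887262) (nat_lit 20) (nat_lit 5) (nat_lit 22) (nat_lit 5) (nat_lit 21) (nat_lit 4) (nat_lit 414) (nat_lit 321) (nat_lit 285)) (XT.nd (nat_lit 78) (nat_lit 76) (nat_lit 0) (XT.lf (nat_lit 0) (nat_lit 14039995115) (nat_lit 152) (nat_lit 19190975568) (nat_lit 0) (nat_lit 3694778765) (nat_lit 19) (nat_lit 5) (nat_lit 21) (nat_lit 4) (nat_lit 19) (nat_lit 4) (nat_lit 415) (nat_lit 321) (nat_lit 284)) (XT.lf (nat_lit 0) (nat_lit 1308487796) (nat_lit 76) (nat_lit 23788076654) (nat_lit 76) (nat_lit 13345912873) (nat_lit 18) (nat_lit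 4) (nat_lit 19) (nat_lit 5) (nat_lit 19) (nat_lit 4) (nat_lit 416) (nat_lit 321) (nat_lit 283))))) (XT.nd (nat_lit 234) (nat_lit 228) (nat_lit 0) (XT.nd (nat_lit 78) (nat_lit 152) (nat_lit 0) (XT.lf (nat_lit 0) (nat_lit 22980985209) (nat_lit 76) (nat_lit 13793253409) (nat_lit 76) (nat_lit 3258758741) (nat_lit 18) (nat_lit 4) (nat_lit 19) (nat_lit 5) (nat_lit 19) (nat_lit 4) (nat_lit 417) (nat_lit 321) (nat_lit 282)) (XT.nd (nat_lit 78) (nat_lit 0) (nat_lit 0) (XT.lf (nat_lit 0) (nat_lit 3794209750) (nat_lit 76) (nat_lit 3307582661) (nat_lit 152) (nat_lit 34601776300) (nat_lit 16) (nat_lit 5) (nat_lit 17) (nat_lit 5) (nat_lit 18) (nat_lit 4) (nat_lit 418) (nat_lit 321) (nat_lit 281)) (XT.lf (nat_lit 0) (nat_lit 18043106244) (nat_lit 152) (nat_lit 17760933156) (nat_lit 0) (nat_lit 7648760922) (nat_lit 16) (nat_lit 5) (nat_lit 18) (nat_lit 4) (nat_lit 16) (nat_lit 4) (nat_lit 419) (nat_lit 321)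 (nat_lit 280)))) (XT.nd (nat_lit 156) (nat_lit 152) (nat_lit 0) (XT.nd (nat_lit 78) (nat_lit 0) (nat_lit 0) (XT.lf (nat_lit 0) (nat_lit 3196339024) (nat_lit 76) (nat_lit 26283247998) (nat_lit 76) (nat_lit 15811466859) (nat_lit 15) (nat_lit 4) (nat_lit 16) (nat_lit 5) (nat_lit 16) (nat_lit 4) (nat_lit 420) (nat_lit 321) (nat_lit 279)) (XT.lf (nat_lit 0) (nat_lit 25351586349) (nat_lit 76) (nat_lit 16206529907) (nat_lit 76) (nat_lit 5661000371) (nat_lit 15) (nat_lit 4) (nat_lit 16) (nat_lit 5) (nat_lit 16) (nat_lit 4) (nat_lit 421) (nat_lit 321) (nat_lit 278))) (XT.nd (nat_lit 78) (nat_lit 76) (nat_lit 0) (XT.lf (nat_lit 0) (nat_lit 4791168907) (nat_lit 152) (nat_lit 889693223) (nat_lit 76) (nat_lit 43564531694) (nat_lit 14) (nat_lit 5) (nat_lit 16) (nat_lit 5) (nat_lit 15) (nat_lit 4) (nat_lit 422) (nat_lit 321) (nat_lit 277)) (XT.lf (nat_lit 0) (nat_lit 15804750185) (nat_lit 152) (nat_lit 30128642125)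 (nat_lit 0) (nat_lit 5433237490) (nat_lit 13) (nat_lit 5) (nat_lit 15) (nat_lit 4) (nat_lit 13) (nat_lit 4) (nat_lit 423) (nat_lit 321) (nat_lit 276))))))))
noncomputable def xc19 : XT := (XT.nd (nat_lit 50154) (nat_lit 0) (nat_lit 1368) (XT.nd (nat_lit 936) (nat_lit 76) (nat_lit 0) (XT.nd (nat_lit 468) (nat_lit 228) (nat_lit 0) (XT.nd (nat_lit 234) (nat_lit 152) (nat_lit 0) (XT.nd (nat_lit 78) (nat_lit 76) (nat_lit 0) (XT.lf (nat_lit 0) (nat_lit 27334536792) (nat_lit 152) (nat_lit 9359254723) (nat_lit 0) (nat_lit 16901172992) (nat_lit 13) (nat_lit 5) (nat_lit 15) (nat_lit 4) (nat_lit 13) (nat_lit 4) (nat_lit 424) (nat_lit 321) (nat_lit 275)) (XT.nd (nat_lit 78) (nat_lit 0) (nat_lit 0) (XT.lf (nat_lit 0) (nat_lit 12503235202) (nat_lit 76) (nat_lit 26961517379) (nat_lit 76) (nat_lit 16469247764) (nat_lit 12) (nat_lit 4) (nat_lit 13) (nat_lit 5) (nat_lit 13) (nat_lit 4) (nat_lit 425) (nat_lit 321)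 (nat_lit 274)) (XT.lf (nat_lit 0) (nat_lit 35470508201) (nat_lit 76) (nat_lit 16733882640) (nat_lit 76) (nat_lit 6185512250) (nat_lit 12) (nat_lit 4) (nat_lit 13) (nat_lit 5) (nat_lit 13) (nat_lit 4) (nat_lit 426) (nat_lit 321) (nat_lit 273)))) (XT.nd (nat_lit 78) (nat_lit 76) (nat_lit 0) (XT.lf (nat_lit 0) (nat_lit 4432537601) (nat_lit 152) (nat_lit 1603748370) (nat_lit 76) (nat_lit 54933683196) (nat_lit 11) (nat_lit 5) (nat_lit 13) (nat_lit 5) (nat_lit 12) (nat_lit 4) (nat_lit 427) (nat_lit 321) (nat_lit 272)) (XT.nd (nat_lit 78) (nat_lit 0) (nat_lit 0) (XT.lf (nat_lit 0) (nat_lit 15622367648) (nat_lit 152) (nat_lit 42769816420) (nat_lit 0) (nat_lit 5279955262) (nat_lit 10) (nat_lit 5) (nat_lit 12) (nat_lit 4) (nat_lit 10) (nat_lit 4) (nat_lit 428) (nat_lit 321) (nat_lit 271)) (XT.lf (nat_lit 0) (nat_lit 27365426419) (nat_lit 152) (nat_lit 22168217949) (nat_lit 0) (nat_lit 16975963586) (nat_lit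 10) (nat_lit 5) (nat_lit 12) (nat_lit 4) (nat_lit 10) (nat_lit 4) (nat_lit 429) (nat_lit 321) (nat_lit 270))))) (XT.nd (nat_lit 234) (nat_lit 152) (nat_lit 0) (XT.nd (nat_lit 78) (nat_lit 76) (nat_lit 0) (XT.lf (nat_lit 0) (nat_lit 39615770407) (nat_lit 152) (nat_lit 694079978) (nat_lit 0) (nat_lit 29181497626) (nat_lit 10) (nat_lit 5) (nat_lit 12) (nat_lit 4) (nat_lit 10) (nat_lit 4) (nat_lit 430) (nat_lit 321) (nat_lit 269)) (XT.nd (nat_lit 78) (nat_lit 0) (nat_lit 0) (XT.lf (nat_lit 0) (nat_lit 22135673101) (nat_lit 76) (nat_lit 30479675628) (nat_lit 76) (nat_lit 20002726705) (nat_lit 9) (nat_lit 4) (nat_lit 10) (nat_lit 5) (nat_lit 10) (nat_lit 4) (nat_lit 431) (nat_lit 321) (nat_lit 268)) (XT.lf (nat_lit 0) (nat_lit 45975680389) (nat_lit 76) (nat_lit 20222527222) (nat_lit 76) (nat_lit 9704934355) (nat_lit 9) (nat_lit 4) (nat_lit 10) (nat_lit 5) (nat_lit 10) (nat_lit 4) (nat_lit 432) (nat_lit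 321) (nat_lit 267)))) (XT.nd (nat_lit 78) (nat_lit 76) (nat_lit 0) (XT.lf (nat_lit 0) (nat_lit 1015106540) (nat_lit 152) (nat_lit 8495635106) (nat_lit 76) (nat_lit 69843533127) (nat_lit 8) (nat_lit 5) (nat_lit 10) (nat_lit 5) (nat_lit 9) (nat_lit 4) (nat_lit 433) (nat_lit 321) (nat_lit 266)) (XT.nd (nat_lit 78) (nat_lit 0) (nat_lit 0) (XT.lf (nat_lit 0) (nat_lit 12158088510) (nat_lit 152) (nat_lit 68940904370) (nat_lit 0) (nat_lit 1873460704) (nat_lit 7) (nat_lit 5) (nat_lit 9) (nat_lit 4) (nat_lit 7) (nat_lit 4) (nat_lit 434) (nat_lit 321) (nat_lit 265)) (XT.lf (nat_lit 0) (nat_lit 23976250631) (nat_lit 152) (nat_lit 49134215599) (nat_lit 0) (nat_lit 13657535672) (nat_lit 7) (nat_lit 5) (nat_lit 9) (nat_lit 4) (nat_lit 7) (nat_lit 4) (nat_lit 435) (nat_lit 321) (nat_lit 264)))))) (XT.nd (nat_lit 48672) (nat_lit 0) (nat_lit 4788) (XT.nd (nat_lit 48438) (nat_lit 0) (nat_lit 6612) (XT.nd (nat_lit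 78) (nat_lit 76) (nat_lit 0) (XT.lf (nat_lit 0) (nat_lit 36322193117) (nat_lit 152) (nat_lit 28462015575) (nat_lit 0) (nat_lit 25971014203) (nat_lit 7) (nat_lit 5) (nat_lit 9) (nat_lit 4) (nat_lit 7) (nat_lit 4) (nat_lit 436) (nat_lit 321) (nat_lit 263)) (XT.nd (nat_lit 78) (nat_lit 76) (nat_lit 0) (XT.lf (nat_lit 0) (nat_lit 49225311070) (nat_lit 152) (nat_lit 6875084774) (nat_lit 0) (nat_lit 38843214104) (nat_lit 7) (nat_lit 5) (nat_lit 9) (nat_lit 4) (nat_lit 7) (nat_lit 4) (nat_lit 437) (nat_lit 321) (nat_lit 262)) (XT.lf (nat_lit 0) (nat_lit 15989996687) (nat_lit 76) (nat_lit 46880035142) (nat_lit 76) (nat_lit 36468492412) (nat_lit 6) (nat_lit 4) (nat_lit 7) (nat_lit 5) (nat_lit 7) (nat_lit 4) (nat_lit 438) (nat_lit 321) (nat_lit 261)))) (XT.nd (nat_lit 78) (nat_lit 760) (nat_lit 0) (XT.lf (nat_lit 0) (nat_lit 1355541229) (nat_lit 228) (nat_lit 1943556968) (nat_lit 228) (nat_lit 1943556968)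 (nat_lit 103) (nat_lit 4) (nat_lit 106) (nat_lit 5) (nat_lit 106) (nat_lit 4) (nat_lit 376) (nat_lit 322) (nat_lit 322)) (XT.nd (nat_lit 78) (nat_lit 456) (nat_lit 0) (XT.lf (nat_lit 0) (nat_lit 3994939930) (nat_lit 304) (nat_lit 3830850341) (nat_lit 0) (nat_lit 2909422153) (nat_lit 99) (nat_lit 5) (nat_lit 103) (nat_lit 4) (nat_lit 99) (nat_lit 4) (nat_lit 377) (nat_lit 322) (nat_lit 321)) (XT.lf (nat_lit 0) (nat_lit 129648704) (nat_lit 152) (nat_lit 978229589) (nat_lit 228) (nat_lit 9890168506) (nat_lit 93) (nat_lit 5) (nat_lit 95) (nat_lit 5) (nat_lit 96) (nat_lit 4) (nat_lit 378) (nat_lit 322) (nat_lit 320))))) (XT.nd (nat_lit 234) (nat_lit 912) (nat_lit 0) (XT.nd (nat_lit 78) (nat_lit 684) (nat_lit 0) (XT.lf (nat_lit 0) (nat_lit 4135826678) (nat_lit 228) (nat_lit 5074860750) (nat_lit 228) (nat_lit 2061325939) (nat_lit 90) (nat_lit 4) (nat_lit 93) (nat_lit 5) (nat_lit 93) (nat_lit 4) (nat_lit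 379) (nat_lit 322) (nat_lit 319)) (XT.nd (nat_lit 78) (nat_lit 456) (nat_lit 0) (XT.lf (nat_lit 0) (nat_lit 5976237724) (nat_lit 228) (nat_lit 3416986273) (nat_lit 0) (nat_lit 2166593153) (nat_lit 87) (nat_lit 5) (nat_lit 90) (nat_lit 4) (nat_lit 87) (nat_lit 4) (nat_lit 380) (nat_lit 322) (nat_lit 318)) (XT.lf (nat_lit 0) (nat_lit 280862897) (nat_lit 152) (nat_lit 2148841751) (nat_lit 228) (nat_lit 9431993830) (nat_lit 81) (nat_lit 5) (nat_lit 83) (nat_lit 5) (nat_lit 84) (nat_lit 4) (nat_lit 381) (nat_lit 322) (nat_lit 317)))) (XT.nd (nat_lit 156) (nat_lit 532) (nat_lit 0) (XT.nd (nat_lit 78) (nat_lit 228) (nat_lit 0) (XT.lf (nat_lit 0) (nat_lit 3996770878) (nat_lit 152) (nat_lit 6737210122) (nat_lit 152) (nat_lit 1442894460) (nat_lit 79) (nat_lit 4) (nat_lit 81) (nat_lit 5) (nat_lit 81) (nat_lit 4) (nat_lit 382) (nat_lit 322) (nat_lit 316)) (XT.lf (nat_lit 0) (nat_lit 6762410217) (nat_lit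 228) (nat_lit 4842264499) (nat_lit 0) (nat_lit 902596690) (nat_lit 76) (nat_lit 5) (nat_lit 79) (nat_lit 4) (nat_lit 76) (nat_lit 4) (nat_lit 383) (nat_lit 322) (nat_lit 315))) (XT.nd (nat_lit 78) (nat_lit 304) (nat_lit 0) (XT.lf (nat_lit 0) (nat_lit 2441659002) (nat_lit 228) (nat_lit 1588675497) (nat_lit 76) (nat_lit 8822855413) (nat_lit 73) (nat_lit 5) (nat_lit 76) (nat_lit 5) (nat_lit 74) (nat_lit 4) (nat_lit 384) (nat_lit 322) (nat_lit 314)) (XT.lf (nat_lit 0) (nat_lit 1609179933) (nat_lit 152) (nat_lit 9297149415) (nat_lit 152) (nat_lit 2308767370) (nat_lit 69) (nat_lit 4) (nat_lit 71) (nat_lit 5) (nat_lit 71) (nat_lit 4) (nat_lit 385) (nat_lit 322) (nat_lit 313))))))) (XT.nd (nat_lit 936) (nat_lit 1292) (nat_lit 0) (XT.nd (nat_lit 468) (nat_lit 912) (nat_lit 0) (XT.nd (nat_lit 234) (nat_lit 608) (nat_lit 0) (XT.nd (nat_lit 78) (nat_lit 380) (nat_lit 0) (XT.lf (nat_lit 0) (nat_lit 4731184416)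 (nat_lit 152) (nat_lit 1339339492) (nat_lit 228) (nat_lit 7523042319) (nat_lit 66) (nat_lit 5) (nat_lit 68) (nat_lit 5) (nat_lit 69) (nat_lit 4) (nat_lit 386) (nat_lit 322) (nat_lit 312)) (XT.nd (nat_lit 78) (nat_lit 152) (nat_lit 0) (XT.lf (nat_lit 0) (nat_lit 822711595) (nat_lit 228) (nat_lit 6258859997) (nat_lit 76) (nat_lit 6908241144) (nat_lit 63) (nat_lit 5) (nat_lit 66) (nat_lit 5) (nat_lit 64) (nat_lit 4) (nat_lit 387) (nat_lit 322) (nat_lit 311)) (XT.lf (nat_lit 0) (nat_lit 9401342389) (nat_lit 228) (nat_lit 3815916154) (nat_lit 0) (nat_lit 1187265839) (nat_lit 61) (nat_lit 5) (nat_lit 64) (nat_lit 4) (nat_lit 61) (nat_lit 4) (nat_lit 388) (nat_lit 322) (nat_lit 310)))) (XT.nd (nat_lit 78) (nat_lit 380) (nat_lit 0) (XT.lf (nat_lit 0) (nat_lit 3520310321) (nat_lit 228) (nat_lit 1559325385) (nat_lit 76) (nat_lit 9758697083) (nat_lit 58) (nat_lit 5) (nat_lit 61) (nat_lit 5) (nat_lit 59)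 (nat_lit 4) (nat_lit 389) (nat_lit 322) (nat_lit 309)) (XT.nd (nat_lit 78) (nat_lit 152) (nat_lit 0) (XT.lf (nat_lit 0) (nat_lit 520153402) (nat_lit 152) (nat_lit 11839428508) (nat_lit 152) (nat_lit 2932991252) (nat_lit 55) (nat_lit 4) (nat_lit 57) (nat_lit 5) (nat_lit 57) (nat_lit 4) (nat_lit 390) (nat_lit 322) (nat_lit 308)) (XT.lf (nat_lit 0) (nat_lit 2390922157) (nat_lit 76) (nat_lit 3387482330) (nat_lit 152) (nat_lit 9988795902) (nat_lit 53) (nat_lit 5) (nat_lit 54) (nat_lit 5) (nat_lit 55) (nat_lit 4) (nat_lit 391) (nat_lit 322) (nat_lit 307))))) (XT.nd (nat_lit 234) (nat_lit 456) (nat_lit 0) (XT.nd (nat_lit 78) (nat_lit 304) (nat_lit 0) (XT.lf (nat_lit 0) (nat_lit 4020002309) (nat_lit 152) (nat_lit 10855888242) (nat_lit 152) (nat_lit 1388479459) (nat_lit 51) (nat_lit 4) (nat_lit 53) (nat_lit 5) (nat_lit 53) (nat_lit 4) (nat_lit 392) (nat_lit 322) (nat_lit 306)) (XT.nd (nat_lit 78) (nat_lit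 152) (nat_lit 0) (XT.lf (nat_lit 0) (nat_lit 5351932265) (nat_lit 76) (nat_lit 2135984506) (nat_lit 152) (nat_lit 9296438346) (nat_lit 49) (nat_lit 5) (nat_lit 50) (nat_lit 5) (nat_lit 51) (nat_lit 4) (nat_lit 393) (nat_lit 322) (nat_lit 305)) (XT.lf (nat_lit 0) (nat_lit 6379651714) (nat_lit 152) (nat_lit 10431714594) (nat_lit 152) (nat_lit 517617767) (nat_lit 47) (nat_lit 4) (nat_lit 49) (nat_lit 5) (nat_lit 49) (nat_lit 4) (nat_lit 394) (nat_lit 322) (nat_lit 304)))) (XT.nd (nat_lit 78) (nat_lit 304) (nat_lit 0) (XT.lf (nat_lit 0) (nat_lit 7043180503) (nat_lit 76) (nat_lit 1475491740) (nat_lit 152) (nat_lit 9380028648) (nat_lit 45) (nat_lit 5) (nat_lit 46) (nat_lit 5) (nat_lit 47) (nat_lit 4) (nat_lit 395) (nat_lit 322) (nat_lit 303)) (XT.nd (nat_lit 78) (nat_lit 152) (nat_lit 0) (XT.lf (nat_lit 0) (nat_lit 7326384571) (nat_lit 152) (nat_lit 10715267488) (nat_lit 152) (nat_lit 453743973) (nat_lit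 43) (nat_lit 4) (nat_lit 45) (nat_lit 5) (nat_lit 45) (nat_lit 4) (nat_lit 396) (nat_lit 322) (nat_lit 302)) (XT.lf (nat_lit 0) (nat_lit 7166535947) (nat_lit 76) (nat_lit 1564309680) (nat_lit 152) (nat_lit 10388940027) (nat_lit 41) (nat_lit 5) (nat_lit 42) (nat_lit 5) (nat_lit 43) (nat_lit 4) (nat_lit 397) (nat_lit 322) (nat_lit 301)))))) (XT.nd (nat_lit 468) (nat_lit 608) (nat_lit 0) (XT.nd (nat_lit 234) (nat_lit 304) (nat_lit 0) (XT.nd (nat_lit 78) (nat_lit 228) (nat_lit 0) (XT.lf (nat_lit 0) (nat_lit 6534538308) (nat_lit 152) (nat_lit 11881050899) (nat_lit 152) (nat_lit 1358173533) (nat_lit 39) (nat_lit 4) (nat_lit 41) (nat_lit 5) (nat_lit 41) (nat_lit 4) (nat_lit 398) (nat_lit 322) (nat_lit 300)) (XT.nd (nat_lit 78) (nat_lit 76) (nat_lit 0) (XT.lf (nat_lit 0) (nat_lit 5366283337) (nat_lit 76) (nat_lit 2589101704) (nat_lit 152) (nat_lit 12503028383) (nat_lit 37) (nat_lit 5) (nat_lit 38) (nat_lit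 5) (nat_lit 39) (nat_lit 4) (nat_lit 399) (nat_lit 322) (nat_lit 299)) (XT.lf (nat_lit 0) (nat_lit 3615824917) (nat_lit 76) (nat_lit 14134745560) (nat_lit 76) (nat_lit 3425012188) (nat_lit 36) (nat_lit 4) (nat_lit 37) (nat_lit 5) (nat_lit 37) (nat_lit 4) (nat_lit 400) (nat_lit 322) (nat_lit 298)))) (XT.nd (nat_lit 78) (nat_lit 152) (nat_lit 0) (XT.lf (nat_lit 0) (nat_lit 1218643954) (nat_lit 76) (nat_lit 4770309153) (nat_lit 152) (nat_lit 15937869468) (nat_lit 34) (nat_lit 5) (nat_lit 35) (nat_lit 5) (nat_lit 36) (nat_lit 4) (nat_lit 401) (nat_lit 322) (nat_lit 297)) (XT.nd (nat_lit 78) (nat_lit 152) (nat_lit 0) (XT.lf (nat_lit 0) (nat_lit 15845248665) (nat_lit 152) (nat_lit 1855091911) (nat_lit 0) (nat_lit 5013001898) (nat_lit 34) (nat_lit 5) (nat_lit 36) (nat_lit 4) (nat_lit 34) (nat_lit 4) (nat_lit 402) (nat_lit 322) (nat_lit 296)) (XT.lf (nat_lit 0) (nat_lit 2643534249) (nat_lit 152) (nat_lit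 5667706096) (nat_lit 76) (nat_lit 15225985678) (nat_lit 32) (nat_lit 5) (nat_lit 34) (nat_lit 5) (nat_lit 33) (nat_lit 4) (nat_lit 403) (nat_lit 322) (nat_lit 295))))) (XT.nd (nat_lit 234) (nat_lit 304) (nat_lit 0) (XT.nd (nat_lit 78) (nat_lit 228) (nat_lit 0) (XT.lf (nat_lit 0) (nat_lit 12483453376) (nat_lit 152) (nat_lit 10332846239) (nat_lit 0) (nat_lit 1584129742) (nat_lit 31) (nat_lit 5) (nat_lit 33) (nat_lit 4) (nat_lit 31) (nat_lit 4) (nat_lit 404) (nat_lit 322) (nat_lit 294)) (XT.nd (nat_lit 78) (nat_lit 152) (nat_lit 0) (XT.lf (nat_lit 0) (nat_lit 9368334478) (nat_lit 76) (nat_lit 13506866007) (nat_lit 76) (nat_lit 2429805229) (nat_lit 30) (nat_lit 4) (nat_lit 31) (nat_lit 5) (nat_lit 31) (nat_lit 4) (nat_lit 405) (nat_lit 322) (nat_lit 293)) (XT.lf (nat_lit 0) (nat_lit 3690565512) (nat_lit 76) (nat_lit 3667513187) (nat_lit 152) (nat_lit 18895367658) (nat_lit 28) (nat_lit 5) (nat_lit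 29) (nat_lit 5) (nat_lit 30) (nat_lit 4) (nat_lit 406) (nat_lit 322) (nat_lit 292)))) (XT.nd (nat_lit 156) (nat_lit 152) (nat_lit 0) (XT.nd (nat_lit 78) (nat_lit 152) (nat_lit 0) (XT.lf (nat_lit 0) (nat_lit 17649288140) (nat_lit 152) (nat_lit 3023380831) (nat_lit 0) (nat_lit 6573999717) (nat_lit 28) (nat_lit 5) (nat_lit 30) (nat_lit 4) (nat_lit 28) (nat_lit 4) (nat_lit 407) (nat_lit 322) (nat_lit 291)) (XT.lf (nat_lit 0) (nat_lit 209780818) (nat_lit 152) (nat_lit 10798497465) (nat_lit 76) (nat_lit 17279807353) (nat_lit 26) (nat_lit 5) (nat_lit 28) (nat_lit 5) (nat_lit 27) (nat_lit 4) (nat_lit 408) (nat_lit 322) (nat_lit 290))) (XT.nd (nat_lit 78) (nat_lit 76) (nat_lit 0) (XT.lf (nat_lit 0) (nat_lit 9498902482) (nat_lit 76) (nat_lit 779531420) (nat_lit 152) (nat_lit 19101206217) (nat_lit 25) (nat_lit 5) (nat_lit 26) (nat_lit 5) (nat_lit 27) (nat_lit 4) (nat_lit 409) (nat_lit 322) (nat_lit 289))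 (XT.lf (nat_lit 0) (nat_lit 125404781) (nat_lit 76) (nat_lit 20782588571) (nat_lit 76) (nat_lit 9616060535) (nat_lit 24) (nat_lit 4) (nat_lit 25) (nat_lit 5) (nat_lit 25) (nat_lit 4) (nat_lit 410) (nat_lit 322) (nat_lit 288))))))))
noncomputable def xc20 : XT := (XT.nd (nat_lit 1872) (nat_lit 76) (nat_lit 0) (XT.nd (nat_lit 936) (nat_lit 532) (nat_lit 0) (XT.nd (nat_lit 468) (nat_lit 304) (nat_lit 0) (XT.nd (nat_lit 234) (nat_lit 228) (nat_lit 0) (XT.nd (nat_lit 78) (nat_lit 76) (nat_lit 0) (XT.lf (nat_lit 0) (nat_lit 402462005) (nat_lit 152) (nat_lit 10474546841) (nat_lit 76) (nat_lit 20846611240) (nat_lit 23) (nat_lit 5) (nat_lit 25) (nat_lit 5) (nat_lit 24) (nat_lit 4) (nat_lit 411) (nat_lit 322) (nat_lit 287)) (XT.nd (nat_lit 78) (nat_lit 0) (nat_lit 0) (XT.lf (nat_lit 0) (nat_lit 10273843281) (nat_lit 76) (nat_lit 408152529) (nat_lit 152) (nat_lit 22299548811) (nat_lit 22) (nat_lit 5) (nat_lit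 23) (nat_lit 5) (nat_lit 24) (nat_lit 4) (nat_lit 412) (nat_lit 322) (nat_lit 286)) (XT.lf (nat_lit 0) (nat_lit 21547419092) (nat_lit 152) (nat_lit 2393726139) (nat_lit 0) (nat_lit 10359067610) (nat_lit 22) (nat_lit 5) (nat_lit 24) (nat_lit 4) (nat_lit 22) (nat_lit 4) (nat_lit 413) (nat_lit 322) (nat_lit 285)))) (XT.nd (nat_lit 78) (nat_lit 152) (nat_lit 0) (XT.lf (nat_lit 0) (nat_lit 19046030812) (nat_lit 76) (nat_lit 13965167922) (nat_lit 76) (nat_lit 2671967793) (nat_lit 21) (nat_lit 4) (nat_lit 22) (nat_lit 5) (nat_lit 22) (nat_lit 4) (nat_lit 414) (nat_lit 322) (nat_lit 284)) (XT.nd (nat_lit 78) (nat_lit 0) (nat_lit 0) (XT.lf (nat_lit 0) (nat_lit 4226785141) (nat_lit 76) (nat_lit 3467717875) (nat_lit 152) (nat_lit 29440406853) (nat_lit 19) (nat_lit 5) (nat_lit 20) (nat_lit 5) (nat_lit 21) (nat_lit 4) (nat_lit 415) (nat_lit 322) (nat_lit 283)) (XT.lf (nat_lit 0) (nat_lit 18643284418) (nat_lit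 152) (nat_lit 12521854814) (nat_lit 0) (nat_lit 7489734129) (nat_lit 19) (nat_lit 5) (nat_lit 21) (nat_lit 4) (nat_lit 19) (nat_lit 4) (nat_lit 416) (nat_lit 322) (nat_lit 282))))) (XT.nd (nat_lit 234) (nat_lit 76) (nat_lit 0) (XT.nd (nat_lit 78) (nat_lit 152) (nat_lit 0) (XT.lf (nat_lit 0) (nat_lit 8783907437) (nat_lit 76) (nat_lit 21354228496) (nat_lit 76) (nat_lit 10112744030) (nat_lit 18) (nat_lit 4) (nat_lit 19) (nat_lit 5) (nat_lit 19) (nat_lit 4) (nat_lit 417) (nat_lit 322) (nat_lit 281)) (XT.nd (nat_lit 78) (nat_lit 76) (nat_lit 0) (XT.lf (nat_lit 0) (nat_lit 287313305) (nat_lit 152) (nat_lit 10741985292) (nat_lit 76) (nat_lit 30896958198) (nat_lit 17) (nat_lit 5) (nat_lit 19) (nat_lit 5) (nat_lit 18) (nat_lit 4) (nat_lit 418) (nat_lit 322) (nat_lit 280)) (XT.lf (nat_lit 0) (nat_lit 10909283810) (nat_lit 76) (nat_lit 82969393) (nat_lit 152) (nat_lit 32690328081) (nat_lit 16) (nat_lit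 5) (nat_lit 17) (nat_lit 5) (nat_lit 18) (nat_lit 4) (nat_lit 419) (nat_lit 322) (nat_lit 279)))) (XT.nd (nat_lit 78) (nat_lit 76) (nat_lit 0) (XT.lf (nat_lit 0) (nat_lit 22343316654) (nat_lit 152) (nat_lit 11983320047) (nat_lit 0) (nat_lit 11196762243) (nat_lit 16) (nat_lit 5) (nat_lit 18) (nat_lit 4) (nat_lit 16) (nat_lit 4) (nat_lit 420) (nat_lit 322) (nat_lit 278)) (XT.nd (nat_lit 78) (nat_lit 0) (nat_lit 0) (XT.lf (nat_lit 0) (nat_lit 9830745942) (nat_lit 76) (nat_lit 24421301100) (nat_lit 76) (nat_lit 13204510120) (nat_lit 15) (nat_lit 4) (nat_lit 16) (nat_lit 5) (nat_lit 16) (nat_lit 4) (nat_lit 421) (nat_lit 322) (nat_lit 277)) (XT.lf (nat_lit 0) (nat_lit 32785441826) (nat_lit 76) (nat_lit 13991990405) (nat_lit 76) (nat_lit 2708307455) (nat_lit 15) (nat_lit 4) (nat_lit 16) (nat_lit 5) (nat_lit 16) (nat_lit 4) (nat_lit 422) (nat_lit 322) (nat_lit 276)))))) (XT.nd (nat_lit 468) (nat_lit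 152) (nat_lit 0) (XT.nd (nat_lit 234) (nat_lit 228) (nat_lit 0) (XT.nd (nat_lit 78) (nat_lit 0) (nat_lit 0) (XT.lf (nat_lit 0) (nat_lit 5098167625) (nat_lit 76) (nat_lit 3003092085) (nat_lit 152) (nat_lit 43514204184) (nat_lit 13) (nat_lit 5) (nat_lit 14) (nat_lit 5) (nat_lit 15) (nat_lit 4) (nat_lit 423) (nat_lit 322) (nat_lit 275)) (XT.nd (nat_lit 78) (nat_lit 0) (nat_lit 0) (XT.lf (nat_lit 0) (nat_lit 19555228079) (nat_lit 152) (nat_lit 25811407163) (nat_lit 0) (nat_lit 8479439170) (nat_lit 13) (nat_lit 5) (nat_lit 15) (nat_lit 4) (nat_lit 13) (nat_lit 4) (nat_lit 424) (nat_lit 322) (nat_lit 274)) (XT.lf (nat_lit 0) (nat_lit 31520540189) (nat_lit 152) (nat_lit 4280867870) (nat_lit 0) (nat_lit 20388650504) (nat_lit 13) (nat_lit 5) (nat_lit 15) (nat_lit 4) (nat_lit 13) (nat_lit 4) (nat_lit 425) (nat_lit 322) (nat_lit 273)))) (XT.nd (nat_lit 78) (nat_lit 152) (nat_lit 0) (XT.lf (nat_lit 0) (nat_lit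 18515761554) (nat_lit 76) (nat_lit 25659040593) (nat_lit 76) (nat_lit 14473721597) (nat_lit 12) (nat_lit 4) (nat_lit 13) (nat_lit 5) (nat_lit 13) (nat_lit 4) (nat_lit 426) (nat_lit 322) (nat_lit 272)) (XT.nd (nat_lit 78) (nat_lit 152) (nat_lit 0) (XT.lf (nat_lit 0) (nat_lit 42374857032) (nat_lit 76) (nat_lit 15046240910) (nat_lit 76) (nat_lit 3810036857) (nat_lit 12) (nat_lit 4) (nat_lit 13) (nat_lit 5) (nat_lit 13) (nat_lit 4) (nat_lit 427) (nat_lit 322) (nat_lit 271)) (XT.lf (nat_lit 0) (nat_lit 3317252321) (nat_lit 76) (nat_lit 3875810897) (nat_lit 152) (nat_lit 56749173811) (nat_lit 10) (nat_lit 5) (nat_lit 11) (nat_lit 5) (nat_lit 12) (nat_lit 4) (nat_lit 428) (nat_lit 322) (nat_lit 270))))) (XT.nd (nat_lit 234) (nat_lit 76) (nat_lit 0) (XT.nd (nat_lit 78) (nat_lit 76) (nat_lit 0) (XT.lf (nat_lit 0) (nat_lit 18859905460) (nat_lit 152) (nat_lit 40062978559) (nat_lit 0) (nat_lit 7859109091)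 (nat_lit 10) (nat_lit 5) (nat_lit 12) (nat_lit 4) (nat_lit 10) (nat_lit 4) (nat_lit 429) (nat_lit 322) (nat_lit 269)) (XT.nd (nat_lit 78) (nat_lit 76) (nat_lit 0) (XT.lf (nat_lit 0) (nat_lit 31073144815) (nat_lit 152) (nat_lit 18662030101) (nat_lit 0) (nat_lit 20029672306) (nat_lit 10) (nat_lit 5) (nat_lit 12) (nat_lit 4) (nat_lit 10) (nat_lit 4) (nat_lit 430) (nat_lit 322) (nat_lit 268)) (XT.lf (nat_lit 0) (nat_lit 3739033990) (nat_lit 76) (nat_lit 40121511653) (nat_lit 76) (nat_lit 29037395199) (nat_lit 9) (nat_lit 4) (nat_lit 10) (nat_lit 5) (nat_lit 10) (nat_lit 4) (nat_lit 431) (nat_lit 322) (nat_lit 267)))) (XT.nd (nat_lit 78) (nat_lit 76) (nat_lit 0) (XT.lf (nat_lit 0) (nat_lit 27511335040) (nat_lit 76) (nat_lit 29897763655) (nat_lit 76) (nat_lit 18774938683) (nat_lit 9) (nat_lit 4) (nat_lit 10) (nat_lit 5) (nat_lit 10) (nat_lit 4) (nat_lit 432) (nat_lit 322) (nat_lit 266)) (XT.nd (nat_lit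 78) (nat_lit 76) (nat_lit 0) (XT.lf (nat_lit 0) (nat_lit 52340062774) (nat_lit 76) (nat_lit 19228038579) (nat_lit 76) (nat_lit 8068348351) (nat_lit 9) (nat_lit 4) (nat_lit 10) (nat_lit 5) (nat_lit 10) (nat_lit 4) (nat_lit 433) (nat_lit 322) (nat_lit 265)) (XT.lf (nat_lit 0) (nat_lit 3047221984) (nat_lit 152) (nat_lit 5008939365) (nat_lit 76) (nat_lit 75206340258) (nat_lit 8) (nat_lit 5) (nat_lit 10) (nat_lit 5) (nat_lit 9) (nat_lit 4) (nat_lit 434) (nat_lit 322) (nat_lit 264))))))) (XT.nd (nat_lit 48984) (nat_lit 0) (nat_lit 3040) (XT.nd (nat_lit 48516) (nat_lit 0) (nat_lit 5776) (XT.nd (nat_lit 234) (nat_lit 0) (nat_lit 0) (XT.nd (nat_lit 78) (nat_lit 0) (nat_lit 0) (XT.lf (nat_lit 0) (nat_lit 14707555875) (nat_lit 152) (nat_lit 68548875534) (nat_lit 0) (nat_lit 3806354061) (nat_lit 7) (nat_lit 5) (nat_lit 9) (nat_lit 4) (nat_lit 7) (nat_lit 4) (nat_lit 435) (nat_lit 322) (nat_lit 263)) (XT.nd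 (nat_lit 78) (nat_lit 0) (nat_lit 0) (XT.lf (nat_lit 0) (nat_lit 27024170723) (nat_lit 152) (nat_lit 47934665375) (nat_lit 0) (nat_lit 16092050857) (nat_lit 7) (nat_lit 5) (nat_lit 9) (nat_lit 4) (nat_lit 7) (nat_lit 4) (nat_lit 436) (nat_lit 322) (nat_lit 262)) (XT.lf (nat_lit 0) (nat_lit 39899357593) (nat_lit 152) (nat_lit 26402963017) (nat_lit 0) (nat_lit 28937791962) (nat_lit 7) (nat_lit 5) (nat_lit 9) (nat_lit 4) (nat_lit 7) (nat_lit 4) (nat_lit 437) (nat_lit 322) (nat_lit 261)))) (XT.nd (nat_lit 48126) (nat_lit 0) (nat_lit 7828) (XT.lf (nat_lit 0) (nat_lit 53363771690) (nat_lit 152) (nat_lit 3902502501) (nat_lit 0) (nat_lit 42374162475) (nat_lit 7) (nat_lit 5) (nat_lit 9) (nat_lit 4) (nat_lit 7) (nat_lit 4) (nat_lit 438) (nat_lit 322) (nat_lit 260)) (XT.nd (nat_lit 78) (nat_lit 228) (nat_lit 0) (XT.lf (nat_lit 0) (nat_lit 1188599349) (nat_lit 304) (nat_lit 2630855548) (nat_lit 0) (nat_lit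 1188599349) (nat_lit 113) (nat_lit 5) (nat_lit 117) (nat_lit 4) (nat_lit 113) (nat_lit 4) (nat_lit 374) (nat_lit 323) (nat_lit 323)) (XT.lf (nat_lit 0) (nat_lit 8833033225) (nat_lit 228) (nat_lit 1311960775) (nat_lit 228) (nat_lit 102753674) (nat_lit 110) (nat_lit 4) (nat_lit 113) (nat_lit 5) (nat_lit 113) (nat_lit 4) (nat_lit 375) (nat_lit 323) (nat_lit 322))))) (XT.nd (nat_lit 234) (nat_lit 912) (nat_lit 0) (XT.nd (nat_lit 78) (nat_lit 608) (nat_lit 0) (XT.lf (nat_lit 0) (nat_lit 2473513904) (nat_lit 228) (nat_lit 5154113940) (nat_lit 228) (nat_lit 2862043153) (nat_lit 103) (nat_lit 4) (nat_lit 106) (nat_lit 5) (nat_lit 106) (nat_lit 4) (nat_lit 376) (nat_lit 323) (nat_lit 321)) (XT.nd (nat_lit 78) (nat_lit 304) (nat_lit 0) (XT.lf (nat_lit 0) (nat_lit 4843242685) (nat_lit 304) (nat_lit 4316655141) (nat_lit 0) (nat_lit 1584104786) (nat_lit 99) (nat_lit 5) (nat_lit 103) (nat_lit 4) (nat_lit 99)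 (nat_lit 4) (nat_lit 377) (nat_lit 323) (nat_lit 320)) (XT.lf (nat_lit 0) (nat_lit 1785936947) (nat_lit 304) (nat_lit 618282517) (nat_lit 76) (nat_lit 8606748090) (nat_lit 95) (nat_lit 5) (nat_lit 99) (nat_lit 5) (nat_lit 96) (nat_lit 4) (nat_lit 378) (nat_lit 323) (nat_lit 319)))) (XT.nd (nat_lit 78) (nat_lit 532) (nat_lit 0) (XT.lf (nat_lit 0) (nat_lit 3127102391) (nat_lit 228) (nat_lit 6596665159) (nat_lit 228) (nat_lit 1566135458) (nat_lit 90) (nat_lit 4) (nat_lit 93) (nat_lit 5) (nat_lit 93) (nat_lit 4) (nat_lit 379) (nat_lit 323) (nat_lit 318)) (XT.nd (nat_lit 78) (nat_lit 304) (nat_lit 0) (XT.lf (nat_lit 0) (nat_lit 6301382249) (nat_lit 228) (nat_lit 4705431424) (nat_lit 0) (nat_lit 575579861) (nat_lit 87) (nat_lit 5) (nat_lit 90) (nat_lit 4) (nat_lit 87) (nat_lit 4) (nat_lit 380) (nat_lit 323) (nat_lit 317)) (XT.lf (nat_lit 0) (nat_lit 2578284410) (nat_lit 304) (nat_lit 1293592625) (nat_lit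 76) (nat_lit 8016769796) (nat_lit 83) (nat_lit 5) (nat_lit 87) (nat_lit 5) (nat_lit 84) (nat_lit 4) (nat_lit 381) (nat_lit 323) (nat_lit 316)))))) (XT.nd (nat_lit 468) (nat_lit 1292) (nat_lit 0) (XT.nd (nat_lit 234) (nat_lit 684) (nat_lit 0) (XT.nd (nat_lit 78) (nat_lit 456) (nat_lit 0) (XT.lf (nat_lit 0) (nat_lit 2123837740) (nat_lit 152) (nat_lit 8581992248) (nat_lit 152) (nat_lit 1503311649) (nat_lit 79) (nat_lit 4) (nat_lit 81) (nat_lit 5) (nat_lit 81) (nat_lit 4) (nat_lit 382) (nat_lit 323) (nat_lit 315)) (XT.nd (nat_lit 78) (nat_lit 228) (nat_lit 0) (XT.lf (nat_lit 0) (nat_lit 5505573850) (nat_lit 152) (nat_lit 1041345897) (nat_lit 228) (nat_lit 5997337529) (nat_lit 76) (nat_lit 5) (nat_lit 78) (nat_lit 5) (nat_lit 79) (nat_lit 4) (nat_lit 383) (nat_lit 323) (nat_lit 314)) (XT.lf (nat_lit 0) (nat_lit 2035465972) (nat_lit 228) (nat_lit 4078729492) (nat_lit 76) (nat_lit 6780826024) (nat_lit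 73) (nat_lit 5) (nat_lit 76) (nat_lit 5) (nat_lit 74) (nat_lit 4) (nat_lit 384) (nat_lit 323) (nat_lit 313)))) (XT.nd (nat_lit 78) (nat_lit 532) (nat_lit 0) (XT.lf (nat_lit 0) (nat_lit 10316119385) (nat_lit 228) (nat_lit 1205398125) (nat_lit 0) (nat_lit 1740944238) (nat_lit 71) (nat_lit 5) (nat_lit 74) (nat_lit 4) (nat_lit 71) (nat_lit 4) (nat_lit 385) (nat_lit 323) (nat_lit 312)) (XT.nd (nat_lit 78) (nat_lit 152) (nat_lit 0) (XT.lf (nat_lit 0) (nat_lit 1572141247) (nat_lit 152) (nat_lit 3709716264) (nat_lit 228) (nat_lit 8364175565) (nat_lit 66) (nat_lit 5) (nat_lit 68) (nat_lit 5) (nat_lit 69) (nat_lit 4) (nat_lit 386) (nat_lit 323) (nat_lit 311)) (XT.lf (nat_lit 0) (nat_lit 4269057190) (nat_lit 152) (nat_lit 9596884905) (nat_lit 152) (nat_lit 181826808) (nat_lit 64) (nat_lit 4) (nat_lit 66) (nat_lit 5) (nat_lit 66) (nat_lit 4) (nat_lit 387) (nat_lit 323) (nat_lit 310))))) (XT.nd (nat_lit 234)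 (nat_lit 760) (nat_lit 0) (XT.nd (nat_lit 78) (nat_lit 304) (nat_lit 0) (XT.lf (nat_lit 0) (nat_lit 6798345539) (nat_lit 152) (nat_lit 1437923814) (nat_lit 228) (nat_lit 6231196655) (nat_lit 61) (nat_lit 5) (nat_lit 63) (nat_lit 5) (nat_lit 64) (nat_lit 4) (nat_lit 388) (nat_lit 323) (nat_lit 309)) (XT.nd (nat_lit 78) (nat_lit 76) (nat_lit 0) (XT.lf (nat_lit 0) (nat_lit 2147895809) (nat_lit 228) (nat_lit 5740158435) (nat_lit 76) (nat_lit 7018634937) (nat_lit 58) (nat_lit 5) (nat_lit 61) (nat_lit 5) (nat_lit 59) (nat_lit 4) (nat_lit 389) (nat_lit 323) (nat_lit 308)) (XT.lf (nat_lit 0) (nat_lit 10800038543) (nat_lit 152) (nat_lit 4005478217) (nat_lit 0) (nat_lit 561035944) (nat_lit 57) (nat_lit 5) (nat_lit 59) (nat_lit 4) (nat_lit 57) (nat_lit 4) (nat_lit 390) (nat_lit 323) (nat_lit 307)))) (XT.nd (nat_lit 156) (nat_lit 456) (nat_lit 0) (XT.nd (nat_lit 78) (nat_lit 76) (nat_lit 0) (XT.lf (nat_lit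 0) (nat_lit 4002739828) (nat_lit 228) (nat_lit 2525632840) (nat_lit 76) (nat_lit 9318507450) (nat_lit 54) (nat_lit 5) (nat_lit 57) (nat_lit 5) (nat_lit 55) (nat_lit 4) (nat_lit 391) (nat_lit 323) (nat_lit 306)) (XT.lf (nat_lit 0) (nat_lit 12897512759) (nat_lit 152) (nat_lit 1277209507) (nat_lit 0) (nat_lit 2175417041) (nat_lit 53) (nat_lit 5) (nat_lit 55) (nat_lit 4) (nat_lit 53) (nat_lit 4) (nat_lit 392) (nat_lit 323) (nat_lit 305))) (XT.nd (nat_lit 78) (nat_lit 228) (nat_lit 0) (XT.lf (nat_lit 0) (nat_lit 5293330688) (nat_lit 228) (nat_lit 339615371) (nat_lit 76) (nat_lit 11242902709) (nat_lit 50) (nat_lit 5) (nat_lit 53) (nat_lit 5) (nat_lit 51) (nat_lit 4) (nat_lit 393) (nat_lit 323) (nat_lit 304)) (XT.lf (nat_lit 0) (nat_lit 310090889) (nat_lit 152) (nat_lit 14107109556) (nat_lit 152) (nat_lit 3009271874) (nat_lit 47) (nat_lit 4) (nat_lit 49) (nat_lit 5) (nat_lit 49) (nat_lit 4) (nat_lit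 394) (nat_lit 323) (nat_lit 303))))))))
noncomputable def xc21 : XT := (XT.nd (nat_lit 1950) (nat_lit 760) (nat_lit 0) (XT.nd (nat_lit 936) (nat_lit 912) (nat_lit 0) (XT.nd (nat_lit 468) (nat_lit 608) (nat_lit 0) (XT.nd (nat_lit 234) (nat_lit 380) (nat_lit 0) (XT.nd (nat_lit 78) (nat_lit 228) (nat_lit 0) (XT.lf (nat_lit 0) (nat_lit 582692642) (nat_lit 76) (nat_lit 5328723808) (nat_lit 152) (nat_lit 12090424565) (nat_lit 45) (nat_lit 5) (nat_lit 46) (nat_lit 5) (nat_lit 47) (nat_lit 4) (nat_lit 395) (nat_lit 323) (nat_lit 302)) (XT.nd (nat_lit 78) (nat_lit 76) (nat_lit 0) (XT.lf (nat_lit 0) (nat_lit 478181271) (nat_lit 152) (nat_lit 14753467757) (nat_lit 152) (nat_lit 3372975885) (nat_lit 43) (nat_lit 4) (nat_lit 45) (nat_lit 5) (nat_lit 45) (nat_lit 4) (nat_lit 396) (nat_lit 323) (nat_lit 301)) (XT.lf (nat_lit 0) (nat_lit 5701846638) (nat_lit 228) (nat_lit 87226207) (nat_lit 76) (nat_lit 13445791349)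 (nat_lit 42) (nat_lit 5) (nat_lit 45) (nat_lit 5) (nat_lit 43) (nat_lit 4) (nat_lit 397) (nat_lit 323) (nat_lit 300)))) (XT.nd (nat_lit 78) (nat_lit 304) (nat_lit 0) (XT.lf (nat_lit 0) (nat_lit 15186584155) (nat_lit 152) (nat_lit 1104255377) (nat_lit 0) (nat_lit 3604007513) (nat_lit 41) (nat_lit 5) (nat_lit 43) (nat_lit 4) (nat_lit 41) (nat_lit 4) (nat_lit 398) (nat_lit 323) (nat_lit 299)) (XT.nd (nat_lit 78) (nat_lit 76) (nat_lit 0) (XT.lf (nat_lit 0) (nat_lit 4514373958) (nat_lit 228) (nat_lit 2666274581) (nat_lit 76) (nat_lit 13404509266) (nat_lit 38) (nat_lit 5) (nat_lit 41) (nat_lit 5) (nat_lit 39) (nat_lit 4) (nat_lit 399) (nat_lit 323) (nat_lit 298)) (XT.lf (nat_lit 0) (nat_lit 14112506101) (nat_lit 152) (nat_lit 4798306238) (nat_lit 0) (nat_lit 2397431223) (nat_lit 37) (nat_lit 5) (nat_lit 39) (nat_lit 4) (nat_lit 37) (nat_lit 4) (nat_lit 400) (nat_lit 323) (nat_lit 297))))) (XT.nd (nat_lit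 234) (nat_lit 304) (nat_lit 0) (XT.nd (nat_lit 78) (nat_lit 152) (nat_lit 0) (XT.lf (nat_lit 0) (nat_lit 2142676912) (nat_lit 152) (nat_lit 7583724061) (nat_lit 76) (nat_lit 12338648381) (nat_lit 35) (nat_lit 5) (nat_lit 37) (nat_lit 5) (nat_lit 36) (nat_lit 4) (nat_lit 401) (nat_lit 323) (nat_lit 296)) (XT.nd (nat_lit 78) (nat_lit 76) (nat_lit 0) (XT.lf (nat_lit 0) (nat_lit 11788251472) (nat_lit 152) (nat_lit 11069010778) (nat_lit 0) (nat_lit 632961) (nat_lit 34) (nat_lit 5) (nat_lit 36) (nat_lit 4) (nat_lit 34) (nat_lit 4) (nat_lit 402) (nat_lit 323) (nat_lit 295)) (XT.lf (nat_lit 0) (nat_lit 8335211965) (nat_lit 76) (nat_lit 13666230476) (nat_lit 76) (nat_lit 1686389244) (nat_lit 33) (nat_lit 4) (nat_lit 34) (nat_lit 5) (nat_lit 34) (nat_lit 4) (nat_lit 403) (nat_lit 323) (nat_lit 294)))) (XT.nd (nat_lit 78) (nat_lit 152) (nat_lit 0) (XT.lf (nat_lit 0) (nat_lit 4061763899) (nat_lit 76) (nat_lit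 3930686538) (nat_lit 152) (nat_lit 16564894322) (nat_lit 31) (nat_lit 5) (nat_lit 32) (nat_lit 5) (nat_lit 33) (nat_lit 4) (nat_lit 404) (nat_lit 323) (nat_lit 293)) (XT.nd (nat_lit 78) (nat_lit 152) (nat_lit 0) (XT.lf (nat_lit 0) (nat_lit 18175973066) (nat_lit 152) (nat_lit 1094149778) (nat_lit 0) (nat_lit 6198048636) (nat_lit 31) (nat_lit 5) (nat_lit 33) (nat_lit 4) (nat_lit 31) (nat_lit 4) (nat_lit 405) (nat_lit 323) (nat_lit 292)) (XT.lf (nat_lit 0) (nat_lit 2465480573) (nat_lit 152) (nat_lit 7134211695) (nat_lit 76) (nat_lit 16822078055) (nat_lit 29) (nat_lit 5) (nat_lit 31) (nat_lit 5) (nat_lit 30) (nat_lit 4) (nat_lit 406) (nat_lit 323) (nat_lit 291)))))) (XT.nd (nat_lit 468) (nat_lit 456) (nat_lit 0) (XT.nd (nat_lit 234) (nat_lit 228) (nat_lit 0) (XT.nd (nat_lit 78) (nat_lit 152) (nat_lit 0) (XT.lf (nat_lit 0) (nat_lit 12551902261) (nat_lit 152) (nat_lit 14251969220) (nat_lit 0) (nat_lit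 617268003) (nat_lit 28) (nat_lit 5) (nat_lit 30) (nat_lit 4) (nat_lit 28) (nat_lit 4) (nat_lit 407) (nat_lit 323) (nat_lit 290)) (XT.nd (nat_lit 78) (nat_lit 76) (nat_lit 0) (XT.lf (nat_lit 0) (nat_lit 5894801379) (nat_lit 76) (nat_lit 17324983915) (nat_lit 76) (nat_lit 5248383844) (nat_lit 27) (nat_lit 4) (nat_lit 28) (nat_lit 5) (nat_lit 28) (nat_lit 4) (nat_lit 408) (nat_lit 323) (nat_lit 289)) (XT.lf (nat_lit 0) (nat_lit 4759382579) (nat_lit 152) (nat_lit 2550258971) (nat_lit 76) (nat_lit 22256497454) (nat_lit 26) (nat_lit 5) (nat_lit 28) (nat_lit 5) (nat_lit 27) (nat_lit 4) (nat_lit 409) (nat_lit 323) (nat_lit 288)))) (XT.nd (nat_lit 78) (nat_lit 152) (nat_lit 0) (XT.lf (nat_lit 0) (nat_lit 15229219705) (nat_lit 152) (nat_lit 12238046340) (nat_lit 0) (nat_lit 3248081079) (nat_lit 25) (nat_lit 5) (nat_lit 27) (nat_lit 4) (nat_lit 25) (nat_lit 4) (nat_lit 410) (nat_lit 323) (nat_lit 287))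 (XT.nd (nat_lit 78) (nat_lit 76) (nat_lit 0) (XT.lf (nat_lit 0) (nat_lit 8513190656) (nat_lit 76) (nat_lit 17753848817) (nat_lit 76) (nat_lit 5653646688) (nat_lit 24) (nat_lit 4) (nat_lit 25) (nat_lit 5) (nat_lit 25) (nat_lit 4) (nat_lit 411) (nat_lit 323) (nat_lit 286)) (XT.lf (nat_lit 0) (nat_lit 4571645781) (nat_lit 152) (nat_lit 2933155003) (nat_lit 76) (nat_lit 25680379593) (nat_lit 23) (nat_lit 5) (nat_lit 25) (nat_lit 5) (nat_lit 24) (nat_lit 4) (nat_lit 412) (nat_lit 323) (nat_lit 285))))) (XT.nd (nat_lit 234) (nat_lit 228) (nat_lit 0) (XT.nd (nat_lit 78) (nat_lit 152) (nat_lit 0) (XT.lf (nat_lit 0) (nat_lit 15275363533) (nat_lit 152) (nat_lit 15920683728) (nat_lit 0) (nat_lit 3312654751) (nat_lit 22) (nat_lit 5) (nat_lit 24) (nat_lit 4) (nat_lit 22) (nat_lit 4) (nat_lit 413) (nat_lit 323) (nat_lit 284)) (XT.nd (nat_lit 78) (nat_lit 76) (nat_lit 0) (XT.lf (nat_lit 0) (nat_lit 5127872819)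 (nat_lit 76) (nat_lit 21416102349) (nat_lit 76) (nat_lit 9353537712) (nat_lit 21) (nat_lit 4) (nat_lit 22) (nat_lit 5) (nat_lit 22) (nat_lit 4) (nat_lit 414) (nat_lit 323) (nat_lit 283)) (XT.lf (nat_lit 0) (nat_lit 1042520157) (nat_lit 152) (nat_lit 10041349530) (nat_lit 76) (nat_lit 26270339169) (nat_lit 20) (nat_lit 5) (nat_lit 22) (nat_lit 5) (nat_lit 21) (nat_lit 4) (nat_lit 415) (nat_lit 323) (nat_lit 282)))) (XT.nd (nat_lit 156) (nat_lit 152) (nat_lit 0) (XT.nd (nat_lit 78) (nat_lit 0) (nat_lit 0) (XT.lf (nat_lit 0) (nat_lit 11626659712) (nat_lit 76) (nat_lit 134373472) (nat_lit 152) (nat_lit 27120049101) (nat_lit 19) (nat_lit 5) (nat_lit 20) (nat_lit 5) (nat_lit 21) (nat_lit 4) (nat_lit 416) (nat_lit 323) (nat_lit 281)) (XT.lf (nat_lit 0) (nat_lit 23114033262) (nat_lit 152) (nat_lit 6228519408) (nat_lit 0) (nat_lit 11138793558) (nat_lit 19) (nat_lit 5) (nat_lit 21) (nat_lit 4) (nat_lit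 19) (nat_lit 4) (nat_lit 417) (nat_lit 323) (nat_lit 280))) (XT.nd (nat_lit 78) (nat_lit 76) (nat_lit 0) (XT.lf (nat_lit 0) (nat_lit 15944186937) (nat_lit 76) (nat_lit 19135543558) (nat_lit 76) (nat_lit 7080544963) (nat_lit 18) (nat_lit 4) (nat_lit 19) (nat_lit 5) (nat_lit 19) (nat_lit 4) (nat_lit 418) (nat_lit 323) (nat_lit 279)) (XT.lf (nat_lit 0) (nat_lit 3605298342) (nat_lit 152) (nat_lit 4812203809) (nat_lit 76) (nat_lit 35505859161) (nat_lit 17) (nat_lit 5) (nat_lit 19) (nat_lit 5) (nat_lit 18) (nat_lit 4) (nat_lit 419) (nat_lit 323) (nat_lit 278))))))) (XT.nd (nat_lit 936) (nat_lit 228) (nat_lit 0) (XT.nd (nat_lit 468) (nat_lit 228) (nat_lit 0) (XT.nd (nat_lit 234) (nat_lit 152) (nat_lit 0) (XT.nd (nat_lit 78) (nat_lit 76) (nat_lit 0) (XT.lf (nat_lit 0) (nat_lit 14777271384) (nat_lit 152) (nat_lit 28062877521) (nat_lit 0) (nat_lit 2929404286) (nat_lit 16) (nat_lit 5) (nat_lit 18) (nat_lit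 4) (nat_lit 16) (nat_lit 4) (nat_lit 420) (nat_lit 323) (nat_lit 277)) (XT.nd (nat_lit 78) (nat_lit 76) (nat_lit 0) (XT.lf (nat_lit 0) (nat_lit 26542618629) (nat_lit 152) (nat_lit 6536536148) (nat_lit 0) (nat_lit 14627859562) (nat_lit 16) (nat_lit 5) (nat_lit 18) (nat_lit 4) (nat_lit 16) (nat_lit 4) (nat_lit 421) (nat_lit 323) (nat_lit 276)) (XT.lf (nat_lit 0) (nat_lit 16194927201) (nat_lit 76) (nat_lit 22761541395) (nat_lit 76) (nat_lit 10783075689) (nat_lit 15) (nat_lit 4) (nat_lit 16) (nat_lit 5) (nat_lit 16) (nat_lit 4) (nat_lit 422) (nat_lit 323) (nat_lit 275)))) (XT.nd (nat_lit 78) (nat_lit 76) (nat_lit 0) (XT.lf (nat_lit 0) (nat_lit 89411925) (nat_lit 152) (nat_lit 11857632486) (nat_lit 76) (nat_lit 39927393356) (nat_lit 14) (nat_lit 5) (nat_lit 16) (nat_lit 5) (nat_lit 15) (nat_lit 4) (nat_lit 423) (nat_lit 323) (nat_lit 274)) (XT.nd (nat_lit 78) (nat_lit 0) (nat_lit 0) (XT.lf (nat_lit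 0) (nat_lit 10841454674) (nat_lit 76) (nat_lit 458238511) (nat_lit 152) (nat_lit 42812666915) (nat_lit 13) (nat_lit 5) (nat_lit 14) (nat_lit 5) (nat_lit 15) (nat_lit 4) (nat_lit 424) (nat_lit 323) (nat_lit 273)) (XT.lf (nat_lit 0) (nat_lit 23218014776) (nat_lit 152) (nat_lit 21819739817) (nat_lit 0) (nat_lit 11420000520) (nat_lit 13) (nat_lit 5) (nat_lit 15) (nat_lit 4) (nat_lit 13) (nat_lit 4) (nat_lit 425) (nat_lit 323) (nat_lit 272))))) (XT.nd (nat_lit 234) (nat_lit 152) (nat_lit 0) (XT.nd (nat_lit 78) (nat_lit 0) (nat_lit 0) (XT.lf (nat_lit 0) (nat_lit 546454609) (nat_lit 76) (nat_lit 35112532391) (nat_lit 76) (nat_lit 23263633078) (nat_lit 12) (nat_lit 4) (nat_lit 13) (nat_lit 5) (nat_lit 13) (nat_lit 4) (nat_lit 426) (nat_lit 323) (nat_lit 271)) (XT.nd (nat_lit 78) (nat_lit 0) (nat_lit 0) (XT.lf (nat_lit 0) (nat_lit 24328048128) (nat_lit 76) (nat_lit 24537863230) (nat_lit 76) (nat_lit 12640501958)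 (nat_lit 12) (nat_lit 4) (nat_lit 13) (nat_lit 5) (nat_lit 13) (nat_lit 4) (nat_lit 427) (nat_lit 323) (nat_lit 270)) (XT.lf (nat_lit 0) (nat_lit 49147407975) (nat_lit 76) (nat_lit 13508905915) (nat_lit 76) (nat_lit 1565390396) (nat_lit 12) (nat_lit 4) (nat_lit 13) (nat_lit 5) (nat_lit 13) (nat_lit 4) (nat_lit 428) (nat_lit 323) (nat_lit 269)))) (XT.nd (nat_lit 78) (nat_lit 0) (nat_lit 0) (XT.lf (nat_lit 0) (nat_lit 8049737826) (nat_lit 76) (nat_lit 1820808859) (nat_lit 152) (nat_lit 57199209569) (nat_lit 10) (nat_lit 5) (nat_lit 11) (nat_lit 5) (nat_lit 12) (nat_lit 4) (nat_lit 429) (nat_lit 323) (nat_lit 268)) (XT.nd (nat_lit 78) (nat_lit 0) (nat_lit 0) (XT.lf (nat_lit 0) (nat_lit 22030945567) (nat_lit 152) (nat_lit 37671271539) (nat_lit 0) (nat_lit 10351979346) (nat_lit 10) (nat_lit 5) (nat_lit 12) (nat_lit 4) (nat_lit 10) (nat_lit 4) (nat_lit 430) (nat_lit 323) (nat_lit 267)) (XT.lf (nat_lit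 0) (nat_lit 34748749517) (nat_lit 152) (nat_lit 15409554513) (nat_lit 0) (nat_lit 23031074778) (nat_lit 10) (nat_lit 5) (nat_lit 12) (nat_lit 4) (nat_lit 10) (nat_lit 4) (nat_lit 431) (nat_lit 323) (nat_lit 266)))))) (XT.nd (nat_lit 468) (nat_lit 0) (nat_lit 0) (XT.nd (nat_lit 234) (nat_lit 152) (nat_lit 0) (XT.nd (nat_lit 78) (nat_lit 0) (nat_lit 0) (XT.lf (nat_lit 0) (nat_lit 7991584056) (nat_lit 76) (nat_lit 40121972232) (nat_lit 76) (nat_lit 28367432237) (nat_lit 9) (nat_lit 4) (nat_lit 10) (nat_lit 5) (nat_lit 10) (nat_lit 4) (nat_lit 432) (nat_lit 323) (nat_lit 265)) (XT.nd (nat_lit 78) (nat_lit 0) (nat_lit 0) (XT.lf (nat_lit 0) (nat_lit 32758900236) (nat_lit 76) (nat_lit 29482542311) (nat_lit 76) (nat_lit 17692892549) (nat_lit 9) (nat_lit 4) (nat_lit 10) (nat_lit 5) (nat_lit 10) (nat_lit 4) (nat_lit 433) (nat_lit 323) (nat_lit 264)) (XT.lf (nat_lit 0) (nat_lit 58644683478) (nat_lit 76)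 (nat_lit 18370288577) (nat_lit 76) (nat_lit 6547200942) (nat_lit 9) (nat_lit 4) (nat_lit 10) (nat_lit 5) (nat_lit 10) (nat_lit 4) (nat_lit 434) (nat_lit 323) (nat_lit 263)))) (XT.nd (nat_lit 78) (nat_lit 76) (nat_lit 0) (XT.lf (nat_lit 0) (nat_lit 4996735117) (nat_lit 152) (nat_lit 1711560940) (nat_lit 76) (nat_lit 80663374255) (nat_lit 8) (nat_lit 5) (nat_lit 10) (nat_lit 5) (nat_lit 9) (nat_lit 4) (nat_lit 435) (nat_lit 323) (nat_lit 262)) (XT.nd (nat_lit 78) (nat_lit 0) (nat_lit 0) (XT.lf (nat_lit 0) (nat_lit 17203988488) (nat_lit 152) (nat_lit 68494165973) (nat_lit 0) (nat_lit 5664898812) (nat_lit 7) (nat_lit 5) (nat_lit 9) (nat_lit 4) (nat_lit 7) (nat_lit 4) (nat_lit 436) (nat_lit 323) (nat_lit 261)) (XT.lf (nat_lit 0) (nat_lit 30052574326) (nat_lit 152) (nat_lit 47015062132) (nat_lit 0) (nat_lit 18485441065) (nat_lit 7) (nat_lit 5) (nat_lit 9) (nat_lit 4) (nat_lit 7) (nat_lit 4) (nat_lit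 437) (nat_lit 323) (nat_lit 260))))) (XT.nd (nat_lit 48126) (nat_lit 0) (nat_lit 6992) (XT.nd (nat_lit 47970) (nat_lit 0) (nat_lit 8360) (XT.lf (nat_lit 0) (nat_lit 43491654107) (nat_lit 152) (nat_lit 24564695443) (nat_lit 0) (nat_lit 31897812670) (nat_lit 7) (nat_lit 5) (nat_lit 9) (nat_lit 4) (nat_lit 7) (nat_lit 4) (nat_lit 438) (nat_lit 323) (nat_lit 259)) (XT.nd (nat_lit 78) (nat_lit 608) (nat_lit 0) (XT.lf (nat_lit 0) (nat_lit 3304417043) (nat_lit 304) (nat_lit 743486458) (nat_lit 304) (nat_lit 743486458) (nat_lit 125) (nat_lit 4) (nat_lit 129) (nat_lit 5) (nat_lit 129) (nat_lit 4) (nat_lit 372) (nat_lit 324) (nat_lit 324)) (XT.lf (nat_lit 0) (nat_lit 719670824) (nat_lit 304) (nat_lit 5192121417) (nat_lit 304) (nat_lit 3884363938) (nat_lit 117) (nat_lit 4) (nat_lit 121) (nat_lit 5) (nat_lit 121) (nat_lit 4) (nat_lit 373) (nat_lit 324) (nat_lit 323)))) (XT.nd (nat_lit 156) (nat_lit 760)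 (nat_lit 0) (XT.nd (nat_lit 78) (nat_lit 304) (nat_lit 0) (XT.lf (nat_lit 0) (nat_lit 3504387213) (nat_lit 304) (nat_lit 5490508928) (nat_lit 0) (nat_lit 1025512657) (nat_lit 113) (nat_lit 5) (nat_lit 117) (nat_lit 4) (nat_lit 113) (nat_lit 4) (nat_lit 374) (nat_lit 324) (nat_lit 322)) (XT.lf (nat_lit 0) (nat_lit 858743300) (nat_lit 304) (nat_lit 1887251465) (nat_lit 76) (nat_lit 7510027555) (nat_lit 109) (nat_lit 5) (nat_lit 113) (nat_lit 5) (nat_lit 110) (nat_lit 4) (nat_lit 375) (nat_lit 324) (nat_lit 321))) (XT.nd (nat_lit 78) (nat_lit 304) (nat_lit 0) (XT.lf (nat_lit 0) (nat_lit 1760242602) (nat_lit 228) (nat_lit 6666059827) (nat_lit 228) (nat_lit 2076460942) (nat_lit 103) (nat_lit 4) (nat_lit 106) (nat_lit 5) (nat_lit 106) (nat_lit 4) (nat_lit 376) (nat_lit 324) (nat_lit 320)) (XT.lf (nat_lit 0) (nat_lit 5456350185) (nat_lit 304) (nat_lit 5289421418) (nat_lit 0) (nat_lit 15832314) (nat_lit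 99) (nat_lit 5) (nat_lit 103) (nat_lit 4) (nat_lit 99) (nat_lit 4) (nat_lit 377) (nat_lit 324) (nat_lit 319))))))))
noncomputable def xc22 : XT := (XT.nd (nat_lit 1950) (nat_lit 1672) (nat_lit 0) (XT.nd (nat_lit 936) (nat_lit 1824) (nat_lit 0) (XT.nd (nat_lit 468) (nat_lit 1368) (nat_lit 0) (XT.nd (nat_lit 234) (nat_lit 836) (nat_lit 0) (XT.nd (nat_lit 78) (nat_lit 608) (nat_lit 0) (XT.lf (nat_lit 0) (nat_lit 2227795334) (nat_lit 304) (nat_lit 1855804411) (nat_lit 76) (nat_lit 6949077733) (nat_lit 95) (nat_lit 5) (nat_lit 99) (nat_lit 5) (nat_lit 96) (nat_lit 4) (nat_lit 378) (nat_lit 324) (nat_lit 318)) (XT.nd (nat_lit 78) (nat_lit 228) (nat_lit 0) (XT.lf (nat_lit 0) (nat_lit 1611014519) (nat_lit 228) (nat_lit 8382639111) (nat_lit 228) (nat_lit 1323137069) (nat_lit 90) (nat_lit 4) (nat_lit 93) (nat_lit 5) (nat_lit 93) (nat_lit 4) (nat_lit 379) (nat_lit 324) (nat_lit 317)) (XT.lf (nat_lit 0)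 (nat_lit 5087627709) (nat_lit 152) (nat_lit 1302957792) (nat_lit 228) (nat_lit 5223114446) (nat_lit 87) (nat_lit 5) (nat_lit 89) (nat_lit 5) (nat_lit 90) (nat_lit 4) (nat_lit 380) (nat_lit 324) (nat_lit 316)))) (XT.nd (nat_lit 78) (nat_lit 532) (nat_lit 0) (XT.lf (nat_lit 0) (nat_lit 2478188617) (nat_lit 304) (nat_lit 3388401212) (nat_lit 76) (nat_lit 6058068505) (nat_lit 83) (nat_lit 5) (nat_lit 87) (nat_lit 5) (nat_lit 84) (nat_lit 4) (nat_lit 381) (nat_lit 324) (nat_lit 315)) (XT.nd (nat_lit 78) (nat_lit 380) (nat_lit 0) (XT.lf (nat_lit 0) (nat_lit 10422207035) (nat_lit 228) (nat_lit 286159568) (nat_lit 0) (nat_lit 1542307497) (nat_lit 81) (nat_lit 5) (nat_lit 84) (nat_lit 4) (nat_lit 81) (nat_lit 4) (nat_lit 382) (nat_lit 324) (nat_lit 314)) (XT.lf (nat_lit 0) (nat_lit 2787315330) (nat_lit 152) (nat_lit 3291299846) (nat_lit 228) (nat_lit 6511767155) (nat_lit 76) (nat_lit 5) (nat_lit 78) (nat_lit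 5) (nat_lit 79) (nat_lit 4) (nat_lit 383) (nat_lit 324) (nat_lit 313))))) (XT.nd (nat_lit 234) (nat_lit 760) (nat_lit 0) (XT.nd (nat_lit 78) (nat_lit 380) (nat_lit 0) (XT.lf (nat_lit 0) (nat_lit 1361232235) (nat_lit 228) (nat_lit 7132455468) (nat_lit 76) (nat_lit 4452715413) (nat_lit 73) (nat_lit 5) (nat_lit 76) (nat_lit 5) (nat_lit 74) (nat_lit 4) (nat_lit 384) (nat_lit 324) (nat_lit 312)) (XT.nd (nat_lit 78) (nat_lit 228) (nat_lit 0) (XT.lf (nat_lit 0) (nat_lit 8752054549) (nat_lit 152) (nat_lit 725734338) (nat_lit 228) (nat_lit 3840989724) (nat_lit 71) (nat_lit 5) (nat_lit 73) (nat_lit 5) (nat_lit 74) (nat_lit 4) (nat_lit 385) (nat_lit 324) (nat_lit 311)) (XT.lf (nat_lit 0) (nat_lit 4233840334) (nat_lit 228) (nat_lit 2135169791) (nat_lit 76) (nat_lit 7338734040) (nat_lit 68) (nat_lit 5) (nat_lit 71) (nat_lit 5) (nat_lit 69) (nat_lit 4) (nat_lit 386) (nat_lit 324) (nat_lit 310)))) (XT.nd (nat_lit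 78) (nat_lit 456) (nat_lit 0) (XT.lf (nat_lit 0) (nat_lit 199691566) (nat_lit 152) (nat_lit 12419662438) (nat_lit 152) (nat_lit 1496093975) (nat_lit 64) (nat_lit 4) (nat_lit 66) (nat_lit 5) (nat_lit 66) (nat_lit 4) (nat_lit 387) (nat_lit 324) (nat_lit 309)) (XT.nd (nat_lit 78) (nat_lit 228) (nat_lit 0) (XT.lf (nat_lit 0) (nat_lit 2387916515) (nat_lit 152) (nat_lit 4406961447) (nat_lit 228) (nat_lit 7745239276) (nat_lit 61) (nat_lit 5) (nat_lit 63) (nat_lit 5) (nat_lit 64) (nat_lit 4) (nat_lit 388) (nat_lit 324) (nat_lit 308)) (XT.lf (nat_lit 0) (nat_lit 479622760) (nat_lit 228) (nat_lit 10545632855) (nat_lit 76) (nat_lit 3960043944) (nat_lit 58) (nat_lit 5) (nat_lit 61) (nat_lit 5) (nat_lit 59) (nat_lit 4) (nat_lit 389) (nat_lit 324) (nat_lit 307)))))) (XT.nd (nat_lit 468) (nat_lit 912) (nat_lit 0) (XT.nd (nat_lit 234) (nat_lit 532) (nat_lit 0) (XT.nd (nat_lit 78) (nat_lit 304) (nat_lit 0) (XT.lf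 (nat_lit 0) (nat_lit 6268706757) (nat_lit 76) (nat_lit 2702983721) (nat_lit 152) (nat_lit 6478283696) (nat_lit 57) (nat_lit 5) (nat_lit 58) (nat_lit 5) (nat_lit 59) (nat_lit 4) (nat_lit 390) (nat_lit 324) (nat_lit 306)) (XT.nd (nat_lit 78) (nat_lit 76) (nat_lit 0) (XT.lf (nat_lit 0) (nat_lit 1944974814) (nat_lit 228) (nat_lit 8040211543) (nat_lit 76) (nat_lit 5951173748) (nat_lit 54) (nat_lit 5) (nat_lit 57) (nat_lit 5) (nat_lit 55) (nat_lit 4) (nat_lit 391) (nat_lit 324) (nat_lit 305)) (XT.lf (nat_lit 0) (nat_lit 9280477679) (nat_lit 76) (nat_lit 1381028959) (nat_lit 152) (nat_lit 5783467677) (nat_lit 53) (nat_lit 5) (nat_lit 54) (nat_lit 5) (nat_lit 55) (nat_lit 4) (nat_lit 392) (nat_lit 324) (nat_lit 304)))) (XT.nd (nat_lit 78) (nat_lit 304) (nat_lit 0) (XT.lf (nat_lit 0) (nat_lit 2834858587) (nat_lit 228) (nat_lit 6593244663) (nat_lit 76) (nat_lit 7548453310) (nat_lit 50) (nat_lit 5) (nat_lit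 53) (nat_lit 5) (nat_lit 51) (nat_lit 4) (nat_lit 393) (nat_lit 324) (nat_lit 303)) (XT.nd (nat_lit 78) (nat_lit 228) (nat_lit 0) (XT.lf (nat_lit 0) (nat_lit 11202556154) (nat_lit 76) (nat_lit 560891221) (nat_lit 152) (nat_lit 5769598022) (nat_lit 49) (nat_lit 5) (nat_lit 50) (nat_lit 5) (nat_lit 51) (nat_lit 4) (nat_lit 394) (nat_lit 324) (nat_lit 302)) (XT.lf (nat_lit 0) (nat_lit 3034025487) (nat_lit 228) (nat_lit 6453354097) (nat_lit 76) (nat_lit 8626964729) (nat_lit 46) (nat_lit 5) (nat_lit 49) (nat_lit 5) (nat_lit 47) (nat_lit 4) (nat_lit 395) (nat_lit 324) (nat_lit 301))))) (XT.nd (nat_lit 234) (nat_lit 532) (nat_lit 0) (XT.nd (nat_lit 78) (nat_lit 304) (nat_lit 0) (XT.lf (nat_lit 0) (nat_lit 11770985594) (nat_lit 76) (nat_lit 383368559) (nat_lit 152) (nat_lit 6568777214) (nat_lit 45) (nat_lit 5) (nat_lit 46) (nat_lit 5) (nat_lit 47) (nat_lit 4) (nat_lit 396) (nat_lit 324) (nat_lit 300))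 (XT.nd (nat_lit 78) (nat_lit 76) (nat_lit 0) (XT.lf (nat_lit 0) (nat_lit 2402705100) (nat_lit 228) (nat_lit 7917144343) (nat_lit 76) (nat_lit 9039419443) (nat_lit 42) (nat_lit 5) (nat_lit 45) (nat_lit 5) (nat_lit 43) (nat_lit 4) (nat_lit 397) (nat_lit 324) (nat_lit 299)) (XT.lf (nat_lit 0) (nat_lit 10670515742) (nat_lit 76) (nat_lit 1014442300) (nat_lit 152) (nat_lit 8340373548) (nat_lit 41) (nat_lit 5) (nat_lit 42) (nat_lit 5) (nat_lit 43) (nat_lit 4) (nat_lit 398) (nat_lit 324) (nat_lit 298)))) (XT.nd (nat_lit 156) (nat_lit 228) (nat_lit 0) (XT.nd (nat_lit 78) (nat_lit 76) (nat_lit 0) (XT.lf (nat_lit 0) (nat_lit 772387453) (nat_lit 228) (nat_lit 11337980356) (nat_lit 76) (nat_lit 8611749423) (nat_lit 38) (nat_lit 5) (nat_lit 41) (nat_lit 5) (nat_lit 39) (nat_lit 4) (nat_lit 399) (nat_lit 324) (nat_lit 297)) (XT.lf (nat_lit 0) (nat_lit 7525217416) (nat_lit 76) (nat_lit 2650140277) (nat_lit 152)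 (nat_lit 11275704835) (nat_lit 37) (nat_lit 5) (nat_lit 38) (nat_lit 5) (nat_lit 39) (nat_lit 4) (nat_lit 400) (nat_lit 324) (nat_lit 296))) (XT.nd (nat_lit 78) (nat_lit 152) (nat_lit 0) (XT.lf (nat_lit 0) (nat_lit 5058027928) (nat_lit 76) (nat_lit 15056329088) (nat_lit 76) (nat_lit 2100130796) (nat_lit 36) (nat_lit 4) (nat_lit 37) (nat_lit 5) (nat_lit 37) (nat_lit 4) (nat_lit 401) (nat_lit 324) (nat_lit 295)) (XT.lf (nat_lit 0) (nat_lit 1887483325) (nat_lit 76) (nat_lit 5522206831) (nat_lit 152) (nat_lit 15603555311) (nat_lit 34) (nat_lit 5) (nat_lit 35) (nat_lit 5) (nat_lit 36) (nat_lit 4) (nat_lit 402) (nat_lit 324) (nat_lit 294))))))) (XT.nd (nat_lit 936) (nat_lit 760) (nat_lit 0) (XT.nd (nat_lit 468) (nat_lit 456) (nat_lit 0) (XT.nd (nat_lit 234) (nat_lit 228) (nat_lit 0) (XT.nd (nat_lit 78) (nat_lit 228) (nat_lit 0) (XT.lf (nat_lit 0) (nat_lit 17409862319) (nat_lit 152) (nat_lit 1983977065)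 (nat_lit 0) (nat_lit 4455737048) (nat_lit 34) (nat_lit 5) (nat_lit 36) (nat_lit 4) (nat_lit 34) (nat_lit 4) (nat_lit 403) (nat_lit 324) (nat_lit 293)) (XT.nd (nat_lit 78) (nat_lit 76) (nat_lit 0) (XT.lf (nat_lit 0) (nat_lit 3194982594) (nat_lit 152) (nat_lit 6642662278) (nat_lit 76) (nat_lit 14886925945) (nat_lit 32) (nat_lit 5) (nat_lit 34) (nat_lit 5) (nat_lit 33) (nat_lit 4) (nat_lit 404) (nat_lit 324) (nat_lit 292)) (XT.lf (nat_lit 0) (nat_lit 13179396750) (nat_lit 152) (nat_lit 12189887700) (nat_lit 0) (nat_lit 272089801) (nat_lit 31) (nat_lit 5) (nat_lit 33) (nat_lit 4) (nat_lit 31) (nat_lit 4) (nat_lit 405) (nat_lit 324) (nat_lit 291)))) (XT.nd (nat_lit 78) (nat_lit 152) (nat_lit 0) (XT.lf (nat_lit 0) (nat_lit 7852758169) (nat_lit 76) (nat_lit 15904639221) (nat_lit 76) (nat_lit 2843796245) (nat_lit 30) (nat_lit 4) (nat_lit 31) (nat_lit 5) (nat_lit 31) (nat_lit 4) (nat_lit 406) (nat_lit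 324) (nat_lit 290)) (XT.nd (nat_lit 78) (nat_lit 0) (nat_lit 0) (XT.lf (nat_lit 0) (nat_lit 1217431462) (nat_lit 76) (nat_lit 5888233181) (nat_lit 152) (nat_lit 20501494893) (nat_lit 28) (nat_lit 5) (nat_lit 29) (nat_lit 5) (nat_lit 30) (nat_lit 4) (nat_lit 407) (nat_lit 324) (nat_lit 289)) (XT.lf (nat_lit 0) (nat_lit 17590324337) (nat_lit 152) (nat_lit 6436641542) (nat_lit 0) (nat_lit 4632722912) (nat_lit 28) (nat_lit 5) (nat_lit 30) (nat_lit 4) (nat_lit 28) (nat_lit 4) (nat_lit 408) (nat_lit 324) (nat_lit 288))))) (XT.nd (nat_lit 234) (nat_lit 228) (nat_lit 0) (XT.nd (nat_lit 78) (nat_lit 152) (nat_lit 0) (XT.lf (nat_lit 0) (nat_lit 14473016297) (nat_lit 76) (nat_lit 14188171673) (nat_lit 76) (nat_lit 1101803072) (nat_lit 27) (nat_lit 4) (nat_lit 28) (nat_lit 5) (nat_lit 28) (nat_lit 4) (nat_lit 409) (nat_lit 324) (nat_lit 287)) (XT.nd (nat_lit 78) (nat_lit 0) (nat_lit 0) (XT.lf (nat_lit 0)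 (nat_lit 5398699385) (nat_lit 76) (nat_lit 3767656966) (nat_lit 152) (nat_lit 21752858436) (nat_lit 25) (nat_lit 5) (nat_lit 26) (nat_lit 5) (nat_lit 27) (nat_lit 4) (nat_lit 410) (nat_lit 324) (nat_lit 286)) (XT.lf (nat_lit 0) (nat_lit 20022183735) (nat_lit 152) (nat_lit 5023318107) (nat_lit 0) (nat_lit 7084514186) (nat_lit 25) (nat_lit 5) (nat_lit 27) (nat_lit 4) (nat_lit 25) (nat_lit 4) (nat_lit 411) (nat_lit 324) (nat_lit 285)))) (XT.nd (nat_lit 78) (nat_lit 152) (nat_lit 0) (XT.lf (nat_lit 0) (nat_lit 16541131945) (nat_lit 76) (nat_lit 14951863994) (nat_lit 76) (nat_lit 1906200339) (nat_lit 24) (nat_lit 4) (nat_lit 25) (nat_lit 5) (nat_lit 25) (nat_lit 4) (nat_lit 412) (nat_lit 324) (nat_lit 284)) (XT.nd (nat_lit 78) (nat_lit 0) (nat_lit 0) (XT.lf (nat_lit 0) (nat_lit 4319782606) (nat_lit 76) (nat_lit 4285290196) (nat_lit 152) (nat_lit 26125086202) (nat_lit 22) (nat_lit 5) (nat_lit 23) (nat_lit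 5) (nat_lit 24) (nat_lit 4) (nat_lit 413) (nat_lit 324) (nat_lit 283)) (XT.lf (nat_lit 0) (nat_lit 19724743968) (nat_lit 152) (nat_lit 9534601726) (nat_lit 0) (nat_lit 6864094432) (nat_lit 22) (nat_lit 5) (nat_lit 24) (nat_lit 4) (nat_lit 22) (nat_lit 4) (nat_lit 414) (nat_lit 324) (nat_lit 282)))))) (XT.nd (nat_lit 468) (nat_lit 304) (nat_lit 0) (XT.nd (nat_lit 234) (nat_lit 228) (nat_lit 0) (XT.nd (nat_lit 78) (nat_lit 152) (nat_lit 0) (XT.lf (nat_lit 0) (nat_lit 12360508730) (nat_lit 76) (nat_lit 19087832017) (nat_lit 76) (nat_lit 6136610277) (nat_lit 21) (nat_lit 4) (nat_lit 22) (nat_lit 5) (nat_lit 22) (nat_lit 4) (nat_lit 415) (nat_lit 324) (nat_lit 281)) (XT.nd (nat_lit 78) (nat_lit 76) (nat_lit 0) (XT.lf (nat_lit 0) (nat_lit 4535317040) (nat_lit 152) (nat_lit 3830787389) (nat_lit 76) (nat_lit 30752481480) (nat_lit 20) (nat_lit 5) (nat_lit 22) (nat_lit 5) (nat_lit 21) (nat_lit 4) (nat_lit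 416) (nat_lit 324) (nat_lit 280)) (XT.lf (nat_lit 0) (nat_lit 15717809173) (nat_lit 152) (nat_lit 22025855870) (nat_lit 0) (nat_lit 2980301757) (nat_lit 19) (nat_lit 5) (nat_lit 21) (nat_lit 4) (nat_lit 19) (nat_lit 4) (nat_lit 417) (nat_lit 324) (nat_lit 279)))) (XT.nd (nat_lit 78) (nat_lit 228) (nat_lit 0) (XT.lf (nat_lit 0) (nat_lit 27479335490) (nat_lit 152) (nat_lit 263820074) (nat_lit 0) (nat_lit 14665867224) (nat_lit 19) (nat_lit 5) (nat_lit 21) (nat_lit 4) (nat_lit 19) (nat_lit 4) (nat_lit 418) (nat_lit 324) (nat_lit 278)) (XT.nd (nat_lit 78) (nat_lit 152) (nat_lit 0) (XT.lf (nat_lit 0) (nat_lit 22837617716) (nat_lit 76) (nat_lit 17111462357) (nat_lit 76) (nat_lit 4225650426) (nat_lit 18) (nat_lit 4) (nat_lit 19) (nat_lit 5) (nat_lit 19) (nat_lit 4) (nat_lit 419) (nat_lit 324) (nat_lit 277)) (XT.lf (nat_lit 0) (nat_lit 829014531) (nat_lit 76) (nat_lit 5960997878) (nat_lit 152) (nat_lit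 39239293026) (nat_lit 16) (nat_lit 5) (nat_lit 17) (nat_lit 5) (nat_lit 18) (nat_lit 4) (nat_lit 420) (nat_lit 324) (nat_lit 276))))) (XT.nd (nat_lit 234) (nat_lit 228) (nat_lit 0) (XT.nd (nat_lit 78) (nat_lit 76) (nat_lit 0) (XT.lf (nat_lit 0) (nat_lit 18451502708) (nat_lit 152) (nat_lit 23707973872) (nat_lit 0) (nat_lit 5810407078) (nat_lit 16) (nat_lit 5) (nat_lit 18) (nat_lit 4) (nat_lit 16) (nat_lit 4) (nat_lit 421) (nat_lit 324) (nat_lit 275)) (XT.nd (nat_lit 78) (nat_lit 76) (nat_lit 0) (XT.lf (nat_lit 0) (nat_lit 30665337899) (nat_lit 152) (nat_lit 1379508169) (nat_lit 0) (nat_lit 17963569280) (nat_lit 16) (nat_lit 5) (nat_lit 18) (nat_lit 4) (nat_lit 16) (nat_lit 4) (nat_lit 422) (nat_lit 324) (nat_lit 274)) (XT.lf (nat_lit 0) (nat_lit 22331334750) (nat_lit 76) (nat_lit 21286625485) (nat_lit 76) (nat_lit 8527073068) (nat_lit 15) (nat_lit 4) (nat_lit 16) (nat_lit 5) (nat_lit 16) (nat_lit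 4) (nat_lit 423) (nat_lit 324) (nat_lit 273)))) (XT.nd (nat_lit 156) (nat_lit 76) (nat_lit 0) (XT.nd (nat_lit 78) (nat_lit 76) (nat_lit 0) (XT.lf (nat_lit 0) (nat_lit 2703989985) (nat_lit 152) (nat_lit 7325484937) (nat_lit 76) (nat_lit 44360309249) (nat_lit 14) (nat_lit 5) (nat_lit 16) (nat_lit 5) (nat_lit 15) (nat_lit 4) (nat_lit 424) (nat_lit 324) (nat_lit 272)) (XT.lf (nat_lit 0) (nat_lit 14417219678) (nat_lit 152) (nat_lit 40399123010) (nat_lit 0) (nat_lit 1924990343) (nat_lit 13) (nat_lit 5) (nat_lit 15) (nat_lit 4) (nat_lit 13) (nat_lit 4) (nat_lit 425) (nat_lit 324) (nat_lit 271))) (XT.nd (nat_lit 78) (nat_lit 76) (nat_lit 0) (XT.lf (nat_lit 0) (nat_lit 26814312606) (nat_lit 152) (nat_lit 18119581498) (nat_lit 0) (nat_lit 14273621310) (nat_lit 13) (nat_lit 5) (nat_lit 15) (nat_lit 4) (nat_lit 13) (nat_lit 4) (nat_lit 426) (nat_lit 324) (nat_lit 270)) (XT.lf (nat_lit 0) (nat_lit 5227585431)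 (nat_lit 76) (nat_lit 34578511970) (nat_lit 76) (nat_lit 21991666428) (nat_lit 12) (nat_lit 4) (nat_lit 13) (nat_lit 5) (nat_lit 13) (nat_lit 4) (nat_lit 427) (nat_lit 324) (nat_lit 269))))))))
noncomputable def xc23 : XT := (XT.nd (nat_lit 49686) (nat_lit 0) (nat_lit 1596) (XT.nd (nat_lit 48672) (nat_lit 0) (nat_lit 5396) (XT.nd (nat_lit 468) (nat_lit 152) (nat_lit 0) (XT.nd (nat_lit 234) (nat_lit 76) (nat_lit 0) (XT.nd (nat_lit 78) (nat_lit 152) (nat_lit 0) (XT.lf (nat_lit 0) (nat_lit 29976648716) (nat_lit 76) (nat_lit 23584140162) (nat_lit 76) (nat_lit 10953338195) (nat_lit 12) (nat_lit 4) (nat_lit 13) (nat_lit 5) (nat_lit 13) (nat_lit 4) (nat_lit 428) (nat_lit 324) (nat_lit 268)) (XT.nd (nat_lit 78) (nat_lit 76) (nat_lit 0) (XT.lf (nat_lit 0) (nat_lit 554064411) (nat_lit 152) (nat_lit 11547914474) (nat_lit 76) (nat_lit 55266260124) (nat_lit 11) (nat_lit 5) (nat_lit 13) (nat_lit 5) (nat_lit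 12) (nat_lit 4) (nat_lit 429) (nat_lit 324) (nat_lit 267)) (XT.lf (nat_lit 0) (nat_lit 12467643615) (nat_lit 152) (nat_lit 57767064392) (nat_lit 0) (nat_lit 125376620) (nat_lit 10) (nat_lit 5) (nat_lit 12) (nat_lit 4) (nat_lit 10) (nat_lit 4) (nat_lit 430) (nat_lit 324) (nat_lit 266)))) (XT.nd (nat_lit 78) (nat_lit 76) (nat_lit 0) (XT.lf (nat_lit 0) (nat_lit 25153395189) (nat_lit 152) (nat_lit 35568571218) (nat_lit 0) (nat_lit 12774262939) (nat_lit 10) (nat_lit 5) (nat_lit 12) (nat_lit 4) (nat_lit 10) (nat_lit 4) (nat_lit 431) (nat_lit 324) (nat_lit 265)) (XT.nd (nat_lit 78) (nat_lit 76) (nat_lit 0) (XT.lf (nat_lit 0) (nat_lit 38410855892) (nat_lit 152) (nat_lit 12383590431) (nat_lit 0) (nat_lit 25996613874) (nat_lit 10) (nat_lit 5) (nat_lit 12) (nat_lit 4) (nat_lit 10) (nat_lit 4) (nat_lit 432) (nat_lit 324) (nat_lit 264)) (XT.lf (nat_lit 0) (nat_lit 12078780824) (nat_lit 76) (nat_lit 40308918913)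 (nat_lit 76) (nat_lit 27861239022) (nat_lit 9) (nat_lit 4) (nat_lit 10) (nat_lit 5) (nat_lit 10) (nat_lit 4) (nat_lit 433) (nat_lit 324) (nat_lit 263))))) (XT.nd (nat_lit 234) (nat_lit 0) (nat_lit 0) (XT.nd (nat_lit 78) (nat_lit 152) (nat_lit 0) (XT.lf (nat_lit 0) (nat_lit 37908861977) (nat_lit 76) (nat_lit 29224143778) (nat_lit 76) (nat_lit 16744618293) (nat_lit 9) (nat_lit 4) (nat_lit 10) (nat_lit 5) (nat_lit 10) (nat_lit 4) (nat_lit 434) (nat_lit 324) (nat_lit 262)) (XT.nd (nat_lit 78) (nat_lit 152) (nat_lit 0) (XT.lf (nat_lit 0) (nat_lit 64921695489) (nat_lit 76) (nat_lit 17638778579) (nat_lit 76) (nat_lit 5128923958) (nat_lit 9) (nat_lit 4) (nat_lit 10) (nat_lit 5) (nat_lit 10) (nat_lit 4) (nat_lit 435) (nat_lit 324) (nat_lit 261)) (XT.lf (nat_lit 0) (nat_lit 1449120794) (nat_lit 76) (nat_lit 5441450785) (nat_lit 152) (nat_lit 84800324330) (nat_lit 7) (nat_lit 5) (nat_lit 8) (nat_lit 5)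 (nat_lit 9) (nat_lit 4) (nat_lit 436) (nat_lit 324) (nat_lit 260)))) (XT.nd (nat_lit 78) (nat_lit 0) (nat_lit 0) (XT.lf (nat_lit 0) (nat_lit 19661516548) (nat_lit 152) (nat_lit 68760458547) (nat_lit 0) (nat_lit 7461274863) (nat_lit 7) (nat_lit 5) (nat_lit 9) (nat_lit 4) (nat_lit 7) (nat_lit 4) (nat_lit 437) (nat_lit 324) (nat_lit 259)) (XT.nd (nat_lit 47814) (nat_lit 0) (nat_lit 9956) (XT.lf (nat_lit 0) (nat_lit 33076468409) (nat_lit 152) (nat_lit 46357800263) (nat_lit 0) (nat_lit 20850790366) (nat_lit 7) (nat_lit 5) (nat_lit 9) (nat_lit 4) (nat_lit 7) (nat_lit 4) (nat_lit 438) (nat_lit 324) (nat_lit 258)) (XT.lf (nat_lit 0) (nat_lit 2089884134) (nat_lit 380) (nat_lit 411566131) (nat_lit 0) (nat_lit 2089884134) (nat_lit 138) (nat_lit 5) (nat_lit 143) (nat_lit 4) (nat_lit 138) (nat_lit 4) (nat_lit 370) (nat_lit 325) (nat_lit 325)))))) (XT.nd (nat_lit 468) (nat_lit 1900) (nat_lit 0) (XT.nd (nat_lit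 234) (nat_lit 1064) (nat_lit 0) (XT.nd (nat_lit 78) (nat_lit 912) (nat_lit 0) (XT.lf (nat_lit 0) (nat_lit 2085878991) (nat_lit 380) (nat_lit 6622373606) (nat_lit 0) (nat_lit 671539277) (nat_lit 129) (nat_lit 5) (nat_lit 134) (nat_lit 4) (nat_lit 129) (nat_lit 4) (nat_lit 371) (nat_lit 325) (nat_lit 324)) (XT.nd (nat_lit 78) (nat_lit 608) (nat_lit 0) (XT.lf (nat_lit 0) (nat_lit 6394927537) (nat_lit 304) (nat_lit 2976683630) (nat_lit 304) (nat_lit 215353713) (nat_lit 125) (nat_lit 4) (nat_lit 129) (nat_lit 5) (nat_lit 129) (nat_lit 4) (nat_lit 372) (nat_lit 325) (nat_lit 323)) (XT.lf (nat_lit 0) (nat_lit 272511709) (nat_lit 304) (nat_lit 6729289734) (nat_lit 304) (nat_lit 2802903589) (nat_lit 117) (nat_lit 4) (nat_lit 121) (nat_lit 5) (nat_lit 121) (nat_lit 4) (nat_lit 373) (nat_lit 325) (nat_lit 322)))) (XT.nd (nat_lit 78) (nat_lit 760) (nat_lit 0) (XT.lf (nat_lit 0) (nat_lit 3850279581) (nat_lit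 228) (nat_lit 564912690) (nat_lit 304) (nat_lit 5617964777) (nat_lit 113) (nat_lit 5) (nat_lit 116) (nat_lit 5) (nat_lit 117) (nat_lit 4) (nat_lit 374) (nat_lit 325) (nat_lit 321)) (XT.nd (nat_lit 78) (nat_lit 456) (nat_lit 0) (XT.lf (nat_lit 0) (nat_lit 1594400452) (nat_lit 304) (nat_lit 2823804761) (nat_lit 76) (nat_lit 5854675478) (nat_lit 109) (nat_lit 5) (nat_lit 113) (nat_lit 5) (nat_lit 110) (nat_lit 4) (nat_lit 375) (nat_lit 325) (nat_lit 320)) (XT.lf (nat_lit 0) (nat_lit 569570289) (nat_lit 228) (nat_lit 8426551470) (nat_lit 228) (nat_lit 1528496871) (nat_lit 103) (nat_lit 4) (nat_lit 106) (nat_lit 5) (nat_lit 106) (nat_lit 4) (nat_lit 376) (nat_lit 325) (nat_lit 319))))) (XT.nd (nat_lit 234) (nat_lit 1140) (nat_lit 0) (XT.nd (nat_lit 78) (nat_lit 456) (nat_lit 0) (XT.lf (nat_lit 0) (nat_lit 4018425288) (nat_lit 228) (nat_lit 1834935445) (nat_lit 304) (nat_lit 4934168359) (nat_lit 99)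 (nat_lit 5) (nat_lit 102) (nat_lit 5) (nat_lit 103) (nat_lit 4) (nat_lit 377) (nat_lit 325) (nat_lit 318)) (XT.nd (nat_lit 78) (nat_lit 152) (nat_lit 0) (XT.lf (nat_lit 0) (nat_lit 2433259236) (nat_lit 304) (nat_lit 3588393370) (nat_lit 76) (nat_lit 5041613041) (nat_lit 95) (nat_lit 5) (nat_lit 99) (nat_lit 5) (nat_lit 96) (nat_lit 4) (nat_lit 378) (nat_lit 325) (nat_lit 317)) (XT.lf (nat_lit 0) (nat_lit 10024987549) (nat_lit 228) (nat_lit 407928102) (nat_lit 0) (nat_lit 919704829) (nat_lit 93) (nat_lit 5) (nat_lit 96) (nat_lit 4) (nat_lit 93) (nat_lit 4) (nat_lit 379) (nat_lit 325) (nat_lit 316)))) (XT.nd (nat_lit 156) (nat_lit 380) (nat_lit 0) (XT.nd (nat_lit 78) (nat_lit 304) (nat_lit 0) (XT.lf (nat_lit 0) (nat_lit 2774995172) (nat_lit 152) (nat_lit 3464765843) (nat_lit 228) (nat_lit 5414178878) (nat_lit 87) (nat_lit 5) (nat_lit 89) (nat_lit 5) (nat_lit 90) (nat_lit 4) (nat_lit 380) (nat_lit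 325) (nat_lit 315)) (XT.lf (nat_lit 0) (nat_lit 2126479121) (nat_lit 304) (nat_lit 6014031151) (nat_lit 76) (nat_lit 3829389454) (nat_lit 83) (nat_lit 5) (nat_lit 87) (nat_lit 5) (nat_lit 84) (nat_lit 4) (nat_lit 381) (nat_lit 325) (nat_lit 314))) (XT.nd (nat_lit 78) (nat_lit 228) (nat_lit 0) (XT.lf (nat_lit 0) (nat_lit 9100317156) (nat_lit 152) (nat_lit 812808993) (nat_lit 228) (nat_lit 2387524906) (nat_lit 81) (nat_lit 5) (nat_lit 83) (nat_lit 5) (nat_lit 84) (nat_lit 4) (nat_lit 382) (nat_lit 325) (nat_lit 313)) (XT.lf (nat_lit 0) (nat_lit 5352215063) (nat_lit 228) (nat_lit 477620649) (nat_lit 76) (nat_lit 6816045676) (nat_lit 78) (nat_lit 5) (nat_lit 81) (nat_lit 5) (nat_lit 79) (nat_lit 4) (nat_lit 383) (nat_lit 325) (nat_lit 312))))))) (XT.nd (nat_lit 936) (nat_lit 1444) (nat_lit 0) (XT.nd (nat_lit 468) (nat_lit 1064) (nat_lit 0) (XT.nd (nat_lit 234) (nat_lit 532) (nat_lit 0) (XT.nd (nat_lit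 78) (nat_lit 380) (nat_lit 0) (XT.lf (nat_lit 0) (nat_lit 417352474) (nat_lit 228) (nat_lit 10757124199) (nat_lit 76) (nat_lit 1832980461) (nat_lit 73) (nat_lit 5) (nat_lit 76) (nat_lit 5) (nat_lit 74) (nat_lit 4) (nat_lit 384) (nat_lit 325) (nat_lit 311)) (XT.nd (nat_lit 78) (nat_lit 228) (nat_lit 0) (XT.lf (nat_lit 0) (nat_lit 4857068671) (nat_lit 152) (nat_lit 3529790019) (nat_lit 228) (nat_lit 4997397196) (nat_lit 71) (nat_lit 5) (nat_lit 73) (nat_lit 5) (nat_lit 74) (nat_lit 4) (nat_lit 385) (nat_lit 325) (nat_lit 310)) (XT.lf (nat_lit 0) (nat_lit 2923871191) (nat_lit 228) (nat_lit 6399790620) (nat_lit 76) (nat_lit 4455187791) (nat_lit 68) (nat_lit 5) (nat_lit 71) (nat_lit 5) (nat_lit 69) (nat_lit 4) (nat_lit 386) (nat_lit 325) (nat_lit 309)))) (XT.nd (nat_lit 78) (nat_lit 380) (nat_lit 0) (XT.lf (nat_lit 0) (nat_lit 9787411853) (nat_lit 152) (nat_lit 1355071790) (nat_lit 228) (nat_lit 3049087151)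 (nat_lit 66) (nat_lit 5) (nat_lit 68) (nat_lit 5) (nat_lit 69) (nat_lit 4) (nat_lit 387) (nat_lit 325) (nat_lit 308)) (XT.nd (nat_lit 78) (nat_lit 152) (nat_lit 0) (XT.lf (nat_lit 0) (nat_lit 5087485214) (nat_lit 228) (nat_lit 2589651660) (nat_lit 76) (nat_lit 6945101714) (nat_lit 63) (nat_lit 5) (nat_lit 66) (nat_lit 5) (nat_lit 64) (nat_lit 4) (nat_lit 388) (nat_lit 325) (nat_lit 307)) (XT.lf (nat_lit 0) (nat_lit 13564727963) (nat_lit 228) (nat_lit 909763815) (nat_lit 0) (nat_lit 599153946) (nat_lit 61) (nat_lit 5) (nat_lit 64) (nat_lit 4) (nat_lit 61) (nat_lit 4) (nat_lit 389) (nat_lit 325) (nat_lit 306))))) (XT.nd (nat_lit 234) (nat_lit 456) (nat_lit 0) (XT.nd (nat_lit 78) (nat_lit 304) (nat_lit 0) (XT.lf (nat_lit 0) (nat_lit 531308547) (nat_lit 76) (nat_lit 6316584742) (nat_lit 152) (nat_lit 8695811642) (nat_lit 57) (nat_lit 5) (nat_lit 58) (nat_lit 5) (nat_lit 59) (nat_lit 4) (nat_lit 390)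 (nat_lit 325) (nat_lit 305)) (XT.nd (nat_lit 78) (nat_lit 152) (nat_lit 0) (XT.lf (nat_lit 0) (nat_lit 1819674308) (nat_lit 152) (nat_lit 13785557227) (nat_lit 152) (nat_lit 431187011) (nat_lit 55) (nat_lit 4) (nat_lit 57) (nat_lit 5) (nat_lit 57) (nat_lit 4) (nat_lit 391) (nat_lit 325) (nat_lit 304)) (XT.lf (nat_lit 0) (nat_lit 2804209162) (nat_lit 76) (nat_lit 5331084633) (nat_lit 152) (nat_lit 8414624671) (nat_lit 53) (nat_lit 5) (nat_lit 54) (nat_lit 5) (nat_lit 55) (nat_lit 4) (nat_lit 392) (nat_lit 325) (nat_lit 303)))) (XT.nd (nat_lit 78) (nat_lit 228) (nat_lit 0) (XT.lf (nat_lit 0) (nat_lit 55200917) (nat_lit 228) (nat_lit 13528280679) (nat_lit 76) (nat_lit 3504780062) (nat_lit 50) (nat_lit 5) (nat_lit 53) (nat_lit 5) (nat_lit 51) (nat_lit 4) (nat_lit 393) (nat_lit 325) (nat_lit 302)) (XT.nd (nat_lit 78) (nat_lit 152) (nat_lit 0) (XT.lf (nat_lit 0) (nat_lit 3954789164) (nat_lit 76) (nat_lit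 4867222805) (nat_lit 152) (nat_lit 8827598387) (nat_lit 49) (nat_lit 5) (nat_lit 50) (nat_lit 5) (nat_lit 51) (nat_lit 4) (nat_lit 394) (nat_lit 325) (nat_lit 301)) (XT.lf (nat_lit 0) (nat_lit 4051264417) (nat_lit 152) (nat_lit 14012044484) (nat_lit 152) (nat_lit 174645978) (nat_lit 47) (nat_lit 4) (nat_lit 49) (nat_lit 5) (nat_lit 49) (nat_lit 4) (nat_lit 395) (nat_lit 325) (nat_lit 300)))))) (XT.nd (nat_lit 468) (nat_lit 684) (nat_lit 0) (XT.nd (nat_lit 234) (nat_lit 304) (nat_lit 0) (XT.nd (nat_lit 78) (nat_lit 304) (nat_lit 0) (XT.lf (nat_lit 0) (nat_lit 3716891905) (nat_lit 76) (nat_lit 5066562203) (nat_lit 152) (nat_lit 10068313036) (nat_lit 45) (nat_lit 5) (nat_lit 46) (nat_lit 5) (nat_lit 47) (nat_lit 4) (nat_lit 396) (nat_lit 325) (nat_lit 299)) (XT.nd (nat_lit 78) (nat_lit 152) (nat_lit 0) (XT.lf (nat_lit 0) (nat_lit 3001101425) (nat_lit 152) (nat_lit 15225827711) (nat_lit 152) (nat_lit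 1268067782) (nat_lit 43) (nat_lit 4) (nat_lit 45) (nat_lit 5) (nat_lit 45) (nat_lit 4) (nat_lit 397) (nat_lit 325) (nat_lit 298)) (XT.lf (nat_lit 0) (nat_lit 1772911534) (nat_lit 76) (nat_lit 6095968796) (nat_lit 152) (nat_lit 12297651523) (nat_lit 41) (nat_lit 5) (nat_lit 42) (nat_lit 5) (nat_lit 43) (nat_lit 4) (nat_lit 398) (nat_lit 325) (nat_lit 297)))) (XT.nd (nat_lit 78) (nat_lit 152) (nat_lit 0) (XT.lf (nat_lit 0) (nat_lit 63331639) (nat_lit 152) (nat_lit 17409491201) (nat_lit 152) (nat_lit 3397362749) (nat_lit 39) (nat_lit 4) (nat_lit 41) (nat_lit 5) (nat_lit 41) (nat_lit 4) (nat_lit 399) (nat_lit 325) (nat_lit 296)) (XT.nd (nat_lit 78) (nat_lit 76) (nat_lit 0) (XT.lf (nat_lit 0) (nat_lit 5918557343) (nat_lit 228) (nat_lit 2211582583) (nat_lit 76) (nat_lit 13474575492) (nat_lit 38) (nat_lit 5) (nat_lit 41) (nat_lit 5) (nat_lit 39) (nat_lit 4) (nat_lit 400) (nat_lit 325) (nat_lit 295))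 (XT.lf (nat_lit 0) (nat_lit 15655095881) (nat_lit 152) (nat_lit 5073913492) (nat_lit 0) (nat_lit 1645209401) (nat_lit 37) (nat_lit 5) (nat_lit 39) (nat_lit 4) (nat_lit 37) (nat_lit 4) (nat_lit 401) (nat_lit 325) (nat_lit 294))))) (XT.nd (nat_lit 234) (nat_lit 380) (nat_lit 0) (XT.nd (nat_lit 78) (nat_lit 152) (nat_lit 0) (XT.lf (nat_lit 0) (nat_lit 2734784030) (nat_lit 152) (nat_lit 8646836234) (nat_lit 76) (nat_lit 11797073525) (nat_lit 35) (nat_lit 5) (nat_lit 37) (nat_lit 5) (nat_lit 36) (nat_lit 4) (nat_lit 402) (nat_lit 325) (nat_lit 293)) (XT.nd (nat_lit 78) (nat_lit 76) (nat_lit 0) (XT.lf (nat_lit 0) (nat_lit 11060198642) (nat_lit 76) (nat_lit 1470948491) (nat_lit 152) (nat_lit 11489995632) (nat_lit 34) (nat_lit 5) (nat_lit 35) (nat_lit 5) (nat_lit 36) (nat_lit 4) (nat_lit 403) (nat_lit 325) (nat_lit 292)) (XT.lf (nat_lit 0) (nat_lit 6791744830) (nat_lit 76) (nat_lit 16118249186) (nat_lit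 76) (nat_lit 1992947507) (nat_lit 33) (nat_lit 4) (nat_lit 34) (nat_lit 5) (nat_lit 34) (nat_lit 4) (nat_lit 404) (nat_lit 325) (nat_lit 291)))) (XT.nd (nat_lit 156) (nat_lit 228) (nat_lit 0) (XT.nd (nat_lit 78) (nat_lit 0) (nat_lit 0) (XT.lf (nat_lit 0) (nat_lit 1638184913) (nat_lit 76) (nat_lit 6204981934) (nat_lit 152) (nat_lit 17982771807) (nat_lit 31) (nat_lit 5) (nat_lit 32) (nat_lit 5) (nat_lit 33) (nat_lit 4) (nat_lit 405) (nat_lit 325) (nat_lit 290)) (XT.lf (nat_lit 0) (nat_lit 18216595307) (nat_lit 152) (nat_lit 4372353666) (nat_lit 0) (nat_lit 4202949367) (nat_lit 31) (nat_lit 5) (nat_lit 33) (nat_lit 4) (nat_lit 31) (nat_lit 4) (nat_lit 406) (nat_lit 325) (nat_lit 289))) (XT.nd (nat_lit 78) (nat_lit 76) (nat_lit 0) (XT.lf (nat_lit 0) (nat_lit 1362954948) (nat_lit 152) (nat_lit 11386109096) (nat_lit 76) (nat_lit 15054147297) (nat_lit 29) (nat_lit 5) (nat_lit 31) (nat_lit 5) (nat_lit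 30) (nat_lit 4) (nat_lit 407) (nat_lit 325) (nat_lit 288)) (XT.lf (nat_lit 0) (nat_lit 9312260209) (nat_lit 76) (nat_lit 2312270847) (nat_lit 152) (nat_lit 17237904810) (nat_lit 28) (nat_lit 5) (nat_lit 29) (nat_lit 5) (nat_lit 30) (nat_lit 4) (nat_lit 408) (nat_lit 325) (nat_lit 287))))))))
noncomputable def xc24 : XT := (XT.nd (nat_lit 1872) (nat_lit 228) (nat_lit 0) (XT.nd (nat_lit 936) (nat_lit 608) (nat_lit 0) (XT.nd (nat_lit 468) (nat_lit 304) (nat_lit 0) (XT.nd (nat_lit 234) (nat_lit 228) (nat_lit 0) (XT.nd (nat_lit 78) (nat_lit 152) (nat_lit 0) (XT.lf (nat_lit 0) (nat_lit 996043168) (nat_lit 76) (nat_lit 21484122040) (nat_lit 76) (nat_lit 7492032423) (nat_lit 27) (nat_lit 4) (nat_lit 28) (nat_lit 5) (nat_lit 28) (nat_lit 4) (nat_lit 409) (nat_lit 325) (nat_lit 286)) (XT.nd (nat_lit 78) (nat_lit 76) (nat_lit 0) (XT.lf (nat_lit 0) (nat_lit 2786738159) (nat_lit 152) (nat_lit 8451806779)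 (nat_lit 76) (nat_lit 19895144233) (nat_lit 26) (nat_lit 5) (nat_lit 28) (nat_lit 5) (nat_lit 27) (nat_lit 4) (nat_lit 410) (nat_lit 325) (nat_lit 285)) (XT.lf (nat_lit 0) (nat_lit 13042570152) (nat_lit 76) (nat_lit 387326066) (nat_lit 152) (nat_lit 18920976590) (nat_lit 25) (nat_lit 5) (nat_lit 26) (nat_lit 5) (nat_lit 27) (nat_lit 4) (nat_lit 411) (nat_lit 325) (nat_lit 284)))) (XT.nd (nat_lit 78) (nat_lit 152) (nat_lit 0) (XT.lf (nat_lit 0) (nat_lit 1860811751) (nat_lit 76) (nat_lit 22837060535) (nat_lit 76) (nat_lit 8928268061) (nat_lit 24) (nat_lit 4) (nat_lit 25) (nat_lit 5) (nat_lit 25) (nat_lit 4) (nat_lit 412) (nat_lit 325) (nat_lit 283)) (XT.nd (nat_lit 78) (nat_lit 76) (nat_lit 0) (XT.lf (nat_lit 0) (nat_lit 1621660929) (nat_lit 152) (nat_lit 10714774624) (nat_lit 76) (nat_lit 22625645673) (nat_lit 23) (nat_lit 5) (nat_lit 25) (nat_lit 5) (nat_lit 24) (nat_lit 4) (nat_lit 413) (nat_lit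 325) (nat_lit 282)) (XT.lf (nat_lit 0) (nat_lit 11303018606) (nat_lit 76) (nat_lit 1210801239) (nat_lit 152) (nat_lit 23848369813) (nat_lit 22) (nat_lit 5) (nat_lit 23) (nat_lit 5) (nat_lit 24) (nat_lit 4) (nat_lit 414) (nat_lit 325) (nat_lit 281))))) (XT.nd (nat_lit 234) (nat_lit 76) (nat_lit 0) (XT.nd (nat_lit 78) (nat_lit 228) (nat_lit 0) (XT.lf (nat_lit 0) (nat_lit 24053940131) (nat_lit 152) (nat_lit 3496940712) (nat_lit 0) (nat_lit 10278325860) (nat_lit 22) (nat_lit 5) (nat_lit 24) (nat_lit 4) (nat_lit 22) (nat_lit 4) (nat_lit 415) (nat_lit 325) (nat_lit 280)) (XT.nd (nat_lit 78) (nat_lit 152) (nat_lit 0) (XT.lf (nat_lit 0) (nat_lit 19306191554) (nat_lit 76) (nat_lit 16959161986) (nat_lit 76) (nat_lit 3101396057) (nat_lit 21) (nat_lit 4) (nat_lit 22) (nat_lit 5) (nat_lit 22) (nat_lit 4) (nat_lit 416) (nat_lit 325) (nat_lit 279)) (XT.lf (nat_lit 0) (nat_lit 2107348134) (nat_lit 76) (nat_lit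 5795781786) (nat_lit 152) (nat_lit 33077051141) (nat_lit 19) (nat_lit 5) (nat_lit 20) (nat_lit 5) (nat_lit 21) (nat_lit 4) (nat_lit 417) (nat_lit 325) (nat_lit 278)))) (XT.nd (nat_lit 78) (nat_lit 76) (nat_lit 0) (XT.lf (nat_lit 0) (nat_lit 19560462075) (nat_lit 152) (nat_lit 17149886469) (nat_lit 0) (nat_lit 5958015881) (nat_lit 19) (nat_lit 5) (nat_lit 21) (nat_lit 4) (nat_lit 19) (nat_lit 4) (nat_lit 418) (nat_lit 325) (nat_lit 277)) (XT.nd (nat_lit 78) (nat_lit 0) (nat_lit 0) (XT.lf (nat_lit 0) (nat_lit 5523401030) (nat_lit 76) (nat_lit 26294197870) (nat_lit 76) (nat_lit 12622852946) (nat_lit 18) (nat_lit 4) (nat_lit 19) (nat_lit 5) (nat_lit 19) (nat_lit 4) (nat_lit 419) (nat_lit 325) (nat_lit 276)) (XT.lf (nat_lit 0) (nat_lit 29508951147) (nat_lit 76) (nat_lit 15263309054) (nat_lit 76) (nat_lit 1526346293) (nat_lit 18) (nat_lit 4) (nat_lit 19) (nat_lit 5) (nat_lit 19) (nat_lit 4) (nat_lit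 420) (nat_lit 325) (nat_lit 275)))))) (XT.nd (nat_lit 468) (nat_lit 228) (nat_lit 0) (XT.nd (nat_lit 234) (nat_lit 152) (nat_lit 0) (XT.nd (nat_lit 78) (nat_lit 76) (nat_lit 0) (XT.lf (nat_lit 0) (nat_lit 6296668829) (nat_lit 76) (nat_lit 3602900022) (nat_lit 152) (nat_lit 38348018124) (nat_lit 16) (nat_lit 5) (nat_lit 17) (nat_lit 5) (nat_lit 18) (nat_lit 4) (nat_lit 421) (nat_lit 325) (nat_lit 274)) (XT.nd (nat_lit 78) (nat_lit 76) (nat_lit 0) (XT.lf (nat_lit 0) (nat_lit 22036542927) (nat_lit 152) (nat_lit 19670653722) (nat_lit 0) (nat_lit 8581229090) (nat_lit 16) (nat_lit 5) (nat_lit 18) (nat_lit 4) (nat_lit 16) (nat_lit 4) (nat_lit 422) (nat_lit 325) (nat_lit 273)) (XT.lf (nat_lit 0) (nat_lit 3595699415) (nat_lit 76) (nat_lit 31173150473) (nat_lit 76) (nat_lit 17662804447) (nat_lit 15) (nat_lit 4) (nat_lit 16) (nat_lit 5) (nat_lit 16) (nat_lit 4) (nat_lit 423) (nat_lit 325) (nat_lit 272))))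 (XT.nd (nat_lit 78) (nat_lit 152) (nat_lit 0) (XT.lf (nat_lit 0) (nat_lit 28279340208) (nat_lit 76) (nat_lit 19980895100) (nat_lit 76) (nat_lit 6418137464) (nat_lit 15) (nat_lit 4) (nat_lit 16) (nat_lit 5) (nat_lit 16) (nat_lit 4) (nat_lit 424) (nat_lit 325) (nat_lit 271)) (XT.nd (nat_lit 78) (nat_lit 76) (nat_lit 0) (XT.lf (nat_lit 0) (nat_lit 5206633895) (nat_lit 152) (nat_lit 3043206645) (nat_lit 76) (nat_lit 48788343964) (nat_lit 14) (nat_lit 5) (nat_lit 16) (nat_lit 5) (nat_lit 15) (nat_lit 4) (nat_lit 425) (nat_lit 325) (nat_lit 270)) (XT.lf (nat_lit 0) (nat_lit 17457506463) (nat_lit 152) (nat_lit 37856083628) (nat_lit 0) (nat_lit 4195164397) (nat_lit 13) (nat_lit 5) (nat_lit 15) (nat_lit 4) (nat_lit 13) (nat_lit 4) (nat_lit 426) (nat_lit 325) (nat_lit 269))))) (XT.nd (nat_lit 234) (nat_lit 152) (nat_lit 0) (XT.nd (nat_lit 78) (nat_lit 76) (nat_lit 0) (XT.lf (nat_lit 0) (nat_lit 30364005189)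 (nat_lit 152) (nat_lit 14679850541) (nat_lit 0) (nat_lit 17057706697) (nat_lit 13) (nat_lit 5) (nat_lit 15) (nat_lit 4) (nat_lit 13) (nat_lit 4) (nat_lit 427) (nat_lit 325) (nat_lit 268)) (XT.nd (nat_lit 78) (nat_lit 0) (nat_lit 0) (XT.lf (nat_lit 0) (nat_lit 9710105828) (nat_lit 76) (nat_lit 34230660208) (nat_lit 76) (nat_lit 20882498453) (nat_lit 12) (nat_lit 4) (nat_lit 13) (nat_lit 5) (nat_lit 13) (nat_lit 4) (nat_lit 428) (nat_lit 325) (nat_lit 267)) (XT.lf (nat_lit 0) (nat_lit 35495615558) (nat_lit 76) (nat_lit 22785463970) (nat_lit 76) (nat_lit 9397432441) (nat_lit 12) (nat_lit 4) (nat_lit 13) (nat_lit 5) (nat_lit 13) (nat_lit 4) (nat_lit 429) (nat_lit 325) (nat_lit 266)))) (XT.nd (nat_lit 78) (nat_lit 76) (nat_lit 0) (XT.lf (nat_lit 0) (nat_lit 2546076569) (nat_lit 152) (nat_lit 8257467306) (nat_lit 76) (nat_lit 59874127958) (nat_lit 11) (nat_lit 5) (nat_lit 13) (nat_lit 5) (nat_lit 12)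 (nat_lit 4) (nat_lit 430) (nat_lit 325) (nat_lit 265)) (XT.nd (nat_lit 78) (nat_lit 0) (nat_lit 0) (XT.lf (nat_lit 0) (nat_lit 15015694695) (nat_lit 152) (nat_lit 56858975804) (nat_lit 0) (nat_lit 1945630809) (nat_lit 10) (nat_lit 5) (nat_lit 12) (nat_lit 4) (nat_lit 10) (nat_lit 4) (nat_lit 431) (nat_lit 325) (nat_lit 264)) (XT.lf (nat_lit 0) (nat_lit 28244082947) (nat_lit 152) (nat_lit 33731340914) (nat_lit 0) (nat_lit 15140581188) (nat_lit 10) (nat_lit 5) (nat_lit 12) (nat_lit 4) (nat_lit 10) (nat_lit 4) (nat_lit 432) (nat_lit 325) (nat_lit 263))))))) (XT.nd (nat_lit 48516) (nat_lit 0) (nat_lit 4636) (XT.nd (nat_lit 48048) (nat_lit 0) (nat_lit 8664) (XT.nd (nat_lit 234) (nat_lit 152) (nat_lit 0) (XT.nd (nat_lit 78) (nat_lit 76) (nat_lit 0) (XT.lf (nat_lit 0) (nat_lit 42077130114) (nat_lit 152) (nat_lit 9559285319) (nat_lit 0) (nat_lit 28941782761) (nat_lit 10) (nat_lit 5) (nat_lit 12) (nat_lit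 4) (nat_lit 10) (nat_lit 4) (nat_lit 433) (nat_lit 325) (nat_lit 262)) (XT.nd (nat_lit 78) (nat_lit 0) (nat_lit 0) (XT.lf (nat_lit 0) (nat_lit 16027497702) (nat_lit 76) (nat_lit 40674340431) (nat_lit 76) (nat_lit 27508663942) (nat_lit 9) (nat_lit 4) (nat_lit 10) (nat_lit 5) (nat_lit 10) (nat_lit 4) (nat_lit 434) (nat_lit 325) (nat_lit 261)) (XT.lf (nat_lit 0) (nat_lit 42989807778) (nat_lit 76) (nat_lit 29113899132) (nat_lit 76) (nat_lit 15919337750) (nat_lit 9) (nat_lit 4) (nat_lit 10) (nat_lit 5) (nat_lit 10) (nat_lit 4) (nat_lit 435) (nat_lit 325) (nat_lit 260)))) (XT.nd (nat_lit 78) (nat_lit 152) (nat_lit 0) (XT.lf (nat_lit 0) (nat_lit 71201592361) (nat_lit 76) (nat_lit 17024096713) (nat_lit 76) (nat_lit 3802025910) (nat_lit 9) (nat_lit 4) (nat_lit 10) (nat_lit 5) (nat_lit 10) (nat_lit 4) (nat_lit 436) (nat_lit 325) (nat_lit 259)) (XT.nd (nat_lit 78) (nat_lit 0) (nat_lit 0) (XT.lf (nat_lit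 0) (nat_lit 4498471503) (nat_lit 76) (nat_lit 4243765814) (nat_lit 152) (nat_lit 87487954872) (nat_lit 7) (nat_lit 5) (nat_lit 8) (nat_lit 5) (nat_lit 9) (nat_lit 4) (nat_lit 437) (nat_lit 325) (nat_lit 258)) (XT.lf (nat_lit 0) (nat_lit 22093416534) (nat_lit 152) (nat_lit 69333705306) (nat_lit 0) (nat_lit 9206793128) (nat_lit 7) (nat_lit 5) (nat_lit 9) (nat_lit 4) (nat_lit 7) (nat_lit 4) (nat_lit 438) (nat_lit 325) (nat_lit 257))))) (XT.nd (nat_lit 234) (nat_lit 1292) (nat_lit 0) (XT.nd (nat_lit 78) (nat_lit 760) (nat_lit 0) (XT.lf (nat_lit 0) (nat_lit 336512800) (nat_lit 380) (nat_lit 3734370111) (nat_lit 0) (nat_lit 336512800) (nat_lit 148) (nat_lit 5) (nat_lit 153) (nat_lit 4) (nat_lit 148) (nat_lit 4) (nat_lit 368) (nat_lit 326) (nat_lit 326)) (XT.nd (nat_lit 78) (nat_lit 380) (nat_lit 0) (XT.lf (nat_lit 0) (nat_lit 4718021518) (nat_lit 380) (nat_lit 2926572585) (nat_lit 380) (nat_lit 1351075933)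 (nat_lit 143) (nat_lit 4) (nat_lit 148) (nat_lit 5) (nat_lit 148) (nat_lit 4) (nat_lit 369) (nat_lit 326) (nat_lit 325)) (XT.lf (nat_lit 0) (nat_lit 5572289678) (nat_lit 380) (nat_lit 1028611610) (nat_lit 0) (nat_lit 2585911372) (nat_lit 138) (nat_lit 5) (nat_lit 143) (nat_lit 4) (nat_lit 138) (nat_lit 4) (nat_lit 370) (nat_lit 326) (nat_lit 324)))) (XT.nd (nat_lit 78) (nat_lit 608) (nat_lit 0) (XT.lf (nat_lit 0) (nat_lit 2326273446) (nat_lit 304) (nat_lit 974244613) (nat_lit 380) (nat_lit 6087445575) (nat_lit 129) (nat_lit 5) (nat_lit 133) (nat_lit 5) (nat_lit 134) (nat_lit 4) (nat_lit 371) (nat_lit 326) (nat_lit 323)) (XT.nd (nat_lit 78) (nat_lit 228) (nat_lit 0) (XT.lf (nat_lit 0) (nat_lit 824786771) (nat_lit 380) (nat_lit 3854917283) (nat_lit 76) (nat_lit 4919583086) (nat_lit 124) (nat_lit 5) (nat_lit 129) (nat_lit 5) (nat_lit 125) (nat_lit 4) (nat_lit 372) (nat_lit 326) (nat_lit 322)) (XT.lf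 (nat_lit 0) (nat_lit 7882645048) (nat_lit 304) (nat_lit 610716724) (nat_lit 0) (nat_lit 1328281697) (nat_lit 121) (nat_lit 5) (nat_lit 125) (nat_lit 4) (nat_lit 121) (nat_lit 4) (nat_lit 373) (nat_lit 326) (nat_lit 321)))))) (XT.nd (nat_lit 468) (nat_lit 1900) (nat_lit 0) (XT.nd (nat_lit 234) (nat_lit 988) (nat_lit 0) (XT.nd (nat_lit 78) (nat_lit 532) (nat_lit 0) (XT.lf (nat_lit 0) (nat_lit 2706831771) (nat_lit 228) (nat_lit 2411830889) (nat_lit 304) (nat_lit 4935514526) (nat_lit 113) (nat_lit 5) (nat_lit 116) (nat_lit 5) (nat_lit 117) (nat_lit 4) (nat_lit 374) (nat_lit 326) (nat_lit 320)) (XT.nd (nat_lit 78) (nat_lit 228) (nat_lit 0) (XT.lf (nat_lit 0) (nat_lit 2107974439) (nat_lit 304) (nat_lit 4225616495) (nat_lit 76) (nat_lit 3964801621) (nat_lit 109) (nat_lit 5) (nat_lit 113) (nat_lit 5) (nat_lit 110) (nat_lit 4) (nat_lit 375) (nat_lit 326) (nat_lit 319)) (XT.lf (nat_lit 0) (nat_lit 9349029280)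 (nat_lit 304) (nat_lit 1079846900) (nat_lit 0) (nat_lit 126095026) (nat_lit 106) (nat_lit 5) (nat_lit 110) (nat_lit 4) (nat_lit 106) (nat_lit 4) (nat_lit 376) (nat_lit 326) (nat_lit 318)))) (XT.nd (nat_lit 78) (nat_lit 456) (nat_lit 0) (XT.lf (nat_lit 0) (nat_lit 2078130855) (nat_lit 228) (nat_lit 3942024324) (nat_lit 304) (nat_lit 4802136616) (nat_lit 99) (nat_lit 5) (nat_lit 102) (nat_lit 5) (nat_lit 103) (nat_lit 4) (nat_lit 377) (nat_lit 326) (nat_lit 317)) (XT.nd (nat_lit 78) (nat_lit 152) (nat_lit 0) (XT.lf (nat_lit 0) (nat_lit 2402817851) (nat_lit 304) (nat_lit 5820174607) (nat_lit 76) (nat_lit 2879812431) (nat_lit 95) (nat_lit 5) (nat_lit 99) (nat_lit 5) (nat_lit 96) (nat_lit 4) (nat_lit 378) (nat_lit 326) (nat_lit 316)) (XT.lf (nat_lit 0) (nat_lit 8482300170) (nat_lit 152) (nat_lit 1365101354) (nat_lit 228) (nat_lit 1549189408) (nat_lit 93) (nat_lit 5) (nat_lit 95) (nat_lit 5) (nat_lit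 96) (nat_lit 4) (nat_lit 379) (nat_lit 326) (nat_lit 315))))) (XT.nd (nat_lit 234) (nat_lit 988) (nat_lit 0) (XT.nd (nat_lit 78) (nat_lit 608) (nat_lit 0) (XT.lf (nat_lit 0) (nat_lit 5843489554) (nat_lit 304) (nat_lit 59446438) (nat_lit 76) (nat_lit 5800424993) (nat_lit 89) (nat_lit 5) (nat_lit 93) (nat_lit 5) (nat_lit 90) (nat_lit 4) (nat_lit 380) (nat_lit 326) (nat_lit 314)) (XT.nd (nat_lit 78) (nat_lit 152) (nat_lit 0) (XT.lf (nat_lit 0) (nat_lit 1522318518) (nat_lit 304) (nat_lit 9176733940) (nat_lit 76) (nat_lit 1325426264) (nat_lit 83) (nat_lit 5) (nat_lit 87) (nat_lit 5) (nat_lit 84) (nat_lit 4) (nat_lit 381) (nat_lit 326) (nat_lit 313)) (XT.lf (nat_lit 0) (nat_lit 5682397490) (nat_lit 152) (nat_lit 3484599969) (nat_lit 228) (nat_lit 3192505372) (nat_lit 81) (nat_lit 5) (nat_lit 83) (nat_lit 5) (nat_lit 84) (nat_lit 4) (nat_lit 382) (nat_lit 326) (nat_lit 312)))) (XT.nd (nat_lit 156) (nat_lit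 608) (nat_lit 0) (XT.nd (nat_lit 78) (nat_lit 152) (nat_lit 0) (XT.lf (nat_lit 0) (nat_lit 4393510872) (nat_lit 228) (nat_lit 4241140138) (nat_lit 76) (nat_lit 4075409946) (nat_lit 78) (nat_lit 5) (nat_lit 81) (nat_lit 5) (nat_lit 79) (nat_lit 4) (nat_lit 383) (nat_lit 326) (nat_lit 311)) (XT.lf (nat_lit 0) (nat_lit 11212661578) (nat_lit 152) (nat_lit 1079678657) (nat_lit 228) (nat_lit 784897136) (nat_lit 76) (nat_lit 5) (nat_lit 78) (nat_lit 5) (nat_lit 79) (nat_lit 4) (nat_lit 384) (nat_lit 326) (nat_lit 310))) (XT.nd (nat_lit 78) (nat_lit 228) (nat_lit 0) (XT.lf (nat_lit 0) (nat_lit 380412337) (nat_lit 152) (nat_lit 6643250924) (nat_lit 228) (nat_lit 6435898254) (nat_lit 71) (nat_lit 5) (nat_lit 73) (nat_lit 5) (nat_lit 74) (nat_lit 4) (nat_lit 385) (nat_lit 326) (nat_lit 309)) (XT.lf (nat_lit 0) (nat_lit 1333718724) (nat_lit 228) (nat_lit 11262553237) (nat_lit 76) (nat_lit 1263700097) (nat_lit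 68) (nat_lit 5) (nat_lit 71) (nat_lit 5) (nat_lit 69) (nat_lit 4) (nat_lit 386) (nat_lit 326) (nat_lit 308))))))))
noncomputable def xc25 : XT := (XT.nd (nat_lit 1950) (nat_lit 1292) (nat_lit 0) (XT.nd (nat_lit 936) (nat_lit 1216) (nat_lit 0) (XT.nd (nat_lit 468) (nat_lit 912) (nat_lit 0) (XT.nd (nat_lit 234) (nat_lit 532) (nat_lit 0) (XT.nd (nat_lit 78) (nat_lit 380) (nat_lit 0) (XT.lf (nat_lit 0) (nat_lit 4645491526) (nat_lit 152) (nat_lit 4757674914) (nat_lit 228) (nat_lit 4874011601) (nat_lit 66) (nat_lit 5) (nat_lit 68) (nat_lit 5) (nat_lit 69) (nat_lit 4) (nat_lit 387) (nat_lit 326) (nat_lit 307)) (XT.nd (nat_lit 78) (nat_lit 152) (nat_lit 0) (XT.lf (nat_lit 0) (nat_lit 3113593025) (nat_lit 228) (nat_lit 8138969049) (nat_lit 76) (nat_lit 3461356494) (nat_lit 63) (nat_lit 5) (nat_lit 66) (nat_lit 5) (nat_lit 64) (nat_lit 4) (nat_lit 388) (nat_lit 326) (nat_lit 306)) (XT.lf (nat_lit 0) (nat_lit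 8334006651) (nat_lit 152) (nat_lit 3099510876) (nat_lit 228) (nat_lit 3736536397) (nat_lit 61) (nat_lit 5) (nat_lit 63) (nat_lit 5) (nat_lit 64) (nat_lit 4) (nat_lit 389) (nat_lit 326) (nat_lit 305)))) (XT.nd (nat_lit 78) (nat_lit 304) (nat_lit 0) (XT.lf (nat_lit 0) (nat_lit 4474411363) (nat_lit 228) (nat_lit 5744782810) (nat_lit 76) (nat_lit 5427249340) (nat_lit 58) (nat_lit 5) (nat_lit 61) (nat_lit 5) (nat_lit 59) (nat_lit 4) (nat_lit 390) (nat_lit 326) (nat_lit 304)) (XT.nd (nat_lit 78) (nat_lit 228) (nat_lit 0) (XT.lf (nat_lit 0) (nat_lit 11283130895) (nat_lit 76) (nat_lit 1760079849) (nat_lit 152) (nat_lit 3101610187) (nat_lit 57) (nat_lit 5) (nat_lit 58) (nat_lit 5) (nat_lit 59) (nat_lit 4) (nat_lit 391) (nat_lit 326) (nat_lit 303)) (XT.lf (nat_lit 0) (nat_lit 5333340222) (nat_lit 228) (nat_lit 4264456935) (nat_lit 76) (nat_lit 7066810048) (nat_lit 54) (nat_lit 5) (nat_lit 57) (nat_lit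 5) (nat_lit 55) (nat_lit 4) (nat_lit 392) (nat_lit 326) (nat_lit 302))))) (XT.nd (nat_lit 234) (nat_lit 532) (nat_lit 0) (XT.nd (nat_lit 78) (nat_lit 304) (nat_lit 0) (XT.lf (nat_lit 0) (nat_lit 13297660487) (nat_lit 76) (nat_lit 846064323) (nat_lit 152) (nat_lit 3065215519) (nat_lit 53) (nat_lit 5) (nat_lit 54) (nat_lit 5) (nat_lit 55) (nat_lit 4) (nat_lit 393) (nat_lit 326) (nat_lit 301)) (XT.nd (nat_lit 78) (nat_lit 76) (nat_lit 0) (XT.lf (nat_lit 0) (nat_lit 5588812963) (nat_lit 228) (nat_lit 3918481495) (nat_lit 76) (nat_lit 8269062610) (nat_lit 50) (nat_lit 5) (nat_lit 53) (nat_lit 5) (nat_lit 51) (nat_lit 4) (nat_lit 394) (nat_lit 326) (nat_lit 300)) (XT.lf (nat_lit 0) (nat_lit 14143889603) (nat_lit 76) (nat_lit 482744133) (nat_lit 152) (nat_lit 3744178062) (nat_lit 49) (nat_lit 5) (nat_lit 50) (nat_lit 5) (nat_lit 51) (nat_lit 4) (nat_lit 395) (nat_lit 326) (nat_lit 299)))) (XT.nd (nat_lit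 78) (nat_lit 304) (nat_lit 0) (XT.lf (nat_lit 0) (nat_lit 5117341339) (nat_lit 228) (nat_lit 4970087233) (nat_lit 76) (nat_lit 8903217397) (nat_lit 46) (nat_lit 5) (nat_lit 49) (nat_lit 5) (nat_lit 47) (nat_lit 4) (nat_lit 396) (nat_lit 326) (nat_lit 298)) (XT.nd (nat_lit 78) (nat_lit 228) (nat_lit 0) (XT.lf (nat_lit 0) (nat_lit 13542437025) (nat_lit 76) (nat_lit 817748912) (nat_lit 152) (nat_lit 5279713934) (nat_lit 45) (nat_lit 5) (nat_lit 46) (nat_lit 5) (nat_lit 47) (nat_lit 4) (nat_lit 397) (nat_lit 326) (nat_lit 297)) (XT.lf (nat_lit 0) (nat_lit 3769746497) (nat_lit 228) (nat_lit 7733108300) (nat_lit 76) (nat_lit 8814714783) (nat_lit 42) (nat_lit 5) (nat_lit 45) (nat_lit 5) (nat_lit 43) (nat_lit 4) (nat_lit 398) (nat_lit 326) (nat_lit 296)))))) (XT.nd (nat_lit 468) (nat_lit 608) (nat_lit 0) (XT.nd (nat_lit 234) (nat_lit 228) (nat_lit 0) (XT.nd (nat_lit 78) (nat_lit 304) (nat_lit 0) (XT.lf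 (nat_lit 0) (nat_lit 11159841125) (nat_lit 76) (nat_lit 2025421988) (nat_lit 152) (nat_lit 7841617575) (nat_lit 41) (nat_lit 5) (nat_lit 42) (nat_lit 5) (nat_lit 43) (nat_lit 4) (nat_lit 399) (nat_lit 326) (nat_lit 295)) (XT.nd (nat_lit 78) (nat_lit 76) (nat_lit 0) (XT.lf (nat_lit 0) (nat_lit 1366712463) (nat_lit 228) (nat_lit 12581195012) (nat_lit 76) (nat_lit 7820618320) (nat_lit 38) (nat_lit 5) (nat_lit 41) (nat_lit 5) (nat_lit 39) (nat_lit 4) (nat_lit 400) (nat_lit 326) (nat_lit 294)) (XT.lf (nat_lit 0) (nat_lit 6598708797) (nat_lit 76) (nat_lit 4311906121) (nat_lit 152) (nat_lit 11633197360) (nat_lit 37) (nat_lit 5) (nat_lit 38) (nat_lit 5) (nat_lit 39) (nat_lit 4) (nat_lit 401) (nat_lit 326) (nat_lit 293)))) (XT.nd (nat_lit 78) (nat_lit 152) (nat_lit 0) (XT.lf (nat_lit 0) (nat_lit 3374498285) (nat_lit 76) (nat_lit 17628868418) (nat_lit 76) (nat_lit 2352354652) (nat_lit 36) (nat_lit 4) (nat_lit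 37) (nat_lit 5) (nat_lit 37) (nat_lit 4) (nat_lit 402) (nat_lit 326) (nat_lit 292)) (XT.nd (nat_lit 78) (nat_lit 76) (nat_lit 0) (XT.lf (nat_lit 0) (nat_lit 7313147898) (nat_lit 152) (nat_lit 601854221) (nat_lit 76) (nat_lit 16289153046) (nat_lit 35) (nat_lit 5) (nat_lit 37) (nat_lit 5) (nat_lit 36) (nat_lit 4) (nat_lit 403) (nat_lit 326) (nat_lit 291)) (XT.lf (nat_lit 0) (nat_lit 17489859922) (nat_lit 152) (nat_lit 5268059600) (nat_lit 0) (nat_lit 2334101838) (nat_lit 34) (nat_lit 5) (nat_lit 36) (nat_lit 4) (nat_lit 34) (nat_lit 4) (nat_lit 404) (nat_lit 326) (nat_lit 290))))) (XT.nd (nat_lit 234) (nat_lit 304) (nat_lit 0) (XT.nd (nat_lit 78) (nat_lit 152) (nat_lit 0) (XT.lf (nat_lit 0) (nat_lit 2207941931) (nat_lit 152) (nat_lit 10824247494) (nat_lit 76) (nat_lit 12988513788) (nat_lit 32) (nat_lit 5) (nat_lit 34) (nat_lit 5) (nat_lit 33) (nat_lit 4) (nat_lit 405) (nat_lit 326) (nat_lit 289))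 (XT.nd (nat_lit 78) (nat_lit 76) (nat_lit 0) (XT.lf (nat_lit 0) (nat_lit 9658227865) (nat_lit 76) (nat_lit 2710263284) (nat_lit 152) (nat_lit 14624561115) (nat_lit 31) (nat_lit 5) (nat_lit 32) (nat_lit 5) (nat_lit 33) (nat_lit 4) (nat_lit 406) (nat_lit 326) (nat_lit 288)) (XT.lf (nat_lit 0) (nat_lit 3113344405) (nat_lit 76) (nat_lit 20015190550) (nat_lit 76) (nat_lit 4882745630) (nat_lit 30) (nat_lit 4) (nat_lit 31) (nat_lit 5) (nat_lit 31) (nat_lit 4) (nat_lit 407) (nat_lit 326) (nat_lit 287)))) (XT.nd (nat_lit 156) (nat_lit 152) (nat_lit 0) (XT.nd (nat_lit 78) (nat_lit 76) (nat_lit 0) (XT.lf (nat_lit 0) (nat_lit 5322870191) (nat_lit 152) (nat_lit 4453332901) (nat_lit 76) (nat_lit 19300249933) (nat_lit 29) (nat_lit 5) (nat_lit 31) (nat_lit 5) (nat_lit 30) (nat_lit 4) (nat_lit 408) (nat_lit 326) (nat_lit 286)) (XT.lf (nat_lit 0) (nat_lit 15992657470) (nat_lit 152) (nat_lit 13137602893) (nat_lit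 0) (nat_lit 1061532339) (nat_lit 28) (nat_lit 5) (nat_lit 30) (nat_lit 4) (nat_lit 28) (nat_lit 4) (nat_lit 409) (nat_lit 326) (nat_lit 285))) (XT.nd (nat_lit 78) (nat_lit 76) (nat_lit 0) (XT.lf (nat_lit 0) (nat_lit 8201422347) (nat_lit 76) (nat_lit 19100333163) (nat_lit 76) (nat_lit 4057974103) (nat_lit 27) (nat_lit 4) (nat_lit 28) (nat_lit 5) (nat_lit 28) (nat_lit 4) (nat_lit 410) (nat_lit 326) (nat_lit 284)) (XT.lf (nat_lit 0) (nat_lit 6482588655) (nat_lit 152) (nat_lit 1988641165) (nat_lit 76) (nat_lit 24112309300) (nat_lit 26) (nat_lit 5) (nat_lit 28) (nat_lit 5) (nat_lit 27) (nat_lit 4) (nat_lit 411) (nat_lit 326) (nat_lit 283))))))) (XT.nd (nat_lit 936) (nat_lit 532) (nat_lit 0) (XT.nd (nat_lit 468) (nat_lit 380) (nat_lit 0) (XT.nd (nat_lit 234) (nat_lit 152) (nat_lit 0) (XT.nd (nat_lit 78) (nat_lit 152) (nat_lit 0) (XT.lf (nat_lit 0) (nat_lit 17580045562) (nat_lit 152) (nat_lit 13508870675)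 (nat_lit 0) (nat_lit 2775008098) (nat_lit 25) (nat_lit 5) (nat_lit 27) (nat_lit 4) (nat_lit 25) (nat_lit 4) (nat_lit 412) (nat_lit 326) (nat_lit 282)) (XT.nd (nat_lit 78) (nat_lit 76) (nat_lit 0) (XT.lf (nat_lit 0) (nat_lit 8520989154) (nat_lit 76) (nat_lit 20791631615) (nat_lit 76) (nat_lit 5893304780) (nat_lit 24) (nat_lit 4) (nat_lit 25) (nat_lit 5) (nat_lit 25) (nat_lit 4) (nat_lit 413) (nat_lit 326) (nat_lit 281)) (XT.lf (nat_lit 0) (nat_lit 4953641581) (nat_lit 152) (nat_lit 4931281442) (nat_lit 76) (nat_lit 26727618675) (nat_lit 23) (nat_lit 5) (nat_lit 25) (nat_lit 5) (nat_lit 24) (nat_lit 4) (nat_lit 414) (nat_lit 326) (nat_lit 280)))) (XT.nd (nat_lit 78) (nat_lit 76) (nat_lit 0) (XT.lf (nat_lit 0) (nat_lit 16311060370) (nat_lit 152) (nat_lit 20095726694) (nat_lit 0) (nat_lit 1678254485) (nat_lit 22) (nat_lit 5) (nat_lit 24) (nat_lit 4) (nat_lit 22) (nat_lit 4) (nat_lit 415) (nat_lit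 326) (nat_lit 279)) (XT.nd (nat_lit 78) (nat_lit 0) (nat_lit 0) (XT.lf (nat_lit 0) (nat_lit 2281476845) (nat_lit 76) (nat_lit 26029253568) (nat_lit 76) (nat_lit 11318208010) (nat_lit 21) (nat_lit 4) (nat_lit 22) (nat_lit 5) (nat_lit 22) (nat_lit 4) (nat_lit 416) (nat_lit 326) (nat_lit 278)) (XT.lf (nat_lit 0) (nat_lit 26010872912) (nat_lit 76) (nat_lit 15010692302) (nat_lit 76) (nat_lit 225132767) (nat_lit 21) (nat_lit 4) (nat_lit 22) (nat_lit 5) (nat_lit 22) (nat_lit 4) (nat_lit 417) (nat_lit 326) (nat_lit 277))))) (XT.nd (nat_lit 234) (nat_lit 152) (nat_lit 0) (XT.nd (nat_lit 78) (nat_lit 76) (nat_lit 0) (XT.lf (nat_lit 0) (nat_lit 7845121058) (nat_lit 76) (nat_lit 3337955928) (nat_lit 152) (nat_lit 31759476227) (nat_lit 19) (nat_lit 5) (nat_lit 20) (nat_lit 5) (nat_lit 21) (nat_lit 4) (nat_lit 418) (nat_lit 326) (nat_lit 276)) (XT.nd (nat_lit 78) (nat_lit 76) (nat_lit 0) (XT.lf (nat_lit 0)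 (nat_lit 23311058823) (nat_lit 152) (nat_lit 12585827782) (nat_lit 0) (nat_lit 8821630087) (nat_lit 19) (nat_lit 5) (nat_lit 21) (nat_lit 4) (nat_lit 19) (nat_lit 4) (nat_lit 419) (nat_lit 326) (nat_lit 275)) (XT.lf (nat_lit 0) (nat_lit 11065716363) (nat_lit 76) (nat_lit 25033930220) (nat_lit 76) (nat_lit 10482008305) (nat_lit 18) (nat_lit 4) (nat_lit 19) (nat_lit 5) (nat_lit 19) (nat_lit 4) (nat_lit 420) (nat_lit 326) (nat_lit 274)))) (XT.nd (nat_lit 78) (nat_lit 76) (nat_lit 0) (XT.lf (nat_lit 0) (nat_lit 1017082352) (nat_lit 152) (nat_lit 12546762052) (nat_lit 76) (nat_lit 34972422273) (nat_lit 17) (nat_lit 5) (nat_lit 19) (nat_lit 5) (nat_lit 18) (nat_lit 4) (nat_lit 421) (nat_lit 326) (nat_lit 273)) (XT.nd (nat_lit 78) (nat_lit 0) (nat_lit 0) (XT.lf (nat_lit 0) (nat_lit 11533228866) (nat_lit 76) (nat_lit 1373840714) (nat_lit 152) (nat_lit 37677446647) (nat_lit 16) (nat_lit 5) (nat_lit 17)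 (nat_lit 5) (nat_lit 18) (nat_lit 4) (nat_lit 422) (nat_lit 326) (nat_lit 272)) (XT.lf (nat_lit 0) (nat_lit 25553304390) (nat_lit 152) (nat_lit 15917026459) (nat_lit 0) (nat_lit 11259997263) (nat_lit 16) (nat_lit 5) (nat_lit 18) (nat_lit 4) (nat_lit 16) (nat_lit 4) (nat_lit 423) (nat_lit 326) (nat_lit 271)))))) (XT.nd (nat_lit 468) (nat_lit 228) (nat_lit 0) (XT.nd (nat_lit 234) (nat_lit 76) (nat_lit 0) (XT.nd (nat_lit 78) (nat_lit 152) (nat_lit 0) (XT.lf (nat_lit 0) (nat_lit 8376854595) (nat_lit 76) (nat_lit 30474606417) (nat_lit 76) (nat_lit 16131383472) (nat_lit 15) (nat_lit 4) (nat_lit 16) (nat_lit 5) (nat_lit 16) (nat_lit 4) (nat_lit 424) (nat_lit 326) (nat_lit 270)) (XT.nd (nat_lit 78) (nat_lit 152) (nat_lit 0) (XT.lf (nat_lit 0) (nat_lit 34075564562) (nat_lit 76) (nat_lit 18830224064) (nat_lit 76) (nat_lit 4439462245) (nat_lit 15) (nat_lit 4) (nat_lit 16) (nat_lit 5) (nat_lit 16) (nat_lit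 4) (nat_lit 425) (nat_lit 326) (nat_lit 269)) (XT.lf (nat_lit 0) (nat_lit 1041327252) (nat_lit 76) (nat_lit 6582990082) (nat_lit 152) (nat_lit 52200996394) (nat_lit 13) (nat_lit 5) (nat_lit 14) (nat_lit 5) (nat_lit 15) (nat_lit 4) (nat_lit 426) (nat_lit 326) (nat_lit 268)))) (XT.nd (nat_lit 78) (nat_lit 76) (nat_lit 0) (XT.lf (nat_lit 0) (nat_lit 20434169361) (nat_lit 152) (nat_lit 35610116350) (nat_lit 0) (nat_lit 6376736256) (nat_lit 13) (nat_lit 5) (nat_lit 15) (nat_lit 4) (nat_lit 13) (nat_lit 4) (nat_lit 427) (nat_lit 326) (nat_lit 267)) (XT.nd (nat_lit 78) (nat_lit 76) (nat_lit 0) (XT.lf (nat_lit 0) (nat_lit 33885812662) (nat_lit 152) (nat_lit 11472155965) (nat_lit 0) (nat_lit 19788509783) (nat_lit 13) (nat_lit 5) (nat_lit 15) (nat_lit 4) (nat_lit 13) (nat_lit 4) (nat_lit 428) (nat_lit 326) (nat_lit 266)) (XT.lf (nat_lit 0) (nat_lit 14024310554) (nat_lit 76) (nat_lit 34058494932) (nat_lit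 76) (nat_lit 19923220840) (nat_lit 12) (nat_lit 4) (nat_lit 13) (nat_lit 5) (nat_lit 13) (nat_lit 4) (nat_lit 429) (nat_lit 326) (nat_lit 265))))) (XT.nd (nat_lit 234) (nat_lit 76) (nat_lit 0) (XT.nd (nat_lit 78) (nat_lit 152) (nat_lit 0) (XT.lf (nat_lit 0) (nat_lit 40916776749) (nat_lit 76) (nat_lit 22130738800) (nat_lit 76) (nat_lit 7959301648) (nat_lit 12) (nat_lit 4) (nat_lit 13) (nat_lit 5) (nat_lit 13) (nat_lit 4) (nat_lit 430) (nat_lit 326) (nat_lit 264)) (XT.nd (nat_lit 78) (nat_lit 76) (nat_lit 0) (XT.lf (nat_lit 0) (nat_lit 4455066507) (nat_lit 152) (nat_lit 5162093150) (nat_lit 76) (nat_lit 64540899960) (nat_lit 11) (nat_lit 5) (nat_lit 13) (nat_lit 5) (nat_lit 12) (nat_lit 4) (nat_lit 431) (nat_lit 326) (nat_lit 263)) (XT.lf (nat_lit 0) (nat_lit 17512210857) (nat_lit 152) (nat_lit 56258439961) (nat_lit 0) (nat_lit 3688250543) (nat_lit 10) (nat_lit 5) (nat_lit 12) (nat_lit 4) (nat_lit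 10) (nat_lit 4) (nat_lit 432) (nat_lit 326) (nat_lit 262)))) (XT.nd (nat_lit 156) (nat_lit 76) (nat_lit 0) (XT.nd (nat_lit 78) (nat_lit 0) (nat_lit 0) (XT.lf (nat_lit 0) (nat_lit 31318888454) (nat_lit 152) (nat_lit 32138398786) (nat_lit 0) (nat_lit 17464599003) (nat_lit 10) (nat_lit 5) (nat_lit 12) (nat_lit 4) (nat_lit 10) (nat_lit 4) (nat_lit 433) (nat_lit 326) (nat_lit 261)) (XT.lf (nat_lit 0) (nat_lit 45764416486) (nat_lit 152) (nat_lit 6913907515) (nat_lit 0) (nat_lit 31881242142) (nat_lit 10) (nat_lit 5) (nat_lit 12) (nat_lit 4) (nat_lit 10) (nat_lit 4) (nat_lit 434) (nat_lit 326) (nat_lit 260))) (XT.nd (nat_lit 78) (nat_lit 0) (nat_lit 0) (XT.lf (nat_lit 0) (nat_lit 19862684685) (nat_lit 76) (nat_lit 41211436657) (nat_lit 76) (nat_lit 27300752893) (nat_lit 9) (nat_lit 4) (nat_lit 10) (nat_lit 5) (nat_lit 10) (nat_lit 4) (nat_lit 435) (nat_lit 326) (nat_lit 259)) (XT.lf (nat_lit 0) (nat_lit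 48028643021) (nat_lit 76) (nat_lit 29144240950) (nat_lit 76) (nat_lit 15207357736) (nat_lit 9) (nat_lit 4) (nat_lit 10) (nat_lit 5) (nat_lit 10) (nat_lit 4) (nat_lit 436) (nat_lit 326) (nat_lit 258))))))))
noncomputable def xc26 : XT := (XT.nd (nat_lit 49452) (nat_lit 0) (nat_lit 1140) (XT.nd (nat_lit 48438) (nat_lit 0) (nat_lit 3952) (XT.nd (nat_lit 47970) (nat_lit 0) (nat_lit 7372) (XT.nd (nat_lit 47736) (nat_lit 0) (nat_lit 9804) (XT.nd (nat_lit 47580) (nat_lit 0) (nat_lit 11324) (XT.lf (nat_lit 0) (nat_lit 77513428984) (nat_lit 76) (nat_lit 16517822369) (nat_lit 76) (nat_lit 2555987300) (nat_lit 9) (nat_lit 4) (nat_lit 10) (nat_lit 5) (nat_lit 10) (nat_lit 4) (nat_lit 437) (nat_lit 326) (nat_lit 257)) (XT.nd (nat_lit 78) (nat_lit 456) (nat_lit 0) (XT.lf (nat_lit 0) (nat_lit 1772677454) (nat_lit 380) (nat_lit 1232698648) (nat_lit 380) (nat_lit 1232698648) (nat_lit 164) (nat_lit 4) (nat_lit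 169) (nat_lit 5) (nat_lit 169) (nat_lit 4) (nat_lit 366) (nat_lit 327) (nat_lit 327)) (XT.lf (nat_lit 0) (nat_lit 4201382884) (nat_lit 456) (nat_lit 1943712375) (nat_lit 0) (nat_lit 2497483254) (nat_lit 158) (nat_lit 5) (nat_lit 164) (nat_lit 4) (nat_lit 158) (nat_lit 4) (nat_lit 367) (nat_lit 327) (nat_lit 326)))) (XT.nd (nat_lit 78) (nat_lit 760) (nat_lit 0) (XT.lf (nat_lit 0) (nat_lit 1138616417) (nat_lit 304) (nat_lit 1061027720) (nat_lit 380) (nat_lit 6619010671) (nat_lit 148) (nat_lit 5) (nat_lit 152) (nat_lit 5) (nat_lit 153) (nat_lit 4) (nat_lit 368) (nat_lit 327) (nat_lit 325)) (XT.nd (nat_lit 78) (nat_lit 304) (nat_lit 0) (XT.lf (nat_lit 0) (nat_lit 21522321) (nat_lit 456) (nat_lit 4686550826) (nat_lit 76) (nat_lit 4295846216) (nat_lit 142) (nat_lit 5) (nat_lit 148) (nat_lit 5) (nat_lit 143) (nat_lit 4) (nat_lit 369) (nat_lit 327) (nat_lit 324)) (XT.lf (nat_lit 0) (nat_lit 6766791124)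 (nat_lit 380) (nat_lit 1645538889) (nat_lit 0) (nat_lit 786924088) (nat_lit 138) (nat_lit 5) (nat_lit 143) (nat_lit 4) (nat_lit 138) (nat_lit 4) (nat_lit 370) (nat_lit 327) (nat_lit 323))))) (XT.nd (nat_lit 234) (nat_lit 1140) (nat_lit 0) (XT.nd (nat_lit 78) (nat_lit 608) (nat_lit 0) (XT.lf (nat_lit 0) (nat_lit 1463660718) (nat_lit 304) (nat_lit 2854004799) (nat_lit 380) (nat_lit 5086681584) (nat_lit 129) (nat_lit 5) (nat_lit 133) (nat_lit 5) (nat_lit 134) (nat_lit 4) (nat_lit 371) (nat_lit 327) (nat_lit 322)) (XT.nd (nat_lit 78) (nat_lit 228) (nat_lit 0) (XT.lf (nat_lit 0) (nat_lit 1652324274) (nat_lit 380) (nat_lit 4956085508) (nat_lit 76) (nat_lit 3011608610) (nat_lit 124) (nat_lit 5) (nat_lit 129) (nat_lit 5) (nat_lit 125) (nat_lit 4) (nat_lit 372) (nat_lit 327) (nat_lit 321)) (XT.lf (nat_lit 0) (nat_lit 7910319765) (nat_lit 228) (nat_lit 653327689) (nat_lit 304) (nat_lit 1283147552) (nat_lit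 121) (nat_lit 5) (nat_lit 124) (nat_lit 5) (nat_lit 125) (nat_lit 4) (nat_lit 373) (nat_lit 327) (nat_lit 320)))) (XT.nd (nat_lit 78) (nat_lit 532) (nat_lit 0) (XT.lf (nat_lit 0) (nat_lit 1107189614) (nat_lit 228) (nat_lit 4499229652) (nat_lit 304) (nat_lit 4477401618) (nat_lit 113) (nat_lit 5) (nat_lit 116) (nat_lit 5) (nat_lit 117) (nat_lit 4) (nat_lit 374) (nat_lit 327) (nat_lit 319)) (XT.nd (nat_lit 78) (nat_lit 228) (nat_lit 0) (XT.lf (nat_lit 0) (nat_lit 2400688057) (nat_lit 304) (nat_lit 6096024313) (nat_lit 76) (nat_lit 1835906287) (nat_lit 109) (nat_lit 5) (nat_lit 113) (nat_lit 5) (nat_lit 110) (nat_lit 4) (nat_lit 375) (nat_lit 327) (nat_lit 318)) (XT.lf (nat_lit 0) (nat_lit 7379944327) (nat_lit 228) (nat_lit 2125873801) (nat_lit 304) (nat_lit 1087476654) (nat_lit 106) (nat_lit 5) (nat_lit 109) (nat_lit 5) (nat_lit 110) (nat_lit 4) (nat_lit 376) (nat_lit 327) (nat_lit 317)))))) (XT.nd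 (nat_lit 468) (nat_lit 1520) (nat_lit 0) (XT.nd (nat_lit 234) (nat_lit 912) (nat_lit 0) (XT.nd (nat_lit 78) (nat_lit 684) (nat_lit 0) (XT.lf (nat_lit 0) (nat_lit 5960370231) (nat_lit 304) (nat_lit 346269236) (nat_lit 76) (nat_lit 4559238142) (nat_lit 102) (nat_lit 5) (nat_lit 106) (nat_lit 5) (nat_lit 103) (nat_lit 4) (nat_lit 377) (nat_lit 327) (nat_lit 316)) (XT.nd (nat_lit 78) (nat_lit 152) (nat_lit 0) (XT.lf (nat_lit 0) (nat_lit 2136398701) (nat_lit 304) (nat_lit 8556461885) (nat_lit 76) (nat_lit 458528761) (nat_lit 95) (nat_lit 5) (nat_lit 99) (nat_lit 5) (nat_lit 96) (nat_lit 4) (nat_lit 378) (nat_lit 327) (nat_lit 315)) (XT.lf (nat_lit 0) (nat_lit 5505382680) (nat_lit 152) (nat_lit 3938061234) (nat_lit 228) (nat_lit 2005873695) (nat_lit 93) (nat_lit 5) (nat_lit 95) (nat_lit 5) (nat_lit 96) (nat_lit 4) (nat_lit 379) (nat_lit 327) (nat_lit 314)))) (XT.nd (nat_lit 78) (nat_lit 608) (nat_lit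 0) (XT.lf (nat_lit 0) (nat_lit 5232010589) (nat_lit 304) (nat_lit 3359144355) (nat_lit 76) (nat_lit 3169990460) (nat_lit 89) (nat_lit 5) (nat_lit 93) (nat_lit 5) (nat_lit 90) (nat_lit 4) (nat_lit 380) (nat_lit 327) (nat_lit 313)) (XT.nd (nat_lit 78) (nat_lit 380) (nat_lit 0) (XT.lf (nat_lit 0) (nat_lit 686368600) (nat_lit 228) (nat_lit 794444491) (nat_lit 76) (nat_lit 10607049175) (nat_lit 86) (nat_lit 5) (nat_lit 89) (nat_lit 5) (nat_lit 87) (nat_lit 5) (nat_lit 381) (nat_lit 327) (nat_lit 312)) (XT.lf (nat_lit 0) (nat_lit 1718191910) (nat_lit 152) (nat_lit 6448731894) (nat_lit 228) (nat_lit 4260899364) (nat_lit 81) (nat_lit 5) (nat_lit 83) (nat_lit 5) (nat_lit 84) (nat_lit 4) (nat_lit 382) (nat_lit 327) (nat_lit 311))))) (XT.nd (nat_lit 234) (nat_lit 912) (nat_lit 0) (XT.nd (nat_lit 78) (nat_lit 380) (nat_lit 0) (XT.lf (nat_lit 0) (nat_lit 3173426595) (nat_lit 228) (nat_lit 8566594458) (nat_lit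 76) (nat_lit 1043856594) (nat_lit 78) (nat_lit 5) (nat_lit 81) (nat_lit 5) (nat_lit 79) (nat_lit 4) (nat_lit 383) (nat_lit 327) (nat_lit 310)) (XT.nd (nat_lit 78) (nat_lit 228) (nat_lit 0) (XT.lf (nat_lit 0) (nat_lit 6624027049) (nat_lit 152) (nat_lit 4304958764) (nat_lit 228) (nat_lit 2226377873) (nat_lit 76) (nat_lit 5) (nat_lit 78) (nat_lit 5) (nat_lit 79) (nat_lit 4) (nat_lit 384) (nat_lit 327) (nat_lit 309)) (XT.lf (nat_lit 0) (nat_lit 5430026330) (nat_lit 228) (nat_lit 4597082208) (nat_lit 76) (nat_lit 3516414175) (nat_lit 73) (nat_lit 5) (nat_lit 76) (nat_lit 5) (nat_lit 74) (nat_lit 4) (nat_lit 385) (nat_lit 327) (nat_lit 308)))) (XT.nd (nat_lit 156) (nat_lit 532) (nat_lit 0) (XT.nd (nat_lit 78) (nat_lit 228) (nat_lit 0) (XT.lf (nat_lit 0) (nat_lit 11193251551) (nat_lit 152) (nat_lit 2255225953) (nat_lit 228) (nat_lit 501213533) (nat_lit 71) (nat_lit 5) (nat_lit 73) (nat_lit 5) (nat_lit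 74) (nat_lit 4) (nat_lit 386) (nat_lit 327) (nat_lit 307)) (XT.lf (nat_lit 0) (nat_lit 7389401215) (nat_lit 228) (nat_lit 1087946227) (nat_lit 76) (nat_lit 5895361902) (nat_lit 68) (nat_lit 5) (nat_lit 71) (nat_lit 5) (nat_lit 69) (nat_lit 4) (nat_lit 387) (nat_lit 327) (nat_lit 306))) (XT.nd (nat_lit 78) (nat_lit 152) (nat_lit 0) (XT.lf (nat_lit 0) (nat_lit 492691392) (nat_lit 152) (nat_lit 356280936) (nat_lit 228) (nat_lit 13966989016) (nat_lit 63) (nat_lit 5) (nat_lit 65) (nat_lit 5) (nat_lit 66) (nat_lit 5) (nat_lit 388) (nat_lit 327) (nat_lit 305)) (XT.lf (nat_lit 0) (nat_lit 1862341981) (nat_lit 152) (nat_lit 7150115029) (nat_lit 228) (nat_lit 6264341145) (nat_lit 61) (nat_lit 5) (nat_lit 63) (nat_lit 5) (nat_lit 64) (nat_lit 4) (nat_lit 389) (nat_lit 327) (nat_lit 304))))))) (XT.nd (nat_lit 936) (nat_lit 1064) (nat_lit 0) (XT.nd (nat_lit 468) (nat_lit 836) (nat_lit 0) (XT.nd (nat_lit 234)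 (nat_lit 380) (nat_lit 0) (XT.nd (nat_lit 78) (nat_lit 304) (nat_lit 0) (XT.lf (nat_lit 0) (nat_lit 1800668857) (nat_lit 228) (nat_lit 12665707520) (nat_lit 76) (nat_lit 1293405899) (nat_lit 58) (nat_lit 5) (nat_lit 61) (nat_lit 5) (nat_lit 59) (nat_lit 4) (nat_lit 390) (nat_lit 327) (nat_lit 303)) (XT.nd (nat_lit 78) (nat_lit 228) (nat_lit 0) (XT.lf (nat_lit 0) (nat_lit 4062459386) (nat_lit 76) (nat_lit 6150747257) (nat_lit 152) (nat_lit 6049648173) (nat_lit 57) (nat_lit 5) (nat_lit 58) (nat_lit 5) (nat_lit 59) (nat_lit 4) (nat_lit 391) (nat_lit 327) (nat_lit 302)) (XT.lf (nat_lit 0) (nat_lit 2240696475) (nat_lit 228) (nat_lit 11959155368) (nat_lit 76) (nat_lit 2589710102) (nat_lit 54) (nat_lit 5) (nat_lit 57) (nat_lit 5) (nat_lit 55) (nat_lit 4) (nat_lit 392) (nat_lit 327) (nat_lit 301)))) (XT.nd (nat_lit 78) (nat_lit 304) (nat_lit 0) (XT.lf (nat_lit 0) (nat_lit 5293435007) (nat_lit 76) (nat_lit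 5597593714) (nat_lit 152) (nat_lit 6447674323) (nat_lit 53) (nat_lit 5) (nat_lit 54) (nat_lit 5) (nat_lit 55) (nat_lit 4) (nat_lit 393) (nat_lit 327) (nat_lit 300)) (XT.nd (nat_lit 78) (nat_lit 76) (nat_lit 0) (XT.lf (nat_lit 0) (nat_lit 2062604511) (nat_lit 228) (nat_lit 12422903641) (nat_lit 76) (nat_lit 3427885590) (nat_lit 50) (nat_lit 5) (nat_lit 53) (nat_lit 5) (nat_lit 51) (nat_lit 4) (nat_lit 394) (nat_lit 327) (nat_lit 299)) (XT.lf (nat_lit 0) (nat_lit 5319291578) (nat_lit 76) (nat_lit 5616740122) (nat_lit 152) (nat_lit 7576754221) (nat_lit 49) (nat_lit 5) (nat_lit 50) (nat_lit 5) (nat_lit 51) (nat_lit 4) (nat_lit 395) (nat_lit 327) (nat_lit 298))))) (XT.nd (nat_lit 234) (nat_lit 380) (nat_lit 0) (XT.nd (nat_lit 78) (nat_lit 228) (nat_lit 0) (XT.lf (nat_lit 0) (nat_lit 1141409275) (nat_lit 228) (nat_lit 14322566897) (nat_lit 76) (nat_lit 3676298665) (nat_lit 46) (nat_lit 5) (nat_lit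 49) (nat_lit 5) (nat_lit 47) (nat_lit 4) (nat_lit 396) (nat_lit 327) (nat_lit 297)) (XT.nd (nat_lit 78) (nat_lit 152) (nat_lit 0) (XT.lf (nat_lit 0) (nat_lit 3858215365) (nat_lit 76) (nat_lit 6356743829) (nat_lit 152) (nat_lit 9579653354) (nat_lit 45) (nat_lit 5) (nat_lit 46) (nat_lit 5) (nat_lit 47) (nat_lit 4) (nat_lit 397) (nat_lit 327) (nat_lit 296)) (XT.lf (nat_lit 0) (nat_lit 2499017100) (nat_lit 152) (nat_lit 17294117870) (nat_lit 152) (nat_lit 687013420) (nat_lit 43) (nat_lit 4) (nat_lit 45) (nat_lit 5) (nat_lit 45) (nat_lit 4) (nat_lit 398) (nat_lit 327) (nat_lit 295)))) (XT.nd (nat_lit 78) (nat_lit 228) (nat_lit 0) (XT.lf (nat_lit 0) (nat_lit 574145650) (nat_lit 76) (nat_lit 7992995757) (nat_lit 152) (nat_lit 12627763622) (nat_lit 41) (nat_lit 5) (nat_lit 42) (nat_lit 5) (nat_lit 43) (nat_lit 4) (nat_lit 399) (nat_lit 327) (nat_lit 294)) (XT.nd (nat_lit 78) (nat_lit 228) (nat_lit 0)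 (XT.lf (nat_lit 0) (nat_lit 18327482071) (nat_lit 152) (nat_lit 1810058873) (nat_lit 0) (nat_lit 1805932433) (nat_lit 41) (nat_lit 5) (nat_lit 43) (nat_lit 4) (nat_lit 41) (nat_lit 4) (nat_lit 400) (nat_lit 327) (nat_lit 293)) (XT.lf (nat_lit 0) (nat_lit 5847142259) (nat_lit 228) (nat_lit 4836820541) (nat_lit 76) (nat_lit 12040383583) (nat_lit 38) (nat_lit 5) (nat_lit 41) (nat_lit 5) (nat_lit 39) (nat_lit 4) (nat_lit 401) (nat_lit 327) (nat_lit 292)))))) (XT.nd (nat_lit 468) (nat_lit 532) (nat_lit 0) (XT.nd (nat_lit 234) (nat_lit 228) (nat_lit 0) (XT.nd (nat_lit 78) (nat_lit 228) (nat_lit 0) (XT.lf (nat_lit 0) (nat_lit 15062055647) (nat_lit 76) (nat_lit 674267794) (nat_lit 152) (nat_lit 7806042807) (nat_lit 37) (nat_lit 5) (nat_lit 38) (nat_lit 5) (nat_lit 39) (nat_lit 4) (nat_lit 402) (nat_lit 327) (nat_lit 291)) (XT.nd (nat_lit 78) (nat_lit 76) (nat_lit 0) (XT.lf (nat_lit 0) (nat_lit 1808344403)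 (nat_lit 152) (nat_lit 12882899601) (nat_lit 76) (nat_lit 9705858265) (nat_lit 35) (nat_lit 5) (nat_lit 37) (nat_lit 5) (nat_lit 36) (nat_lit 4) (nat_lit 403) (nat_lit 327) (nat_lit 290)) (XT.lf (nat_lit 0) (nat_lit 7197688502) (nat_lit 76) (nat_lit 4578989881) (nat_lit 152) (nat_lit 13514544653) (nat_lit 34) (nat_lit 5) (nat_lit 35) (nat_lit 5) (nat_lit 36) (nat_lit 4) (nat_lit 404) (nat_lit 327) (nat_lit 289)))) (XT.nd (nat_lit 78) (nat_lit 152) (nat_lit 0) (XT.lf (nat_lit 0) (nat_lit 2060754784) (nat_lit 76) (nat_lit 20266266392) (nat_lit 76) (nat_lit 3900527211) (nat_lit 33) (nat_lit 4) (nat_lit 34) (nat_lit 5) (nat_lit 34) (nat_lit 4) (nat_lit 405) (nat_lit 327) (nat_lit 288)) (XT.nd (nat_lit 78) (nat_lit 76) (nat_lit 0) (XT.lf (nat_lit 0) (nat_lit 6182014992) (nat_lit 152) (nat_lit 3952857845) (nat_lit 76) (nat_lit 17070775882) (nat_lit 32) (nat_lit 5) (nat_lit 34) (nat_lit 5) (nat_lit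 33) (nat_lit 4) (nat_lit 406) (nat_lit 327) (nat_lit 287)) (XT.lf (nat_lit 0) (nat_lit 16741638946) (nat_lit 152) (nat_lit 10894626283) (nat_lit 0) (nat_lit 593627117) (nat_lit 31) (nat_lit 5) (nat_lit 33) (nat_lit 4) (nat_lit 31) (nat_lit 4) (nat_lit 407) (nat_lit 327) (nat_lit 286))))) (XT.nd (nat_lit 234) (nat_lit 304) (nat_lit 0) (XT.nd (nat_lit 78) (nat_lit 152) (nat_lit 0) (XT.lf (nat_lit 0) (nat_lit 10339927804) (nat_lit 76) (nat_lit 17614983474) (nat_lit 76) (nat_lit 1346672150) (nat_lit 30) (nat_lit 4) (nat_lit 31) (nat_lit 5) (nat_lit 31) (nat_lit 4) (nat_lit 408) (nat_lit 327) (nat_lit 285)) (XT.nd (nat_lit 78) (nat_lit 0) (nat_lit 0) (XT.lf (nat_lit 0) (nat_lit 2170973165) (nat_lit 76) (nat_lit 6968857098) (nat_lit 152) (nat_lit 21283770478) (nat_lit 28) (nat_lit 5) (nat_lit 29) (nat_lit 5) (nat_lit 30) (nat_lit 4) (nat_lit 409) (nat_lit 327) (nat_lit 284)) (XT.lf (nat_lit 0) (nat_lit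 20248288685) (nat_lit 152) (nat_lit 7112629762) (nat_lit 0) (nat_lit 4236640666) (nat_lit 28) (nat_lit 5) (nat_lit 30) (nat_lit 4) (nat_lit 28) (nat_lit 4) (nat_lit 410) (nat_lit 327) (nat_lit 283)))) (XT.nd (nat_lit 156) (nat_lit 76) (nat_lit 0) (XT.nd (nat_lit 78) (nat_lit 152) (nat_lit 0) (XT.lf (nat_lit 0) (nat_lit 15101812757) (nat_lit 76) (nat_lit 16918846440) (nat_lit 76) (nat_lit 806305968) (nat_lit 27) (nat_lit 4) (nat_lit 28) (nat_lit 5) (nat_lit 28) (nat_lit 4) (nat_lit 411) (nat_lit 327) (nat_lit 282)) (XT.lf (nat_lit 0) (nat_lit 4240253016) (nat_lit 76) (nat_lit 5833087642) (nat_lit 152) (nat_lit 24041250571) (nat_lit 25) (nat_lit 5) (nat_lit 26) (nat_lit 5) (nat_lit 27) (nat_lit 4) (nat_lit 412) (nat_lit 327) (nat_lit 281))) (XT.nd (nat_lit 78) (nat_lit 76) (nat_lit 0) (XT.lf (nat_lit 0) (nat_lit 21617835966) (nat_lit 152) (nat_lit 8051944378) (nat_lit 0) (nat_lit 5792456402) (nat_lit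 25) (nat_lit 5) (nat_lit 27) (nat_lit 4) (nat_lit 25) (nat_lit 4) (nat_lit 413) (nat_lit 327) (nat_lit 280)) (XT.lf (nat_lit 0) (nat_lit 14903625293) (nat_lit 76) (nat_lit 18940254513) (nat_lit 76) (nat_lit 3030258741) (nat_lit 24) (nat_lit 4) (nat_lit 25) (nat_lit 5) (nat_lit 25) (nat_lit 4) (nat_lit 414) (nat_lit 327) (nat_lit 279))))))))
noncomputable def xc27 : XT := (XT.nd (nat_lit 49296) (nat_lit 0) (nat_lit 3952) (XT.nd (nat_lit 936) (nat_lit 456) (nat_lit 0) (XT.nd (nat_lit 468) (nat_lit 304) (nat_lit 0) (XT.nd (nat_lit 234) (nat_lit 152) (nat_lit 0) (XT.nd (nat_lit 78) (nat_lit 76) (nat_lit 0) (XT.lf (nat_lit 0) (nat_lit 564907490) (nat_lit 76) (nat_lit 7590506365) (nat_lit 152) (nat_lit 30199026406) (nat_lit 22) (nat_lit 5) (nat_lit 23) (nat_lit 5) (nat_lit 24) (nat_lit 4) (nat_lit 415) (nat_lit 327) (nat_lit 278)) (XT.nd (nat_lit 78) (nat_lit 76) (nat_lit 0) (XT.lf (nat_lit 0) (nat_lit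 20014387032) (nat_lit 152) (nat_lit 15473137064) (nat_lit 0) (nat_lit 4415035544) (nat_lit 22) (nat_lit 5) (nat_lit 24) (nat_lit 4) (nat_lit 22) (nat_lit 4) (nat_lit 416) (nat_lit 327) (nat_lit 277)) (XT.lf (nat_lit 0) (nat_lit 7861619050) (nat_lit 76) (nat_lit 24667451691) (nat_lit 76) (nat_lit 8997134512) (nat_lit 21) (nat_lit 4) (nat_lit 22) (nat_lit 5) (nat_lit 22) (nat_lit 4) (nat_lit 417) (nat_lit 327) (nat_lit 276)))) (XT.nd (nat_lit 78) (nat_lit 76) (nat_lit 0) (XT.lf (nat_lit 0) (nat_lit 2464079063) (nat_lit 152) (nat_lit 10735823052) (nat_lit 76) (nat_lit 30028234520) (nat_lit 20) (nat_lit 5) (nat_lit 22) (nat_lit 5) (nat_lit 21) (nat_lit 4) (nat_lit 418) (nat_lit 327) (nat_lit 275)) (XT.nd (nat_lit 78) (nat_lit 0) (nat_lit 0) (XT.lf (nat_lit 0) (nat_lit 13346134950) (nat_lit 76) (nat_lit 1012685973) (nat_lit 152) (nat_lit 30652277730) (nat_lit 19) (nat_lit 5) (nat_lit 20) (nat_lit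 5) (nat_lit 21) (nat_lit 4) (nat_lit 419) (nat_lit 327) (nat_lit 274)) (XT.lf (nat_lit 0) (nat_lit 26991417791) (nat_lit 152) (nat_lit 8297610772) (nat_lit 0) (nat_lit 11589889289) (nat_lit 19) (nat_lit 5) (nat_lit 21) (nat_lit 4) (nat_lit 19) (nat_lit 4) (nat_lit 420) (nat_lit 327) (nat_lit 273))))) (XT.nd (nat_lit 234) (nat_lit 76) (nat_lit 0) (XT.nd (nat_lit 78) (nat_lit 152) (nat_lit 0) (XT.lf (nat_lit 0) (nat_lit 16395551190) (nat_lit 76) (nat_lit 23950046192) (nat_lit 76) (nat_lit 8491834535) (nat_lit 18) (nat_lit 4) (nat_lit 19) (nat_lit 5) (nat_lit 19) (nat_lit 4) (nat_lit 421) (nat_lit 327) (nat_lit 272)) (XT.nd (nat_lit 78) (nat_lit 76) (nat_lit 0) (XT.lf (nat_lit 0) (nat_lit 3415757079) (nat_lit 152) (nat_lit 8578208743) (nat_lit 76) (nat_lit 38898608687) (nat_lit 17) (nat_lit 5) (nat_lit 19) (nat_lit 5) (nat_lit 18) (nat_lit 4) (nat_lit 422) (nat_lit 327) (nat_lit 271)) (XT.lf (nat_lit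 0) (nat_lit 15838493996) (nat_lit 152) (nat_lit 36478404319) (nat_lit 0) (nat_lit 728194086) (nat_lit 16) (nat_lit 5) (nat_lit 18) (nat_lit 4) (nat_lit 16) (nat_lit 4) (nat_lit 423) (nat_lit 327) (nat_lit 270)))) (XT.nd (nat_lit 78) (nat_lit 76) (nat_lit 0) (XT.lf (nat_lit 0) (nat_lit 29021386223) (nat_lit 152) (nat_lit 12416134064) (nat_lit 0) (nat_lit 13863547438) (nat_lit 16) (nat_lit 5) (nat_lit 18) (nat_lit 4) (nat_lit 16) (nat_lit 4) (nat_lit 424) (nat_lit 327) (nat_lit 269)) (XT.nd (nat_lit 78) (nat_lit 0) (nat_lit 0) (XT.lf (nat_lit 0) (nat_lit 12969275747) (nat_lit 76) (nat_lit 29950988365) (nat_lit 76) (nat_lit 14747874462) (nat_lit 15) (nat_lit 4) (nat_lit 16) (nat_lit 5) (nat_lit 16) (nat_lit 4) (nat_lit 425) (nat_lit 327) (nat_lit 268)) (XT.lf (nat_lit 0) (nat_lit 39754179382) (nat_lit 76) (nat_lit 17821879674) (nat_lit 76) (nat_lit 2575646611) (nat_lit 15) (nat_lit 4) (nat_lit 16)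 (nat_lit 5) (nat_lit 16) (nat_lit 4) (nat_lit 426) (nat_lit 327) (nat_lit 267)))))) (XT.nd (nat_lit 468) (nat_lit 152) (nat_lit 0) (XT.nd (nat_lit 234) (nat_lit 152) (nat_lit 0) (XT.nd (nat_lit 78) (nat_lit 0) (nat_lit 0) (XT.lf (nat_lit 0) (nat_lit 4993881866) (nat_lit 76) (nat_lit 4996847589) (nat_lit 152) (nat_lit 52766240149) (nat_lit 13) (nat_lit 5) (nat_lit 14) (nat_lit 5) (nat_lit 15) (nat_lit 4) (nat_lit 427) (nat_lit 327) (nat_lit 266)) (XT.nd (nat_lit 78) (nat_lit 0) (nat_lit 0) (XT.lf (nat_lit 0) (nat_lit 23364075175) (nat_lit 152) (nat_lit 33636634450) (nat_lit 0) (nat_lit 8484066165) (nat_lit 13) (nat_lit 5) (nat_lit 15) (nat_lit 4) (nat_lit 13) (nat_lit 4) (nat_lit 428) (nat_lit 327) (nat_lit 265)) (XT.lf (nat_lit 0) (nat_lit 37397434101) (nat_lit 152) (nat_lit 8470537365) (nat_lit 0) (nat_lit 22481262031) (nat_lit 13) (nat_lit 5) (nat_lit 15) (nat_lit 4) (nat_lit 13) (nat_lit 4)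 (nat_lit 429) (nat_lit 327) (nat_lit 264)))) (XT.nd (nat_lit 78) (nat_lit 76) (nat_lit 0) (XT.lf (nat_lit 0) (nat_lit 18198269332) (nat_lit 76) (nat_lit 34052849804) (nat_lit 76) (nat_lit 19102236724) (nat_lit 12) (nat_lit 4) (nat_lit 13) (nat_lit 5) (nat_lit 13) (nat_lit 4) (nat_lit 430) (nat_lit 327) (nat_lit 263)) (XT.nd (nat_lit 78) (nat_lit 76) (nat_lit 0) (XT.lf (nat_lit 0) (nat_lit 46269990111) (nat_lit 76) (nat_lit 21610066336) (nat_lit 76) (nat_lit 6626652295) (nat_lit 12) (nat_lit 4) (nat_lit 13) (nat_lit 5) (nat_lit 13) (nat_lit 4) (nat_lit 431) (nat_lit 327) (nat_lit 262)) (XT.lf (nat_lit 0) (nat_lit 6293861656) (nat_lit 152) (nat_lit 2238113889) (nat_lit 76) (nat_lit 69285464781) (nat_lit 11) (nat_lit 5) (nat_lit 13) (nat_lit 5) (nat_lit 12) (nat_lit 4) (nat_lit 432) (nat_lit 327) (nat_lit 261))))) (XT.nd (nat_lit 234) (nat_lit 76) (nat_lit 0) (XT.nd (nat_lit 78) (nat_lit 0) (nat_lit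 0) (XT.lf (nat_lit 0) (nat_lit 19971251266) (nat_lit 152) (nat_lit 55948019888) (nat_lit 0) (nat_lit 5365033313) (nat_lit 10) (nat_lit 5) (nat_lit 12) (nat_lit 4) (nat_lit 10) (nat_lit 4) (nat_lit 433) (nat_lit 327) (nat_lit 260)) (XT.nd (nat_lit 78) (nat_lit 0) (nat_lit 0) (XT.lf (nat_lit 0) (nat_lit 34392861321) (nat_lit 152) (nat_lit 30770707229) (nat_lit 0) (nat_lit 19759133947) (nat_lit 10) (nat_lit 5) (nat_lit 12) (nat_lit 4) (nat_lit 10) (nat_lit 4) (nat_lit 434) (nat_lit 327) (nat_lit 259)) (XT.lf (nat_lit 0) (nat_lit 49488854876) (nat_lit 152) (nat_lit 4426639561) (nat_lit 0) (nat_lit 34828928053) (nat_lit 10) (nat_lit 5) (nat_lit 12) (nat_lit 4) (nat_lit 10) (nat_lit 4) (nat_lit 435) (nat_lit 327) (nat_lit 258)))) (XT.nd (nat_lit 47502) (nat_lit 0) (nat_lit 12160) (XT.nd (nat_lit 78) (nat_lit 0) (nat_lit 0) (XT.lf (nat_lit 0) (nat_lit 23607575923) (nat_lit 76) (nat_lit 41914529311)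 (nat_lit 76) (nat_lit 27229650632) (nat_lit 9) (nat_lit 4) (nat_lit 10) (nat_lit 5) (nat_lit 10) (nat_lit 4) (nat_lit 436) (nat_lit 327) (nat_lit 257)) (XT.lf (nat_lit 0) (nat_lit 53050796129) (nat_lit 76) (nat_lit 29308615684) (nat_lit 76) (nat_lit 14599973332) (nat_lit 9) (nat_lit 4) (nat_lit 10) (nat_lit 5) (nat_lit 10) (nat_lit 4) (nat_lit 437) (nat_lit 327) (nat_lit 256))) (XT.nd (nat_lit 78) (nat_lit 912) (nat_lit 0) (XT.lf (nat_lit 0) (nat_lit 1465375749) (nat_lit 532) (nat_lit 1152637974) (nat_lit 0) (nat_lit 1465375749) (nat_lit 181) (nat_lit 5) (nat_lit 188) (nat_lit 4) (nat_lit 181) (nat_lit 4) (nat_lit 364) (nat_lit 328) (nat_lit 328)) (XT.lf (nat_lit 0) (nat_lit 474647623) (nat_lit 380) (nat_lit 694169172) (nat_lit 456) (nat_lit 7150607735) (nat_lit 169) (nat_lit 5) (nat_lit 174) (nat_lit 5) (nat_lit 175) (nat_lit 4) (nat_lit 365) (nat_lit 328) (nat_lit 327))))))) (XT.nd (nat_lit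 936) (nat_lit 3116) (nat_lit 0) (XT.nd (nat_lit 468) (nat_lit 2052) (nat_lit 0) (XT.nd (nat_lit 234) (nat_lit 1444) (nat_lit 0) (XT.nd (nat_lit 78) (nat_lit 1216) (nat_lit 0) (XT.lf (nat_lit 0) (nat_lit 3358951200) (nat_lit 380) (nat_lit 4359535502) (nat_lit 380) (nat_lit 761751434) (nat_lit 164) (nat_lit 4) (nat_lit 169) (nat_lit 5) (nat_lit 169) (nat_lit 4) (nat_lit 366) (nat_lit 328) (nat_lit 326)) (XT.nd (nat_lit 78) (nat_lit 760) (nat_lit 0) (XT.lf (nat_lit 0) (nat_lit 5719512997) (nat_lit 456) (nat_lit 2327508605) (nat_lit 0) (nat_lit 603757205) (nat_lit 158) (nat_lit 5) (nat_lit 164) (nat_lit 4) (nat_lit 158) (nat_lit 4) (nat_lit 367) (nat_lit 328) (nat_lit 325)) (XT.lf (nat_lit 0) (nat_lit 528027594) (nat_lit 304) (nat_lit 3013485006) (nat_lit 380) (nat_lit 5289097172) (nat_lit 148) (nat_lit 5) (nat_lit 152) (nat_lit 5) (nat_lit 153) (nat_lit 4) (nat_lit 368) (nat_lit 328) (nat_lit 324))))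 (XT.nd (nat_lit 78) (nat_lit 988) (nat_lit 0) (XT.lf (nat_lit 0) (nat_lit 1172442396) (nat_lit 456) (nat_lit 5516190040) (nat_lit 76) (nat_lit 2331479394) (nat_lit 142) (nat_lit 5) (nat_lit 148) (nat_lit 5) (nat_lit 143) (nat_lit 4) (nat_lit 369) (nat_lit 328) (nat_lit 323)) (XT.nd (nat_lit 78) (nat_lit 684) (nat_lit 0) (XT.lf (nat_lit 0) (nat_lit 6532305252) (nat_lit 304) (nat_lit 1245786670) (nat_lit 380) (nat_lit 1441571567) (nat_lit 138) (nat_lit 5) (nat_lit 142) (nat_lit 5) (nat_lit 143) (nat_lit 4) (nat_lit 370) (nat_lit 328) (nat_lit 322)) (XT.lf (nat_lit 0) (nat_lit 174307474) (nat_lit 304) (nat_lit 4958851951) (nat_lit 380) (nat_lit 4296019368) (nat_lit 129) (nat_lit 5) (nat_lit 133) (nat_lit 5) (nat_lit 134) (nat_lit 4) (nat_lit 371) (nat_lit 328) (nat_lit 321))))) (XT.nd (nat_lit 234) (nat_lit 1064) (nat_lit 0) (XT.nd (nat_lit 78) (nat_lit 608) (nat_lit 0) (XT.lf (nat_lit 0) (nat_lit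 2273431449) (nat_lit 380) (nat_lit 6496093737) (nat_lit 76) (nat_lit 879744913) (nat_lit 124) (nat_lit 5) (nat_lit 129) (nat_lit 5) (nat_lit 125) (nat_lit 4) (nat_lit 372) (nat_lit 328) (nat_lit 320)) (XT.nd (nat_lit 78) (nat_lit 380) (nat_lit 0) (XT.lf (nat_lit 0) (nat_lit 6157818173) (nat_lit 228) (nat_lit 2894965041) (nat_lit 304) (nat_lit 827245719) (nat_lit 121) (nat_lit 5) (nat_lit 124) (nat_lit 5) (nat_lit 125) (nat_lit 4) (nat_lit 373) (nat_lit 328) (nat_lit 319)) (XT.lf (nat_lit 0) (nat_lit 5888778999) (nat_lit 380) (nat_lit 933869722) (nat_lit 76) (nat_lit 3299235332) (nat_lit 116) (nat_lit 5) (nat_lit 121) (nat_lit 5) (nat_lit 117) (nat_lit 4) (nat_lit 374) (nat_lit 328) (nat_lit 318)))) (XT.nd (nat_lit 78) (nat_lit 532) (nat_lit 0) (XT.lf (nat_lit 0) (nat_lit 1930735470) (nat_lit 228) (nat_lit 547768256) (nat_lit 304) (nat_lit 7896978794) (nat_lit 109) (nat_lit 5) (nat_lit 112) (nat_lit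 5) (nat_lit 113) (nat_lit 5) (nat_lit 375) (nat_lit 328) (nat_lit 317)) (XT.nd (nat_lit 78) (nat_lit 304) (nat_lit 0) (XT.lf (nat_lit 0) (nat_lit 4810018448) (nat_lit 228) (nat_lit 4634564115) (nat_lit 304) (nat_lit 1195766411) (nat_lit 106) (nat_lit 5) (nat_lit 109) (nat_lit 5) (nat_lit 110) (nat_lit 4) (nat_lit 376) (nat_lit 328) (nat_lit 316)) (XT.lf (nat_lit 0) (nat_lit 5695212337) (nat_lit 304) (nat_lit 3217209311) (nat_lit 76) (nat_lit 2005328195) (nat_lit 102) (nat_lit 5) (nat_lit 106) (nat_lit 5) (nat_lit 103) (nat_lit 4) (nat_lit 377) (nat_lit 328) (nat_lit 315)))))) (XT.nd (nat_lit 468) (nat_lit 1444) (nat_lit 0) (XT.nd (nat_lit 234) (nat_lit 684) (nat_lit 0) (XT.nd (nat_lit 78) (nat_lit 684) (nat_lit 0) (XT.lf (nat_lit 0) (nat_lit 1661142889) (nat_lit 304) (nat_lit 605091432) (nat_lit 76) (nat_lit 8942067114) (nat_lit 98) (nat_lit 5) (nat_lit 102) (nat_lit 5) (nat_lit 99) (nat_lit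 5) (nat_lit 378) (nat_lit 328) (nat_lit 314)) (XT.nd (nat_lit 78) (nat_lit 304) (nat_lit 0) (XT.lf (nat_lit 0) (nat_lit 2016139226) (nat_lit 152) (nat_lit 6786996977) (nat_lit 228) (nat_lit 2708060351) (nat_lit 93) (nat_lit 5) (nat_lit 95) (nat_lit 5) (nat_lit 96) (nat_lit 4) (nat_lit 379) (nat_lit 328) (nat_lit 313)) (XT.lf (nat_lit 0) (nat_lit 4377193266) (nat_lit 304) (nat_lit 7186105151) (nat_lit 76) (nat_lit 264932562) (nat_lit 89) (nat_lit 5) (nat_lit 93) (nat_lit 5) (nat_lit 90) (nat_lit 4) (nat_lit 380) (nat_lit 328) (nat_lit 312)))) (XT.nd (nat_lit 78) (nat_lit 532) (nat_lit 0) (XT.lf (nat_lit 0) (nat_lit 7225568637) (nat_lit 152) (nat_lit 4569692328) (nat_lit 228) (nat_lit 364042659) (nat_lit 87) (nat_lit 5) (nat_lit 89) (nat_lit 5) (nat_lit 90) (nat_lit 4) (nat_lit 381) (nat_lit 328) (nat_lit 311)) (XT.nd (nat_lit 78) (nat_lit 228) (nat_lit 0) (XT.lf (nat_lit 0) (nat_lit 6937456080)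 (nat_lit 304) (nat_lit 2747066163) (nat_lit 76) (nat_lit 2820444531) (nat_lit 83) (nat_lit 5) (nat_lit 87) (nat_lit 5) (nat_lit 84) (nat_lit 4) (nat_lit 382) (nat_lit 328) (nat_lit 310)) (XT.lf (nat_lit 0) (nat_lit 1717425839) (nat_lit 228) (nat_lit 607761867) (nat_lit 76) (nat_lit 10541468449) (nat_lit 80) (nat_lit 5) (nat_lit 83) (nat_lit 5) (nat_lit 81) (nat_lit 5) (nat_lit 383) (nat_lit 328) (nat_lit 309))))) (XT.nd (nat_lit 234) (nat_lit 760) (nat_lit 0) (XT.nd (nat_lit 78) (nat_lit 380) (nat_lit 0) (XT.lf (nat_lit 0) (nat_lit 1460203523) (nat_lit 152) (nat_lit 7840335721) (nat_lit 228) (nat_lit 3942787297) (nat_lit 76) (nat_lit 5) (nat_lit 78) (nat_lit 5) (nat_lit 79) (nat_lit 4) (nat_lit 384) (nat_lit 328) (nat_lit 308)) (XT.nd (nat_lit 78) (nat_lit 152) (nat_lit 0) (XT.lf (nat_lit 0) (nat_lit 3476756356) (nat_lit 152) (nat_lit 90557520) (nat_lit 228) (nat_lit 10070070702) (nat_lit 73)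 (nat_lit 5) (nat_lit 75) (nat_lit 5) (nat_lit 76) (nat_lit 5) (nat_lit 385) (nat_lit 328) (nat_lit 307)) (XT.lf (nat_lit 0) (nat_lit 5356825419) (nat_lit 152) (nat_lit 6081789875) (nat_lit 228) (nat_lit 2609361763) (nat_lit 71) (nat_lit 5) (nat_lit 73) (nat_lit 5) (nat_lit 74) (nat_lit 4) (nat_lit 386) (nat_lit 328) (nat_lit 306)))) (XT.nd (nat_lit 156) (nat_lit 380) (nat_lit 0) (XT.nd (nat_lit 78) (nat_lit 152) (nat_lit 0) (XT.lf (nat_lit 0) (nat_lit 5136382941) (nat_lit 228) (nat_lit 7345373457) (nat_lit 76) (nat_lit 1995436071) (nat_lit 68) (nat_lit 5) (nat_lit 71) (nat_lit 5) (nat_lit 69) (nat_lit 4) (nat_lit 387) (nat_lit 328) (nat_lit 305)) (XT.lf (nat_lit 0) (nat_lit 8768197455) (nat_lit 152) (nat_lit 4507155521) (nat_lit 228) (nat_lit 1649960949) (nat_lit 66) (nat_lit 5) (nat_lit 68) (nat_lit 5) (nat_lit 69) (nat_lit 4) (nat_lit 388) (nat_lit 328) (nat_lit 304))) (XT.nd (nat_lit 78) (nat_lit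 152) (nat_lit 0) (XT.lf (nat_lit 0) (nat_lit 6340474786) (nat_lit 228) (nat_lit 5157819817) (nat_lit 76) (nat_lit 3894497183) (nat_lit 63) (nat_lit 5) (nat_lit 66) (nat_lit 5) (nat_lit 64) (nat_lit 4) (nat_lit 389) (nat_lit 328) (nat_lit 303)) (XT.lf (nat_lit 0) (nat_lit 11550325292) (nat_lit 152) (nat_lit 3197986169) (nat_lit 228) (nat_lit 1133297263) (nat_lit 61) (nat_lit 5) (nat_lit 63) (nat_lit 5) (nat_lit 64) (nat_lit 4) (nat_lit 390) (nat_lit 328) (nat_lit 302))))))))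
noncomputable def xc28 : XT := (XT.nd (nat_lit 1950) (nat_lit 1140) (nat_lit 0) (XT.nd (nat_lit 936) (nat_lit 988) (nat_lit 0) (XT.nd (nat_lit 468) (nat_lit 912) (nat_lit 0) (XT.nd (nat_lit 234) (nat_lit 380) (nat_lit 0) (XT.nd (nat_lit 78) (nat_lit 304) (nat_lit 0) (XT.lf (nat_lit 0) (nat_lit 7105963125) (nat_lit 228) (nat_lit 3760699447) (nat_lit 76) (nat_lit 5524214201) (nat_lit 58) (nat_lit 5) (nat_lit 61) (nat_lit 5) (nat_lit 59) (nat_lit 4) (nat_lit 391) (nat_lit 328) (nat_lit 301)) (XT.nd (nat_lit 78) (nat_lit 228) (nat_lit 0) (XT.lf (nat_lit 0) (nat_lit 13530462537) (nat_lit 76) (nat_lit 2249379205) (nat_lit 152) (nat_lit 1144060578) (nat_lit 57) (nat_lit 5) (nat_lit 58) (nat_lit 5) (nat_lit 59) (nat_lit 4) (nat_lit 392) (nat_lit 328) (nat_lit 300)) (XT.lf (nat_lit 0) (nat_lit 7343338682) (nat_lit 228) (nat_lit 3349664749) (nat_lit 76) (nat_lit 6785933745) (nat_lit 54) (nat_lit 5) (nat_lit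 57) (nat_lit 5) (nat_lit 55) (nat_lit 4) (nat_lit 393) (nat_lit 328) (nat_lit 299)))) (XT.nd (nat_lit 78) (nat_lit 304) (nat_lit 0) (XT.lf (nat_lit 0) (nat_lit 14501625486) (nat_lit 76) (nat_lit 1772884658) (nat_lit 152) (nat_lit 1785593825) (nat_lit 53) (nat_lit 5) (nat_lit 54) (nat_lit 5) (nat_lit 55) (nat_lit 4) (nat_lit 394) (nat_lit 328) (nat_lit 298)) (XT.nd (nat_lit 78) (nat_lit 76) (nat_lit 0) (XT.lf (nat_lit 0) (nat_lit 6943492646) (nat_lit 228) (nat_lit 4158431098) (nat_lit 76) (nat_lit 7563468225) (nat_lit 50) (nat_lit 5) (nat_lit 53) (nat_lit 5) (nat_lit 51) (nat_lit 4) (nat_lit 395) (nat_lit 328) (nat_lit 297)) (XT.lf (nat_lit 0) (nat_lit 14216169433) (nat_lit 76) (nat_lit 1899875098) (nat_lit 152) (nat_lit 3183061756) (nat_lit 49) (nat_lit 5) (nat_lit 50) (nat_lit 5) (nat_lit 51) (nat_lit 4) (nat_lit 396) (nat_lit 328) (nat_lit 296))))) (XT.nd (nat_lit 234) (nat_lit 380) (nat_lit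 0) (XT.nd (nat_lit 78) (nat_lit 304) (nat_lit 0) (XT.lf (nat_lit 0) (nat_lit 5774349512) (nat_lit 228) (nat_lit 6465819735) (nat_lit 76) (nat_lit 7719544957) (nat_lit 46) (nat_lit 5) (nat_lit 49) (nat_lit 5) (nat_lit 47) (nat_lit 4) (nat_lit 397) (nat_lit 328) (nat_lit 295)) (XT.nd (nat_lit 78) (nat_lit 228) (nat_lit 0) (XT.lf (nat_lit 0) (nat_lit 12378261885) (nat_lit 76) (nat_lit 2785462004) (nat_lit 152) (nat_lit 5487194706) (nat_lit 45) (nat_lit 5) (nat_lit 46) (nat_lit 5) (nat_lit 47) (nat_lit 4) (nat_lit 398) (nat_lit 328) (nat_lit 294)) (XT.lf (nat_lit 0) (nat_lit 3676891887) (nat_lit 228) (nat_lit 10604010123) (nat_lit 76) (nat_lit 7091673769) (nat_lit 42) (nat_lit 5) (nat_lit 45) (nat_lit 5) (nat_lit 43) (nat_lit 4) (nat_lit 399) (nat_lit 328) (nat_lit 293)))) (XT.nd (nat_lit 78) (nat_lit 304) (nat_lit 0) (XT.lf (nat_lit 0) (nat_lit 8635060266) (nat_lit 76) (nat_lit 4613057813) (nat_lit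 152) (nat_lit 8878703450) (nat_lit 41) (nat_lit 5) (nat_lit 42) (nat_lit 5) (nat_lit 43) (nat_lit 4) (nat_lit 400) (nat_lit 328) (nat_lit 292)) (XT.nd (nat_lit 78) (nat_lit 76) (nat_lit 0) (XT.lf (nat_lit 0) (nat_lit 460475200) (nat_lit 228) (nat_lit 16968211939) (nat_lit 76) (nat_lit 5487328198) (nat_lit 38) (nat_lit 5) (nat_lit 41) (nat_lit 5) (nat_lit 39) (nat_lit 4) (nat_lit 401) (nat_lit 328) (nat_lit 291)) (XT.lf (nat_lit 0) (nat_lit 2566369213) (nat_lit 76) (nat_lit 7599699147) (nat_lit 152) (nat_lit 13573477977) (nat_lit 37) (nat_lit 5) (nat_lit 38) (nat_lit 5) (nat_lit 39) (nat_lit 4) (nat_lit 402) (nat_lit 328) (nat_lit 290)))))) (XT.nd (nat_lit 468) (nat_lit 532) (nat_lit 0) (XT.nd (nat_lit 234) (nat_lit 228) (nat_lit 0) (XT.nd (nat_lit 78) (nat_lit 228) (nat_lit 0) (XT.lf (nat_lit 0) (nat_lit 20432177527) (nat_lit 152) (nat_lit 1437195488) (nat_lit 0) (nat_lit 2732630602) (nat_lit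 37) (nat_lit 5) (nat_lit 39) (nat_lit 4) (nat_lit 37) (nat_lit 4) (nat_lit 403) (nat_lit 328) (nat_lit 289)) (XT.nd (nat_lit 78) (nat_lit 76) (nat_lit 0) (XT.lf (nat_lit 0) (nat_lit 5735604008) (nat_lit 152) (nat_lit 6204013526) (nat_lit 76) (nat_lit 13562040581) (nat_lit 35) (nat_lit 5) (nat_lit 37) (nat_lit 5) (nat_lit 36) (nat_lit 4) (nat_lit 404) (nat_lit 328) (nat_lit 288)) (XT.lf (nat_lit 0) (nat_lit 14670690767) (nat_lit 76) (nat_lit 1417332781) (nat_lit 152) (nat_lit 10355900546) (nat_lit 34) (nat_lit 5) (nat_lit 35) (nat_lit 5) (nat_lit 36) (nat_lit 4) (nat_lit 405) (nat_lit 328) (nat_lit 287)))) (XT.nd (nat_lit 78) (nat_lit 152) (nat_lit 0) (XT.lf (nat_lit 0) (nat_lit 9150009590) (nat_lit 76) (nat_lit 17936807799) (nat_lit 76) (nat_lit 342629103) (nat_lit 33) (nat_lit 4) (nat_lit 34) (nat_lit 5) (nat_lit 34) (nat_lit 4) (nat_lit 406) (nat_lit 328) (nat_lit 286)) (XT.nd (nat_lit 78)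 (nat_lit 0) (nat_lit 0) (XT.lf (nat_lit 0) (nat_lit 2624154516) (nat_lit 76) (nat_lit 7396654199) (nat_lit 152) (nat_lit 18439068953) (nat_lit 31) (nat_lit 5) (nat_lit 32) (nat_lit 5) (nat_lit 33) (nat_lit 4) (nat_lit 407) (nat_lit 328) (nat_lit 285)) (XT.lf (nat_lit 0) (nat_lit 21009177657) (nat_lit 152) (nat_lit 4836560326) (nat_lit 0) (nat_lit 3692580326) (nat_lit 31) (nat_lit 5) (nat_lit 33) (nat_lit 4) (nat_lit 31) (nat_lit 4) (nat_lit 408) (nat_lit 328) (nat_lit 284))))) (XT.nd (nat_lit 234) (nat_lit 304) (nat_lit 0) (XT.nd (nat_lit 78) (nat_lit 76) (nat_lit 0) (XT.lf (nat_lit 0) (nat_lit 1975441674) (nat_lit 152) (nat_lit 13415565921) (nat_lit 76) (nat_lit 15275063846) (nat_lit 29) (nat_lit 5) (nat_lit 31) (nat_lit 5) (nat_lit 30) (nat_lit 4) (nat_lit 409) (nat_lit 328) (nat_lit 283)) (XT.nd (nat_lit 78) (nat_lit 0) (nat_lit 0) (XT.lf (nat_lit 0) (nat_lit 8574337489) (nat_lit 76) (nat_lit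 4284760656) (nat_lit 152) (nat_lit 18987677890) (nat_lit 28) (nat_lit 5) (nat_lit 29) (nat_lit 5) (nat_lit 30) (nat_lit 4) (nat_lit 410) (nat_lit 328) (nat_lit 282)) (XT.lf (nat_lit 0) (nat_lit 24395395491) (nat_lit 152) (nat_lit 1407623359) (nat_lit 0) (nat_lit 7280247493) (nat_lit 28) (nat_lit 5) (nat_lit 30) (nat_lit 4) (nat_lit 28) (nat_lit 4) (nat_lit 411) (nat_lit 328) (nat_lit 281)))) (XT.nd (nat_lit 156) (nat_lit 76) (nat_lit 0) (XT.nd (nat_lit 78) (nat_lit 76) (nat_lit 0) (XT.lf (nat_lit 0) (nat_lit 2242149520) (nat_lit 152) (nat_lit 12655096901) (nat_lit 76) (nat_lit 19479023484) (nat_lit 26) (nat_lit 5) (nat_lit 28) (nat_lit 5) (nat_lit 27) (nat_lit 4) (nat_lit 412) (nat_lit 328) (nat_lit 280)) (XT.lf (nat_lit 0) (nat_lit 10229937315) (nat_lit 76) (nat_lit 3328561422) (nat_lit 152) (nat_lit 22172262884) (nat_lit 25) (nat_lit 5) (nat_lit 26) (nat_lit 5) (nat_lit 27) (nat_lit 4) (nat_lit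 413) (nat_lit 328) (nat_lit 279))) (XT.nd (nat_lit 78) (nat_lit 76) (nat_lit 0) (XT.lf (nat_lit 0) (nat_lit 25563841711) (nat_lit 152) (nat_lit 2892301387) (nat_lit 0) (nat_lit 8693143077) (nat_lit 25) (nat_lit 5) (nat_lit 27) (nat_lit 4) (nat_lit 25) (nat_lit 4) (nat_lit 414) (nat_lit 328) (nat_lit 278)) (XT.lf (nat_lit 0) (nat_lit 21051606268) (nat_lit 76) (nat_lit 17265082493) (nat_lit 76) (nat_lit 317634465) (nat_lit 24) (nat_lit 4) (nat_lit 25) (nat_lit 5) (nat_lit 25) (nat_lit 4) (nat_lit 415) (nat_lit 328) (nat_lit 277))))))) (XT.nd (nat_lit 936) (nat_lit 456) (nat_lit 0) (XT.nd (nat_lit 468) (nat_lit 304) (nat_lit 0) (XT.nd (nat_lit 234) (nat_lit 152) (nat_lit 0) (XT.nd (nat_lit 78) (nat_lit 76) (nat_lit 0) (XT.lf (nat_lit 0) (nat_lit 5895467862) (nat_lit 76) (nat_lit 5393207286) (nat_lit 152) (nat_lit 28901626431) (nat_lit 22) (nat_lit 5) (nat_lit 23) (nat_lit 5) (nat_lit 24) (nat_lit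 4) (nat_lit 416) (nat_lit 328) (nat_lit 276)) (XT.nd (nat_lit 78) (nat_lit 76) (nat_lit 0) (XT.lf (nat_lit 0) (nat_lit 23634402205) (nat_lit 152) (nat_lit 11142598031) (nat_lit 0) (nat_lit 7042017104) (nat_lit 22) (nat_lit 5) (nat_lit 24) (nat_lit 4) (nat_lit 22) (nat_lit 4) (nat_lit 417) (nat_lit 328) (nat_lit 275)) (XT.lf (nat_lit 0) (nat_lit 13212585138) (nat_lit 76) (nat_lit 23485164814) (nat_lit 76) (nat_lit 6828411739) (nat_lit 21) (nat_lit 4) (nat_lit 22) (nat_lit 5) (nat_lit 22) (nat_lit 4) (nat_lit 418) (nat_lit 328) (nat_lit 274)))) (XT.nd (nat_lit 78) (nat_lit 76) (nat_lit 0) (XT.lf (nat_lit 0) (nat_lit 5032503570) (nat_lit 152) (nat_lit 6502073660) (nat_lit 76) (nat_lit 33781529126) (nat_lit 20) (nat_lit 5) (nat_lit 22) (nat_lit 5) (nat_lit 21) (nat_lit 4) (nat_lit 419) (nat_lit 328) (nat_lit 273)) (XT.nd (nat_lit 78) (nat_lit 0) (nat_lit 0) (XT.lf (nat_lit 0) (nat_lit 17461594043)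 (nat_lit 152) (nat_lit 28554649271) (nat_lit 0) (nat_lit 1173788648) (nat_lit 19) (nat_lit 5) (nat_lit 21) (nat_lit 4) (nat_lit 19) (nat_lit 4) (nat_lit 420) (nat_lit 328) (nat_lit 272)) (XT.lf (nat_lit 0) (nat_lit 30621991879) (nat_lit 152) (nat_lit 4252166232) (nat_lit 0) (nat_lit 14280202527) (nat_lit 19) (nat_lit 5) (nat_lit 21) (nat_lit 4) (nat_lit 19) (nat_lit 4) (nat_lit 421) (nat_lit 328) (nat_lit 271))))) (XT.nd (nat_lit 234) (nat_lit 76) (nat_lit 0) (XT.nd (nat_lit 78) (nat_lit 152) (nat_lit 0) (XT.lf (nat_lit 0) (nat_lit 21547799505) (nat_lit 76) (nat_lit 23029108104) (nat_lit 76) (nat_lit 6635905459) (nat_lit 18) (nat_lit 4) (nat_lit 19) (nat_lit 5) (nat_lit 19) (nat_lit 4) (nat_lit 422) (nat_lit 328) (nat_lit 270)) (XT.nd (nat_lit 78) (nat_lit 76) (nat_lit 0) (XT.lf (nat_lit 0) (nat_lit 5716087436) (nat_lit 152) (nat_lit 4838510190) (nat_lit 76) (nat_lit 42818655039) (nat_lit 17)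 (nat_lit 5) (nat_lit 19) (nat_lit 5) (nat_lit 18) (nat_lit 4) (nat_lit 423) (nat_lit 328) (nat_lit 269)) (XT.lf (nat_lit 0) (nat_lit 18716529757) (nat_lit 152) (nat_lit 34210187660) (nat_lit 0) (nat_lit 2707985040) (nat_lit 16) (nat_lit 5) (nat_lit 18) (nat_lit 4) (nat_lit 16) (nat_lit 4) (nat_lit 424) (nat_lit 328) (nat_lit 268)))) (XT.nd (nat_lit 78) (nat_lit 76) (nat_lit 0) (XT.lf (nat_lit 0) (nat_lit 32459227973) (nat_lit 152) (nat_lit 9139667553) (nat_lit 0) (nat_lit 16407564096) (nat_lit 16) (nat_lit 5) (nat_lit 18) (nat_lit 4) (nat_lit 16) (nat_lit 4) (nat_lit 425) (nat_lit 328) (nat_lit 267)) (XT.nd (nat_lit 78) (nat_lit 0) (nat_lit 0) (XT.lf (nat_lit 0) (nat_lit 17403298194) (nat_lit 76) (nat_lit 29591532457) (nat_lit 76) (nat_lit 13498802713) (nat_lit 15) (nat_lit 4) (nat_lit 16) (nat_lit 5) (nat_lit 16) (nat_lit 4) (nat_lit 426) (nat_lit 328) (nat_lit 266)) (XT.lf (nat_lit 0) (nat_lit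 45347182313) (nat_lit 76) (nat_lit 16944397157) (nat_lit 76) (nat_lit 812557063) (nat_lit 15) (nat_lit 4) (nat_lit 16) (nat_lit 5) (nat_lit 16) (nat_lit 4) (nat_lit 427) (nat_lit 328) (nat_lit 265)))))) (XT.nd (nat_lit 468) (nat_lit 76) (nat_lit 0) (XT.nd (nat_lit 234) (nat_lit 228) (nat_lit 0) (XT.nd (nat_lit 78) (nat_lit 0) (nat_lit 0) (XT.lf (nat_lit 0) (nat_lit 8781433785) (nat_lit 76) (nat_lit 3509463668) (nat_lit 152) (nat_lit 53549852778) (nat_lit 13) (nat_lit 5) (nat_lit 14) (nat_lit 5) (nat_lit 15) (nat_lit 4) (nat_lit 428) (nat_lit 328) (nat_lit 264)) (XT.nd (nat_lit 78) (nat_lit 0) (nat_lit 0) (XT.lf (nat_lit 0) (nat_lit 26263070178) (nat_lit 152) (nat_lit 31913488651) (nat_lit 0) (nat_lit 10530485434) (nat_lit 13) (nat_lit 5) (nat_lit 15) (nat_lit 4) (nat_lit 13) (nat_lit 4) (nat_lit 429) (nat_lit 328) (nat_lit 263)) (XT.lf (nat_lit 0) (nat_lit 40915678420) (nat_lit 152) (nat_lit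 5651228498) (nat_lit 0) (nat_lit 25150292715) (nat_lit 13) (nat_lit 5) (nat_lit 15) (nat_lit 4) (nat_lit 13) (nat_lit 4) (nat_lit 430) (nat_lit 328) (nat_lit 262)))) (XT.nd (nat_lit 78) (nat_lit 152) (nat_lit 0) (XT.lf (nat_lit 0) (nat_lit 22258063298) (nat_lit 76) (nat_lit 34205769052) (nat_lit 76) (nat_lit 18409144336) (nat_lit 12) (nat_lit 4) (nat_lit 13) (nat_lit 5) (nat_lit 13) (nat_lit 4) (nat_lit 431) (nat_lit 328) (nat_lit 261)) (XT.nd (nat_lit 78) (nat_lit 152) (nat_lit 0) (XT.lf (nat_lit 0) (nat_lit 51583375807) (nat_lit 76) (nat_lit 21214642756) (nat_lit 76) (nat_lit 5388266600) (nat_lit 12) (nat_lit 4) (nat_lit 13) (nat_lit 5) (nat_lit 13) (nat_lit 4) (nat_lit 432) (nat_lit 328) (nat_lit 260)) (XT.lf (nat_lit 0) (nat_lit 546896249) (nat_lit 76) (nat_lit 7532713163) (nat_lit 152) (nat_lit 73584534084) (nat_lit 10) (nat_lit 5) (nat_lit 11) (nat_lit 5) (nat_lit 12) (nat_lit 4) (nat_lit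 433) (nat_lit 328) (nat_lit 259))))) (XT.nd (nat_lit 234) (nat_lit 76) (nat_lit 0) (XT.nd (nat_lit 78) (nat_lit 0) (nat_lit 0) (XT.lf (nat_lit 0) (nat_lit 22406031395) (nat_lit 152) (nat_lit 55912457553) (nat_lit 0) (nat_lit 6986908782) (nat_lit 10) (nat_lit 5) (nat_lit 12) (nat_lit 4) (nat_lit 10) (nat_lit 4) (nat_lit 434) (nat_lit 328) (nat_lit 258)) (XT.nd (nat_lit 78) (nat_lit 0) (nat_lit 0) (XT.lf (nat_lit 0) (nat_lit 37480330640) (nat_lit 152) (nat_lit 29611182277) (nat_lit 0) (nat_lit 22036256171) (nat_lit 10) (nat_lit 5) (nat_lit 12) (nat_lit 4) (nat_lit 10) (nat_lit 4) (nat_lit 435) (nat_lit 328) (nat_lit 257)) (XT.lf (nat_lit 0) (nat_lit 53265989289) (nat_lit 152) (nat_lit 2078390288) (nat_lit 0) (nat_lit 37798151148) (nat_lit 10) (nat_lit 5) (nat_lit 12) (nat_lit 4) (nat_lit 10) (nat_lit 4) (nat_lit 436) (nat_lit 328) (nat_lit 256)))) (XT.nd (nat_lit 47346) (nat_lit 0) (nat_lit 13072)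 (XT.nd (nat_lit 47268) (nat_lit 0) (nat_lit 14060) (XT.lf (nat_lit 0) (nat_lit 27283879440) (nat_lit 76) (nat_lit 42778982144) (nat_lit 76) (nat_lit 27288511934) (nat_lit 9) (nat_lit 4) (nat_lit 10) (nat_lit 5) (nat_lit 10) (nat_lit 4) (nat_lit 437) (nat_lit 328) (nat_lit 255)) (XT.lf (nat_lit 0) (nat_lit 121066164) (nat_lit 532) (nat_lit 3700735931) (nat_lit 0) (nat_lit 121066164) (nat_lit 194) (nat_lit 5) (nat_lit 201) (nat_lit 4) (nat_lit 194) (nat_lit 4) (nat_lit 362) (nat_lit 329) (nat_lit 329))) (XT.nd (nat_lit 78) (nat_lit 532) (nat_lit 0) (XT.lf (nat_lit 0) (nat_lit 3036496306) (nat_lit 456) (nat_lit 3519906180) (nat_lit 456) (nat_lit 1467164593) (nat_lit 188) (nat_lit 4) (nat_lit 194) (nat_lit 5) (nat_lit 194) (nat_lit 4) (nat_lit 363) (nat_lit 329) (nat_lit 328)) (XT.lf (nat_lit 0) (nat_lit 4789213631) (nat_lit 532) (nat_lit 2483430593) (nat_lit 0) (nat_lit 898210162) (nat_lit 181)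 (nat_lit 5) (nat_lit 188) (nat_lit 4) (nat_lit 181) (nat_lit 4) (nat_lit 364) (nat_lit 329) (nat_lit 327))))))))
noncomputable def xc29 : XT := (XT.nd (nat_lit 1950) (nat_lit 2888) (nat_lit 0) (XT.nd (nat_lit 936) (nat_lit 3268) (nat_lit 0) (XT.nd (nat_lit 468) (nat_lit 2432) (nat_lit 0) (XT.nd (nat_lit 234) (nat_lit 1520) (nat_lit 0) (XT.nd (nat_lit 78) (nat_lit 836) (nat_lit 0) (XT.lf (nat_lit 0) (nat_lit 87767760) (nat_lit 380) (nat_lit 2762694479) (nat_lit 456) (nat_lit 5476637277) (nat_lit 169) (nat_lit 5) (nat_lit 174) (nat_lit 5) (nat_lit 175) (nat_lit 4) (nat_lit 365) (nat_lit 329) (nat_lit 326)) (XT.nd (nat_lit 78) (nat_lit 380) (nat_lit 0) (XT.lf (nat_lit 0) (nat_lit 740716669) (nat_lit 456) (nat_lit 5700479448) (nat_lit 76) (nat_lit 2051099798) (nat_lit 163) (nat_lit 5) (nat_lit 169) (nat_lit 5) (nat_lit 164) (nat_lit 4) (nat_lit 366) (nat_lit 329) (nat_lit 325)) (XT.lf (nat_lit 0)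 (nat_lit 5556195492) (nat_lit 380) (nat_lit 1513844698) (nat_lit 456) (nat_lit 1596722167) (nat_lit 158) (nat_lit 5) (nat_lit 163) (nat_lit 5) (nat_lit 164) (nat_lit 4) (nat_lit 367) (nat_lit 329) (nat_lit 324)))) (XT.nd (nat_lit 78) (nat_lit 1064) (nat_lit 0) (XT.lf (nat_lit 0) (nat_lit 4699845263) (nat_lit 456) (nat_lit 470999005) (nat_lit 76) (nat_lit 3679899931) (nat_lit 152) (nat_lit 5) (nat_lit 158) (nat_lit 5) (nat_lit 153) (nat_lit 4) (nat_lit 368) (nat_lit 329) (nat_lit 323)) (XT.nd (nat_lit 78) (nat_lit 304) (nat_lit 0) (XT.lf (nat_lit 0) (nat_lit 2130788935) (nat_lit 456) (nat_lit 6755554123) (nat_lit 76) (nat_lit 158332552) (nat_lit 142) (nat_lit 5) (nat_lit 148) (nat_lit 5) (nat_lit 143) (nat_lit 4) (nat_lit 369) (nat_lit 329) (nat_lit 322)) (XT.lf (nat_lit 0) (nat_lit 5093793784) (nat_lit 304) (nat_lit 3512617270) (nat_lit 380) (nat_lit 641744029) (nat_lit 138) (nat_lit 5) (nat_lit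 142) (nat_lit 5) (nat_lit 143) (nat_lit 4) (nat_lit 370) (nat_lit 329) (nat_lit 321))))) (XT.nd (nat_lit 234) (nat_lit 1140) (nat_lit 0) (XT.nd (nat_lit 78) (nat_lit 912) (nat_lit 0) (XT.lf (nat_lit 0) (nat_lit 5763791540) (nat_lit 380) (nat_lit 1514710464) (nat_lit 76) (nat_lit 2183570329) (nat_lit 133) (nat_lit 5) (nat_lit 138) (nat_lit 5) (nat_lit 134) (nat_lit 4) (nat_lit 371) (nat_lit 329) (nat_lit 320)) (XT.nd (nat_lit 78) (nat_lit 228) (nat_lit 0) (XT.lf (nat_lit 0) (nat_lit 1193547210) (nat_lit 304) (nat_lit 1510560342) (nat_lit 380) (nat_lit 6982568742) (nat_lit 124) (nat_lit 5) (nat_lit 128) (nat_lit 5) (nat_lit 129) (nat_lit 5) (nat_lit 372) (nat_lit 329) (nat_lit 319)) (XT.lf (nat_lit 0) (nat_lit 3962662387) (nat_lit 228) (nat_lit 5375532180) (nat_lit 304) (nat_lit 583620484) (nat_lit 121) (nat_lit 5) (nat_lit 124) (nat_lit 5) (nat_lit 125) (nat_lit 4) (nat_lit 373) (nat_lit 329)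 (nat_lit 318)))) (XT.nd (nat_lit 78) (nat_lit 760) (nat_lit 0) (XT.lf (nat_lit 0) (nat_lit 5972348711) (nat_lit 380) (nat_lit 3409158730) (nat_lit 76) (nat_lit 786771841) (nat_lit 116) (nat_lit 5) (nat_lit 121) (nat_lit 5) (nat_lit 117) (nat_lit 4) (nat_lit 374) (nat_lit 329) (nat_lit 317)) (XT.nd (nat_lit 78) (nat_lit 456) (nat_lit 0) (XT.lf (nat_lit 0) (nat_lit 2365099924) (nat_lit 304) (nat_lit 849018154) (nat_lit 76) (nat_lit 7212263330) (nat_lit 112) (nat_lit 5) (nat_lit 116) (nat_lit 5) (nat_lit 113) (nat_lit 5) (nat_lit 375) (nat_lit 329) (nat_lit 316)) (XT.lf (nat_lit 0) (nat_lit 1760501112) (nat_lit 228) (nat_lit 7403439451) (nat_lit 304) (nat_lit 1532342342) (nat_lit 106) (nat_lit 5) (nat_lit 109) (nat_lit 5) (nat_lit 110) (nat_lit 4) (nat_lit 376) (nat_lit 329) (nat_lit 315)))))) (XT.nd (nat_lit 468) (nat_lit 1520) (nat_lit 0) (XT.nd (nat_lit 234) (nat_lit 912) (nat_lit 0) (XT.nd (nat_lit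 78) (nat_lit 532) (nat_lit 0) (XT.lf (nat_lit 0) (nat_lit 4388400170) (nat_lit 228) (nat_lit 823590592) (nat_lit 304) (nat_lit 5766403024) (nat_lit 102) (nat_lit 5) (nat_lit 105) (nat_lit 5) (nat_lit 106) (nat_lit 5) (nat_lit 377) (nat_lit 329) (nat_lit 314)) (XT.nd (nat_lit 78) (nat_lit 228) (nat_lit 0) (XT.lf (nat_lit 0) (nat_lit 985147941) (nat_lit 304) (nat_lit 4261216412) (nat_lit 76) (nat_lit 6027035431) (nat_lit 98) (nat_lit 5) (nat_lit 102) (nat_lit 5) (nat_lit 99) (nat_lit 5) (nat_lit 378) (nat_lit 329) (nat_lit 313)) (XT.lf (nat_lit 0) (nat_lit 7944118878) (nat_lit 304) (nat_lit 1954832905) (nat_lit 76) (nat_lit 1682848365) (nat_lit 95) (nat_lit 5) (nat_lit 99) (nat_lit 5) (nat_lit 96) (nat_lit 4) (nat_lit 379) (nat_lit 329) (nat_lit 312)))) (XT.nd (nat_lit 78) (nat_lit 456) (nat_lit 0) (XT.lf (nat_lit 0) (nat_lit 325833708) (nat_lit 228) (nat_lit 2979812377) (nat_lit 304) (nat_lit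 8598272039) (nat_lit 89) (nat_lit 5) (nat_lit 92) (nat_lit 5) (nat_lit 93) (nat_lit 5) (nat_lit 380) (nat_lit 329) (nat_lit 311)) (XT.nd (nat_lit 78) (nat_lit 304) (nat_lit 0) (XT.lf (nat_lit 0) (nat_lit 2611912983) (nat_lit 152) (nat_lit 7944669404) (nat_lit 228) (nat_lit 1683435157) (nat_lit 87) (nat_lit 5) (nat_lit 89) (nat_lit 5) (nat_lit 90) (nat_lit 4) (nat_lit 381) (nat_lit 329) (nat_lit 310)) (XT.lf (nat_lit 0) (nat_lit 4850844105) (nat_lit 228) (nat_lit 625804066) (nat_lit 304) (nat_lit 7114439719) (nat_lit 83) (nat_lit 5) (nat_lit 86) (nat_lit 5) (nat_lit 87) (nat_lit 5) (nat_lit 382) (nat_lit 329) (nat_lit 309))))) (XT.nd (nat_lit 234) (nat_lit 912) (nat_lit 0) (XT.nd (nat_lit 78) (nat_lit 380) (nat_lit 0) (XT.lf (nat_lit 0) (nat_lit 53026985) (nat_lit 228) (nat_lit 5926562266) (nat_lit 76) (nat_lit 6978074772) (nat_lit 80) (nat_lit 5) (nat_lit 83) (nat_lit 5) (nat_lit 81) (nat_lit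 5) (nat_lit 383) (nat_lit 329) (nat_lit 308)) (XT.nd (nat_lit 78) (nat_lit 228) (nat_lit 0) (XT.lf (nat_lit 0) (nat_lit 7444371989) (nat_lit 228) (nat_lit 4207368925) (nat_lit 76) (nat_lit 1688356995) (nat_lit 78) (nat_lit 5) (nat_lit 81) (nat_lit 5) (nat_lit 79) (nat_lit 4) (nat_lit 384) (nat_lit 329) (nat_lit 307)) (XT.lf (nat_lit 0) (nat_lit 1489403981) (nat_lit 228) (nat_lit 2575965170) (nat_lit 76) (nat_lit 9674252047) (nat_lit 75) (nat_lit 5) (nat_lit 78) (nat_lit 5) (nat_lit 76) (nat_lit 5) (nat_lit 385) (nat_lit 329) (nat_lit 306)))) (XT.nd (nat_lit 156) (nat_lit 380) (nat_lit 0) (XT.nd (nat_lit 78) (nat_lit 380) (nat_lit 0) (XT.lf (nat_lit 0) (nat_lit 9159617518) (nat_lit 228) (nat_lit 1068478205) (nat_lit 76) (nat_lit 3928159791) (nat_lit 73) (nat_lit 5) (nat_lit 76) (nat_lit 5) (nat_lit 74) (nat_lit 4) (nat_lit 386) (nat_lit 329) (nat_lit 305)) (XT.lf (nat_lit 0) (nat_lit 337315581)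 (nat_lit 152) (nat_lit 2278680472) (nat_lit 228) (nat_lit 11975562671) (nat_lit 68) (nat_lit 5) (nat_lit 70) (nat_lit 5) (nat_lit 71) (nat_lit 5) (nat_lit 387) (nat_lit 329) (nat_lit 304))) (XT.nd (nat_lit 78) (nat_lit 228) (nat_lit 0) (XT.lf (nat_lit 0) (nat_lit 1594123901) (nat_lit 152) (nat_lit 8987922283) (nat_lit 228) (nat_lit 4462829695) (nat_lit 66) (nat_lit 5) (nat_lit 68) (nat_lit 5) (nat_lit 69) (nat_lit 4) (nat_lit 388) (nat_lit 329) (nat_lit 303)) (XT.lf (nat_lit 0) (nat_lit 2715702013) (nat_lit 152) (nat_lit 675638593) (nat_lit 228) (nat_lit 12127566436) (nat_lit 63) (nat_lit 5) (nat_lit 65) (nat_lit 5) (nat_lit 66) (nat_lit 5) (nat_lit 389) (nat_lit 329) (nat_lit 302))))))) (XT.nd (nat_lit 936) (nat_lit 1216) (nat_lit 0) (XT.nd (nat_lit 468) (nat_lit 684) (nat_lit 0) (XT.nd (nat_lit 234) (nat_lit 532) (nat_lit 0) (XT.nd (nat_lit 78) (nat_lit 304) (nat_lit 0) (XT.lf (nat_lit 0) (nat_lit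 3614473748) (nat_lit 152) (nat_lit 8023483478) (nat_lit 228) (nat_lit 4374610492) (nat_lit 61) (nat_lit 5) (nat_lit 63) (nat_lit 5) (nat_lit 64) (nat_lit 4) (nat_lit 390) (nat_lit 329) (nat_lit 301)) (XT.nd (nat_lit 78) (nat_lit 76) (nat_lit 0) (XT.lf (nat_lit 0) (nat_lit 3722867149) (nat_lit 228) (nat_lit 12187138307) (nat_lit 76) (nat_lit 618922606) (nat_lit 58) (nat_lit 5) (nat_lit 61) (nat_lit 5) (nat_lit 59) (nat_lit 4) (nat_lit 391) (nat_lit 329) (nat_lit 300)) (XT.lf (nat_lit 0) (nat_lit 4796373434) (nat_lit 76) (nat_lit 7441388830) (nat_lit 152) (nat_lit 4828967136) (nat_lit 57) (nat_lit 5) (nat_lit 58) (nat_lit 5) (nat_lit 59) (nat_lit 4) (nat_lit 392) (nat_lit 329) (nat_lit 299)))) (XT.nd (nat_lit 78) (nat_lit 304) (nat_lit 0) (XT.lf (nat_lit 0) (nat_lit 3517154921) (nat_lit 228) (nat_lit 12601574956) (nat_lit 76) (nat_lit 1510498324) (nat_lit 54) (nat_lit 5) (nat_lit 57) (nat_lit 5)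 (nat_lit 55) (nat_lit 4) (nat_lit 393) (nat_lit 329) (nat_lit 298)) (XT.nd (nat_lit 78) (nat_lit 228) (nat_lit 0) (XT.lf (nat_lit 0) (nat_lit 4930490755) (nat_lit 76) (nat_lit 7354037766) (nat_lit 152) (nat_lit 5930785942) (nat_lit 53) (nat_lit 5) (nat_lit 54) (nat_lit 5) (nat_lit 55) (nat_lit 4) (nat_lit 394) (nat_lit 329) (nat_lit 297)) (XT.lf (nat_lit 0) (nat_lit 2657069408) (nat_lit 228) (nat_lit 14276199911) (nat_lit 76) (nat_lit 1895197209) (nat_lit 50) (nat_lit 5) (nat_lit 53) (nat_lit 5) (nat_lit 51) (nat_lit 4) (nat_lit 395) (nat_lit 329) (nat_lit 296))))) (XT.nd (nat_lit 234) (nat_lit 304) (nat_lit 0) (XT.nd (nat_lit 78) (nat_lit 304) (nat_lit 0) (XT.lf (nat_lit 0) (nat_lit 3766665773) (nat_lit 76) (nat_lit 7893776266) (nat_lit 152) (nat_lit 7806819056) (nat_lit 49) (nat_lit 5) (nat_lit 50) (nat_lit 5) (nat_lit 51) (nat_lit 4) (nat_lit 396) (nat_lit 329) (nat_lit 295)) (XT.nd (nat_lit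 78) (nat_lit 76) (nat_lit 0) (XT.lf (nat_lit 0) (nat_lit 1008956705) (nat_lit 228) (nat_lit 17492468745) (nat_lit 76) (nat_lit 1634737309) (nat_lit 46) (nat_lit 5) (nat_lit 49) (nat_lit 5) (nat_lit 47) (nat_lit 4) (nat_lit 397) (nat_lit 329) (nat_lit 294)) (XT.lf (nat_lit 0) (nat_lit 1006378140) (nat_lit 76) (nat_lit 9216811544) (nat_lit 152) (nat_lit 10609435999) (nat_lit 45) (nat_lit 5) (nat_lit 46) (nat_lit 5) (nat_lit 47) (nat_lit 4) (nat_lit 398) (nat_lit 329) (nat_lit 293)))) (XT.nd (nat_lit 78) (nat_lit 304) (nat_lit 0) (XT.lf (nat_lit 0) (nat_lit 19953116673) (nat_lit 152) (nat_lit 1018106504) (nat_lit 0) (nat_lit 591047483) (nat_lit 45) (nat_lit 5) (nat_lit 47) (nat_lit 4) (nat_lit 45) (nat_lit 4) (nat_lit 399) (nat_lit 329) (nat_lit 292)) (XT.nd (nat_lit 78) (nat_lit 76) (nat_lit 0) (XT.lf (nat_lit 0) (nat_lit 7837316587) (nat_lit 228) (nat_lit 3633762974) (nat_lit 76) (nat_lit 10850589353)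 (nat_lit 42) (nat_lit 5) (nat_lit 45) (nat_lit 5) (nat_lit 43) (nat_lit 4) (nat_lit 400) (nat_lit 329) (nat_lit 291)) (XT.lf (nat_lit 0) (nat_lit 16352262108) (nat_lit 76) (nat_lit 1415513215) (nat_lit 152) (nat_lit 5349442838) (nat_lit 41) (nat_lit 5) (nat_lit 42) (nat_lit 5) (nat_lit 43) (nat_lit 4) (nat_lit 401) (nat_lit 329) (nat_lit 290)))))) (XT.nd (nat_lit 468) (nat_lit 532) (nat_lit 0) (XT.nd (nat_lit 234) (nat_lit 304) (nat_lit 0) (XT.nd (nat_lit 78) (nat_lit 152) (nat_lit 0) (XT.lf (nat_lit 0) (nat_lit 4294831796) (nat_lit 228) (nat_lit 10583335226) (nat_lit 76) (nat_lit 9069099292) (nat_lit 38) (nat_lit 5) (nat_lit 41) (nat_lit 5) (nat_lit 39) (nat_lit 4) (nat_lit 402) (nat_lit 329) (nat_lit 289)) (XT.nd (nat_lit 78) (nat_lit 76) (nat_lit 0) (XT.lf (nat_lit 0) (nat_lit 9720634255) (nat_lit 76) (nat_lit 4651116015) (nat_lit 152) (nat_lit 10443652214) (nat_lit 37) (nat_lit 5) (nat_lit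 38) (nat_lit 5) (nat_lit 39) (nat_lit 4) (nat_lit 403) (nat_lit 329) (nat_lit 288)) (XT.lf (nat_lit 0) (nat_lit 5362317647) (nat_lit 76) (nat_lit 19694800086) (nat_lit 76) (nat_lit 666695826) (nat_lit 36) (nat_lit 4) (nat_lit 37) (nat_lit 5) (nat_lit 37) (nat_lit 4) (nat_lit 404) (nat_lit 329) (nat_lit 287)))) (XT.nd (nat_lit 78) (nat_lit 152) (nat_lit 0) (XT.lf (nat_lit 0) (nat_lit 130538103) (nat_lit 76) (nat_lit 9373230066) (nat_lit 152) (nat_lit 17168355374) (nat_lit 34) (nat_lit 5) (nat_lit 35) (nat_lit 5) (nat_lit 36) (nat_lit 4) (nat_lit 405) (nat_lit 329) (nat_lit 286)) (XT.nd (nat_lit 78) (nat_lit 152) (nat_lit 0) (XT.lf (nat_lit 0) (nat_lit 20284109111) (nat_lit 152) (nat_lit 5823883978) (nat_lit 0) (nat_lit 1556209097) (nat_lit 34) (nat_lit 5) (nat_lit 36) (nat_lit 4) (nat_lit 34) (nat_lit 4) (nat_lit 406) (nat_lit 329) (nat_lit 285)) (XT.lf (nat_lit 0) (nat_lit 2984848232) (nat_lit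 152) (nat_lit 12786666178) (nat_lit 76) (nat_lit 12929225545) (nat_lit 32) (nat_lit 5) (nat_lit 34) (nat_lit 5) (nat_lit 33) (nat_lit 4) (nat_lit 407) (nat_lit 329) (nat_lit 284))))) (XT.nd (nat_lit 234) (nat_lit 304) (nat_lit 0) (XT.nd (nat_lit 78) (nat_lit 152) (nat_lit 0) (XT.lf (nat_lit 0) (nat_lit 8975097713) (nat_lit 76) (nat_lit 4785195117) (nat_lit 152) (nat_lit 16025277837) (nat_lit 31) (nat_lit 5) (nat_lit 32) (nat_lit 5) (nat_lit 33) (nat_lit 4) (nat_lit 408) (nat_lit 329) (nat_lit 283)) (XT.nd (nat_lit 78) (nat_lit 76) (nat_lit 0) (XT.lf (nat_lit 0) (nat_lit 928665023) (nat_lit 76) (nat_lit 24251423823) (nat_lit 76) (nat_lit 5741391263) (nat_lit 30) (nat_lit 4) (nat_lit 31) (nat_lit 5) (nat_lit 31) (nat_lit 4) (nat_lit 409) (nat_lit 329) (nat_lit 282)) (XT.lf (nat_lit 0) (nat_lit 5123515423) (nat_lit 152) (nat_lit 8208266941) (nat_lit 76) (nat_lit 18775983643) (nat_lit 29) (nat_lit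 5) (nat_lit 31) (nat_lit 5) (nat_lit 30) (nat_lit 4) (nat_lit 410) (nat_lit 329) (nat_lit 281)))) (XT.nd (nat_lit 156) (nat_lit 152) (nat_lit 0) (XT.nd (nat_lit 78) (nat_lit 76) (nat_lit 0) (XT.lf (nat_lit 0) (nat_lit 14712637734) (nat_lit 76) (nat_lit 1748396151) (nat_lit 152) (nat_lit 16889187761) (nat_lit 28) (nat_lit 5) (nat_lit 29) (nat_lit 5) (nat_lit 30) (nat_lit 4) (nat_lit 411) (nat_lit 329) (nat_lit 280)) (XT.lf (nat_lit 0) (nat_lit 4099162116) (nat_lit 76) (nat_lit 24398665191) (nat_lit 76) (nat_lit 6153004619) (nat_lit 27) (nat_lit 4) (nat_lit 28) (nat_lit 5) (nat_lit 28) (nat_lit 4) (nat_lit 412) (nat_lit 329) (nat_lit 279))) (XT.nd (nat_lit 78) (nat_lit 76) (nat_lit 0) (XT.lf (nat_lit 0) (nat_lit 5140878454) (nat_lit 152) (nat_lit 7892681780) (nat_lit 76) (nat_lit 22977815533) (nat_lit 26) (nat_lit 5) (nat_lit 28) (nat_lit 5) (nat_lit 27) (nat_lit 4) (nat_lit 413) (nat_lit 329)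 (nat_lit 278)) (XT.lf (nat_lit 0) (nat_lit 15981952682) (nat_lit 76) (nat_lit 958771259) (nat_lit 152) (nat_lit 20495342952) (nat_lit 25) (nat_lit 5) (nat_lit 26) (nat_lit 5) (nat_lit 27) (nat_lit 4) (nat_lit 414) (nat_lit 329) (nat_lit 277))))))))
noncomputable def xc30 : XT := (XT.nd (nat_lit 48984) (nat_lit 0) (nat_lit 4864) (XT.nd (nat_lit 936) (nat_lit 532) (nat_lit 0) (XT.nd (nat_lit 468) (nat_lit 304) (nat_lit 0) (XT.nd (nat_lit 234) (nat_lit 152) (nat_lit 0) (XT.nd (nat_lit 78) (nat_lit 152) (nat_lit 0) (XT.lf (nat_lit 0) (nat_lit 2048166484) (nat_lit 76) (nat_lit 27412298350) (nat_lit 76) (nat_lit 9467633863) (nat_lit 24) (nat_lit 4) (nat_lit 25) (nat_lit 5) (nat_lit 25) (nat_lit 4) (nat_lit 415) (nat_lit 329) (nat_lit 276)) (XT.nd (nat_lit 78) (nat_lit 76) (nat_lit 0) (XT.lf (nat_lit 0) (nat_lit 2220155251) (nat_lit 152) (nat_lit 13507363290) (nat_lit 76) (nat_lit 24762110718) (nat_lit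 23) (nat_lit 5) (nat_lit 25) (nat_lit 5) (nat_lit 24) (nat_lit 4) (nat_lit 416) (nat_lit 329) (nat_lit 275)) (XT.lf (nat_lit 0) (nat_lit 10999597262) (nat_lit 76) (nat_lit 3325611962) (nat_lit 152) (nat_lit 27800357370) (nat_lit 22) (nat_lit 5) (nat_lit 23) (nat_lit 5) (nat_lit 24) (nat_lit 4) (nat_lit 417) (nat_lit 329) (nat_lit 274)))) (XT.nd (nat_lit 78) (nat_lit 152) (nat_lit 0) (XT.lf (nat_lit 0) (nat_lit 27191900839) (nat_lit 152) (nat_lit 7070071801) (nat_lit 0) (nat_lit 9576639304) (nat_lit 22) (nat_lit 5) (nat_lit 24) (nat_lit 4) (nat_lit 22) (nat_lit 4) (nat_lit 418) (nat_lit 329) (nat_lit 273)) (XT.nd (nat_lit 78) (nat_lit 76) (nat_lit 0) (XT.lf (nat_lit 0) (nat_lit 18370162363) (nat_lit 76) (nat_lit 22468348713) (nat_lit 76) (nat_lit 4794703529) (nat_lit 21) (nat_lit 4) (nat_lit 22) (nat_lit 5) (nat_lit 22) (nat_lit 4) (nat_lit 419) (nat_lit 329) (nat_lit 272)) (XT.lf (nat_lit 0)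 (nat_lit 7502015872) (nat_lit 152) (nat_lit 2500156440) (nat_lit 76) (nat_lit 37513129737) (nat_lit 20) (nat_lit 5) (nat_lit 22) (nat_lit 5) (nat_lit 21) (nat_lit 4) (nat_lit 420) (nat_lit 329) (nat_lit 271))))) (XT.nd (nat_lit 234) (nat_lit 152) (nat_lit 0) (XT.nd (nat_lit 78) (nat_lit 76) (nat_lit 0) (XT.lf (nat_lit 0) (nat_lit 20507057744) (nat_lit 152) (nat_lit 25734453089) (nat_lit 0) (nat_lit 3242781674) (nat_lit 19) (nat_lit 5) (nat_lit 21) (nat_lit 4) (nat_lit 19) (nat_lit 4) (nat_lit 421) (nat_lit 329) (nat_lit 270)) (XT.nd (nat_lit 78) (nat_lit 76) (nat_lit 0) (XT.lf (nat_lit 0) (nat_lit 34222028615) (nat_lit 152) (nat_lit 419128214) (nat_lit 0) (nat_lit 16908787504) (nat_lit 19) (nat_lit 5) (nat_lit 21) (nat_lit 4) (nat_lit 19) (nat_lit 4) (nat_lit 422) (nat_lit 329) (nat_lit 269)) (XT.lf (nat_lit 0) (nat_lit 26554868171) (nat_lit 76) (nat_lit 22259075620) (nat_lit 76) (nat_lit 4899201137)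 (nat_lit 18) (nat_lit 4) (nat_lit 19) (nat_lit 5) (nat_lit 19) (nat_lit 4) (nat_lit 423) (nat_lit 329) (nat_lit 268)))) (XT.nd (nat_lit 78) (nat_lit 76) (nat_lit 0) (XT.lf (nat_lit 0) (nat_lit 7933449633) (nat_lit 152) (nat_lit 1299384461) (nat_lit 76) (nat_lit 46751076152) (nat_lit 17) (nat_lit 5) (nat_lit 19) (nat_lit 5) (nat_lit 18) (nat_lit 4) (nat_lit 424) (nat_lit 329) (nat_lit 267)) (XT.nd (nat_lit 78) (nat_lit 0) (nat_lit 0) (XT.lf (nat_lit 0) (nat_lit 21544520472) (nat_lit 152) (nat_lit 32209008268) (nat_lit 0) (nat_lit 4606088373) (nat_lit 16) (nat_lit 5) (nat_lit 18) (nat_lit 4) (nat_lit 16) (nat_lit 4) (nat_lit 425) (nat_lit 329) (nat_lit 266)) (XT.lf (nat_lit 0) (nat_lit 35884250540) (nat_lit 152) (nat_lit 6061709241) (nat_lit 0) (nat_lit 18906708092) (nat_lit 16) (nat_lit 5) (nat_lit 18) (nat_lit 4) (nat_lit 16) (nat_lit 4) (nat_lit 426) (nat_lit 329) (nat_lit 265)))))) (XT.nd (nat_lit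 468) (nat_lit 228) (nat_lit 0) (XT.nd (nat_lit 234) (nat_lit 76) (nat_lit 0) (XT.nd (nat_lit 78) (nat_lit 152) (nat_lit 0) (XT.lf (nat_lit 0) (nat_lit 21707076400) (nat_lit 76) (nat_lit 29386750507) (nat_lit 76) (nat_lit 12371960107) (nat_lit 15) (nat_lit 4) (nat_lit 16) (nat_lit 5) (nat_lit 16) (nat_lit 4) (nat_lit 427) (nat_lit 329) (nat_lit 264)) (XT.nd (nat_lit 78) (nat_lit 76) (nat_lit 0) (XT.lf (nat_lit 0) (nat_lit 845962337) (nat_lit 152) (nat_lit 15332961095) (nat_lit 76) (nat_lit 50030144431) (nat_lit 14) (nat_lit 5) (nat_lit 16) (nat_lit 5) (nat_lit 15) (nat_lit 4) (nat_lit 428) (nat_lit 329) (nat_lit 263)) (XT.lf (nat_lit 0) (nat_lit 12429446812) (nat_lit 76) (nat_lit 2109221385) (nat_lit 152) (nat_lit 54545078407) (nat_lit 13) (nat_lit 5) (nat_lit 14) (nat_lit 5) (nat_lit 15) (nat_lit 4) (nat_lit 429) (nat_lit 329) (nat_lit 262)))) (XT.nd (nat_lit 78) (nat_lit 76) (nat_lit 0) (XT.lf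 (nat_lit 0) (nat_lit 29146102366) (nat_lit 152) (nat_lit 30420748098) (nat_lit 0) (nat_lit 12528407403) (nat_lit 13) (nat_lit 5) (nat_lit 15) (nat_lit 4) (nat_lit 13) (nat_lit 4) (nat_lit 430) (nat_lit 329) (nat_lit 261)) (XT.nd (nat_lit 78) (nat_lit 76) (nat_lit 0) (XT.lf (nat_lit 0) (nat_lit 44456584892) (nat_lit 152) (nat_lit 2992442318) (nat_lit 0) (nat_lit 27809138490) (nat_lit 13) (nat_lit 5) (nat_lit 15) (nat_lit 4) (nat_lit 13) (nat_lit 4) (nat_lit 431) (nat_lit 329) (nat_lit 260)) (XT.lf (nat_lit 0) (nat_lit 26228000930) (nat_lit 76) (nat_lit 34510412841) (nat_lit 76) (nat_lit 17834631735) (nat_lit 12) (nat_lit 4) (nat_lit 13) (nat_lit 5) (nat_lit 13) (nat_lit 4) (nat_lit 432) (nat_lit 329) (nat_lit 259))))) (XT.nd (nat_lit 234) (nat_lit 76) (nat_lit 0) (XT.nd (nat_lit 78) (nat_lit 152) (nat_lit 0) (XT.lf (nat_lit 0) (nat_lit 56883529804) (nat_lit 76) (nat_lit 20936665690) (nat_lit 76)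 (nat_lit 4233899151) (nat_lit 12) (nat_lit 4) (nat_lit 13) (nat_lit 5) (nat_lit 13) (nat_lit 4) (nat_lit 433) (nat_lit 329) (nat_lit 258)) (XT.nd (nat_lit 78) (nat_lit 0) (nat_lit 0) (XT.lf (nat_lit 0) (nat_lit 3244250886) (nat_lit 76) (nat_lit 6594526372) (nat_lit 152) (nat_lit 75867884046) (nat_lit 10) (nat_lit 5) (nat_lit 11) (nat_lit 5) (nat_lit 12) (nat_lit 4) (nat_lit 434) (nat_lit 329) (nat_lit 257)) (XT.lf (nat_lit 0) (nat_lit 24829024634) (nat_lit 152) (nat_lit 56138499180) (nat_lit 0) (nat_lit 8564030913) (nat_lit 10) (nat_lit 5) (nat_lit 12) (nat_lit 4) (nat_lit 10) (nat_lit 4) (nat_lit 435) (nat_lit 329) (nat_lit 256)))) (XT.nd (nat_lit 47190) (nat_lit 0) (nat_lit 15124) (XT.nd (nat_lit 78) (nat_lit 76) (nat_lit 0) (XT.lf (nat_lit 0) (nat_lit 40595005905) (nat_lit 152) (nat_lit 28644521152) (nat_lit 0) (nat_lit 24307380115) (nat_lit 10) (nat_lit 5) (nat_lit 12) (nat_lit 4) (nat_lit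 10) (nat_lit 4) (nat_lit 436) (nat_lit 329) (nat_lit 255)) (XT.lf (nat_lit 0) (nat_lit 151329115) (nat_lit 76) (nat_lit 56960994052) (nat_lit 76) (nat_lit 40651813911) (nat_lit 9) (nat_lit 4) (nat_lit 10) (nat_lit 5) (nat_lit 10) (nat_lit 4) (nat_lit 437) (nat_lit 329) (nat_lit 254))) (XT.nd (nat_lit 78) (nat_lit 532) (nat_lit 0) (XT.lf (nat_lit 0) (nat_lit 1741981616) (nat_lit 532) (nat_lit 1036566448) (nat_lit 532) (nat_lit 1036566448) (nat_lit 215) (nat_lit 4) (nat_lit 222) (nat_lit 5) (nat_lit 222) (nat_lit 4) (nat_lit 360) (nat_lit 330) (nat_lit 330)) (XT.lf (nat_lit 0) (nat_lit 4002276400) (nat_lit 532) (nat_lit 1970874019) (nat_lit 0) (nat_lit 1782236374) (nat_lit 208) (nat_lit 5) (nat_lit 215) (nat_lit 4) (nat_lit 208) (nat_lit 4) (nat_lit 361) (nat_lit 330) (nat_lit 329))))))) (XT.nd (nat_lit 936) (nat_lit 3648) (nat_lit 0) (XT.nd (nat_lit 468) (nat_lit 2812) (nat_lit 0) (XT.nd (nat_lit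 234) (nat_lit 1748) (nat_lit 0) (XT.nd (nat_lit 78) (nat_lit 988) (nat_lit 0) (XT.lf (nat_lit 0) (nat_lit 295363020) (nat_lit 456) (nat_lit 1985290614) (nat_lit 532) (nat_lit 5608632637) (nat_lit 194) (nat_lit 5) (nat_lit 200) (nat_lit 5) (nat_lit 201) (nat_lit 4) (nat_lit 362) (nat_lit 330) (nat_lit 328)) (XT.nd (nat_lit 78) (nat_lit 456) (nat_lit 0) (XT.lf (nat_lit 0) (nat_lit 403312169) (nat_lit 532) (nat_lit 5344388534) (nat_lit 76) (nat_lit 2283895544) (nat_lit 187) (nat_lit 5) (nat_lit 194) (nat_lit 5) (nat_lit 188) (nat_lit 4) (nat_lit 363) (nat_lit 330) (nat_lit 327)) (XT.lf (nat_lit 0) (nat_lit 5151510456) (nat_lit 456) (nat_lit 1339386009) (nat_lit 532) (nat_lit 1691807695) (nat_lit 181) (nat_lit 5) (nat_lit 187) (nat_lit 5) (nat_lit 188) (nat_lit 4) (nat_lit 364) (nat_lit 330) (nat_lit 326)))) (XT.nd (nat_lit 78) (nat_lit 1216) (nat_lit 0) (XT.lf (nat_lit 0) (nat_lit 4363347402) (nat_lit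 532) (nat_lit 655263736) (nat_lit 76) (nat_lit 3324205888) (nat_lit 174) (nat_lit 5) (nat_lit 181) (nat_lit 5) (nat_lit 175) (nat_lit 4) (nat_lit 365) (nat_lit 330) (nat_lit 325)) (XT.nd (nat_lit 78) (nat_lit 380) (nat_lit 0) (XT.lf (nat_lit 0) (nat_lit 1842298980) (nat_lit 380) (nat_lit 208772031) (nat_lit 456) (nat_lit 6461271761) (nat_lit 163) (nat_lit 5) (nat_lit 168) (nat_lit 5) (nat_lit 169) (nat_lit 5) (nat_lit 366) (nat_lit 330) (nat_lit 324)) (XT.lf (nat_lit 0) (nat_lit 4402730516) (nat_lit 380) (nat_lit 3846736018) (nat_lit 456) (nat_lit 441302093) (nat_lit 158) (nat_lit 5) (nat_lit 163) (nat_lit 5) (nat_lit 164) (nat_lit 4) (nat_lit 367) (nat_lit 330) (nat_lit 323))))) (XT.nd (nat_lit 234) (nat_lit 1292) (nat_lit 0) (XT.nd (nat_lit 78) (nat_lit 1064) (nat_lit 0) (XT.lf (nat_lit 0) (nat_lit 5681694241) (nat_lit 456) (nat_lit 1852124831) (nat_lit 76) (nat_lit 1345158132) (nat_lit 152)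 (nat_lit 5) (nat_lit 158) (nat_lit 5) (nat_lit 153) (nat_lit 4) (nat_lit 368) (nat_lit 330) (nat_lit 322)) (XT.nd (nat_lit 78) (nat_lit 304) (nat_lit 0) (XT.lf (nat_lit 0) (nat_lit 647569055) (nat_lit 380) (nat_lit 2273125331) (nat_lit 456) (nat_lit 6156319281) (nat_lit 142) (nat_lit 5) (nat_lit 147) (nat_lit 5) (nat_lit 148) (nat_lit 5) (nat_lit 369) (nat_lit 330) (nat_lit 321)) (XT.lf (nat_lit 0) (nat_lit 3242702173) (nat_lit 304) (nat_lit 6003303595) (nat_lit 380) (nat_lit 39022404) (nat_lit 138) (nat_lit 5) (nat_lit 142) (nat_lit 5) (nat_lit 143) (nat_lit 4) (nat_lit 370) (nat_lit 330) (nat_lit 320)))) (XT.nd (nat_lit 78) (nat_lit 912) (nat_lit 0) (XT.lf (nat_lit 0) (nat_lit 5874337627) (nat_lit 304) (nat_lit 330867273) (nat_lit 380) (nat_lit 3298076890) (nat_lit 133) (nat_lit 5) (nat_lit 137) (nat_lit 5) (nat_lit 138) (nat_lit 5) (nat_lit 371) (nat_lit 330) (nat_lit 319)) (XT.nd (nat_lit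 78) (nat_lit 532) (nat_lit 0) (XT.lf (nat_lit 0) (nat_lit 2953435611) (nat_lit 380) (nat_lit 1192155038) (nat_lit 76) (nat_lit 5586493664) (nat_lit 128) (nat_lit 5) (nat_lit 133) (nat_lit 5) (nat_lit 129) (nat_lit 5) (nat_lit 372) (nat_lit 330) (nat_lit 318)) (XT.lf (nat_lit 0) (nat_lit 1319625847) (nat_lit 228) (nat_lit 8100935217) (nat_lit 304) (nat_lit 551691786) (nat_lit 121) (nat_lit 5) (nat_lit 124) (nat_lit 5) (nat_lit 125) (nat_lit 4) (nat_lit 373) (nat_lit 330) (nat_lit 317)))))) (XT.nd (nat_lit 468) (nat_lit 1672) (nat_lit 0) (XT.nd (nat_lit 234) (nat_lit 1064) (nat_lit 0) (XT.nd (nat_lit 78) (nat_lit 532) (nat_lit 0) (XT.lf (nat_lit 0) (nat_lit 3857372794) (nat_lit 304) (nat_lit 2008619683) (nat_lit 380) (nat_lit 4356864608) (nat_lit 116) (nat_lit 5) (nat_lit 120) (nat_lit 5) (nat_lit 121) (nat_lit 5) (nat_lit 374) (nat_lit 330) (nat_lit 316)) (XT.nd (nat_lit 78) (nat_lit 228) (nat_lit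 0) (XT.lf (nat_lit 0) (nat_lit 2057027036) (nat_lit 304) (nat_lit 4060662402) (nat_lit 76) (nat_lit 4367842457) (nat_lit 112) (nat_lit 5) (nat_lit 116) (nat_lit 5) (nat_lit 113) (nat_lit 5) (nat_lit 375) (nat_lit 330) (nat_lit 315)) (XT.lf (nat_lit 0) (nat_lit 8680294664) (nat_lit 304) (nat_lit 1741214847) (nat_lit 76) (nat_lit 339208116) (nat_lit 109) (nat_lit 5) (nat_lit 113) (nat_lit 5) (nat_lit 110) (nat_lit 4) (nat_lit 376) (nat_lit 330) (nat_lit 314)))) (XT.nd (nat_lit 78) (nat_lit 532) (nat_lit 0) (XT.lf (nat_lit 0) (nat_lit 560542741) (nat_lit 228) (nat_lit 3963340875) (nat_lit 304) (nat_lit 6523640354) (nat_lit 102) (nat_lit 5) (nat_lit 105) (nat_lit 5) (nat_lit 106) (nat_lit 5) (nat_lit 377) (nat_lit 330) (nat_lit 313)) (XT.nd (nat_lit 78) (nat_lit 228) (nat_lit 0) (XT.lf (nat_lit 0) (nat_lit 77320429) (nat_lit 304) (nat_lit 8428249029) (nat_lit 76) (nat_lit 2842154451) (nat_lit 98)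 (nat_lit 5) (nat_lit 102) (nat_lit 5) (nat_lit 99) (nat_lit 5) (nat_lit 378) (nat_lit 330) (nat_lit 312)) (XT.lf (nat_lit 0) (nat_lit 5238534303) (nat_lit 228) (nat_lit 1646909585) (nat_lit 304) (nat_lit 4775219687) (nat_lit 95) (nat_lit 5) (nat_lit 98) (nat_lit 5) (nat_lit 99) (nat_lit 5) (nat_lit 379) (nat_lit 330) (nat_lit 311))))) (XT.nd (nat_lit 234) (nat_lit 988) (nat_lit 0) (XT.nd (nat_lit 78) (nat_lit 456) (nat_lit 0) (XT.lf (nat_lit 0) (nat_lit 2035113365) (nat_lit 228) (nat_lit 4444715229) (nat_lit 76) (nat_lit 5507949585) (nat_lit 92) (nat_lit 5) (nat_lit 95) (nat_lit 5) (nat_lit 93) (nat_lit 5) (nat_lit 380) (nat_lit 330) (nat_lit 310)) (XT.nd (nat_lit 78) (nat_lit 228) (nat_lit 0) (XT.lf (nat_lit 0) (nat_lit 9093635425) (nat_lit 304) (nat_lit 2501812133) (nat_lit 76) (nat_lit 734214690) (nat_lit 89) (nat_lit 5) (nat_lit 93) (nat_lit 5) (nat_lit 90) (nat_lit 4) (nat_lit 381) (nat_lit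 330) (nat_lit 309)) (XT.lf (nat_lit 0) (nat_lit 3795270901) (nat_lit 228) (nat_lit 632581297) (nat_lit 76) (nat_lit 8258111898) (nat_lit 86) (nat_lit 5) (nat_lit 89) (nat_lit 5) (nat_lit 87) (nat_lit 5) (nat_lit 382) (nat_lit 330) (nat_lit 308)))) (XT.nd (nat_lit 156) (nat_lit 380) (nat_lit 0) (XT.nd (nat_lit 78) (nat_lit 228) (nat_lit 0) (XT.lf (nat_lit 0) (nat_lit 1215973321) (nat_lit 152) (nat_lit 9930203987) (nat_lit 228) (nat_lit 1911915500) (nat_lit 81) (nat_lit 5) (nat_lit 83) (nat_lit 5) (nat_lit 84) (nat_lit 4) (nat_lit 383) (nat_lit 330) (nat_lit 307)) (XT.lf (nat_lit 0) (nat_lit 2987193782) (nat_lit 152) (nat_lit 2370122213) (nat_lit 228) (nat_lit 8088554662) (nat_lit 78) (nat_lit 5) (nat_lit 80) (nat_lit 5) (nat_lit 81) (nat_lit 5) (nat_lit 384) (nat_lit 330) (nat_lit 306))) (XT.nd (nat_lit 78) (nat_lit 228) (nat_lit 0) (XT.lf (nat_lit 0) (nat_lit 4680514696) (nat_lit 152) (nat_lit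 8324706736) (nat_lit 228) (nat_lit 845624888) (nat_lit 76) (nat_lit 5) (nat_lit 78) (nat_lit 5) (nat_lit 79) (nat_lit 4) (nat_lit 385) (nat_lit 330) (nat_lit 305)) (XT.lf (nat_lit 0) (nat_lit 6266977758) (nat_lit 152) (nat_lit 389833016) (nat_lit 228) (nat_lit 7616450858) (nat_lit 73) (nat_lit 5) (nat_lit 75) (nat_lit 5) (nat_lit 76) (nat_lit 5) (nat_lit 386) (nat_lit 330) (nat_lit 304))))))))
noncomputable def xc31 : XT := (XT.nd (nat_lit 1950) (nat_lit 1444) (nat_lit 0) (XT.nd (nat_lit 936) (nat_lit 1292) (nat_lit 0) (XT.nd (nat_lit 468) (nat_lit 912) (nat_lit 0) (XT.nd (nat_lit 234) (nat_lit 532) (nat_lit 0) (XT.nd (nat_lit 78) (nat_lit 456) (nat_lit 0) (XT.lf (nat_lit 0) (nat_lit 7735871105) (nat_lit 152) (nat_lit 6867519569) (nat_lit 228) (nat_lit 110577631) (nat_lit 71) (nat_lit 5) (nat_lit 73) (nat_lit 5) (nat_lit 74) (nat_lit 4) (nat_lit 387) (nat_lit 330) (nat_lit 303)) (XT.nd (nat_lit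 78) (nat_lit 228) (nat_lit 0) (XT.lf (nat_lit 0) (nat_lit 7650958870) (nat_lit 228) (nat_lit 6109995138) (nat_lit 76) (nat_lit 1412571199) (nat_lit 68) (nat_lit 5) (nat_lit 71) (nat_lit 5) (nat_lit 69) (nat_lit 4) (nat_lit 388) (nat_lit 330) (nat_lit 302)) (XT.lf (nat_lit 0) (nat_lit 228219566) (nat_lit 228) (nat_lit 5401075895) (nat_lit 76) (nat_lit 10024043132) (nat_lit 65) (nat_lit 5) (nat_lit 68) (nat_lit 5) (nat_lit 66) (nat_lit 5) (nat_lit 389) (nat_lit 330) (nat_lit 301)))) (XT.nd (nat_lit 78) (nat_lit 380) (nat_lit 0) (XT.lf (nat_lit 0) (nat_lit 8264292222) (nat_lit 228) (nat_lit 4903542892) (nat_lit 76) (nat_lit 2985487269) (nat_lit 63) (nat_lit 5) (nat_lit 66) (nat_lit 5) (nat_lit 64) (nat_lit 4) (nat_lit 390) (nat_lit 330) (nat_lit 300)) (XT.nd (nat_lit 78) (nat_lit 152) (nat_lit 0) (XT.lf (nat_lit 0) (nat_lit 107477270) (nat_lit 228) (nat_lit 4593270659) (nat_lit 76) (nat_lit 11975041042)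 (nat_lit 60) (nat_lit 5) (nat_lit 63) (nat_lit 5) (nat_lit 61) (nat_lit 5) (nat_lit 391) (nat_lit 330) (nat_lit 299)) (XT.lf (nat_lit 0) (nat_lit 8414148893) (nat_lit 228) (nat_lit 4556958715) (nat_lit 76) (nat_lit 4248735388) (nat_lit 58) (nat_lit 5) (nat_lit 61) (nat_lit 5) (nat_lit 59) (nat_lit 4) (nat_lit 392) (nat_lit 330) (nat_lit 298))))) (XT.nd (nat_lit 234) (nat_lit 532) (nat_lit 0) (XT.nd (nat_lit 78) (nat_lit 304) (nat_lit 0) (XT.lf (nat_lit 0) (nat_lit 13039543953) (nat_lit 76) (nat_lit 4177647525) (nat_lit 152) (nat_lit 571488808) (nat_lit 57) (nat_lit 5) (nat_lit 58) (nat_lit 5) (nat_lit 59) (nat_lit 4) (nat_lit 393) (nat_lit 330) (nat_lit 297)) (XT.nd (nat_lit 78) (nat_lit 76) (nat_lit 0) (XT.lf (nat_lit 0) (nat_lit 8004086965) (nat_lit 228) (nat_lit 5277913600) (nat_lit 76) (nat_lit 5099024548) (nat_lit 54) (nat_lit 5) (nat_lit 57) (nat_lit 5) (nat_lit 55) (nat_lit 4) (nat_lit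 394) (nat_lit 330) (nat_lit 296)) (XT.lf (nat_lit 0) (nat_lit 12902763034) (nat_lit 76) (nat_lit 4176041573) (nat_lit 152) (nat_lit 1921557643) (nat_lit 53) (nat_lit 5) (nat_lit 54) (nat_lit 5) (nat_lit 55) (nat_lit 4) (nat_lit 395) (nat_lit 330) (nat_lit 295)))) (XT.nd (nat_lit 78) (nat_lit 304) (nat_lit 0) (XT.lf (nat_lit 0) (nat_lit 6917129797) (nat_lit 228) (nat_lit 7314279229) (nat_lit 76) (nat_lit 5414372019) (nat_lit 50) (nat_lit 5) (nat_lit 53) (nat_lit 5) (nat_lit 51) (nat_lit 4) (nat_lit 396) (nat_lit 330) (nat_lit 294)) (XT.nd (nat_lit 78) (nat_lit 228) (nat_lit 0) (XT.lf (nat_lit 0) (nat_lit 11410706459) (nat_lit 76) (nat_lit 4835099758) (nat_lit 152) (nat_lit 4074469003) (nat_lit 49) (nat_lit 5) (nat_lit 50) (nat_lit 5) (nat_lit 51) (nat_lit 4) (nat_lit 397) (nat_lit 330) (nat_lit 293)) (XT.lf (nat_lit 0) (nat_lit 5012212897) (nat_lit 228) (nat_lit 10961519992) (nat_lit 76) (nat_lit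 5050396090) (nat_lit 46) (nat_lit 5) (nat_lit 49) (nat_lit 5) (nat_lit 47) (nat_lit 4) (nat_lit 398) (nat_lit 330) (nat_lit 292)))))) (XT.nd (nat_lit 468) (nat_lit 608) (nat_lit 0) (XT.nd (nat_lit 234) (nat_lit 304) (nat_lit 0) (XT.nd (nat_lit 78) (nat_lit 304) (nat_lit 0) (XT.lf (nat_lit 0) (nat_lit 8249989997) (nat_lit 76) (nat_lit 6318084890) (nat_lit 152) (nat_lit 7190924910) (nat_lit 45) (nat_lit 5) (nat_lit 46) (nat_lit 5) (nat_lit 47) (nat_lit 4) (nat_lit 399) (nat_lit 330) (nat_lit 291)) (XT.nd (nat_lit 78) (nat_lit 76) (nat_lit 0) (XT.lf (nat_lit 0) (nat_lit 2119993595) (nat_lit 228) (nat_lit 16571357040) (nat_lit 76) (nat_lit 3835994853) (nat_lit 42) (nat_lit 5) (nat_lit 45) (nat_lit 5) (nat_lit 43) (nat_lit 4) (nat_lit 400) (nat_lit 330) (nat_lit 290)) (XT.lf (nat_lit 0) (nat_lit 3047136611) (nat_lit 76) (nat_lit 8818212126) (nat_lit 152) (nat_lit 11463102533) (nat_lit 41) (nat_lit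 5) (nat_lit 42) (nat_lit 5) (nat_lit 43) (nat_lit 4) (nat_lit 401) (nat_lit 330) (nat_lit 289)))) (XT.nd (nat_lit 78) (nat_lit 304) (nat_lit 0) (XT.lf (nat_lit 0) (nat_lit 22170407830) (nat_lit 152) (nat_lit 405525045) (nat_lit 0) (nat_lit 1591513073) (nat_lit 41) (nat_lit 5) (nat_lit 43) (nat_lit 4) (nat_lit 41) (nat_lit 4) (nat_lit 402) (nat_lit 330) (nat_lit 288)) (XT.nd (nat_lit 78) (nat_lit 76) (nat_lit 0) (XT.lf (nat_lit 0) (nat_lit 7966564619) (nat_lit 228) (nat_lit 4551697171) (nat_lit 76) (nat_lit 12522467802) (nat_lit 38) (nat_lit 5) (nat_lit 41) (nat_lit 5) (nat_lit 39) (nat_lit 4) (nat_lit 403) (nat_lit 330) (nat_lit 287)) (XT.lf (nat_lit 0) (nat_lit 16579406631) (nat_lit 76) (nat_lit 1864562438) (nat_lit 152) (nat_lit 7511413362) (nat_lit 37) (nat_lit 5) (nat_lit 38) (nat_lit 5) (nat_lit 39) (nat_lit 4) (nat_lit 404) (nat_lit 330) (nat_lit 286))))) (XT.nd (nat_lit 234) (nat_lit 380)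 (nat_lit 0) (XT.nd (nat_lit 78) (nat_lit 76) (nat_lit 0) (XT.lf (nat_lit 0) (nat_lit 2628038213) (nat_lit 152) (nat_lit 15046932025) (nat_lit 76) (nat_lit 9235636030) (nat_lit 35) (nat_lit 5) (nat_lit 37) (nat_lit 5) (nat_lit 36) (nat_lit 4) (nat_lit 405) (nat_lit 330) (nat_lit 285)) (XT.nd (nat_lit 78) (nat_lit 0) (nat_lit 0) (XT.lf (nat_lit 0) (nat_lit 6281643641) (nat_lit 76) (nat_lit 6912958111) (nat_lit 152) (nat_lit 14714499013) (nat_lit 34) (nat_lit 5) (nat_lit 35) (nat_lit 5) (nat_lit 36) (nat_lit 4) (nat_lit 406) (nat_lit 330) (nat_lit 284)) (XT.lf (nat_lit 0) (nat_lit 24387647781) (nat_lit 152) (nat_lit 197884951) (nat_lit 0) (nat_lit 4369047567) (nat_lit 34) (nat_lit 5) (nat_lit 36) (nat_lit 4) (nat_lit 34) (nat_lit 4) (nat_lit 407) (nat_lit 330) (nat_lit 283)))) (XT.nd (nat_lit 156) (nat_lit 152) (nat_lit 0) (XT.nd (nat_lit 78) (nat_lit 76) (nat_lit 0) (XT.lf (nat_lit 0) (nat_lit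 6161381860) (nat_lit 152) (nat_lit 7618031839) (nat_lit 76) (nat_lit 16265403971) (nat_lit 32) (nat_lit 5) (nat_lit 34) (nat_lit 5) (nat_lit 33) (nat_lit 4) (nat_lit 408) (nat_lit 330) (nat_lit 282)) (XT.lf (nat_lit 0) (nat_lit 15065336019) (nat_lit 76) (nat_lit 2320335334) (nat_lit 152) (nat_lit 13800923078) (nat_lit 31) (nat_lit 5) (nat_lit 32) (nat_lit 5) (nat_lit 33) (nat_lit 4) (nat_lit 409) (nat_lit 330) (nat_lit 281))) (XT.nd (nat_lit 78) (nat_lit 76) (nat_lit 0) (XT.lf (nat_lit 0) (nat_lit 6515346120) (nat_lit 76) (nat_lit 22799248689) (nat_lit 76) (nat_lit 3066566780) (nat_lit 30) (nat_lit 4) (nat_lit 31) (nat_lit 5) (nat_lit 31) (nat_lit 4) (nat_lit 410) (nat_lit 330) (nat_lit 280)) (XT.lf (nat_lit 0) (nat_lit 8145497694) (nat_lit 152) (nat_lit 3287090923) (nat_lit 76) (nat_lit 22197473624) (nat_lit 29) (nat_lit 5) (nat_lit 31) (nat_lit 5) (nat_lit 30) (nat_lit 4) (nat_lit 411) (nat_lit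 330) (nat_lit 279))))))) (XT.nd (nat_lit 936) (nat_lit 608) (nat_lit 0) (XT.nd (nat_lit 468) (nat_lit 380) (nat_lit 0) (XT.nd (nat_lit 234) (nat_lit 228) (nat_lit 0) (XT.nd (nat_lit 78) (nat_lit 152) (nat_lit 0) (XT.lf (nat_lit 0) (nat_lit 19974303725) (nat_lit 152) (nat_lit 14316409240) (nat_lit 0) (nat_lit 646200959) (nat_lit 28) (nat_lit 5) (nat_lit 30) (nat_lit 4) (nat_lit 28) (nat_lit 4) (nat_lit 412) (nat_lit 330) (nat_lit 278)) (XT.nd (nat_lit 78) (nat_lit 76) (nat_lit 0) (XT.lf (nat_lit 0) (nat_lit 9389455217) (nat_lit 76) (nat_lit 23161065980) (nat_lit 76) (nat_lit 3753911337) (nat_lit 27) (nat_lit 4) (nat_lit 28) (nat_lit 5) (nat_lit 28) (nat_lit 4) (nat_lit 413) (nat_lit 330) (nat_lit 277)) (XT.lf (nat_lit 0) (nat_lit 7925470184) (nat_lit 152) (nat_lit 3393737670) (nat_lit 76) (nat_lit 26416811410) (nat_lit 26) (nat_lit 5) (nat_lit 28) (nat_lit 5) (nat_lit 27) (nat_lit 4) (nat_lit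 414) (nat_lit 330) (nat_lit 276)))) (XT.nd (nat_lit 78) (nat_lit 152) (nat_lit 0) (XT.lf (nat_lit 0) (nat_lit 20253076179) (nat_lit 152) (nat_lit 17712270587) (nat_lit 0) (nat_lit 1268469842) (nat_lit 25) (nat_lit 5) (nat_lit 27) (nat_lit 4) (nat_lit 25) (nat_lit 4) (nat_lit 415) (nat_lit 330) (nat_lit 275)) (XT.nd (nat_lit 78) (nat_lit 76) (nat_lit 0) (XT.lf (nat_lit 0) (nat_lit 6817716335) (nat_lit 76) (nat_lit 26517771494) (nat_lit 76) (nat_lit 7466866144) (nat_lit 24) (nat_lit 4) (nat_lit 25) (nat_lit 5) (nat_lit 25) (nat_lit 4) (nat_lit 416) (nat_lit 330) (nat_lit 274)) (XT.lf (nat_lit 0) (nat_lit 4641515248) (nat_lit 152) (nat_lit 9691771313) (nat_lit 76) (nat_lit 28111430685) (nat_lit 23) (nat_lit 5) (nat_lit 25) (nat_lit 5) (nat_lit 24) (nat_lit 4) (nat_lit 417) (nat_lit 330) (nat_lit 273))))) (XT.nd (nat_lit 234) (nat_lit 228) (nat_lit 0) (XT.nd (nat_lit 78) (nat_lit 76) (nat_lit 0)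 (XT.lf (nat_lit 0) (nat_lit 15911804795) (nat_lit 76) (nat_lit 1371932752) (nat_lit 152) (nat_lit 26880760380) (nat_lit 22) (nat_lit 5) (nat_lit 23) (nat_lit 5) (nat_lit 24) (nat_lit 4) (nat_lit 418) (nat_lit 330) (nat_lit 272)) (XT.nd (nat_lit 78) (nat_lit 76) (nat_lit 0) (XT.lf (nat_lit 0) (nat_lit 30706397036) (nat_lit 152) (nat_lit 3224340803) (nat_lit 0) (nat_lit 12035082466) (nat_lit 22) (nat_lit 5) (nat_lit 24) (nat_lit 4) (nat_lit 22) (nat_lit 4) (nat_lit 419) (nat_lit 330) (nat_lit 271)) (XT.lf (nat_lit 0) (nat_lit 23367534852) (nat_lit 76) (nat_lit 21604397132) (nat_lit 76) (nat_lit 2880126871) (nat_lit 21) (nat_lit 4) (nat_lit 22) (nat_lit 5) (nat_lit 22) (nat_lit 4) (nat_lit 420) (nat_lit 330) (nat_lit 270)))) (XT.nd (nat_lit 78) (nat_lit 76) (nat_lit 0) (XT.lf (nat_lit 0) (nat_lit 1325435266) (nat_lit 76) (nat_lit 8576111295) (nat_lit 152) (nat_lit 39928721472) (nat_lit 19) (nat_lit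 5) (nat_lit 20) (nat_lit 5) (nat_lit 21) (nat_lit 4) (nat_lit 421) (nat_lit 330) (nat_lit 269)) (XT.nd (nat_lit 78) (nat_lit 76) (nat_lit 0) (XT.lf (nat_lit 0) (nat_lit 23502826957) (nat_lit 152) (nat_lit 23168179238) (nat_lit 0) (nat_lit 5228325378) (nat_lit 19) (nat_lit 5) (nat_lit 21) (nat_lit 4) (nat_lit 19) (nat_lit 4) (nat_lit 422) (nat_lit 330) (nat_lit 268)) (XT.lf (nat_lit 0) (nat_lit 3293707961) (nat_lit 76) (nat_lit 34547670197) (nat_lit 76) (nat_lit 16228755882) (nat_lit 18) (nat_lit 4) (nat_lit 19) (nat_lit 5) (nat_lit 19) (nat_lit 4) (nat_lit 423) (nat_lit 330) (nat_lit 267)))))) (XT.nd (nat_lit 468) (nat_lit 304) (nat_lit 0) (XT.nd (nat_lit 234) (nat_lit 152) (nat_lit 0) (XT.nd (nat_lit 78) (nat_lit 152) (nat_lit 0) (XT.lf (nat_lit 0) (nat_lit 31446945992) (nat_lit 76) (nat_lit 21629183243) (nat_lit 76) (nat_lit 3267971086) (nat_lit 18) (nat_lit 4) (nat_lit 19) (nat_lit 5) (nat_lit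 19) (nat_lit 4) (nat_lit 424) (nat_lit 330) (nat_lit 266)) (XT.nd (nat_lit 78) (nat_lit 0) (nat_lit 0) (XT.lf (nat_lit 0) (nat_lit 2106272204) (nat_lit 76) (nat_lit 7996076574) (nat_lit 152) (nat_lit 48627537286) (nat_lit 16) (nat_lit 5) (nat_lit 17) (nat_lit 5) (nat_lit 18) (nat_lit 4) (nat_lit 425) (nat_lit 330) (nat_lit 265)) (XT.lf (nat_lit 0) (nat_lit 24337995228) (nat_lit 152) (nat_lit 30452847548) (nat_lit 0) (nat_lit 6435217356) (nat_lit 16) (nat_lit 5) (nat_lit 18) (nat_lit 4) (nat_lit 16) (nat_lit 4) (nat_lit 426) (nat_lit 330) (nat_lit 264)))) (XT.nd (nat_lit 78) (nat_lit 152) (nat_lit 0) (XT.lf (nat_lit 0) (nat_lit 39312985669) (nat_lit 152) (nat_lit 3158498385) (nat_lit 0) (nat_lit 21374733557) (nat_lit 16) (nat_lit 5) (nat_lit 18) (nat_lit 4) (nat_lit 16) (nat_lit 4) (nat_lit 427) (nat_lit 330) (nat_lit 263)) (XT.nd (nat_lit 78) (nat_lit 76) (nat_lit 0) (XT.lf (nat_lit 0) (nat_lit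 25906818697) (nat_lit 76) (nat_lit 29328325155) (nat_lit 76) (nat_lit 11356288052) (nat_lit 15) (nat_lit 4) (nat_lit 16) (nat_lit 5) (nat_lit 16) (nat_lit 4) (nat_lit 428) (nat_lit 330) (nat_lit 262)) (XT.lf (nat_lit 0) (nat_lit 2414336230) (nat_lit 152) (nat_lit 13103110736) (nat_lit 76) (nat_lit 53956249768) (nat_lit 14) (nat_lit 5) (nat_lit 16) (nat_lit 5) (nat_lit 15) (nat_lit 4) (nat_lit 429) (nat_lit 330) (nat_lit 261))))) (XT.nd (nat_lit 234) (nat_lit 228) (nat_lit 0) (XT.nd (nat_lit 78) (nat_lit 0) (nat_lit 0) (XT.lf (nat_lit 0) (nat_lit 15961523541) (nat_lit 76) (nat_lit 785462077) (nat_lit 152) (nat_lit 55746466558) (nat_lit 13) (nat_lit 5) (nat_lit 14) (nat_lit 5) (nat_lit 15) (nat_lit 4) (nat_lit 430) (nat_lit 330) (nat_lit 260)) (XT.nd (nat_lit 78) (nat_lit 0) (nat_lit 0) (XT.lf (nat_lit 0) (nat_lit 32027333724) (nat_lit 152) (nat_lit 29140502069) (nat_lit 0) (nat_lit 14489428858)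 (nat_lit 13) (nat_lit 5) (nat_lit 15) (nat_lit 4) (nat_lit 13) (nat_lit 4) (nat_lit 431) (nat_lit 330) (nat_lit 259)) (XT.lf (nat_lit 0) (nat_lit 48035534365) (nat_lit 152) (nat_lit 474175449) (nat_lit 0) (nat_lit 30470644068) (nat_lit 13) (nat_lit 5) (nat_lit 15) (nat_lit 4) (nat_lit 13) (nat_lit 4) (nat_lit 432) (nat_lit 330) (nat_lit 258)))) (XT.nd (nat_lit 156) (nat_lit 152) (nat_lit 0) (XT.nd (nat_lit 78) (nat_lit 0) (nat_lit 0) (XT.lf (nat_lit 0) (nat_lit 30130815459) (nat_lit 76) (nat_lit 34960972336) (nat_lit 76) (nat_lit 17370381627) (nat_lit 12) (nat_lit 4) (nat_lit 13) (nat_lit 5) (nat_lit 13) (nat_lit 4) (nat_lit 433) (nat_lit 330) (nat_lit 257)) (XT.lf (nat_lit 0) (nat_lit 62195720087) (nat_lit 76) (nat_lit 20769250263) (nat_lit 76) (nat_lit 3154182971) (nat_lit 12) (nat_lit 4) (nat_lit 13) (nat_lit 5) (nat_lit 13) (nat_lit 4) (nat_lit 434) (nat_lit 330) (nat_lit 256))) (XT.nd (nat_lit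 78) (nat_lit 0) (nat_lit 0) (XT.lf (nat_lit 0) (nat_lit 5828241048) (nat_lit 76) (nat_lit 5731669971) (nat_lit 152) (nat_lit 78395176894) (nat_lit 10) (nat_lit 5) (nat_lit 11) (nat_lit 5) (nat_lit 12) (nat_lit 4) (nat_lit 435) (nat_lit 330) (nat_lit 255)) (XT.lf (nat_lit 0) (nat_lit 27252055612) (nat_lit 152) (nat_lit 56614738197) (nat_lit 0) (nat_lit 10105862112) (nat_lit 10) (nat_lit 5) (nat_lit 12) (nat_lit 4) (nat_lit 10) (nat_lit 4) (nat_lit 436) (nat_lit 330) (nat_lit 254))))))))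
noncomputable def xc32 : XT := (XT.nd (nat_lit 48750) (nat_lit 0) (nat_lit 2052) (XT.nd (nat_lit 47814) (nat_lit 0) (nat_lit 6232) (XT.nd (nat_lit 47346) (nat_lit 0) (nat_lit 10792) (XT.nd (nat_lit 47112) (nat_lit 0) (nat_lit 14440) (XT.nd (nat_lit 46956) (nat_lit 0) (nat_lit 16112) (XT.lf (nat_lit 0) (nat_lit 43750070244) (nat_lit 152) (nat_lit 27857046312) (nat_lit 0) (nat_lit 26583348790) (nat_lit 10) (nat_lit 5) (nat_lit 12) (nat_lit 4) (nat_lit 10) (nat_lit 4) (nat_lit 437) (nat_lit 330) (nat_lit 253)) (XT.nd (nat_lit 78) (nat_lit 1216) (nat_lit 0) (XT.lf (nat_lit 0) (nat_lit 1683684473) (nat_lit 684) (nat_lit 333333041) (nat_lit 0) (nat_lit 1683684473) (nat_lit 238) (nat_lit 5) (nat_lit 247) (nat_lit 4) (nat_lit 238) (nat_lit 4) (nat_lit 358) (nat_lit 331) (nat_lit 331)) (XT.lf (nat_lit 0) (nat_lit 1280492662) (nat_lit 532) (nat_lit 568519726) (nat_lit 608) (nat_lit 5664796657) (nat_lit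 222) (nat_lit 5) (nat_lit 229) (nat_lit 5) (nat_lit 230) (nat_lit 4) (nat_lit 359) (nat_lit 331) (nat_lit 330)))) (XT.nd (nat_lit 78) (nat_lit 1064) (nat_lit 0) (XT.lf (nat_lit 0) (nat_lit 185677553) (nat_lit 608) (nat_lit 4310689080) (nat_lit 76) (nat_lit 3137888436) (nat_lit 214) (nat_lit 5) (nat_lit 222) (nat_lit 5) (nat_lit 215) (nat_lit 4) (nat_lit 360) (nat_lit 331) (nat_lit 329)) (XT.nd (nat_lit 78) (nat_lit 608) (nat_lit 0) (XT.lf (nat_lit 0) (nat_lit 5457840344) (nat_lit 456) (nat_lit 612705669) (nat_lit 532) (nat_lit 1692816926) (nat_lit 208) (nat_lit 5) (nat_lit 214) (nat_lit 5) (nat_lit 215) (nat_lit 4) (nat_lit 361) (nat_lit 331) (nat_lit 328)) (XT.lf (nat_lit 0) (nat_lit 4161096755) (nat_lit 608) (nat_lit 232021219) (nat_lit 76) (nat_lit 3507781634) (nat_lit 200) (nat_lit 5) (nat_lit 208) (nat_lit 5) (nat_lit 201) (nat_lit 4) (nat_lit 362) (nat_lit 331) (nat_lit 327))))) (XT.nd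 (nat_lit 234) (nat_lit 1672) (nat_lit 0) (XT.nd (nat_lit 78) (nat_lit 988) (nat_lit 0) (XT.lf (nat_lit 0) (nat_lit 1978029233) (nat_lit 456) (nat_lit 101654441) (nat_lit 532) (nat_lit 5967705475) (nat_lit 187) (nat_lit 5) (nat_lit 193) (nat_lit 5) (nat_lit 194) (nat_lit 5) (nat_lit 363) (nat_lit 331) (nat_lit 326)) (XT.nd (nat_lit 78) (nat_lit 532) (nat_lit 0) (XT.lf (nat_lit 0) (nat_lit 4254849766) (nat_lit 456) (nat_lit 3782707917) (nat_lit 532) (nat_lit 164867617) (nat_lit 181) (nat_lit 5) (nat_lit 187) (nat_lit 5) (nat_lit 188) (nat_lit 4) (nat_lit 364) (nat_lit 331) (nat_lit 325)) (XT.lf (nat_lit 0) (nat_lit 5709044828) (nat_lit 532) (nat_lit 1760336002) (nat_lit 76) (nat_lit 897294541) (nat_lit 174) (nat_lit 5) (nat_lit 181) (nat_lit 5) (nat_lit 175) (nat_lit 4) (nat_lit 365) (nat_lit 331) (nat_lit 324)))) (XT.nd (nat_lit 78) (nat_lit 836) (nat_lit 0) (XT.lf (nat_lit 0) (nat_lit 495031574)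 (nat_lit 380) (nat_lit 2712311509) (nat_lit 456) (nat_lit 5332701612) (nat_lit 163) (nat_lit 5) (nat_lit 168) (nat_lit 5) (nat_lit 169) (nat_lit 5) (nat_lit 366) (nat_lit 331) (nat_lit 323)) (XT.nd (nat_lit 78) (nat_lit 380) (nat_lit 0) (XT.lf (nat_lit 0) (nat_lit 521274269) (nat_lit 456) (nat_lit 5861917188) (nat_lit 76) (nat_lit 2339687575) (nat_lit 157) (nat_lit 5) (nat_lit 163) (nat_lit 5) (nat_lit 158) (nat_lit 5) (nat_lit 367) (nat_lit 331) (nat_lit 322)) (XT.lf (nat_lit 0) (nat_lit 5274491504) (nat_lit 380) (nat_lit 1221572542) (nat_lit 456) (nat_lit 2419111958) (nat_lit 152) (nat_lit 5) (nat_lit 157) (nat_lit 5) (nat_lit 158) (nat_lit 5) (nat_lit 368) (nat_lit 331) (nat_lit 321)))))) (XT.nd (nat_lit 468) (nat_lit 1824) (nat_lit 0) (XT.nd (nat_lit 234) (nat_lit 1292) (nat_lit 0) (XT.nd (nat_lit 78) (nat_lit 1064) (nat_lit 0) (XT.lf (nat_lit 0) (nat_lit 3539356753) (nat_lit 380) (nat_lit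 1378466753) (nat_lit 76) (nat_lit 4199519975) (nat_lit 147) (nat_lit 5) (nat_lit 152) (nat_lit 5) (nat_lit 148) (nat_lit 5) (nat_lit 369) (nat_lit 331) (nat_lit 320)) (XT.nd (nat_lit 78) (nat_lit 304) (nat_lit 0) (XT.lf (nat_lit 0) (nat_lit 360846801) (nat_lit 380) (nat_lit 8359285204) (nat_lit 76) (nat_lit 610132409) (nat_lit 137) (nat_lit 5) (nat_lit 142) (nat_lit 5) (nat_lit 138) (nat_lit 5) (nat_lit 370) (nat_lit 331) (nat_lit 319)) (XT.lf (nat_lit 0) (nat_lit 3355049451) (nat_lit 304) (nat_lit 3122188810) (nat_lit 380) (nat_lit 3075103387) (nat_lit 133) (nat_lit 5) (nat_lit 137) (nat_lit 5) (nat_lit 138) (nat_lit 5) (nat_lit 371) (nat_lit 331) (nat_lit 318)))) (XT.nd (nat_lit 78) (nat_lit 912) (nat_lit 0) (XT.lf (nat_lit 0) (nat_lit 3017435290) (nat_lit 380) (nat_lit 3992503441) (nat_lit 76) (nat_lit 2775800757) (nat_lit 128) (nat_lit 5) (nat_lit 133) (nat_lit 5) (nat_lit 129) (nat_lit 5)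 (nat_lit 372) (nat_lit 331) (nat_lit 317)) (XT.nd (nat_lit 78) (nat_lit 608) (nat_lit 0) (XT.lf (nat_lit 0) (nat_lit 8277660456) (nat_lit 304) (nat_lit 1049594936) (nat_lit 380) (nat_lit 703391730) (nat_lit 124) (nat_lit 5) (nat_lit 128) (nat_lit 5) (nat_lit 129) (nat_lit 5) (nat_lit 373) (nat_lit 331) (nat_lit 316)) (XT.lf (nat_lit 0) (nat_lit 485324464) (nat_lit 304) (nat_lit 5074945873) (nat_lit 380) (nat_lit 4725752673) (nat_lit 116) (nat_lit 5) (nat_lit 120) (nat_lit 5) (nat_lit 121) (nat_lit 5) (nat_lit 374) (nat_lit 331) (nat_lit 315))))) (XT.nd (nat_lit 234) (nat_lit 988) (nat_lit 0) (XT.nd (nat_lit 78) (nat_lit 532) (nat_lit 0) (XT.lf (nat_lit 0) (nat_lit 1534992144) (nat_lit 304) (nat_lit 7749519648) (nat_lit 76) (nat_lit 1269119806) (nat_lit 112) (nat_lit 5) (nat_lit 116) (nat_lit 5) (nat_lit 113) (nat_lit 5) (nat_lit 375) (nat_lit 331) (nat_lit 314)) (XT.nd (nat_lit 78) (nat_lit 304)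 (nat_lit 0) (XT.lf (nat_lit 0) (nat_lit 5110628730) (nat_lit 228) (nat_lit 2914452593) (nat_lit 304) (nat_lit 2807747593) (nat_lit 109) (nat_lit 5) (nat_lit 112) (nat_lit 5) (nat_lit 113) (nat_lit 5) (nat_lit 376) (nat_lit 331) (nat_lit 313)) (XT.lf (nat_lit 0) (nat_lit 3645850238) (nat_lit 304) (nat_lit 3698292544) (nat_lit 76) (nat_lit 3780664276) (nat_lit 105) (nat_lit 5) (nat_lit 109) (nat_lit 5) (nat_lit 106) (nat_lit 5) (nat_lit 377) (nat_lit 331) (nat_lit 312)))) (XT.nd (nat_lit 78) (nat_lit 760) (nat_lit 0) (XT.lf (nat_lit 0) (nat_lit 9762330486) (nat_lit 228) (nat_lit 605235602) (nat_lit 304) (nat_lit 1062908140) (nat_lit 102) (nat_lit 5) (nat_lit 105) (nat_lit 5) (nat_lit 106) (nat_lit 5) (nat_lit 378) (nat_lit 331) (nat_lit 311)) (XT.nd (nat_lit 78) (nat_lit 228) (nat_lit 0) (XT.lf (nat_lit 0) (nat_lit 309316166) (nat_lit 228) (nat_lit 5299303195) (nat_lit 304) (nat_lit 6139834384)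 (nat_lit 95) (nat_lit 5) (nat_lit 98) (nat_lit 5) (nat_lit 99) (nat_lit 5) (nat_lit 379) (nat_lit 331) (nat_lit 310)) (XT.lf (nat_lit 0) (nat_lit 524727776) (nat_lit 228) (nat_lit 9749751228) (nat_lit 76) (nat_lit 1806667075) (nat_lit 92) (nat_lit 5) (nat_lit 95) (nat_lit 5) (nat_lit 93) (nat_lit 5) (nat_lit 380) (nat_lit 331) (nat_lit 309))))))) (XT.nd (nat_lit 936) (nat_lit 1596) (nat_lit 0) (XT.nd (nat_lit 468) (nat_lit 1292) (nat_lit 0) (XT.nd (nat_lit 234) (nat_lit 608) (nat_lit 0) (XT.nd (nat_lit 78) (nat_lit 456) (nat_lit 0) (XT.lf (nat_lit 0) (nat_lit 4281252153) (nat_lit 228) (nat_lit 3157966127) (nat_lit 304) (nat_lit 4988144454) (nat_lit 89) (nat_lit 5) (nat_lit 92) (nat_lit 5) (nat_lit 93) (nat_lit 5) (nat_lit 381) (nat_lit 331) (nat_lit 308)) (XT.nd (nat_lit 78) (nat_lit 228) (nat_lit 0) (XT.lf (nat_lit 0) (nat_lit 1907595751) (nat_lit 228) (nat_lit 6583720269) (nat_lit 76) (nat_lit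 4297957026) (nat_lit 86) (nat_lit 5) (nat_lit 89) (nat_lit 5) (nat_lit 87) (nat_lit 5) (nat_lit 382) (nat_lit 331) (nat_lit 307)) (XT.lf (nat_lit 0) (nat_lit 8073780047) (nat_lit 228) (nat_lit 1003273073) (nat_lit 304) (nat_lit 4089802360) (nat_lit 83) (nat_lit 5) (nat_lit 86) (nat_lit 5) (nat_lit 87) (nat_lit 5) (nat_lit 383) (nat_lit 331) (nat_lit 306)))) (XT.nd (nat_lit 78) (nat_lit 380) (nat_lit 0) (XT.lf (nat_lit 0) (nat_lit 3053493859) (nat_lit 228) (nat_lit 3698934463) (nat_lit 76) (nat_lit 6807895551) (nat_lit 80) (nat_lit 5) (nat_lit 83) (nat_lit 5) (nat_lit 81) (nat_lit 5) (nat_lit 384) (nat_lit 331) (nat_lit 305)) (XT.nd (nat_lit 78) (nat_lit 228) (nat_lit 0) (XT.lf (nat_lit 0) (nat_lit 10499963266) (nat_lit 228) (nat_lit 2379671009) (nat_lit 76) (nat_lit 1091717368) (nat_lit 78) (nat_lit 5) (nat_lit 81) (nat_lit 5) (nat_lit 79) (nat_lit 4) (nat_lit 385) (nat_lit 331) (nat_lit 304))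 (XT.lf (nat_lit 0) (nat_lit 3922462561) (nat_lit 228) (nat_lit 1192265605) (nat_lit 76) (nat_lit 9284599032) (nat_lit 75) (nat_lit 5) (nat_lit 78) (nat_lit 5) (nat_lit 76) (nat_lit 5) (nat_lit 386) (nat_lit 331) (nat_lit 303))))) (XT.nd (nat_lit 234) (nat_lit 608) (nat_lit 0) (XT.nd (nat_lit 78) (nat_lit 532) (nat_lit 0) (XT.lf (nat_lit 0) (nat_lit 11663269353) (nat_lit 228) (nat_lit 110455281) (nat_lit 76) (nat_lit 3072490378) (nat_lit 73) (nat_lit 5) (nat_lit 76) (nat_lit 5) (nat_lit 74) (nat_lit 4) (nat_lit 387) (nat_lit 331) (nat_lit 302)) (XT.nd (nat_lit 78) (nat_lit 152) (nat_lit 0) (XT.lf (nat_lit 0) (nat_lit 836517301) (nat_lit 152) (nat_lit 3635261598) (nat_lit 228) (nat_lit 10839889318) (nat_lit 68) (nat_lit 5) (nat_lit 70) (nat_lit 5) (nat_lit 71) (nat_lit 5) (nat_lit 388) (nat_lit 331) (nat_lit 301)) (XT.lf (nat_lit 0) (nat_lit 1628954817) (nat_lit 152) (nat_lit 10889291946) (nat_lit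 228) (nat_lit 3278971180) (nat_lit 66) (nat_lit 5) (nat_lit 68) (nat_lit 5) (nat_lit 69) (nat_lit 4) (nat_lit 389) (nat_lit 331) (nat_lit 300)))) (XT.nd (nat_lit 78) (nat_lit 380) (nat_lit 0) (XT.lf (nat_lit 0) (nat_lit 2243089372) (nat_lit 152) (nat_lit 2392480055) (nat_lit 228) (nat_lit 11668149861) (nat_lit 63) (nat_lit 5) (nat_lit 65) (nat_lit 5) (nat_lit 66) (nat_lit 5) (nat_lit 390) (nat_lit 331) (nat_lit 299)) (XT.nd (nat_lit 78) (nat_lit 228) (nat_lit 0) (XT.lf (nat_lit 0) (nat_lit 2642530516) (nat_lit 152) (nat_lit 10332671788) (nat_lit 228) (nat_lit 3856466698) (nat_lit 61) (nat_lit 5) (nat_lit 63) (nat_lit 5) (nat_lit 64) (nat_lit 4) (nat_lit 391) (nat_lit 331) (nat_lit 298)) (XT.lf (nat_lit 0) (nat_lit 2833790946) (nat_lit 152) (nat_lit 1488781643) (nat_lit 228) (nat_lit 13060354836) (nat_lit 58) (nat_lit 5) (nat_lit 60) (nat_lit 5) (nat_lit 61) (nat_lit 5) (nat_lit 392) (nat_lit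 331) (nat_lit 297)))))) (XT.nd (nat_lit 468) (nat_lit 912) (nat_lit 0) (XT.nd (nat_lit 234) (nat_lit 304) (nat_lit 0) (XT.nd (nat_lit 78) (nat_lit 304) (nat_lit 0) (XT.lf (nat_lit 0) (nat_lit 2742206168) (nat_lit 76) (nat_lit 10205303254) (nat_lit 152) (nat_lit 5009603893) (nat_lit 57) (nat_lit 5) (nat_lit 58) (nat_lit 5) (nat_lit 59) (nat_lit 4) (nat_lit 393) (nat_lit 331) (nat_lit 296)) (XT.nd (nat_lit 78) (nat_lit 76) (nat_lit 0) (XT.lf (nat_lit 0) (nat_lit 2405332583) (nat_lit 152) (nat_lit 1030465858) (nat_lit 228) (nat_lit 15121447888) (nat_lit 54) (nat_lit 5) (nat_lit 56) (nat_lit 5) (nat_lit 57) (nat_lit 5) (nat_lit 394) (nat_lit 331) (nat_lit 295)) (XT.lf (nat_lit 0) (nat_lit 1705752839) (nat_lit 76) (nat_lit 10625206685) (nat_lit 152) (nat_lit 6851015420) (nat_lit 53) (nat_lit 5) (nat_lit 54) (nat_lit 5) (nat_lit 55) (nat_lit 4) (nat_lit 395) (nat_lit 331) (nat_lit 294)))) (XT.nd (nat_lit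 78) (nat_lit 76) (nat_lit 0) (XT.lf (nat_lit 0) (nat_lit 714833715) (nat_lit 152) (nat_lit 1143022096) (nat_lit 228) (nat_lit 17977744127) (nat_lit 50) (nat_lit 5) (nat_lit 52) (nat_lit 5) (nat_lit 53) (nat_lit 5) (nat_lit 396) (nat_lit 331) (nat_lit 293)) (XT.nd (nat_lit 78) (nat_lit 76) (nat_lit 0) (XT.lf (nat_lit 0) (nat_lit 11006484626) (nat_lit 228) (nat_lit 717879198) (nat_lit 76) (nat_lit 8791135926) (nat_lit 50) (nat_lit 5) (nat_lit 53) (nat_lit 5) (nat_lit 51) (nat_lit 4) (nat_lit 397) (nat_lit 331) (nat_lit 292)) (XT.lf (nat_lit 0) (nat_lit 18743788174) (nat_lit 76) (nat_lit 1944550600) (nat_lit 152) (nat_lit 538790180) (nat_lit 49) (nat_lit 5) (nat_lit 50) (nat_lit 5) (nat_lit 51) (nat_lit 4) (nat_lit 398) (nat_lit 331) (nat_lit 291))))) (XT.nd (nat_lit 234) (nat_lit 380) (nat_lit 0) (XT.nd (nat_lit 78) (nat_lit 304) (nat_lit 0) (XT.lf (nat_lit 0) (nat_lit 8848137243) (nat_lit 228)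 (nat_lit 4792523710) (nat_lit 76) (nat_lit 8326881352) (nat_lit 46) (nat_lit 5) (nat_lit 49) (nat_lit 5) (nat_lit 47) (nat_lit 4) (nat_lit 399) (nat_lit 331) (nat_lit 290)) (XT.nd (nat_lit 78) (nat_lit 228) (nat_lit 0) (XT.lf (nat_lit 0) (nat_lit 15187018250) (nat_lit 76) (nat_lit 3586762622) (nat_lit 152) (nat_lit 3968627266) (nat_lit 45) (nat_lit 5) (nat_lit 46) (nat_lit 5) (nat_lit 47) (nat_lit 4) (nat_lit 400) (nat_lit 331) (nat_lit 289)) (XT.lf (nat_lit 0) (nat_lit 5661112685) (nat_lit 228) (nat_lit 10920756202) (nat_lit 76) (nat_lit 6968584485) (nat_lit 42) (nat_lit 5) (nat_lit 45) (nat_lit 5) (nat_lit 43) (nat_lit 4) (nat_lit 401) (nat_lit 331) (nat_lit 288)))) (XT.nd (nat_lit 156) (nat_lit 76) (nat_lit 0) (XT.nd (nat_lit 78) (nat_lit 228) (nat_lit 0) (XT.lf (nat_lit 0) (nat_lit 9492938062) (nat_lit 76) (nat_lit 6297716846) (nat_lit 152) (nat_lit 8604061755) (nat_lit 41) (nat_lit 5) (nat_lit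 42) (nat_lit 5) (nat_lit 43) (nat_lit 4) (nat_lit 402) (nat_lit 331) (nat_lit 287)) (XT.lf (nat_lit 0) (nat_lit 1232184602) (nat_lit 228) (nat_lit 19541635599) (nat_lit 76) (nat_lit 4503776802) (nat_lit 38) (nat_lit 5) (nat_lit 41) (nat_lit 5) (nat_lit 39) (nat_lit 4) (nat_lit 403) (nat_lit 331) (nat_lit 286))) (XT.nd (nat_lit 78) (nat_lit 0) (nat_lit 0) (XT.lf (nat_lit 0) (nat_lit 1194877708) (nat_lit 76) (nat_lit 10317093994) (nat_lit 152) (nat_lit 14686209398) (nat_lit 37) (nat_lit 5) (nat_lit 38) (nat_lit 5) (nat_lit 39) (nat_lit 4) (nat_lit 404) (nat_lit 331) (nat_lit 285)) (XT.lf (nat_lit 0) (nat_lit 22415513859) (nat_lit 152) (nat_lit 3980595189) (nat_lit 0) (nat_lit 765397728) (nat_lit 37) (nat_lit 5) (nat_lit 39) (nat_lit 4) (nat_lit 37) (nat_lit 4) (nat_lit 405) (nat_lit 331) (nat_lit 284))))))))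
noncomputable def xc33 : XT := (XT.nd (nat_lit 1950) (nat_lit 304) (nat_lit 0) (XT.nd (nat_lit 936) (nat_lit 760) (nat_lit 0) (XT.nd (nat_lit 468) (nat_lit 456) (nat_lit 0) (XT.nd (nat_lit 234) (nat_lit 228) (nat_lit 0) (XT.nd (nat_lit 78) (nat_lit 152) (nat_lit 0) (XT.lf (nat_lit 0) (nat_lit 5765706530) (nat_lit 152) (nat_lit 10061492177) (nat_lit 76) (nat_lit 12338597883) (nat_lit 35) (nat_lit 5) (nat_lit 37) (nat_lit 5) (nat_lit 36) (nat_lit 4) (nat_lit 406) (nat_lit 331) (nat_lit 283)) (XT.nd (nat_lit 78) (nat_lit 76) (nat_lit 0) (XT.lf (nat_lit 0) (nat_lit 12169039775) (nat_lit 76) (nat_lit 4601977030) (nat_lit 152) (nat_lit 12445893687) (nat_lit 34) (nat_lit 5) (nat_lit 35) (nat_lit 5) (nat_lit 36) (nat_lit 4) (nat_lit 407) (nat_lit 331) (nat_lit 282)) (XT.lf (nat_lit 0) (nat_lit 5261969464) (nat_lit 76) (nat_lit 23197758269) (nat_lit 76) (nat_lit 1856862785) (nat_lit 33) (nat_lit 4) (nat_lit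 34) (nat_lit 5) (nat_lit 34) (nat_lit 4) (nat_lit 408) (nat_lit 331) (nat_lit 281)))) (XT.nd (nat_lit 78) (nat_lit 152) (nat_lit 0) (XT.lf (nat_lit 0) (nat_lit 9215293327) (nat_lit 152) (nat_lit 2730935565) (nat_lit 76) (nat_lit 19518326912) (nat_lit 32) (nat_lit 5) (nat_lit 34) (nat_lit 5) (nat_lit 33) (nat_lit 4) (nat_lit 409) (nat_lit 331) (nat_lit 280)) (XT.nd (nat_lit 78) (nat_lit 76) (nat_lit 0) (XT.lf (nat_lit 0) (nat_lit 20919387853) (nat_lit 152) (nat_lit 11730437192) (nat_lit 0) (nat_lit 16044712) (nat_lit 31) (nat_lit 5) (nat_lit 33) (nat_lit 4) (nat_lit 31) (nat_lit 4) (nat_lit 410) (nat_lit 331) (nat_lit 279)) (XT.lf (nat_lit 0) (nat_lit 11866281541) (nat_lit 76) (nat_lit 21522207654) (nat_lit 76) (nat_lit 533369908) (nat_lit 30) (nat_lit 4) (nat_lit 31) (nat_lit 5) (nat_lit 31) (nat_lit 4) (nat_lit 411) (nat_lit 331) (nat_lit 278))))) (XT.nd (nat_lit 234) (nat_lit 228) (nat_lit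 0) (XT.nd (nat_lit 78) (nat_lit 76) (nat_lit 0) (XT.lf (nat_lit 0) (nat_lit 1412016785) (nat_lit 76) (nat_lit 9662996990) (nat_lit 152) (nat_lit 24160777428) (nat_lit 28) (nat_lit 5) (nat_lit 29) (nat_lit 5) (nat_lit 30) (nat_lit 4) (nat_lit 412) (nat_lit 331) (nat_lit 277)) (XT.nd (nat_lit 78) (nat_lit 76) (nat_lit 0) (XT.lf (nat_lit 0) (nat_lit 23429132409) (nat_lit 152) (nat_lit 10283561328) (nat_lit 0) (nat_lit 2897280656) (nat_lit 28) (nat_lit 5) (nat_lit 30) (nat_lit 4) (nat_lit 28) (nat_lit 4) (nat_lit 413) (nat_lit 331) (nat_lit 276)) (XT.lf (nat_lit 0) (nat_lit 14471476725) (nat_lit 76) (nat_lit 22090064883) (nat_lit 76) (nat_lit 1486510747) (nat_lit 27) (nat_lit 4) (nat_lit 28) (nat_lit 5) (nat_lit 28) (nat_lit 4) (nat_lit 414) (nat_lit 331) (nat_lit 275)))) (XT.nd (nat_lit 78) (nat_lit 76) (nat_lit 0) (XT.lf (nat_lit 0) (nat_lit 892613227) (nat_lit 76) (nat_lit 9730271179) (nat_lit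 152) (nat_lit 28930811933) (nat_lit 25) (nat_lit 5) (nat_lit 26) (nat_lit 5) (nat_lit 27) (nat_lit 4) (nat_lit 415) (nat_lit 331) (nat_lit 274)) (XT.nd (nat_lit 78) (nat_lit 76) (nat_lit 0) (XT.lf (nat_lit 0) (nat_lit 23510621734) (nat_lit 152) (nat_lit 14239723368) (nat_lit 0) (nat_lit 3377730186) (nat_lit 25) (nat_lit 5) (nat_lit 27) (nat_lit 4) (nat_lit 25) (nat_lit 4) (nat_lit 416) (nat_lit 331) (nat_lit 273)) (XT.lf (nat_lit 0) (nat_lit 11391837097) (nat_lit 76) (nat_lit 25789109707) (nat_lit 76) (nat_lit 5596083000) (nat_lit 24) (nat_lit 4) (nat_lit 25) (nat_lit 5) (nat_lit 25) (nat_lit 4) (nat_lit 417) (nat_lit 331) (nat_lit 272)))))) (XT.nd (nat_lit 468) (nat_lit 380) (nat_lit 0) (XT.nd (nat_lit 234) (nat_lit 152) (nat_lit 0) (XT.nd (nat_lit 78) (nat_lit 152) (nat_lit 0) (XT.lf (nat_lit 0) (nat_lit 6969148592) (nat_lit 152) (nat_lit 6102926644) (nat_lit 76) (nat_lit 31431935944) (nat_lit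 23) (nat_lit 5) (nat_lit 25) (nat_lit 5) (nat_lit 24) (nat_lit 4) (nat_lit 418) (nat_lit 331) (nat_lit 271)) (XT.nd (nat_lit 78) (nat_lit 76) (nat_lit 0) (XT.lf (nat_lit 0) (nat_lit 20186363989) (nat_lit 152) (nat_lit 25652209504) (nat_lit 0) (nat_lit 472924523) (nat_lit 22) (nat_lit 5) (nat_lit 24) (nat_lit 4) (nat_lit 22) (nat_lit 4) (nat_lit 419) (nat_lit 331) (nat_lit 270)) (XT.lf (nat_lit 0) (nat_lit 431695650) (nat_lit 76) (nat_lit 33768729830) (nat_lit 76) (nat_lit 14004856372) (nat_lit 21) (nat_lit 4) (nat_lit 22) (nat_lit 5) (nat_lit 22) (nat_lit 4) (nat_lit 420) (nat_lit 331) (nat_lit 269)))) (XT.nd (nat_lit 78) (nat_lit 152) (nat_lit 0) (XT.lf (nat_lit 0) (nat_lit 28235561818) (nat_lit 76) (nat_lit 20882014706) (nat_lit 76) (nat_lit 1070108875) (nat_lit 21) (nat_lit 4) (nat_lit 22) (nat_lit 5) (nat_lit 22) (nat_lit 4) (nat_lit 421) (nat_lit 331) (nat_lit 268)) (XT.nd (nat_lit 78) (nat_lit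 0) (nat_lit 0) (XT.lf (nat_lit 0) (nat_lit 5022405845) (nat_lit 76) (nat_lit 7233779767) (nat_lit 152) (nat_lit 40009748904) (nat_lit 19) (nat_lit 5) (nat_lit 20) (nat_lit 5) (nat_lit 21) (nat_lit 4) (nat_lit 422) (nat_lit 331) (nat_lit 267)) (XT.lf (nat_lit 0) (nat_lit 26465193997) (nat_lit 152) (nat_lit 20831806790) (nat_lit 0) (nat_lit 7143623388) (nat_lit 19) (nat_lit 5) (nat_lit 21) (nat_lit 4) (nat_lit 19) (nat_lit 4) (nat_lit 423) (nat_lit 331) (nat_lit 266))))) (XT.nd (nat_lit 234) (nat_lit 152) (nat_lit 0) (XT.nd (nat_lit 78) (nat_lit 152) (nat_lit 0) (XT.lf (nat_lit 0) (nat_lit 6852997562) (nat_lit 76) (nat_lit 34615200223) (nat_lit 76) (nat_lit 15253345954) (nat_lit 18) (nat_lit 4) (nat_lit 19) (nat_lit 5) (nat_lit 19) (nat_lit 4) (nat_lit 424) (nat_lit 331) (nat_lit 265)) (XT.nd (nat_lit 78) (nat_lit 152) (nat_lit 0) (XT.lf (nat_lit 0) (nat_lit 36252249675) (nat_lit 76) (nat_lit 21129829564)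 (nat_lit 76) (nat_lit 1729609905) (nat_lit 18) (nat_lit 4) (nat_lit 19) (nat_lit 5) (nat_lit 19) (nat_lit 4) (nat_lit 425) (nat_lit 331) (nat_lit 264)) (XT.lf (nat_lit 0) (nat_lit 5384174661) (nat_lit 76) (nat_lit 6842885825) (nat_lit 152) (nat_lit 49390684077) (nat_lit 16) (nat_lit 5) (nat_lit 17) (nat_lit 5) (nat_lit 18) (nat_lit 4) (nat_lit 426) (nat_lit 331) (nat_lit 263)))) (XT.nd (nat_lit 156) (nat_lit 152) (nat_lit 0) (XT.nd (nat_lit 78) (nat_lit 0) (nat_lit 0) (XT.lf (nat_lit 0) (nat_lit 27111583181) (nat_lit 152) (nat_lit 28921874385) (nat_lit 0) (nat_lit 8207159233) (nat_lit 16) (nat_lit 5) (nat_lit 18) (nat_lit 4) (nat_lit 16) (nat_lit 4) (nat_lit 427) (nat_lit 331) (nat_lit 262)) (XT.lf (nat_lit 0) (nat_lit 42761195136) (nat_lit 152) (nat_lit 408218028) (nat_lit 0) (nat_lit 23824595006) (nat_lit 16) (nat_lit 5) (nat_lit 18) (nat_lit 4) (nat_lit 16) (nat_lit 4) (nat_lit 428) (nat_lit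 331) (nat_lit 261))) (XT.nd (nat_lit 78) (nat_lit 76) (nat_lit 0) (XT.lf (nat_lit 0) (nat_lit 30027001789) (nat_lit 76) (nat_lit 29409015446) (nat_lit 76) (nat_lit 10441771334) (nat_lit 15) (nat_lit 4) (nat_lit 16) (nat_lit 5) (nat_lit 16) (nat_lit 4) (nat_lit 429) (nat_lit 331) (nat_lit 260)) (XT.lf (nat_lit 0) (nat_lit 3919248757) (nat_lit 152) (nat_lit 11040353879) (nat_lit 76) (nat_lit 57946214742) (nat_lit 14) (nat_lit 5) (nat_lit 16) (nat_lit 5) (nat_lit 15) (nat_lit 4) (nat_lit 430) (nat_lit 331) (nat_lit 259))))))) (XT.nd (nat_lit 47658) (nat_lit 0) (nat_lit 8664) (XT.nd (nat_lit 468) (nat_lit 0) (nat_lit 0) (XT.nd (nat_lit 234) (nat_lit 152) (nat_lit 0) (XT.nd (nat_lit 78) (nat_lit 76) (nat_lit 0) (XT.lf (nat_lit 0) (nat_lit 18932527269) (nat_lit 152) (nat_lit 56682708224) (nat_lit 0) (nat_lit 462407025) (nat_lit 13) (nat_lit 5) (nat_lit 15) (nat_lit 4) (nat_lit 13) (nat_lit 4) (nat_lit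 431) (nat_lit 331) (nat_lit 258)) (XT.nd (nat_lit 78) (nat_lit 76) (nat_lit 0) (XT.lf (nat_lit 0) (nat_lit 34920243485) (nat_lit 152) (nat_lit 28056680521) (nat_lit 0) (nat_lit 16424422828) (nat_lit 13) (nat_lit 5) (nat_lit 15) (nat_lit 4) (nat_lit 13) (nat_lit 4) (nat_lit 432) (nat_lit 331) (nat_lit 257)) (XT.lf (nat_lit 0) (nat_lit 1960220698) (nat_lit 76) (nat_lit 49725974249) (nat_lit 76) (nat_lit 31205677010) (nat_lit 12) (nat_lit 4) (nat_lit 13) (nat_lit 5) (nat_lit 13) (nat_lit 4) (nat_lit 433) (nat_lit 331) (nat_lit 256)))) (XT.nd (nat_lit 78) (nat_lit 152) (nat_lit 0) (XT.lf (nat_lit 0) (nat_lit 33987845558) (nat_lit 76) (nat_lit 35552593609) (nat_lit 76) (nat_lit 17008985339) (nat_lit 12) (nat_lit 4) (nat_lit 13) (nat_lit 5) (nat_lit 13) (nat_lit 4) (nat_lit 434) (nat_lit 331) (nat_lit 255)) (XT.nd (nat_lit 78) (nat_lit 152) (nat_lit 0) (XT.lf (nat_lit 0) (nat_lit 67544067354) (nat_lit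 76) (nat_lit 20706353402) (nat_lit 76) (nat_lit 2140544149) (nat_lit 12) (nat_lit 4) (nat_lit 13) (nat_lit 5) (nat_lit 13) (nat_lit 4) (nat_lit 435) (nat_lit 331) (nat_lit 254)) (XT.lf (nat_lit 0) (nat_lit 8316276791) (nat_lit 76) (nat_lit 4936545787) (nat_lit 152) (nat_lit 81166544488) (nat_lit 10) (nat_lit 5) (nat_lit 11) (nat_lit 5) (nat_lit 12) (nat_lit 4) (nat_lit 436) (nat_lit 331) (nat_lit 253))))) (XT.nd (nat_lit 46956) (nat_lit 0) (nat_lit 15504) (XT.nd (nat_lit 46800) (nat_lit 0) (nat_lit 17936) (XT.lf (nat_lit 0) (nat_lit 29686386053) (nat_lit 152) (nat_lit 57331474252) (nat_lit 0) (nat_lit 11621250141) (nat_lit 10) (nat_lit 5) (nat_lit 12) (nat_lit 4) (nat_lit 10) (nat_lit 4) (nat_lit 437) (nat_lit 331) (nat_lit 252)) (XT.nd (nat_lit 78) (nat_lit 760) (nat_lit 0) (XT.lf (nat_lit 0) (nat_lit 786049857) (nat_lit 1292) (nat_lit 2026848481) (nat_lit 0) (nat_lit 786049857) (nat_lit 256)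 (nat_lit 5) (nat_lit 273) (nat_lit 4) (nat_lit 256) (nat_lit 4) (nat_lit 356) (nat_lit 332) (nat_lit 332)) (XT.lf (nat_lit 0) (nat_lit 96465812) (nat_lit 760) (nat_lit 2478726590) (nat_lit 76) (nat_lit 4722405852) (nat_lit 246) (nat_lit 5) (nat_lit 256) (nat_lit 5) (nat_lit 247) (nat_lit 4) (nat_lit 357) (nat_lit 332) (nat_lit 331)))) (XT.nd (nat_lit 78) (nat_lit 1824) (nat_lit 0) (XT.lf (nat_lit 0) (nat_lit 5829111663) (nat_lit 684) (nat_lit 816936088) (nat_lit 0) (nat_lit 759456566) (nat_lit 238) (nat_lit 5) (nat_lit 247) (nat_lit 4) (nat_lit 238) (nat_lit 4) (nat_lit 358) (nat_lit 332) (nat_lit 330)) (XT.nd (nat_lit 78) (nat_lit 608) (nat_lit 0) (XT.lf (nat_lit 0) (nat_lit 944294009) (nat_lit 532) (nat_lit 3178459473) (nat_lit 608) (nat_lit 3398574540) (nat_lit 222) (nat_lit 5) (nat_lit 229) (nat_lit 5) (nat_lit 230) (nat_lit 4) (nat_lit 359) (nat_lit 332) (nat_lit 329)) (XT.lf (nat_lit 0)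 (nat_lit 2249885564) (nat_lit 608) (nat_lit 4819122318) (nat_lit 76) (nat_lit 576891746) (nat_lit 214) (nat_lit 5) (nat_lit 222) (nat_lit 5) (nat_lit 215) (nat_lit 4) (nat_lit 360) (nat_lit 332) (nat_lit 328)))))) (XT.nd (nat_lit 468) (nat_lit 3344) (nat_lit 0) (XT.nd (nat_lit 234) (nat_lit 1444) (nat_lit 0) (XT.nd (nat_lit 78) (nat_lit 1520) (nat_lit 0) (XT.lf (nat_lit 0) (nat_lit 221839388) (nat_lit 532) (nat_lit 2991013742) (nat_lit 76) (nat_lit 4566019176) (nat_lit 207) (nat_lit 5) (nat_lit 214) (nat_lit 5) (nat_lit 208) (nat_lit 5) (nat_lit 361) (nat_lit 332) (nat_lit 327)) (XT.nd (nat_lit 78) (nat_lit 988) (nat_lit 0) (XT.lf (nat_lit 0) (nat_lit 5889410926) (nat_lit 608) (nat_lit 1088891625) (nat_lit 76) (nat_lit 942257467) (nat_lit 200) (nat_lit 5) (nat_lit 208) (nat_lit 5) (nat_lit 201) (nat_lit 4) (nat_lit 362) (nat_lit 332) (nat_lit 326)) (XT.lf (nat_lit 0) (nat_lit 897890944) (nat_lit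 456) (nat_lit 2719891445) (nat_lit 532) (nat_lit 4452927752) (nat_lit 187) (nat_lit 5) (nat_lit 193) (nat_lit 5) (nat_lit 194) (nat_lit 5) (nat_lit 363) (nat_lit 332) (nat_lit 325)))) (XT.nd (nat_lit 78) (nat_lit 912) (nat_lit 0) (XT.lf (nat_lit 0) (nat_lit 1170450625) (nat_lit 532) (nat_lit 5237426968) (nat_lit 76) (nat_lit 1822107095) (nat_lit 180) (nat_lit 5) (nat_lit 187) (nat_lit 5) (nat_lit 181) (nat_lit 5) (nat_lit 364) (nat_lit 332) (nat_lit 324)) (XT.nd (nat_lit 78) (nat_lit 456) (nat_lit 0) (XT.lf (nat_lit 0) (nat_lit 5149565414) (nat_lit 456) (nat_lit 1757241144) (nat_lit 532) (nat_lit 1491443358) (nat_lit 174) (nat_lit 5) (nat_lit 180) (nat_lit 5) (nat_lit 181) (nat_lit 5) (nat_lit 365) (nat_lit 332) (nat_lit 323)) (XT.lf (nat_lit 0) (nat_lit 4204024459) (nat_lit 456) (nat_lit 1208431289) (nat_lit 76) (nat_lit 3163259738) (nat_lit 168) (nat_lit 5) (nat_lit 174) (nat_lit 5) (nat_lit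 169) (nat_lit 5) (nat_lit 366) (nat_lit 332) (nat_lit 322))))) (XT.nd (nat_lit 234) (nat_lit 1748) (nat_lit 0) (XT.nd (nat_lit 78) (nat_lit 760) (nat_lit 0) (XT.lf (nat_lit 0) (nat_lit 926186272) (nat_lit 380) (nat_lit 376030245) (nat_lit 456) (nat_lit 7460923441) (nat_lit 157) (nat_lit 5) (nat_lit 162) (nat_lit 5) (nat_lit 163) (nat_lit 5) (nat_lit 367) (nat_lit 332) (nat_lit 321)) (XT.nd (nat_lit 78) (nat_lit 380) (nat_lit 0) (XT.lf (nat_lit 0) (nat_lit 3114867354) (nat_lit 380) (nat_lit 4033543728) (nat_lit 456) (nat_lit 1810910185) (nat_lit 152) (nat_lit 5) (nat_lit 157) (nat_lit 5) (nat_lit 158) (nat_lit 5) (nat_lit 368) (nat_lit 332) (nat_lit 320)) (XT.lf (nat_lit 0) (nat_lit 3983366264) (nat_lit 380) (nat_lit 3798971890) (nat_lit 76) (nat_lit 1383569401) (nat_lit 147) (nat_lit 5) (nat_lit 152) (nat_lit 5) (nat_lit 148) (nat_lit 5) (nat_lit 369) (nat_lit 332) (nat_lit 319)))) (XT.nd (nat_lit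 156) (nat_lit 684) (nat_lit 0) (XT.nd (nat_lit 78) (nat_lit 608) (nat_lit 0) (XT.lf (nat_lit 0) (nat_lit 608280782) (nat_lit 456) (nat_lit 1710675268) (nat_lit 76) (nat_lit 7063989886) (nat_lit 141) (nat_lit 5) (nat_lit 147) (nat_lit 5) (nat_lit 142) (nat_lit 5) (nat_lit 370) (nat_lit 332) (nat_lit 318)) (XT.lf (nat_lit 0) (nat_lit 405548815) (nat_lit 304) (nat_lit 6153582955) (nat_lit 380) (nat_lit 3050879176) (nat_lit 133) (nat_lit 5) (nat_lit 137) (nat_lit 5) (nat_lit 138) (nat_lit 5) (nat_lit 371) (nat_lit 332) (nat_lit 317))) (XT.nd (nat_lit 78) (nat_lit 304) (nat_lit 0) (XT.lf (nat_lit 0) (nat_lit 2607889709) (nat_lit 304) (nat_lit 279583684) (nat_lit 380) (nat_lit 6960559745) (nat_lit 128) (nat_lit 5) (nat_lit 132) (nat_lit 5) (nat_lit 133) (nat_lit 5) (nat_lit 372) (nat_lit 332) (nat_lit 316)) (XT.lf (nat_lit 0) (nat_lit 4823807217) (nat_lit 304) (nat_lit 4244753095) (nat_lit 380) (nat_lit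 1028261443) (nat_lit 124) (nat_lit 5) (nat_lit 128) (nat_lit 5) (nat_lit 129) (nat_lit 5) (nat_lit 373) (nat_lit 332) (nat_lit 315))))))))
noncomputable def xc34 : XT := (XT.nd (nat_lit 1950) (nat_lit 2280) (nat_lit 0) (XT.nd (nat_lit 936) (nat_lit 2204) (nat_lit 0) (XT.nd (nat_lit 468) (nat_lit 1520) (nat_lit 0) (XT.nd (nat_lit 234) (nat_lit 836) (nat_lit 0) (XT.nd (nat_lit 78) (nat_lit 836) (nat_lit 0) (XT.lf (nat_lit 0) (nat_lit 5079011511) (nat_lit 304) (nat_lit 3291598996) (nat_lit 76) (nat_lit 1986580233) (nat_lit 120) (nat_lit 5) (nat_lit 124) (nat_lit 5) (nat_lit 121) (nat_lit 5) (nat_lit 374) (nat_lit 332) (nat_lit 314)) (XT.nd (nat_lit 78) (nat_lit 456) (nat_lit 0) (XT.lf (nat_lit 0) (nat_lit 830892280) (nat_lit 380) (nat_lit 1288994558) (nat_lit 76) (nat_lit 8509961624) (nat_lit 115) (nat_lit 5) (nat_lit 120) (nat_lit 5) (nat_lit 116) (nat_lit 5) (nat_lit 375) (nat_lit 332) (nat_lit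 313)) (XT.lf (nat_lit 0) (nat_lit 709805204) (nat_lit 228) (nat_lit 6447880054) (nat_lit 304) (nat_lit 3756274868) (nat_lit 109) (nat_lit 5) (nat_lit 112) (nat_lit 5) (nat_lit 113) (nat_lit 5) (nat_lit 376) (nat_lit 332) (nat_lit 312)))) (XT.nd (nat_lit 78) (nat_lit 532) (nat_lit 0) (XT.lf (nat_lit 0) (nat_lit 2549793754) (nat_lit 304) (nat_lit 8451038598) (nat_lit 76) (nat_lit 210374897) (nat_lit 105) (nat_lit 5) (nat_lit 109) (nat_lit 5) (nat_lit 106) (nat_lit 5) (nat_lit 377) (nat_lit 332) (nat_lit 311)) (XT.nd (nat_lit 78) (nat_lit 304) (nat_lit 0) (XT.lf (nat_lit 0) (nat_lit 4776424256) (nat_lit 228) (nat_lit 4363636684) (nat_lit 304) (nat_lit 2380770552) (nat_lit 102) (nat_lit 5) (nat_lit 105) (nat_lit 5) (nat_lit 106) (nat_lit 5) (nat_lit 378) (nat_lit 332) (nat_lit 310)) (XT.lf (nat_lit 0) (nat_lit 4143663871) (nat_lit 304) (nat_lit 5054828925) (nat_lit 76) (nat_lit 2645895125) (nat_lit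 98) (nat_lit 5) (nat_lit 102) (nat_lit 5) (nat_lit 99) (nat_lit 5) (nat_lit 379) (nat_lit 332) (nat_lit 309))))) (XT.nd (nat_lit 234) (nat_lit 836) (nat_lit 0) (XT.nd (nat_lit 78) (nat_lit 456) (nat_lit 0) (XT.lf (nat_lit 0) (nat_lit 8791995819) (nat_lit 228) (nat_lit 2189294237) (nat_lit 304) (nat_lit 1201063291) (nat_lit 95) (nat_lit 5) (nat_lit 98) (nat_lit 5) (nat_lit 99) (nat_lit 5) (nat_lit 380) (nat_lit 332) (nat_lit 308)) (XT.nd (nat_lit 78) (nat_lit 228) (nat_lit 0) (XT.lf (nat_lit 0) (nat_lit 5561626290) (nat_lit 228) (nat_lit 1794704985) (nat_lit 76) (nat_lit 5177853313) (nat_lit 92) (nat_lit 5) (nat_lit 95) (nat_lit 5) (nat_lit 93) (nat_lit 5) (nat_lit 381) (nat_lit 332) (nat_lit 307)) (XT.lf (nat_lit 0) (nat_lit 12662391571) (nat_lit 304) (nat_lit 207018261) (nat_lit 76) (nat_lit 33119019) (nat_lit 89) (nat_lit 5) (nat_lit 93) (nat_lit 5) (nat_lit 90) (nat_lit 4) (nat_lit 382) (nat_lit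 332) (nat_lit 306)))) (XT.nd (nat_lit 78) (nat_lit 380) (nat_lit 0) (XT.lf (nat_lit 0) (nat_lit 1283998564) (nat_lit 228) (nat_lit 5506946756) (nat_lit 304) (nat_lit 6493536800) (nat_lit 83) (nat_lit 5) (nat_lit 86) (nat_lit 5) (nat_lit 87) (nat_lit 5) (nat_lit 383) (nat_lit 332) (nat_lit 305)) (XT.nd (nat_lit 78) (nat_lit 152) (nat_lit 0) (XT.lf (nat_lit 0) (nat_lit 509127075) (nat_lit 228) (nat_lit 10928059618) (nat_lit 76) (nat_lit 2247092165) (nat_lit 80) (nat_lit 5) (nat_lit 83) (nat_lit 5) (nat_lit 81) (nat_lit 5) (nat_lit 384) (nat_lit 332) (nat_lit 304)) (XT.lf (nat_lit 0) (nat_lit 4101823264) (nat_lit 152) (nat_lit 3698723600) (nat_lit 228) (nat_lit 6299419848) (nat_lit 78) (nat_lit 5) (nat_lit 80) (nat_lit 5) (nat_lit 81) (nat_lit 5) (nat_lit 385) (nat_lit 332) (nat_lit 303)))))) (XT.nd (nat_lit 468) (nat_lit 1064) (nat_lit 0) (XT.nd (nat_lit 234) (nat_lit 532) (nat_lit 0) (XT.nd (nat_lit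 78) (nat_lit 380) (nat_lit 0) (XT.lf (nat_lit 0) (nat_lit 966231636) (nat_lit 228) (nat_lit 9157044795) (nat_lit 76) (nat_lit 4410990866) (nat_lit 75) (nat_lit 5) (nat_lit 78) (nat_lit 5) (nat_lit 76) (nat_lit 5) (nat_lit 386) (nat_lit 332) (nat_lit 302)) (XT.nd (nat_lit 78) (nat_lit 228) (nat_lit 0) (XT.lf (nat_lit 0) (nat_lit 6519834092) (nat_lit 152) (nat_lit 2008855022) (nat_lit 228) (nat_lit 6457824047) (nat_lit 73) (nat_lit 5) (nat_lit 75) (nat_lit 5) (nat_lit 76) (nat_lit 5) (nat_lit 387) (nat_lit 332) (nat_lit 301)) (XT.lf (nat_lit 0) (nat_lit 1081573734) (nat_lit 228) (nat_lit 7916537365) (nat_lit 76) (nat_lit 6460183613) (nat_lit 70) (nat_lit 5) (nat_lit 73) (nat_lit 5) (nat_lit 71) (nat_lit 5) (nat_lit 388) (nat_lit 332) (nat_lit 300)))) (XT.nd (nat_lit 78) (nat_lit 380) (nat_lit 0) (XT.lf (nat_lit 0) (nat_lit 8414127992) (nat_lit 152) (nat_lit 505677192) (nat_lit 228) (nat_lit 7030293012)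 (nat_lit 68) (nat_lit 5) (nat_lit 70) (nat_lit 5) (nat_lit 71) (nat_lit 5) (nat_lit 389) (nat_lit 332) (nat_lit 299)) (XT.nd (nat_lit 78) (nat_lit 152) (nat_lit 0) (XT.lf (nat_lit 0) (nat_lit 790337297) (nat_lit 228) (nat_lit 7347915775) (nat_lit 76) (nat_lit 8324447796) (nat_lit 65) (nat_lit 5) (nat_lit 68) (nat_lit 5) (nat_lit 66) (nat_lit 5) (nat_lit 390) (nat_lit 332) (nat_lit 298)) (XT.lf (nat_lit 0) (nat_lit 8912051304) (nat_lit 228) (nat_lit 7368384707) (nat_lit 76) (nat_lit 716758009) (nat_lit 63) (nat_lit 5) (nat_lit 66) (nat_lit 5) (nat_lit 64) (nat_lit 4) (nat_lit 391) (nat_lit 332) (nat_lit 297))))) (XT.nd (nat_lit 234) (nat_lit 608) (nat_lit 0) (XT.nd (nat_lit 78) (nat_lit 228) (nat_lit 0) (XT.lf (nat_lit 0) (nat_lit 13041746) (nat_lit 228) (nat_lit 7620216234) (nat_lit 76) (nat_lit 9921320496) (nat_lit 60) (nat_lit 5) (nat_lit 63) (nat_lit 5) (nat_lit 61) (nat_lit 5) (nat_lit 392)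 (nat_lit 332) (nat_lit 296)) (XT.nd (nat_lit 78) (nat_lit 76) (nat_lit 0) (XT.lf (nat_lit 0) (nat_lit 8415382511) (nat_lit 228) (nat_lit 8143945241) (nat_lit 76) (nat_lit 1576119666) (nat_lit 58) (nat_lit 5) (nat_lit 61) (nat_lit 5) (nat_lit 59) (nat_lit 4) (nat_lit 393) (nat_lit 332) (nat_lit 295)) (XT.lf (nat_lit 0) (nat_lit 9792912717) (nat_lit 76) (nat_lit 7574818394) (nat_lit 152) (nat_lit 1373742064) (nat_lit 57) (nat_lit 5) (nat_lit 58) (nat_lit 5) (nat_lit 59) (nat_lit 4) (nat_lit 394) (nat_lit 332) (nat_lit 294)))) (XT.nd (nat_lit 156) (nat_lit 304) (nat_lit 0) (XT.nd (nat_lit 78) (nat_lit 76) (nat_lit 0) (XT.lf (nat_lit 0) (nat_lit 7321255690) (nat_lit 228) (nat_lit 10078368942) (nat_lit 76) (nat_lit 1973786967) (nat_lit 54) (nat_lit 5) (nat_lit 57) (nat_lit 5) (nat_lit 55) (nat_lit 4) (nat_lit 395) (nat_lit 332) (nat_lit 293)) (XT.lf (nat_lit 0) (nat_lit 8464831856) (nat_lit 76) (nat_lit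 8093559704) (nat_lit 152) (nat_lit 3474082250) (nat_lit 53) (nat_lit 5) (nat_lit 54) (nat_lit 5) (nat_lit 55) (nat_lit 4) (nat_lit 396) (nat_lit 332) (nat_lit 292))) (XT.nd (nat_lit 78) (nat_lit 76) (nat_lit 0) (XT.lf (nat_lit 0) (nat_lit 5504448316) (nat_lit 228) (nat_lit 13434682981) (nat_lit 76) (nat_lit 1781384887) (nat_lit 50) (nat_lit 5) (nat_lit 53) (nat_lit 5) (nat_lit 51) (nat_lit 4) (nat_lit 397) (nat_lit 332) (nat_lit 291)) (XT.lf (nat_lit 0) (nat_lit 5671745651) (nat_lit 76) (nat_lit 9335046841) (nat_lit 152) (nat_lit 6430742013) (nat_lit 49) (nat_lit 5) (nat_lit 50) (nat_lit 5) (nat_lit 51) (nat_lit 4) (nat_lit 398) (nat_lit 332) (nat_lit 290))))))) (XT.nd (nat_lit 936) (nat_lit 912) (nat_lit 0) (XT.nd (nat_lit 468) (nat_lit 532) (nat_lit 0) (XT.nd (nat_lit 234) (nat_lit 532) (nat_lit 0) (XT.nd (nat_lit 78) (nat_lit 76) (nat_lit 0) (XT.lf (nat_lit 0) (nat_lit 2814450482) (nat_lit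 228) (nat_lit 18526124892) (nat_lit 76) (nat_lit 846776367) (nat_lit 46) (nat_lit 5) (nat_lit 49) (nat_lit 5) (nat_lit 47) (nat_lit 4) (nat_lit 399) (nat_lit 332) (nat_lit 289)) (XT.nd (nat_lit 78) (nat_lit 0) (nat_lit 0) (XT.lf (nat_lit 0) (nat_lit 1081537361) (nat_lit 76) (nat_lit 11471388359) (nat_lit 152) (nat_lit 10414910267) (nat_lit 45) (nat_lit 5) (nat_lit 46) (nat_lit 5) (nat_lit 47) (nat_lit 4) (nat_lit 400) (nat_lit 332) (nat_lit 288)) (XT.lf (nat_lit 0) (nat_lit 21864309074) (nat_lit 76) (nat_lit 1002176477) (nat_lit 152) (nat_lit 918220634) (nat_lit 45) (nat_lit 5) (nat_lit 46) (nat_lit 5) (nat_lit 47) (nat_lit 4) (nat_lit 401) (nat_lit 332) (nat_lit 287)))) (XT.nd (nat_lit 78) (nat_lit 304) (nat_lit 0) (XT.lf (nat_lit 0) (nat_lit 9059922885) (nat_lit 228) (nat_lit 5589997014) (nat_lit 76) (nat_lit 9984396829) (nat_lit 42) (nat_lit 5) (nat_lit 45) (nat_lit 5) (nat_lit 43) (nat_lit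 4) (nat_lit 402) (nat_lit 332) (nat_lit 286)) (XT.nd (nat_lit 78) (nat_lit 228) (nat_lit 0) (XT.lf (nat_lit 0) (nat_lit 15675924757) (nat_lit 76) (nat_lit 3926520253) (nat_lit 152) (nat_lit 5921161981) (nat_lit 41) (nat_lit 5) (nat_lit 42) (nat_lit 5) (nat_lit 43) (nat_lit 4) (nat_lit 403) (nat_lit 332) (nat_lit 285)) (XT.lf (nat_lit 0) (nat_lit 4280072838) (nat_lit 228) (nat_lit 14851247502) (nat_lit 76) (nat_lit 7320403755) (nat_lit 38) (nat_lit 5) (nat_lit 41) (nat_lit 5) (nat_lit 39) (nat_lit 4) (nat_lit 404) (nat_lit 332) (nat_lit 284))))) (XT.nd (nat_lit 234) (nat_lit 304) (nat_lit 0) (XT.nd (nat_lit 78) (nat_lit 152) (nat_lit 0) (XT.lf (nat_lit 0) (nat_lit 6759634584) (nat_lit 76) (nat_lit 8224928499) (nat_lit 152) (nat_lit 12436460728) (nat_lit 37) (nat_lit 5) (nat_lit 38) (nat_lit 5) (nat_lit 39) (nat_lit 4) (nat_lit 405) (nat_lit 332) (nat_lit 283)) (XT.nd (nat_lit 78) (nat_lit 76)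 (nat_lit 0) (XT.lf (nat_lit 0) (nat_lit 1144624560) (nat_lit 76) (nat_lit 25185584663) (nat_lit 76) (nat_lit 2105406196) (nat_lit 36) (nat_lit 4) (nat_lit 37) (nat_lit 5) (nat_lit 37) (nat_lit 4) (nat_lit 406) (nat_lit 332) (nat_lit 282)) (XT.lf (nat_lit 0) (nat_lit 8780764107) (nat_lit 152) (nat_lit 5360225335) (nat_lit 76) (nat_lit 15351155941) (nat_lit 35) (nat_lit 5) (nat_lit 37) (nat_lit 5) (nat_lit 36) (nat_lit 4) (nat_lit 407) (nat_lit 332) (nat_lit 281)))) (XT.nd (nat_lit 78) (nat_lit 228) (nat_lit 0) (XT.lf (nat_lit 0) (nat_lit 17832651812) (nat_lit 76) (nat_lit 2422435078) (nat_lit 152) (nat_lit 10343172247) (nat_lit 34) (nat_lit 5) (nat_lit 35) (nat_lit 5) (nat_lit 36) (nat_lit 4) (nat_lit 408) (nat_lit 332) (nat_lit 280)) (XT.nd (nat_lit 78) (nat_lit 76) (nat_lit 0) (XT.lf (nat_lit 0) (nat_lit 703427834) (nat_lit 152) (nat_lit 21271469517) (nat_lit 76) (nat_lit 9779510898) (nat_lit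 32) (nat_lit 5) (nat_lit 34) (nat_lit 5) (nat_lit 33) (nat_lit 4) (nat_lit 409) (nat_lit 332) (nat_lit 279)) (XT.lf (nat_lit 0) (nat_lit 1948774624) (nat_lit 76) (nat_lit 10236576158) (nat_lit 152) (nat_lit 20777038401) (nat_lit 31) (nat_lit 5) (nat_lit 32) (nat_lit 5) (nat_lit 33) (nat_lit 4) (nat_lit 410) (nat_lit 332) (nat_lit 278)))))) (XT.nd (nat_lit 468) (nat_lit 456) (nat_lit 0) (XT.nd (nat_lit 234) (nat_lit 228) (nat_lit 0) (XT.nd (nat_lit 78) (nat_lit 228) (nat_lit 0) (XT.lf (nat_lit 0) (nat_lit 24403318822) (nat_lit 152) (nat_lit 7624474304) (nat_lit 0) (nat_lit 2198121150) (nat_lit 31) (nat_lit 5) (nat_lit 33) (nat_lit 4) (nat_lit 31) (nat_lit 4) (nat_lit 411) (nat_lit 332) (nat_lit 277)) (XT.nd (nat_lit 78) (nat_lit 76) (nat_lit 0) (XT.lf (nat_lit 0) (nat_lit 1840097607) (nat_lit 152) (nat_lit 18547345654) (nat_lit 76) (nat_lit 15158892247) (nat_lit 29) (nat_lit 5) (nat_lit 31) (nat_lit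 5) (nat_lit 30) (nat_lit 4) (nat_lit 412) (nat_lit 332) (nat_lit 276)) (XT.lf (nat_lit 0) (nat_lit 5956225595) (nat_lit 76) (nat_lit 7990977777) (nat_lit 152) (nat_lit 22980727250) (nat_lit 28) (nat_lit 5) (nat_lit 29) (nat_lit 5) (nat_lit 30) (nat_lit 4) (nat_lit 413) (nat_lit 332) (nat_lit 275)))) (XT.nd (nat_lit 78) (nat_lit 228) (nat_lit 0) (XT.lf (nat_lit 0) (nat_lit 26828356375) (nat_lit 152) (nat_lit 6490557196) (nat_lit 0) (nat_lit 5054634165) (nat_lit 28) (nat_lit 5) (nat_lit 30) (nat_lit 4) (nat_lit 28) (nat_lit 4) (nat_lit 414) (nat_lit 332) (nat_lit 274)) (XT.nd (nat_lit 78) (nat_lit 76) (nat_lit 0) (XT.lf (nat_lit 0) (nat_lit 653012081) (nat_lit 152) (nat_lit 20513143859) (nat_lit 76) (nat_lit 18719162024) (nat_lit 26) (nat_lit 5) (nat_lit 28) (nat_lit 5) (nat_lit 27) (nat_lit 4) (nat_lit 415) (nat_lit 332) (nat_lit 273)) (XT.lf (nat_lit 0) (nat_lit 5043327260) (nat_lit 76) (nat_lit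 8229591388) (nat_lit 152) (nat_lit 28194814477) (nat_lit 25) (nat_lit 5) (nat_lit 26) (nat_lit 5) (nat_lit 27) (nat_lit 4) (nat_lit 416) (nat_lit 332) (nat_lit 272))))) (XT.nd (nat_lit 234) (nat_lit 304) (nat_lit 0) (XT.nd (nat_lit 78) (nat_lit 152) (nat_lit 0) (XT.lf (nat_lit 0) (nat_lit 26722335811) (nat_lit 152) (nat_lit 10998729266) (nat_lit 0) (nat_lit 5402251029) (nat_lit 25) (nat_lit 5) (nat_lit 27) (nat_lit 4) (nat_lit 25) (nat_lit 4) (nat_lit 417) (nat_lit 332) (nat_lit 271)) (XT.nd (nat_lit 78) (nat_lit 76) (nat_lit 0) (XT.lf (nat_lit 0) (nat_lit 15801097837) (nat_lit 76) (nat_lit 25215027450) (nat_lit 76) (nat_lit 3840398305) (nat_lit 24) (nat_lit 4) (nat_lit 25) (nat_lit 5) (nat_lit 25) (nat_lit 4) (nat_lit 418) (nat_lit 332) (nat_lit 270)) (XT.lf (nat_lit 0) (nat_lit 9218338523) (nat_lit 152) (nat_lit 2713348954) (nat_lit 76) (nat_lit 34740434078) (nat_lit 23) (nat_lit 5) (nat_lit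 25) (nat_lit 5) (nat_lit 24) (nat_lit 4) (nat_lit 419) (nat_lit 332) (nat_lit 269)))) (XT.nd (nat_lit 156) (nat_lit 152) (nat_lit 0) (XT.nd (nat_lit 78) (nat_lit 76) (nat_lit 0) (XT.lf (nat_lit 0) (nat_lit 23057166827) (nat_lit 152) (nat_lit 23307363257) (nat_lit 0) (nat_lit 2206633332) (nat_lit 22) (nat_lit 5) (nat_lit 24) (nat_lit 4) (nat_lit 22) (nat_lit 4) (nat_lit 420) (nat_lit 332) (nat_lit 268)) (XT.lf (nat_lit 0) (nat_lit 3976756835) (nat_lit 76) (nat_lit 33740402242) (nat_lit 76) (nat_lit 12844123629) (nat_lit 21) (nat_lit 4) (nat_lit 22) (nat_lit 5) (nat_lit 22) (nat_lit 4) (nat_lit 421) (nat_lit 332) (nat_lit 267))) (XT.nd (nat_lit 78) (nat_lit 76) (nat_lit 0) (XT.lf (nat_lit 0) (nat_lit 636084039) (nat_lit 152) (nat_lit 19648594792) (nat_lit 76) (nat_lit 32360524480) (nat_lit 20) (nat_lit 5) (nat_lit 22) (nat_lit 5) (nat_lit 21) (nat_lit 4) (nat_lit 422) (nat_lit 332) (nat_lit 266))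 (XT.lf (nat_lit 0) (nat_lit 8566676991) (nat_lit 76) (nat_lit 5988995202) (nat_lit 152) (nat_lit 40272904248) (nat_lit 19) (nat_lit 5) (nat_lit 20) (nat_lit 5) (nat_lit 21) (nat_lit 4) (nat_lit 423) (nat_lit 332) (nat_lit 265))))))))
noncomputable def xc35 : XT := (XT.nd (nat_lit 48516) (nat_lit 0) (nat_lit 4560) (XT.nd (nat_lit 936) (nat_lit 152) (nat_lit 0) (XT.nd (nat_lit 468) (nat_lit 228) (nat_lit 0) (XT.nd (nat_lit 234) (nat_lit 228) (nat_lit 0) (XT.nd (nat_lit 78) (nat_lit 76) (nat_lit 0) (XT.lf (nat_lit 0) (nat_lit 29409520084) (nat_lit 152) (nat_lit 18703527370) (nat_lit 0) (nat_lit 9000924051) (nat_lit 19) (nat_lit 5) (nat_lit 21) (nat_lit 4) (nat_lit 19) (nat_lit 4) (nat_lit 424) (nat_lit 332) (nat_lit 264)) (XT.nd (nat_lit 78) (nat_lit 0) (nat_lit 0) (XT.lf (nat_lit 0) (nat_lit 10274653519) (nat_lit 76) (nat_lit 34840424194) (nat_lit 76) (nat_lit 14395289694) (nat_lit 18) (nat_lit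 4) (nat_lit 19) (nat_lit 5) (nat_lit 19) (nat_lit 4) (nat_lit 425) (nat_lit 332) (nat_lit 263)) (XT.lf (nat_lit 0) (nat_lit 40997248901) (nat_lit 76) (nat_lit 20752477195) (nat_lit 76) (nat_lit 272544155) (nat_lit 18) (nat_lit 4) (nat_lit 19) (nat_lit 5) (nat_lit 19) (nat_lit 4) (nat_lit 426) (nat_lit 332) (nat_lit 262)))) (XT.nd (nat_lit 78) (nat_lit 76) (nat_lit 0) (XT.lf (nat_lit 0) (nat_lit 8531015001) (nat_lit 76) (nat_lit 5776418254) (nat_lit 152) (nat_lit 50347084428) (nat_lit 16) (nat_lit 5) (nat_lit 17) (nat_lit 5) (nat_lit 18) (nat_lit 4) (nat_lit 427) (nat_lit 332) (nat_lit 261)) (XT.nd (nat_lit 78) (nat_lit 76) (nat_lit 0) (XT.lf (nat_lit 0) (nat_lit 29879124420) (nat_lit 152) (nat_lit 27598248793) (nat_lit 0) (nat_lit 9932874120) (nat_lit 16) (nat_lit 5) (nat_lit 18) (nat_lit 4) (nat_lit 16) (nat_lit 4) (nat_lit 428) (nat_lit 332) (nat_lit 260)) (XT.lf (nat_lit 0) (nat_lit 2253166377)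 (nat_lit 76) (nat_lit 44012473118) (nat_lit 76) (nat_lit 24037038074) (nat_lit 15) (nat_lit 4) (nat_lit 16) (nat_lit 5) (nat_lit 16) (nat_lit 4) (nat_lit 429) (nat_lit 332) (nat_lit 259))))) (XT.nd (nat_lit 234) (nat_lit 76) (nat_lit 0) (XT.nd (nat_lit 78) (nat_lit 152) (nat_lit 0) (XT.lf (nat_lit 0) (nat_lit 34090566986) (nat_lit 76) (nat_lit 29622571918) (nat_lit 76) (nat_lit 9619341878) (nat_lit 15) (nat_lit 4) (nat_lit 16) (nat_lit 5) (nat_lit 16) (nat_lit 4) (nat_lit 430) (nat_lit 332) (nat_lit 258)) (XT.nd (nat_lit 78) (nat_lit 76) (nat_lit 0) (XT.lf (nat_lit 0) (nat_lit 5370717512) (nat_lit 152) (nat_lit 9127144912) (nat_lit 76) (nat_lit 62015545873) (nat_lit 14) (nat_lit 5) (nat_lit 16) (nat_lit 5) (nat_lit 15) (nat_lit 4) (nat_lit 431) (nat_lit 332) (nat_lit 257)) (XT.lf (nat_lit 0) (nat_lit 21109194656) (nat_lit 152) (nat_lit 57096989682) (nat_lit 0) (nat_lit 1638405973) (nat_lit 13)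 (nat_lit 5) (nat_lit 15) (nat_lit 4) (nat_lit 13) (nat_lit 4) (nat_lit 432) (nat_lit 332) (nat_lit 256)))) (XT.nd (nat_lit 78) (nat_lit 76) (nat_lit 0) (XT.lf (nat_lit 0) (nat_lit 37837723300) (nat_lit 152) (nat_lit 27154891733) (nat_lit 0) (nat_lit 18343623585) (nat_lit 13) (nat_lit 5) (nat_lit 15) (nat_lit 4) (nat_lit 13) (nat_lit 4) (nat_lit 433) (nat_lit 332) (nat_lit 255)) (XT.nd (nat_lit 78) (nat_lit 0) (nat_lit 0) (XT.lf (nat_lit 0) (nat_lit 4296792996) (nat_lit 76) (nat_lit 51110913587) (nat_lit 76) (nat_lit 31594612890) (nat_lit 12) (nat_lit 4) (nat_lit 13) (nat_lit 5) (nat_lit 13) (nat_lit 4) (nat_lit 434) (nat_lit 332) (nat_lit 254)) (XT.lf (nat_lit 0) (nat_lit 37819200944) (nat_lit 76) (nat_lit 36281309599) (nat_lit 76) (nat_lit 16743865110) (nat_lit 12) (nat_lit 4) (nat_lit 13) (nat_lit 5) (nat_lit 13) (nat_lit 4) (nat_lit 435) (nat_lit 332) (nat_lit 253)))))) (XT.nd (nat_lit 47034)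 (nat_lit 0) (nat_lit 12920) (XT.nd (nat_lit 46800) (nat_lit 0) (nat_lit 17936) (XT.nd (nat_lit 78) (nat_lit 152) (nat_lit 0) (XT.lf (nat_lit 0) (nat_lit 72951711777) (nat_lit 76) (nat_lit 20742705652) (nat_lit 76) (nat_lit 1185124218) (nat_lit 12) (nat_lit 4) (nat_lit 13) (nat_lit 5) (nat_lit 13) (nat_lit 4) (nat_lit 436) (nat_lit 332) (nat_lit 252)) (XT.nd (nat_lit 46644) (nat_lit 0) (nat_lit 21128) (XT.lf (nat_lit 0) (nat_lit 10724493070) (nat_lit 76) (nat_lit 4202232322) (nat_lit 152) (nat_lit 84183246995) (nat_lit 10) (nat_lit 5) (nat_lit 11) (nat_lit 5) (nat_lit 12) (nat_lit 4) (nat_lit 437) (nat_lit 332) (nat_lit 251)) (XT.lf (nat_lit 0) (nat_lit 67048794) (nat_lit 1140) (nat_lit 3375816584) (nat_lit 0) (nat_lit 67048794) (nat_lit 288) (nat_lit 5) (nat_lit 303) (nat_lit 4) (nat_lit 288) (nat_lit 4) (nat_lit 354) (nat_lit 333) (nat_lit 333)))) (XT.nd (nat_lit 78) (nat_lit 2052) (nat_lit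 0) (XT.lf (nat_lit 0) (nat_lit 1573062740) (nat_lit 1140) (nat_lit 4212983207) (nat_lit 1140) (nat_lit 1320455015) (nat_lit 273) (nat_lit 4) (nat_lit 288) (nat_lit 5) (nat_lit 288) (nat_lit 4) (nat_lit 355) (nat_lit 333) (nat_lit 332)) (XT.nd (nat_lit 78) (nat_lit 760) (nat_lit 0) (XT.lf (nat_lit 0) (nat_lit 2990981225) (nat_lit 1216) (nat_lit 1264338071) (nat_lit 1292) (nat_lit 2946386273) (nat_lit 256) (nat_lit 5) (nat_lit 272) (nat_lit 5) (nat_lit 273) (nat_lit 4) (nat_lit 356) (nat_lit 333) (nat_lit 331)) (XT.lf (nat_lit 0) (nat_lit 2576489613) (nat_lit 760) (nat_lit 2799750633) (nat_lit 76) (nat_lit 1928860598) (nat_lit 246) (nat_lit 5) (nat_lit 256) (nat_lit 5) (nat_lit 247) (nat_lit 4) (nat_lit 357) (nat_lit 333) (nat_lit 330))))) (XT.nd (nat_lit 234) (nat_lit 2584) (nat_lit 0) (XT.nd (nat_lit 78) (nat_lit 1748) (nat_lit 0) (XT.lf (nat_lit 0) (nat_lit 738242924) (nat_lit 684) (nat_lit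 1294957596) (nat_lit 76) (nat_lit 5383808980) (nat_lit 237) (nat_lit 5) (nat_lit 246) (nat_lit 5) (nat_lit 238) (nat_lit 5) (nat_lit 358) (nat_lit 333) (nat_lit 329)) (XT.nd (nat_lit 78) (nat_lit 608) (nat_lit 0) (XT.lf (nat_lit 0) (nat_lit 295341351) (nat_lit 532) (nat_lit 5955795746) (nat_lit 608) (nat_lit 1285952951) (nat_lit 222) (nat_lit 5) (nat_lit 229) (nat_lit 5) (nat_lit 230) (nat_lit 4) (nat_lit 359) (nat_lit 333) (nat_lit 328)) (XT.lf (nat_lit 0) (nat_lit 1991210263) (nat_lit 532) (nat_lit 2194747196) (nat_lit 608) (nat_lit 3479197899) (nat_lit 214) (nat_lit 5) (nat_lit 221) (nat_lit 5) (nat_lit 222) (nat_lit 5) (nat_lit 360) (nat_lit 333) (nat_lit 327)))) (XT.nd (nat_lit 156) (nat_lit 1520) (nat_lit 0) (XT.nd (nat_lit 78) (nat_lit 532) (nat_lit 0) (XT.lf (nat_lit 0) (nat_lit 1951830536) (nat_lit 532) (nat_lit 4024112402) (nat_lit 76) (nat_lit 1826154898) (nat_lit 207) (nat_lit 5)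 (nat_lit 214) (nat_lit 5) (nat_lit 208) (nat_lit 5) (nat_lit 361) (nat_lit 333) (nat_lit 326)) (XT.lf (nat_lit 0) (nat_lit 5647155662) (nat_lit 532) (nat_lit 1837378312) (nat_lit 608) (nat_lit 463335654) (nat_lit 200) (nat_lit 5) (nat_lit 207) (nat_lit 5) (nat_lit 208) (nat_lit 5) (nat_lit 362) (nat_lit 333) (nat_lit 325))) (XT.nd (nat_lit 78) (nat_lit 988) (nat_lit 0) (XT.lf (nat_lit 0) (nat_lit 5004000112) (nat_lit 532) (nat_lit 522320836) (nat_lit 76) (nat_lit 2575811911) (nat_lit 193) (nat_lit 5) (nat_lit 200) (nat_lit 5) (nat_lit 194) (nat_lit 5) (nat_lit 363) (nat_lit 333) (nat_lit 324)) (XT.lf (nat_lit 0) (nat_lit 1363711647) (nat_lit 456) (nat_lit 986451206) (nat_lit 532) (nat_lit 5915345755) (nat_lit 180) (nat_lit 5) (nat_lit 186) (nat_lit 5) (nat_lit 187) (nat_lit 5) (nat_lit 364) (nat_lit 333) (nat_lit 323))))))) (XT.nd (nat_lit 936) (nat_lit 3192) (nat_lit 0) (XT.nd (nat_lit 468)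 (nat_lit 2204) (nat_lit 0) (XT.nd (nat_lit 234) (nat_lit 1596) (nat_lit 0) (XT.nd (nat_lit 78) (nat_lit 912) (nat_lit 0) (XT.lf (nat_lit 0) (nat_lit 3320126556) (nat_lit 456) (nat_lit 4633179560) (nat_lit 532) (nat_lit 484495072) (nat_lit 174) (nat_lit 5) (nat_lit 180) (nat_lit 5) (nat_lit 181) (nat_lit 5) (nat_lit 365) (nat_lit 333) (nat_lit 322)) (XT.nd (nat_lit 78) (nat_lit 456) (nat_lit 0) (XT.lf (nat_lit 0) (nat_lit 5040065851) (nat_lit 456) (nat_lit 3279092818) (nat_lit 76) (nat_lit 300384075) (nat_lit 168) (nat_lit 5) (nat_lit 174) (nat_lit 5) (nat_lit 169) (nat_lit 5) (nat_lit 366) (nat_lit 333) (nat_lit 321)) (XT.lf (nat_lit 0) (nat_lit 1947102821) (nat_lit 456) (nat_lit 1396110768) (nat_lit 76) (nat_lit 5467507715) (nat_lit 162) (nat_lit 5) (nat_lit 168) (nat_lit 5) (nat_lit 163) (nat_lit 5) (nat_lit 367) (nat_lit 333) (nat_lit 320)))) (XT.nd (nat_lit 78) (nat_lit 836) (nat_lit 0) (XT.lf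 (nat_lit 0) (nat_lit 556421418) (nat_lit 380) (nat_lit 7070679309) (nat_lit 456) (nat_lit 1384813005) (nat_lit 152) (nat_lit 5) (nat_lit 157) (nat_lit 5) (nat_lit 158) (nat_lit 5) (nat_lit 368) (nat_lit 333) (nat_lit 319)) (XT.nd (nat_lit 78) (nat_lit 456) (nat_lit 0) (XT.lf (nat_lit 0) (nat_lit 2573931030) (nat_lit 304) (nat_lit 1689868274) (nat_lit 380) (nat_lit 4958721640) (nat_lit 147) (nat_lit 5) (nat_lit 151) (nat_lit 5) (nat_lit 152) (nat_lit 5) (nat_lit 369) (nat_lit 333) (nat_lit 318)) (XT.lf (nat_lit 0) (nat_lit 687127264) (nat_lit 456) (nat_lit 4800305636) (nat_lit 76) (nat_lit 3956301611) (nat_lit 141) (nat_lit 5) (nat_lit 147) (nat_lit 5) (nat_lit 142) (nat_lit 5) (nat_lit 370) (nat_lit 333) (nat_lit 317))))) (XT.nd (nat_lit 234) (nat_lit 912) (nat_lit 0) (XT.nd (nat_lit 78) (nat_lit 988) (nat_lit 0) (XT.lf (nat_lit 0) (nat_lit 6479737403) (nat_lit 380) (nat_lit 2923013207) (nat_lit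 76) (nat_lit 272816670) (nat_lit 137) (nat_lit 5) (nat_lit 142) (nat_lit 5) (nat_lit 138) (nat_lit 5) (nat_lit 371) (nat_lit 333) (nat_lit 316)) (XT.nd (nat_lit 78) (nat_lit 608) (nat_lit 0) (XT.lf (nat_lit 0) (nat_lit 2600284007) (nat_lit 380) (nat_lit 1030921087) (nat_lit 76) (nat_lit 6286797182) (nat_lit 132) (nat_lit 5) (nat_lit 137) (nat_lit 5) (nat_lit 133) (nat_lit 5) (nat_lit 372) (nat_lit 333) (nat_lit 315)) (XT.lf (nat_lit 0) (nat_lit 915493962) (nat_lit 304) (nat_lit 7697458980) (nat_lit 380) (nat_lit 1558908571) (nat_lit 124) (nat_lit 5) (nat_lit 128) (nat_lit 5) (nat_lit 129) (nat_lit 5) (nat_lit 373) (nat_lit 333) (nat_lit 314)))) (XT.nd (nat_lit 78) (nat_lit 608) (nat_lit 0) (XT.lf (nat_lit 0) (nat_lit 2892948119) (nat_lit 228) (nat_lit 1519657285) (nat_lit 304) (nat_lit 6024178255) (nat_lit 120) (nat_lit 5) (nat_lit 123) (nat_lit 5) (nat_lit 124) (nat_lit 5) (nat_lit 374) (nat_lit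 333) (nat_lit 313)) (XT.nd (nat_lit 78) (nat_lit 304) (nat_lit 0) (XT.lf (nat_lit 0) (nat_lit 4893754030) (nat_lit 304) (nat_lit 5776026477) (nat_lit 380) (nat_lit 44161227) (nat_lit 116) (nat_lit 5) (nat_lit 120) (nat_lit 5) (nat_lit 121) (nat_lit 5) (nat_lit 375) (nat_lit 333) (nat_lit 312)) (XT.lf (nat_lit 0) (nat_lit 6112992710) (nat_lit 304) (nat_lit 4108258217) (nat_lit 76) (nat_lit 781944953) (nat_lit 112) (nat_lit 5) (nat_lit 116) (nat_lit 5) (nat_lit 113) (nat_lit 5) (nat_lit 376) (nat_lit 333) (nat_lit 311)))))) (XT.nd (nat_lit 468) (nat_lit 1444) (nat_lit 0) (XT.nd (nat_lit 234) (nat_lit 684) (nat_lit 0) (XT.nd (nat_lit 78) (nat_lit 760) (nat_lit 0) (XT.lf (nat_lit 0) (nat_lit 1286955378) (nat_lit 304) (nat_lit 2401819524) (nat_lit 76) (nat_lit 7616539828) (nat_lit 108) (nat_lit 5) (nat_lit 112) (nat_lit 5) (nat_lit 109) (nat_lit 5) (nat_lit 377) (nat_lit 333) (nat_lit 310)) (XT.nd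 (nat_lit 78) (nat_lit 532) (nat_lit 0) (XT.lf (nat_lit 0) (nat_lit 7692525611) (nat_lit 304) (nat_lit 715089397) (nat_lit 76) (nat_lit 3212877839) (nat_lit 105) (nat_lit 5) (nat_lit 109) (nat_lit 5) (nat_lit 106) (nat_lit 5) (nat_lit 378) (nat_lit 333) (nat_lit 309)) (XT.lf (nat_lit 0) (nat_lit 984557177) (nat_lit 228) (nat_lit 1475284679) (nat_lit 304) (nat_lit 9489670088) (nat_lit 98) (nat_lit 5) (nat_lit 101) (nat_lit 5) (nat_lit 102) (nat_lit 5) (nat_lit 379) (nat_lit 333) (nat_lit 308)))) (XT.nd (nat_lit 78) (nat_lit 456) (nat_lit 0) (XT.lf (nat_lit 0) (nat_lit 2650811756) (nat_lit 228) (nat_lit 6497752425) (nat_lit 304) (nat_lit 3143391724) (nat_lit 95) (nat_lit 5) (nat_lit 98) (nat_lit 5) (nat_lit 99) (nat_lit 5) (nat_lit 380) (nat_lit 333) (nat_lit 307)) (XT.nd (nat_lit 78) (nat_lit 228) (nat_lit 0) (XT.lf (nat_lit 0) (nat_lit 3478208267) (nat_lit 228) (nat_lit 8348168307) (nat_lit 76)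 (nat_lit 823350998) (nat_lit 92) (nat_lit 5) (nat_lit 95) (nat_lit 5) (nat_lit 93) (nat_lit 5) (nat_lit 381) (nat_lit 333) (nat_lit 306)) (XT.lf (nat_lit 0) (nat_lit 5888084535) (nat_lit 228) (nat_lit 4553041194) (nat_lit 304) (nat_lit 2581091594) (nat_lit 89) (nat_lit 5) (nat_lit 92) (nat_lit 5) (nat_lit 93) (nat_lit 5) (nat_lit 382) (nat_lit 333) (nat_lit 305))))) (XT.nd (nat_lit 234) (nat_lit 760) (nat_lit 0) (XT.nd (nat_lit 78) (nat_lit 456) (nat_lit 0) (XT.lf (nat_lit 0) (nat_lit 4298840307) (nat_lit 228) (nat_lit 5984255886) (nat_lit 76) (nat_lit 3127663709) (nat_lit 86) (nat_lit 5) (nat_lit 89) (nat_lit 5) (nat_lit 87) (nat_lit 5) (nat_lit 383) (nat_lit 333) (nat_lit 304)) (XT.nd (nat_lit 78) (nat_lit 228) (nat_lit 0) (XT.lf (nat_lit 0) (nat_lit 8907822289) (nat_lit 228) (nat_lit 2626972675) (nat_lit 304) (nat_lit 2281223926) (nat_lit 83) (nat_lit 5) (nat_lit 86) (nat_lit 5) (nat_lit 87)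 (nat_lit 5) (nat_lit 384) (nat_lit 333) (nat_lit 303)) (XT.lf (nat_lit 0) (nat_lit 4872630171) (nat_lit 228) (nat_lit 3945259642) (nat_lit 76) (nat_lit 5419945392) (nat_lit 80) (nat_lit 5) (nat_lit 83) (nat_lit 5) (nat_lit 81) (nat_lit 5) (nat_lit 385) (nat_lit 333) (nat_lit 302)))) (XT.nd (nat_lit 156) (nat_lit 380) (nat_lit 0) (XT.nd (nat_lit 78) (nat_lit 228) (nat_lit 0) (XT.lf (nat_lit 0) (nat_lit 11620294294) (nat_lit 152) (nat_lit 772053683) (nat_lit 228) (nat_lit 2286072245) (nat_lit 78) (nat_lit 5) (nat_lit 80) (nat_lit 5) (nat_lit 81) (nat_lit 5) (nat_lit 386) (nat_lit 333) (nat_lit 301)) (XT.lf (nat_lit 0) (nat_lit 5154953495) (nat_lit 228) (nat_lit 2334432719) (nat_lit 76) (nat_lit 7646927573) (nat_lit 75) (nat_lit 5) (nat_lit 78) (nat_lit 5) (nat_lit 76) (nat_lit 5) (nat_lit 387) (nat_lit 333) (nat_lit 300))) (XT.nd (nat_lit 78) (nat_lit 228) (nat_lit 0) (XT.lf (nat_lit 0) (nat_lit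 12975493617) (nat_lit 228) (nat_lit 1706616025) (nat_lit 76) (nat_lit 932685155) (nat_lit 73) (nat_lit 5) (nat_lit 76) (nat_lit 5) (nat_lit 74) (nat_lit 4) (nat_lit 388) (nat_lit 333) (nat_lit 299)) (XT.lf (nat_lit 0) (nat_lit 5089936961) (nat_lit 228) (nat_lit 1275474213) (nat_lit 76) (nat_lit 9746769441) (nat_lit 70) (nat_lit 5) (nat_lit 73) (nat_lit 5) (nat_lit 71) (nat_lit 5) (nat_lit 389) (nat_lit 333) (nat_lit 298))))))))
noncomputable def xc36 : XT := (XT.nd (nat_lit 1872) (nat_lit 1292) (nat_lit 0) (XT.nd (nat_lit 936) (nat_lit 1216) (nat_lit 0) (XT.nd (nat_lit 468) (nat_lit 836) (nat_lit 0) (XT.nd (nat_lit 234) (nat_lit 532) (nat_lit 0) (XT.nd (nat_lit 78) (nat_lit 380) (nat_lit 0) (XT.lf (nat_lit 0) (nat_lit 13221252100) (nat_lit 228) (nat_lit 986025283) (nat_lit 76) (nat_lit 2424280788) (nat_lit 68) (nat_lit 5) (nat_lit 71) (nat_lit 5) (nat_lit 69) (nat_lit 4) (nat_lit 390) (nat_lit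 333) (nat_lit 297)) (XT.nd (nat_lit 78) (nat_lit 152) (nat_lit 0) (XT.lf (nat_lit 0) (nat_lit 4608605429) (nat_lit 228) (nat_lit 916522397) (nat_lit 76) (nat_lit 11646993043) (nat_lit 65) (nat_lit 5) (nat_lit 68) (nat_lit 5) (nat_lit 66) (nat_lit 5) (nat_lit 391) (nat_lit 333) (nat_lit 296)) (XT.lf (nat_lit 0) (nat_lit 13048221929) (nat_lit 228) (nat_lit 1050972809) (nat_lit 76) (nat_lit 3636806221) (nat_lit 63) (nat_lit 5) (nat_lit 66) (nat_lit 5) (nat_lit 64) (nat_lit 4) (nat_lit 392) (nat_lit 333) (nat_lit 295)))) (XT.nd (nat_lit 78) (nat_lit 304) (nat_lit 0) (XT.lf (nat_lit 0) (nat_lit 3626678456) (nat_lit 228) (nat_lit 1434828022) (nat_lit 76) (nat_lit 13262100963) (nat_lit 60) (nat_lit 5) (nat_lit 63) (nat_lit 5) (nat_lit 61) (nat_lit 5) (nat_lit 393) (nat_lit 333) (nat_lit 294)) (XT.nd (nat_lit 78) (nat_lit 152) (nat_lit 0) (XT.lf (nat_lit 0) (nat_lit 12366045446) (nat_lit 228) (nat_lit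 2095250050) (nat_lit 76) (nat_lit 4474731840) (nat_lit 58) (nat_lit 5) (nat_lit 61) (nat_lit 5) (nat_lit 59) (nat_lit 4) (nat_lit 394) (nat_lit 333) (nat_lit 293)) (XT.lf (nat_lit 0) (nat_lit 2041958629) (nat_lit 152) (nat_lit 3042228050) (nat_lit 76) (nat_lit 14490815536) (nat_lit 56) (nat_lit 5) (nat_lit 58) (nat_lit 5) (nat_lit 57) (nat_lit 5) (nat_lit 395) (nat_lit 333) (nat_lit 292))))) (XT.nd (nat_lit 234) (nat_lit 380) (nat_lit 0) (XT.nd (nat_lit 78) (nat_lit 304) (nat_lit 0) (XT.lf (nat_lit 0) (nat_lit 11065157993) (nat_lit 228) (nat_lit 4350323896) (nat_lit 76) (nat_lit 4825004762) (nat_lit 54) (nat_lit 5) (nat_lit 57) (nat_lit 5) (nat_lit 55) (nat_lit 4) (nat_lit 396) (nat_lit 333) (nat_lit 291)) (XT.nd (nat_lit 78) (nat_lit 228) (nat_lit 0) (XT.lf (nat_lit 0) (nat_lit 14941398959) (nat_lit 76) (nat_lit 5720090464) (nat_lit 152) (nat_lit 274104784) (nat_lit 53) (nat_lit 5) (nat_lit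 54) (nat_lit 5) (nat_lit 55) (nat_lit 4) (nat_lit 397) (nat_lit 333) (nat_lit 290)) (XT.lf (nat_lit 0) (nat_lit 9013445347) (nat_lit 228) (nat_lit 8092281298) (nat_lit 76) (nat_lit 4553572849) (nat_lit 50) (nat_lit 5) (nat_lit 53) (nat_lit 5) (nat_lit 51) (nat_lit 4) (nat_lit 398) (nat_lit 333) (nat_lit 289)))) (XT.nd (nat_lit 78) (nat_lit 304) (nat_lit 0) (XT.lf (nat_lit 0) (nat_lit 11797074769) (nat_lit 76) (nat_lit 7095997092) (nat_lit 152) (nat_lit 3522042835) (nat_lit 49) (nat_lit 5) (nat_lit 50) (nat_lit 5) (nat_lit 51) (nat_lit 4) (nat_lit 399) (nat_lit 333) (nat_lit 288)) (XT.nd (nat_lit 78) (nat_lit 76) (nat_lit 0) (XT.lf (nat_lit 0) (nat_lit 6052301784) (nat_lit 228) (nat_lit 13649971547) (nat_lit 76) (nat_lit 3501330244) (nat_lit 46) (nat_lit 5) (nat_lit 49) (nat_lit 5) (nat_lit 47) (nat_lit 4) (nat_lit 400) (nat_lit 333) (nat_lit 287)) (XT.lf (nat_lit 0) (nat_lit 6771747479) (nat_lit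 76) (nat_lit 9412648944) (nat_lit 152) (nat_lit 7841524357) (nat_lit 45) (nat_lit 5) (nat_lit 46) (nat_lit 5) (nat_lit 47) (nat_lit 4) (nat_lit 401) (nat_lit 333) (nat_lit 286)))))) (XT.nd (nat_lit 468) (nat_lit 456) (nat_lit 0) (XT.nd (nat_lit 234) (nat_lit 456) (nat_lit 0) (XT.nd (nat_lit 78) (nat_lit 76) (nat_lit 0) (XT.lf (nat_lit 0) (nat_lit 1991987581) (nat_lit 228) (nat_lit 21414553895) (nat_lit 76) (nat_lit 1479381102) (nat_lit 42) (nat_lit 5) (nat_lit 45) (nat_lit 5) (nat_lit 43) (nat_lit 4) (nat_lit 402) (nat_lit 333) (nat_lit 285)) (XT.nd (nat_lit 78) (nat_lit 76) (nat_lit 0) (XT.lf (nat_lit 0) (nat_lit 12339000269) (nat_lit 228) (nat_lit 539068749) (nat_lit 76) (nat_lit 12903011790) (nat_lit 42) (nat_lit 5) (nat_lit 45) (nat_lit 5) (nat_lit 43) (nat_lit 4) (nat_lit 403) (nat_lit 333) (nat_lit 284)) (XT.lf (nat_lit 0) (nat_lit 21637353459) (nat_lit 76) (nat_lit 1686490314) (nat_lit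 152) (nat_lit 3393544014) (nat_lit 41) (nat_lit 5) (nat_lit 42) (nat_lit 5) (nat_lit 43) (nat_lit 4) (nat_lit 404) (nat_lit 333) (nat_lit 283)))) (XT.nd (nat_lit 78) (nat_lit 228) (nat_lit 0) (XT.lf (nat_lit 0) (nat_lit 7202719569) (nat_lit 228) (nat_lit 10453247630) (nat_lit 76) (nat_lit 10036934702) (nat_lit 38) (nat_lit 5) (nat_lit 41) (nat_lit 5) (nat_lit 39) (nat_lit 4) (nat_lit 405) (nat_lit 333) (nat_lit 282)) (XT.nd (nat_lit 78) (nat_lit 152) (nat_lit 0) (XT.lf (nat_lit 0) (nat_lit 12090825375) (nat_lit 76) (nat_lit 6270623727) (nat_lit 152) (nat_lit 10351654158) (nat_lit 37) (nat_lit 5) (nat_lit 38) (nat_lit 5) (nat_lit 39) (nat_lit 4) (nat_lit 406) (nat_lit 333) (nat_lit 281)) (XT.lf (nat_lit 0) (nat_lit 429387706) (nat_lit 152) (nat_lit 23677774361) (nat_lit 76) (nat_lit 5672832552) (nat_lit 35) (nat_lit 5) (nat_lit 37) (nat_lit 5) (nat_lit 36) (nat_lit 4) (nat_lit 407) (nat_lit 333)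 (nat_lit 280))))) (XT.nd (nat_lit 234) (nat_lit 228) (nat_lit 0) (XT.nd (nat_lit 78) (nat_lit 228) (nat_lit 0) (XT.lf (nat_lit 0) (nat_lit 11693065124) (nat_lit 152) (nat_lit 907745490) (nat_lit 76) (nat_lit 18291619102) (nat_lit 35) (nat_lit 5) (nat_lit 37) (nat_lit 5) (nat_lit 36) (nat_lit 4) (nat_lit 408) (nat_lit 333) (nat_lit 279)) (XT.nd (nat_lit 78) (nat_lit 152) (nat_lit 0) (XT.lf (nat_lit 0) (nat_lit 23309463584) (nat_lit 76) (nat_lit 357941590) (nat_lit 152) (nat_lit 8388660905) (nat_lit 34) (nat_lit 5) (nat_lit 35) (nat_lit 5) (nat_lit 36) (nat_lit 4) (nat_lit 409) (nat_lit 333) (nat_lit 278)) (XT.lf (nat_lit 0) (nat_lit 3110561108) (nat_lit 152) (nat_lit 17784348367) (nat_lit 76) (nat_lit 12375950209) (nat_lit 32) (nat_lit 5) (nat_lit 34) (nat_lit 5) (nat_lit 33) (nat_lit 4) (nat_lit 410) (nat_lit 333) (nat_lit 277)))) (XT.nd (nat_lit 78) (nat_lit 152) (nat_lit 0) (XT.lf (nat_lit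 0) (nat_lit 6466463233) (nat_lit 76) (nat_lit 8629656550) (nat_lit 152) (nat_lit 19445238938) (nat_lit 31) (nat_lit 5) (nat_lit 32) (nat_lit 5) (nat_lit 33) (nat_lit 4) (nat_lit 411) (nat_lit 333) (nat_lit 276)) (XT.nd (nat_lit 78) (nat_lit 152) (nat_lit 0) (XT.lf (nat_lit 0) (nat_lit 27834787780) (nat_lit 152) (nat_lit 3749476025) (nat_lit 0) (nat_lit 4286507210) (nat_lit 31) (nat_lit 5) (nat_lit 33) (nat_lit 4) (nat_lit 31) (nat_lit 4) (nat_lit 412) (nat_lit 333) (nat_lit 275)) (XT.lf (nat_lit 0) (nat_lit 4099184252) (nat_lit 152) (nat_lit 15297273160) (nat_lit 76) (nat_lit 17862090063) (nat_lit 29) (nat_lit 5) (nat_lit 31) (nat_lit 5) (nat_lit 30) (nat_lit 4) (nat_lit 413) (nat_lit 333) (nat_lit 274))))))) (XT.nd (nat_lit 936) (nat_lit 532) (nat_lit 0) (XT.nd (nat_lit 468) (nat_lit 380) (nat_lit 0) (XT.nd (nat_lit 234) (nat_lit 152) (nat_lit 0) (XT.nd (nat_lit 78) (nat_lit 152) (nat_lit 0)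 (XT.lf (nat_lit 0) (nat_lit 10311731179) (nat_lit 76) (nat_lit 6435724796) (nat_lit 152) (nat_lit 21963696447) (nat_lit 28) (nat_lit 5) (nat_lit 29) (nat_lit 5) (nat_lit 30) (nat_lit 4) (nat_lit 414) (nat_lit 333) (nat_lit 273)) (XT.nd (nat_lit 78) (nat_lit 152) (nat_lit 0) (XT.lf (nat_lit 0) (nat_lit 30190424847) (nat_lit 152) (nat_lit 2908343833) (nat_lit 0) (nat_lit 7132753154) (nat_lit 28) (nat_lit 5) (nat_lit 30) (nat_lit 4) (nat_lit 28) (nat_lit 4) (nat_lit 415) (nat_lit 333) (nat_lit 272)) (XT.lf (nat_lit 0) (nat_lit 2666062529) (nat_lit 152) (nat_lit 17704554485) (nat_lit 76) (nat_lit 21449477396) (nat_lit 26) (nat_lit 5) (nat_lit 28) (nat_lit 5) (nat_lit 27) (nat_lit 4) (nat_lit 416) (nat_lit 333) (nat_lit 271)))) (XT.nd (nat_lit 78) (nat_lit 76) (nat_lit 0) (XT.lf (nat_lit 0) (nat_lit 9019832283) (nat_lit 76) (nat_lit 6838628010) (nat_lit 152) (nat_lit 27624928850) (nat_lit 25) (nat_lit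 5) (nat_lit 26) (nat_lit 5) (nat_lit 27) (nat_lit 4) (nat_lit 417) (nat_lit 333) (nat_lit 270)) (XT.nd (nat_lit 78) (nat_lit 76) (nat_lit 0) (XT.lf (nat_lit 0) (nat_lit 29905330598) (nat_lit 152) (nat_lit 7963196096) (nat_lit 0) (nat_lit 7355478622) (nat_lit 25) (nat_lit 5) (nat_lit 27) (nat_lit 4) (nat_lit 25) (nat_lit 4) (nat_lit 418) (nat_lit 333) (nat_lit 269)) (XT.lf (nat_lit 0) (nat_lit 20073845594) (nat_lit 76) (nat_lit 24785495155) (nat_lit 76) (nat_lit 2186169835) (nat_lit 24) (nat_lit 4) (nat_lit 25) (nat_lit 5) (nat_lit 25) (nat_lit 4) (nat_lit 419) (nat_lit 333) (nat_lit 268))))) (XT.nd (nat_lit 234) (nat_lit 152) (nat_lit 0) (XT.nd (nat_lit 78) (nat_lit 76) (nat_lit 0) (XT.lf (nat_lit 0) (nat_lit 512202108) (nat_lit 76) (nat_lit 10895997349) (nat_lit 152) (nat_lit 37545597987) (nat_lit 22) (nat_lit 5) (nat_lit 23) (nat_lit 5) (nat_lit 24) (nat_lit 4) (nat_lit 420) (nat_lit 333) (nat_lit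 267)) (XT.nd (nat_lit 78) (nat_lit 76) (nat_lit 0) (XT.lf (nat_lit 0) (nat_lit 25898446610) (nat_lit 152) (nat_lit 21182521242) (nat_lit 0) (nat_lit 3868042170) (nat_lit 22) (nat_lit 5) (nat_lit 24) (nat_lit 4) (nat_lit 22) (nat_lit 4) (nat_lit 421) (nat_lit 333) (nat_lit 266)) (XT.lf (nat_lit 0) (nat_lit 7371491641) (nat_lit 76) (nat_lit 33870266727) (nat_lit 76) (nat_lit 11798370118) (nat_lit 21) (nat_lit 4) (nat_lit 22) (nat_lit 5) (nat_lit 22) (nat_lit 4) (nat_lit 422) (nat_lit 333) (nat_lit 265)))) (XT.nd (nat_lit 78) (nat_lit 76) (nat_lit 0) (XT.lf (nat_lit 0) (nat_lit 2244099212) (nat_lit 152) (nat_lit 17555891561) (nat_lit 76) (nat_lit 35430134488) (nat_lit 20) (nat_lit 5) (nat_lit 22) (nat_lit 5) (nat_lit 21) (nat_lit 4) (nat_lit 423) (nat_lit 333) (nat_lit 264)) (XT.nd (nat_lit 78) (nat_lit 0) (nat_lit 0) (XT.lf (nat_lit 0) (nat_lit 11981995742) (nat_lit 76) (nat_lit 4831326092) (nat_lit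 152) (nat_lit 40710738031) (nat_lit 19) (nat_lit 5) (nat_lit 20) (nat_lit 5) (nat_lit 21) (nat_lit 4) (nat_lit 424) (nat_lit 333) (nat_lit 263)) (XT.lf (nat_lit 0) (nat_lit 32350351088) (nat_lit 152) (nat_lit 16763538423) (nat_lit 0) (nat_lit 10811622856) (nat_lit 19) (nat_lit 5) (nat_lit 21) (nat_lit 4) (nat_lit 19) (nat_lit 4) (nat_lit 425) (nat_lit 333) (nat_lit 262)))))) (XT.nd (nat_lit 468) (nat_lit 228) (nat_lit 0) (XT.nd (nat_lit 234) (nat_lit 76) (nat_lit 0) (XT.nd (nat_lit 78) (nat_lit 152) (nat_lit 0) (XT.lf (nat_lit 0) (nat_lit 13581135474) (nat_lit 76) (nat_lit 35216879835) (nat_lit 76) (nat_lit 13645010136) (nat_lit 18) (nat_lit 4) (nat_lit 19) (nat_lit 5) (nat_lit 19) (nat_lit 4) (nat_lit 426) (nat_lit 333) (nat_lit 261)) (XT.nd (nat_lit 78) (nat_lit 76) (nat_lit 0) (XT.lf (nat_lit 0) (nat_lit 1092134955) (nat_lit 152) (nat_lit 19386399040) (nat_lit 76) (nat_lit 44603709187) (nat_lit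 17) (nat_lit 5) (nat_lit 19) (nat_lit 5) (nat_lit 18) (nat_lit 4) (nat_lit 427) (nat_lit 333) (nat_lit 260)) (XT.lf (nat_lit 0) (nat_lit 11567662446) (nat_lit 76) (nat_lit 4787586683) (nat_lit 152) (nat_lit 51491981639) (nat_lit 16) (nat_lit 5) (nat_lit 17) (nat_lit 5) (nat_lit 18) (nat_lit 4) (nat_lit 428) (nat_lit 333) (nat_lit 259)))) (XT.nd (nat_lit 78) (nat_lit 76) (nat_lit 0) (XT.lf (nat_lit 0) (nat_lit 32653771869) (nat_lit 152) (nat_lit 26465944170) (nat_lit 0) (nat_lit 11622585332) (nat_lit 16) (nat_lit 5) (nat_lit 18) (nat_lit 4) (nat_lit 16) (nat_lit 4) (nat_lit 429) (nat_lit 333) (nat_lit 258)) (XT.nd (nat_lit 78) (nat_lit 0) (nat_lit 0) (XT.lf (nat_lit 0) (nat_lit 4806029561) (nat_lit 76) (nat_lit 45016054583) (nat_lit 76) (nat_lit 23958396622) (nat_lit 15) (nat_lit 4) (nat_lit 16) (nat_lit 5) (nat_lit 16) (nat_lit 4) (nat_lit 430) (nat_lit 333) (nat_lit 257)) (XT.lf (nat_lit 0)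 (nat_lit 38119099968) (nat_lit 76) (nat_lit 29963660332) (nat_lit 76) (nat_lit 8880791491) (nat_lit 15) (nat_lit 4) (nat_lit 16) (nat_lit 5) (nat_lit 16) (nat_lit 4) (nat_lit 431) (nat_lit 333) (nat_lit 256))))) (XT.nd (nat_lit 234) (nat_lit 76) (nat_lit 0) (XT.nd (nat_lit 78) (nat_lit 76) (nat_lit 0) (XT.lf (nat_lit 0) (nat_lit 6778034629) (nat_lit 152) (nat_lit 7347468906) (nat_lit 76) (nat_lit 66179380215) (nat_lit 14) (nat_lit 5) (nat_lit 16) (nat_lit 5) (nat_lit 15) (nat_lit 4) (nat_lit 432) (nat_lit 333) (nat_lit 255)) (XT.nd (nat_lit 78) (nat_lit 0) (nat_lit 0) (XT.lf (nat_lit 0) (nat_lit 23280337857) (nat_lit 152) (nat_lit 57756960296) (nat_lit 0) (nat_lit 2766021143) (nat_lit 13) (nat_lit 5) (nat_lit 15) (nat_lit 4) (nat_lit 13) (nat_lit 4) (nat_lit 433) (nat_lit 333) (nat_lit 254)) (XT.lf (nat_lit 0) (nat_lit 40792165149) (nat_lit 152) (nat_lit 26422275491) (nat_lit 0) (nat_lit 20256704643)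 (nat_lit 13) (nat_lit 5) (nat_lit 15) (nat_lit 4) (nat_lit 13) (nat_lit 4) (nat_lit 434) (nat_lit 333) (nat_lit 253)))) (XT.nd (nat_lit 156) (nat_lit 0) (nat_lit 0) (XT.nd (nat_lit 78) (nat_lit 0) (nat_lit 0) (XT.lf (nat_lit 0) (nat_lit 6542073700) (nat_lit 76) (nat_lit 52667493847) (nat_lit 76) (nat_lit 32111896396) (nat_lit 12) (nat_lit 4) (nat_lit 13) (nat_lit 5) (nat_lit 13) (nat_lit 4) (nat_lit 435) (nat_lit 333) (nat_lit 252)) (XT.lf (nat_lit 0) (nat_lit 41643914377) (nat_lit 76) (nat_lit 37143979442) (nat_lit 76) (nat_lit 16569203948) (nat_lit 12) (nat_lit 4) (nat_lit 13) (nat_lit 5) (nat_lit 13) (nat_lit 4) (nat_lit 436) (nat_lit 333) (nat_lit 251))) (XT.nd (nat_lit 46488) (nat_lit 0) (nat_lit 24092) (XT.lf (nat_lit 0) (nat_lit 78440967257) (nat_lit 76) (nat_lit 20873749851) (nat_lit 76) (nat_lit 280709555) (nat_lit 12) (nat_lit 4) (nat_lit 13) (nat_lit 5) (nat_lit 13) (nat_lit 4) (nat_lit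 437) (nat_lit 333) (nat_lit 250)) (XT.lf (nat_lit 0) (nat_lit 2492648491) (nat_lit 836) (nat_lit 470018309) (nat_lit 836) (nat_lit 470018309) (nat_lit 329) (nat_lit 4) (nat_lit 340) (nat_lit 5) (nat_lit 340) (nat_lit 4) (nat_lit 352) (nat_lit 334) (nat_lit 334))))))))
noncomputable def xc37 : XT := (XT.nd (nat_lit 1950) (nat_lit 4864) (nat_lit 0) (XT.nd (nat_lit 936) (nat_lit 5852) (nat_lit 0) (XT.nd (nat_lit 468) (nat_lit 3876) (nat_lit 0) (XT.nd (nat_lit 234) (nat_lit 2660) (nat_lit 0) (XT.nd (nat_lit 78) (nat_lit 3344) (nat_lit 0) (XT.lf (nat_lit 0) (nat_lit 4564324968) (nat_lit 988) (nat_lit 939878736) (nat_lit 0) (nat_lit 1436055728) (nat_lit 316) (nat_lit 5) (nat_lit 329) (nat_lit 4) (nat_lit 316) (nat_lit 4) (nat_lit 353) (nat_lit 334) (nat_lit 333)) (XT.nd (nat_lit 78) (nat_lit 1216) (nat_lit 0) (XT.lf (nat_lit 0) (nat_lit 103965617) (nat_lit 1064) (nat_lit 2955905759) (nat_lit 1140)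 (nat_lit 3963360438) (nat_lit 288) (nat_lit 5) (nat_lit 302) (nat_lit 5) (nat_lit 303) (nat_lit 4) (nat_lit 354) (nat_lit 334) (nat_lit 332)) (XT.lf (nat_lit 0) (nat_lit 1280416274) (nat_lit 1140) (nat_lit 125546214) (nat_lit 1216) (nat_lit 5708478168) (nat_lit 272) (nat_lit 5) (nat_lit 287) (nat_lit 5) (nat_lit 288) (nat_lit 5) (nat_lit 355) (nat_lit 334) (nat_lit 331)))) (XT.nd (nat_lit 78) (nat_lit 1444) (nat_lit 0) (XT.lf (nat_lit 0) (nat_lit 2538664485) (nat_lit 1216) (nat_lit 4282391855) (nat_lit 1292) (nat_lit 392310179) (nat_lit 256) (nat_lit 5) (nat_lit 272) (nat_lit 5) (nat_lit 273) (nat_lit 4) (nat_lit 356) (nat_lit 334) (nat_lit 330)) (XT.nd (nat_lit 78) (nat_lit 684) (nat_lit 0) (XT.lf (nat_lit 0) (nat_lit 3893781542) (nat_lit 684) (nat_lit 1036259610) (nat_lit 760) (nat_lit 2390555183) (nat_lit 246) (nat_lit 5) (nat_lit 255) (nat_lit 5) (nat_lit 256) (nat_lit 5) (nat_lit 357) (nat_lit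 334) (nat_lit 329)) (XT.lf (nat_lit 0) (nat_lit 2890980495) (nat_lit 684) (nat_lit 2097822703) (nat_lit 76) (nat_lit 2447265099) (nat_lit 237) (nat_lit 5) (nat_lit 246) (nat_lit 5) (nat_lit 238) (nat_lit 5) (nat_lit 358) (nat_lit 334) (nat_lit 328))))) (XT.nd (nat_lit 234) (nat_lit 1596) (nat_lit 0) (XT.nd (nat_lit 78) (nat_lit 1596) (nat_lit 0) (XT.lf (nat_lit 0) (nat_lit 684613207) (nat_lit 684) (nat_lit 674722210) (nat_lit 76) (nat_lit 6201009269) (nat_lit 228) (nat_lit 5) (nat_lit 237) (nat_lit 5) (nat_lit 229) (nat_lit 5) (nat_lit 359) (nat_lit 334) (nat_lit 327)) (XT.nd (nat_lit 78) (nat_lit 532) (nat_lit 0) (XT.lf (nat_lit 0) (nat_lit 829071626) (nat_lit 532) (nat_lit 5155648566) (nat_lit 608) (nat_lit 1707761396) (nat_lit 214) (nat_lit 5) (nat_lit 221) (nat_lit 5) (nat_lit 222) (nat_lit 5) (nat_lit 360) (nat_lit 334) (nat_lit 326)) (XT.lf (nat_lit 0) (nat_lit 2431552713) (nat_lit 456)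 (nat_lit 1113459037) (nat_lit 532) (nat_lit 4288250154) (nat_lit 207) (nat_lit 5) (nat_lit 213) (nat_lit 5) (nat_lit 214) (nat_lit 5) (nat_lit 361) (nat_lit 334) (nat_lit 325)))) (XT.nd (nat_lit 78) (nat_lit 988) (nat_lit 0) (XT.lf (nat_lit 0) (nat_lit 941773018) (nat_lit 608) (nat_lit 3872952036) (nat_lit 76) (nat_lit 3168091053) (nat_lit 199) (nat_lit 5) (nat_lit 207) (nat_lit 5) (nat_lit 200) (nat_lit 5) (nat_lit 362) (nat_lit 334) (nat_lit 324)) (XT.nd (nat_lit 78) (nat_lit 532) (nat_lit 0) (XT.lf (nat_lit 0) (nat_lit 5865716978) (nat_lit 456) (nat_lit 386535755) (nat_lit 532) (nat_lit 1889160926) (nat_lit 193) (nat_lit 5) (nat_lit 199) (nat_lit 5) (nat_lit 200) (nat_lit 5) (nat_lit 363) (nat_lit 334) (nat_lit 323)) (XT.lf (nat_lit 0) (nat_lit 3396809891) (nat_lit 532) (nat_lit 631985024) (nat_lit 76) (nat_lit 4279838825) (nat_lit 186) (nat_lit 5) (nat_lit 193) (nat_lit 5) (nat_lit 187) (nat_lit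 5) (nat_lit 364) (nat_lit 334) (nat_lit 322)))))) (XT.nd (nat_lit 468) (nat_lit 2432) (nat_lit 0) (XT.nd (nat_lit 234) (nat_lit 1596) (nat_lit 0) (XT.nd (nat_lit 78) (nat_lit 836) (nat_lit 0) (XT.lf (nat_lit 0) (nat_lit 349593300) (nat_lit 532) (nat_lit 7366386748) (nat_lit 76) (nat_lit 769604397) (nat_lit 173) (nat_lit 5) (nat_lit 180) (nat_lit 5) (nat_lit 174) (nat_lit 5) (nat_lit 365) (nat_lit 334) (nat_lit 321)) (XT.nd (nat_lit 78) (nat_lit 456) (nat_lit 0) (XT.lf (nat_lit 0) (nat_lit 2912234073) (nat_lit 380) (nat_lit 2827646281) (nat_lit 456) (nat_lit 2931077791) (nat_lit 168) (nat_lit 5) (nat_lit 173) (nat_lit 5) (nat_lit 174) (nat_lit 5) (nat_lit 366) (nat_lit 334) (nat_lit 320)) (XT.lf (nat_lit 0) (nat_lit 2433532489) (nat_lit 456) (nat_lit 4089858281) (nat_lit 76) (nat_lit 2343063674) (nat_lit 162) (nat_lit 5) (nat_lit 168) (nat_lit 5) (nat_lit 163) (nat_lit 5) (nat_lit 367) (nat_lit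 334) (nat_lit 319)))) (XT.nd (nat_lit 78) (nat_lit 1216) (nat_lit 0) (XT.lf (nat_lit 0) (nat_lit 6699852787) (nat_lit 380) (nat_lit 1268752920) (nat_lit 456) (nat_lit 1103412922) (nat_lit 157) (nat_lit 5) (nat_lit 162) (nat_lit 5) (nat_lit 163) (nat_lit 5) (nat_lit 368) (nat_lit 334) (nat_lit 318)) (XT.nd (nat_lit 78) (nat_lit 760) (nat_lit 0) (XT.lf (nat_lit 0) (nat_lit 4387090217) (nat_lit 456) (nat_lit 633715372) (nat_lit 76) (nat_lit 4266339853) (nat_lit 151) (nat_lit 5) (nat_lit 157) (nat_lit 5) (nat_lit 152) (nat_lit 5) (nat_lit 369) (nat_lit 334) (nat_lit 317)) (XT.lf (nat_lit 0) (nat_lit 582199415) (nat_lit 456) (nat_lit 8318174543) (nat_lit 76) (nat_lit 612862151) (nat_lit 141) (nat_lit 5) (nat_lit 147) (nat_lit 5) (nat_lit 142) (nat_lit 5) (nat_lit 370) (nat_lit 334) (nat_lit 316))))) (XT.nd (nat_lit 234) (nat_lit 1444) (nat_lit 0) (XT.nd (nat_lit 78) (nat_lit 684) (nat_lit 0) (XT.lf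 (nat_lit 0) (nat_lit 3037715480) (nat_lit 304) (nat_lit 3211474951) (nat_lit 380) (nat_lit 3499666577) (nat_lit 137) (nat_lit 5) (nat_lit 141) (nat_lit 5) (nat_lit 142) (nat_lit 5) (nat_lit 371) (nat_lit 334) (nat_lit 315)) (XT.nd (nat_lit 78) (nat_lit 304) (nat_lit 0) (XT.lf (nat_lit 0) (nat_lit 2147277620) (nat_lit 380) (nat_lit 5064634775) (nat_lit 76) (nat_lit 2784138270) (nat_lit 132) (nat_lit 5) (nat_lit 137) (nat_lit 5) (nat_lit 133) (nat_lit 5) (nat_lit 372) (nat_lit 334) (nat_lit 314)) (XT.lf (nat_lit 0) (nat_lit 6854435786) (nat_lit 304) (nat_lit 1149186207) (nat_lit 380) (nat_lit 2250994868) (nat_lit 128) (nat_lit 5) (nat_lit 132) (nat_lit 5) (nat_lit 133) (nat_lit 5) (nat_lit 373) (nat_lit 334) (nat_lit 313)))) (XT.nd (nat_lit 156) (nat_lit 836) (nat_lit 0) (XT.nd (nat_lit 78) (nat_lit 228) (nat_lit 0) (XT.lf (nat_lit 0) (nat_lit 3579280055) (nat_lit 380) (nat_lit 1738896196) (nat_lit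 76) (nat_lit 5206220587) (nat_lit 123) (nat_lit 5) (nat_lit 128) (nat_lit 5) (nat_lit 124) (nat_lit 5) (nat_lit 374) (nat_lit 334) (nat_lit 312)) (XT.lf (nat_lit 0) (nat_lit 9655779943) (nat_lit 304) (nat_lit 44319326) (nat_lit 76) (nat_lit 1106891065) (nat_lit 120) (nat_lit 5) (nat_lit 124) (nat_lit 5) (nat_lit 121) (nat_lit 5) (nat_lit 375) (nat_lit 334) (nat_lit 311))) (XT.nd (nat_lit 78) (nat_lit 228) (nat_lit 0) (XT.lf (nat_lit 0) (nat_lit 1656408188) (nat_lit 228) (nat_lit 3234559695) (nat_lit 304) (nat_lit 6209707215) (nat_lit 112) (nat_lit 5) (nat_lit 115) (nat_lit 5) (nat_lit 116) (nat_lit 5) (nat_lit 376) (nat_lit 334) (nat_lit 310)) (XT.lf (nat_lit 0) (nat_lit 3382569280) (nat_lit 228) (nat_lit 7853488877) (nat_lit 304) (nat_lit 171933020) (nat_lit 109) (nat_lit 5) (nat_lit 112) (nat_lit 5) (nat_lit 113) (nat_lit 5) (nat_lit 377) (nat_lit 334) (nat_lit 309))))))) (XT.nd (nat_lit 936)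 (nat_lit 1900) (nat_lit 0) (XT.nd (nat_lit 468) (nat_lit 1368) (nat_lit 0) (XT.nd (nat_lit 234) (nat_lit 760) (nat_lit 0) (XT.nd (nat_lit 78) (nat_lit 532) (nat_lit 0) (XT.lf (nat_lit 0) (nat_lit 5082602859) (nat_lit 228) (nat_lit 992460428) (nat_lit 304) (nat_lit 5653025805) (nat_lit 105) (nat_lit 5) (nat_lit 108) (nat_lit 5) (nat_lit 109) (nat_lit 5) (nat_lit 378) (nat_lit 334) (nat_lit 308)) (XT.nd (nat_lit 78) (nat_lit 228) (nat_lit 0) (XT.lf (nat_lit 0) (nat_lit 616687715) (nat_lit 304) (nat_lit 5286908722) (nat_lit 76) (nat_lit 6158573370) (nat_lit 101) (nat_lit 5) (nat_lit 105) (nat_lit 5) (nat_lit 102) (nat_lit 5) (nat_lit 379) (nat_lit 334) (nat_lit 307)) (XT.lf (nat_lit 0) (nat_lit 7112930109) (nat_lit 304) (nat_lit 3968164250) (nat_lit 76) (nat_lit 1329304680) (nat_lit 98) (nat_lit 5) (nat_lit 102) (nat_lit 5) (nat_lit 99) (nat_lit 5) (nat_lit 380) (nat_lit 334) (nat_lit 306)))) (XT.nd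 (nat_lit 78) (nat_lit 456) (nat_lit 0) (XT.lf (nat_lit 0) (nat_lit 1206906042) (nat_lit 304) (nat_lit 2688117082) (nat_lit 76) (nat_lit 8878556590) (nat_lit 94) (nat_lit 5) (nat_lit 98) (nat_lit 5) (nat_lit 95) (nat_lit 5) (nat_lit 381) (nat_lit 334) (nat_lit 305)) (XT.nd (nat_lit 78) (nat_lit 304) (nat_lit 0) (XT.lf (nat_lit 0) (nat_lit 7980517018) (nat_lit 228) (nat_lit 1472598595) (nat_lit 76) (nat_lit 3698642624) (nat_lit 92) (nat_lit 5) (nat_lit 95) (nat_lit 5) (nat_lit 93) (nat_lit 5) (nat_lit 382) (nat_lit 334) (nat_lit 304)) (XT.lf (nat_lit 0) (nat_lit 1575170397) (nat_lit 304) (nat_lit 296069516) (nat_lit 76) (nat_lit 11675338605) (nat_lit 88) (nat_lit 5) (nat_lit 92) (nat_lit 5) (nat_lit 89) (nat_lit 5) (nat_lit 383) (nat_lit 334) (nat_lit 303))))) (XT.nd (nat_lit 234) (nat_lit 608) (nat_lit 0) (XT.nd (nat_lit 78) (nat_lit 380) (nat_lit 0) (XT.lf (nat_lit 0) (nat_lit 791119683) (nat_lit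 228) (nat_lit 7855633699) (nat_lit 304) (nat_lit 5310023705) (nat_lit 83) (nat_lit 5) (nat_lit 86) (nat_lit 5) (nat_lit 87) (nat_lit 5) (nat_lit 384) (nat_lit 334) (nat_lit 302)) (XT.nd (nat_lit 78) (nat_lit 152) (nat_lit 0) (XT.lf (nat_lit 0) (nat_lit 1705388126) (nat_lit 228) (nat_lit 12543799553) (nat_lit 76) (nat_lit 136213312) (nat_lit 80) (nat_lit 5) (nat_lit 83) (nat_lit 5) (nat_lit 81) (nat_lit 5) (nat_lit 385) (nat_lit 334) (nat_lit 301)) (XT.lf (nat_lit 0) (nat_lit 2740156734) (nat_lit 152) (nat_lit 6337181281) (nat_lit 228) (nat_lit 5753088456) (nat_lit 78) (nat_lit 5) (nat_lit 80) (nat_lit 5) (nat_lit 81) (nat_lit 5) (nat_lit 386) (nat_lit 334) (nat_lit 300)))) (XT.nd (nat_lit 78) (nat_lit 380) (nat_lit 0) (XT.lf (nat_lit 0) (nat_lit 1550127081) (nat_lit 228) (nat_lit 11723270083) (nat_lit 76) (nat_lit 2022093477) (nat_lit 75) (nat_lit 5) (nat_lit 78) (nat_lit 5) (nat_lit 76) (nat_lit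 5) (nat_lit 387) (nat_lit 334) (nat_lit 299)) (XT.nd (nat_lit 78) (nat_lit 228) (nat_lit 0) (XT.lf (nat_lit 0) (nat_lit 4235083121) (nat_lit 152) (nat_lit 4973802432) (nat_lit 228) (nat_lit 6569946086) (nat_lit 73) (nat_lit 5) (nat_lit 75) (nat_lit 5) (nat_lit 76) (nat_lit 5) (nat_lit 388) (nat_lit 334) (nat_lit 298)) (XT.lf (nat_lit 0) (nat_lit 1031054373) (nat_lit 228) (nat_lit 11495058596) (nat_lit 76) (nat_lit 3757392210) (nat_lit 70) (nat_lit 5) (nat_lit 73) (nat_lit 5) (nat_lit 71) (nat_lit 5) (nat_lit 389) (nat_lit 334) (nat_lit 297)))))) (XT.nd (nat_lit 468) (nat_lit 912) (nat_lit 0) (XT.nd (nat_lit 234) (nat_lit 456) (nat_lit 0) (XT.nd (nat_lit 78) (nat_lit 380) (nat_lit 0) (XT.lf (nat_lit 0) (nat_lit 5143792683) (nat_lit 152) (nat_lit 3836739051) (nat_lit 228) (nat_lit 7827811894) (nat_lit 68) (nat_lit 5) (nat_lit 70) (nat_lit 5) (nat_lit 71) (nat_lit 5) (nat_lit 390) (nat_lit 334)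 (nat_lit 296)) (XT.nd (nat_lit 78) (nat_lit 152) (nat_lit 0) (XT.lf (nat_lit 0) (nat_lit 77613318) (nat_lit 228) (nat_lit 12009813321) (nat_lit 76) (nat_lit 5268749555) (nat_lit 65) (nat_lit 5) (nat_lit 68) (nat_lit 5) (nat_lit 66) (nat_lit 5) (nat_lit 391) (nat_lit 334) (nat_lit 295)) (XT.lf (nat_lit 0) (nat_lit 5307930518) (nat_lit 152) (nat_lit 3009567048) (nat_lit 228) (nat_lit 9608555757) (nat_lit 63) (nat_lit 5) (nat_lit 65) (nat_lit 5) (nat_lit 66) (nat_lit 5) (nat_lit 392) (nat_lit 334) (nat_lit 294)))) (XT.nd (nat_lit 78) (nat_lit 304) (nat_lit 0) (XT.lf (nat_lit 0) (nat_lit 5059452619) (nat_lit 152) (nat_lit 12037268982) (nat_lit 228) (nat_lit 1423892241) (nat_lit 61) (nat_lit 5) (nat_lit 63) (nat_lit 5) (nat_lit 64) (nat_lit 4) (nat_lit 393) (nat_lit 334) (nat_lit 293)) (XT.nd (nat_lit 78) (nat_lit 76) (nat_lit 0) (XT.lf (nat_lit 0) (nat_lit 4537898809) (nat_lit 152) (nat_lit 2590818187)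 (nat_lit 228) (nat_lit 12011168118) (nat_lit 58) (nat_lit 5) (nat_lit 60) (nat_lit 5) (nat_lit 61) (nat_lit 5) (nat_lit 394) (nat_lit 334) (nat_lit 292)) (XT.lf (nat_lit 0) (nat_lit 3728427257) (nat_lit 76) (nat_lit 12493478126) (nat_lit 152) (nat_lit 3563528437) (nat_lit 57) (nat_lit 5) (nat_lit 58) (nat_lit 5) (nat_lit 59) (nat_lit 4) (nat_lit 395) (nat_lit 334) (nat_lit 291))))) (XT.nd (nat_lit 234) (nat_lit 532) (nat_lit 0) (XT.nd (nat_lit 78) (nat_lit 152) (nat_lit 0) (XT.lf (nat_lit 0) (nat_lit 2607004171) (nat_lit 152) (nat_lit 2697024807) (nat_lit 228) (nat_lit 15154676231) (nat_lit 54) (nat_lit 5) (nat_lit 56) (nat_lit 5) (nat_lit 57) (nat_lit 5) (nat_lit 396) (nat_lit 334) (nat_lit 290)) (XT.nd (nat_lit 78) (nat_lit 76) (nat_lit 0) (XT.lf (nat_lit 0) (nat_lit 1106322848) (nat_lit 76) (nat_lit 13586527712) (nat_lit 152) (nat_lit 6467191245) (nat_lit 53) (nat_lit 5) (nat_lit 54) (nat_lit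 5) (nat_lit 55) (nat_lit 4) (nat_lit 397) (nat_lit 334) (nat_lit 289)) (XT.lf (nat_lit 0) (nat_lit 2718122648) (nat_lit 152) (nat_lit 740663201) (nat_lit 76) (nat_lit 18433443230) (nat_lit 52) (nat_lit 5) (nat_lit 54) (nat_lit 5) (nat_lit 53) (nat_lit 5) (nat_lit 398) (nat_lit 334) (nat_lit 288)))) (XT.nd (nat_lit 156) (nat_lit 304) (nat_lit 0) (XT.nd (nat_lit 78) (nat_lit 76) (nat_lit 0) (XT.lf (nat_lit 0) (nat_lit 12397246517) (nat_lit 228) (nat_lit 3041896876) (nat_lit 76) (nat_lit 7214919263) (nat_lit 50) (nat_lit 5) (nat_lit 53) (nat_lit 5) (nat_lit 51) (nat_lit 4) (nat_lit 399) (nat_lit 334) (nat_lit 287)) (XT.lf (nat_lit 0) (nat_lit 17685560558) (nat_lit 76) (nat_lit 4996554687) (nat_lit 152) (nat_lit 768225448) (nat_lit 49) (nat_lit 5) (nat_lit 50) (nat_lit 5) (nat_lit 51) (nat_lit 4) (nat_lit 400) (nat_lit 334) (nat_lit 286))) (XT.nd (nat_lit 78) (nat_lit 76) (nat_lit 0) (XT.lf (nat_lit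 0) (nat_lit 9164103974) (nat_lit 228) (nat_lit 9069468230) (nat_lit 76) (nat_lit 6045752818) (nat_lit 46) (nat_lit 5) (nat_lit 49) (nat_lit 5) (nat_lit 47) (nat_lit 4) (nat_lit 401) (nat_lit 334) (nat_lit 285)) (XT.lf (nat_lit 0) (nat_lit 12222473855) (nat_lit 76) (nat_lit 7495699683) (nat_lit 152) (nat_lit 5427132163) (nat_lit 45) (nat_lit 5) (nat_lit 46) (nat_lit 5) (nat_lit 47) (nat_lit 4) (nat_lit 402) (nat_lit 334) (nat_lit 284))))))))
noncomputable def xc38 : XT := (XT.nd (nat_lit 1950) (nat_lit 456) (nat_lit 0) (XT.nd (nat_lit 936) (nat_lit 836) (nat_lit 0) (XT.nd (nat_lit 468) (nat_lit 456) (nat_lit 0) (XT.nd (nat_lit 234) (nat_lit 456) (nat_lit 0) (XT.nd (nat_lit 78) (nat_lit 76) (nat_lit 0) (XT.lf (nat_lit 0) (nat_lit 4783092902) (nat_lit 228) (nat_lit 17408683384) (nat_lit 76) (nat_lit 3857535985) (nat_lit 42) (nat_lit 5) (nat_lit 45) (nat_lit 5) (nat_lit 43) (nat_lit 4) (nat_lit 403)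 (nat_lit 334) (nat_lit 283)) (XT.nd (nat_lit 78) (nat_lit 0) (nat_lit 0) (XT.lf (nat_lit 0) (nat_lit 4353791398) (nat_lit 76) (nat_lit 11207349182) (nat_lit 152) (nat_lit 11430684981) (nat_lit 41) (nat_lit 5) (nat_lit 42) (nat_lit 5) (nat_lit 43) (nat_lit 4) (nat_lit 404) (nat_lit 334) (nat_lit 282)) (XT.lf (nat_lit 0) (nat_lit 26980674810) (nat_lit 152) (nat_lit 567252191) (nat_lit 0) (nat_lit 430464745) (nat_lit 41) (nat_lit 5) (nat_lit 43) (nat_lit 4) (nat_lit 41) (nat_lit 4) (nat_lit 405) (nat_lit 334) (nat_lit 281)))) (XT.nd (nat_lit 78) (nat_lit 228) (nat_lit 0) (XT.lf (nat_lit 0) (nat_lit 10019674675) (nat_lit 228) (nat_lit 6313268518) (nat_lit 76) (nat_lit 12670763986) (nat_lit 38) (nat_lit 5) (nat_lit 41) (nat_lit 5) (nat_lit 39) (nat_lit 4) (nat_lit 406) (nat_lit 334) (nat_lit 280)) (XT.nd (nat_lit 78) (nat_lit 152) (nat_lit 0) (XT.lf (nat_lit 0) (nat_lit 17224354455) (nat_lit 76) (nat_lit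 4438530245) (nat_lit 152) (nat_lit 8414244027) (nat_lit 37) (nat_lit 5) (nat_lit 38) (nat_lit 5) (nat_lit 39) (nat_lit 4) (nat_lit 407) (nat_lit 334) (nat_lit 279)) (XT.lf (nat_lit 0) (nat_lit 2806345484) (nat_lit 152) (nat_lit 20365957258) (nat_lit 76) (nat_lit 8025907860) (nat_lit 35) (nat_lit 5) (nat_lit 37) (nat_lit 5) (nat_lit 36) (nat_lit 4) (nat_lit 408) (nat_lit 334) (nat_lit 278))))) (XT.nd (nat_lit 234) (nat_lit 228) (nat_lit 0) (XT.nd (nat_lit 78) (nat_lit 152) (nat_lit 0) (XT.lf (nat_lit 0) (nat_lit 3394735339) (nat_lit 76) (nat_lit 11158937592) (nat_lit 152) (nat_lit 17814986210) (nat_lit 34) (nat_lit 5) (nat_lit 35) (nat_lit 5) (nat_lit 36) (nat_lit 4) (nat_lit 409) (nat_lit 334) (nat_lit 277)) (XT.nd (nat_lit 78) (nat_lit 152) (nat_lit 0) (XT.lf (nat_lit 0) (nat_lit 27042694080) (nat_lit 152) (nat_lit 4975081076) (nat_lit 0) (nat_lit 1575228644) (nat_lit 34) (nat_lit 5) (nat_lit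 36) (nat_lit 4) (nat_lit 34) (nat_lit 4) (nat_lit 410) (nat_lit 334) (nat_lit 276)) (XT.lf (nat_lit 0) (nat_lit 5417528512) (nat_lit 152) (nat_lit 14545951613) (nat_lit 76) (nat_lit 14906279481) (nat_lit 32) (nat_lit 5) (nat_lit 34) (nat_lit 5) (nat_lit 33) (nat_lit 4) (nat_lit 411) (nat_lit 334) (nat_lit 275)))) (XT.nd (nat_lit 78) (nat_lit 152) (nat_lit 0) (XT.lf (nat_lit 0) (nat_lit 10799083336) (nat_lit 76) (nat_lit 7139372107) (nat_lit 152) (nat_lit 18267250197) (nat_lit 31) (nat_lit 5) (nat_lit 32) (nat_lit 5) (nat_lit 33) (nat_lit 4) (nat_lit 412) (nat_lit 334) (nat_lit 274)) (XT.nd (nat_lit 78) (nat_lit 152) (nat_lit 0) (XT.lf (nat_lit 0) (nat_lit 31232244191) (nat_lit 152) (nat_lit 76431012) (nat_lit 0) (nat_lit 6295372256) (nat_lit 31) (nat_lit 5) (nat_lit 33) (nat_lit 4) (nat_lit 31) (nat_lit 4) (nat_lit 413) (nat_lit 334) (nat_lit 273)) (XT.lf (nat_lit 0) (nat_lit 6269750507) (nat_lit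 152) (nat_lit 12273075796) (nat_lit 76) (nat_lit 20519596566) (nat_lit 29) (nat_lit 5) (nat_lit 31) (nat_lit 5) (nat_lit 30) (nat_lit 4) (nat_lit 414) (nat_lit 334) (nat_lit 272)))))) (XT.nd (nat_lit 468) (nat_lit 456) (nat_lit 0) (XT.nd (nat_lit 234) (nat_lit 152) (nat_lit 0) (XT.nd (nat_lit 78) (nat_lit 152) (nat_lit 0) (XT.lf (nat_lit 0) (nat_lit 14507766087) (nat_lit 76) (nat_lit 4984448116) (nat_lit 152) (nat_lit 21097194498) (nat_lit 28) (nat_lit 5) (nat_lit 29) (nat_lit 5) (nat_lit 30) (nat_lit 4) (nat_lit 415) (nat_lit 334) (nat_lit 271)) (XT.nd (nat_lit 78) (nat_lit 76) (nat_lit 0) (XT.lf (nat_lit 0) (nat_lit 499515781) (nat_lit 76) (nat_lit 33038021667) (nat_lit 76) (nat_lit 8650356755) (nat_lit 27) (nat_lit 4) (nat_lit 28) (nat_lit 5) (nat_lit 28) (nat_lit 4) (nat_lit 416) (nat_lit 334) (nat_lit 270)) (XT.lf (nat_lit 0) (nat_lit 4595646693) (nat_lit 152) (nat_lit 15112007545) (nat_lit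 76) (nat_lit 24149486205) (nat_lit 26) (nat_lit 5) (nat_lit 28) (nat_lit 5) (nat_lit 27) (nat_lit 4) (nat_lit 417) (nat_lit 334) (nat_lit 269)))) (XT.nd (nat_lit 78) (nat_lit 76) (nat_lit 0) (XT.lf (nat_lit 0) (nat_lit 12848908848) (nat_lit 76) (nat_lit 5545690524) (nat_lit 152) (nat_lit 27210595835) (nat_lit 25) (nat_lit 5) (nat_lit 26) (nat_lit 5) (nat_lit 27) (nat_lit 4) (nat_lit 418) (nat_lit 334) (nat_lit 268)) (XT.nd (nat_lit 78) (nat_lit 76) (nat_lit 0) (XT.lf (nat_lit 0) (nat_lit 33075769913) (nat_lit 152) (nat_lit 5109229250) (nat_lit 0) (nat_lit 9249887512) (nat_lit 25) (nat_lit 5) (nat_lit 27) (nat_lit 4) (nat_lit 25) (nat_lit 4) (nat_lit 419) (nat_lit 334) (nat_lit 267)) (XT.lf (nat_lit 0) (nat_lit 24236442968) (nat_lit 76) (nat_lit 24491632800) (nat_lit 76) (nat_lit 620876617) (nat_lit 24) (nat_lit 4) (nat_lit 25) (nat_lit 5) (nat_lit 25) (nat_lit 4) (nat_lit 420) (nat_lit 334) (nat_lit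 266))))) (XT.nd (nat_lit 234) (nat_lit 228) (nat_lit 0) (XT.nd (nat_lit 78) (nat_lit 76) (nat_lit 0) (XT.lf (nat_lit 0) (nat_lit 3637965977) (nat_lit 76) (nat_lit 9934181360) (nat_lit 152) (nat_lit 37781477726) (nat_lit 22) (nat_lit 5) (nat_lit 23) (nat_lit 5) (nat_lit 24) (nat_lit 4) (nat_lit 421) (nat_lit 334) (nat_lit 265)) (XT.nd (nat_lit 78) (nat_lit 76) (nat_lit 0) (XT.lf (nat_lit 0) (nat_lit 28724816959) (nat_lit 152) (nat_lit 19257329682) (nat_lit 0) (nat_lit 5468316997) (nat_lit 22) (nat_lit 5) (nat_lit 24) (nat_lit 4) (nat_lit 22) (nat_lit 4) (nat_lit 422) (nat_lit 334) (nat_lit 264)) (XT.lf (nat_lit 0) (nat_lit 10638838980) (nat_lit 76) (nat_lit 34151394007) (nat_lit 76) (nat_lit 10857259424) (nat_lit 21) (nat_lit 4) (nat_lit 22) (nat_lit 5) (nat_lit 22) (nat_lit 4) (nat_lit 423) (nat_lit 334) (nat_lit 263)))) (XT.nd (nat_lit 156) (nat_lit 76) (nat_lit 0) (XT.nd (nat_lit 78) (nat_lit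 76) (nat_lit 0) (XT.lf (nat_lit 0) (nat_lit 3785973987) (nat_lit 152) (nat_lit 15644449884) (nat_lit 76) (nat_lit 38518270494) (nat_lit 20) (nat_lit 5) (nat_lit 22) (nat_lit 5) (nat_lit 21) (nat_lit 4) (nat_lit 424) (nat_lit 334) (nat_lit 262)) (XT.lf (nat_lit 0) (nat_lit 15290378886) (nat_lit 76) (nat_lit 3751242629) (nat_lit 152) (nat_lit 41316967514) (nat_lit 19) (nat_lit 5) (nat_lit 20) (nat_lit 5) (nat_lit 21) (nat_lit 4) (nat_lit 425) (nat_lit 334) (nat_lit 261))) (XT.nd (nat_lit 78) (nat_lit 76) (nat_lit 0) (XT.lf (nat_lit 0) (nat_lit 35301523971) (nat_lit 152) (nat_lit 14993855648) (nat_lit 0) (nat_lit 12586356018) (nat_lit 19) (nat_lit 5) (nat_lit 21) (nat_lit 4) (nat_lit 19) (nat_lit 4) (nat_lit 426) (nat_lit 334) (nat_lit 260)) (XT.lf (nat_lit 0) (nat_lit 16793298169) (nat_lit 76) (nat_lit 35739115601) (nat_lit 76) (nat_lit 12993887361) (nat_lit 18) (nat_lit 4) (nat_lit 19) (nat_lit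 5) (nat_lit 19) (nat_lit 4) (nat_lit 427) (nat_lit 334) (nat_lit 259))))))) (XT.nd (nat_lit 47190) (nat_lit 0) (nat_lit 13224) (XT.nd (nat_lit 468) (nat_lit 152) (nat_lit 0) (XT.nd (nat_lit 234) (nat_lit 152) (nat_lit 0) (XT.nd (nat_lit 78) (nat_lit 76) (nat_lit 0) (XT.lf (nat_lit 0) (nat_lit 2391841100) (nat_lit 152) (nat_lit 17918419652) (nat_lit 76) (nat_lit 47988704017) (nat_lit 17) (nat_lit 5) (nat_lit 19) (nat_lit 5) (nat_lit 18) (nat_lit 4) (nat_lit 428) (nat_lit 334) (nat_lit 258)) (XT.nd (nat_lit 78) (nat_lit 0) (nat_lit 0) (XT.lf (nat_lit 0) (nat_lit 14513480213) (nat_lit 76) (nat_lit 3868097552) (nat_lit 152) (nat_lit 52821721755) (nat_lit 16) (nat_lit 5) (nat_lit 17) (nat_lit 5) (nat_lit 18) (nat_lit 4) (nat_lit 429) (nat_lit 334) (nat_lit 257)) (XT.lf (nat_lit 0) (nat_lit 35448085160) (nat_lit 152) (nat_lit 25510586447) (nat_lit 0) (nat_lit 13285861996) (nat_lit 16) (nat_lit 5) (nat_lit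 18) (nat_lit 4) (nat_lit 16) (nat_lit 4) (nat_lit 430) (nat_lit 334) (nat_lit 256)))) (XT.nd (nat_lit 78) (nat_lit 76) (nat_lit 0) (XT.lf (nat_lit 0) (nat_lit 7259668784) (nat_lit 76) (nat_lit 46181104759) (nat_lit 76) (nat_lit 23994871233) (nat_lit 15) (nat_lit 4) (nat_lit 16) (nat_lit 5) (nat_lit 16) (nat_lit 4) (nat_lit 431) (nat_lit 334) (nat_lit 255)) (XT.nd (nat_lit 78) (nat_lit 76) (nat_lit 0) (XT.lf (nat_lit 0) (nat_lit 42132995677) (nat_lit 76) (nat_lit 30427793297) (nat_lit 76) (nat_lit 8218692760) (nat_lit 15) (nat_lit 4) (nat_lit 16) (nat_lit 5) (nat_lit 16) (nat_lit 4) (nat_lit 432) (nat_lit 334) (nat_lit 254)) (XT.lf (nat_lit 0) (nat_lit 8149844515) (nat_lit 152) (nat_lit 5686694276) (nat_lit 76) (nat_lit 70452573305) (nat_lit 14) (nat_lit 5) (nat_lit 16) (nat_lit 5) (nat_lit 15) (nat_lit 4) (nat_lit 433) (nat_lit 334) (nat_lit 253))))) (XT.nd (nat_lit 234) (nat_lit 0) (nat_lit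 0) (XT.nd (nat_lit 78) (nat_lit 76) (nat_lit 0) (XT.lf (nat_lit 0) (nat_lit 25456312544) (nat_lit 152) (nat_lit 58653988474) (nat_lit 0) (nat_lit 3852798275) (nat_lit 13) (nat_lit 5) (nat_lit 15) (nat_lit 4) (nat_lit 13) (nat_lit 4) (nat_lit 434) (nat_lit 334) (nat_lit 252)) (XT.nd (nat_lit 78) (nat_lit 76) (nat_lit 0) (XT.lf (nat_lit 0) (nat_lit 43795542734) (nat_lit 152) (nat_lit 25847370374) (nat_lit 0) (nat_lit 22172850422) (nat_lit 13) (nat_lit 5) (nat_lit 15) (nat_lit 4) (nat_lit 13) (nat_lit 4) (nat_lit 435) (nat_lit 334) (nat_lit 251)) (XT.lf (nat_lit 0) (nat_lit 8710847277) (nat_lit 76) (nat_lit 54394777456) (nat_lit 76) (nat_lit 32753820341) (nat_lit 12) (nat_lit 4) (nat_lit 13) (nat_lit 5) (nat_lit 13) (nat_lit 4) (nat_lit 436) (nat_lit 334) (nat_lit 250)))) (XT.nd (nat_lit 46332) (nat_lit 0) (nat_lit 24928) (XT.lf (nat_lit 0) (nat_lit 45480081421) (nat_lit 76) (nat_lit 38138234525)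 (nat_lit 76) (nat_lit 16479882360) (nat_lit 12) (nat_lit 4) (nat_lit 13) (nat_lit 5) (nat_lit 13) (nat_lit 4) (nat_lit 437) (nat_lit 334) (nat_lit 249)) (XT.nd (nat_lit 78) (nat_lit 836) (nat_lit 0) (XT.lf (nat_lit 0) (nat_lit 1704308721) (nat_lit 684) (nat_lit 831669312) (nat_lit 684) (nat_lit 831669312) (nat_lit 351) (nat_lit 4) (nat_lit 360) (nat_lit 5) (nat_lit 360) (nat_lit 4) (nat_lit 350) (nat_lit 335) (nat_lit 335)) (XT.lf (nat_lit 0) (nat_lit 3728153044) (nat_lit 836) (nat_lit 2725191860) (nat_lit 0) (nat_lit 344929861) (nat_lit 340) (nat_lit 5) (nat_lit 351) (nat_lit 4) (nat_lit 340) (nat_lit 4) (nat_lit 351) (nat_lit 335) (nat_lit 334)))))) (XT.nd (nat_lit 468) (nat_lit 4560) (nat_lit 0) (XT.nd (nat_lit 234) (nat_lit 4256) (nat_lit 0) (XT.nd (nat_lit 78) (nat_lit 1976) (nat_lit 0) (XT.lf (nat_lit 0) (nat_lit 2253940076) (nat_lit 912) (nat_lit 2029842145) (nat_lit 76) (nat_lit 2585197671)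 (nat_lit 328) (nat_lit 5) (nat_lit 340) (nat_lit 5) (nat_lit 329) (nat_lit 4) (nat_lit 352) (nat_lit 335) (nat_lit 333)) (XT.nd (nat_lit 78) (nat_lit 988) (nat_lit 0) (XT.lf (nat_lit 0) (nat_lit 627611549) (nat_lit 988) (nat_lit 1224111540) (nat_lit 76) (nat_lit 5096303585) (nat_lit 315) (nat_lit 5) (nat_lit 328) (nat_lit 5) (nat_lit 316) (nat_lit 5) (nat_lit 353) (nat_lit 335) (nat_lit 332)) (XT.lf (nat_lit 0) (nat_lit 5863493006) (nat_lit 1064) (nat_lit 326797594) (nat_lit 76) (nat_lit 844689221) (nat_lit 302) (nat_lit 5) (nat_lit 316) (nat_lit 5) (nat_lit 303) (nat_lit 4) (nat_lit 354) (nat_lit 335) (nat_lit 331)))) (XT.nd (nat_lit 78) (nat_lit 1976) (nat_lit 0) (XT.lf (nat_lit 0) (nat_lit 667564168) (nat_lit 1140) (nat_lit 3338513714) (nat_lit 1216) (nat_lit 3123478665) (nat_lit 272) (nat_lit 5) (nat_lit 287) (nat_lit 5) (nat_lit 288) (nat_lit 5) (nat_lit 355) (nat_lit 335) (nat_lit 330))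 (XT.nd (nat_lit 78) (nat_lit 684) (nat_lit 0) (XT.lf (nat_lit 0) (nat_lit 1779910473) (nat_lit 1216) (nat_lit 209191012) (nat_lit 1292) (nat_lit 5243623138) (nat_lit 255) (nat_lit 5) (nat_lit 271) (nat_lit 5) (nat_lit 272) (nat_lit 5) (nat_lit 356) (nat_lit 335) (nat_lit 329)) (XT.lf (nat_lit 0) (nat_lit 2971917076) (nat_lit 684) (nat_lit 4201285169) (nat_lit 760) (nat_lit 170605031) (nat_lit 246) (nat_lit 5) (nat_lit 255) (nat_lit 5) (nat_lit 256) (nat_lit 5) (nat_lit 357) (nat_lit 335) (nat_lit 328))))) (XT.nd (nat_lit 234) (nat_lit 2660) (nat_lit 0) (XT.nd (nat_lit 78) (nat_lit 1216) (nat_lit 0) (XT.lf (nat_lit 0) (nat_lit 4252056503) (nat_lit 608) (nat_lit 664518606) (nat_lit 684) (nat_lit 2546639524) (nat_lit 237) (nat_lit 5) (nat_lit 245) (nat_lit 5) (nat_lit 246) (nat_lit 5) (nat_lit 358) (nat_lit 335) (nat_lit 327)) (XT.nd (nat_lit 78) (nat_lit 532) (nat_lit 0) (XT.lf (nat_lit 0) (nat_lit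 2512248070) (nat_lit 684) (nat_lit 1977781754) (nat_lit 76) (nat_lit 3100880519) (nat_lit 228) (nat_lit 5) (nat_lit 237) (nat_lit 5) (nat_lit 229) (nat_lit 5) (nat_lit 359) (nat_lit 335) (nat_lit 326)) (XT.lf (nat_lit 0) (nat_lit 7078430683) (nat_lit 532) (nat_lit 578239891) (nat_lit 608) (nat_lit 71086383) (nat_lit 221) (nat_lit 5) (nat_lit 228) (nat_lit 5) (nat_lit 229) (nat_lit 5) (nat_lit 360) (nat_lit 335) (nat_lit 325)))) (XT.nd (nat_lit 156) (nat_lit 988) (nat_lit 0) (XT.nd (nat_lit 78) (nat_lit 608) (nat_lit 0) (XT.lf (nat_lit 0) (nat_lit 736096788) (nat_lit 456) (nat_lit 4278067702) (nat_lit 532) (nat_lit 2858004573) (nat_lit 207) (nat_lit 5) (nat_lit 213) (nat_lit 5) (nat_lit 214) (nat_lit 5) (nat_lit 361) (nat_lit 335) (nat_lit 324)) (XT.lf (nat_lit 0) (nat_lit 2190682605) (nat_lit 608) (nat_lit 5793867531) (nat_lit 76) (nat_lit 41396976) (nat_lit 199) (nat_lit 5) (nat_lit 207) (nat_lit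 5) (nat_lit 200) (nat_lit 5) (nat_lit 362) (nat_lit 335) (nat_lit 323))) (XT.nd (nat_lit 78) (nat_lit 532) (nat_lit 0) (XT.lf (nat_lit 0) (nat_lit 3780824356) (nat_lit 456) (nat_lit 3599501763) (nat_lit 532) (nat_lit 807875532) (nat_lit 193) (nat_lit 5) (nat_lit 199) (nat_lit 5) (nat_lit 200) (nat_lit 5) (nat_lit 363) (nat_lit 335) (nat_lit 322)) (XT.lf (nat_lit 0) (nat_lit 4305434498) (nat_lit 532) (nat_lit 2959742732) (nat_lit 76) (nat_lit 1094509009) (nat_lit 186) (nat_lit 5) (nat_lit 193) (nat_lit 5) (nat_lit 187) (nat_lit 5) (nat_lit 364) (nat_lit 335) (nat_lit 321))))))))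
noncomputable def xc39 : XT := (XT.nd (nat_lit 1950) (nat_lit 3268) (nat_lit 0) (XT.nd (nat_lit 936) (nat_lit 3192) (nat_lit 0) (XT.nd (nat_lit 468) (nat_lit 2356) (nat_lit 0) (XT.nd (nat_lit 234) (nat_lit 1216) (nat_lit 0) (XT.nd (nat_lit 78) (nat_lit 1292) (nat_lit 0) (XT.lf (nat_lit 0) (nat_lit 1052013510) (nat_lit 532) (nat_lit 1454115856) (nat_lit 76) (nat_lit 6034440073) (nat_lit 179) (nat_lit 5) (nat_lit 186) (nat_lit 5) (nat_lit 180) (nat_lit 5) (nat_lit 365) (nat_lit 335) (nat_lit 320)) (XT.nd (nat_lit 78) (nat_lit 456) (nat_lit 0) (XT.lf (nat_lit 0) (nat_lit 99690798) (nat_lit 380) (nat_lit 6183272884) (nat_lit 456) (nat_lit 2447785540) (nat_lit 168) (nat_lit 5) (nat_lit 173) (nat_lit 5) (nat_lit 174) (nat_lit 5) (nat_lit 366) (nat_lit 335) (nat_lit 319)) (XT.lf (nat_lit 0) (nat_lit 1741072050) (nat_lit 380) (nat_lit 1022517632) (nat_lit 456) (nat_lit 6166854614) (nat_lit 162) (nat_lit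 5) (nat_lit 167) (nat_lit 5) (nat_lit 168) (nat_lit 5) (nat_lit 367) (nat_lit 335) (nat_lit 318)))) (XT.nd (nat_lit 78) (nat_lit 836) (nat_lit 0) (XT.lf (nat_lit 0) (nat_lit 3424891084) (nat_lit 380) (nat_lit 4743949380) (nat_lit 456) (nat_lit 971085565) (nat_lit 157) (nat_lit 5) (nat_lit 162) (nat_lit 5) (nat_lit 163) (nat_lit 5) (nat_lit 368) (nat_lit 335) (nat_lit 317)) (XT.nd (nat_lit 78) (nat_lit 380) (nat_lit 0) (XT.lf (nat_lit 0) (nat_lit 4362529084) (nat_lit 456) (nat_lit 4203870752) (nat_lit 76) (nat_lit 793265184) (nat_lit 151) (nat_lit 5) (nat_lit 157) (nat_lit 5) (nat_lit 152) (nat_lit 5) (nat_lit 369) (nat_lit 335) (nat_lit 316)) (XT.lf (nat_lit 0) (nat_lit 348467626) (nat_lit 380) (nat_lit 2658173282) (nat_lit 76) (nat_lit 6583318695) (nat_lit 146) (nat_lit 5) (nat_lit 151) (nat_lit 5) (nat_lit 147) (nat_lit 5) (nat_lit 370) (nat_lit 335) (nat_lit 315))))) (XT.nd (nat_lit 234) (nat_lit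 988) (nat_lit 0) (XT.nd (nat_lit 78) (nat_lit 988) (nat_lit 0) (XT.lf (nat_lit 0) (nat_lit 5847982171) (nat_lit 456) (nat_lit 1097169338) (nat_lit 76) (nat_lit 2885471912) (nat_lit 141) (nat_lit 5) (nat_lit 147) (nat_lit 5) (nat_lit 142) (nat_lit 5) (nat_lit 371) (nat_lit 335) (nat_lit 314)) (XT.nd (nat_lit 78) (nat_lit 304) (nat_lit 0) (XT.lf (nat_lit 0) (nat_lit 519546699) (nat_lit 304) (nat_lit 992298901) (nat_lit 380) (nat_lit 8570984437) (nat_lit 132) (nat_lit 5) (nat_lit 136) (nat_lit 5) (nat_lit 137) (nat_lit 5) (nat_lit 372) (nat_lit 335) (nat_lit 313)) (XT.lf (nat_lit 0) (nat_lit 2155770036) (nat_lit 304) (nat_lit 5079055718) (nat_lit 380) (nat_lit 3110587807) (nat_lit 128) (nat_lit 5) (nat_lit 132) (nat_lit 5) (nat_lit 133) (nat_lit 5) (nat_lit 373) (nat_lit 335) (nat_lit 312)))) (XT.nd (nat_lit 78) (nat_lit 608) (nat_lit 0) (XT.lf (nat_lit 0) (nat_lit 2572956022) (nat_lit 380) (nat_lit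 6789685517) (nat_lit 76) (nat_lit 1257720198) (nat_lit 123) (nat_lit 5) (nat_lit 128) (nat_lit 5) (nat_lit 124) (nat_lit 5) (nat_lit 374) (nat_lit 335) (nat_lit 311)) (XT.nd (nat_lit 78) (nat_lit 380) (nat_lit 0) (XT.lf (nat_lit 0) (nat_lit 5505681093) (nat_lit 228) (nat_lit 3007702937) (nat_lit 304) (nat_lit 2393667802) (nat_lit 120) (nat_lit 5) (nat_lit 123) (nat_lit 5) (nat_lit 124) (nat_lit 5) (nat_lit 375) (nat_lit 335) (nat_lit 310)) (XT.lf (nat_lit 0) (nat_lit 3500555751) (nat_lit 380) (nat_lit 4016679528) (nat_lit 76) (nat_lit 3689038955) (nat_lit 115) (nat_lit 5) (nat_lit 120) (nat_lit 5) (nat_lit 116) (nat_lit 5) (nat_lit 376) (nat_lit 335) (nat_lit 309)))))) (XT.nd (nat_lit 468) (nat_lit 1444) (nat_lit 0) (XT.nd (nat_lit 234) (nat_lit 760) (nat_lit 0) (XT.nd (nat_lit 78) (nat_lit 760) (nat_lit 0) (XT.lf (nat_lit 0) (nat_lit 8894580508) (nat_lit 228) (nat_lit 772764945) (nat_lit 304)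 (nat_lit 1851606597) (nat_lit 112) (nat_lit 5) (nat_lit 115) (nat_lit 5) (nat_lit 116) (nat_lit 5) (nat_lit 377) (nat_lit 335) (nat_lit 308)) (XT.nd (nat_lit 78) (nat_lit 456) (nat_lit 0) (XT.lf (nat_lit 0) (nat_lit 4275281734) (nat_lit 304) (nat_lit 1277020991) (nat_lit 76) (nat_lit 6291829917) (nat_lit 108) (nat_lit 5) (nat_lit 112) (nat_lit 5) (nat_lit 109) (nat_lit 5) (nat_lit 378) (nat_lit 335) (nat_lit 307)) (XT.lf (nat_lit 0) (nat_lit 81466322) (nat_lit 228) (nat_lit 10620470842) (nat_lit 304) (nat_lit 1482156576) (nat_lit 102) (nat_lit 5) (nat_lit 105) (nat_lit 5) (nat_lit 106) (nat_lit 5) (nat_lit 379) (nat_lit 335) (nat_lit 306)))) (XT.nd (nat_lit 78) (nat_lit 456) (nat_lit 0) (XT.lf (nat_lit 0) (nat_lit 1406715593) (nat_lit 228) (nat_lit 3488347933) (nat_lit 304) (nat_lit 7642135560) (nat_lit 98) (nat_lit 5) (nat_lit 101) (nat_lit 5) (nat_lit 102) (nat_lit 5) (nat_lit 380) (nat_lit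 335) (nat_lit 305)) (XT.nd (nat_lit 78) (nat_lit 228) (nat_lit 0) (XT.lf (nat_lit 0) (nat_lit 2716502359) (nat_lit 228) (nat_lit 8900623731) (nat_lit 304) (nat_lit 1288714542) (nat_lit 95) (nat_lit 5) (nat_lit 98) (nat_lit 5) (nat_lit 99) (nat_lit 5) (nat_lit 381) (nat_lit 335) (nat_lit 304)) (XT.lf (nat_lit 0) (nat_lit 3970009523) (nat_lit 152) (nat_lit 1365391749) (nat_lit 228) (nat_lit 7954237919) (nat_lit 92) (nat_lit 5) (nat_lit 94) (nat_lit 5) (nat_lit 95) (nat_lit 5) (nat_lit 382) (nat_lit 335) (nat_lit 303))))) (XT.nd (nat_lit 234) (nat_lit 760) (nat_lit 0) (XT.nd (nat_lit 78) (nat_lit 456) (nat_lit 0) (XT.lf (nat_lit 0) (nat_lit 5169595040) (nat_lit 228) (nat_lit 7185626024) (nat_lit 304) (nat_lit 1334307108) (nat_lit 89) (nat_lit 5) (nat_lit 92) (nat_lit 5) (nat_lit 93) (nat_lit 5) (nat_lit 383) (nat_lit 335) (nat_lit 302)) (XT.nd (nat_lit 78) (nat_lit 228) (nat_lit 0) (XT.lf (nat_lit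 0) (nat_lit 5560884406) (nat_lit 228) (nat_lit 7799141064) (nat_lit 76) (nat_lit 746166947) (nat_lit 86) (nat_lit 5) (nat_lit 89) (nat_lit 5) (nat_lit 87) (nat_lit 5) (nat_lit 384) (nat_lit 335) (nat_lit 301)) (XT.lf (nat_lit 0) (nat_lit 7360962934) (nat_lit 228) (nat_lit 5522730107) (nat_lit 304) (nat_lit 1656302591) (nat_lit 83) (nat_lit 5) (nat_lit 86) (nat_lit 5) (nat_lit 87) (nat_lit 5) (nat_lit 385) (nat_lit 335) (nat_lit 300)))) (XT.nd (nat_lit 156) (nat_lit 380) (nat_lit 0) (XT.nd (nat_lit 78) (nat_lit 152) (nat_lit 0) (XT.lf (nat_lit 0) (nat_lit 5538025412) (nat_lit 228) (nat_lit 6666980929) (nat_lit 76) (nat_lit 2786797755) (nat_lit 80) (nat_lit 5) (nat_lit 83) (nat_lit 5) (nat_lit 81) (nat_lit 5) (nat_lit 386) (nat_lit 335) (nat_lit 299)) (XT.lf (nat_lit 0) (nat_lit 9194737072) (nat_lit 152) (nat_lit 3966118006) (nat_lit 228) (nat_lit 2301778538) (nat_lit 78) (nat_lit 5) (nat_lit 80)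 (nat_lit 5) (nat_lit 81) (nat_lit 5) (nat_lit 387) (nat_lit 335) (nat_lit 298))) (XT.nd (nat_lit 78) (nat_lit 152) (nat_lit 0) (XT.lf (nat_lit 0) (nat_lit 5204275506) (nat_lit 228) (nat_lit 6020294776) (nat_lit 76) (nat_lit 4728002957) (nat_lit 75) (nat_lit 5) (nat_lit 78) (nat_lit 5) (nat_lit 76) (nat_lit 5) (nat_lit 388) (nat_lit 335) (nat_lit 297)) (XT.lf (nat_lit 0) (nat_lit 10555699187) (nat_lit 152) (nat_lit 2578678545) (nat_lit 228) (nat_lit 3329070080) (nat_lit 73) (nat_lit 5) (nat_lit 75) (nat_lit 5) (nat_lit 76) (nat_lit 5) (nat_lit 389) (nat_lit 335) (nat_lit 296))))))) (XT.nd (nat_lit 936) (nat_lit 1368) (nat_lit 0) (XT.nd (nat_lit 468) (nat_lit 760) (nat_lit 0) (XT.nd (nat_lit 234) (nat_lit 532) (nat_lit 0) (XT.nd (nat_lit 78) (nat_lit 380) (nat_lit 0) (XT.lf (nat_lit 0) (nat_lit 4498466753) (nat_lit 228) (nat_lit 5991081350) (nat_lit 76) (nat_lit 6505310755) (nat_lit 70) (nat_lit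 5) (nat_lit 73) (nat_lit 5) (nat_lit 71) (nat_lit 5) (nat_lit 390) (nat_lit 335) (nat_lit 295)) (XT.nd (nat_lit 78) (nat_lit 228) (nat_lit 0) (XT.lf (nat_lit 0) (nat_lit 11305466913) (nat_lit 152) (nat_lit 1434048603) (nat_lit 228) (nat_lit 4809617253) (nat_lit 68) (nat_lit 5) (nat_lit 70) (nat_lit 5) (nat_lit 71) (nat_lit 5) (nat_lit 391) (nat_lit 335) (nat_lit 294)) (XT.lf (nat_lit 0) (nat_lit 3345721404) (nat_lit 228) (nat_lit 6737254280) (nat_lit 76) (nat_lit 8042777990) (nat_lit 65) (nat_lit 5) (nat_lit 68) (nat_lit 5) (nat_lit 66) (nat_lit 5) (nat_lit 392) (nat_lit 335) (nat_lit 293)))) (XT.nd (nat_lit 78) (nat_lit 380) (nat_lit 0) (XT.lf (nat_lit 0) (nat_lit 11278026960) (nat_lit 152) (nat_lit 618970569) (nat_lit 228) (nat_lit 6830159701) (nat_lit 63) (nat_lit 5) (nat_lit 65) (nat_lit 5) (nat_lit 66) (nat_lit 5) (nat_lit 393) (nat_lit 335) (nat_lit 292)) (XT.nd (nat_lit 78) (nat_lit 152)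 (nat_lit 0) (XT.lf (nat_lit 0) (nat_lit 1655119635) (nat_lit 228) (nat_lit 8447545232) (nat_lit 76) (nat_lit 9250511707) (nat_lit 60) (nat_lit 5) (nat_lit 63) (nat_lit 5) (nat_lit 61) (nat_lit 5) (nat_lit 394) (nat_lit 335) (nat_lit 291)) (XT.lf (nat_lit 0) (nat_lit 10274500705) (nat_lit 152) (nat_lit 236026205) (nat_lit 228) (nat_lit 9495335855) (nat_lit 58) (nat_lit 5) (nat_lit 60) (nat_lit 5) (nat_lit 61) (nat_lit 5) (nat_lit 395) (nat_lit 335) (nat_lit 290))))) (XT.nd (nat_lit 234) (nat_lit 380) (nat_lit 0) (XT.nd (nat_lit 78) (nat_lit 304) (nat_lit 0) (XT.lf (nat_lit 0) (nat_lit 9331832178) (nat_lit 76) (nat_lit 10657292207) (nat_lit 152) (nat_lit 696654192) (nat_lit 57) (nat_lit 5) (nat_lit 58) (nat_lit 5) (nat_lit 59) (nat_lit 4) (nat_lit 396) (nat_lit 335) (nat_lit 289)) (XT.nd (nat_lit 78) (nat_lit 76) (nat_lit 0) (XT.lf (nat_lit 0) (nat_lit 8057007208) (nat_lit 152) (nat_lit 406816844)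 (nat_lit 228) (nat_lit 12930753715) (nat_lit 54) (nat_lit 5) (nat_lit 56) (nat_lit 5) (nat_lit 57) (nat_lit 5) (nat_lit 397) (nat_lit 335) (nat_lit 288)) (XT.lf (nat_lit 0) (nat_lit 6390729163) (nat_lit 76) (nat_lit 11865986070) (nat_lit 152) (nat_lit 3876237814) (nat_lit 53) (nat_lit 5) (nat_lit 54) (nat_lit 5) (nat_lit 55) (nat_lit 4) (nat_lit 398) (nat_lit 335) (nat_lit 287)))) (XT.nd (nat_lit 78) (nat_lit 152) (nat_lit 0) (XT.lf (nat_lit 0) (nat_lit 4341465905) (nat_lit 152) (nat_lit 1275671176) (nat_lit 228) (nat_lit 17286612158) (nat_lit 50) (nat_lit 5) (nat_lit 52) (nat_lit 5) (nat_lit 53) (nat_lit 5) (nat_lit 399) (nat_lit 335) (nat_lit 286)) (XT.nd (nat_lit 78) (nat_lit 76) (nat_lit 0) (XT.lf (nat_lit 0) (nat_lit 1788757820) (nat_lit 76) (nat_lit 13905980036) (nat_lit 152) (nat_lit 8011510450) (nat_lit 49) (nat_lit 5) (nat_lit 50) (nat_lit 5) (nat_lit 51) (nat_lit 4) (nat_lit 400) (nat_lit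 335) (nat_lit 285)) (XT.lf (nat_lit 0) (nat_lit 1814769194) (nat_lit 152) (nat_lit 1187217539) (nat_lit 76) (nat_lit 21542759246) (nat_lit 48) (nat_lit 5) (nat_lit 50) (nat_lit 5) (nat_lit 49) (nat_lit 5) (nat_lit 401) (nat_lit 335) (nat_lit 284)))))) (XT.nd (nat_lit 468) (nat_lit 608) (nat_lit 0) (XT.nd (nat_lit 234) (nat_lit 304) (nat_lit 0) (XT.nd (nat_lit 78) (nat_lit 304) (nat_lit 0) (XT.lf (nat_lit 0) (nat_lit 12170324683) (nat_lit 228) (nat_lit 4749243778) (nat_lit 76) (nat_lit 8497116252) (nat_lit 46) (nat_lit 5) (nat_lit 49) (nat_lit 5) (nat_lit 47) (nat_lit 4) (nat_lit 402) (nat_lit 335) (nat_lit 283)) (XT.nd (nat_lit 78) (nat_lit 228) (nat_lit 0) (XT.lf (nat_lit 0) (nat_lit 17470458321) (nat_lit 76) (nat_lit 5704877675) (nat_lit 152) (nat_lit 3152939191) (nat_lit 45) (nat_lit 5) (nat_lit 46) (nat_lit 5) (nat_lit 47) (nat_lit 4) (nat_lit 403) (nat_lit 335) (nat_lit 282)) (XT.lf (nat_lit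 0) (nat_lit 7463522779) (nat_lit 228) (nat_lit 13674493330) (nat_lit 76) (nat_lit 6140377255) (nat_lit 42) (nat_lit 5) (nat_lit 45) (nat_lit 5) (nat_lit 43) (nat_lit 4) (nat_lit 404) (nat_lit 335) (nat_lit 281)))) (XT.nd (nat_lit 78) (nat_lit 228) (nat_lit 0) (XT.lf (nat_lit 0) (nat_lit 9044114562) (nat_lit 76) (nat_lit 9663100767) (nat_lit 152) (nat_lit 9563021678) (nat_lit 41) (nat_lit 5) (nat_lit 42) (nat_lit 5) (nat_lit 43) (nat_lit 4) (nat_lit 405) (nat_lit 335) (nat_lit 280)) (XT.nd (nat_lit 78) (nat_lit 0) (nat_lit 0) (XT.lf (nat_lit 0) (nat_lit 1306770284) (nat_lit 228) (nat_lit 25534216259) (nat_lit 76) (nat_lit 2466480177) (nat_lit 38) (nat_lit 5) (nat_lit 41) (nat_lit 5) (nat_lit 39) (nat_lit 4) (nat_lit 406) (nat_lit 335) (nat_lit 279)) (XT.lf (nat_lit 0) (nat_lit 12749065782) (nat_lit 228) (nat_lit 2399778662) (nat_lit 76) (nat_lit 15238073204) (nat_lit 38) (nat_lit 5) (nat_lit 41)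 (nat_lit 5) (nat_lit 39) (nat_lit 4) (nat_lit 407) (nat_lit 335) (nat_lit 278))))) (XT.nd (nat_lit 234) (nat_lit 304) (nat_lit 0) (XT.nd (nat_lit 78) (nat_lit 228) (nat_lit 0) (XT.lf (nat_lit 0) (nat_lit 22193497630) (nat_lit 76) (nat_lit 2714311933) (nat_lit 152) (nat_lit 6608205353) (nat_lit 37) (nat_lit 5) (nat_lit 38) (nat_lit 5) (nat_lit 39) (nat_lit 4) (nat_lit 408) (nat_lit 335) (nat_lit 277)) (XT.nd (nat_lit 78) (nat_lit 76) (nat_lit 0) (XT.lf (nat_lit 0) (nat_lit 5083160166) (nat_lit 152) (nat_lit 17306517415) (nat_lit 76) (nat_lit 10304240605) (nat_lit 35) (nat_lit 5) (nat_lit 37) (nat_lit 5) (nat_lit 36) (nat_lit 4) (nat_lit 409) (nat_lit 335) (nat_lit 276)) (XT.lf (nat_lit 0) (nat_lit 7525322279) (nat_lit 76) (nat_lit 9828867850) (nat_lit 152) (nat_lit 16570614083) (nat_lit 34) (nat_lit 5) (nat_lit 35) (nat_lit 5) (nat_lit 36) (nat_lit 4) (nat_lit 410) (nat_lit 335) (nat_lit 275))))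 (XT.nd (nat_lit 156) (nat_lit 152) (nat_lit 0) (XT.nd (nat_lit 78) (nat_lit 152) (nat_lit 0) (XT.lf (nat_lit 0) (nat_lit 30386240519) (nat_lit 152) (nat_lit 1409559617) (nat_lit 0) (nat_lit 3417013521) (nat_lit 34) (nat_lit 5) (nat_lit 36) (nat_lit 4) (nat_lit 34) (nat_lit 4) (nat_lit 411) (nat_lit 335) (nat_lit 274)) (XT.lf (nat_lit 0) (nat_lit 7639823848) (nat_lit 152) (nat_lit 11529381463) (nat_lit 76) (nat_lit 17385409111) (nat_lit 32) (nat_lit 5) (nat_lit 34) (nat_lit 5) (nat_lit 33) (nat_lit 4) (nat_lit 412) (nat_lit 335) (nat_lit 273))) (XT.nd (nat_lit 78) (nat_lit 76) (nat_lit 0) (XT.lf (nat_lit 0) (nat_lit 14975588017) (nat_lit 76) (nat_lit 5753241147) (nat_lit 152) (nat_lit 17230271947) (nat_lit 31) (nat_lit 5) (nat_lit 32) (nat_lit 5) (nat_lit 33) (nat_lit 4) (nat_lit 413) (nat_lit 335) (nat_lit 272)) (XT.lf (nat_lit 0) (nat_lit 3489443413) (nat_lit 76) (nat_lit 31157200116) (nat_lit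 76) (nat_lit 4781940514) (nat_lit 30) (nat_lit 4) (nat_lit 31) (nat_lit 5) (nat_lit 31) (nat_lit 4) (nat_lit 414) (nat_lit 335) (nat_lit 271))))))))
noncomputable def xc40 : XT := (XT.nd (nat_lit 47970) (nat_lit 0) (nat_lit 9120) (XT.nd (nat_lit 936) (nat_lit 532) (nat_lit 0) (XT.nd (nat_lit 468) (nat_lit 456) (nat_lit 0) (XT.nd (nat_lit 234) (nat_lit 152) (nat_lit 0) (XT.nd (nat_lit 78) (nat_lit 152) (nat_lit 0) (XT.lf (nat_lit 0) (nat_lit 8366101562) (nat_lit 152) (nat_lit 9449939543) (nat_lit 76) (nat_lit 23145941019) (nat_lit 29) (nat_lit 5) (nat_lit 31) (nat_lit 5) (nat_lit 30) (nat_lit 4) (nat_lit 415) (nat_lit 335) (nat_lit 270)) (XT.nd (nat_lit 78) (nat_lit 76) (nat_lit 0) (XT.lf (nat_lit 0) (nat_lit 18571429537) (nat_lit 76) (nat_lit 3625450185) (nat_lit 152) (nat_lit 20370025405) (nat_lit 28) (nat_lit 5) (nat_lit 29) (nat_lit 5) (nat_lit 30) (nat_lit 4) (nat_lit 416) (nat_lit 335) (nat_lit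 269)) (XT.lf (nat_lit 0) (nat_lit 3802543849) (nat_lit 76) (nat_lit 33105775407) (nat_lit 76) (nat_lit 7338083591) (nat_lit 27) (nat_lit 4) (nat_lit 28) (nat_lit 5) (nat_lit 28) (nat_lit 4) (nat_lit 417) (nat_lit 335) (nat_lit 268)))) (XT.nd (nat_lit 78) (nat_lit 76) (nat_lit 0) (XT.lf (nat_lit 0) (nat_lit 6454708881) (nat_lit 152) (nat_lit 12713163782) (nat_lit 76) (nat_lit 26833182683) (nat_lit 26) (nat_lit 5) (nat_lit 28) (nat_lit 5) (nat_lit 27) (nat_lit 4) (nat_lit 418) (nat_lit 335) (nat_lit 267)) (XT.nd (nat_lit 78) (nat_lit 0) (nat_lit 0) (XT.lf (nat_lit 0) (nat_lit 16555376922) (nat_lit 76) (nat_lit 4340100776) (nat_lit 152) (nat_lit 26942482129) (nat_lit 25) (nat_lit 5) (nat_lit 26) (nat_lit 5) (nat_lit 27) (nat_lit 4) (nat_lit 419) (nat_lit 335) (nat_lit 266)) (XT.lf (nat_lit 0) (nat_lit 36248989506) (nat_lit 152) (nat_lit 2414915972) (nat_lit 0) (nat_lit 11097084797) (nat_lit 25)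 (nat_lit 5) (nat_lit 27) (nat_lit 4) (nat_lit 25) (nat_lit 4) (nat_lit 420) (nat_lit 335) (nat_lit 265))))) (XT.nd (nat_lit 234) (nat_lit 228) (nat_lit 0) (XT.nd (nat_lit 78) (nat_lit 76) (nat_lit 0) (XT.lf (nat_lit 0) (nat_lit 850074517) (nat_lit 152) (nat_lit 23466955281) (nat_lit 76) (nat_lit 27454826553) (nat_lit 23) (nat_lit 5) (nat_lit 25) (nat_lit 5) (nat_lit 24) (nat_lit 4) (nat_lit 421) (nat_lit 335) (nat_lit 264)) (XT.nd (nat_lit 78) (nat_lit 0) (nat_lit 0) (XT.lf (nat_lit 0) (nat_lit 6631795127) (nat_lit 76) (nat_lit 9064345433) (nat_lit 152) (nat_lit 38181753281) (nat_lit 22) (nat_lit 5) (nat_lit 23) (nat_lit 5) (nat_lit 24) (nat_lit 4) (nat_lit 422) (nat_lit 335) (nat_lit 263)) (XT.lf (nat_lit 0) (nat_lit 31550126305) (nat_lit 152) (nat_lit 17513332110) (nat_lit 0) (nat_lit 7017807875) (nat_lit 22) (nat_lit 5) (nat_lit 24) (nat_lit 4) (nat_lit 22) (nat_lit 4) (nat_lit 423) (nat_lit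 335) (nat_lit 262)))) (XT.nd (nat_lit 78) (nat_lit 152) (nat_lit 0) (XT.lf (nat_lit 0) (nat_lit 13800053270) (nat_lit 76) (nat_lit 34577887919) (nat_lit 76) (nat_lit 10011433778) (nat_lit 21) (nat_lit 4) (nat_lit 22) (nat_lit 5) (nat_lit 22) (nat_lit 4) (nat_lit 424) (nat_lit 335) (nat_lit 261)) (XT.nd (nat_lit 78) (nat_lit 76) (nat_lit 0) (XT.lf (nat_lit 0) (nat_lit 5272025353) (nat_lit 152) (nat_lit 13896752873) (nat_lit 76) (nat_lit 41638405589) (nat_lit 20) (nat_lit 5) (nat_lit 22) (nat_lit 5) (nat_lit 21) (nat_lit 4) (nat_lit 425) (nat_lit 335) (nat_lit 260)) (XT.lf (nat_lit 0) (nat_lit 18512297701) (nat_lit 76) (nat_lit 2740029460) (nat_lit 152) (nat_lit 42086391927) (nat_lit 19) (nat_lit 5) (nat_lit 20) (nat_lit 5) (nat_lit 21) (nat_lit 4) (nat_lit 426) (nat_lit 335) (nat_lit 259)))))) (XT.nd (nat_lit 468) (nat_lit 228) (nat_lit 0) (XT.nd (nat_lit 234) (nat_lit 152) (nat_lit 0) (XT.nd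 (nat_lit 78) (nat_lit 152) (nat_lit 0) (XT.lf (nat_lit 0) (nat_lit 38276264867) (nat_lit 152) (nat_lit 13378142810) (nat_lit 0) (nat_lit 14335086082) (nat_lit 19) (nat_lit 5) (nat_lit 21) (nat_lit 4) (nat_lit 19) (nat_lit 4) (nat_lit 427) (nat_lit 335) (nat_lit 258)) (XT.nd (nat_lit 78) (nat_lit 76) (nat_lit 0) (XT.lf (nat_lit 0) (nat_lit 19930564820) (nat_lit 76) (nat_lit 36402617208) (nat_lit 76) (nat_lit 12434172857) (nat_lit 18) (nat_lit 4) (nat_lit 19) (nat_lit 5) (nat_lit 19) (nat_lit 4) (nat_lit 428) (nat_lit 335) (nat_lit 257)) (XT.lf (nat_lit 0) (nat_lit 3640775011) (nat_lit 152) (nat_lit 16603638284) (nat_lit 76) (nat_lit 51435585359) (nat_lit 17) (nat_lit 5) (nat_lit 19) (nat_lit 5) (nat_lit 18) (nat_lit 4) (nat_lit 429) (nat_lit 335) (nat_lit 256)))) (XT.nd (nat_lit 78) (nat_lit 76) (nat_lit 0) (XT.lf (nat_lit 0) (nat_lit 17386487234) (nat_lit 76) (nat_lit 3010374570) (nat_lit 152)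 (nat_lit 54333684065) (nat_lit 16) (nat_lit 5) (nat_lit 17) (nat_lit 5) (nat_lit 18) (nat_lit 4) (nat_lit 430) (nat_lit 335) (nat_lit 255)) (XT.nd (nat_lit 78) (nat_lit 76) (nat_lit 0) (XT.lf (nat_lit 0) (nat_lit 38274117261) (nat_lit 152) (nat_lit 24719308575) (nat_lit 0) (nat_lit 14931694686) (nat_lit 16) (nat_lit 5) (nat_lit 18) (nat_lit 4) (nat_lit 16) (nat_lit 4) (nat_lit 431) (nat_lit 335) (nat_lit 254)) (XT.lf (nat_lit 0) (nat_lit 9630214805) (nat_lit 76) (nat_lit 47505350424) (nat_lit 76) (nat_lit 24141149742) (nat_lit 15) (nat_lit 4) (nat_lit 16) (nat_lit 5) (nat_lit 16) (nat_lit 4) (nat_lit 432) (nat_lit 335) (nat_lit 253))))) (XT.nd (nat_lit 234) (nat_lit 76) (nat_lit 0) (XT.nd (nat_lit 78) (nat_lit 152) (nat_lit 0) (XT.lf (nat_lit 0) (nat_lit 46151609824) (nat_lit 76) (nat_lit 31011269083) (nat_lit 76) (nat_lit 7626327348) (nat_lit 15) (nat_lit 4) (nat_lit 16) (nat_lit 5) (nat_lit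 16) (nat_lit 4) (nat_lit 433) (nat_lit 335) (nat_lit 252)) (XT.nd (nat_lit 78) (nat_lit 76) (nat_lit 0) (XT.lf (nat_lit 0) (nat_lit 9494214886) (nat_lit 152) (nat_lit 4131438900) (nat_lit 76) (nat_lit 74849781634) (nat_lit 14) (nat_lit 5) (nat_lit 16) (nat_lit 5) (nat_lit 15) (nat_lit 4) (nat_lit 434) (nat_lit 335) (nat_lit 251)) (XT.lf (nat_lit 0) (nat_lit 27647003721) (nat_lit 152) (nat_lit 59780955619) (nat_lit 0) (nat_lit 4905733948) (nat_lit 13) (nat_lit 5) (nat_lit 15) (nat_lit 4) (nat_lit 13) (nat_lit 4) (nat_lit 435) (nat_lit 335) (nat_lit 250)))) (XT.nd (nat_lit 78) (nat_lit 76) (nat_lit 0) (XT.lf (nat_lit 0) (nat_lit 46859487061) (nat_lit 152) (nat_lit 25419993866) (nat_lit 0) (nat_lit 24100822238) (nat_lit 13) (nat_lit 5) (nat_lit 15) (nat_lit 4) (nat_lit 13) (nat_lit 4) (nat_lit 436) (nat_lit 335) (nat_lit 249)) (XT.nd (nat_lit 46176) (nat_lit 0) (nat_lit 27132) (XT.lf (nat_lit 0)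 (nat_lit 10816838522) (nat_lit 76) (nat_lit 56292665006) (nat_lit 76) (nat_lit 33517433468) (nat_lit 12) (nat_lit 4) (nat_lit 13) (nat_lit 5) (nat_lit 13) (nat_lit 4) (nat_lit 437) (nat_lit 335) (nat_lit 248)) (XT.lf (nat_lit 0) (nat_lit 1277197817) (nat_lit 532) (nat_lit 1018730451) (nat_lit 532) (nat_lit 1018730451) (nat_lit 369) (nat_lit 4) (nat_lit 376) (nat_lit 5) (nat_lit 376) (nat_lit 4) (nat_lit 348) (nat_lit 336) (nat_lit 336))))))) (XT.nd (nat_lit 936) (nat_lit 6688) (nat_lit 0) (XT.nd (nat_lit 468) (nat_lit 6156) (nat_lit 0) (XT.nd (nat_lit 234) (nat_lit 2888) (nat_lit 0) (XT.nd (nat_lit 78) (nat_lit 1596) (nat_lit 0) (XT.lf (nat_lit 0) (nat_lit 2860993022) (nat_lit 608) (nat_lit 404877702) (nat_lit 684) (nat_lit 3414502509) (nat_lit 360) (nat_lit 5) (nat_lit 368) (nat_lit 5) (nat_lit 369) (nat_lit 4) (nat_lit 349) (nat_lit 336) (nat_lit 335)) (XT.nd (nat_lit 78) (nat_lit 836) (nat_lit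 0) (XT.lf (nat_lit 0) (nat_lit 1811747077) (nat_lit 760) (nat_lit 3465829183) (nat_lit 76) (nat_lit 1461563364) (nat_lit 350) (nat_lit 5) (nat_lit 360) (nat_lit 5) (nat_lit 351) (nat_lit 4) (nat_lit 350) (nat_lit 336) (nat_lit 334)) (XT.lf (nat_lit 0) (nat_lit 216393770) (nat_lit 836) (nat_lit 3006344657) (nat_lit 76) (nat_lit 3583228569) (nat_lit 339) (nat_lit 5) (nat_lit 350) (nat_lit 5) (nat_lit 340) (nat_lit 5) (nat_lit 351) (nat_lit 336) (nat_lit 333)))) (XT.nd (nat_lit 78) (nat_lit 2052) (nat_lit 0) (XT.lf (nat_lit 0) (nat_lit 4428939844) (nat_lit 836) (nat_lit 891584788) (nat_lit 912) (nat_lit 1560126695) (nat_lit 328) (nat_lit 5) (nat_lit 339) (nat_lit 5) (nat_lit 340) (nat_lit 5) (nat_lit 352) (nat_lit 336) (nat_lit 332)) (XT.nd (nat_lit 78) (nat_lit 1064) (nat_lit 0) (XT.lf (nat_lit 0) (nat_lit 3479290609) (nat_lit 988) (nat_lit 1806412944) (nat_lit 76) (nat_lit 1677481330) (nat_lit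 315) (nat_lit 5) (nat_lit 328) (nat_lit 5) (nat_lit 316) (nat_lit 5) (nat_lit 353) (nat_lit 336) (nat_lit 331)) (XT.lf (nat_lit 0) (nat_lit 1491356436) (nat_lit 1064) (nat_lit 1062247486) (nat_lit 76) (nat_lit 4500344190) (nat_lit 301) (nat_lit 5) (nat_lit 315) (nat_lit 5) (nat_lit 302) (nat_lit 5) (nat_lit 354) (nat_lit 336) (nat_lit 330))))) (XT.nd (nat_lit 234) (nat_lit 1900) (nat_lit 0) (XT.nd (nat_lit 78) (nat_lit 3192) (nat_lit 0) (XT.lf (nat_lit 0) (nat_lit 6485766174) (nat_lit 1140) (nat_lit 220401827) (nat_lit 76) (nat_lit 446879893) (nat_lit 287) (nat_lit 5) (nat_lit 302) (nat_lit 5) (nat_lit 288) (nat_lit 5) (nat_lit 355) (nat_lit 336) (nat_lit 329)) (XT.nd (nat_lit 78) (nat_lit 760) (nat_lit 0) (XT.lf (nat_lit 0) (nat_lit 701345090) (nat_lit 1216) (nat_lit 3564914624) (nat_lit 1292) (nat_lit 2993229342) (nat_lit 255) (nat_lit 5) (nat_lit 271) (nat_lit 5) (nat_lit 272) (nat_lit 5)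 (nat_lit 356) (nat_lit 336) (nat_lit 328)) (XT.lf (nat_lit 0) (nat_lit 1736629267) (nat_lit 684) (nat_lit 144397383) (nat_lit 760) (nat_lit 5493735120) (nat_lit 245) (nat_lit 5) (nat_lit 254) (nat_lit 5) (nat_lit 255) (nat_lit 5) (nat_lit 357) (nat_lit 336) (nat_lit 327)))) (XT.nd (nat_lit 78) (nat_lit 1292) (nat_lit 0) (XT.lf (nat_lit 0) (nat_lit 2841067804) (nat_lit 608) (nat_lit 3998034878) (nat_lit 684) (nat_lit 658832866) (nat_lit 237) (nat_lit 5) (nat_lit 245) (nat_lit 5) (nat_lit 246) (nat_lit 5) (nat_lit 358) (nat_lit 336) (nat_lit 326)) (XT.nd (nat_lit 78) (nat_lit 608) (nat_lit 0) (XT.lf (nat_lit 0) (nat_lit 4033355313) (nat_lit 608) (nat_lit 176240156) (nat_lit 684) (nat_lit 3420139205) (nat_lit 228) (nat_lit 5) (nat_lit 236) (nat_lit 5) (nat_lit 237) (nat_lit 5) (nat_lit 359) (nat_lit 336) (nat_lit 325)) (XT.lf (nat_lit 0) (nat_lit 1432763047) (nat_lit 608) (nat_lit 2472826344) (nat_lit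 76) (nat_lit 3864281251) (nat_lit 220) (nat_lit 5) (nat_lit 228) (nat_lit 5) (nat_lit 221) (nat_lit 5) (nat_lit 360) (nat_lit 336) (nat_lit 324)))))) (XT.nd (nat_lit 468) (nat_lit 3116) (nat_lit 0) (XT.nd (nat_lit 234) (nat_lit 1444) (nat_lit 0) (XT.nd (nat_lit 78) (nat_lit 1596) (nat_lit 0) (XT.lf (nat_lit 0) (nat_lit 6357321774) (nat_lit 608) (nat_lit 1268728371) (nat_lit 76) (nat_lit 293025755) (nat_lit 213) (nat_lit 5) (nat_lit 221) (nat_lit 5) (nat_lit 214) (nat_lit 5) (nat_lit 361) (nat_lit 336) (nat_lit 323)) (XT.nd (nat_lit 78) (nat_lit 1064) (nat_lit 0) (XT.lf (nat_lit 0) (nat_lit 3327764245) (nat_lit 532) (nat_lit 18842837) (nat_lit 76) (nat_lit 4729921184) (nat_lit 206) (nat_lit 5) (nat_lit 213) (nat_lit 5) (nat_lit 207) (nat_lit 5) (nat_lit 362) (nat_lit 336) (nat_lit 322)) (XT.lf (nat_lit 0) (nat_lit 119901006) (nat_lit 532) (nat_lit 6898360549) (nat_lit 76) (nat_lit 1225069006)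 (nat_lit 192) (nat_lit 5) (nat_lit 199) (nat_lit 5) (nat_lit 193) (nat_lit 5) (nat_lit 363) (nat_lit 336) (nat_lit 321)))) (XT.nd (nat_lit 78) (nat_lit 988) (nat_lit 0) (XT.lf (nat_lit 0) (nat_lit 2744264736) (nat_lit 456) (nat_lit 2343352235) (nat_lit 532) (nat_lit 3330888182) (nat_lit 186) (nat_lit 5) (nat_lit 192) (nat_lit 5) (nat_lit 193) (nat_lit 5) (nat_lit 364) (nat_lit 336) (nat_lit 320)) (XT.nd (nat_lit 78) (nat_lit 456) (nat_lit 0) (XT.lf (nat_lit 0) (nat_lit 1619486156) (nat_lit 532) (nat_lit 4385708831) (nat_lit 76) (nat_lit 2598264004) (nat_lit 179) (nat_lit 5) (nat_lit 186) (nat_lit 5) (nat_lit 180) (nat_lit 5) (nat_lit 365) (nat_lit 336) (nat_lit 319)) (XT.lf (nat_lit 0) (nat_lit 5748430301) (nat_lit 456) (nat_lit 958252153) (nat_lit 532) (nat_lit 2091293673) (nat_lit 173) (nat_lit 5) (nat_lit 179) (nat_lit 5) (nat_lit 180) (nat_lit 5) (nat_lit 366) (nat_lit 336) (nat_lit 318)))))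 (XT.nd (nat_lit 234) (nat_lit 1444) (nat_lit 0) (XT.nd (nat_lit 78) (nat_lit 1216) (nat_lit 0) (XT.lf (nat_lit 0) (nat_lit 2969911346) (nat_lit 456) (nat_lit 1681549384) (nat_lit 76) (nat_lit 4350426954) (nat_lit 167) (nat_lit 5) (nat_lit 173) (nat_lit 5) (nat_lit 168) (nat_lit 5) (nat_lit 367) (nat_lit 336) (nat_lit 317)) (XT.nd (nat_lit 78) (nat_lit 836) (nat_lit 0) (XT.lf (nat_lit 0) (nat_lit 8206409794) (nat_lit 456) (nat_lit 250510513) (nat_lit 76) (nat_lit 759533464) (nat_lit 162) (nat_lit 5) (nat_lit 168) (nat_lit 5) (nat_lit 163) (nat_lit 5) (nat_lit 368) (nat_lit 336) (nat_lit 316)) (XT.lf (nat_lit 0) (nat_lit 1216250406) (nat_lit 380) (nat_lit 2977688182) (nat_lit 456) (nat_lit 5246197322) (nat_lit 151) (nat_lit 5) (nat_lit 156) (nat_lit 5) (nat_lit 157) (nat_lit 5) (nat_lit 369) (nat_lit 336) (nat_lit 315)))) (XT.nd (nat_lit 156) (nat_lit 684) (nat_lit 0) (XT.nd (nat_lit 78) (nat_lit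 456) (nat_lit 0) (XT.lf (nat_lit 0) (nat_lit 2749467261) (nat_lit 304) (nat_lit 6878907158) (nat_lit 380) (nat_lit 46632747) (nat_lit 147) (nat_lit 5) (nat_lit 151) (nat_lit 5) (nat_lit 152) (nat_lit 5) (nat_lit 370) (nat_lit 336) (nat_lit 314)) (XT.lf (nat_lit 0) (nat_lit 4297445198) (nat_lit 380) (nat_lit 1007456279) (nat_lit 456) (nat_lit 4615267402) (nat_lit 141) (nat_lit 5) (nat_lit 146) (nat_lit 5) (nat_lit 147) (nat_lit 5) (nat_lit 371) (nat_lit 336) (nat_lit 313))) (XT.nd (nat_lit 78) (nat_lit 304) (nat_lit 0) (XT.lf (nat_lit 0) (nat_lit 754893978) (nat_lit 380) (nat_lit 4294487735) (nat_lit 76) (nat_lit 5127292727) (nat_lit 136) (nat_lit 5) (nat_lit 141) (nat_lit 5) (nat_lit 137) (nat_lit 5) (nat_lit 372) (nat_lit 336) (nat_lit 312)) (XT.lf (nat_lit 0) (nat_lit 6300719199) (nat_lit 380) (nat_lit 2953746552) (nat_lit 76) (nat_lit 1190122482) (nat_lit 132) (nat_lit 5) (nat_lit 137) (nat_lit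 5) (nat_lit 133) (nat_lit 5) (nat_lit 373) (nat_lit 336) (nat_lit 311))))))))
noncomputable def xc41 : XT := (XT.nd (nat_lit 1950) (nat_lit 2432) (nat_lit 0) (XT.nd (nat_lit 936) (nat_lit 2432) (nat_lit 0) (XT.nd (nat_lit 468) (nat_lit 1444) (nat_lit 0) (XT.nd (nat_lit 234) (nat_lit 760) (nat_lit 0) (XT.nd (nat_lit 78) (nat_lit 912) (nat_lit 0) (XT.lf (nat_lit 0) (nat_lit 1408191644) (nat_lit 380) (nat_lit 1600254643) (nat_lit 76) (nat_lit 7715951927) (nat_lit 127) (nat_lit 5) (nat_lit 132) (nat_lit 5) (nat_lit 128) (nat_lit 5) (nat_lit 374) (nat_lit 336) (nat_lit 310)) (XT.nd (nat_lit 78) (nat_lit 608) (nat_lit 0) (XT.lf (nat_lit 0) (nat_lit 7179904775) (nat_lit 380) (nat_lit 249087477) (nat_lit 76) (nat_lit 3587171260) (nat_lit 123) (nat_lit 5) (nat_lit 128) (nat_lit 5) (nat_lit 124) (nat_lit 5) (nat_lit 375) (nat_lit 336) (nat_lit 309)) (XT.lf (nat_lit 0) (nat_lit 1145777427) (nat_lit 304)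 (nat_lit 773892257) (nat_lit 380) (nat_lit 9401138318) (nat_lit 115) (nat_lit 5) (nat_lit 119) (nat_lit 5) (nat_lit 120) (nat_lit 5) (nat_lit 376) (nat_lit 336) (nat_lit 308)))) (XT.nd (nat_lit 78) (nat_lit 532) (nat_lit 0) (XT.lf (nat_lit 0) (nat_lit 2513170573) (nat_lit 228) (nat_lit 5437092581) (nat_lit 304) (nat_lit 3687320664) (nat_lit 112) (nat_lit 5) (nat_lit 115) (nat_lit 5) (nat_lit 116) (nat_lit 5) (nat_lit 377) (nat_lit 336) (nat_lit 307)) (XT.nd (nat_lit 78) (nat_lit 228) (nat_lit 0) (XT.lf (nat_lit 0) (nat_lit 2298943266) (nat_lit 304) (nat_lit 8071827283) (nat_lit 76) (nat_lit 1597827815) (nat_lit 108) (nat_lit 5) (nat_lit 112) (nat_lit 5) (nat_lit 109) (nat_lit 5) (nat_lit 378) (nat_lit 336) (nat_lit 306)) (XT.lf (nat_lit 0) (nat_lit 5244863377) (nat_lit 228) (nat_lit 3332956306) (nat_lit 304) (nat_lit 3735183818) (nat_lit 105) (nat_lit 5) (nat_lit 108) (nat_lit 5) (nat_lit 109)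 (nat_lit 5) (nat_lit 379) (nat_lit 336) (nat_lit 305))))) (XT.nd (nat_lit 234) (nat_lit 608) (nat_lit 0) (XT.nd (nat_lit 78) (nat_lit 532) (nat_lit 0) (XT.lf (nat_lit 0) (nat_lit 2506503170) (nat_lit 304) (nat_lit 6092304105) (nat_lit 76) (nat_lit 4073346092) (nat_lit 101) (nat_lit 5) (nat_lit 105) (nat_lit 5) (nat_lit 102) (nat_lit 5) (nat_lit 380) (nat_lit 336) (nat_lit 304)) (XT.nd (nat_lit 78) (nat_lit 304) (nat_lit 0) (XT.lf (nat_lit 0) (nat_lit 7888344429) (nat_lit 228) (nat_lit 1153481784) (nat_lit 304) (nat_lit 4004580280) (nat_lit 98) (nat_lit 5) (nat_lit 101) (nat_lit 5) (nat_lit 102) (nat_lit 5) (nat_lit 381) (nat_lit 336) (nat_lit 303)) (XT.lf (nat_lit 0) (nat_lit 2511338154) (nat_lit 304) (nat_lit 4290499522) (nat_lit 76) (nat_lit 6633995069) (nat_lit 94) (nat_lit 5) (nat_lit 98) (nat_lit 5) (nat_lit 95) (nat_lit 5) (nat_lit 382) (nat_lit 336) (nat_lit 302)))) (XT.nd (nat_lit 78)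 (nat_lit 456) (nat_lit 0) (XT.lf (nat_lit 0) (nat_lit 9327423331) (nat_lit 228) (nat_lit 3471881211) (nat_lit 76) (nat_lit 1042537496) (nat_lit 92) (nat_lit 5) (nat_lit 95) (nat_lit 5) (nat_lit 93) (nat_lit 5) (nat_lit 383) (nat_lit 336) (nat_lit 301)) (XT.nd (nat_lit 78) (nat_lit 152) (nat_lit 0) (XT.lf (nat_lit 0) (nat_lit 2282450303) (nat_lit 304) (nat_lit 2739853878) (nat_lit 76) (nat_lit 9241938163) (nat_lit 88) (nat_lit 5) (nat_lit 92) (nat_lit 5) (nat_lit 89) (nat_lit 5) (nat_lit 384) (nat_lit 336) (nat_lit 300)) (XT.lf (nat_lit 0) (nat_lit 9402575173) (nat_lit 228) (nat_lit 2091138269) (nat_lit 76) (nat_lit 3210419915) (nat_lit 86) (nat_lit 5) (nat_lit 89) (nat_lit 5) (nat_lit 87) (nat_lit 5) (nat_lit 385) (nat_lit 336) (nat_lit 299)))))) (XT.nd (nat_lit 468) (nat_lit 1216) (nat_lit 0) (XT.nd (nat_lit 234) (nat_lit 532) (nat_lit 0) (XT.nd (nat_lit 78) (nat_lit 380) (nat_lit 0) (XT.lf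 (nat_lit 0) (nat_lit 1780300956) (nat_lit 304) (nat_lit 1528311212) (nat_lit 76) (nat_lit 11853895629) (nat_lit 82) (nat_lit 5) (nat_lit 86) (nat_lit 5) (nat_lit 83) (nat_lit 5) (nat_lit 386) (nat_lit 336) (nat_lit 298)) (XT.nd (nat_lit 78) (nat_lit 228) (nat_lit 0) (XT.lf (nat_lit 0) (nat_lit 9213899817) (nat_lit 228) (nat_lit 1101002445) (nat_lit 76) (nat_lit 5324118393) (nat_lit 80) (nat_lit 5) (nat_lit 83) (nat_lit 5) (nat_lit 81) (nat_lit 5) (nat_lit 387) (nat_lit 336) (nat_lit 297)) (XT.lf (nat_lit 0) (nat_lit 955467729) (nat_lit 228) (nat_lit 761283030) (nat_lit 76) (nat_lit 14419582336) (nat_lit 77) (nat_lit 5) (nat_lit 80) (nat_lit 5) (nat_lit 78) (nat_lit 5) (nat_lit 388) (nat_lit 336) (nat_lit 296)))) (XT.nd (nat_lit 78) (nat_lit 380) (nat_lit 0) (XT.lf (nat_lit 0) (nat_lit 8708609073) (nat_lit 228) (nat_lit 616875220) (nat_lit 76) (nat_lit 7327037849) (nat_lit 75) (nat_lit 5) (nat_lit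 78) (nat_lit 5) (nat_lit 76) (nat_lit 5) (nat_lit 389) (nat_lit 336) (nat_lit 295)) (XT.nd (nat_lit 78) (nat_lit 228) (nat_lit 0) (XT.lf (nat_lit 0) (nat_lit 16624401978) (nat_lit 152) (nat_lit 309595230) (nat_lit 228) (nat_lit 257996773) (nat_lit 73) (nat_lit 5) (nat_lit 75) (nat_lit 5) (nat_lit 76) (nat_lit 5) (nat_lit 390) (nat_lit 336) (nat_lit 294)) (XT.lf (nat_lit 0) (nat_lit 7821675497) (nat_lit 228) (nat_lit 777047956) (nat_lit 76) (nat_lit 9152616143) (nat_lit 70) (nat_lit 5) (nat_lit 73) (nat_lit 5) (nat_lit 71) (nat_lit 5) (nat_lit 391) (nat_lit 336) (nat_lit 293))))) (XT.nd (nat_lit 234) (nat_lit 684) (nat_lit 0) (XT.nd (nat_lit 78) (nat_lit 380) (nat_lit 0) (XT.lf (nat_lit 0) (nat_lit 16386867323) (nat_lit 228) (nat_lit 1118089279) (nat_lit 76) (nat_lit 831022818) (nat_lit 68) (nat_lit 5) (nat_lit 71) (nat_lit 5) (nat_lit 69) (nat_lit 4) (nat_lit 392) (nat_lit 336) (nat_lit 292))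 (XT.nd (nat_lit 78) (nat_lit 152) (nat_lit 0) (XT.lf (nat_lit 0) (nat_lit 6473757969) (nat_lit 228) (nat_lit 1747087781) (nat_lit 76) (nat_lit 10722096896) (nat_lit 65) (nat_lit 5) (nat_lit 68) (nat_lit 5) (nat_lit 66) (nat_lit 5) (nat_lit 393) (nat_lit 336) (nat_lit 291)) (XT.lf (nat_lit 0) (nat_lit 15377256630) (nat_lit 228) (nat_lit 2576815727) (nat_lit 76) (nat_lit 1622617413) (nat_lit 63) (nat_lit 5) (nat_lit 66) (nat_lit 5) (nat_lit 64) (nat_lit 4) (nat_lit 394) (nat_lit 336) (nat_lit 290)))) (XT.nd (nat_lit 156) (nat_lit 304) (nat_lit 0) (XT.nd (nat_lit 78) (nat_lit 152) (nat_lit 0) (XT.lf (nat_lit 0) (nat_lit 4568743608) (nat_lit 228) (nat_lit 3724977039) (nat_lit 76) (nat_lit 11941945494) (nat_lit 60) (nat_lit 5) (nat_lit 63) (nat_lit 5) (nat_lit 61) (nat_lit 5) (nat_lit 395) (nat_lit 336) (nat_lit 289)) (XT.lf (nat_lit 0) (nat_lit 13799435151) (nat_lit 228) (nat_lit 5157187229) (nat_lit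 76) (nat_lit 1966400426) (nat_lit 58) (nat_lit 5) (nat_lit 61) (nat_lit 5) (nat_lit 59) (nat_lit 4) (nat_lit 396) (nat_lit 336) (nat_lit 288))) (XT.nd (nat_lit 78) (nat_lit 152) (nat_lit 0) (XT.lf (nat_lit 0) (nat_lit 1990842154) (nat_lit 152) (nat_lit 6947138657) (nat_lit 76) (nat_lit 12700841802) (nat_lit 56) (nat_lit 5) (nat_lit 58) (nat_lit 5) (nat_lit 57) (nat_lit 5) (nat_lit 397) (nat_lit 336) (nat_lit 287)) (XT.lf (nat_lit 0) (nat_lit 11529534802) (nat_lit 228) (nat_lit 9117436522) (nat_lit 76) (nat_lit 1737855760) (nat_lit 54) (nat_lit 5) (nat_lit 57) (nat_lit 5) (nat_lit 55) (nat_lit 4) (nat_lit 398) (nat_lit 336) (nat_lit 286))))))) (XT.nd (nat_lit 936) (nat_lit 988) (nat_lit 0) (XT.nd (nat_lit 468) (nat_lit 760) (nat_lit 0) (XT.nd (nat_lit 234) (nat_lit 304) (nat_lit 0) (XT.nd (nat_lit 78) (nat_lit 304) (nat_lit 0) (XT.lf (nat_lit 0) (nat_lit 11453204552) (nat_lit 76) (nat_lit 10282534328)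 (nat_lit 152) (nat_lit 1426681911) (nat_lit 53) (nat_lit 5) (nat_lit 54) (nat_lit 5) (nat_lit 55) (nat_lit 4) (nat_lit 399) (nat_lit 336) (nat_lit 285)) (XT.nd (nat_lit 78) (nat_lit 76) (nat_lit 0) (XT.lf (nat_lit 0) (nat_lit 8418865305) (nat_lit 228) (nat_lit 14765289050) (nat_lit 76) (nat_lit 788976573) (nat_lit 50) (nat_lit 5) (nat_lit 53) (nat_lit 5) (nat_lit 51) (nat_lit 4) (nat_lit 400) (nat_lit 336) (nat_lit 284)) (XT.lf (nat_lit 0) (nat_lit 6455353297) (nat_lit 76) (nat_lit 12481212298) (nat_lit 152) (nat_lit 5881111323) (nat_lit 49) (nat_lit 5) (nat_lit 50) (nat_lit 5) (nat_lit 51) (nat_lit 4) (nat_lit 401) (nat_lit 336) (nat_lit 283)))) (XT.nd (nat_lit 78) (nat_lit 76) (nat_lit 0) (XT.lf (nat_lit 0) (nat_lit 3222700567) (nat_lit 152) (nat_lit 1077201101) (nat_lit 228) (nat_lit 21400091604) (nat_lit 46) (nat_lit 5) (nat_lit 48) (nat_lit 5) (nat_lit 49) (nat_lit 5) (nat_lit 402) (nat_lit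 336) (nat_lit 282)) (XT.nd (nat_lit 78) (nat_lit 76) (nat_lit 0) (XT.lf (nat_lit 0) (nat_lit 15089966097) (nat_lit 228) (nat_lit 656821283) (nat_lit 76) (nat_lit 10871247161) (nat_lit 46) (nat_lit 5) (nat_lit 49) (nat_lit 5) (nat_lit 47) (nat_lit 4) (nat_lit 403) (nat_lit 336) (nat_lit 281)) (XT.lf (nat_lit 0) (nat_lit 22549750645) (nat_lit 76) (nat_lit 4025852178) (nat_lit 152) (nat_lit 1001697643) (nat_lit 45) (nat_lit 5) (nat_lit 46) (nat_lit 5) (nat_lit 47) (nat_lit 4) (nat_lit 404) (nat_lit 336) (nat_lit 280))))) (XT.nd (nat_lit 234) (nat_lit 228) (nat_lit 0) (XT.nd (nat_lit 78) (nat_lit 304) (nat_lit 0) (XT.lf (nat_lit 0) (nat_lit 10051007517) (nat_lit 228) (nat_lit 10181688089) (nat_lit 76) (nat_lit 8343055501) (nat_lit 42) (nat_lit 5) (nat_lit 45) (nat_lit 5) (nat_lit 43) (nat_lit 4) (nat_lit 405) (nat_lit 336) (nat_lit 279)) (XT.nd (nat_lit 78) (nat_lit 228) (nat_lit 0) (XT.lf (nat_lit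 0) (nat_lit 13553130806) (nat_lit 76) (nat_lit 8237307167) (nat_lit 152) (nat_lit 7828748680) (nat_lit 41) (nat_lit 5) (nat_lit 42) (nat_lit 5) (nat_lit 43) (nat_lit 4) (nat_lit 406) (nat_lit 336) (nat_lit 278)) (XT.lf (nat_lit 0) (nat_lit 3494401535) (nat_lit 228) (nat_lit 22783162041) (nat_lit 76) (nat_lit 4431490871) (nat_lit 38) (nat_lit 5) (nat_lit 41) (nat_lit 5) (nat_lit 39) (nat_lit 4) (nat_lit 407) (nat_lit 336) (nat_lit 277)))) (XT.nd (nat_lit 78) (nat_lit 152) (nat_lit 0) (XT.lf (nat_lit 0) (nat_lit 1342394042) (nat_lit 76) (nat_lit 14078260118) (nat_lit 152) (nat_lit 16424474054) (nat_lit 37) (nat_lit 5) (nat_lit 38) (nat_lit 5) (nat_lit 39) (nat_lit 4) (nat_lit 408) (nat_lit 336) (nat_lit 276)) (XT.nd (nat_lit 78) (nat_lit 152) (nat_lit 0) (XT.lf (nat_lit 0) (nat_lit 27029181992) (nat_lit 76) (nat_lit 1084816806) (nat_lit 152) (nat_lit 4918886936) (nat_lit 37) (nat_lit 5) (nat_lit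 38) (nat_lit 5) (nat_lit 39) (nat_lit 4) (nat_lit 409) (nat_lit 336) (nat_lit 275)) (XT.lf (nat_lit 0) (nat_lit 7275184305) (nat_lit 152) (nat_lit 14473214982) (nat_lit 76) (nat_lit 12521980845) (nat_lit 35) (nat_lit 5) (nat_lit 37) (nat_lit 5) (nat_lit 36) (nat_lit 4) (nat_lit 410) (nat_lit 336) (nat_lit 274)))))) (XT.nd (nat_lit 468) (nat_lit 532) (nat_lit 0) (XT.nd (nat_lit 234) (nat_lit 228) (nat_lit 0) (XT.nd (nat_lit 78) (nat_lit 152) (nat_lit 0) (XT.lf (nat_lit 0) (nat_lit 11494196259) (nat_lit 76) (nat_lit 8607824511) (nat_lit 152) (nat_lit 15462526704) (nat_lit 34) (nat_lit 5) (nat_lit 35) (nat_lit 5) (nat_lit 36) (nat_lit 4) (nat_lit 411) (nat_lit 336) (nat_lit 273)) (XT.nd (nat_lit 78) (nat_lit 76) (nat_lit 0) (XT.lf (nat_lit 0) (nat_lit 2019021104) (nat_lit 76) (nat_lit 31712208654) (nat_lit 76) (nat_lit 3187365394) (nat_lit 33) (nat_lit 4) (nat_lit 34) (nat_lit 5) (nat_lit 34) (nat_lit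 4) (nat_lit 412) (nat_lit 336) (nat_lit 272)) (XT.lf (nat_lit 0) (nat_lit 9791809517) (nat_lit 152) (nat_lit 8710052141) (nat_lit 76) (nat_lit 19827301476) (nat_lit 32) (nat_lit 5) (nat_lit 34) (nat_lit 5) (nat_lit 33) (nat_lit 4) (nat_lit 413) (nat_lit 336) (nat_lit 271)))) (XT.nd (nat_lit 78) (nat_lit 152) (nat_lit 0) (XT.lf (nat_lit 0) (nat_lit 19022825934) (nat_lit 76) (nat_lit 4459860515) (nat_lit 152) (nat_lit 16322768982) (nat_lit 31) (nat_lit 5) (nat_lit 32) (nat_lit 5) (nat_lit 33) (nat_lit 4) (nat_lit 414) (nat_lit 336) (nat_lit 270)) (XT.nd (nat_lit 78) (nat_lit 76) (nat_lit 0) (XT.lf (nat_lit 0) (nat_lit 6903183756) (nat_lit 76) (nat_lit 31157038135) (nat_lit 76) (nat_lit 3289279435) (nat_lit 30) (nat_lit 4) (nat_lit 31) (nat_lit 5) (nat_lit 31) (nat_lit 4) (nat_lit 415) (nat_lit 336) (nat_lit 269)) (XT.lf (nat_lit 0) (nat_lit 10401516418) (nat_lit 152) (nat_lit 6805166640) (nat_lit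 76) (nat_lit 25754815961) (nat_lit 29) (nat_lit 5) (nat_lit 31) (nat_lit 5) (nat_lit 30) (nat_lit 4) (nat_lit 416) (nat_lit 336) (nat_lit 268))))) (XT.nd (nat_lit 234) (nat_lit 304) (nat_lit 0) (XT.nd (nat_lit 78) (nat_lit 152) (nat_lit 0) (XT.lf (nat_lit 0) (nat_lit 22527914979) (nat_lit 76) (nat_lit 2348019442) (nat_lit 152) (nat_lit 19772174006) (nat_lit 28) (nat_lit 5) (nat_lit 29) (nat_lit 5) (nat_lit 30) (nat_lit 4) (nat_lit 417) (nat_lit 336) (nat_lit 267)) (XT.nd (nat_lit 78) (nat_lit 76) (nat_lit 0) (XT.lf (nat_lit 0) (nat_lit 6965961091) (nat_lit 76) (nat_lit 33324195840) (nat_lit 76) (nat_lit 6122410897) (nat_lit 27) (nat_lit 4) (nat_lit 28) (nat_lit 5) (nat_lit 28) (nat_lit 4) (nat_lit 418) (nat_lit 336) (nat_lit 266)) (XT.lf (nat_lit 0) (nat_lit 8255249180) (nat_lit 152) (nat_lit 10487648149) (nat_lit 76) (nat_lit 29513818839) (nat_lit 26) (nat_lit 5) (nat_lit 28) (nat_lit 5) (nat_lit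 27) (nat_lit 4) (nat_lit 419) (nat_lit 336) (nat_lit 265)))) (XT.nd (nat_lit 156) (nat_lit 152) (nat_lit 0) (XT.nd (nat_lit 78) (nat_lit 76) (nat_lit 0) (XT.lf (nat_lit 0) (nat_lit 20162304618) (nat_lit 76) (nat_lit 3212095136) (nat_lit 152) (nat_lit 26812378572) (nat_lit 25) (nat_lit 5) (nat_lit 26) (nat_lit 5) (nat_lit 27) (nat_lit 4) (nat_lit 420) (nat_lit 336) (nat_lit 264)) (XT.lf (nat_lit 0) (nat_lit 142654577) (nat_lit 76) (nat_lit 39298324483) (nat_lit 76) (nat_lit 12766622101) (nat_lit 24) (nat_lit 4) (nat_lit 25) (nat_lit 5) (nat_lit 25) (nat_lit 4) (nat_lit 421) (nat_lit 336) (nat_lit 263))) (XT.nd (nat_lit 78) (nat_lit 76) (nat_lit 0) (XT.lf (nat_lit 0) (nat_lit 2243393345) (nat_lit 152) (nat_lit 22014531662) (nat_lit 76) (nat_lit 30061951233) (nat_lit 23) (nat_lit 5) (nat_lit 25) (nat_lit 5) (nat_lit 24) (nat_lit 4) (nat_lit 422) (nat_lit 336) (nat_lit 262)) (XT.lf (nat_lit 0) (nat_lit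 9513889056) (nat_lit 76) (nat_lit 8278066111) (nat_lit 152) (nat_lit 38740456971) (nat_lit 22) (nat_lit 5) (nat_lit 23) (nat_lit 5) (nat_lit 24) (nat_lit 4) (nat_lit 423) (nat_lit 336) (nat_lit 261))))))))
noncomputable def xc42 : XT := (XT.nd (nat_lit 47892) (nat_lit 0) (nat_lit 6688) (XT.nd (nat_lit 936) (nat_lit 76) (nat_lit 0) (XT.nd (nat_lit 468) (nat_lit 304) (nat_lit 0) (XT.nd (nat_lit 234) (nat_lit 152) (nat_lit 0) (XT.nd (nat_lit 78) (nat_lit 152) (nat_lit 0) (XT.lf (nat_lit 0) (nat_lit 34387558696) (nat_lit 152) (nat_lit 15933793222) (nat_lit 0) (nat_lit 8526135936) (nat_lit 22) (nat_lit 5) (nat_lit 24) (nat_lit 4) (nat_lit 22) (nat_lit 4) (nat_lit 424) (nat_lit 336) (nat_lit 260)) (XT.nd (nat_lit 78) (nat_lit 76) (nat_lit 0) (XT.lf (nat_lit 0) (nat_lit 16874883454) (nat_lit 76) (nat_lit 35144808811) (nat_lit 76) (nat_lit 9252423956) (nat_lit 21) (nat_lit 4) (nat_lit 22) (nat_lit 5)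 (nat_lit 22) (nat_lit 4) (nat_lit 425) (nat_lit 336) (nat_lit 259)) (XT.lf (nat_lit 0) (nat_lit 6711819516) (nat_lit 152) (nat_lit 12296878948) (nat_lit 76) (nat_lit 44803520037) (nat_lit 20) (nat_lit 5) (nat_lit 22) (nat_lit 5) (nat_lit 21) (nat_lit 4) (nat_lit 426) (nat_lit 336) (nat_lit 258)))) (XT.nd (nat_lit 78) (nat_lit 76) (nat_lit 0) (XT.lf (nat_lit 0) (nat_lit 21666846709) (nat_lit 76) (nat_lit 1789706398) (nat_lit 152) (nat_lit 43014816773) (nat_lit 19) (nat_lit 5) (nat_lit 20) (nat_lit 5) (nat_lit 21) (nat_lit 4) (nat_lit 427) (nat_lit 336) (nat_lit 257)) (XT.nd (nat_lit 78) (nat_lit 76) (nat_lit 0) (XT.lf (nat_lit 0) (nat_lit 41287279650) (nat_lit 152) (nat_lit 11901557325) (nat_lit 0) (nat_lit 16067180307) (nat_lit 19) (nat_lit 5) (nat_lit 21) (nat_lit 4) (nat_lit 19) (nat_lit 4) (nat_lit 428) (nat_lit 336) (nat_lit 256)) (XT.lf (nat_lit 0) (nat_lit 23011085572) (nat_lit 76) (nat_lit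 37203742016) (nat_lit 76) (nat_lit 11958912001) (nat_lit 18) (nat_lit 4) (nat_lit 19) (nat_lit 5) (nat_lit 19) (nat_lit 4) (nat_lit 429) (nat_lit 336) (nat_lit 255))))) (XT.nd (nat_lit 234) (nat_lit 152) (nat_lit 0) (XT.nd (nat_lit 78) (nat_lit 76) (nat_lit 0) (XT.lf (nat_lit 0) (nat_lit 4847160116) (nat_lit 152) (nat_lit 15428647999) (nat_lit 76) (nat_lit 54957429154) (nat_lit 17) (nat_lit 5) (nat_lit 19) (nat_lit 5) (nat_lit 18) (nat_lit 4) (nat_lit 430) (nat_lit 336) (nat_lit 254)) (XT.nd (nat_lit 78) (nat_lit 0) (nat_lit 0) (XT.lf (nat_lit 0) (nat_lit 20203505937) (nat_lit 76) (nat_lit 2207489345) (nat_lit 152) (nat_lit 56026219716) (nat_lit 16) (nat_lit 5) (nat_lit 17) (nat_lit 5) (nat_lit 18) (nat_lit 4) (nat_lit 431) (nat_lit 336) (nat_lit 253)) (XT.lf (nat_lit 0) (nat_lit 41143494637) (nat_lit 152) (nat_lit 24080618952) (nat_lit 0) (nat_lit 16568564762) (nat_lit 16) (nat_lit 5) (nat_lit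 18) (nat_lit 4) (nat_lit 16) (nat_lit 4) (nat_lit 432) (nat_lit 336) (nat_lit 252)))) (XT.nd (nat_lit 78) (nat_lit 76) (nat_lit 0) (XT.lf (nat_lit 0) (nat_lit 11932643986) (nat_lit 76) (nat_lit 48987366632) (nat_lit 76) (nat_lit 24392683372) (nat_lit 15) (nat_lit 4) (nat_lit 16) (nat_lit 5) (nat_lit 16) (nat_lit 4) (nat_lit 433) (nat_lit 336) (nat_lit 251)) (XT.nd (nat_lit 78) (nat_lit 76) (nat_lit 0) (XT.lf (nat_lit 0) (nat_lit 50193398354) (nat_lit 76) (nat_lit 31711117001) (nat_lit 76) (nat_lit 7097620995) (nat_lit 15) (nat_lit 4) (nat_lit 16) (nat_lit 5) (nat_lit 16) (nat_lit 4) (nat_lit 434) (nat_lit 336) (nat_lit 250)) (XT.lf (nat_lit 0) (nat_lit 10818701725) (nat_lit 152) (nat_lit 2669448404) (nat_lit 76) (nat_lit 79385540252) (nat_lit 14) (nat_lit 5) (nat_lit 16) (nat_lit 5) (nat_lit 15) (nat_lit 4) (nat_lit 435) (nat_lit 336) (nat_lit 249)))))) (XT.nd (nat_lit 46410) (nat_lit 0) (nat_lit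 19608) (XT.nd (nat_lit 46176) (nat_lit 0) (nat_lit 26296) (XT.nd (nat_lit 78) (nat_lit 0) (nat_lit 0) (XT.lf (nat_lit 0) (nat_lit 29861894089) (nat_lit 152) (nat_lit 61132150994) (nat_lit 0) (nat_lit 5931334260) (nat_lit 13) (nat_lit 5) (nat_lit 15) (nat_lit 4) (nat_lit 13) (nat_lit 4) (nat_lit 436) (nat_lit 336) (nat_lit 248)) (XT.nd (nat_lit 46020) (nat_lit 0) (nat_lit 28120) (XT.lf (nat_lit 0) (nat_lit 49995356825) (nat_lit 152) (nat_lit 25131134124) (nat_lit 0) (nat_lit 26049019173) (nat_lit 13) (nat_lit 5) (nat_lit 15) (nat_lit 4) (nat_lit 13) (nat_lit 4) (nat_lit 437) (nat_lit 336) (nat_lit 247)) (XT.lf (nat_lit 0) (nat_lit 1212164994) (nat_lit 380) (nat_lit 1030702185) (nat_lit 380) (nat_lit 1030702185) (nat_lit 383) (nat_lit 4) (nat_lit 388) (nat_lit 5) (nat_lit 388) (nat_lit 4) (nat_lit 346) (nat_lit 337) (nat_lit 337)))) (XT.nd (nat_lit 78) (nat_lit 1292) (nat_lit 0) (XT.lf (nat_lit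 0) (nat_lit 2368426755) (nat_lit 456) (nat_lit 806106424) (nat_lit 532) (nat_lit 3411770237) (nat_lit 376) (nat_lit 5) (nat_lit 382) (nat_lit 5) (nat_lit 383) (nat_lit 4) (nat_lit 347) (nat_lit 337) (nat_lit 336)) (XT.nd (nat_lit 78) (nat_lit 684) (nat_lit 0) (XT.lf (nat_lit 0) (nat_lit 1733596077) (nat_lit 608) (nat_lit 4206685287) (nat_lit 76) (nat_lit 693020268) (nat_lit 368) (nat_lit 5) (nat_lit 376) (nat_lit 5) (nat_lit 369) (nat_lit 4) (nat_lit 348) (nat_lit 337) (nat_lit 335)) (XT.lf (nat_lit 0) (nat_lit 161676919) (nat_lit 684) (nat_lit 4093182952) (nat_lit 76) (nat_lit 2433260404) (nat_lit 359) (nat_lit 5) (nat_lit 368) (nat_lit 5) (nat_lit 360) (nat_lit 5) (nat_lit 349) (nat_lit 337) (nat_lit 334))))) (XT.nd (nat_lit 234) (nat_lit 4256) (nat_lit 0) (XT.nd (nat_lit 78) (nat_lit 1748) (nat_lit 0) (XT.lf (nat_lit 0) (nat_lit 2865578346) (nat_lit 684) (nat_lit 2300082281) (nat_lit 760)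 (nat_lit 1584979586) (nat_lit 350) (nat_lit 5) (nat_lit 359) (nat_lit 5) (nat_lit 360) (nat_lit 5) (nat_lit 350) (nat_lit 337) (nat_lit 333)) (XT.nd (nat_lit 78) (nat_lit 912) (nat_lit 0) (XT.lf (nat_lit 0) (nat_lit 3251318271) (nat_lit 760) (nat_lit 82904395) (nat_lit 836) (nat_lit 3487125793) (nat_lit 339) (nat_lit 5) (nat_lit 349) (nat_lit 5) (nat_lit 350) (nat_lit 5) (nat_lit 351) (nat_lit 337) (nat_lit 332)) (XT.lf (nat_lit 0) (nat_lit 1375930266) (nat_lit 912) (nat_lit 3169231666) (nat_lit 76) (nat_lit 2354574005) (nat_lit 327) (nat_lit 5) (nat_lit 339) (nat_lit 5) (nat_lit 328) (nat_lit 5) (nat_lit 352) (nat_lit 337) (nat_lit 331)))) (XT.nd (nat_lit 156) (nat_lit 2280) (nat_lit 0) (XT.nd (nat_lit 78) (nat_lit 1064) (nat_lit 0) (XT.lf (nat_lit 0) (nat_lit 4316762589) (nat_lit 912) (nat_lit 1919728103) (nat_lit 988) (nat_lit 749837566) (nat_lit 315) (nat_lit 5) (nat_lit 327) (nat_lit 5)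 (nat_lit 328) (nat_lit 5) (nat_lit 353) (nat_lit 337) (nat_lit 330)) (XT.lf (nat_lit 0) (nat_lit 4024054404) (nat_lit 1064) (nat_lit 2086714720) (nat_lit 76) (nat_lit 970026180) (nat_lit 301) (nat_lit 5) (nat_lit 315) (nat_lit 5) (nat_lit 302) (nat_lit 5) (nat_lit 354) (nat_lit 337) (nat_lit 329))) (XT.nd (nat_lit 78) (nat_lit 1140) (nat_lit 0) (XT.lf (nat_lit 0) (nat_lit 1670623530) (nat_lit 1140) (nat_lit 1417698356) (nat_lit 76) (nat_lit 4095053165) (nat_lit 286) (nat_lit 5) (nat_lit 301) (nat_lit 5) (nat_lit 287) (nat_lit 5) (nat_lit 355) (nat_lit 337) (nat_lit 328)) (XT.lf (nat_lit 0) (nat_lit 6429947125) (nat_lit 1216) (nat_lit 653157291) (nat_lit 76) (nat_lit 211401094) (nat_lit 271) (nat_lit 5) (nat_lit 287) (nat_lit 5) (nat_lit 272) (nat_lit 5) (nat_lit 356) (nat_lit 337) (nat_lit 327))))))) (XT.nd (nat_lit 936) (nat_lit 4636) (nat_lit 0) (XT.nd (nat_lit 468) (nat_lit 3344) (nat_lit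 0) (XT.nd (nat_lit 234) (nat_lit 1672) (nat_lit 0) (XT.nd (nat_lit 78) (nat_lit 1292) (nat_lit 0) (XT.lf (nat_lit 0) (nat_lit 171575979) (nat_lit 684) (nat_lit 3665368129) (nat_lit 760) (nat_lit 3576199089) (nat_lit 245) (nat_lit 5) (nat_lit 254) (nat_lit 5) (nat_lit 255) (nat_lit 5) (nat_lit 357) (nat_lit 337) (nat_lit 326)) (XT.nd (nat_lit 78) (nat_lit 608) (nat_lit 0) (XT.lf (nat_lit 0) (nat_lit 1076686200) (nat_lit 684) (nat_lit 6424956665) (nat_lit 76) (nat_lit 39073958) (nat_lit 236) (nat_lit 5) (nat_lit 245) (nat_lit 5) (nat_lit 237) (nat_lit 5) (nat_lit 358) (nat_lit 337) (nat_lit 325)) (XT.lf (nat_lit 0) (nat_lit 2111146326) (nat_lit 608) (nat_lit 3700030926) (nat_lit 684) (nat_lit 1864818450) (nat_lit 228) (nat_lit 5) (nat_lit 236) (nat_lit 5) (nat_lit 237) (nat_lit 5) (nat_lit 359) (nat_lit 337) (nat_lit 324)))) (XT.nd (nat_lit 78) (nat_lit 1064) (nat_lit 0) (XT.lf (nat_lit 0) (nat_lit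 2803440607) (nat_lit 608) (nat_lit 4622466821) (nat_lit 76) (nat_lit 394439020) (nat_lit 220) (nat_lit 5) (nat_lit 228) (nat_lit 5) (nat_lit 221) (nat_lit 5) (nat_lit 360) (nat_lit 337) (nat_lit 323)) (XT.nd (nat_lit 78) (nat_lit 532) (nat_lit 0) (XT.lf (nat_lit 0) (nat_lit 4349892151) (nat_lit 532) (nat_lit 3256968124) (nat_lit 608) (nat_lit 366358459) (nat_lit 213) (nat_lit 5) (nat_lit 220) (nat_lit 5) (nat_lit 221) (nat_lit 5) (nat_lit 361) (nat_lit 337) (nat_lit 322)) (XT.lf (nat_lit 0) (nat_lit 4350501529) (nat_lit 532) (nat_lit 2567552688) (nat_lit 76) (nat_lit 1216782497) (nat_lit 206) (nat_lit 5) (nat_lit 213) (nat_lit 5) (nat_lit 207) (nat_lit 5) (nat_lit 362) (nat_lit 337) (nat_lit 321))))) (XT.nd (nat_lit 234) (nat_lit 1292) (nat_lit 0) (XT.nd (nat_lit 78) (nat_lit 1444) (nat_lit 0) (XT.lf (nat_lit 0) (nat_lit 923034607) (nat_lit 608) (nat_lit 1447761174) (nat_lit 76) (nat_lit 5934867472)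 (nat_lit 198) (nat_lit 5) (nat_lit 206) (nat_lit 5) (nat_lit 199) (nat_lit 5) (nat_lit 363) (nat_lit 337) (nat_lit 320)) (XT.nd (nat_lit 78) (nat_lit 988) (nat_lit 0) (XT.lf (nat_lit 0) (nat_lit 5738233143) (nat_lit 532) (nat_lit 281082077) (nat_lit 76) (nat_lit 2466124902) (nat_lit 192) (nat_lit 5) (nat_lit 199) (nat_lit 5) (nat_lit 193) (nat_lit 5) (nat_lit 364) (nat_lit 337) (nat_lit 319)) (XT.lf (nat_lit 0) (nat_lit 967501524) (nat_lit 456) (nat_lit 1077843471) (nat_lit 532) (nat_lit 6629298361) (nat_lit 179) (nat_lit 5) (nat_lit 185) (nat_lit 5) (nat_lit 186) (nat_lit 5) (nat_lit 365) (nat_lit 337) (nat_lit 318)))) (XT.nd (nat_lit 78) (nat_lit 836) (nat_lit 0) (XT.lf (nat_lit 0) (nat_lit 2261108450) (nat_lit 456) (nat_lit 4743764162) (nat_lit 532) (nat_lit 1868141501) (nat_lit 173) (nat_lit 5) (nat_lit 179) (nat_lit 5) (nat_lit 180) (nat_lit 5) (nat_lit 366) (nat_lit 337) (nat_lit 317))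 (XT.nd (nat_lit 78) (nat_lit 380) (nat_lit 0) (XT.lf (nat_lit 0) (nat_lit 3034123102) (nat_lit 456) (nat_lit 5467422534) (nat_lit 76) (nat_lit 579975043) (nat_lit 167) (nat_lit 5) (nat_lit 173) (nat_lit 5) (nat_lit 168) (nat_lit 5) (nat_lit 367) (nat_lit 337) (nat_lit 316)) (XT.lf (nat_lit 0) (nat_lit 5004459808) (nat_lit 380) (nat_lit 3141583913) (nat_lit 456) (nat_lit 1153801126) (nat_lit 162) (nat_lit 5) (nat_lit 167) (nat_lit 5) (nat_lit 168) (nat_lit 5) (nat_lit 368) (nat_lit 337) (nat_lit 315)))))) (XT.nd (nat_lit 468) (nat_lit 1976) (nat_lit 0) (XT.nd (nat_lit 234) (nat_lit 1444) (nat_lit 0) (XT.nd (nat_lit 78) (nat_lit 760) (nat_lit 0) (XT.lf (nat_lit 0) (nat_lit 3892773384) (nat_lit 456) (nat_lit 3093973910) (nat_lit 76) (nat_lit 2541646730) (nat_lit 156) (nat_lit 5) (nat_lit 162) (nat_lit 5) (nat_lit 157) (nat_lit 5) (nat_lit 369) (nat_lit 337) (nat_lit 314)) (XT.nd (nat_lit 78) (nat_lit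 380) (nat_lit 0) (XT.lf (nat_lit 0) (nat_lit 7922385422) (nat_lit 380) (nat_lit 1245346907) (nat_lit 456) (nat_lit 600335529) (nat_lit 151) (nat_lit 5) (nat_lit 156) (nat_lit 5) (nat_lit 157) (nat_lit 5) (nat_lit 370) (nat_lit 337) (nat_lit 313)) (XT.lf (nat_lit 0) (nat_lit 4616468037) (nat_lit 380) (nat_lit 600233358) (nat_lit 76) (nat_lit 4801070808) (nat_lit 146) (nat_lit 5) (nat_lit 151) (nat_lit 5) (nat_lit 147) (nat_lit 5) (nat_lit 371) (nat_lit 337) (nat_lit 312)))) (XT.nd (nat_lit 78) (nat_lit 760) (nat_lit 0) (XT.lf (nat_lit 0) (nat_lit 717360308) (nat_lit 304) (nat_lit 9373148292) (nat_lit 380) (nat_lit 189043449) (nat_lit 137) (nat_lit 5) (nat_lit 141) (nat_lit 5) (nat_lit 142) (nat_lit 5) (nat_lit 372) (nat_lit 337) (nat_lit 311)) (XT.nd (nat_lit 78) (nat_lit 380) (nat_lit 0) (XT.lf (nat_lit 0) (nat_lit 2027079573) (nat_lit 304) (nat_lit 3199078238) (nat_lit 380) (nat_lit 5325406810)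 (nat_lit 132) (nat_lit 5) (nat_lit 136) (nat_lit 5) (nat_lit 137) (nat_lit 5) (nat_lit 373) (nat_lit 337) (nat_lit 310)) (XT.lf (nat_lit 0) (nat_lit 94159082) (nat_lit 380) (nat_lit 7453071590) (nat_lit 76) (nat_lit 3289164940) (nat_lit 127) (nat_lit 5) (nat_lit 132) (nat_lit 5) (nat_lit 128) (nat_lit 5) (nat_lit 374) (nat_lit 337) (nat_lit 309))))) (XT.nd (nat_lit 234) (nat_lit 1064) (nat_lit 0) (XT.nd (nat_lit 78) (nat_lit 608) (nat_lit 0) (XT.lf (nat_lit 0) (nat_lit 4731771880) (nat_lit 304) (nat_lit 974241588) (nat_lit 380) (nat_lit 5426956305) (nat_lit 123) (nat_lit 5) (nat_lit 127) (nat_lit 5) (nat_lit 128) (nat_lit 5) (nat_lit 375) (nat_lit 337) (nat_lit 308)) (XT.nd (nat_lit 78) (nat_lit 304) (nat_lit 0) (XT.lf (nat_lit 0) (nat_lit 212667113) (nat_lit 304) (nat_lit 5346765609) (nat_lit 76) (nat_lit 5883072735) (nat_lit 119) (nat_lit 5) (nat_lit 123) (nat_lit 5) (nat_lit 120) (nat_lit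 5) (nat_lit 376) (nat_lit 337) (nat_lit 307)) (XT.lf (nat_lit 0) (nat_lit 6055957785) (nat_lit 380) (nat_lit 4312501433) (nat_lit 76) (nat_lit 1396452675) (nat_lit 115) (nat_lit 5) (nat_lit 120) (nat_lit 5) (nat_lit 116) (nat_lit 5) (nat_lit 377) (nat_lit 337) (nat_lit 306)))) (XT.nd (nat_lit 156) (nat_lit 532) (nat_lit 0) (XT.nd (nat_lit 78) (nat_lit 228) (nat_lit 0) (XT.lf (nat_lit 0) (nat_lit 158067548) (nat_lit 304) (nat_lit 3282985910) (nat_lit 76) (nat_lit 8660227392) (nat_lit 111) (nat_lit 5) (nat_lit 115) (nat_lit 5) (nat_lit 112) (nat_lit 5) (nat_lit 378) (nat_lit 337) (nat_lit 305)) (XT.lf (nat_lit 0) (nat_lit 6259944740) (nat_lit 304) (nat_lit 2300762227) (nat_lit 76) (nat_lit 3890299155) (nat_lit 108) (nat_lit 5) (nat_lit 112) (nat_lit 5) (nat_lit 109) (nat_lit 5) (nat_lit 379) (nat_lit 337) (nat_lit 304))) (XT.nd (nat_lit 78) (nat_lit 304) (nat_lit 0) (XT.lf (nat_lit 0) (nat_lit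 11504767680) (nat_lit 228) (nat_lit 1222505042) (nat_lit 304) (nat_lit 89154061) (nat_lit 105) (nat_lit 5) (nat_lit 108) (nat_lit 5) (nat_lit 109) (nat_lit 5) (nat_lit 380) (nat_lit 337) (nat_lit 303)) (XT.lf (nat_lit 0) (nat_lit 6289333319) (nat_lit 304) (nat_lit 410075847) (nat_lit 76) (nat_lit 6496062660) (nat_lit 101) (nat_lit 5) (nat_lit 105) (nat_lit 5) (nat_lit 102) (nat_lit 5) (nat_lit 381) (nat_lit 337) (nat_lit 302))))))))
noncomputable def xc43 : XT := (XT.nd (nat_lit 1950) (nat_lit 1900) (nat_lit 0) (XT.nd (nat_lit 936) (nat_lit 1748) (nat_lit 0) (XT.nd (nat_lit 468) (nat_lit 1140) (nat_lit 0) (XT.nd (nat_lit 234) (nat_lit 684) (nat_lit 0) (XT.nd (nat_lit 78) (nat_lit 456) (nat_lit 0) (XT.lf (nat_lit 0) (nat_lit 505611380) (nat_lit 228) (nat_lit 12542639918) (nat_lit 304) (nat_lit 543308307) (nat_lit 95) (nat_lit 5) (nat_lit 98) (nat_lit 5) (nat_lit 99) (nat_lit 5) (nat_lit 382) (nat_lit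 337) (nat_lit 301)) (XT.nd (nat_lit 78) (nat_lit 228) (nat_lit 0) (XT.lf (nat_lit 0) (nat_lit 1321486597) (nat_lit 152) (nat_lit 4809376356) (nat_lit 228) (nat_lit 7871445975) (nat_lit 92) (nat_lit 5) (nat_lit 94) (nat_lit 5) (nat_lit 95) (nat_lit 5) (nat_lit 383) (nat_lit 337) (nat_lit 300)) (XT.lf (nat_lit 0) (nat_lit 2109936380) (nat_lit 228) (nat_lit 11095553473) (nat_lit 304) (nat_lit 1225620362) (nat_lit 89) (nat_lit 5) (nat_lit 92) (nat_lit 5) (nat_lit 93) (nat_lit 5) (nat_lit 384) (nat_lit 337) (nat_lit 299)))) (XT.nd (nat_lit 78) (nat_lit 456) (nat_lit 0) (XT.lf (nat_lit 0) (nat_lit 2794563824) (nat_lit 152) (nat_lit 2945093159) (nat_lit 228) (nat_lit 9137067538) (nat_lit 86) (nat_lit 5) (nat_lit 88) (nat_lit 5) (nat_lit 89) (nat_lit 5) (nat_lit 385) (nat_lit 337) (nat_lit 298)) (XT.nd (nat_lit 78) (nat_lit 228) (nat_lit 0) (XT.lf (nat_lit 0) (nat_lit 3401713848) (nat_lit 228) (nat_lit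 9736021906) (nat_lit 304) (nat_lit 2203236731) (nat_lit 83) (nat_lit 5) (nat_lit 86) (nat_lit 5) (nat_lit 87) (nat_lit 5) (nat_lit 386) (nat_lit 337) (nat_lit 297)) (XT.lf (nat_lit 0) (nat_lit 3907306292) (nat_lit 152) (nat_lit 1161004257) (nat_lit 228) (nat_lit 10755967610) (nat_lit 80) (nat_lit 5) (nat_lit 82) (nat_lit 5) (nat_lit 83) (nat_lit 5) (nat_lit 387) (nat_lit 337) (nat_lit 296))))) (XT.nd (nat_lit 234) (nat_lit 608) (nat_lit 0) (XT.nd (nat_lit 78) (nat_lit 380) (nat_lit 0) (XT.lf (nat_lit 0) (nat_lit 4278296376) (nat_lit 152) (nat_lit 8520392862) (nat_lit 228) (nat_lit 3528192768) (nat_lit 78) (nat_lit 5) (nat_lit 80) (nat_lit 5) (nat_lit 81) (nat_lit 5) (nat_lit 388) (nat_lit 337) (nat_lit 295)) (XT.nd (nat_lit 78) (nat_lit 152) (nat_lit 0) (XT.lf (nat_lit 0) (nat_lit 4067637103) (nat_lit 228) (nat_lit 12308440870) (nat_lit 76) (nat_lit 474800692) (nat_lit 75) (nat_lit 5) (nat_lit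 78) (nat_lit 5) (nat_lit 76) (nat_lit 5) (nat_lit 389) (nat_lit 337) (nat_lit 294)) (XT.lf (nat_lit 0) (nat_lit 4616454742) (nat_lit 152) (nat_lit 7514473255) (nat_lit 228) (nat_lit 5264290547) (nat_lit 73) (nat_lit 5) (nat_lit 75) (nat_lit 5) (nat_lit 76) (nat_lit 5) (nat_lit 390) (nat_lit 337) (nat_lit 293)))) (XT.nd (nat_lit 78) (nat_lit 380) (nat_lit 0) (XT.lf (nat_lit 0) (nat_lit 2676112033) (nat_lit 228) (nat_lit 13402779202) (nat_lit 76) (nat_lit 1884230183) (nat_lit 70) (nat_lit 5) (nat_lit 73) (nat_lit 5) (nat_lit 71) (nat_lit 5) (nat_lit 391) (nat_lit 337) (nat_lit 292)) (XT.nd (nat_lit 78) (nat_lit 228) (nat_lit 0) (XT.lf (nat_lit 0) (nat_lit 4268377423) (nat_lit 152) (nat_lit 6795648300) (nat_lit 228) (nat_lit 7489058376) (nat_lit 68) (nat_lit 5) (nat_lit 70) (nat_lit 5) (nat_lit 71) (nat_lit 5) (nat_lit 392) (nat_lit 337) (nat_lit 291)) (XT.lf (nat_lit 0) (nat_lit 801506879) (nat_lit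 228) (nat_lit 15357334231) (nat_lit 76) (nat_lit 3010020261) (nat_lit 65) (nat_lit 5) (nat_lit 68) (nat_lit 5) (nat_lit 66) (nat_lit 5) (nat_lit 393) (nat_lit 337) (nat_lit 290)))))) (XT.nd (nat_lit 468) (nat_lit 912) (nat_lit 0) (XT.nd (nat_lit 234) (nat_lit 304) (nat_lit 0) (XT.nd (nat_lit 78) (nat_lit 380) (nat_lit 0) (XT.lf (nat_lit 0) (nat_lit 3056983109) (nat_lit 152) (nat_lit 6455336326) (nat_lit 228) (nat_lit 10296073617) (nat_lit 63) (nat_lit 5) (nat_lit 65) (nat_lit 5) (nat_lit 66) (nat_lit 5) (nat_lit 394) (nat_lit 337) (nat_lit 289)) (XT.nd (nat_lit 78) (nat_lit 228) (nat_lit 0) (XT.lf (nat_lit 0) (nat_lit 2086555053) (nat_lit 152) (nat_lit 16702439469) (nat_lit 228) (nat_lit 1687004895) (nat_lit 61) (nat_lit 5) (nat_lit 63) (nat_lit 5) (nat_lit 64) (nat_lit 4) (nat_lit 395) (nat_lit 337) (nat_lit 288)) (XT.lf (nat_lit 0) (nat_lit 770425068) (nat_lit 152) (nat_lit 6601842234) (nat_lit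 228) (nat_lit 13797708941) (nat_lit 58) (nat_lit 5) (nat_lit 60) (nat_lit 5) (nat_lit 61) (nat_lit 5) (nat_lit 396) (nat_lit 337) (nat_lit 287)))) (XT.nd (nat_lit 78) (nat_lit 304) (nat_lit 0) (XT.lf (nat_lit 0) (nat_lit 16998036536) (nat_lit 228) (nat_lit 826964354) (nat_lit 76) (nat_lit 4068704062) (nat_lit 58) (nat_lit 5) (nat_lit 61) (nat_lit 5) (nat_lit 59) (nat_lit 4) (nat_lit 397) (nat_lit 337) (nat_lit 286)) (XT.nd (nat_lit 78) (nat_lit 152) (nat_lit 0) (XT.lf (nat_lit 0) (nat_lit 4546670077) (nat_lit 152) (nat_lit 2788850635) (nat_lit 76) (nat_lit 15311360186) (nat_lit 56) (nat_lit 5) (nat_lit 58) (nat_lit 5) (nat_lit 57) (nat_lit 5) (nat_lit 398) (nat_lit 337) (nat_lit 285)) (XT.lf (nat_lit 0) (nat_lit 14506579024) (nat_lit 228) (nat_lit 5144368244) (nat_lit 76) (nat_lit 3780919126) (nat_lit 54) (nat_lit 5) (nat_lit 57) (nat_lit 5) (nat_lit 55) (nat_lit 4) (nat_lit 399) (nat_lit 337)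 (nat_lit 284))))) (XT.nd (nat_lit 234) (nat_lit 532) (nat_lit 0) (XT.nd (nat_lit 78) (nat_lit 228) (nat_lit 0) (XT.lf (nat_lit 0) (nat_lit 882042136) (nat_lit 152) (nat_lit 7931334647) (nat_lit 76) (nat_lit 15436901173) (nat_lit 52) (nat_lit 5) (nat_lit 54) (nat_lit 5) (nat_lit 53) (nat_lit 5) (nat_lit 400) (nat_lit 337) (nat_lit 283)) (XT.nd (nat_lit 78) (nat_lit 76) (nat_lit 0) (XT.lf (nat_lit 0) (nat_lit 11137991816) (nat_lit 228) (nat_lit 11229419450) (nat_lit 76) (nat_lit 2735267781) (nat_lit 50) (nat_lit 5) (nat_lit 53) (nat_lit 5) (nat_lit 51) (nat_lit 4) (nat_lit 401) (nat_lit 337) (nat_lit 282)) (XT.lf (nat_lit 0) (nat_lit 10929737820) (nat_lit 76) (nat_lit 11182309884) (nat_lit 152) (nat_lit 3879498274) (nat_lit 49) (nat_lit 5) (nat_lit 50) (nat_lit 5) (nat_lit 51) (nat_lit 4) (nat_lit 402) (nat_lit 337) (nat_lit 281)))) (XT.nd (nat_lit 156) (nat_lit 228) (nat_lit 0) (XT.nd (nat_lit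 78) (nat_lit 76) (nat_lit 0) (XT.lf (nat_lit 0) (nat_lit 6705095900) (nat_lit 228) (nat_lit 19466585191) (nat_lit 76) (nat_lit 747462392) (nat_lit 46) (nat_lit 5) (nat_lit 49) (nat_lit 5) (nat_lit 47) (nat_lit 4) (nat_lit 403) (nat_lit 337) (nat_lit 280)) (XT.lf (nat_lit 0) (nat_lit 3302106693) (nat_lit 76) (nat_lit 14670358244) (nat_lit 152) (nat_lit 9912494668) (nat_lit 45) (nat_lit 5) (nat_lit 46) (nat_lit 5) (nat_lit 47) (nat_lit 4) (nat_lit 404) (nat_lit 337) (nat_lit 279))) (XT.nd (nat_lit 78) (nat_lit 152) (nat_lit 0) (XT.lf (nat_lit 0) (nat_lit 1022105509) (nat_lit 152) (nat_lit 1413067785) (nat_lit 76) (nat_lit 26459568239) (nat_lit 44) (nat_lit 5) (nat_lit 46) (nat_lit 5) (nat_lit 45) (nat_lit 5) (nat_lit 405) (nat_lit 337) (nat_lit 278)) (XT.lf (nat_lit 0) (nat_lit 12562001067) (nat_lit 228) (nat_lit 6902536750) (nat_lit 76) (nat_lit 10479627217) (nat_lit 42) (nat_lit 5) (nat_lit 45)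 (nat_lit 5) (nat_lit 43) (nat_lit 4) (nat_lit 406) (nat_lit 337) (nat_lit 277))))))) (XT.nd (nat_lit 936) (nat_lit 836) (nat_lit 0) (XT.nd (nat_lit 468) (nat_lit 456) (nat_lit 0) (XT.nd (nat_lit 234) (nat_lit 228) (nat_lit 0) (XT.nd (nat_lit 78) (nat_lit 304) (nat_lit 0) (XT.lf (nat_lit 0) (nat_lit 17910434073) (nat_lit 76) (nat_lit 6917699837) (nat_lit 152) (nat_lit 6213452252) (nat_lit 41) (nat_lit 5) (nat_lit 42) (nat_lit 5) (nat_lit 43) (nat_lit 4) (nat_lit 407) (nat_lit 337) (nat_lit 276)) (XT.nd (nat_lit 78) (nat_lit 76) (nat_lit 0) (XT.lf (nat_lit 0) (nat_lit 5594103685) (nat_lit 228) (nat_lit 20269018529) (nat_lit 76) (nat_lit 6323529528) (nat_lit 38) (nat_lit 5) (nat_lit 41) (nat_lit 5) (nat_lit 39) (nat_lit 4) (nat_lit 408) (nat_lit 337) (nat_lit 275)) (XT.lf (nat_lit 0) (nat_lit 4958094202) (nat_lit 76) (nat_lit 13101020053) (nat_lit 152) (nat_lit 15322146628) (nat_lit 37) (nat_lit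 5) (nat_lit 38) (nat_lit 5) (nat_lit 39) (nat_lit 4) (nat_lit 409) (nat_lit 337) (nat_lit 274)))) (XT.nd (nat_lit 78) (nat_lit 228) (nat_lit 0) (XT.lf (nat_lit 0) (nat_lit 31302642427) (nat_lit 152) (nat_lit 2875278727) (nat_lit 0) (nat_lit 453024441) (nat_lit 37) (nat_lit 5) (nat_lit 39) (nat_lit 4) (nat_lit 37) (nat_lit 4) (nat_lit 410) (nat_lit 337) (nat_lit 273)) (XT.nd (nat_lit 78) (nat_lit 76) (nat_lit 0) (XT.lf (nat_lit 0) (nat_lit 9396645225) (nat_lit 152) (nat_lit 11842110829) (nat_lit 76) (nat_lit 14692323162) (nat_lit 35) (nat_lit 5) (nat_lit 37) (nat_lit 5) (nat_lit 36) (nat_lit 4) (nat_lit 411) (nat_lit 337) (nat_lit 272)) (XT.lf (nat_lit 0) (nat_lit 15327507312) (nat_lit 76) (nat_lit 7484939789) (nat_lit 152) (nat_lit 14479083348) (nat_lit 34) (nat_lit 5) (nat_lit 35) (nat_lit 5) (nat_lit 36) (nat_lit 4) (nat_lit 412) (nat_lit 337) (nat_lit 271))))) (XT.nd (nat_lit 234) (nat_lit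 228) (nat_lit 0) (XT.nd (nat_lit 78) (nat_lit 152) (nat_lit 0) (XT.lf (nat_lit 0) (nat_lit 5320438693) (nat_lit 76) (nat_lit 31766456758) (nat_lit 76) (nat_lit 1627475724) (nat_lit 33) (nat_lit 4) (nat_lit 34) (nat_lit 5) (nat_lit 34) (nat_lit 4) (nat_lit 413) (nat_lit 337) (nat_lit 270)) (XT.nd (nat_lit 78) (nat_lit 76) (nat_lit 0) (XT.lf (nat_lit 0) (nat_lit 11886837160) (nat_lit 152) (nat_lit 6065465501) (nat_lit 76) (nat_lit 22245080981) (nat_lit 32) (nat_lit 5) (nat_lit 34) (nat_lit 5) (nat_lit 33) (nat_lit 4) (nat_lit 414) (nat_lit 337) (nat_lit 269)) (XT.lf (nat_lit 0) (nat_lit 22965766338) (nat_lit 76) (nat_lit 3248801215) (nat_lit 152) (nat_lit 15534357261) (nat_lit 31) (nat_lit 5) (nat_lit 32) (nat_lit 5) (nat_lit 33) (nat_lit 4) (nat_lit 415) (nat_lit 337) (nat_lit 268)))) (XT.nd (nat_lit 78) (nat_lit 152) (nat_lit 0) (XT.lf (nat_lit 0) (nat_lit 10186454665) (nat_lit 76) (nat_lit 31301718171)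 (nat_lit 76) (nat_lit 1882987756) (nat_lit 30) (nat_lit 4) (nat_lit 31) (nat_lit 5) (nat_lit 31) (nat_lit 4) (nat_lit 416) (nat_lit 337) (nat_lit 267)) (XT.nd (nat_lit 78) (nat_lit 76) (nat_lit 0) (XT.lf (nat_lit 0) (nat_lit 12388358478) (nat_lit 152) (nat_lit 4317969299) (nat_lit 76) (nat_lit 28359180696) (nat_lit 29) (nat_lit 5) (nat_lit 31) (nat_lit 5) (nat_lit 30) (nat_lit 4) (nat_lit 417) (nat_lit 337) (nat_lit 266)) (XT.lf (nat_lit 0) (nat_lit 26400717952) (nat_lit 76) (nat_lit 1142333563) (nat_lit 152) (nat_lit 19294703188) (nat_lit 28) (nat_lit 5) (nat_lit 29) (nat_lit 5) (nat_lit 30) (nat_lit 4) (nat_lit 418) (nat_lit 337) (nat_lit 265)))))) (XT.nd (nat_lit 468) (nat_lit 380) (nat_lit 0) (XT.nd (nat_lit 234) (nat_lit 228) (nat_lit 0) (XT.nd (nat_lit 78) (nat_lit 152) (nat_lit 0) (XT.lf (nat_lit 0) (nat_lit 10011120869) (nat_lit 76) (nat_lit 33687123692) (nat_lit 76) (nat_lit 4993087566)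 (nat_lit 27) (nat_lit 4) (nat_lit 28) (nat_lit 5) (nat_lit 28) (nat_lit 4) (nat_lit 419) (nat_lit 337) (nat_lit 264)) (XT.nd (nat_lit 78) (nat_lit 76) (nat_lit 0) (XT.lf (nat_lit 0) (nat_lit 10008424206) (nat_lit 152) (nat_lit 8416861556) (nat_lit 76) (nat_lit 32204001412) (nat_lit 26) (nat_lit 5) (nat_lit 28) (nat_lit 5) (nat_lit 27) (nat_lit 4) (nat_lit 420) (nat_lit 337) (nat_lit 263)) (XT.lf (nat_lit 0) (nat_lit 23691198851) (nat_lit 76) (nat_lit 2152735558) (nat_lit 152) (nat_lit 26813108465) (nat_lit 25) (nat_lit 5) (nat_lit 26) (nat_lit 5) (nat_lit 27) (nat_lit 4) (nat_lit 421) (nat_lit 337) (nat_lit 262)))) (XT.nd (nat_lit 78) (nat_lit 152) (nat_lit 0) (XT.lf (nat_lit 0) (nat_lit 2624872105) (nat_lit 76) (nat_lit 40061987662) (nat_lit 76) (nat_lit 12092858948) (nat_lit 24) (nat_lit 4) (nat_lit 25) (nat_lit 5) (nat_lit 25) (nat_lit 4) (nat_lit 422) (nat_lit 337) (nat_lit 261)) (XT.nd (nat_lit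 78) (nat_lit 76) (nat_lit 0) (XT.lf (nat_lit 0) (nat_lit 3580792129) (nat_lit 152) (nat_lit 20733606198) (nat_lit 76) (nat_lit 32684670883) (nat_lit 23) (nat_lit 5) (nat_lit 25) (nat_lit 5) (nat_lit 24) (nat_lit 4) (nat_lit 423) (nat_lit 337) (nat_lit 260)) (XT.lf (nat_lit 0) (nat_lit 12302965979) (nat_lit 76) (nat_lit 7567709468) (nat_lit 152) (nat_lit 39452641749) (nat_lit 22) (nat_lit 5) (nat_lit 23) (nat_lit 5) (nat_lit 24) (nat_lit 4) (nat_lit 424) (nat_lit 337) (nat_lit 259))))) (XT.nd (nat_lit 234) (nat_lit 228) (nat_lit 0) (XT.nd (nat_lit 78) (nat_lit 152) (nat_lit 0) (XT.lf (nat_lit 0) (nat_lit 37249726722) (nat_lit 152) (nat_lit 14503539125) (nat_lit 0) (nat_lit 10002272817) (nat_lit 22) (nat_lit 5) (nat_lit 24) (nat_lit 4) (nat_lit 22) (nat_lit 4) (nat_lit 425) (nat_lit 337) (nat_lit 258)) (XT.nd (nat_lit 78) (nat_lit 76) (nat_lit 0) (XT.lf (nat_lit 0) (nat_lit 19881736489) (nat_lit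 76) (nat_lit 35848105030) (nat_lit 76) (nat_lit 8572567592) (nat_lit 21) (nat_lit 4) (nat_lit 22) (nat_lit 5) (nat_lit 22) (nat_lit 4) (nat_lit 426) (nat_lit 337) (nat_lit 257)) (XT.lf (nat_lit 0) (nat_lit 8114252120) (nat_lit 152) (nat_lit 10830351857) (nat_lit 76) (nat_lit 48026185081) (nat_lit 20) (nat_lit 5) (nat_lit 22) (nat_lit 5) (nat_lit 21) (nat_lit 4) (nat_lit 427) (nat_lit 337) (nat_lit 256)))) (XT.nd (nat_lit 156) (nat_lit 152) (nat_lit 0) (XT.nd (nat_lit 78) (nat_lit 0) (nat_lit 0) (XT.lf (nat_lit 0) (nat_lit 24771897999) (nat_lit 76) (nat_lit 892956312) (nat_lit 152) (nat_lit 44098986409) (nat_lit 19) (nat_lit 5) (nat_lit 20) (nat_lit 5) (nat_lit 21) (nat_lit 4) (nat_lit 428) (nat_lit 337) (nat_lit 255)) (XT.lf (nat_lit 0) (nat_lit 44346837772) (nat_lit 152) (nat_lit 10550610134) (nat_lit 0) (nat_lit 17791482562) (nat_lit 19) (nat_lit 5) (nat_lit 21) (nat_lit 4) (nat_lit 19) (nat_lit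 4) (nat_lit 429) (nat_lit 337) (nat_lit 254))) (XT.nd (nat_lit 78) (nat_lit 76) (nat_lit 0) (XT.lf (nat_lit 0) (nat_lit 26051882490) (nat_lit 76) (nat_lit 38139660589) (nat_lit 76) (nat_lit 11561873929) (nat_lit 18) (nat_lit 4) (nat_lit 19) (nat_lit 5) (nat_lit 19) (nat_lit 4) (nat_lit 430) (nat_lit 337) (nat_lit 253)) (XT.lf (nat_lit 0) (nat_lit 6018630462) (nat_lit 152) (nat_lit 14381330105) (nat_lit 76) (nat_lit 58567037145) (nat_lit 17) (nat_lit 5) (nat_lit 19) (nat_lit 5) (nat_lit 18) (nat_lit 4) (nat_lit 431) (nat_lit 337) (nat_lit 252))))))))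
noncomputable def xc44 : XT := (XT.nd (nat_lit 47736) (nat_lit 0) (nat_lit 5244) (XT.nd (nat_lit 46722) (nat_lit 0) (nat_lit 14668) (XT.nd (nat_lit 46254) (nat_lit 0) (nat_lit 26296) (XT.nd (nat_lit 234) (nat_lit 152) (nat_lit 0) (XT.nd (nat_lit 78) (nat_lit 76) (nat_lit 0) (XT.lf (nat_lit 0) (nat_lit 22980297416) (nat_lit 76) (nat_lit 1453098320) (nat_lit 152) (nat_lit 57898597775) (nat_lit 16) (nat_lit 5) (nat_lit 17) (nat_lit 5) (nat_lit 18) (nat_lit 4) (nat_lit 432) (nat_lit 337) (nat_lit 251)) (XT.nd (nat_lit 78) (nat_lit 76) (nat_lit 0) (XT.lf (nat_lit 0) (nat_lit 44067491603) (nat_lit 152) (nat_lit 23584282506) (nat_lit 0) (nat_lit 18204508049) (nat_lit 16) (nat_lit 5) (nat_lit 18) (nat_lit 4) (nat_lit 16) (nat_lit 4) (nat_lit 433) (nat_lit 337) (nat_lit 250)) (XT.lf (nat_lit 0) (nat_lit 14180902889) (nat_lit 76) (nat_lit 50626529690) (nat_lit 76) (nat_lit 24745629235) (nat_lit 15) (nat_lit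 4) (nat_lit 16) (nat_lit 5) (nat_lit 16) (nat_lit 4) (nat_lit 434) (nat_lit 337) (nat_lit 249)))) (XT.nd (nat_lit 78) (nat_lit 152) (nat_lit 0) (XT.lf (nat_lit 0) (nat_lit 54276046085) (nat_lit 76) (nat_lit 32525048782) (nat_lit 76) (nat_lit 6627084611) (nat_lit 15) (nat_lit 4) (nat_lit 16) (nat_lit 5) (nat_lit 16) (nat_lit 4) (nat_lit 435) (nat_lit 337) (nat_lit 248)) (XT.nd (nat_lit 78) (nat_lit 76) (nat_lit 0) (XT.lf (nat_lit 0) (nat_lit 12130408780) (nat_lit 152) (nat_lit 1289485505) (nat_lit 76) (nat_lit 84074336118) (nat_lit 14) (nat_lit 5) (nat_lit 16) (nat_lit 5) (nat_lit 15) (nat_lit 4) (nat_lit 436) (nat_lit 337) (nat_lit 247)) (XT.lf (nat_lit 0) (nat_lit 32110127280) (nat_lit 152) (nat_lit 62703178129) (nat_lit 0) (nat_lit 6935668423) (nat_lit 13) (nat_lit 5) (nat_lit 15) (nat_lit 4) (nat_lit 13) (nat_lit 4) (nat_lit 437) (nat_lit 337) (nat_lit 246))))) (XT.nd (nat_lit 234) (nat_lit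 1748) (nat_lit 0) (XT.nd (nat_lit 78) (nat_lit 836) (nat_lit 0) (XT.lf (nat_lit 0) (nat_lit 1511566929) (nat_lit 228) (nat_lit 866365615) (nat_lit 228) (nat_lit 866365615) (nat_lit 393) (nat_lit 4) (nat_lit 396) (nat_lit 5) (nat_lit 396) (nat_lit 4) (nat_lit 344) (nat_lit 338) (nat_lit 338)) (XT.nd (nat_lit 78) (nat_lit 456) (nat_lit 0) (XT.lf (nat_lit 0) (nat_lit 2602046620) (nat_lit 304) (nat_lit 851207606) (nat_lit 380) (nat_lit 3062681747) (nat_lit 388) (nat_lit 5) (nat_lit 392) (nat_lit 5) (nat_lit 393) (nat_lit 4) (nat_lit 345) (nat_lit 338) (nat_lit 337)) (XT.lf (nat_lit 0) (nat_lit 2022234121) (nat_lit 456) (nat_lit 4250409711) (nat_lit 76) (nat_lit 278522416) (nat_lit 382) (nat_lit 5) (nat_lit 388) (nat_lit 5) (nat_lit 383) (nat_lit 4) (nat_lit 346) (nat_lit 338) (nat_lit 336)))) (XT.nd (nat_lit 78) (nat_lit 1216) (nat_lit 0) (XT.lf (nat_lit 0) (nat_lit 466498857) (nat_lit 532) (nat_lit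 4483982883) (nat_lit 76) (nat_lit 1643635624) (nat_lit 375) (nat_lit 5) (nat_lit 382) (nat_lit 5) (nat_lit 376) (nat_lit 5) (nat_lit 347) (nat_lit 338) (nat_lit 335)) (XT.nd (nat_lit 78) (nat_lit 684) (nat_lit 0) (XT.lf (nat_lit 0) (nat_lit 2025554231) (nat_lit 532) (nat_lit 3368072731) (nat_lit 608) (nat_lit 1251129356) (nat_lit 368) (nat_lit 5) (nat_lit 375) (nat_lit 5) (nat_lit 376) (nat_lit 5) (nat_lit 348) (nat_lit 338) (nat_lit 334)) (XT.lf (nat_lit 0) (nat_lit 2052919550) (nat_lit 608) (nat_lit 1527109575) (nat_lit 684) (nat_lit 3123333594) (nat_lit 359) (nat_lit 5) (nat_lit 367) (nat_lit 5) (nat_lit 368) (nat_lit 5) (nat_lit 349) (nat_lit 338) (nat_lit 333)))))) (XT.nd (nat_lit 468) (nat_lit 6080) (nat_lit 0) (XT.nd (nat_lit 234) (nat_lit 3116) (nat_lit 0) (XT.nd (nat_lit 78) (nat_lit 1672) (nat_lit 0) (XT.lf (nat_lit 0) (nat_lit 1629370639) (nat_lit 760) (nat_lit 4578811640) (nat_lit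 76) (nat_lit 561838413) (nat_lit 349) (nat_lit 5) (nat_lit 359) (nat_lit 5) (nat_lit 350) (nat_lit 5) (nat_lit 350) (nat_lit 338) (nat_lit 332)) (XT.nd (nat_lit 78) (nat_lit 912) (nat_lit 0) (XT.lf (nat_lit 0) (nat_lit 2424047516) (nat_lit 760) (nat_lit 3958897504) (nat_lit 836) (nat_lit 461428687) (nat_lit 339) (nat_lit 5) (nat_lit 349) (nat_lit 5) (nat_lit 350) (nat_lit 5) (nat_lit 351) (nat_lit 338) (nat_lit 331)) (XT.lf (nat_lit 0) (nat_lit 2753657197) (nat_lit 836) (nat_lit 1433298703) (nat_lit 912) (nat_lit 2739657893) (nat_lit 327) (nat_lit 5) (nat_lit 338) (nat_lit 5) (nat_lit 339) (nat_lit 5) (nat_lit 352) (nat_lit 338) (nat_lit 330)))) (XT.nd (nat_lit 78) (nat_lit 2128) (nat_lit 0) (XT.lf (nat_lit 0) (nat_lit 1850825083) (nat_lit 988) (nat_lit 3833183271) (nat_lit 76) (nat_lit 1332976798) (nat_lit 314) (nat_lit 5) (nat_lit 327) (nat_lit 5) (nat_lit 315) (nat_lit 5) (nat_lit 353) (nat_lit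 338) (nat_lit 329)) (XT.nd (nat_lit 78) (nat_lit 1140) (nat_lit 0) (XT.lf (nat_lit 0) (nat_lit 3705754037) (nat_lit 988) (nat_lit 2767987540) (nat_lit 1064) (nat_lit 641634246) (nat_lit 301) (nat_lit 5) (nat_lit 314) (nat_lit 5) (nat_lit 315) (nat_lit 5) (nat_lit 354) (nat_lit 338) (nat_lit 328)) (XT.lf (nat_lit 0) (nat_lit 3886991718) (nat_lit 1140) (nat_lit 2905185269) (nat_lit 76) (nat_lit 429676273) (nat_lit 286) (nat_lit 5) (nat_lit 301) (nat_lit 5) (nat_lit 287) (nat_lit 5) (nat_lit 355) (nat_lit 338) (nat_lit 327))))) (XT.nd (nat_lit 234) (nat_lit 2888) (nat_lit 0) (XT.nd (nat_lit 78) (nat_lit 1976) (nat_lit 0) (XT.lf (nat_lit 0) (nat_lit 1162201460) (nat_lit 1216) (nat_lit 2325497088) (nat_lit 76) (nat_lit 3848713876) (nat_lit 270) (nat_lit 5) (nat_lit 286) (nat_lit 5) (nat_lit 271) (nat_lit 5) (nat_lit 356) (nat_lit 338) (nat_lit 326)) (XT.nd (nat_lit 78) (nat_lit 760) (nat_lit 0) (XT.lf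 (nat_lit 0) (nat_lit 5690620011) (nat_lit 1292) (nat_lit 1660515675) (nat_lit 76) (nat_lit 108391856) (nat_lit 254) (nat_lit 5) (nat_lit 271) (nat_lit 5) (nat_lit 255) (nat_lit 5) (nat_lit 357) (nat_lit 338) (nat_lit 325)) (XT.lf (nat_lit 0) (nat_lit 2719629612) (nat_lit 760) (nat_lit 939965315) (nat_lit 76) (nat_lit 3930894811) (nat_lit 244) (nat_lit 5) (nat_lit 254) (nat_lit 5) (nat_lit 245) (nat_lit 5) (nat_lit 358) (nat_lit 338) (nat_lit 324)))) (XT.nd (nat_lit 156) (nat_lit 1064) (nat_lit 0) (XT.nd (nat_lit 78) (nat_lit 1216) (nat_lit 0) (XT.lf (nat_lit 0) (nat_lit 7291624435) (nat_lit 684) (nat_lit 124288660) (nat_lit 76) (nat_lit 314765943) (nat_lit 236) (nat_lit 5) (nat_lit 245) (nat_lit 5) (nat_lit 237) (nat_lit 5) (nat_lit 359) (nat_lit 338) (nat_lit 323)) (XT.lf (nat_lit 0) (nat_lit 743632453) (nat_lit 532) (nat_lit 3334013086) (nat_lit 608) (nat_lit 3800718058) (nat_lit 220) (nat_lit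 5) (nat_lit 227) (nat_lit 5) (nat_lit 228) (nat_lit 5) (nat_lit 360) (nat_lit 338) (nat_lit 322))) (XT.nd (nat_lit 78) (nat_lit 456) (nat_lit 0) (XT.lf (nat_lit 0) (nat_lit 682813274) (nat_lit 608) (nat_lit 6327820509) (nat_lit 76) (nat_lit 1024900394) (nat_lit 212) (nat_lit 5) (nat_lit 220) (nat_lit 5) (nat_lit 213) (nat_lit 5) (nat_lit 361) (nat_lit 338) (nat_lit 321)) (XT.lf (nat_lit 0) (nat_lit 2713147088) (nat_lit 456) (nat_lit 2550836672) (nat_lit 532) (nat_lit 2936947897) (nat_lit 206) (nat_lit 5) (nat_lit 212) (nat_lit 5) (nat_lit 213) (nat_lit 5) (nat_lit 362) (nat_lit 338) (nat_lit 320))))))) (XT.nd (nat_lit 936) (nat_lit 3800) (nat_lit 0) (XT.nd (nat_lit 468) (nat_lit 2280) (nat_lit 0) (XT.nd (nat_lit 234) (nat_lit 1748) (nat_lit 0) (XT.nd (nat_lit 78) (nat_lit 988) (nat_lit 0) (XT.lf (nat_lit 0) (nat_lit 1612659658) (nat_lit 608) (nat_lit 4582216554) (nat_lit 76) (nat_lit 2180901169)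 (nat_lit 198) (nat_lit 5) (nat_lit 206) (nat_lit 5) (nat_lit 199) (nat_lit 5) (nat_lit 363) (nat_lit 338) (nat_lit 319)) (XT.nd (nat_lit 78) (nat_lit 532) (nat_lit 0) (XT.lf (nat_lit 0) (nat_lit 4929647504) (nat_lit 456) (nat_lit 1358702452) (nat_lit 532) (nat_lit 2271415022) (nat_lit 192) (nat_lit 5) (nat_lit 198) (nat_lit 5) (nat_lit 199) (nat_lit 5) (nat_lit 364) (nat_lit 338) (nat_lit 318)) (XT.lf (nat_lit 0) (nat_lit 2373779651) (nat_lit 532) (nat_lit 2637380542) (nat_lit 76) (nat_lit 3741836558) (nat_lit 185) (nat_lit 5) (nat_lit 192) (nat_lit 5) (nat_lit 186) (nat_lit 5) (nat_lit 365) (nat_lit 338) (nat_lit 317)))) (XT.nd (nat_lit 78) (nat_lit 1292) (nat_lit 0) (XT.lf (nat_lit 0) (nat_lit 7167854252) (nat_lit 532) (nat_lit 1584495843) (nat_lit 76) (nat_lit 204003440) (nat_lit 179) (nat_lit 5) (nat_lit 186) (nat_lit 5) (nat_lit 180) (nat_lit 5) (nat_lit 366) (nat_lit 338) (nat_lit 316))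 (XT.nd (nat_lit 78) (nat_lit 760) (nat_lit 0) (XT.lf (nat_lit 0) (nat_lit 2978298877) (nat_lit 532) (nat_lit 513900974) (nat_lit 76) (nat_lit 5676675402) (nat_lit 172) (nat_lit 5) (nat_lit 179) (nat_lit 5) (nat_lit 173) (nat_lit 5) (nat_lit 367) (nat_lit 338) (nat_lit 315)) (XT.lf (nat_lit 0) (nat_lit 626121002) (nat_lit 380) (nat_lit 7308137275) (nat_lit 456) (nat_lit 1457639741) (nat_lit 162) (nat_lit 5) (nat_lit 167) (nat_lit 5) (nat_lit 168) (nat_lit 5) (nat_lit 368) (nat_lit 338) (nat_lit 314))))) (XT.nd (nat_lit 234) (nat_lit 1064) (nat_lit 0) (XT.nd (nat_lit 78) (nat_lit 760) (nat_lit 0) (XT.lf (nat_lit 0) (nat_lit 1802348763) (nat_lit 380) (nat_lit 1649510864) (nat_lit 456) (nat_lit 6172983583) (nat_lit 156) (nat_lit 5) (nat_lit 161) (nat_lit 5) (nat_lit 162) (nat_lit 5) (nat_lit 369) (nat_lit 338) (nat_lit 313)) (XT.nd (nat_lit 78) (nat_lit 380) (nat_lit 0) (XT.lf (nat_lit 0) (nat_lit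 3015551006) (nat_lit 380) (nat_lit 5577246375) (nat_lit 456) (nat_lit 1275757698) (nat_lit 151) (nat_lit 5) (nat_lit 156) (nat_lit 5) (nat_lit 157) (nat_lit 5) (nat_lit 370) (nat_lit 338) (nat_lit 312)) (XT.lf (nat_lit 0) (nat_lit 3792549762) (nat_lit 380) (nat_lit 5861319275) (nat_lit 76) (nat_lit 469451533) (nat_lit 146) (nat_lit 5) (nat_lit 151) (nat_lit 5) (nat_lit 147) (nat_lit 5) (nat_lit 371) (nat_lit 338) (nat_lit 311)))) (XT.nd (nat_lit 78) (nat_lit 684) (nat_lit 0) (XT.lf (nat_lit 0) (nat_lit 5528532582) (nat_lit 380) (nat_lit 3602720590) (nat_lit 456) (nat_lit 1257922682) (nat_lit 141) (nat_lit 5) (nat_lit 146) (nat_lit 5) (nat_lit 147) (nat_lit 5) (nat_lit 372) (nat_lit 338) (nat_lit 310)) (XT.nd (nat_lit 78) (nat_lit 304) (nat_lit 0) (XT.lf (nat_lit 0) (nat_lit 4009219271) (nat_lit 380) (nat_lit 3851025580) (nat_lit 76) (nat_lit 2806333494) (nat_lit 136) (nat_lit 5) (nat_lit 141)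 (nat_lit 5) (nat_lit 137) (nat_lit 5) (nat_lit 373) (nat_lit 338) (nat_lit 309)) (XT.lf (nat_lit 0) (nat_lit 8138441586) (nat_lit 304) (nat_lit 1410454588) (nat_lit 380) (nat_lit 1407553000) (nat_lit 132) (nat_lit 5) (nat_lit 136) (nat_lit 5) (nat_lit 137) (nat_lit 5) (nat_lit 374) (nat_lit 338) (nat_lit 308)))))) (XT.nd (nat_lit 468) (nat_lit 1748) (nat_lit 0) (XT.nd (nat_lit 234) (nat_lit 760) (nat_lit 0) (XT.nd (nat_lit 78) (nat_lit 912) (nat_lit 0) (XT.lf (nat_lit 0) (nat_lit 4081655186) (nat_lit 380) (nat_lit 1806958175) (nat_lit 76) (nat_lit 5369331736) (nat_lit 127) (nat_lit 5) (nat_lit 132) (nat_lit 5) (nat_lit 128) (nat_lit 5) (nat_lit 375) (nat_lit 338) (nat_lit 307)) (XT.nd (nat_lit 78) (nat_lit 608) (nat_lit 0) (XT.lf (nat_lit 0) (nat_lit 9850005625) (nat_lit 380) (nat_lit 768150746) (nat_lit 76) (nat_lit 954951954) (nat_lit 123) (nat_lit 5) (nat_lit 128) (nat_lit 5) (nat_lit 124)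 (nat_lit 5) (nat_lit 376) (nat_lit 338) (nat_lit 306)) (XT.lf (nat_lit 0) (nat_lit 239350715) (nat_lit 304) (nat_lit 3763779902) (nat_lit 380) (nat_lit 7897412473) (nat_lit 115) (nat_lit 5) (nat_lit 119) (nat_lit 5) (nat_lit 120) (nat_lit 5) (nat_lit 377) (nat_lit 338) (nat_lit 305)))) (XT.nd (nat_lit 78) (nat_lit 532) (nat_lit 0) (XT.lf (nat_lit 0) (nat_lit 1268480623) (nat_lit 228) (nat_lit 8774228732) (nat_lit 304) (nat_lit 2199269774) (nat_lit 112) (nat_lit 5) (nat_lit 115) (nat_lit 5) (nat_lit 116) (nat_lit 5) (nat_lit 378) (nat_lit 338) (nat_lit 304)) (XT.nd (nat_lit 78) (nat_lit 228) (nat_lit 0) (XT.lf (nat_lit 0) (nat_lit 2275666691) (nat_lit 228) (nat_lit 1498758649) (nat_lit 304) (nat_lit 8823055890) (nat_lit 108) (nat_lit 5) (nat_lit 111) (nat_lit 5) (nat_lit 112) (nat_lit 5) (nat_lit 379) (nat_lit 338) (nat_lit 303)) (XT.lf (nat_lit 0) (nat_lit 3248178721) (nat_lit 228) (nat_lit 6844471372)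 (nat_lit 304) (nat_lit 2874734110) (nat_lit 105) (nat_lit 5) (nat_lit 108) (nat_lit 5) (nat_lit 109) (nat_lit 5) (nat_lit 380) (nat_lit 338) (nat_lit 302))))) (XT.nd (nat_lit 234) (nat_lit 912) (nat_lit 0) (XT.nd (nat_lit 78) (nat_lit 532) (nat_lit 0) (XT.lf (nat_lit 0) (nat_lit 3365577924) (nat_lit 304) (nat_lit 9147176812) (nat_lit 76) (nat_lit 840262293) (nat_lit 101) (nat_lit 5) (nat_lit 105) (nat_lit 5) (nat_lit 102) (nat_lit 5) (nat_lit 381) (nat_lit 338) (nat_lit 301)) (XT.nd (nat_lit 78) (nat_lit 304) (nat_lit 0) (XT.lf (nat_lit 0) (nat_lit 5099166978) (nat_lit 228) (nat_lit 4871114163) (nat_lit 304) (nat_lit 3783458224) (nat_lit 98) (nat_lit 5) (nat_lit 101) (nat_lit 5) (nat_lit 102) (nat_lit 5) (nat_lit 382) (nat_lit 338) (nat_lit 300)) (XT.lf (nat_lit 0) (nat_lit 2756139184) (nat_lit 304) (nat_lit 8210262720) (nat_lit 76) (nat_lit 3204962703) (nat_lit 94) (nat_lit 5) (nat_lit 98) (nat_lit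 5) (nat_lit 95) (nat_lit 5) (nat_lit 383) (nat_lit 338) (nat_lit 299)))) (XT.nd (nat_lit 156) (nat_lit 456) (nat_lit 0) (XT.nd (nat_lit 78) (nat_lit 304) (nat_lit 0) (XT.lf (nat_lit 0) (nat_lit 6753701442) (nat_lit 152) (nat_lit 2892888152) (nat_lit 228) (nat_lit 4959108740) (nat_lit 92) (nat_lit 5) (nat_lit 94) (nat_lit 5) (nat_lit 95) (nat_lit 5) (nat_lit 384) (nat_lit 338) (nat_lit 298)) (XT.lf (nat_lit 0) (nat_lit 1896516518) (nat_lit 304) (nat_lit 7575454052) (nat_lit 76) (nat_lit 5585900511) (nat_lit 88) (nat_lit 5) (nat_lit 92) (nat_lit 5) (nat_lit 89) (nat_lit 5) (nat_lit 385) (nat_lit 338) (nat_lit 297))) (XT.nd (nat_lit 78) (nat_lit 304) (nat_lit 0) (XT.lf (nat_lit 0) (nat_lit 8130360301) (nat_lit 152) (nat_lit 954137622) (nat_lit 228) (nat_lit 6443930334) (nat_lit 86) (nat_lit 5) (nat_lit 88) (nat_lit 5) (nat_lit 89) (nat_lit 5) (nat_lit 386) (nat_lit 338) (nat_lit 296)) (XT.lf (nat_lit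 0) (nat_lit 742634767) (nat_lit 304) (nat_lit 7337043342) (nat_lit 76) (nat_lit 7938316566) (nat_lit 82) (nat_lit 5) (nat_lit 86) (nat_lit 5) (nat_lit 83) (nat_lit 5) (nat_lit 387) (nat_lit 338) (nat_lit 295))))))))
noncomputable def xc45 : XT := (XT.nd (nat_lit 1950) (nat_lit 1672) (nat_lit 0) (XT.nd (nat_lit 936) (nat_lit 1444) (nat_lit 0) (XT.nd (nat_lit 468) (nat_lit 1064) (nat_lit 0) (XT.nd (nat_lit 234) (nat_lit 532) (nat_lit 0) (XT.nd (nat_lit 78) (nat_lit 380) (nat_lit 0) (XT.lf (nat_lit 0) (nat_lit 8246168568) (nat_lit 228) (nat_lit 7405041237) (nat_lit 76) (nat_lit 876199606) (nat_lit 80) (nat_lit 5) (nat_lit 83) (nat_lit 5) (nat_lit 81) (nat_lit 5) (nat_lit 388) (nat_lit 338) (nat_lit 294)) (XT.nd (nat_lit 78) (nat_lit 228) (nat_lit 0) (XT.lf (nat_lit 0) (nat_lit 9442194558) (nat_lit 152) (nat_lit 6840355019) (nat_lit 228) (nat_lit 775026010) (nat_lit 78) (nat_lit 5) (nat_lit 80) (nat_lit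 5) (nat_lit 81) (nat_lit 5) (nat_lit 389) (nat_lit 338) (nat_lit 293)) (XT.lf (nat_lit 0) (nat_lit 7073411609) (nat_lit 228) (nat_lit 7996158091) (nat_lit 76) (nat_lit 2539473451) (nat_lit 75) (nat_lit 5) (nat_lit 78) (nat_lit 5) (nat_lit 76) (nat_lit 5) (nat_lit 390) (nat_lit 338) (nat_lit 292)))) (XT.nd (nat_lit 78) (nat_lit 380) (nat_lit 0) (XT.lf (nat_lit 0) (nat_lit 9633730632) (nat_lit 152) (nat_lit 5818699462) (nat_lit 228) (nat_lit 2730807688) (nat_lit 73) (nat_lit 5) (nat_lit 75) (nat_lit 5) (nat_lit 76) (nat_lit 5) (nat_lit 391) (nat_lit 338) (nat_lit 291)) (XT.nd (nat_lit 78) (nat_lit 152) (nat_lit 0) (XT.lf (nat_lit 0) (nat_lit 5486333060) (nat_lit 228) (nat_lit 9310074011) (nat_lit 76) (nat_lit 3984307020) (nat_lit 70) (nat_lit 5) (nat_lit 73) (nat_lit 5) (nat_lit 71) (nat_lit 5) (nat_lit 392) (nat_lit 338) (nat_lit 290)) (XT.lf (nat_lit 0) (nat_lit 9108114474) (nat_lit 152) (nat_lit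 5102550607) (nat_lit 228) (nat_lit 5192012046) (nat_lit 68) (nat_lit 5) (nat_lit 70) (nat_lit 5) (nat_lit 71) (nat_lit 5) (nat_lit 393) (nat_lit 338) (nat_lit 289))))) (XT.nd (nat_lit 234) (nat_lit 456) (nat_lit 0) (XT.nd (nat_lit 78) (nat_lit 380) (nat_lit 0) (XT.lf (nat_lit 0) (nat_lit 3399189820) (nat_lit 228) (nat_lit 11523512819) (nat_lit 76) (nat_lit 5127634983) (nat_lit 65) (nat_lit 5) (nat_lit 68) (nat_lit 5) (nat_lit 66) (nat_lit 5) (nat_lit 394) (nat_lit 338) (nat_lit 288)) (XT.nd (nat_lit 78) (nat_lit 228) (nat_lit 0) (XT.lf (nat_lit 0) (nat_lit 7679613921) (nat_lit 152) (nat_lit 4787104520) (nat_lit 228) (nat_lit 8257503544) (nat_lit 63) (nat_lit 5) (nat_lit 65) (nat_lit 5) (nat_lit 66) (nat_lit 5) (nat_lit 395) (nat_lit 338) (nat_lit 287)) (XT.lf (nat_lit 0) (nat_lit 708620585) (nat_lit 228) (nat_lit 14847491908) (nat_lit 76) (nat_lit 5870625305) (nat_lit 60) (nat_lit 5) (nat_lit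 63) (nat_lit 5) (nat_lit 61) (nat_lit 5) (nat_lit 396) (nat_lit 338) (nat_lit 286)))) (XT.nd (nat_lit 78) (nat_lit 304) (nat_lit 0) (XT.lf (nat_lit 0) (nat_lit 5125945891) (nat_lit 152) (nat_lit 4985394519) (nat_lit 228) (nat_lit 12045820753) (nat_lit 58) (nat_lit 5) (nat_lit 60) (nat_lit 5) (nat_lit 61) (nat_lit 5) (nat_lit 397) (nat_lit 338) (nat_lit 285)) (XT.nd (nat_lit 78) (nat_lit 228) (nat_lit 0) (XT.lf (nat_lit 0) (nat_lit 3358754665) (nat_lit 76) (nat_lit 16796871125) (nat_lit 152) (nat_lit 2763343216) (nat_lit 57) (nat_lit 5) (nat_lit 58) (nat_lit 5) (nat_lit 59) (nat_lit 4) (nat_lit 398) (nat_lit 338) (nat_lit 284)) (XT.lf (nat_lit 0) (nat_lit 1181515244) (nat_lit 152) (nat_lit 5831769427) (nat_lit 228) (nat_lit 16698585630) (nat_lit 54) (nat_lit 5) (nat_lit 56) (nat_lit 5) (nat_lit 57) (nat_lit 5) (nat_lit 399) (nat_lit 338) (nat_lit 283)))))) (XT.nd (nat_lit 468) (nat_lit 760) (nat_lit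 0) (XT.nd (nat_lit 234) (nat_lit 380) (nat_lit 0) (XT.nd (nat_lit 78) (nat_lit 304) (nat_lit 0) (XT.lf (nat_lit 0) (nat_lit 17409293446) (nat_lit 228) (nat_lit 1384407423) (nat_lit 76) (nat_lit 5744269462) (nat_lit 54) (nat_lit 5) (nat_lit 57) (nat_lit 5) (nat_lit 55) (nat_lit 4) (nat_lit 400) (nat_lit 338) (nat_lit 282)) (XT.nd (nat_lit 78) (nat_lit 152) (nat_lit 0) (XT.lf (nat_lit 0) (nat_lit 3058413137) (nat_lit 152) (nat_lit 4383282278) (nat_lit 76) (nat_lit 17956973199) (nat_lit 52) (nat_lit 5) (nat_lit 54) (nat_lit 5) (nat_lit 53) (nat_lit 5) (nat_lit 401) (nat_lit 338) (nat_lit 281)) (XT.lf (nat_lit 0) (nat_lit 13779411357) (nat_lit 228) (nat_lit 7914124842) (nat_lit 76) (nat_lit 4601593419) (nat_lit 50) (nat_lit 5) (nat_lit 53) (nat_lit 5) (nat_lit 51) (nat_lit 4) (nat_lit 402) (nat_lit 338) (nat_lit 280)))) (XT.nd (nat_lit 78) (nat_lit 304) (nat_lit 0) (XT.lf (nat_lit 0) (nat_lit 15241863584)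 (nat_lit 76) (nat_lit 9997241224) (nat_lit 152) (nat_lit 1991234080) (nat_lit 49) (nat_lit 5) (nat_lit 50) (nat_lit 5) (nat_lit 51) (nat_lit 4) (nat_lit 403) (nat_lit 338) (nat_lit 279)) (XT.nd (nat_lit 78) (nat_lit 76) (nat_lit 0) (XT.lf (nat_lit 0) (nat_lit 9036787520) (nat_lit 228) (nat_lit 16699597263) (nat_lit 76) (nat_lit 2468692629) (nat_lit 46) (nat_lit 5) (nat_lit 49) (nat_lit 5) (nat_lit 47) (nat_lit 4) (nat_lit 404) (nat_lit 338) (nat_lit 278)) (XT.lf (nat_lit 0) (nat_lit 7100313774) (nat_lit 76) (nat_lit 13707066412) (nat_lit 152) (nat_lit 8413614698) (nat_lit 45) (nat_lit 5) (nat_lit 46) (nat_lit 5) (nat_lit 47) (nat_lit 4) (nat_lit 405) (nat_lit 338) (nat_lit 277))))) (XT.nd (nat_lit 234) (nat_lit 456) (nat_lit 0) (XT.nd (nat_lit 78) (nat_lit 76) (nat_lit 0) (XT.lf (nat_lit 0) (nat_lit 2053630699) (nat_lit 152) (nat_lit 901782491) (nat_lit 228) (nat_lit 27327484746) (nat_lit 42)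 (nat_lit 5) (nat_lit 44) (nat_lit 5) (nat_lit 45) (nat_lit 5) (nat_lit 406) (nat_lit 338) (nat_lit 276)) (XT.nd (nat_lit 78) (nat_lit 76) (nat_lit 0) (XT.lf (nat_lit 0) (nat_lit 15011818285) (nat_lit 228) (nat_lit 3811622097) (nat_lit 76) (nat_lit 12563172244) (nat_lit 42) (nat_lit 5) (nat_lit 45) (nat_lit 5) (nat_lit 43) (nat_lit 4) (nat_lit 407) (nat_lit 338) (nat_lit 275)) (XT.lf (nat_lit 0) (nat_lit 22143503828) (nat_lit 76) (nat_lit 5693088060) (nat_lit 152) (nat_lit 4703958096) (nat_lit 41) (nat_lit 5) (nat_lit 42) (nat_lit 5) (nat_lit 43) (nat_lit 4) (nat_lit 408) (nat_lit 338) (nat_lit 274)))) (XT.nd (nat_lit 156) (nat_lit 152) (nat_lit 0) (XT.nd (nat_lit 78) (nat_lit 76) (nat_lit 0) (XT.lf (nat_lit 0) (nat_lit 7619824355) (nat_lit 228) (nat_lit 17968817196) (nat_lit 76) (nat_lit 8154866198) (nat_lit 38) (nat_lit 5) (nat_lit 41) (nat_lit 5) (nat_lit 39) (nat_lit 4) (nat_lit 409) (nat_lit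 338) (nat_lit 273)) (XT.lf (nat_lit 0) (nat_lit 8424665994) (nat_lit 76) (nat_lit 12231215662) (nat_lit 152) (nat_lit 14343536383) (nat_lit 37) (nat_lit 5) (nat_lit 38) (nat_lit 5) (nat_lit 39) (nat_lit 4) (nat_lit 410) (nat_lit 338) (nat_lit 272))) (XT.nd (nat_lit 78) (nat_lit 76) (nat_lit 0) (XT.lf (nat_lit 0) (nat_lit 82486105) (nat_lit 76) (nat_lit 34413195189) (nat_lit 76) (nat_lit 1817887200) (nat_lit 36) (nat_lit 4) (nat_lit 37) (nat_lit 5) (nat_lit 37) (nat_lit 4) (nat_lit 411) (nat_lit 338) (nat_lit 271)) (XT.lf (nat_lit 0) (nat_lit 11460764747) (nat_lit 152) (nat_lit 9391345711) (nat_lit 76) (nat_lit 16827613492) (nat_lit 35) (nat_lit 5) (nat_lit 37) (nat_lit 5) (nat_lit 36) (nat_lit 4) (nat_lit 412) (nat_lit 338) (nat_lit 270))))))) (XT.nd (nat_lit 936) (nat_lit 760) (nat_lit 0) (XT.nd (nat_lit 468) (nat_lit 456) (nat_lit 0) (XT.nd (nat_lit 234) (nat_lit 228) (nat_lit 0) (XT.nd (nat_lit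 78) (nat_lit 152) (nat_lit 0) (XT.lf (nat_lit 0) (nat_lit 19049530060) (nat_lit 76) (nat_lit 6450319707) (nat_lit 152) (nat_lit 13609777026) (nat_lit 34) (nat_lit 5) (nat_lit 35) (nat_lit 5) (nat_lit 36) (nat_lit 4) (nat_lit 413) (nat_lit 338) (nat_lit 269)) (XT.nd (nat_lit 78) (nat_lit 76) (nat_lit 0) (XT.lf (nat_lit 0) (nat_lit 8489378118) (nat_lit 76) (nat_lit 31965788822) (nat_lit 76) (nat_lit 149431877) (nat_lit 33) (nat_lit 4) (nat_lit 34) (nat_lit 5) (nat_lit 34) (nat_lit 4) (nat_lit 414) (nat_lit 338) (nat_lit 268)) (XT.lf (nat_lit 0) (nat_lit 13937357854) (nat_lit 152) (nat_lit 3575007032) (nat_lit 76) (nat_lit 24651134967) (nat_lit 32) (nat_lit 5) (nat_lit 34) (nat_lit 5) (nat_lit 33) (nat_lit 4) (nat_lit 415) (nat_lit 338) (nat_lit 267)))) (XT.nd (nat_lit 78) (nat_lit 152) (nat_lit 0) (XT.lf (nat_lit 0) (nat_lit 26827704638) (nat_lit 76) (nat_lit 2110513542) (nat_lit 152) (nat_lit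 14855700821) (nat_lit 31) (nat_lit 5) (nat_lit 32) (nat_lit 5) (nat_lit 33) (nat_lit 4) (nat_lit 416) (nat_lit 338) (nat_lit 266)) (XT.nd (nat_lit 78) (nat_lit 76) (nat_lit 0) (XT.lf (nat_lit 0) (nat_lit 13360731340) (nat_lit 76) (nat_lit 31585015535) (nat_lit 76) (nat_lit 552415465) (nat_lit 30) (nat_lit 4) (nat_lit 31) (nat_lit 5) (nat_lit 31) (nat_lit 4) (nat_lit 417) (nat_lit 338) (nat_lit 265)) (XT.lf (nat_lit 0) (nat_lit 14338176618) (nat_lit 152) (nat_lit 1969282119) (nat_lit 76) (nat_lit 30971356454) (nat_lit 29) (nat_lit 5) (nat_lit 31) (nat_lit 5) (nat_lit 30) (nat_lit 4) (nat_lit 418) (nat_lit 338) (nat_lit 264))))) (XT.nd (nat_lit 234) (nat_lit 228) (nat_lit 0) (XT.nd (nat_lit 78) (nat_lit 152) (nat_lit 0) (XT.lf (nat_lit 0) (nat_lit 30211203669) (nat_lit 152) (nat_lit 18929038514) (nat_lit 0) (nat_lit 616269) (nat_lit 28) (nat_lit 5) (nat_lit 30) (nat_lit 4) (nat_lit 28) (nat_lit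 4) (nat_lit 419) (nat_lit 338) (nat_lit 263)) (XT.nd (nat_lit 78) (nat_lit 76) (nat_lit 0) (XT.lf (nat_lit 0) (nat_lit 12957809994) (nat_lit 76) (nat_lit 34189364739) (nat_lit 76) (nat_lit 3940752035) (nat_lit 27) (nat_lit 4) (nat_lit 28) (nat_lit 5) (nat_lit 28) (nat_lit 4) (nat_lit 420) (nat_lit 338) (nat_lit 262)) (XT.lf (nat_lit 0) (nat_lit 11724639128) (nat_lit 152) (nat_lit 6483809848) (nat_lit 76) (nat_lit 34915781192) (nat_lit 26) (nat_lit 5) (nat_lit 28) (nat_lit 5) (nat_lit 27) (nat_lit 4) (nat_lit 421) (nat_lit 338) (nat_lit 261)))) (XT.nd (nat_lit 78) (nat_lit 152) (nat_lit 0) (XT.lf (nat_lit 0) (nat_lit 27162179657) (nat_lit 76) (nat_lit 1153828721) (nat_lit 152) (nat_lit 26938445034) (nat_lit 25) (nat_lit 5) (nat_lit 26) (nat_lit 5) (nat_lit 27) (nat_lit 4) (nat_lit 422) (nat_lit 338) (nat_lit 260)) (XT.nd (nat_lit 78) (nat_lit 76) (nat_lit 0) (XT.lf (nat_lit 0) (nat_lit 5001090584)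 (nat_lit 76) (nat_lit 40975515123) (nat_lit 76) (nat_lit 11507393725) (nat_lit 24) (nat_lit 4) (nat_lit 25) (nat_lit 5) (nat_lit 25) (nat_lit 4) (nat_lit 423) (nat_lit 338) (nat_lit 259)) (XT.lf (nat_lit 0) (nat_lit 4871150663) (nat_lit 152) (nat_lit 19610057893) (nat_lit 76) (nat_lit 35334434666) (nat_lit 23) (nat_lit 5) (nat_lit 25) (nat_lit 5) (nat_lit 24) (nat_lit 4) (nat_lit 424) (nat_lit 338) (nat_lit 258)))))) (XT.nd (nat_lit 468) (nat_lit 456) (nat_lit 0) (XT.nd (nat_lit 234) (nat_lit 152) (nat_lit 0) (XT.nd (nat_lit 78) (nat_lit 76) (nat_lit 0) (XT.lf (nat_lit 0) (nat_lit 15016420373) (nat_lit 76) (nat_lit 6926358027) (nat_lit 152) (nat_lit 40314309599) (nat_lit 22) (nat_lit 5) (nat_lit 23) (nat_lit 5) (nat_lit 24) (nat_lit 4) (nat_lit 425) (nat_lit 338) (nat_lit 257)) (XT.nd (nat_lit 78) (nat_lit 76) (nat_lit 0) (XT.lf (nat_lit 0) (nat_lit 40148757358) (nat_lit 152) (nat_lit 13208812446)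 (nat_lit 0) (nat_lit 11454613291) (nat_lit 22) (nat_lit 5) (nat_lit 24) (nat_lit 4) (nat_lit 22) (nat_lit 4) (nat_lit 426) (nat_lit 338) (nat_lit 256)) (XT.lf (nat_lit 0) (nat_lit 22837826817) (nat_lit 76) (nat_lit 36684551805) (nat_lit 76) (nat_lit 7964935144) (nat_lit 21) (nat_lit 4) (nat_lit 22) (nat_lit 5) (nat_lit 22) (nat_lit 4) (nat_lit 427) (nat_lit 338) (nat_lit 255)))) (XT.nd (nat_lit 78) (nat_lit 76) (nat_lit 0) (XT.lf (nat_lit 0) (nat_lit 9487621531) (nat_lit 152) (nat_lit 9484004563) (nat_lit 76) (nat_lit 51318640858) (nat_lit 20) (nat_lit 5) (nat_lit 22) (nat_lit 5) (nat_lit 21) (nat_lit 4) (nat_lit 428) (nat_lit 338) (nat_lit 254)) (XT.nd (nat_lit 78) (nat_lit 0) (nat_lit 0) (XT.lf (nat_lit 0) (nat_lit 27844242518) (nat_lit 76) (nat_lit 43059542) (nat_lit 152) (nat_lit 45336524208) (nat_lit 19) (nat_lit 5) (nat_lit 20) (nat_lit 5) (nat_lit 21) (nat_lit 4) (nat_lit 429) (nat_lit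 338) (nat_lit 253)) (XT.lf (nat_lit 0) (nat_lit 47466850083) (nat_lit 152) (nat_lit 9313038548) (nat_lit 0) (nat_lit 19516379355) (nat_lit 19) (nat_lit 5) (nat_lit 21) (nat_lit 4) (nat_lit 19) (nat_lit 4) (nat_lit 430) (nat_lit 338) (nat_lit 252))))) (XT.nd (nat_lit 234) (nat_lit 228) (nat_lit 0) (XT.nd (nat_lit 78) (nat_lit 152) (nat_lit 0) (XT.lf (nat_lit 0) (nat_lit 29068982411) (nat_lit 76) (nat_lit 39208304817) (nat_lit 76) (nat_lit 11237488104) (nat_lit 18) (nat_lit 4) (nat_lit 19) (nat_lit 5) (nat_lit 19) (nat_lit 4) (nat_lit 431) (nat_lit 338) (nat_lit 251)) (XT.nd (nat_lit 78) (nat_lit 76) (nat_lit 0) (XT.lf (nat_lit 0) (nat_lit 7162294267) (nat_lit 152) (nat_lit 13450736479) (nat_lit 76) (nat_lit 62277009440) (nat_lit 17) (nat_lit 5) (nat_lit 19) (nat_lit 5) (nat_lit 18) (nat_lit 4) (nat_lit 432) (nat_lit 338) (nat_lit 250)) (XT.lf (nat_lit 0) (nat_lit 25731685241) (nat_lit 76) (nat_lit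 741385444) (nat_lit 152) (nat_lit 59950958115) (nat_lit 16) (nat_lit 5) (nat_lit 17) (nat_lit 5) (nat_lit 18) (nat_lit 4) (nat_lit 433) (nat_lit 338) (nat_lit 249)))) (XT.nd (nat_lit 156) (nat_lit 152) (nat_lit 0) (XT.nd (nat_lit 78) (nat_lit 76) (nat_lit 0) (XT.lf (nat_lit 0) (nat_lit 47057099502) (nat_lit 152) (nat_lit 23221213280) (nat_lit 0) (nat_lit 19847173406) (nat_lit 16) (nat_lit 5) (nat_lit 18) (nat_lit 4) (nat_lit 16) (nat_lit 4) (nat_lit 434) (nat_lit 338) (nat_lit 248)) (XT.lf (nat_lit 0) (nat_lit 16388022141) (nat_lit 76) (nat_lit 52422976109) (nat_lit 76) (nat_lit 25196798855) (nat_lit 15) (nat_lit 4) (nat_lit 16) (nat_lit 5) (nat_lit 16) (nat_lit 4) (nat_lit 435) (nat_lit 338) (nat_lit 247))) (XT.nd (nat_lit 78) (nat_lit 152) (nat_lit 0) (XT.lf (nat_lit 0) (nat_lit 58416585635) (nat_lit 76) (nat_lit 33451415444) (nat_lit 76) (nat_lit 6209760897) (nat_lit 15) (nat_lit 4) (nat_lit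 16) (nat_lit 5) (nat_lit 16) (nat_lit 4) (nat_lit 436) (nat_lit 338) (nat_lit 246)) (XT.lf (nat_lit 0) (nat_lit 19144241) (nat_lit 76) (nat_lit 13417081900) (nat_lit 152) (nat_lit 88911717519) (nat_lit 13) (nat_lit 5) (nat_lit 14) (nat_lit 5) (nat_lit 15) (nat_lit 4) (nat_lit 437) (nat_lit 338) (nat_lit 245))))))))
noncomputable def xc46 : XT := (XT.nd (nat_lit 1950) (nat_lit 7904) (nat_lit 0) (XT.nd (nat_lit 936) (nat_lit 10260) (nat_lit 0) (XT.nd (nat_lit 468) (nat_lit 4636) (nat_lit 0) (XT.nd (nat_lit 234) (nat_lit 1292) (nat_lit 0) (XT.nd (nat_lit 78) (nat_lit 532) (nat_lit 0) (XT.lf (nat_lit 0) (nat_lit 2179365577) (nat_lit 76) (nat_lit 523733203) (nat_lit 76) (nat_lit 523733203) (nat_lit 399) (nat_lit 4) (nat_lit 400) (nat_lit 5) (nat_lit 400) (nat_lit 4) (nat_lit 342) (nat_lit 339) (nat_lit 339)) (XT.nd (nat_lit 78) (nat_lit 304) (nat_lit 0) (XT.lf (nat_lit 0) (nat_lit 3568145490) (nat_lit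 152) (nat_lit 537993326) (nat_lit 228) (nat_lit 2363037927) (nat_lit 396) (nat_lit 5) (nat_lit 398) (nat_lit 5) (nat_lit 399) (nat_lit 4) (nat_lit 343) (nat_lit 339) (nat_lit 338)) (XT.lf (nat_lit 0) (nat_lit 2681962935) (nat_lit 304) (nat_lit 3592137136) (nat_lit 76) (nat_lit 218470847) (nat_lit 392) (nat_lit 5) (nat_lit 396) (nat_lit 5) (nat_lit 393) (nat_lit 4) (nat_lit 344) (nat_lit 339) (nat_lit 337)))) (XT.nd (nat_lit 78) (nat_lit 912) (nat_lit 0) (XT.lf (nat_lit 0) (nat_lit 1135377441) (nat_lit 380) (nat_lit 4175335139) (nat_lit 76) (nat_lit 1213014850) (nat_lit 387) (nat_lit 5) (nat_lit 392) (nat_lit 5) (nat_lit 388) (nat_lit 5) (nat_lit 345) (nat_lit 339) (nat_lit 336)) (XT.nd (nat_lit 78) (nat_lit 532) (nat_lit 0) (XT.lf (nat_lit 0) (nat_lit 1910613634) (nat_lit 380) (nat_lit 4098384846) (nat_lit 456) (nat_lit 553702781) (nat_lit 382) (nat_lit 5) (nat_lit 387) (nat_lit 5) (nat_lit 388)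 (nat_lit 5) (nat_lit 346) (nat_lit 339) (nat_lit 335)) (XT.lf (nat_lit 0) (nat_lit 1578827190) (nat_lit 456) (nat_lit 2626256521) (nat_lit 532) (nat_lit 2404269248) (nat_lit 375) (nat_lit 5) (nat_lit 381) (nat_lit 5) (nat_lit 382) (nat_lit 5) (nat_lit 347) (nat_lit 339) (nat_lit 334))))) (XT.nd (nat_lit 234) (nat_lit 2660) (nat_lit 0) (XT.nd (nat_lit 78) (nat_lit 1368) (nat_lit 0) (XT.lf (nat_lit 0) (nat_lit 1363872518) (nat_lit 532) (nat_lit 901528186) (nat_lit 608) (nat_lit 4398704707) (nat_lit 367) (nat_lit 5) (nat_lit 374) (nat_lit 5) (nat_lit 375) (nat_lit 5) (nat_lit 348) (nat_lit 339) (nat_lit 333)) (XT.nd (nat_lit 78) (nat_lit 684) (nat_lit 0) (XT.lf (nat_lit 0) (nat_lit 195052060) (nat_lit 684) (nat_lit 5471998265) (nat_lit 76) (nat_lit 1059701214) (nat_lit 358) (nat_lit 5) (nat_lit 367) (nat_lit 5) (nat_lit 359) (nat_lit 5) (nat_lit 349) (nat_lit 339) (nat_lit 332)) (XT.lf (nat_lit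 0) (nat_lit 1230364538) (nat_lit 684) (nat_lit 3515561160) (nat_lit 760) (nat_lit 2050870470) (nat_lit 349) (nat_lit 5) (nat_lit 358) (nat_lit 5) (nat_lit 359) (nat_lit 5) (nat_lit 350) (nat_lit 339) (nat_lit 331)))) (XT.nd (nat_lit 78) (nat_lit 1824) (nat_lit 0) (XT.lf (nat_lit 0) (nat_lit 1316747017) (nat_lit 760) (nat_lit 1104433075) (nat_lit 836) (nat_lit 4453943875) (nat_lit 338) (nat_lit 5) (nat_lit 348) (nat_lit 5) (nat_lit 349) (nat_lit 5) (nat_lit 351) (nat_lit 339) (nat_lit 330)) (XT.nd (nat_lit 78) (nat_lit 988) (nat_lit 0) (XT.lf (nat_lit 0) (nat_lit 1500459630) (nat_lit 836) (nat_lit 5420365014) (nat_lit 912) (nat_lit 40652018) (nat_lit 327) (nat_lit 5) (nat_lit 338) (nat_lit 5) (nat_lit 339) (nat_lit 5) (nat_lit 352) (nat_lit 339) (nat_lit 329)) (XT.lf (nat_lit 0) (nat_lit 1758781214) (nat_lit 912) (nat_lit 2597920988) (nat_lit 988) (nat_lit 2698630886) (nat_lit 314) (nat_lit 5)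 (nat_lit 326) (nat_lit 5) (nat_lit 327) (nat_lit 5) (nat_lit 353) (nat_lit 339) (nat_lit 328)))))) (XT.nd (nat_lit 468) (nat_lit 4256) (nat_lit 0) (XT.nd (nat_lit 234) (nat_lit 2660) (nat_lit 0) (XT.nd (nat_lit 78) (nat_lit 2280) (nat_lit 0) (XT.lf (nat_lit 0) (nat_lit 1639807907) (nat_lit 1064) (nat_lit 5034626816) (nat_lit 76) (nat_lit 483322029) (nat_lit 300) (nat_lit 5) (nat_lit 314) (nat_lit 5) (nat_lit 301) (nat_lit 5) (nat_lit 354) (nat_lit 339) (nat_lit 327)) (XT.nd (nat_lit 78) (nat_lit 1216) (nat_lit 0) (XT.lf (nat_lit 0) (nat_lit 2558976787) (nat_lit 1064) (nat_lit 3470076134) (nat_lit 1140) (nat_lit 1238845687) (nat_lit 286) (nat_lit 5) (nat_lit 300) (nat_lit 5) (nat_lit 301) (nat_lit 5) (nat_lit 355) (nat_lit 339) (nat_lit 326)) (XT.lf (nat_lit 0) (nat_lit 3062594912) (nat_lit 1216) (nat_lit 4299225136) (nat_lit 76) (nat_lit 24715279) (nat_lit 270) (nat_lit 5) (nat_lit 286) (nat_lit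 5) (nat_lit 271) (nat_lit 5) (nat_lit 356) (nat_lit 339) (nat_lit 325)))) (XT.nd (nat_lit 78) (nat_lit 1444) (nat_lit 0) (XT.lf (nat_lit 0) (nat_lit 3689088480) (nat_lit 1216) (nat_lit 3781992480) (nat_lit 1292) (nat_lit 42205891) (nat_lit 254) (nat_lit 5) (nat_lit 270) (nat_lit 5) (nat_lit 271) (nat_lit 5) (nat_lit 357) (nat_lit 339) (nat_lit 324)) (XT.nd (nat_lit 78) (nat_lit 684) (nat_lit 0) (XT.lf (nat_lit 0) (nat_lit 4258165954) (nat_lit 760) (nat_lit 3281249282) (nat_lit 76) (nat_lit 109005538) (nat_lit 244) (nat_lit 5) (nat_lit 254) (nat_lit 5) (nat_lit 245) (nat_lit 5) (nat_lit 358) (nat_lit 339) (nat_lit 323)) (XT.lf (nat_lit 0) (nat_lit 900950577) (nat_lit 684) (nat_lit 2676601025) (nat_lit 76) (nat_lit 4214399240) (nat_lit 235) (nat_lit 5) (nat_lit 244) (nat_lit 5) (nat_lit 236) (nat_lit 5) (nat_lit 359) (nat_lit 339) (nat_lit 322))))) (XT.nd (nat_lit 234) (nat_lit 2508) (nat_lit 0)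 (XT.nd (nat_lit 78) (nat_lit 1140) (nat_lit 0) (XT.lf (nat_lit 0) (nat_lit 5251789679) (nat_lit 684) (nat_lit 2004582549) (nat_lit 76) (nat_lit 687886656) (nat_lit 227) (nat_lit 5) (nat_lit 236) (nat_lit 5) (nat_lit 228) (nat_lit 5) (nat_lit 360) (nat_lit 339) (nat_lit 321)) (XT.nd (nat_lit 78) (nat_lit 532) (nat_lit 0) (XT.lf (nat_lit 0) (nat_lit 1635033447) (nat_lit 608) (nat_lit 1278448738) (nat_lit 76) (nat_lit 5191688701) (nat_lit 219) (nat_lit 5) (nat_lit 227) (nat_lit 5) (nat_lit 220) (nat_lit 5) (nat_lit 361) (nat_lit 339) (nat_lit 320)) (XT.lf (nat_lit 0) (nat_lit 6064642788) (nat_lit 608) (nat_lit 490879167) (nat_lit 76) (nat_lit 1719620803) (nat_lit 212) (nat_lit 5) (nat_lit 220) (nat_lit 5) (nat_lit 213) (nat_lit 5) (nat_lit 362) (nat_lit 339) (nat_lit 319)))) (XT.nd (nat_lit 156) (nat_lit 988) (nat_lit 0) (XT.nd (nat_lit 78) (nat_lit 456) (nat_lit 0) (XT.lf (nat_lit 0) (nat_lit 356533704)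 (nat_lit 532) (nat_lit 1826382657) (nat_lit 608) (nat_lit 6271148579) (nat_lit 198) (nat_lit 5) (nat_lit 205) (nat_lit 5) (nat_lit 206) (nat_lit 5) (nat_lit 363) (nat_lit 339) (nat_lit 318)) (XT.lf (nat_lit 0) (nat_lit 1264394614) (nat_lit 456) (nat_lit 5461792001) (nat_lit 532) (nat_lit 1915862789) (nat_lit 192) (nat_lit 5) (nat_lit 198) (nat_lit 5) (nat_lit 199) (nat_lit 5) (nat_lit 364) (nat_lit 339) (nat_lit 317))) (XT.nd (nat_lit 78) (nat_lit 456) (nat_lit 0) (XT.lf (nat_lit 0) (nat_lit 2231122126) (nat_lit 456) (nat_lit 339365990) (nat_lit 532) (nat_lit 6269270135) (nat_lit 185) (nat_lit 5) (nat_lit 191) (nat_lit 5) (nat_lit 192) (nat_lit 5) (nat_lit 365) (nat_lit 339) (nat_lit 316)) (XT.lf (nat_lit 0) (nat_lit 3230914199) (nat_lit 456) (nat_lit 4013682999) (nat_lit 532) (nat_lit 1802138174) (nat_lit 179) (nat_lit 5) (nat_lit 185) (nat_lit 5) (nat_lit 186) (nat_lit 5) (nat_lit 366) (nat_lit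 339) (nat_lit 315))))))) (XT.nd (nat_lit 936) (nat_lit 3040) (nat_lit 0) (XT.nd (nat_lit 468) (nat_lit 2356) (nat_lit 0) (XT.nd (nat_lit 234) (nat_lit 1140) (nat_lit 0) (XT.nd (nat_lit 78) (nat_lit 836) (nat_lit 0) (XT.lf (nat_lit 0) (nat_lit 2810410788) (nat_lit 532) (nat_lit 4978760785) (nat_lit 76) (nat_lit 1474744668) (nat_lit 172) (nat_lit 5) (nat_lit 179) (nat_lit 5) (nat_lit 173) (nat_lit 5) (nat_lit 367) (nat_lit 339) (nat_lit 314)) (XT.nd (nat_lit 78) (nat_lit 456) (nat_lit 0) (XT.lf (nat_lit 0) (nat_lit 5379198607) (nat_lit 380) (nat_lit 2245592364) (nat_lit 456) (nat_lit 1866414231) (nat_lit 167) (nat_lit 5) (nat_lit 172) (nat_lit 5) (nat_lit 173) (nat_lit 5) (nat_lit 368) (nat_lit 339) (nat_lit 313)) (XT.lf (nat_lit 0) (nat_lit 2901615667) (nat_lit 456) (nat_lit 3222032465) (nat_lit 76) (nat_lit 3605120926) (nat_lit 161) (nat_lit 5) (nat_lit 167) (nat_lit 5) (nat_lit 162) (nat_lit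 5) (nat_lit 369) (nat_lit 339) (nat_lit 312)))) (XT.nd (nat_lit 78) (nat_lit 760) (nat_lit 0) (XT.lf (nat_lit 0) (nat_lit 7688735231) (nat_lit 380) (nat_lit 184074094) (nat_lit 456) (nat_lit 2104780498) (nat_lit 156) (nat_lit 5) (nat_lit 161) (nat_lit 5) (nat_lit 162) (nat_lit 5) (nat_lit 370) (nat_lit 339) (nat_lit 311)) (XT.nd (nat_lit 78) (nat_lit 304) (nat_lit 0) (XT.lf (nat_lit 0) (nat_lit 2843721991) (nat_lit 456) (nat_lit 1358597210) (nat_lit 76) (nat_lit 6034369975) (nat_lit 150) (nat_lit 5) (nat_lit 156) (nat_lit 5) (nat_lit 151) (nat_lit 5) (nat_lit 371) (nat_lit 339) (nat_lit 310)) (XT.lf (nat_lit 0) (nat_lit 8011527818) (nat_lit 380) (nat_lit 391627120) (nat_lit 76) (nat_lit 2104531042) (nat_lit 146) (nat_lit 5) (nat_lit 151) (nat_lit 5) (nat_lit 147) (nat_lit 5) (nat_lit 372) (nat_lit 339) (nat_lit 309))))) (XT.nd (nat_lit 234) (nat_lit 912) (nat_lit 0) (XT.nd (nat_lit 78) (nat_lit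 684) (nat_lit 0) (XT.lf (nat_lit 0) (nat_lit 597325691) (nat_lit 304) (nat_lit 2044042033) (nat_lit 380) (nat_lit 8148704676) (nat_lit 136) (nat_lit 5) (nat_lit 140) (nat_lit 5) (nat_lit 141) (nat_lit 5) (nat_lit 373) (nat_lit 339) (nat_lit 308)) (XT.nd (nat_lit 78) (nat_lit 380) (nat_lit 0) (XT.lf (nat_lit 0) (nat_lit 1599765207) (nat_lit 304) (nat_lit 6438301137) (nat_lit 380) (nat_lit 3046179083) (nat_lit 132) (nat_lit 5) (nat_lit 136) (nat_lit 5) (nat_lit 137) (nat_lit 5) (nat_lit 374) (nat_lit 339) (nat_lit 307)) (XT.lf (nat_lit 0) (nat_lit 2300508492) (nat_lit 380) (nat_lit 8762048845) (nat_lit 76) (nat_lit 328903323) (nat_lit 127) (nat_lit 5) (nat_lit 132) (nat_lit 5) (nat_lit 128) (nat_lit 5) (nat_lit 375) (nat_lit 339) (nat_lit 306)))) (XT.nd (nat_lit 78) (nat_lit 608) (nat_lit 0) (XT.lf (nat_lit 0) (nat_lit 3632781658) (nat_lit 304) (nat_lit 4300383064) (nat_lit 380) (nat_lit 3777541309)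 (nat_lit 123) (nat_lit 5) (nat_lit 127) (nat_lit 5) (nat_lit 128) (nat_lit 5) (nat_lit 376) (nat_lit 339) (nat_lit 305)) (XT.nd (nat_lit 78) (nat_lit 304) (nat_lit 0) (XT.lf (nat_lit 0) (nat_lit 1815708589) (nat_lit 304) (nat_lit 7386870868) (nat_lit 76) (nat_lit 2841356448) (nat_lit 119) (nat_lit 5) (nat_lit 123) (nat_lit 5) (nat_lit 120) (nat_lit 5) (nat_lit 377) (nat_lit 339) (nat_lit 304)) (XT.lf (nat_lit 0) (nat_lit 5661918053) (nat_lit 304) (nat_lit 2019709580) (nat_lit 380) (nat_lit 4708964067) (nat_lit 115) (nat_lit 5) (nat_lit 119) (nat_lit 5) (nat_lit 120) (nat_lit 5) (nat_lit 378) (nat_lit 339) (nat_lit 303)))))) (XT.nd (nat_lit 468) (nat_lit 1444) (nat_lit 0) (XT.nd (nat_lit 234) (nat_lit 760) (nat_lit 0) (XT.nd (nat_lit 78) (nat_lit 532) (nat_lit 0) (XT.lf (nat_lit 0) (nat_lit 1151618018) (nat_lit 304) (nat_lit 6091980009) (nat_lit 76) (nat_lit 5508091317) (nat_lit 111) (nat_lit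 5) (nat_lit 115) (nat_lit 5) (nat_lit 112) (nat_lit 5) (nat_lit 379) (nat_lit 339) (nat_lit 302)) (XT.nd (nat_lit 78) (nat_lit 304) (nat_lit 0) (XT.lf (nat_lit 0) (nat_lit 7270385593) (nat_lit 304) (nat_lit 5488877558) (nat_lit 76) (nat_lit 368321656) (nat_lit 108) (nat_lit 5) (nat_lit 112) (nat_lit 5) (nat_lit 109) (nat_lit 5) (nat_lit 380) (nat_lit 339) (nat_lit 301)) (XT.lf (nat_lit 0) (nat_lit 286729896) (nat_lit 304) (nat_lit 4930025835) (nat_lit 76) (nat_lit 8301967542) (nat_lit 104) (nat_lit 5) (nat_lit 108) (nat_lit 5) (nat_lit 105) (nat_lit 5) (nat_lit 381) (nat_lit 339) (nat_lit 300)))) (XT.nd (nat_lit 78) (nat_lit 532) (nat_lit 0) (XT.lf (nat_lit 0) (nat_lit 6693347147) (nat_lit 304) (nat_lit 4432875173) (nat_lit 76) (nat_lit 2799173595) (nat_lit 101) (nat_lit 5) (nat_lit 105) (nat_lit 5) (nat_lit 102) (nat_lit 5) (nat_lit 382) (nat_lit 339) (nat_lit 299)) (XT.nd (nat_lit 78) (nat_lit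 304) (nat_lit 0) (XT.lf (nat_lit 0) (nat_lit 10377541197) (nat_lit 228) (nat_lit 3148580554) (nat_lit 304) (nat_lit 823120732) (nat_lit 98) (nat_lit 5) (nat_lit 101) (nat_lit 5) (nat_lit 102) (nat_lit 5) (nat_lit 383) (nat_lit 339) (nat_lit 298)) (XT.lf (nat_lit 0) (nat_lit 5901185063) (nat_lit 304) (nat_lit 3609892251) (nat_lit 76) (nat_lit 5278209272) (nat_lit 94) (nat_lit 5) (nat_lit 98) (nat_lit 5) (nat_lit 95) (nat_lit 5) (nat_lit 384) (nat_lit 339) (nat_lit 297))))) (XT.nd (nat_lit 234) (nat_lit 836) (nat_lit 0) (XT.nd (nat_lit 78) (nat_lit 456) (nat_lit 0) (XT.lf (nat_lit 0) (nat_lit 11958634146) (nat_lit 152) (nat_lit 1081108956) (nat_lit 228) (nat_lit 2208506777) (nat_lit 92) (nat_lit 5) (nat_lit 94) (nat_lit 5) (nat_lit 95) (nat_lit 5) (nat_lit 385) (nat_lit 339) (nat_lit 296)) (XT.nd (nat_lit 78) (nat_lit 152) (nat_lit 0) (XT.lf (nat_lit 0) (nat_lit 4856018823) (nat_lit 304) (nat_lit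 3102156013) (nat_lit 76) (nat_lit 7766271649) (nat_lit 88) (nat_lit 5) (nat_lit 92) (nat_lit 5) (nat_lit 89) (nat_lit 5) (nat_lit 386) (nat_lit 339) (nat_lit 295)) (XT.lf (nat_lit 0) (nat_lit 12321302795) (nat_lit 228) (nat_lit 2980429908) (nat_lit 76) (nat_lit 919279706) (nat_lit 86) (nat_lit 5) (nat_lit 89) (nat_lit 5) (nat_lit 87) (nat_lit 5) (nat_lit 387) (nat_lit 339) (nat_lit 294)))) (XT.nd (nat_lit 156) (nat_lit 380) (nat_lit 0) (XT.nd (nat_lit 78) (nat_lit 152) (nat_lit 0) (XT.lf (nat_lit 0) (nat_lit 3510733033) (nat_lit 304) (nat_lit 3008257936) (nat_lit 76) (nat_lit 10217641700) (nat_lit 82) (nat_lit 5) (nat_lit 86) (nat_lit 5) (nat_lit 83) (nat_lit 5) (nat_lit 388) (nat_lit 339) (nat_lit 293)) (XT.lf (nat_lit 0) (nat_lit 11321661386) (nat_lit 228) (nat_lit 3153015815) (nat_lit 76) (nat_lit 2798890251) (nat_lit 80) (nat_lit 5) (nat_lit 83) (nat_lit 5) (nat_lit 81) (nat_lit 5) (nat_lit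 389) (nat_lit 339) (nat_lit 292))) (XT.nd (nat_lit 78) (nat_lit 152) (nat_lit 0) (XT.lf (nat_lit 0) (nat_lit 1807462786) (nat_lit 228) (nat_lit 3446401930) (nat_lit 76) (nat_lit 12578370497) (nat_lit 77) (nat_lit 5) (nat_lit 80) (nat_lit 5) (nat_lit 78) (nat_lit 5) (nat_lit 390) (nat_lit 339) (nat_lit 291)) (XT.lf (nat_lit 0) (nat_lit 9968934934) (nat_lit 228) (nat_lit 3926392460) (nat_lit 76) (nat_lit 4517633268) (nat_lit 75) (nat_lit 5) (nat_lit 78) (nat_lit 5) (nat_lit 76) (nat_lit 5) (nat_lit 391) (nat_lit 339) (nat_lit 290))))))))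
noncomputable def xc47 : XT := (XT.nd (nat_lit 1950) (nat_lit 1292) (nat_lit 0) (XT.nd (nat_lit 936) (nat_lit 1368) (nat_lit 0) (XT.nd (nat_lit 468) (nat_lit 760) (nat_lit 0) (XT.nd (nat_lit 234) (nat_lit 608) (nat_lit 0) (XT.nd (nat_lit 78) (nat_lit 380) (nat_lit 0) (XT.lf (nat_lit 0) (nat_lit 14456871271) (nat_lit 152) (nat_lit 4230725178) (nat_lit 228) (nat_lit 330661101) (nat_lit 73) (nat_lit 5) (nat_lit 75) (nat_lit 5) (nat_lit 76) (nat_lit 5) (nat_lit 392) (nat_lit 339) (nat_lit 289)) (XT.nd (nat_lit 78) (nat_lit 152) (nat_lit 0) (XT.lf (nat_lit 0) (nat_lit 8188237401) (nat_lit 228) (nat_lit 5455537664) (nat_lit 76) (nat_lit 6002901353) (nat_lit 70) (nat_lit 5) (nat_lit 73) (nat_lit 5) (nat_lit 71) (nat_lit 5) (nat_lit 393) (nat_lit 339) (nat_lit 288)) (XT.lf (nat_lit 0) (nat_lit 13759727164) (nat_lit 152) (nat_lit 3513795952) (nat_lit 228) (nat_lit 3028484078) (nat_lit 68) (nat_lit 5)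 (nat_lit 70) (nat_lit 5) (nat_lit 71) (nat_lit 5) (nat_lit 394) (nat_lit 339) (nat_lit 287)))) (XT.nd (nat_lit 78) (nat_lit 380) (nat_lit 0) (XT.lf (nat_lit 0) (nat_lit 5888974796) (nat_lit 228) (nat_lit 7925821683) (nat_lit 76) (nat_lit 7168246853) (nat_lit 65) (nat_lit 5) (nat_lit 68) (nat_lit 5) (nat_lit 66) (nat_lit 5) (nat_lit 395) (nat_lit 339) (nat_lit 286)) (XT.nd (nat_lit 78) (nat_lit 228) (nat_lit 0) (XT.lf (nat_lit 0) (nat_lit 12117818342) (nat_lit 152) (nat_lit 3220565305) (nat_lit 228) (nat_lit 6354393458) (nat_lit 63) (nat_lit 5) (nat_lit 65) (nat_lit 5) (nat_lit 66) (nat_lit 5) (nat_lit 396) (nat_lit 339) (nat_lit 285)) (XT.lf (nat_lit 0) (nat_lit 2962110759) (nat_lit 228) (nat_lit 11558667114) (nat_lit 76) (nat_lit 7910564469) (nat_lit 60) (nat_lit 5) (nat_lit 63) (nat_lit 5) (nat_lit 61) (nat_lit 5) (nat_lit 397) (nat_lit 339) (nat_lit 284))))) (XT.nd (nat_lit 234) (nat_lit 304)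 (nat_lit 0) (XT.nd (nat_lit 78) (nat_lit 304) (nat_lit 0) (XT.lf (nat_lit 0) (nat_lit 9297889053) (nat_lit 152) (nat_lit 3469095242) (nat_lit 228) (nat_lit 10433351125) (nat_lit 58) (nat_lit 5) (nat_lit 60) (nat_lit 5) (nat_lit 61) (nat_lit 5) (nat_lit 398) (nat_lit 339) (nat_lit 283)) (XT.nd (nat_lit 78) (nat_lit 228) (nat_lit 0) (XT.lf (nat_lit 0) (nat_lit 7376441479) (nat_lit 76) (nat_lit 15887827547) (nat_lit 152) (nat_lit 737449718) (nat_lit 57) (nat_lit 5) (nat_lit 58) (nat_lit 5) (nat_lit 59) (nat_lit 4) (nat_lit 399) (nat_lit 339) (nat_lit 282)) (XT.lf (nat_lit 0) (nat_lit 5021168954) (nat_lit 152) (nat_lit 4399913598) (nat_lit 228) (nat_lit 15414507427) (nat_lit 54) (nat_lit 5) (nat_lit 56) (nat_lit 5) (nat_lit 57) (nat_lit 5) (nat_lit 400) (nat_lit 339) (nat_lit 281)))) (XT.nd (nat_lit 78) (nat_lit 228) (nat_lit 0) (XT.lf (nat_lit 0) (nat_lit 2233658920) (nat_lit 76) (nat_lit 18042523301)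 (nat_lit 152) (nat_lit 5428641685) (nat_lit 53) (nat_lit 5) (nat_lit 54) (nat_lit 5) (nat_lit 55) (nat_lit 4) (nat_lit 401) (nat_lit 339) (nat_lit 280)) (XT.nd (nat_lit 78) (nat_lit 152) (nat_lit 0) (XT.lf (nat_lit 0) (nat_lit 5145364537) (nat_lit 152) (nat_lit 1024560586) (nat_lit 76) (nat_lit 20440515254) (nat_lit 52) (nat_lit 5) (nat_lit 54) (nat_lit 5) (nat_lit 53) (nat_lit 5) (nat_lit 402) (nat_lit 339) (nat_lit 279)) (XT.lf (nat_lit 0) (nat_lit 16359102968) (nat_lit 228) (nat_lit 4793490422) (nat_lit 76) (nat_lit 6400437035) (nat_lit 50) (nat_lit 5) (nat_lit 53) (nat_lit 5) (nat_lit 51) (nat_lit 4) (nat_lit 403) (nat_lit 339) (nat_lit 278)))))) (XT.nd (nat_lit 468) (nat_lit 684) (nat_lit 0) (XT.nd (nat_lit 234) (nat_lit 304) (nat_lit 0) (XT.nd (nat_lit 78) (nat_lit 304) (nat_lit 0) (XT.lf (nat_lit 0) (nat_lit 19419502227) (nat_lit 76) (nat_lit 8915076842) (nat_lit 152) (nat_lit 202143533)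 (nat_lit 49) (nat_lit 5) (nat_lit 50) (nat_lit 5) (nat_lit 51) (nat_lit 4) (nat_lit 404) (nat_lit 339) (nat_lit 277)) (XT.nd (nat_lit 78) (nat_lit 76) (nat_lit 0) (XT.lf (nat_lit 0) (nat_lit 11299453948) (nat_lit 228) (nat_lit 14141999179) (nat_lit 76) (nat_lit 4119435304) (nat_lit 46) (nat_lit 5) (nat_lit 49) (nat_lit 5) (nat_lit 47) (nat_lit 4) (nat_lit 405) (nat_lit 339) (nat_lit 276)) (XT.lf (nat_lit 0) (nat_lit 10750659844) (nat_lit 76) (nat_lit 12853363275) (nat_lit 152) (nat_lit 7025220871) (nat_lit 45) (nat_lit 5) (nat_lit 46) (nat_lit 5) (nat_lit 47) (nat_lit 4) (nat_lit 406) (nat_lit 339) (nat_lit 275)))) (XT.nd (nat_lit 78) (nat_lit 76) (nat_lit 0) (XT.lf (nat_lit 0) (nat_lit 4829050669) (nat_lit 228) (nat_lit 26359208222) (nat_lit 76) (nat_lit 556903989) (nat_lit 42) (nat_lit 5) (nat_lit 45) (nat_lit 5) (nat_lit 43) (nat_lit 4) (nat_lit 407) (nat_lit 339) (nat_lit 274)) (XT.nd (nat_lit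 78) (nat_lit 76) (nat_lit 0) (XT.lf (nat_lit 0) (nat_lit 17414760370) (nat_lit 228) (nat_lit 885612280) (nat_lit 76) (nat_lit 14605901075) (nat_lit 42) (nat_lit 5) (nat_lit 45) (nat_lit 5) (nat_lit 43) (nat_lit 4) (nat_lit 408) (nat_lit 339) (nat_lit 273)) (XT.lf (nat_lit 0) (nat_lit 26277933488) (nat_lit 76) (nat_lit 4553255598) (nat_lit 152) (nat_lit 3288211086) (nat_lit 41) (nat_lit 5) (nat_lit 42) (nat_lit 5) (nat_lit 43) (nat_lit 4) (nat_lit 409) (nat_lit 339) (nat_lit 272))))) (XT.nd (nat_lit 234) (nat_lit 304) (nat_lit 0) (XT.nd (nat_lit 78) (nat_lit 152) (nat_lit 0) (XT.lf (nat_lit 0) (nat_lit 9584503089) (nat_lit 228) (nat_lit 15861677776) (nat_lit 76) (nat_lit 9936904468) (nat_lit 38) (nat_lit 5) (nat_lit 41) (nat_lit 5) (nat_lit 39) (nat_lit 4) (nat_lit 410) (nat_lit 339) (nat_lit 271)) (XT.nd (nat_lit 78) (nat_lit 76) (nat_lit 0) (XT.lf (nat_lit 0) (nat_lit 11765325218) (nat_lit 76)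 (nat_lit 11459687653) (nat_lit 152) (nat_lit 13478202928) (nat_lit 37) (nat_lit 5) (nat_lit 38) (nat_lit 5) (nat_lit 39) (nat_lit 4) (nat_lit 411) (nat_lit 339) (nat_lit 270)) (XT.lf (nat_lit 0) (nat_lit 2954287180) (nat_lit 76) (nat_lit 34769584259) (nat_lit 76) (nat_lit 360194224) (nat_lit 36) (nat_lit 4) (nat_lit 37) (nat_lit 5) (nat_lit 37) (nat_lit 4) (nat_lit 412) (nat_lit 339) (nat_lit 269)))) (XT.nd (nat_lit 156) (nat_lit 152) (nat_lit 0) (XT.nd (nat_lit 78) (nat_lit 76) (nat_lit 0) (XT.lf (nat_lit 0) (nat_lit 13479868527) (nat_lit 152) (nat_lit 7100939609) (nat_lit 76) (nat_lit 18939446930) (nat_lit 35) (nat_lit 5) (nat_lit 37) (nat_lit 5) (nat_lit 36) (nat_lit 4) (nat_lit 413) (nat_lit 339) (nat_lit 268)) (XT.lf (nat_lit 0) (nat_lit 22682865867) (nat_lit 76) (nat_lit 5494951726) (nat_lit 152) (nat_lit 12845131645) (nat_lit 34) (nat_lit 5) (nat_lit 35) (nat_lit 5) (nat_lit 36) (nat_lit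 4) (nat_lit 414) (nat_lit 339) (nat_lit 267))) (XT.nd (nat_lit 78) (nat_lit 0) (nat_lit 0) (XT.lf (nat_lit 0) (nat_lit 1232995266) (nat_lit 152) (nat_lit 31058776584) (nat_lit 76) (nat_lit 10301432660) (nat_lit 32) (nat_lit 5) (nat_lit 34) (nat_lit 5) (nat_lit 33) (nat_lit 4) (nat_lit 415) (nat_lit 339) (nat_lit 266)) (XT.lf (nat_lit 0) (nat_lit 15955022877) (nat_lit 152) (nat_lit 1219760337) (nat_lit 76) (nat_lit 27057206398) (nat_lit 32) (nat_lit 5) (nat_lit 34) (nat_lit 5) (nat_lit 33) (nat_lit 4) (nat_lit 416) (nat_lit 339) (nat_lit 265))))))) (XT.nd (nat_lit 936) (nat_lit 456) (nat_lit 0) (XT.nd (nat_lit 468) (nat_lit 380) (nat_lit 0) (XT.nd (nat_lit 234) (nat_lit 152) (nat_lit 0) (XT.nd (nat_lit 78) (nat_lit 228) (nat_lit 0) (XT.lf (nat_lit 0) (nat_lit 30630450400) (nat_lit 76) (nat_lit 1036240822) (nat_lit 152) (nat_lit 14278418466) (nat_lit 31) (nat_lit 5) (nat_lit 32) (nat_lit 5) (nat_lit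 33) (nat_lit 4) (nat_lit 417) (nat_lit 339) (nat_lit 264)) (XT.nd (nat_lit 78) (nat_lit 76) (nat_lit 0) (XT.lf (nat_lit 0) (nat_lit 698330183) (nat_lit 152) (nat_lit 31296264368) (nat_lit 76) (nat_lit 15740577743) (nat_lit 29) (nat_lit 5) (nat_lit 31) (nat_lit 5) (nat_lit 30) (nat_lit 4) (nat_lit 418) (nat_lit 339) (nat_lit 263)) (XT.lf (nat_lit 0) (nat_lit 263551391) (nat_lit 76) (nat_lit 16000779689) (nat_lit 152) (nat_lit 33342096074) (nat_lit 28) (nat_lit 5) (nat_lit 29) (nat_lit 5) (nat_lit 30) (nat_lit 4) (nat_lit 419) (nat_lit 339) (nat_lit 262)))) (XT.nd (nat_lit 78) (nat_lit 152) (nat_lit 0) (XT.lf (nat_lit 0) (nat_lit 32903196440) (nat_lit 152) (nat_lit 17591299759) (nat_lit 0) (nat_lit 1067913220) (nat_lit 28) (nat_lit 5) (nat_lit 30) (nat_lit 4) (nat_lit 28) (nat_lit 4) (nat_lit 420) (nat_lit 339) (nat_lit 261)) (XT.nd (nat_lit 78) (nat_lit 76) (nat_lit 0) (XT.lf (nat_lit 0) (nat_lit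 15824415308) (nat_lit 76) (nat_lit 34826619700) (nat_lit 76) (nat_lit 2956846407) (nat_lit 27) (nat_lit 4) (nat_lit 28) (nat_lit 5) (nat_lit 28) (nat_lit 4) (nat_lit 421) (nat_lit 339) (nat_lit 260)) (XT.lf (nat_lit 0) (nat_lit 13413631821) (nat_lit 152) (nat_lit 4672948382) (nat_lit 76) (nat_lit 37660735522) (nat_lit 26) (nat_lit 5) (nat_lit 28) (nat_lit 5) (nat_lit 27) (nat_lit 4) (nat_lit 422) (nat_lit 339) (nat_lit 259))))) (XT.nd (nat_lit 234) (nat_lit 152) (nat_lit 0) (XT.nd (nat_lit 78) (nat_lit 152) (nat_lit 0) (XT.lf (nat_lit 0) (nat_lit 30594139763) (nat_lit 76) (nat_lit 207852480) (nat_lit 152) (nat_lit 27183037259) (nat_lit 25) (nat_lit 5) (nat_lit 26) (nat_lit 5) (nat_lit 27) (nat_lit 4) (nat_lit 423) (nat_lit 339) (nat_lit 258)) (XT.nd (nat_lit 78) (nat_lit 76) (nat_lit 0) (XT.lf (nat_lit 0) (nat_lit 7287403502) (nat_lit 76) (nat_lit 42036017026) (nat_lit 76) (nat_lit 11003300218)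 (nat_lit 24) (nat_lit 4) (nat_lit 25) (nat_lit 5) (nat_lit 25) (nat_lit 4) (nat_lit 424) (nat_lit 339) (nat_lit 257)) (XT.lf (nat_lit 0) (nat_lit 6122707223) (nat_lit 152) (nat_lit 18631169754) (nat_lit 76) (nat_lit 38022272262) (nat_lit 23) (nat_lit 5) (nat_lit 25) (nat_lit 5) (nat_lit 24) (nat_lit 4) (nat_lit 425) (nat_lit 339) (nat_lit 256)))) (XT.nd (nat_lit 78) (nat_lit 76) (nat_lit 0) (XT.lf (nat_lit 0) (nat_lit 17670466875) (nat_lit 76) (nat_lit 6347744486) (nat_lit 152) (nat_lit 41322347766) (nat_lit 22) (nat_lit 5) (nat_lit 23) (nat_lit 5) (nat_lit 24) (nat_lit 4) (nat_lit 426) (nat_lit 339) (nat_lit 255)) (XT.nd (nat_lit 78) (nat_lit 76) (nat_lit 0) (XT.lf (nat_lit 0) (nat_lit 43096371462) (nat_lit 152) (nat_lit 12037140928) (nat_lit 0) (nat_lit 12891041763) (nat_lit 22) (nat_lit 5) (nat_lit 24) (nat_lit 4) (nat_lit 22) (nat_lit 4) (nat_lit 427) (nat_lit 339) (nat_lit 254)) (XT.lf (nat_lit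 0) (nat_lit 25759313172) (nat_lit 76) (nat_lit 37651696876) (nat_lit 76) (nat_lit 7423262784) (nat_lit 21) (nat_lit 4) (nat_lit 22) (nat_lit 5) (nat_lit 22) (nat_lit 4) (nat_lit 428) (nat_lit 339) (nat_lit 253)))))) (XT.nd (nat_lit 468) (nat_lit 76) (nat_lit 0) (XT.nd (nat_lit 234) (nat_lit 228) (nat_lit 0) (XT.nd (nat_lit 78) (nat_lit 76) (nat_lit 0) (XT.lf (nat_lit 0) (nat_lit 10839695855) (nat_lit 152) (nat_lit 8245855687) (nat_lit 76) (nat_lit 54692869067) (nat_lit 20) (nat_lit 5) (nat_lit 22) (nat_lit 5) (nat_lit 21) (nat_lit 4) (nat_lit 429) (nat_lit 339) (nat_lit 252)) (XT.nd (nat_lit 78) (nat_lit 0) (nat_lit 0) (XT.lf (nat_lit 0) (nat_lit 30140918669) (nat_lit 152) (nat_lit 45967078715) (nat_lit 0) (nat_lit 751215135) (nat_lit 19) (nat_lit 5) (nat_lit 21) (nat_lit 4) (nat_lit 19) (nat_lit 4) (nat_lit 430) (nat_lit 339) (nat_lit 251)) (XT.lf (nat_lit 0) (nat_lit 50658941269) (nat_lit 152)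 (nat_lit 8177690844) (nat_lit 0) (nat_lit 21249860605) (nat_lit 19) (nat_lit 5) (nat_lit 21) (nat_lit 4) (nat_lit 19) (nat_lit 4) (nat_lit 431) (nat_lit 339) (nat_lit 250)))) (XT.nd (nat_lit 78) (nat_lit 152) (nat_lit 0) (XT.lf (nat_lit 0) (nat_lit 32077538829) (nat_lit 76) (nat_lit 40408322052) (nat_lit 76) (nat_lit 10980786980) (nat_lit 18) (nat_lit 4) (nat_lit 19) (nat_lit 5) (nat_lit 19) (nat_lit 4) (nat_lit 432) (nat_lit 339) (nat_lit 249)) (XT.nd (nat_lit 78) (nat_lit 76) (nat_lit 0) (XT.lf (nat_lit 0) (nat_lit 8284792002) (nat_lit 152) (nat_lit 12626982935) (nat_lit 76) (nat_lit 66099812690) (nat_lit 17) (nat_lit 5) (nat_lit 19) (nat_lit 5) (nat_lit 18) (nat_lit 4) (nat_lit 433) (nat_lit 339) (nat_lit 248)) (XT.lf (nat_lit 0) (nat_lit 28471669008) (nat_lit 76) (nat_lit 67010006) (nat_lit 152) (nat_lit 62184270603) (nat_lit 16) (nat_lit 5) (nat_lit 17) (nat_lit 5) (nat_lit 18) (nat_lit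 4) (nat_lit 434) (nat_lit 339) (nat_lit 247))))) (XT.nd (nat_lit 45708) (nat_lit 0) (nat_lit 28880) (XT.nd (nat_lit 78) (nat_lit 76) (nat_lit 0) (XT.lf (nat_lit 0) (nat_lit 50123091274) (nat_lit 152) (nat_lit 22983377482) (nat_lit 0) (nat_lit 21503876706) (nat_lit 16) (nat_lit 5) (nat_lit 18) (nat_lit 4) (nat_lit 16) (nat_lit 4) (nat_lit 435) (nat_lit 339) (nat_lit 246)) (XT.nd (nat_lit 78) (nat_lit 0) (nat_lit 0) (XT.lf (nat_lit 0) (nat_lit 18566220625) (nat_lit 76) (nat_lit 54377567031) (nat_lit 76) (nat_lit 25743612184) (nat_lit 15) (nat_lit 4) (nat_lit 16) (nat_lit 5) (nat_lit 16) (nat_lit 4) (nat_lit 436) (nat_lit 339) (nat_lit 245)) (XT.lf (nat_lit 0) (nat_lit 62631507656) (nat_lit 76) (nat_lit 34489169185) (nat_lit 76) (nat_lit 5841175976) (nat_lit 15) (nat_lit 4) (nat_lit 16) (nat_lit 5) (nat_lit 16) (nat_lit 4) (nat_lit 437) (nat_lit 339) (nat_lit 244)))) (XT.nd (nat_lit 156) (nat_lit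 380) (nat_lit 0) (XT.nd (nat_lit 78) (nat_lit 76) (nat_lit 0) (XT.lf (nat_lit 0) (nat_lit 1073741823) (nat_lit 0) (nat_lit 0) (nat_lit 0) (nat_lit 0) (nat_lit 401) (nat_lit 0) (nat_lit 1) (nat_lit 0) (nat_lit 1) (nat_lit 0) (nat_lit 340) (nat_lit 340) (nat_lit 340)) (XT.lf (nat_lit 0) (nat_lit 5140323407) (nat_lit 76) (nat_lit 1171062910) (nat_lit 0) (nat_lit 134641284) (nat_lit 400) (nat_lit 5) (nat_lit 401) (nat_lit 0) (nat_lit 400) (nat_lit 4) (nat_lit 341) (nat_lit 340) (nat_lit 339))) (XT.nd (nat_lit 78) (nat_lit 228) (nat_lit 0) (XT.lf (nat_lit 0) (nat_lit 3718747303) (nat_lit 152) (nat_lit 2223941402) (nat_lit 76) (nat_lit 514799961) (nat_lit 398) (nat_lit 5) (nat_lit 400) (nat_lit 5) (nat_lit 399) (nat_lit 4) (nat_lit 342) (nat_lit 340) (nat_lit 338)) (XT.lf (nat_lit 0) (nat_lit 2174424961) (nat_lit 228) (nat_lit 3160865690) (nat_lit 76) (nat_lit 1141565252) (nat_lit 395) (nat_lit 5)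 (nat_lit 398) (nat_lit 5) (nat_lit 396) (nat_lit 5) (nat_lit 343) (nat_lit 340) (nat_lit 337))))))))
noncomputable def xc48 : XT := (XT.nd (nat_lit 1872) (nat_lit 7828) (nat_lit 0) (XT.nd (nat_lit 936) (nat_lit 8132) (nat_lit 0) (XT.nd (nat_lit 468) (nat_lit 5548) (nat_lit 0) (XT.nd (nat_lit 234) (nat_lit 1748) (nat_lit 0) (XT.nd (nat_lit 78) (nat_lit 760) (nat_lit 0) (XT.lf (nat_lit 0) (nat_lit 503699676) (nat_lit 304) (nat_lit 3983729103) (nat_lit 76) (nat_lit 2016737406) (nat_lit 391) (nat_lit 5) (nat_lit 395) (nat_lit 5) (nat_lit 392) (nat_lit 5) (nat_lit 344) (nat_lit 340) (nat_lit 336)) (XT.nd (nat_lit 78) (nat_lit 456) (nat_lit 0) (XT.lf (nat_lit 0) (nat_lit 1832277074) (nat_lit 304) (nat_lit 3383537980) (nat_lit 380) (nat_lit 1323274929) (nat_lit 387) (nat_lit 5) (nat_lit 391) (nat_lit 5) (nat_lit 392) (nat_lit 5) (nat_lit 345) (nat_lit 340) (nat_lit 335)) (XT.lf (nat_lit 0) (nat_lit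 1256998503) (nat_lit 380) (nat_lit 2027102990) (nat_lit 456) (nat_lit 3297787005) (nat_lit 381) (nat_lit 5) (nat_lit 386) (nat_lit 5) (nat_lit 387) (nat_lit 5) (nat_lit 346) (nat_lit 340) (nat_lit 334)))) (XT.nd (nat_lit 78) (nat_lit 1216) (nat_lit 0) (XT.lf (nat_lit 0) (nat_lit 798814294) (nat_lit 456) (nat_lit 419279648) (nat_lit 532) (nat_lit 5414697420) (nat_lit 374) (nat_lit 5) (nat_lit 380) (nat_lit 5) (nat_lit 381) (nat_lit 5) (nat_lit 347) (nat_lit 340) (nat_lit 333)) (XT.nd (nat_lit 78) (nat_lit 684) (nat_lit 0) (XT.lf (nat_lit 0) (nat_lit 433051534) (nat_lit 532) (nat_lit 5265248889) (nat_lit 608) (nat_lit 992892303) (nat_lit 367) (nat_lit 5) (nat_lit 374) (nat_lit 5) (nat_lit 375) (nat_lit 5) (nat_lit 348) (nat_lit 340) (nat_lit 332)) (XT.lf (nat_lit 0) (nat_lit 163197252) (nat_lit 608) (nat_lit 3224690120) (nat_lit 684) (nat_lit 3369425706) (nat_lit 358) (nat_lit 5) (nat_lit 366)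 (nat_lit 5) (nat_lit 367) (nat_lit 5) (nat_lit 349) (nat_lit 340) (nat_lit 331))))) (XT.nd (nat_lit 234) (nat_lit 3952) (nat_lit 0) (XT.nd (nat_lit 78) (nat_lit 836) (nat_lit 0) (XT.lf (nat_lit 0) (nat_lit 5665175) (nat_lit 684) (nat_lit 928637663) (nat_lit 760) (nat_lit 5897453032) (nat_lit 348) (nat_lit 5) (nat_lit 357) (nat_lit 5) (nat_lit 358) (nat_lit 5) (nat_lit 350) (nat_lit 340) (nat_lit 330)) (XT.nd (nat_lit 78) (nat_lit 836) (nat_lit 0) (XT.lf (nat_lit 0) (nat_lit 5228338238) (nat_lit 760) (nat_lit 70645621) (nat_lit 76) (nat_lit 1614701839) (nat_lit 348) (nat_lit 5) (nat_lit 358) (nat_lit 5) (nat_lit 349) (nat_lit 5) (nat_lit 351) (nat_lit 340) (nat_lit 329)) (XT.lf (nat_lit 0) (nat_lit 2531454950) (nat_lit 836) (nat_lit 58089975) (nat_lit 76) (nat_lit 4414054070) (nat_lit 337) (nat_lit 5) (nat_lit 348) (nat_lit 5) (nat_lit 338) (nat_lit 5) (nat_lit 352) (nat_lit 340) (nat_lit 328))))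 (XT.nd (nat_lit 78) (nat_lit 2204) (nat_lit 0) (XT.lf (nat_lit 0) (nat_lit 56408349) (nat_lit 912) (nat_lit 6721618276) (nat_lit 988) (nat_lit 323963950) (nat_lit 314) (nat_lit 5) (nat_lit 326) (nat_lit 5) (nat_lit 327) (nat_lit 5) (nat_lit 353) (nat_lit 340) (nat_lit 327)) (XT.nd (nat_lit 78) (nat_lit 1140) (nat_lit 0) (XT.lf (nat_lit 0) (nat_lit 227756959) (nat_lit 988) (nat_lit 3612437776) (nat_lit 1064) (nat_lit 3367416597) (nat_lit 300) (nat_lit 5) (nat_lit 313) (nat_lit 5) (nat_lit 314) (nat_lit 5) (nat_lit 354) (nat_lit 340) (nat_lit 326)) (XT.lf (nat_lit 0) (nat_lit 506995698) (nat_lit 1064) (nat_lit 232527566) (nat_lit 1140) (nat_lit 6582638557) (nat_lit 285) (nat_lit 5) (nat_lit 299) (nat_lit 5) (nat_lit 300) (nat_lit 5) (nat_lit 355) (nat_lit 340) (nat_lit 325)))))) (XT.nd (nat_lit 468) (nat_lit 3116) (nat_lit 0) (XT.nd (nat_lit 234) (nat_lit 1900) (nat_lit 0) (XT.nd (nat_lit 78) (nat_lit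 1976) (nat_lit 0) (XT.lf (nat_lit 0) (nat_lit 836485949) (nat_lit 1140) (nat_lit 4058450643) (nat_lit 1216) (nat_lit 2549198711) (nat_lit 270) (nat_lit 5) (nat_lit 285) (nat_lit 5) (nat_lit 286) (nat_lit 5) (nat_lit 356) (nat_lit 340) (nat_lit 324)) (XT.nd (nat_lit 78) (nat_lit 684) (nat_lit 0) (XT.lf (nat_lit 0) (nat_lit 1262824959) (nat_lit 1216) (nat_lit 280980961) (nat_lit 1292) (nat_lit 6031264473) (nat_lit 253) (nat_lit 5) (nat_lit 269) (nat_lit 5) (nat_lit 270) (nat_lit 5) (nat_lit 357) (nat_lit 340) (nat_lit 323)) (XT.lf (nat_lit 0) (nat_lit 1740497373) (nat_lit 684) (nat_lit 3982632293) (nat_lit 760) (nat_lit 1990703057) (nat_lit 244) (nat_lit 5) (nat_lit 253) (nat_lit 5) (nat_lit 254) (nat_lit 5) (nat_lit 358) (nat_lit 340) (nat_lit 322)))) (XT.nd (nat_lit 78) (nat_lit 1216) (nat_lit 0) (XT.lf (nat_lit 0) (nat_lit 2118751186) (nat_lit 684) (nat_lit 5557800345) (nat_lit 76) (nat_lit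 185072179) (nat_lit 235) (nat_lit 5) (nat_lit 244) (nat_lit 5) (nat_lit 236) (nat_lit 5) (nat_lit 359) (nat_lit 340) (nat_lit 321)) (XT.nd (nat_lit 78) (nat_lit 608) (nat_lit 0) (XT.lf (nat_lit 0) (nat_lit 2916365243) (nat_lit 608) (nat_lit 3432111377) (nat_lit 684) (nat_lit 1669118345) (nat_lit 227) (nat_lit 5) (nat_lit 235) (nat_lit 5) (nat_lit 236) (nat_lit 5) (nat_lit 360) (nat_lit 340) (nat_lit 320)) (XT.lf (nat_lit 0) (nat_lit 2490961445) (nat_lit 608) (nat_lit 4580786303) (nat_lit 76) (nat_lit 1110915271) (nat_lit 219) (nat_lit 5) (nat_lit 227) (nat_lit 5) (nat_lit 220) (nat_lit 5) (nat_lit 361) (nat_lit 340) (nat_lit 319))))) (XT.nd (nat_lit 234) (nat_lit 1520) (nat_lit 0) (XT.nd (nat_lit 78) (nat_lit 1064) (nat_lit 0) (XT.lf (nat_lit 0) (nat_lit 4342972129) (nat_lit 532) (nat_lit 2447681315) (nat_lit 608) (nat_lit 1565905212) (nat_lit 212) (nat_lit 5) (nat_lit 219) (nat_lit 5) (nat_lit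 220) (nat_lit 5) (nat_lit 362) (nat_lit 340) (nat_lit 318)) (XT.nd (nat_lit 78) (nat_lit 532) (nat_lit 0) (XT.lf (nat_lit 0) (nat_lit 2674504797) (nat_lit 532) (nat_lit 3399888626) (nat_lit 76) (nat_lit 2465138633) (nat_lit 205) (nat_lit 5) (nat_lit 212) (nat_lit 5) (nat_lit 206) (nat_lit 5) (nat_lit 363) (nat_lit 340) (nat_lit 317)) (XT.lf (nat_lit 0) (nat_lit 6000802814) (nat_lit 532) (nat_lit 1064716943) (nat_lit 608) (nat_lit 1666587534) (nat_lit 198) (nat_lit 5) (nat_lit 205) (nat_lit 5) (nat_lit 206) (nat_lit 5) (nat_lit 364) (nat_lit 340) (nat_lit 316)))) (XT.nd (nat_lit 78) (nat_lit 988) (nat_lit 0) (XT.lf (nat_lit 0) (nat_lit 2682348549) (nat_lit 532) (nat_lit 2035502830) (nat_lit 76) (nat_lit 4215890759) (nat_lit 191) (nat_lit 5) (nat_lit 198) (nat_lit 5) (nat_lit 192) (nat_lit 5) (nat_lit 365) (nat_lit 340) (nat_lit 315)) (XT.nd (nat_lit 78) (nat_lit 532) (nat_lit 0) (XT.lf (nat_lit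 0) (nat_lit 7191845354) (nat_lit 532) (nat_lit 1281245490) (nat_lit 76) (nat_lit 672587136) (nat_lit 185) (nat_lit 5) (nat_lit 192) (nat_lit 5) (nat_lit 186) (nat_lit 5) (nat_lit 366) (nat_lit 340) (nat_lit 314)) (XT.lf (nat_lit 0) (nat_lit 2523744034) (nat_lit 532) (nat_lit 507769364) (nat_lit 76) (nat_lit 6335545987) (nat_lit 178) (nat_lit 5) (nat_lit 185) (nat_lit 5) (nat_lit 179) (nat_lit 5) (nat_lit 367) (nat_lit 340) (nat_lit 313))))))) (XT.nd (nat_lit 936) (nat_lit 3040) (nat_lit 0) (XT.nd (nat_lit 468) (nat_lit 1900) (nat_lit 0) (XT.nd (nat_lit 234) (nat_lit 1216) (nat_lit 0) (XT.nd (nat_lit 78) (nat_lit 836) (nat_lit 0) (XT.lf (nat_lit 0) (nat_lit 315434621) (nat_lit 380) (nat_lit 6872689811) (nat_lit 456) (nat_lit 2410741829) (nat_lit 167) (nat_lit 5) (nat_lit 172) (nat_lit 5) (nat_lit 173) (nat_lit 5) (nat_lit 368) (nat_lit 340) (nat_lit 312)) (XT.nd (nat_lit 78) (nat_lit 380) (nat_lit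 0) (XT.lf (nat_lit 0) (nat_lit 1185786925) (nat_lit 380) (nat_lit 1029844657) (nat_lit 456) (nat_lit 7625540429) (nat_lit 161) (nat_lit 5) (nat_lit 166) (nat_lit 5) (nat_lit 167) (nat_lit 5) (nat_lit 369) (nat_lit 340) (nat_lit 311)) (XT.lf (nat_lit 0) (nat_lit 2069791127) (nat_lit 380) (nat_lit 4989791358) (nat_lit 456) (nat_lit 3034243355) (nat_lit 156) (nat_lit 5) (nat_lit 161) (nat_lit 5) (nat_lit 162) (nat_lit 5) (nat_lit 370) (nat_lit 340) (nat_lit 310)))) (XT.nd (nat_lit 78) (nat_lit 760) (nat_lit 0) (XT.lf (nat_lit 0) (nat_lit 1766622719) (nat_lit 456) (nat_lit 7358129966) (nat_lit 76) (nat_lit 1233428346) (nat_lit 150) (nat_lit 5) (nat_lit 156) (nat_lit 5) (nat_lit 151) (nat_lit 5) (nat_lit 371) (nat_lit 340) (nat_lit 309)) (XT.nd (nat_lit 78) (nat_lit 456) (nat_lit 0) (XT.lf (nat_lit 0) (nat_lit 3932921833) (nat_lit 304) (nat_lit 2861429745) (nat_lit 380) (nat_lit 3839042464) (nat_lit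 146) (nat_lit 5) (nat_lit 150) (nat_lit 5) (nat_lit 151) (nat_lit 5) (nat_lit 372) (nat_lit 340) (nat_lit 308)) (XT.lf (nat_lit 0) (nat_lit 1169602997) (nat_lit 456) (nat_lit 6021017279) (nat_lit 76) (nat_lit 3730212844) (nat_lit 140) (nat_lit 5) (nat_lit 146) (nat_lit 5) (nat_lit 141) (nat_lit 5) (nat_lit 373) (nat_lit 340) (nat_lit 307))))) (XT.nd (nat_lit 234) (nat_lit 912) (nat_lit 0) (XT.nd (nat_lit 78) (nat_lit 684) (nat_lit 0) (XT.lf (nat_lit 0) (nat_lit 5878552585) (nat_lit 304) (nat_lit 510597055) (nat_lit 380) (nat_lit 4831183305) (nat_lit 136) (nat_lit 5) (nat_lit 140) (nat_lit 5) (nat_lit 141) (nat_lit 5) (nat_lit 374) (nat_lit 340) (nat_lit 306)) (XT.nd (nat_lit 78) (nat_lit 304) (nat_lit 0) (XT.lf (nat_lit 0) (nat_lit 407799707) (nat_lit 380) (nat_lit 4665043947) (nat_lit 76) (nat_lit 6459506691) (nat_lit 131) (nat_lit 5) (nat_lit 136) (nat_lit 5) (nat_lit 132) (nat_lit 5) (nat_lit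 375) (nat_lit 340) (nat_lit 305)) (XT.lf (nat_lit 0) (nat_lit 5856016067) (nat_lit 380) (nat_lit 4000914061) (nat_lit 76) (nat_lit 2000209561) (nat_lit 127) (nat_lit 5) (nat_lit 132) (nat_lit 5) (nat_lit 128) (nat_lit 5) (nat_lit 376) (nat_lit 340) (nat_lit 304)))) (XT.nd (nat_lit 78) (nat_lit 608) (nat_lit 0) (XT.lf (nat_lit 0) (nat_lit 8864622876) (nat_lit 304) (nat_lit 2790395382) (nat_lit 380) (nat_lit 540820035) (nat_lit 123) (nat_lit 5) (nat_lit 127) (nat_lit 5) (nat_lit 128) (nat_lit 5) (nat_lit 377) (nat_lit 340) (nat_lit 303)) (XT.nd (nat_lit 78) (nat_lit 304) (nat_lit 0) (XT.lf (nat_lit 0) (nat_lit 5169665913) (nat_lit 304) (nat_lit 2703814876) (nat_lit 76) (nat_lit 4674158344) (nat_lit 119) (nat_lit 5) (nat_lit 123) (nat_lit 5) (nat_lit 120) (nat_lit 5) (nat_lit 378) (nat_lit 340) (nat_lit 302)) (XT.lf (nat_lit 0) (nat_lit 10852587472) (nat_lit 304) (nat_lit 368078898) (nat_lit 380)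 (nat_lit 1694236280) (nat_lit 115) (nat_lit 5) (nat_lit 119) (nat_lit 5) (nat_lit 120) (nat_lit 5) (nat_lit 379) (nat_lit 340) (nat_lit 301)))))) (XT.nd (nat_lit 468) (nat_lit 1292) (nat_lit 0) (XT.nd (nat_lit 234) (nat_lit 912) (nat_lit 0) (XT.nd (nat_lit 78) (nat_lit 532) (nat_lit 0) (XT.lf (nat_lit 0) (nat_lit 4307420980) (nat_lit 304) (nat_lit 1491367526) (nat_lit 76) (nat_lit 7497011676) (nat_lit 111) (nat_lit 5) (nat_lit 115) (nat_lit 5) (nat_lit 112) (nat_lit 5) (nat_lit 380) (nat_lit 340) (nat_lit 300)) (XT.nd (nat_lit 78) (nat_lit 304) (nat_lit 0) (XT.lf (nat_lit 0) (nat_lit 10647389063) (nat_lit 304) (nat_lit 925316561) (nat_lit 76) (nat_lit 2120352025) (nat_lit 108) (nat_lit 5) (nat_lit 112) (nat_lit 5) (nat_lit 109) (nat_lit 5) (nat_lit 381) (nat_lit 340) (nat_lit 299)) (XT.lf (nat_lit 0) (nat_lit 3245555710) (nat_lit 304) (nat_lit 418137526) (nat_lit 76) (nat_lit 10442167467) (nat_lit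 104) (nat_lit 5) (nat_lit 108) (nat_lit 5) (nat_lit 105) (nat_lit 5) (nat_lit 382) (nat_lit 340) (nat_lit 298)))) (XT.nd (nat_lit 78) (nat_lit 456) (nat_lit 0) (XT.lf (nat_lit 0) (nat_lit 37052605) (nat_lit 228) (nat_lit 9857068935) (nat_lit 304) (nat_lit 4641119004) (nat_lit 98) (nat_lit 5) (nat_lit 101) (nat_lit 5) (nat_lit 102) (nat_lit 5) (nat_lit 383) (nat_lit 340) (nat_lit 297)) (XT.nd (nat_lit 78) (nat_lit 152) (nat_lit 0) (XT.lf (nat_lit 0) (nat_lit 459528063) (nat_lit 228) (nat_lit 1498431881) (nat_lit 304) (nat_lit 13024424106) (nat_lit 94) (nat_lit 5) (nat_lit 97) (nat_lit 5) (nat_lit 98) (nat_lit 5) (nat_lit 384) (nat_lit 340) (nat_lit 296)) (XT.lf (nat_lit 0) (nat_lit 769650941) (nat_lit 152) (nat_lit 8161646081) (nat_lit 228) (nat_lit 6515013122) (nat_lit 92) (nat_lit 5) (nat_lit 94) (nat_lit 5) (nat_lit 95) (nat_lit 5) (nat_lit 385) (nat_lit 340) (nat_lit 295))))) (XT.nd (nat_lit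 234) (nat_lit 608) (nat_lit 0) (XT.nd (nat_lit 78) (nat_lit 380) (nat_lit 0) (XT.lf (nat_lit 0) (nat_lit 409471045) (nat_lit 304) (nat_lit 14879960172) (nat_lit 76) (nat_lit 641045451) (nat_lit 88) (nat_lit 5) (nat_lit 92) (nat_lit 5) (nat_lit 89) (nat_lit 5) (nat_lit 386) (nat_lit 340) (nat_lit 294)) (XT.nd (nat_lit 78) (nat_lit 228) (nat_lit 0) (XT.lf (nat_lit 0) (nat_lit 1166469398) (nat_lit 152) (nat_lit 6541909196) (nat_lit 228) (nat_lit 8723660725) (nat_lit 86) (nat_lit 5) (nat_lit 88) (nat_lit 5) (nat_lit 89) (nat_lit 5) (nat_lit 387) (nat_lit 340) (nat_lit 293)) (XT.lf (nat_lit 0) (nat_lit 1228221844) (nat_lit 228) (nat_lit 14253569578) (nat_lit 304) (nat_lit 1473612498) (nat_lit 83) (nat_lit 5) (nat_lit 86) (nat_lit 5) (nat_lit 87) (nat_lit 5) (nat_lit 388) (nat_lit 340) (nat_lit 292)))) (XT.nd (nat_lit 156) (nat_lit 228) (nat_lit 0) (XT.nd (nat_lit 78) (nat_lit 152) (nat_lit 0) (XT.lf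 (nat_lit 0) (nat_lit 1122311199) (nat_lit 152) (nat_lit 5051813973) (nat_lit 228) (nat_lit 11324401659) (nat_lit 80) (nat_lit 5) (nat_lit 82) (nat_lit 5) (nat_lit 83) (nat_lit 5) (nat_lit 389) (nat_lit 340) (nat_lit 291)) (XT.lf (nat_lit 0) (nat_lit 899426378) (nat_lit 152) (nat_lit 13412550661) (nat_lit 228) (nat_lit 3752254372) (nat_lit 78) (nat_lit 5) (nat_lit 80) (nat_lit 5) (nat_lit 81) (nat_lit 5) (nat_lit 390) (nat_lit 340) (nat_lit 290))) (XT.nd (nat_lit 78) (nat_lit 0) (nat_lit 0) (XT.lf (nat_lit 0) (nat_lit 510908060) (nat_lit 152) (nat_lit 3754977685) (nat_lit 228) (nat_lit 14386653959) (nat_lit 75) (nat_lit 5) (nat_lit 77) (nat_lit 5) (nat_lit 78) (nat_lit 5) (nat_lit 391) (nat_lit 340) (nat_lit 289)) (XT.lf (nat_lit 0) (nat_lit 12772917050) (nat_lit 228) (nat_lit 68677130) (nat_lit 76) (nat_lit 6422595334) (nat_lit 75) (nat_lit 5) (nat_lit 78) (nat_lit 5) (nat_lit 76) (nat_lit 5)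 (nat_lit 392) (nat_lit 340) (nat_lit 288))))))))
noncomputable def xc49 : XT := (XT.nd (nat_lit 1950) (nat_lit 1216) (nat_lit 0) (XT.nd (nat_lit 936) (nat_lit 1444) (nat_lit 0) (XT.nd (nat_lit 468) (nat_lit 760) (nat_lit 0) (XT.nd (nat_lit 234) (nat_lit 608) (nat_lit 0) (XT.nd (nat_lit 78) (nat_lit 304) (nat_lit 0) (XT.lf (nat_lit 0) (nat_lit 1915532844) (nat_lit 228) (nat_lit 803159384) (nat_lit 76) (nat_lit 17182665719) (nat_lit 72) (nat_lit 5) (nat_lit 75) (nat_lit 5) (nat_lit 73) (nat_lit 5) (nat_lit 393) (nat_lit 340) (nat_lit 287)) (XT.nd (nat_lit 78) (nat_lit 152) (nat_lit 0) (XT.lf (nat_lit 0) (nat_lit 10799542864) (nat_lit 228) (nat_lit 1809910876) (nat_lit 76) (nat_lit 7953276790) (nat_lit 70) (nat_lit 5) (nat_lit 73) (nat_lit 5) (nat_lit 71) (nat_lit 5) (nat_lit 394) (nat_lit 340) (nat_lit 286)) (XT.lf (nat_lit 0) (nat_lit 18253796939) (nat_lit 152) (nat_lit 2017030254) (nat_lit 228)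 (nat_lit 982059239) (nat_lit 68) (nat_lit 5) (nat_lit 70) (nat_lit 5) (nat_lit 71) (nat_lit 5) (nat_lit 395) (nat_lit 340) (nat_lit 285)))) (XT.nd (nat_lit 78) (nat_lit 380) (nat_lit 0) (XT.lf (nat_lit 0) (nat_lit 8287573635) (nat_lit 228) (nat_lit 4536292560) (nat_lit 76) (nat_lit 9145008512) (nat_lit 65) (nat_lit 5) (nat_lit 68) (nat_lit 5) (nat_lit 66) (nat_lit 5) (nat_lit 396) (nat_lit 340) (nat_lit 284)) (XT.nd (nat_lit 78) (nat_lit 228) (nat_lit 0) (XT.lf (nat_lit 0) (nat_lit 16401009689) (nat_lit 152) (nat_lit 1743594077) (nat_lit 228) (nat_lit 4571446224) (nat_lit 63) (nat_lit 5) (nat_lit 65) (nat_lit 5) (nat_lit 66) (nat_lit 5) (nat_lit 397) (nat_lit 340) (nat_lit 283)) (XT.lf (nat_lit 0) (nat_lit 5122061326) (nat_lit 228) (nat_lit 8480183791) (nat_lit 76) (nat_lit 9890136138) (nat_lit 60) (nat_lit 5) (nat_lit 63) (nat_lit 5) (nat_lit 61) (nat_lit 5) (nat_lit 398) (nat_lit 340) (nat_lit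 282))))) (XT.nd (nat_lit 234) (nat_lit 304) (nat_lit 0) (XT.nd (nat_lit 78) (nat_lit 304) (nat_lit 0) (XT.lf (nat_lit 0) (nat_lit 13314389735) (nat_lit 152) (nat_lit 2041126871) (nat_lit 228) (nat_lit 8946165469) (nat_lit 58) (nat_lit 5) (nat_lit 60) (nat_lit 5) (nat_lit 61) (nat_lit 5) (nat_lit 399) (nat_lit 340) (nat_lit 281)) (XT.nd (nat_lit 78) (nat_lit 152) (nat_lit 0) (XT.lf (nat_lit 0) (nat_lit 1165351819) (nat_lit 152) (nat_lit 13918807152) (nat_lit 76) (nat_lit 10059979866) (nat_lit 56) (nat_lit 5) (nat_lit 58) (nat_lit 5) (nat_lit 57) (nat_lit 5) (nat_lit 400) (nat_lit 340) (nat_lit 280)) (XT.lf (nat_lit 0) (nat_lit 8701323045) (nat_lit 152) (nat_lit 3056694493) (nat_lit 228) (nat_lit 14263230545) (nat_lit 54) (nat_lit 5) (nat_lit 56) (nat_lit 5) (nat_lit 57) (nat_lit 5) (nat_lit 401) (nat_lit 340) (nat_lit 279)))) (XT.nd (nat_lit 78) (nat_lit 228) (nat_lit 0) (XT.lf (nat_lit 0) (nat_lit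 5716060015) (nat_lit 76) (nat_lit 17397673138) (nat_lit 152) (nat_lit 3821481630) (nat_lit 53) (nat_lit 5) (nat_lit 54) (nat_lit 5) (nat_lit 55) (nat_lit 4) (nat_lit 402) (nat_lit 340) (nat_lit 278)) (XT.nd (nat_lit 78) (nat_lit 0) (nat_lit 0) (XT.lf (nat_lit 0) (nat_lit 2212635773) (nat_lit 152) (nat_lit 4965489094) (nat_lit 228) (nat_lit 20709445104) (nat_lit 50) (nat_lit 5) (nat_lit 52) (nat_lit 5) (nat_lit 53) (nat_lit 5) (nat_lit 403) (nat_lit 340) (nat_lit 277)) (XT.lf (nat_lit 0) (nat_lit 18891997838) (nat_lit 228) (nat_lit 1843740305) (nat_lit 76) (nat_lit 8143374029) (nat_lit 50) (nat_lit 5) (nat_lit 53) (nat_lit 5) (nat_lit 51) (nat_lit 4) (nat_lit 404) (nat_lit 340) (nat_lit 276)))))) (XT.nd (nat_lit 468) (nat_lit 760) (nat_lit 0) (XT.nd (nat_lit 234) (nat_lit 304) (nat_lit 0) (XT.nd (nat_lit 78) (nat_lit 228) (nat_lit 0) (XT.lf (nat_lit 0) (nat_lit 1471526298) (nat_lit 152) (nat_lit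 6439500236) (nat_lit 76) (nat_lit 22002091930) (nat_lit 48) (nat_lit 5) (nat_lit 50) (nat_lit 5) (nat_lit 49) (nat_lit 5) (nat_lit 405) (nat_lit 340) (nat_lit 275)) (XT.nd (nat_lit 78) (nat_lit 76) (nat_lit 0) (XT.lf (nat_lit 0) (nat_lit 13506900162) (nat_lit 228) (nat_lit 11771930932) (nat_lit 76) (nat_lit 5710720487) (nat_lit 46) (nat_lit 5) (nat_lit 49) (nat_lit 5) (nat_lit 47) (nat_lit 4) (nat_lit 406) (nat_lit 340) (nat_lit 274)) (XT.lf (nat_lit 0) (nat_lit 14277154633) (nat_lit 76) (nat_lit 12100061863) (nat_lit 152) (nat_lit 5735597959) (nat_lit 45) (nat_lit 5) (nat_lit 46) (nat_lit 5) (nat_lit 47) (nat_lit 4) (nat_lit 407) (nat_lit 340) (nat_lit 273)))) (XT.nd (nat_lit 78) (nat_lit 76) (nat_lit 0) (XT.lf (nat_lit 0) (nat_lit 6644170983) (nat_lit 228) (nat_lit 24708986803) (nat_lit 76) (nat_lit 1931958920) (nat_lit 42) (nat_lit 5) (nat_lit 45) (nat_lit 5) (nat_lit 43) (nat_lit 4) (nat_lit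 408) (nat_lit 340) (nat_lit 272)) (XT.nd (nat_lit 78) (nat_lit 0) (nat_lit 0) (XT.lf (nat_lit 0) (nat_lit 1934699907) (nat_lit 76) (nat_lit 17868127220) (nat_lit 152) (nat_lit 14703150628) (nat_lit 41) (nat_lit 5) (nat_lit 42) (nat_lit 5) (nat_lit 43) (nat_lit 4) (nat_lit 409) (nat_lit 340) (nat_lit 271)) (XT.lf (nat_lit 0) (nat_lit 30337639204) (nat_lit 76) (nat_lit 3488866799) (nat_lit 152) (nat_lit 1955165936) (nat_lit 41) (nat_lit 5) (nat_lit 42) (nat_lit 5) (nat_lit 43) (nat_lit 4) (nat_lit 410) (nat_lit 340) (nat_lit 270))))) (XT.nd (nat_lit 234) (nat_lit 304) (nat_lit 0) (XT.nd (nat_lit 78) (nat_lit 228) (nat_lit 0) (XT.lf (nat_lit 0) (nat_lit 11500179504) (nat_lit 228) (nat_lit 13928611752) (nat_lit 76) (nat_lit 11680275732) (nat_lit 38) (nat_lit 5) (nat_lit 41) (nat_lit 5) (nat_lit 39) (nat_lit 4) (nat_lit 411) (nat_lit 340) (nat_lit 269)) (XT.nd (nat_lit 78) (nat_lit 152) (nat_lit 0)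 (XT.lf (nat_lit 0) (nat_lit 15001596853) (nat_lit 76) (nat_lit 10778169730) (nat_lit 152) (nat_lit 12716729607) (nat_lit 37) (nat_lit 5) (nat_lit 38) (nat_lit 5) (nat_lit 39) (nat_lit 4) (nat_lit 412) (nat_lit 340) (nat_lit 268)) (XT.lf (nat_lit 0) (nat_lit 1006381464) (nat_lit 152) (nat_lit 34254085797) (nat_lit 76) (nat_lit 4686524960) (nat_lit 35) (nat_lit 5) (nat_lit 37) (nat_lit 5) (nat_lit 36) (nat_lit 4) (nat_lit 413) (nat_lit 340) (nat_lit 267)))) (XT.nd (nat_lit 156) (nat_lit 228) (nat_lit 0) (XT.nd (nat_lit 78) (nat_lit 76) (nat_lit 0) (XT.lf (nat_lit 0) (nat_lit 15465486028) (nat_lit 152) (nat_lit 4952609368) (nat_lit 76) (nat_lit 21038757384) (nat_lit 35) (nat_lit 5) (nat_lit 37) (nat_lit 5) (nat_lit 36) (nat_lit 4) (nat_lit 414) (nat_lit 340) (nat_lit 266)) (XT.lf (nat_lit 0) (nat_lit 26248627577) (nat_lit 76) (nat_lit 4610620885) (nat_lit 152) (nat_lit 12176608879) (nat_lit 34)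 (nat_lit 5) (nat_lit 35) (nat_lit 5) (nat_lit 36) (nat_lit 4) (nat_lit 415) (nat_lit 340) (nat_lit 265))) (XT.nd (nat_lit 78) (nat_lit 76) (nat_lit 0) (XT.lf (nat_lit 0) (nat_lit 2552547059) (nat_lit 152) (nat_lit 30198384893) (nat_lit 76) (nat_lit 11934137324) (nat_lit 32) (nat_lit 5) (nat_lit 34) (nat_lit 5) (nat_lit 33) (nat_lit 4) (nat_lit 416) (nat_lit 340) (nat_lit 264)) (XT.lf (nat_lit 0) (nat_lit 1037915127) (nat_lit 76) (nat_lit 16922837901) (nat_lit 152) (nat_lit 28446541077) (nat_lit 31) (nat_lit 5) (nat_lit 32) (nat_lit 5) (nat_lit 33) (nat_lit 4) (nat_lit 417) (nat_lit 340) (nat_lit 263))))))) (XT.nd (nat_lit 936) (nat_lit 456) (nat_lit 0) (XT.nd (nat_lit 468) (nat_lit 380) (nat_lit 0) (XT.nd (nat_lit 234) (nat_lit 152) (nat_lit 0) (XT.nd (nat_lit 78) (nat_lit 228) (nat_lit 0) (XT.lf (nat_lit 0) (nat_lit 34394499478) (nat_lit 76) (nat_lit 17940938) (nat_lit 152) (nat_lit 13794999348)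 (nat_lit 31) (nat_lit 5) (nat_lit 32) (nat_lit 5) (nat_lit 33) (nat_lit 4) (nat_lit 418) (nat_lit 340) (nat_lit 262)) (XT.nd (nat_lit 78) (nat_lit 76) (nat_lit 0) (XT.lf (nat_lit 0) (nat_lit 1882496420) (nat_lit 152) (nat_lit 30645692082) (nat_lit 76) (nat_lit 17559215936) (nat_lit 29) (nat_lit 5) (nat_lit 31) (nat_lit 5) (nat_lit 30) (nat_lit 4) (nat_lit 419) (nat_lit 340) (nat_lit 261)) (XT.lf (nat_lit 0) (nat_lit 2428610885) (nat_lit 76) (nat_lit 15764145506) (nat_lit 152) (nat_lit 33860489213) (nat_lit 28) (nat_lit 5) (nat_lit 29) (nat_lit 5) (nat_lit 30) (nat_lit 4) (nat_lit 420) (nat_lit 340) (nat_lit 260)))) (XT.nd (nat_lit 78) (nat_lit 152) (nat_lit 0) (XT.lf (nat_lit 0) (nat_lit 35619950445) (nat_lit 152) (nat_lit 16399036465) (nat_lit 0) (nat_lit 2089350729) (nat_lit 28) (nat_lit 5) (nat_lit 30) (nat_lit 4) (nat_lit 28) (nat_lit 4) (nat_lit 421) (nat_lit 340) (nat_lit 259)) (XT.nd (nat_lit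 78) (nat_lit 76) (nat_lit 0) (XT.lf (nat_lit 0) (nat_lit 18628075813) (nat_lit 76) (nat_lit 35595421635) (nat_lit 76) (nat_lit 2033538407) (nat_lit 27) (nat_lit 4) (nat_lit 28) (nat_lit 5) (nat_lit 28) (nat_lit 4) (nat_lit 422) (nat_lit 340) (nat_lit 258)) (XT.lf (nat_lit 0) (nat_lit 15084549907) (nat_lit 152) (nat_lit 2970040736) (nat_lit 76) (nat_lit 40450044651) (nat_lit 26) (nat_lit 5) (nat_lit 28) (nat_lit 5) (nat_lit 27) (nat_lit 4) (nat_lit 423) (nat_lit 340) (nat_lit 257))))) (XT.nd (nat_lit 234) (nat_lit 152) (nat_lit 0) (XT.nd (nat_lit 78) (nat_lit 152) (nat_lit 0) (XT.lf (nat_lit 0) (nat_lit 33319432784) (nat_lit 152) (nat_lit 26856885222) (nat_lit 0) (nat_lit 678605485) (nat_lit 25) (nat_lit 5) (nat_lit 27) (nat_lit 4) (nat_lit 25) (nat_lit 4) (nat_lit 424) (nat_lit 340) (nat_lit 256)) (XT.nd (nat_lit 78) (nat_lit 76) (nat_lit 0) (XT.lf (nat_lit 0) (nat_lit 9498720061) (nat_lit 76)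 (nat_lit 43241424360) (nat_lit 76) (nat_lit 10574360291) (nat_lit 24) (nat_lit 4) (nat_lit 25) (nat_lit 5) (nat_lit 25) (nat_lit 4) (nat_lit 425) (nat_lit 340) (nat_lit 255)) (XT.lf (nat_lit 0) (nat_lit 7343127416) (nat_lit 152) (nat_lit 17785502814) (nat_lit 76) (nat_lit 40758865116) (nat_lit 23) (nat_lit 5) (nat_lit 25) (nat_lit 5) (nat_lit 24) (nat_lit 4) (nat_lit 426) (nat_lit 340) (nat_lit 254)))) (XT.nd (nat_lit 78) (nat_lit 76) (nat_lit 0) (XT.lf (nat_lit 0) (nat_lit 20280271836) (nat_lit 76) (nat_lit 5826191626) (nat_lit 152) (nat_lit 42474472127) (nat_lit 22) (nat_lit 5) (nat_lit 23) (nat_lit 5) (nat_lit 24) (nat_lit 4) (nat_lit 427) (nat_lit 340) (nat_lit 253)) (XT.nd (nat_lit 78) (nat_lit 76) (nat_lit 0) (XT.lf (nat_lit 0) (nat_lit 46103957596) (nat_lit 152) (nat_lit 10977218254) (nat_lit 0) (nat_lit 14318993224) (nat_lit 22) (nat_lit 5) (nat_lit 24) (nat_lit 4) (nat_lit 22) (nat_lit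 4) (nat_lit 428) (nat_lit 340) (nat_lit 252)) (XT.lf (nat_lit 0) (nat_lit 28661423968) (nat_lit 76) (nat_lit 38747812314) (nat_lit 76) (nat_lit 6941891577) (nat_lit 21) (nat_lit 4) (nat_lit 22) (nat_lit 5) (nat_lit 22) (nat_lit 4) (nat_lit 429) (nat_lit 340) (nat_lit 251)))))) (XT.nd (nat_lit 468) (nat_lit 76) (nat_lit 0) (XT.nd (nat_lit 234) (nat_lit 228) (nat_lit 0) (XT.nd (nat_lit 78) (nat_lit 76) (nat_lit 0) (XT.lf (nat_lit 0) (nat_lit 12177774297) (nat_lit 152) (nat_lit 7104997357) (nat_lit 76) (nat_lit 58160660970) (nat_lit 20) (nat_lit 5) (nat_lit 22) (nat_lit 5) (nat_lit 21) (nat_lit 4) (nat_lit 430) (nat_lit 340) (nat_lit 250)) (XT.nd (nat_lit 78) (nat_lit 0) (nat_lit 0) (XT.lf (nat_lit 0) (nat_lit 32427725252) (nat_lit 152) (nat_lit 46740671097) (nat_lit 0) (nat_lit 1510359017) (nat_lit 19) (nat_lit 5) (nat_lit 21) (nat_lit 4) (nat_lit 19) (nat_lit 4) (nat_lit 431) (nat_lit 340) (nat_lit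 249)) (XT.lf (nat_lit 0) (nat_lit 53934517522) (nat_lit 152) (nat_lit 7134421526) (nat_lit 0) (nat_lit 22999575660) (nat_lit 19) (nat_lit 5) (nat_lit 21) (nat_lit 4) (nat_lit 19) (nat_lit 4) (nat_lit 432) (nat_lit 340) (nat_lit 248)))) (XT.nd (nat_lit 78) (nat_lit 152) (nat_lit 0) (XT.lf (nat_lit 0) (nat_lit 35091943932) (nat_lit 76) (nat_lit 41739034748) (nat_lit 76) (nat_lit 10787354193) (nat_lit 18) (nat_lit 4) (nat_lit 19) (nat_lit 5) (nat_lit 19) (nat_lit 4) (nat_lit 433) (nat_lit 340) (nat_lit 247)) (XT.nd (nat_lit 78) (nat_lit 76) (nat_lit 0) (XT.lf (nat_lit 0) (nat_lit 9392349535) (nat_lit 152) (nat_lit 11901152610) (nat_lit 76) (nat_lit 70047844393) (nat_lit 17) (nat_lit 5) (nat_lit 19) (nat_lit 5) (nat_lit 18) (nat_lit 4) (nat_lit 434) (nat_lit 340) (nat_lit 246)) (XT.lf (nat_lit 0) (nat_lit 30644114520) (nat_lit 152) (nat_lit 64030885946) (nat_lit 0) (nat_lit 563721651) (nat_lit 16)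 (nat_lit 5) (nat_lit 18) (nat_lit 4) (nat_lit 16) (nat_lit 4) (nat_lit 435) (nat_lit 340) (nat_lit 245))))) (XT.nd (nat_lit 45786) (nat_lit 0) (nat_lit 28120) (XT.nd (nat_lit 78) (nat_lit 76) (nat_lit 0) (XT.lf (nat_lit 0) (nat_lit 53276081935) (nat_lit 152) (nat_lit 22863706026) (nat_lit 0) (nat_lit 23181650704) (nat_lit 16) (nat_lit 5) (nat_lit 18) (nat_lit 4) (nat_lit 16) (nat_lit 4) (nat_lit 436) (nat_lit 340) (nat_lit 244)) (XT.nd (nat_lit 45630) (nat_lit 0) (nat_lit 29032) (XT.lf (nat_lit 0) (nat_lit 20727000932) (nat_lit 76) (nat_lit 56491857734) (nat_lit 76) (nat_lit 26384056636) (nat_lit 15) (nat_lit 4) (nat_lit 16) (nat_lit 5) (nat_lit 16) (nat_lit 4) (nat_lit 437) (nat_lit 340) (nat_lit 243)) (XT.lf (nat_lit 0) (nat_lit 1795730698) (nat_lit 228) (nat_lit 715520517) (nat_lit 228) (nat_lit 715520517) (nat_lit 397) (nat_lit 3) (nat_lit 400) (nat_lit 3) (nat_lit 400) (nat_lit 5) (nat_lit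 341) (nat_lit 341) (nat_lit 338)))) (XT.nd (nat_lit 156) (nat_lit 380) (nat_lit 0) (XT.nd (nat_lit 78) (nat_lit 304) (nat_lit 0) (XT.lf (nat_lit 0) (nat_lit 1921016044) (nat_lit 228) (nat_lit 2610137110) (nat_lit 304) (nat_lit 1937852835) (nat_lit 394) (nat_lit 5) (nat_lit 397) (nat_lit 3) (nat_lit 398) (nat_lit 5) (nat_lit 342) (nat_lit 341) (nat_lit 337)) (XT.lf (nat_lit 0) (nat_lit 125408719) (nat_lit 304) (nat_lit 3674083977) (nat_lit 380) (nat_lit 2692951888) (nat_lit 390) (nat_lit 5) (nat_lit 394) (nat_lit 5) (nat_lit 395) (nat_lit 5) (nat_lit 343) (nat_lit 341) (nat_lit 336))) (XT.nd (nat_lit 78) (nat_lit 380) (nat_lit 0) (XT.lf (nat_lit 76) (nat_lit 1881035036) (nat_lit 0) (nat_lit 2807225557) (nat_lit 380) (nat_lit 1835114071) (nat_lit 391) (nat_lit 5) (nat_lit 390) (nat_lit 5) (nat_lit 395) (nat_lit 5) (nat_lit 344) (nat_lit 341) (nat_lit 335)) (XT.lf (nat_lit 76) (nat_lit 1061022579)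 (nat_lit 0) (nat_lit 1567074581) (nat_lit 456) (nat_lit 3934212092) (nat_lit 386) (nat_lit 5) (nat_lit 385) (nat_lit 5) (nat_lit 391) (nat_lit 5) (nat_lit 345) (nat_lit 341) (nat_lit 334))))))))
noncomputable def xc50 : XT := (XT.nd (nat_lit 1950) (nat_lit 7068) (nat_lit 0) (XT.nd (nat_lit 936) (nat_lit 8208) (nat_lit 0) (XT.nd (nat_lit 468) (nat_lit 5928) (nat_lit 0) (XT.nd (nat_lit 234) (nat_lit 1976) (nat_lit 0) (XT.nd (nat_lit 78) (nat_lit 456) (nat_lit 0) (XT.lf (nat_lit 76) (nat_lit 358461259) (nat_lit 0) (nat_lit 76712324) (nat_lit 532) (nat_lit 6174185680) (nat_lit 380) (nat_lit 5) (nat_lit 379) (nat_lit 5) (nat_lit 386) (nat_lit 5) (nat_lit 346) (nat_lit 341) (nat_lit 333)) (XT.nd (nat_lit 78) (nat_lit 532) (nat_lit 0) (XT.lf (nat_lit 0) (nat_lit 4749115869) (nat_lit 456) (nat_lit 257805362) (nat_lit 76) (nat_lit 1656583320) (nat_lit 380) (nat_lit 5) (nat_lit 386) (nat_lit 5) (nat_lit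 381) (nat_lit 5) (nat_lit 347) (nat_lit 341) (nat_lit 332)) (XT.lf (nat_lit 0) (nat_lit 2312562158) (nat_lit 532) (nat_lit 762099716) (nat_lit 76) (nat_lit 3650959586) (nat_lit 373) (nat_lit 5) (nat_lit 380) (nat_lit 5) (nat_lit 374) (nat_lit 5) (nat_lit 348) (nat_lit 341) (nat_lit 331)))) (XT.nd (nat_lit 78) (nat_lit 1444) (nat_lit 0) (XT.lf (nat_lit 0) (nat_lit 5636789361) (nat_lit 532) (nat_lit 887483897) (nat_lit 608) (nat_lit 271731002) (nat_lit 366) (nat_lit 5) (nat_lit 373) (nat_lit 5) (nat_lit 374) (nat_lit 5) (nat_lit 349) (nat_lit 341) (nat_lit 330)) (XT.nd (nat_lit 78) (nat_lit 760) (nat_lit 0) (XT.lf (nat_lit 0) (nat_lit 3835635073) (nat_lit 684) (nat_lit 1485803583) (nat_lit 76) (nat_lit 1552246144) (nat_lit 357) (nat_lit 5) (nat_lit 366) (nat_lit 5) (nat_lit 358) (nat_lit 5) (nat_lit 350) (nat_lit 341) (nat_lit 329)) (XT.lf (nat_lit 0) (nat_lit 1008161391) (nat_lit 760) (nat_lit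 1714742413) (nat_lit 76) (nat_lit 4236711342) (nat_lit 347) (nat_lit 5) (nat_lit 357) (nat_lit 5) (nat_lit 348) (nat_lit 5) (nat_lit 351) (nat_lit 341) (nat_lit 328))))) (XT.nd (nat_lit 234) (nat_lit 3344) (nat_lit 0) (XT.nd (nat_lit 78) (nat_lit 1824) (nat_lit 0) (XT.lf (nat_lit 0) (nat_lit 5042123155) (nat_lit 836) (nat_lit 1857789037) (nat_lit 76) (nat_lit 153676035) (nat_lit 337) (nat_lit 5) (nat_lit 348) (nat_lit 5) (nat_lit 338) (nat_lit 5) (nat_lit 352) (nat_lit 341) (nat_lit 327)) (XT.nd (nat_lit 78) (nat_lit 912) (nat_lit 0) (XT.lf (nat_lit 0) (nat_lit 1968636603) (nat_lit 912) (nat_lit 1933564051) (nat_lit 76) (nat_lit 3252998115) (nat_lit 325) (nat_lit 5) (nat_lit 337) (nat_lit 5) (nat_lit 326) (nat_lit 5) (nat_lit 353) (nat_lit 341) (nat_lit 326)) (XT.lf (nat_lit 0) (nat_lit 5348034595) (nat_lit 912) (nat_lit 625669476) (nat_lit 988) (nat_lit 1291646680) (nat_lit 313) (nat_lit 5)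 (nat_lit 325) (nat_lit 5) (nat_lit 326) (nat_lit 5) (nat_lit 354) (nat_lit 341) (nat_lit 325)))) (XT.nd (nat_lit 78) (nat_lit 2280) (nat_lit 0) (XT.lf (nat_lit 0) (nat_lit 2647934068) (nat_lit 1064) (nat_lit 1844628547) (nat_lit 76) (nat_lit 2890584051) (nat_lit 299) (nat_lit 5) (nat_lit 313) (nat_lit 5) (nat_lit 300) (nat_lit 5) (nat_lit 355) (nat_lit 341) (nat_lit 324)) (XT.nd (nat_lit 78) (nat_lit 1216) (nat_lit 0) (XT.lf (nat_lit 0) (nat_lit 5826346116) (nat_lit 1064) (nat_lit 824590625) (nat_lit 1140) (nat_lit 858792328) (nat_lit 285) (nat_lit 5) (nat_lit 299) (nat_lit 5) (nat_lit 300) (nat_lit 5) (nat_lit 356) (nat_lit 341) (nat_lit 323)) (XT.lf (nat_lit 0) (nat_lit 3074112431) (nat_lit 1216) (nat_lit 1475664456) (nat_lit 76) (nat_lit 3094247058) (nat_lit 269) (nat_lit 5) (nat_lit 285) (nat_lit 5) (nat_lit 270) (nat_lit 5) (nat_lit 357) (nat_lit 341) (nat_lit 322)))))) (XT.nd (nat_lit 468)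 (nat_lit 3344) (nat_lit 0) (XT.nd (nat_lit 234) (nat_lit 2280) (nat_lit 0) (XT.nd (nat_lit 78) (nat_lit 1368) (nat_lit 0) (XT.lf (nat_lit 0) (nat_lit 6606763764) (nat_lit 1216) (nat_lit 492175496) (nat_lit 1292) (nat_lit 688514154) (nat_lit 253) (nat_lit 5) (nat_lit 269) (nat_lit 5) (nat_lit 270) (nat_lit 5) (nat_lit 358) (nat_lit 341) (nat_lit 321)) (XT.nd (nat_lit 78) (nat_lit 608) (nat_lit 0) (XT.lf (nat_lit 0) (nat_lit 3270749798) (nat_lit 760) (nat_lit 851281157) (nat_lit 76) (nat_lit 3816611121) (nat_lit 243) (nat_lit 5) (nat_lit 253) (nat_lit 5) (nat_lit 244) (nat_lit 5) (nat_lit 359) (nat_lit 341) (nat_lit 320)) (XT.lf (nat_lit 0) (nat_lit 7343207438) (nat_lit 684) (nat_lit 435797476) (nat_lit 76) (nat_lit 320354836) (nat_lit 235) (nat_lit 5) (nat_lit 244) (nat_lit 5) (nat_lit 236) (nat_lit 5) (nat_lit 360) (nat_lit 341) (nat_lit 319)))) (XT.nd (nat_lit 78) (nat_lit 1064) (nat_lit 0)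 (XT.lf (nat_lit 0) (nat_lit 6467454) (nat_lit 532) (nat_lit 3250853816) (nat_lit 608) (nat_lit 5010733228) (nat_lit 219) (nat_lit 5) (nat_lit 226) (nat_lit 5) (nat_lit 227) (nat_lit 5) (nat_lit 361) (nat_lit 341) (nat_lit 318)) (XT.nd (nat_lit 78) (nat_lit 532) (nat_lit 0) (XT.lf (nat_lit 0) (nat_lit 534505729) (nat_lit 532) (nat_lit 6878637994) (nat_lit 608) (nat_lit 1033147493) (nat_lit 212) (nat_lit 5) (nat_lit 219) (nat_lit 5) (nat_lit 220) (nat_lit 5) (nat_lit 362) (nat_lit 341) (nat_lit 317)) (XT.lf (nat_lit 0) (nat_lit 1098200051) (nat_lit 456) (nat_lit 1961481030) (nat_lit 532) (nat_lit 5573568573) (nat_lit 205) (nat_lit 5) (nat_lit 211) (nat_lit 5) (nat_lit 212) (nat_lit 5) (nat_lit 363) (nat_lit 341) (nat_lit 316))))) (XT.nd (nat_lit 234) (nat_lit 1824) (nat_lit 0) (XT.nd (nat_lit 78) (nat_lit 988) (nat_lit 0) (XT.lf (nat_lit 0) (nat_lit 1717585864) (nat_lit 532) (nat_lit 5601795394)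 (nat_lit 608) (nat_lit 1510405085) (nat_lit 198) (nat_lit 5) (nat_lit 205) (nat_lit 5) (nat_lit 206) (nat_lit 5) (nat_lit 364) (nat_lit 341) (nat_lit 315)) (XT.nd (nat_lit 78) (nat_lit 456) (nat_lit 0) (XT.lf (nat_lit 0) (nat_lit 2387214873) (nat_lit 456) (nat_lit 293793396) (nat_lit 532) (nat_lit 6355022485) (nat_lit 191) (nat_lit 5) (nat_lit 197) (nat_lit 5) (nat_lit 198) (nat_lit 5) (nat_lit 365) (nat_lit 341) (nat_lit 314)) (XT.lf (nat_lit 0) (nat_lit 3085467975) (nat_lit 456) (nat_lit 3982652714) (nat_lit 532) (nat_lit 2183536821) (nat_lit 185) (nat_lit 5) (nat_lit 191) (nat_lit 5) (nat_lit 192) (nat_lit 5) (nat_lit 366) (nat_lit 341) (nat_lit 313)))) (XT.nd (nat_lit 156) (nat_lit 836) (nat_lit 0) (XT.nd (nat_lit 78) (nat_lit 456) (nat_lit 0) (XT.lf (nat_lit 0) (nat_lit 2145726205) (nat_lit 532) (nat_lit 5640680444) (nat_lit 76) (nat_lit 1691300310) (nat_lit 178) (nat_lit 5) (nat_lit 185)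 (nat_lit 5) (nat_lit 179) (nat_lit 5) (nat_lit 367) (nat_lit 341) (nat_lit 312)) (XT.lf (nat_lit 0) (nat_lit 4618788557) (nat_lit 456) (nat_lit 2047481981) (nat_lit 532) (nat_lit 3047575448) (nat_lit 172) (nat_lit 5) (nat_lit 178) (nat_lit 5) (nat_lit 179) (nat_lit 5) (nat_lit 368) (nat_lit 341) (nat_lit 311))) (XT.nd (nat_lit 78) (nat_lit 380) (nat_lit 0) (XT.lf (nat_lit 0) (nat_lit 1447378810) (nat_lit 456) (nat_lit 4521921777) (nat_lit 76) (nat_lit 3991365962) (nat_lit 166) (nat_lit 5) (nat_lit 172) (nat_lit 5) (nat_lit 167) (nat_lit 5) (nat_lit 369) (nat_lit 341) (nat_lit 310)) (XT.lf (nat_lit 0) (nat_lit 6118866249) (nat_lit 456) (nat_lit 3922963548) (nat_lit 76) (nat_lit 176679517) (nat_lit 161) (nat_lit 5) (nat_lit 167) (nat_lit 5) (nat_lit 162) (nat_lit 5) (nat_lit 370) (nat_lit 341) (nat_lit 309))))))) (XT.nd (nat_lit 936) (nat_lit 2812) (nat_lit 0) (XT.nd (nat_lit 468) (nat_lit 1976)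 (nat_lit 0) (XT.nd (nat_lit 234) (nat_lit 1140) (nat_lit 0) (XT.nd (nat_lit 78) (nat_lit 684) (nat_lit 0) (XT.lf (nat_lit 0) (nat_lit 583324718) (nat_lit 456) (nat_lit 3312920916) (nat_lit 76) (nat_lit 6591100648) (nat_lit 155) (nat_lit 5) (nat_lit 161) (nat_lit 5) (nat_lit 156) (nat_lit 5) (nat_lit 371) (nat_lit 341) (nat_lit 308)) (XT.nd (nat_lit 78) (nat_lit 304) (nat_lit 0) (XT.lf (nat_lit 0) (nat_lit 5446037509) (nat_lit 456) (nat_lit 2694890337) (nat_lit 76) (nat_lit 2626595167) (nat_lit 150) (nat_lit 5) (nat_lit 156) (nat_lit 5) (nat_lit 151) (nat_lit 5) (nat_lit 372) (nat_lit 341) (nat_lit 307)) (XT.lf (nat_lit 0) (nat_lit 9016497259) (nat_lit 304) (nat_lit 1584627724) (nat_lit 380) (nat_lit 459132269) (nat_lit 146) (nat_lit 5) (nat_lit 150) (nat_lit 5) (nat_lit 151) (nat_lit 5) (nat_lit 373) (nat_lit 341) (nat_lit 306)))) (XT.nd (nat_lit 78) (nat_lit 684) (nat_lit 0) (XT.lf (nat_lit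 0) (nat_lit 4623544327) (nat_lit 456) (nat_lit 1418365619) (nat_lit 76) (nat_lit 5322366072) (nat_lit 140) (nat_lit 5) (nat_lit 146) (nat_lit 5) (nat_lit 141) (nat_lit 5) (nat_lit 374) (nat_lit 341) (nat_lit 305)) (XT.nd (nat_lit 78) (nat_lit 380) (nat_lit 0) (XT.lf (nat_lit 0) (nat_lit 9997273380) (nat_lit 380) (nat_lit 755751314) (nat_lit 76) (nat_lit 928964985) (nat_lit 136) (nat_lit 5) (nat_lit 141) (nat_lit 5) (nat_lit 137) (nat_lit 5) (nat_lit 375) (nat_lit 341) (nat_lit 304)) (XT.lf (nat_lit 0) (nat_lit 3642587627) (nat_lit 380) (nat_lit 124677586) (nat_lit 76) (nat_lit 8244623530) (nat_lit 131) (nat_lit 5) (nat_lit 136) (nat_lit 5) (nat_lit 132) (nat_lit 5) (nat_lit 376) (nat_lit 341) (nat_lit 303))))) (XT.nd (nat_lit 234) (nat_lit 760) (nat_lit 0) (XT.nd (nat_lit 78) (nat_lit 608) (nat_lit 0) (XT.lf (nat_lit 0) (nat_lit 525149218) (nat_lit 304) (nat_lit 8749334438) (nat_lit 380) (nat_lit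 3081126651) (nat_lit 123) (nat_lit 5) (nat_lit 127) (nat_lit 5) (nat_lit 128) (nat_lit 5) (nat_lit 377) (nat_lit 341) (nat_lit 302)) (XT.nd (nat_lit 78) (nat_lit 304) (nat_lit 0) (XT.lf (nat_lit 0) (nat_lit 1172444249) (nat_lit 228) (nat_lit 1328533576) (nat_lit 304) (nat_lit 10212513491) (nat_lit 119) (nat_lit 5) (nat_lit 122) (nat_lit 5) (nat_lit 123) (nat_lit 5) (nat_lit 378) (nat_lit 341) (nat_lit 301)) (XT.lf (nat_lit 0) (nat_lit 1778372140) (nat_lit 304) (nat_lit 6626664970) (nat_lit 380) (nat_lit 4680134566) (nat_lit 115) (nat_lit 5) (nat_lit 119) (nat_lit 5) (nat_lit 120) (nat_lit 5) (nat_lit 379) (nat_lit 341) (nat_lit 300)))) (XT.nd (nat_lit 78) (nat_lit 456) (nat_lit 0) (XT.lf (nat_lit 0) (nat_lit 1181298248) (nat_lit 304) (nat_lit 11077156307) (nat_lit 76) (nat_lit 1214438384) (nat_lit 111) (nat_lit 5) (nat_lit 115) (nat_lit 5) (nat_lit 112) (nat_lit 5) (nat_lit 380) (nat_lit 341)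 (nat_lit 299)) (XT.nd (nat_lit 78) (nat_lit 228) (nat_lit 0) (XT.lf (nat_lit 0) (nat_lit 2940617551) (nat_lit 228) (nat_lit 4420620234) (nat_lit 304) (nat_lit 6513721059) (nat_lit 108) (nat_lit 5) (nat_lit 111) (nat_lit 5) (nat_lit 112) (nat_lit 5) (nat_lit 381) (nat_lit 341) (nat_lit 298)) (XT.lf (nat_lit 0) (nat_lit 3484628298) (nat_lit 228) (nat_lit 10461945590) (nat_lit 304) (nat_lit 347676968) (nat_lit 105) (nat_lit 5) (nat_lit 108) (nat_lit 5) (nat_lit 109) (nat_lit 5) (nat_lit 382) (nat_lit 341) (nat_lit 297)))))) (XT.nd (nat_lit 468) (nat_lit 1368) (nat_lit 0) (XT.nd (nat_lit 234) (nat_lit 608) (nat_lit 0) (XT.nd (nat_lit 78) (nat_lit 532) (nat_lit 0) (XT.lf (nat_lit 0) (nat_lit 3954114245) (nat_lit 228) (nat_lit 2162467228) (nat_lit 304) (nat_lit 8612888918) (nat_lit 101) (nat_lit 5) (nat_lit 104) (nat_lit 5) (nat_lit 105) (nat_lit 5) (nat_lit 383) (nat_lit 341) (nat_lit 296)) (XT.nd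 (nat_lit 78) (nat_lit 304) (nat_lit 0) (XT.lf (nat_lit 0) (nat_lit 4378320738) (nat_lit 228) (nat_lit 8651540508) (nat_lit 304) (nat_lit 2152509451) (nat_lit 98) (nat_lit 5) (nat_lit 101) (nat_lit 5) (nat_lit 102) (nat_lit 5) (nat_lit 384) (nat_lit 341) (nat_lit 295)) (XT.lf (nat_lit 0) (nat_lit 4638499953) (nat_lit 304) (nat_lit 10905285091) (nat_lit 76) (nat_lit 109868291) (nat_lit 94) (nat_lit 5) (nat_lit 98) (nat_lit 5) (nat_lit 95) (nat_lit 5) (nat_lit 385) (nat_lit 341) (nat_lit 294)))) (XT.nd (nat_lit 78) (nat_lit 456) (nat_lit 0) (XT.lf (nat_lit 0) (nat_lit 5012644994) (nat_lit 152) (nat_lit 6879696118) (nat_lit 228) (nat_lit 4250497155) (nat_lit 92) (nat_lit 5) (nat_lit 94) (nat_lit 5) (nat_lit 95) (nat_lit 5) (nat_lit 386) (nat_lit 341) (nat_lit 293)) (XT.nd (nat_lit 78) (nat_lit 152) (nat_lit 0) (XT.lf (nat_lit 0) (nat_lit 2904559847) (nat_lit 304) (nat_lit 11432557044) (nat_lit 76)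 (nat_lit 2315318747) (nat_lit 88) (nat_lit 5) (nat_lit 92) (nat_lit 5) (nat_lit 89) (nat_lit 5) (nat_lit 387) (nat_lit 341) (nat_lit 292)) (XT.lf (nat_lit 0) (nat_lit 5296048332) (nat_lit 152) (nat_lit 5193661019) (nat_lit 228) (nat_lit 6691743717) (nat_lit 86) (nat_lit 5) (nat_lit 88) (nat_lit 5) (nat_lit 89) (nat_lit 5) (nat_lit 388) (nat_lit 341) (nat_lit 291))))) (XT.nd (nat_lit 234) (nat_lit 760) (nat_lit 0) (XT.nd (nat_lit 78) (nat_lit 304) (nat_lit 0) (XT.lf (nat_lit 0) (nat_lit 842011705) (nat_lit 304) (nat_lit 12442399367) (nat_lit 76) (nat_lit 4448148466) (nat_lit 82) (nat_lit 5) (nat_lit 86) (nat_lit 5) (nat_lit 83) (nat_lit 5) (nat_lit 389) (nat_lit 341) (nat_lit 290)) (XT.nd (nat_lit 78) (nat_lit 152) (nat_lit 0) (XT.lf (nat_lit 0) (nat_lit 5118422927) (nat_lit 152) (nat_lit 3649055077) (nat_lit 228) (nat_lit 9537162022) (nat_lit 80) (nat_lit 5) (nat_lit 82) (nat_lit 5) (nat_lit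 83) (nat_lit 5) (nat_lit 390) (nat_lit 341) (nat_lit 289)) (XT.lf (nat_lit 0) (nat_lit 4822839185) (nat_lit 152) (nat_lit 12433027046) (nat_lit 228) (nat_lit 1644467327) (nat_lit 78) (nat_lit 5) (nat_lit 80) (nat_lit 5) (nat_lit 81) (nat_lit 5) (nat_lit 391) (nat_lit 341) (nat_lit 288)))) (XT.nd (nat_lit 156) (nat_lit 380) (nat_lit 0) (XT.nd (nat_lit 78) (nat_lit 152) (nat_lit 0) (XT.lf (nat_lit 0) (nat_lit 4347473646) (nat_lit 152) (nat_lit 2311776669) (nat_lit 228) (nat_lit 12860273200) (nat_lit 75) (nat_lit 5) (nat_lit 77) (nat_lit 5) (nat_lit 78) (nat_lit 5) (nat_lit 392) (nat_lit 341) (nat_lit 287)) (XT.lf (nat_lit 0) (nat_lit 3676765153) (nat_lit 152) (nat_lit 11861329609) (nat_lit 228) (nat_lit 4625278686) (nat_lit 73) (nat_lit 5) (nat_lit 75) (nat_lit 5) (nat_lit 76) (nat_lit 5) (nat_lit 393) (nat_lit 341) (nat_lit 286))) (XT.nd (nat_lit 78) (nat_lit 152) (nat_lit 0) (XT.lf (nat_lit 0)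 (nat_lit 2824459029) (nat_lit 152) (nat_lit 1260215844) (nat_lit 228) (nat_lit 16749337724) (nat_lit 70) (nat_lit 5) (nat_lit 72) (nat_lit 5) (nat_lit 73) (nat_lit 5) (nat_lit 394) (nat_lit 341) (nat_lit 285)) (XT.lf (nat_lit 0) (nat_lit 1686613114) (nat_lit 152) (nat_lit 11666302049) (nat_lit 228) (nat_lit 8177347864) (nat_lit 68) (nat_lit 5) (nat_lit 70) (nat_lit 5) (nat_lit 71) (nat_lit 5) (nat_lit 395) (nat_lit 341) (nat_lit 284))))))))
noncomputable def xc51 : XT := (XT.nd (nat_lit 1950) (nat_lit 988) (nat_lit 0) (XT.nd (nat_lit 936) (nat_lit 1292) (nat_lit 0) (XT.nd (nat_lit 468) (nat_lit 760) (nat_lit 0) (XT.nd (nat_lit 234) (nat_lit 532) (nat_lit 0) (XT.nd (nat_lit 78) (nat_lit 152) (nat_lit 0) (XT.lf (nat_lit 0) (nat_lit 359194810) (nat_lit 152) (nat_lit 587830712) (nat_lit 228) (nat_lit 21309873674) (nat_lit 65) (nat_lit 5) (nat_lit 67) (nat_lit 5) (nat_lit 68) (nat_lit 5) (nat_lit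 396) (nat_lit 341) (nat_lit 283)) (XT.nd (nat_lit 78) (nat_lit 152) (nat_lit 0) (XT.lf (nat_lit 0) (nat_lit 10610478484) (nat_lit 228) (nat_lit 1329256661) (nat_lit 76) (nat_lit 11070149473) (nat_lit 65) (nat_lit 5) (nat_lit 68) (nat_lit 5) (nat_lit 66) (nat_lit 5) (nat_lit 397) (nat_lit 341) (nat_lit 282)) (XT.lf (nat_lit 0) (nat_lit 20556480065) (nat_lit 152) (nat_lit 345059954) (nat_lit 228) (nat_lit 2894651727) (nat_lit 63) (nat_lit 5) (nat_lit 65) (nat_lit 5) (nat_lit 66) (nat_lit 5) (nat_lit 398) (nat_lit 341) (nat_lit 281)))) (XT.nd (nat_lit 78) (nat_lit 304) (nat_lit 0) (XT.lf (nat_lit 0) (nat_lit 7202967140) (nat_lit 228) (nat_lit 5587715267) (nat_lit 76) (nat_lit 11821417046) (nat_lit 60) (nat_lit 5) (nat_lit 63) (nat_lit 5) (nat_lit 61) (nat_lit 5) (nat_lit 399) (nat_lit 341) (nat_lit 280)) (XT.nd (nat_lit 78) (nat_lit 152) (nat_lit 0) (XT.lf (nat_lit 0) (nat_lit 17201520767) (nat_lit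 152) (nat_lit 690645226) (nat_lit 228) (nat_lit 7571384661) (nat_lit 58) (nat_lit 5) (nat_lit 60) (nat_lit 5) (nat_lit 61) (nat_lit 5) (nat_lit 400) (nat_lit 341) (nat_lit 279)) (XT.lf (nat_lit 0) (nat_lit 2969255881) (nat_lit 152) (nat_lit 11412669760) (nat_lit 76) (nat_lit 11966912979) (nat_lit 56) (nat_lit 5) (nat_lit 58) (nat_lit 5) (nat_lit 57) (nat_lit 5) (nat_lit 401) (nat_lit 341) (nat_lit 278))))) (XT.nd (nat_lit 234) (nat_lit 304) (nat_lit 0) (XT.nd (nat_lit 78) (nat_lit 304) (nat_lit 0) (XT.lf (nat_lit 0) (nat_lit 12246680031) (nat_lit 152) (nat_lit 1791647327) (nat_lit 228) (nat_lit 13233079371) (nat_lit 54) (nat_lit 5) (nat_lit 56) (nat_lit 5) (nat_lit 57) (nat_lit 5) (nat_lit 402) (nat_lit 341) (nat_lit 277)) (XT.nd (nat_lit 78) (nat_lit 228) (nat_lit 0) (XT.lf (nat_lit 0) (nat_lit 9059203740) (nat_lit 76) (nat_lit 16864403663) (nat_lit 152) (nat_lit 2308617263) (nat_lit 53) (nat_lit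 5) (nat_lit 54) (nat_lit 5) (nat_lit 55) (nat_lit 4) (nat_lit 403) (nat_lit 341) (nat_lit 276)) (XT.lf (nat_lit 0) (nat_lit 5325385197) (nat_lit 152) (nat_lit 3831635983) (nat_lit 228) (nat_lit 20076211795) (nat_lit 50) (nat_lit 5) (nat_lit 52) (nat_lit 5) (nat_lit 53) (nat_lit 5) (nat_lit 404) (nat_lit 341) (nat_lit 275)))) (XT.nd (nat_lit 78) (nat_lit 228) (nat_lit 0) (XT.lf (nat_lit 0) (nat_lit 976020519) (nat_lit 76) (nat_lit 20425460197) (nat_lit 152) (nat_lit 8874530296) (nat_lit 49) (nat_lit 5) (nat_lit 50) (nat_lit 5) (nat_lit 51) (nat_lit 4) (nat_lit 405) (nat_lit 341) (nat_lit 274)) (XT.nd (nat_lit 78) (nat_lit 152) (nat_lit 0) (XT.lf (nat_lit 0) (nat_lit 3068581281) (nat_lit 152) (nat_lit 3921075362) (nat_lit 76) (nat_lit 24373311416) (nat_lit 48) (nat_lit 5) (nat_lit 50) (nat_lit 5) (nat_lit 49) (nat_lit 5) (nat_lit 406) (nat_lit 341) (nat_lit 273)) (XT.lf (nat_lit 0) (nat_lit 15672017068)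 (nat_lit 228) (nat_lit 9569445205) (nat_lit 76) (nat_lit 7252776618) (nat_lit 46) (nat_lit 5) (nat_lit 49) (nat_lit 5) (nat_lit 47) (nat_lit 4) (nat_lit 407) (nat_lit 341) (nat_lit 272)))))) (XT.nd (nat_lit 468) (nat_lit 608) (nat_lit 0) (XT.nd (nat_lit 234) (nat_lit 304) (nat_lit 0) (XT.nd (nat_lit 78) (nat_lit 304) (nat_lit 0) (XT.lf (nat_lit 0) (nat_lit 17702088825) (nat_lit 76) (nat_lit 11438879400) (nat_lit 152) (nat_lit 4534047738) (nat_lit 45) (nat_lit 5) (nat_lit 46) (nat_lit 5) (nat_lit 47) (nat_lit 4) (nat_lit 408) (nat_lit 341) (nat_lit 271)) (XT.nd (nat_lit 78) (nat_lit 76) (nat_lit 0) (XT.lf (nat_lit 0) (nat_lit 8403742599) (nat_lit 228) (nat_lit 23252207726) (nat_lit 76) (nat_lit 3250515807) (nat_lit 42) (nat_lit 5) (nat_lit 45) (nat_lit 5) (nat_lit 43) (nat_lit 4) (nat_lit 409) (nat_lit 341) (nat_lit 270)) (XT.lf (nat_lit 0) (nat_lit 4646491132) (nat_lit 76) (nat_lit 17531008268)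 (nat_lit 152) (nat_lit 14012159870) (nat_lit 41) (nat_lit 5) (nat_lit 42) (nat_lit 5) (nat_lit 43) (nat_lit 4) (nat_lit 410) (nat_lit 341) (nat_lit 269)))) (XT.nd (nat_lit 78) (nat_lit 304) (nat_lit 0) (XT.lf (nat_lit 0) (nat_lit 34345050907) (nat_lit 76) (nat_lit 2491381269) (nat_lit 152) (nat_lit 694687766) (nat_lit 41) (nat_lit 5) (nat_lit 42) (nat_lit 5) (nat_lit 43) (nat_lit 4) (nat_lit 411) (nat_lit 341) (nat_lit 268)) (XT.nd (nat_lit 78) (nat_lit 76) (nat_lit 0) (XT.lf (nat_lit 0) (nat_lit 13378092118) (nat_lit 228) (nat_lit 12152344005) (nat_lit 76) (nat_lit 13394925383) (nat_lit 38) (nat_lit 5) (nat_lit 41) (nat_lit 5) (nat_lit 39) (nat_lit 4) (nat_lit 412) (nat_lit 341) (nat_lit 267)) (XT.lf (nat_lit 0) (nat_lit 18153495629) (nat_lit 76) (nat_lit 10179207645) (nat_lit 152) (nat_lit 12050630969) (nat_lit 37) (nat_lit 5) (nat_lit 38) (nat_lit 5) (nat_lit 39) (nat_lit 4) (nat_lit 413)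 (nat_lit 341) (nat_lit 266))))) (XT.nd (nat_lit 234) (nat_lit 380) (nat_lit 0) (XT.nd (nat_lit 78) (nat_lit 76) (nat_lit 0) (XT.lf (nat_lit 0) (nat_lit 2305866322) (nat_lit 152) (nat_lit 33582621304) (nat_lit 76) (nat_lit 6018316072) (nat_lit 35) (nat_lit 5) (nat_lit 37) (nat_lit 5) (nat_lit 36) (nat_lit 4) (nat_lit 414) (nat_lit 341) (nat_lit 265)) (XT.nd (nat_lit 78) (nat_lit 76) (nat_lit 0) (XT.lf (nat_lit 0) (nat_lit 17428442030) (nat_lit 152) (nat_lit 2929602900) (nat_lit 76) (nat_lit 23135899886) (nat_lit 35) (nat_lit 5) (nat_lit 37) (nat_lit 5) (nat_lit 36) (nat_lit 4) (nat_lit 415) (nat_lit 341) (nat_lit 264)) (XT.lf (nat_lit 0) (nat_lit 29766608540) (nat_lit 76) (nat_lit 3789833629) (nat_lit 152) (nat_lit 11596523815) (nat_lit 34) (nat_lit 5) (nat_lit 35) (nat_lit 5) (nat_lit 36) (nat_lit 4) (nat_lit 416) (nat_lit 341) (nat_lit 263)))) (XT.nd (nat_lit 156) (nat_lit 152) (nat_lit 0) (XT.nd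 (nat_lit 78) (nat_lit 76) (nat_lit 0) (XT.lf (nat_lit 0) (nat_lit 3821128633) (nat_lit 152) (nat_lit 29519342214) (nat_lit 76) (nat_lit 13544570296) (nat_lit 32) (nat_lit 5) (nat_lit 34) (nat_lit 5) (nat_lit 33) (nat_lit 4) (nat_lit 417) (nat_lit 341) (nat_lit 262)) (XT.lf (nat_lit 0) (nat_lit 3216026652) (nat_lit 76) (nat_lit 16749825582) (nat_lit 152) (nat_lit 28728544282) (nat_lit 31) (nat_lit 5) (nat_lit 32) (nat_lit 5) (nat_lit 33) (nat_lit 4) (nat_lit 418) (nat_lit 341) (nat_lit 261))) (XT.nd (nat_lit 78) (nat_lit 152) (nat_lit 0) (XT.lf (nat_lit 0) (nat_lit 37196555914) (nat_lit 152) (nat_lit 12456090666) (nat_lit 0) (nat_lit 933212321) (nat_lit 31) (nat_lit 5) (nat_lit 33) (nat_lit 4) (nat_lit 31) (nat_lit 4) (nat_lit 419) (nat_lit 341) (nat_lit 260)) (XT.lf (nat_lit 0) (nat_lit 3019024622) (nat_lit 152) (nat_lit 30168556727) (nat_lit 76) (nat_lit 19372876784) (nat_lit 29) (nat_lit 5)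 (nat_lit 31) (nat_lit 5) (nat_lit 30) (nat_lit 4) (nat_lit 420) (nat_lit 341) (nat_lit 259))))))) (XT.nd (nat_lit 936) (nat_lit 228) (nat_lit 0) (XT.nd (nat_lit 468) (nat_lit 380) (nat_lit 0) (XT.nd (nat_lit 234) (nat_lit 228) (nat_lit 0) (XT.nd (nat_lit 78) (nat_lit 76) (nat_lit 0) (XT.lf (nat_lit 0) (nat_lit 4501861768) (nat_lit 76) (nat_lit 15612059658) (nat_lit 152) (nat_lit 34511598331) (nat_lit 28) (nat_lit 5) (nat_lit 29) (nat_lit 5) (nat_lit 30) (nat_lit 4) (nat_lit 421) (nat_lit 341) (nat_lit 258)) (XT.nd (nat_lit 78) (nat_lit 76) (nat_lit 0) (XT.lf (nat_lit 0) (nat_lit 38372915481) (nat_lit 152) (nat_lit 15339778962) (nat_lit 0) (nat_lit 3071860758) (nat_lit 28) (nat_lit 5) (nat_lit 30) (nat_lit 4) (nat_lit 28) (nat_lit 4) (nat_lit 422) (nat_lit 341) (nat_lit 257)) (XT.lf (nat_lit 0) (nat_lit 21384821772) (nat_lit 76) (nat_lit 36493080201) (nat_lit 76) (nat_lit 1163650410) (nat_lit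 27) (nat_lit 4) (nat_lit 28) (nat_lit 5) (nat_lit 28) (nat_lit 4) (nat_lit 423) (nat_lit 341) (nat_lit 256)))) (XT.nd (nat_lit 78) (nat_lit 152) (nat_lit 0) (XT.lf (nat_lit 0) (nat_lit 16746021390) (nat_lit 152) (nat_lit 1362030242) (nat_lit 76) (nat_lit 43294562624) (nat_lit 26) (nat_lit 5) (nat_lit 28) (nat_lit 5) (nat_lit 27) (nat_lit 4) (nat_lit 424) (nat_lit 341) (nat_lit 255)) (XT.nd (nat_lit 78) (nat_lit 76) (nat_lit 0) (XT.lf (nat_lit 0) (nat_lit 35873784317) (nat_lit 152) (nat_lit 26475057285) (nat_lit 0) (nat_lit 1522142873) (nat_lit 25) (nat_lit 5) (nat_lit 27) (nat_lit 4) (nat_lit 25) (nat_lit 4) (nat_lit 425) (nat_lit 341) (nat_lit 254)) (XT.lf (nat_lit 0) (nat_lit 11648890880) (nat_lit 76) (nat_lit 44590440234) (nat_lit 76) (nat_lit 10215001265) (nat_lit 24) (nat_lit 4) (nat_lit 25) (nat_lit 5) (nat_lit 25) (nat_lit 4) (nat_lit 426) (nat_lit 341) (nat_lit 253))))) (XT.nd (nat_lit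 234) (nat_lit 228) (nat_lit 0) (XT.nd (nat_lit 78) (nat_lit 76) (nat_lit 0) (XT.lf (nat_lit 0) (nat_lit 8539567081) (nat_lit 152) (nat_lit 17062782102) (nat_lit 76) (nat_lit 43554612672) (nat_lit 23) (nat_lit 5) (nat_lit 25) (nat_lit 5) (nat_lit 24) (nat_lit 4) (nat_lit 427) (nat_lit 341) (nat_lit 252)) (XT.nd (nat_lit 78) (nat_lit 0) (nat_lit 0) (XT.lf (nat_lit 0) (nat_lit 22860073743) (nat_lit 76) (nat_lit 5356557821) (nat_lit 152) (nat_lit 43769177115) (nat_lit 22) (nat_lit 5) (nat_lit 23) (nat_lit 5) (nat_lit 24) (nat_lit 4) (nat_lit 428) (nat_lit 341) (nat_lit 251)) (XT.lf (nat_lit 0) (nat_lit 49182640792) (nat_lit 152) (nat_lit 10018795975) (nat_lit 0) (nat_lit 15745509209) (nat_lit 22) (nat_lit 5) (nat_lit 24) (nat_lit 4) (nat_lit 22) (nat_lit 4) (nat_lit 429) (nat_lit 341) (nat_lit 250)))) (XT.nd (nat_lit 78) (nat_lit 152) (nat_lit 0) (XT.lf (nat_lit 0) (nat_lit 31558572389) (nat_lit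 76) (nat_lit 39971851996) (nat_lit 76) (nat_lit 6515712371) (nat_lit 21) (nat_lit 4) (nat_lit 22) (nat_lit 5) (nat_lit 22) (nat_lit 4) (nat_lit 430) (nat_lit 341) (nat_lit 249)) (XT.nd (nat_lit 78) (nat_lit 76) (nat_lit 0) (XT.lf (nat_lit 0) (nat_lit 13508743418) (nat_lit 152) (nat_lit 6051493379) (nat_lit 76) (nat_lit 61733681275) (nat_lit 20) (nat_lit 5) (nat_lit 22) (nat_lit 5) (nat_lit 21) (nat_lit 4) (nat_lit 431) (nat_lit 341) (nat_lit 248)) (XT.lf (nat_lit 0) (nat_lit 34756377410) (nat_lit 152) (nat_lit 47694700976) (nat_lit 0) (nat_lit 2240374134) (nat_lit 19) (nat_lit 5) (nat_lit 21) (nat_lit 4) (nat_lit 19) (nat_lit 4) (nat_lit 432) (nat_lit 341) (nat_lit 247)))))) (XT.nd (nat_lit 46254) (nat_lit 0) (nat_lit 25156) (XT.nd (nat_lit 46020) (nat_lit 0) (nat_lit 27968) (XT.nd (nat_lit 78) (nat_lit 228) (nat_lit 0) (XT.lf (nat_lit 0) (nat_lit 57304829965) (nat_lit 152) (nat_lit 6173996244)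 (nat_lit 0) (nat_lit 24772885077) (nat_lit 19) (nat_lit 5) (nat_lit 21) (nat_lit 4) (nat_lit 19) (nat_lit 4) (nat_lit 433) (nat_lit 341) (nat_lit 246)) (XT.nd (nat_lit 156) (nat_lit 152) (nat_lit 0) (XT.lf (nat_lit 0) (nat_lit 38125931751) (nat_lit 76) (nat_lit 43200405164) (nat_lit 76) (nat_lit 10653277789) (nat_lit 18) (nat_lit 4) (nat_lit 19) (nat_lit 5) (nat_lit 19) (nat_lit 4) (nat_lit 434) (nat_lit 341) (nat_lit 245)) (XT.lf (nat_lit 0) (nat_lit 32792354624) (nat_lit 152) (nat_lit 66024010882) (nat_lit 0) (nat_lit 1165793603) (nat_lit 16) (nat_lit 5) (nat_lit 18) (nat_lit 4) (nat_lit 16) (nat_lit 4) (nat_lit 436) (nat_lit 341) (nat_lit 243)))) (XT.nd (nat_lit 78) (nat_lit 760) (nat_lit 0) (XT.lf (nat_lit 0) (nat_lit 1621989837) (nat_lit 0) (nat_lit 1621989837) (nat_lit 228) (nat_lit 290194) (nat_lit 394) (nat_lit 5) (nat_lit 394) (nat_lit 3) (nat_lit 397) (nat_lit 3) (nat_lit 342) (nat_lit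 342) (nat_lit 336)) (XT.nd (nat_lit 78) (nat_lit 380) (nat_lit 0) (XT.lf (nat_lit 76) (nat_lit 2058441747) (nat_lit 0) (nat_lit 2366411626) (nat_lit 380) (nat_lit 2090671284) (nat_lit 390) (nat_lit 5) (nat_lit 389) (nat_lit 3) (nat_lit 394) (nat_lit 5) (nat_lit 343) (nat_lit 342) (nat_lit 335)) (XT.lf (nat_lit 76) (nat_lit 992203088) (nat_lit 0) (nat_lit 1243026686) (nat_lit 456) (nat_lit 4315347203) (nat_lit 385) (nat_lit 5) (nat_lit 384) (nat_lit 5) (nat_lit 390) (nat_lit 5) (nat_lit 344) (nat_lit 342) (nat_lit 334))))) (XT.nd (nat_lit 234) (nat_lit 1900) (nat_lit 0) (XT.nd (nat_lit 78) (nat_lit 988) (nat_lit 0) (XT.lf (nat_lit 76) (nat_lit 41740647) (nat_lit 0) (nat_lit 6465970632) (nat_lit 456) (nat_lit 85989870) (nat_lit 386) (nat_lit 5) (nat_lit 385) (nat_lit 5) (nat_lit 391) (nat_lit 5) (nat_lit 345) (nat_lit 342) (nat_lit 333)) (XT.nd (nat_lit 78) (nat_lit 532) (nat_lit 0) (XT.lf (nat_lit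 0) (nat_lit 4075971027) (nat_lit 456) (nat_lit 814269836) (nat_lit 532) (nat_lit 1753436339) (nat_lit 379) (nat_lit 5) (nat_lit 385) (nat_lit 5) (nat_lit 386) (nat_lit 5) (nat_lit 346) (nat_lit 342) (nat_lit 332)) (XT.lf (nat_lit 0) (nat_lit 1509846261) (nat_lit 532) (nat_lit 1559460926) (nat_lit 608) (nat_lit 3632564978) (nat_lit 372) (nat_lit 5) (nat_lit 379) (nat_lit 5) (nat_lit 380) (nat_lit 5) (nat_lit 347) (nat_lit 342) (nat_lit 331)))) (XT.nd (nat_lit 156) (nat_lit 1368) (nat_lit 0) (XT.nd (nat_lit 78) (nat_lit 532) (nat_lit 0) (XT.lf (nat_lit 76) (nat_lit 4561201200) (nat_lit 0) (nat_lit 986192181) (nat_lit 608) (nat_lit 1220663004) (nat_lit 373) (nat_lit 5) (nat_lit 372) (nat_lit 5) (nat_lit 380) (nat_lit 5) (nat_lit 348) (nat_lit 342) (nat_lit 330)) (XT.lf (nat_lit 0) (nat_lit 2724492374) (nat_lit 608) (nat_lit 2774282499) (nat_lit 76) (nat_lit 1343051060) (nat_lit 365) (nat_lit 5)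 (nat_lit 373) (nat_lit 5) (nat_lit 366) (nat_lit 5) (nat_lit 349) (nat_lit 342) (nat_lit 329))) (XT.nd (nat_lit 78) (nat_lit 760) (nat_lit 0) (XT.lf (nat_lit 0) (nat_lit 3675737677) (nat_lit 608) (nat_lit 3009090587) (nat_lit 684) (nat_lit 238902725) (nat_lit 357) (nat_lit 5) (nat_lit 365) (nat_lit 5) (nat_lit 366) (nat_lit 5) (nat_lit 350) (nat_lit 342) (nat_lit 328)) (XT.lf (nat_lit 0) (nat_lit 3369358573) (nat_lit 684) (nat_lit 232248903) (nat_lit 760) (nat_lit 3411826229) (nat_lit 347) (nat_lit 5) (nat_lit 356) (nat_lit 5) (nat_lit 357) (nat_lit 5) (nat_lit 351) (nat_lit 342) (nat_lit 327))))))))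
noncomputable def xc52 : XT := (XT.nd (nat_lit 1872) (nat_lit 5776) (nat_lit 0) (XT.nd (nat_lit 936) (nat_lit 5700) (nat_lit 0) (XT.nd (nat_lit 468) (nat_lit 4408) (nat_lit 0) (XT.nd (nat_lit 234) (nat_lit 3268) (nat_lit 0) (XT.nd (nat_lit 78) (nat_lit 1824) (nat_lit 0) (XT.lf (nat_lit 0) (nat_lit 391332103) (nat_lit 836) (nat_lit 3962276749) (nat_lit 76) (nat_lit 2757484985) (nat_lit 336) (nat_lit 5) (nat_lit 347) (nat_lit 5) (nat_lit 337) (nat_lit 5) (nat_lit 352) (nat_lit 342) (nat_lit 326)) (XT.nd (nat_lit 78) (nat_lit 988) (nat_lit 0) (XT.lf (nat_lit 0) (nat_lit 3007933214) (nat_lit 836) (nat_lit 1173552750) (nat_lit 912) (nat_lit 3035200822) (nat_lit 325) (nat_lit 5) (nat_lit 336) (nat_lit 5) (nat_lit 337) (nat_lit 5) (nat_lit 353) (nat_lit 342) (nat_lit 325)) (XT.lf (nat_lit 0) (nat_lit 712817903) (nat_lit 988) (nat_lit 4378438215) (nat_lit 76) (nat_lit 2239276779) (nat_lit 312) (nat_lit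 5) (nat_lit 325) (nat_lit 5) (nat_lit 313) (nat_lit 5) (nat_lit 354) (nat_lit 342) (nat_lit 324)))) (XT.nd (nat_lit 78) (nat_lit 2280) (nat_lit 0) (XT.lf (nat_lit 0) (nat_lit 2965551507) (nat_lit 988) (nat_lit 1516563135) (nat_lit 1064) (nat_lit 2970230667) (nat_lit 299) (nat_lit 5) (nat_lit 312) (nat_lit 5) (nat_lit 313) (nat_lit 5) (nat_lit 355) (nat_lit 342) (nat_lit 323)) (XT.nd (nat_lit 78) (nat_lit 1140) (nat_lit 0) (XT.lf (nat_lit 0) (nat_lit 758121285) (nat_lit 1140) (nat_lit 4523769249) (nat_lit 76) (nat_lit 2300721254) (nat_lit 284) (nat_lit 5) (nat_lit 299) (nat_lit 5) (nat_lit 285) (nat_lit 5) (nat_lit 356) (nat_lit 342) (nat_lit 322)) (XT.lf (nat_lit 0) (nat_lit 3214829802) (nat_lit 1140) (nat_lit 1315032667) (nat_lit 1216) (nat_lit 3191160933) (nat_lit 269) (nat_lit 5) (nat_lit 284) (nat_lit 5) (nat_lit 285) (nat_lit 5) (nat_lit 357) (nat_lit 342) (nat_lit 321))))) (XT.nd (nat_lit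 234) (nat_lit 1748) (nat_lit 0) (XT.nd (nat_lit 78) (nat_lit 1368) (nat_lit 0) (XT.lf (nat_lit 0) (nat_lit 550526673) (nat_lit 1292) (nat_lit 4424583808) (nat_lit 76) (nat_lit 2892960367) (nat_lit 252) (nat_lit 5) (nat_lit 269) (nat_lit 5) (nat_lit 253) (nat_lit 5) (nat_lit 358) (nat_lit 342) (nat_lit 320)) (XT.nd (nat_lit 78) (nat_lit 684) (nat_lit 0) (XT.lf (nat_lit 0) (nat_lit 3731571273) (nat_lit 684) (nat_lit 615123908) (nat_lit 760) (nat_lit 3676883963) (nat_lit 243) (nat_lit 5) (nat_lit 252) (nat_lit 5) (nat_lit 253) (nat_lit 5) (nat_lit 359) (nat_lit 342) (nat_lit 319)) (XT.lf (nat_lit 0) (nat_lit 109032483) (nat_lit 684) (nat_lit 4104608640) (nat_lit 76) (nat_lit 3974251430) (nat_lit 234) (nat_lit 5) (nat_lit 243) (nat_lit 5) (nat_lit 235) (nat_lit 5) (nat_lit 360) (nat_lit 342) (nat_lit 318)))) (XT.nd (nat_lit 78) (nat_lit 1140) (nat_lit 0) (XT.lf (nat_lit 0) (nat_lit 3955701882) (nat_lit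 684) (nat_lit 3872255690) (nat_lit 76) (nat_lit 532998134) (nat_lit 226) (nat_lit 5) (nat_lit 235) (nat_lit 5) (nat_lit 227) (nat_lit 5) (nat_lit 361) (nat_lit 342) (nat_lit 317)) (XT.nd (nat_lit 78) (nat_lit 608) (nat_lit 0) (XT.lf (nat_lit 0) (nat_lit 4952076323) (nat_lit 532) (nat_lit 3028695130) (nat_lit 608) (nat_lit 562367362) (nat_lit 219) (nat_lit 5) (nat_lit 226) (nat_lit 5) (nat_lit 227) (nat_lit 5) (nat_lit 362) (nat_lit 342) (nat_lit 316)) (XT.lf (nat_lit 0) (nat_lit 3375640449) (nat_lit 608) (nat_lit 3272917424) (nat_lit 76) (nat_lit 2085794652) (nat_lit 211) (nat_lit 5) (nat_lit 219) (nat_lit 5) (nat_lit 212) (nat_lit 5) (nat_lit 363) (nat_lit 342) (nat_lit 315)))))) (XT.nd (nat_lit 468) (nat_lit 2660) (nat_lit 0) (XT.nd (nat_lit 234) (nat_lit 1520) (nat_lit 0) (XT.nd (nat_lit 78) (nat_lit 1064) (nat_lit 0) (XT.lf (nat_lit 0) (nat_lit 6033126786) (nat_lit 456) (nat_lit 1454330786)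 (nat_lit 532) (nat_lit 1447889096) (nat_lit 205) (nat_lit 5) (nat_lit 211) (nat_lit 5) (nat_lit 212) (nat_lit 5) (nat_lit 364) (nat_lit 342) (nat_lit 314)) (XT.nd (nat_lit 78) (nat_lit 456) (nat_lit 0) (XT.lf (nat_lit 0) (nat_lit 2610574755) (nat_lit 608) (nat_lit 2508108340) (nat_lit 76) (nat_lit 4026861227) (nat_lit 197) (nat_lit 5) (nat_lit 205) (nat_lit 5) (nat_lit 198) (nat_lit 5) (nat_lit 365) (nat_lit 342) (nat_lit 313)) (XT.lf (nat_lit 0) (nat_lit 6833041267) (nat_lit 532) (nat_lit 2061589106) (nat_lit 76) (nat_lit 471498543) (nat_lit 191) (nat_lit 5) (nat_lit 198) (nat_lit 5) (nat_lit 192) (nat_lit 5) (nat_lit 366) (nat_lit 342) (nat_lit 312)))) (XT.nd (nat_lit 78) (nat_lit 988) (nat_lit 0) (XT.lf (nat_lit 0) (nat_lit 1666864187) (nat_lit 532) (nat_lit 1597704929) (nat_lit 76) (nat_lit 6331811086) (nat_lit 184) (nat_lit 5) (nat_lit 191) (nat_lit 5) (nat_lit 185) (nat_lit 5) (nat_lit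 367) (nat_lit 342) (nat_lit 311)) (XT.nd (nat_lit 78) (nat_lit 532) (nat_lit 0) (XT.lf (nat_lit 0) (nat_lit 6035813164) (nat_lit 532) (nat_lit 1101936191) (nat_lit 76) (nat_lit 2699333989) (nat_lit 178) (nat_lit 5) (nat_lit 185) (nat_lit 5) (nat_lit 179) (nat_lit 5) (nat_lit 368) (nat_lit 342) (nat_lit 310)) (XT.lf (nat_lit 0) (nat_lit 547240355) (nat_lit 532) (nat_lit 562177256) (nat_lit 76) (nat_lit 8979553208) (nat_lit 171) (nat_lit 5) (nat_lit 178) (nat_lit 5) (nat_lit 172) (nat_lit 5) (nat_lit 369) (nat_lit 342) (nat_lit 309))))) (XT.nd (nat_lit 234) (nat_lit 1064) (nat_lit 0) (XT.nd (nat_lit 78) (nat_lit 1216) (nat_lit 0) (XT.lf (nat_lit 0) (nat_lit 5083705448) (nat_lit 456) (nat_lit 30240774) (nat_lit 76) (nat_lit 5236932348) (nat_lit 166) (nat_lit 5) (nat_lit 172) (nat_lit 5) (nat_lit 167) (nat_lit 5) (nat_lit 370) (nat_lit 342) (nat_lit 308)) (XT.nd (nat_lit 78) (nat_lit 456) (nat_lit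 0) (XT.lf (nat_lit 0) (nat_lit 567514748) (nat_lit 380) (nat_lit 9312044949) (nat_lit 456) (nat_lit 745372982) (nat_lit 156) (nat_lit 5) (nat_lit 161) (nat_lit 5) (nat_lit 162) (nat_lit 5) (nat_lit 371) (nat_lit 342) (nat_lit 307)) (XT.lf (nat_lit 0) (nat_lit 1153178497) (nat_lit 380) (nat_lit 2832856267) (nat_lit 456) (nat_lit 6923677700) (nat_lit 150) (nat_lit 5) (nat_lit 155) (nat_lit 5) (nat_lit 156) (nat_lit 5) (nat_lit 372) (nat_lit 342) (nat_lit 306)))) (XT.nd (nat_lit 78) (nat_lit 760) (nat_lit 0) (XT.lf (nat_lit 0) (nat_lit 1768268277) (nat_lit 304) (nat_lit 7224287519) (nat_lit 380) (nat_lit 2214359906) (nat_lit 146) (nat_lit 5) (nat_lit 150) (nat_lit 5) (nat_lit 151) (nat_lit 5) (nat_lit 373) (nat_lit 342) (nat_lit 305)) (XT.nd (nat_lit 78) (nat_lit 304) (nat_lit 0) (XT.lf (nat_lit 0) (nat_lit 2402067890) (nat_lit 380) (nat_lit 324905216) (nat_lit 456) (nat_lit 8789746465) (nat_lit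 140) (nat_lit 5) (nat_lit 145) (nat_lit 5) (nat_lit 146) (nat_lit 5) (nat_lit 374) (nat_lit 342) (nat_lit 304)) (XT.lf (nat_lit 0) (nat_lit 3017399168) (nat_lit 304) (nat_lit 4946110846) (nat_lit 380) (nat_lit 3875049555) (nat_lit 136) (nat_lit 5) (nat_lit 140) (nat_lit 5) (nat_lit 141) (nat_lit 5) (nat_lit 375) (nat_lit 342) (nat_lit 303))))))) (XT.nd (nat_lit 936) (nat_lit 2432) (nat_lit 0) (XT.nd (nat_lit 468) (nat_lit 1444) (nat_lit 0) (XT.nd (nat_lit 234) (nat_lit 912) (nat_lit 0) (XT.nd (nat_lit 78) (nat_lit 608) (nat_lit 0) (XT.lf (nat_lit 0) (nat_lit 1319041057) (nat_lit 380) (nat_lit 8512269751) (nat_lit 76) (nat_lit 2343067882) (nat_lit 131) (nat_lit 5) (nat_lit 136) (nat_lit 5) (nat_lit 132) (nat_lit 5) (nat_lit 376) (nat_lit 342) (nat_lit 302)) (XT.nd (nat_lit 78) (nat_lit 304) (nat_lit 0) (XT.lf (nat_lit 0) (nat_lit 4282467654) (nat_lit 304) (nat_lit 2498968735) (nat_lit 380) (nat_lit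 5741758198) (nat_lit 127) (nat_lit 5) (nat_lit 131) (nat_lit 5) (nat_lit 132) (nat_lit 5) (nat_lit 377) (nat_lit 342) (nat_lit 301)) (XT.lf (nat_lit 0) (nat_lit 4913961163) (nat_lit 304) (nat_lit 7696675398) (nat_lit 380) (nat_lit 276022341) (nat_lit 123) (nat_lit 5) (nat_lit 127) (nat_lit 5) (nat_lit 128) (nat_lit 5) (nat_lit 378) (nat_lit 342) (nat_lit 300)))) (XT.nd (nat_lit 78) (nat_lit 608) (nat_lit 0) (XT.lf (nat_lit 0) (nat_lit 5431468079) (nat_lit 304) (nat_lit 7740237529) (nat_lit 76) (nat_lit 92780104) (nat_lit 119) (nat_lit 5) (nat_lit 123) (nat_lit 5) (nat_lit 120) (nat_lit 5) (nat_lit 379) (nat_lit 342) (nat_lit 299)) (XT.nd (nat_lit 78) (nat_lit 304) (nat_lit 0) (XT.lf (nat_lit 0) (nat_lit 6106637268) (nat_lit 304) (nat_lit 5444022483) (nat_lit 380) (nat_lit 2106517072) (nat_lit 115) (nat_lit 5) (nat_lit 119) (nat_lit 5) (nat_lit 120) (nat_lit 5) (nat_lit 380) (nat_lit 342) (nat_lit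 298)) (XT.lf (nat_lit 0) (nat_lit 3916723866) (nat_lit 304) (nat_lit 7393708015) (nat_lit 76) (nat_lit 2755359671) (nat_lit 111) (nat_lit 5) (nat_lit 115) (nat_lit 5) (nat_lit 112) (nat_lit 5) (nat_lit 381) (nat_lit 342) (nat_lit 297))))) (XT.nd (nat_lit 234) (nat_lit 684) (nat_lit 0) (XT.nd (nat_lit 78) (nat_lit 532) (nat_lit 0) (XT.lf (nat_lit 0) (nat_lit 7203493008) (nat_lit 228) (nat_lit 3114285640) (nat_lit 304) (nat_lit 4172840232) (nat_lit 108) (nat_lit 5) (nat_lit 111) (nat_lit 5) (nat_lit 112) (nat_lit 5) (nat_lit 382) (nat_lit 342) (nat_lit 296)) (XT.nd (nat_lit 78) (nat_lit 228) (nat_lit 0) (XT.lf (nat_lit 0) (nat_lit 2185623417) (nat_lit 304) (nat_lit 7236118654) (nat_lit 76) (nat_lit 5510618920) (nat_lit 104) (nat_lit 5) (nat_lit 108) (nat_lit 5) (nat_lit 105) (nat_lit 5) (nat_lit 383) (nat_lit 342) (nat_lit 295)) (XT.lf (nat_lit 0) (nat_lit 8144469837) (nat_lit 228) (nat_lit 738759152)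 (nat_lit 304) (nat_lit 6508508589) (nat_lit 101) (nat_lit 5) (nat_lit 104) (nat_lit 5) (nat_lit 105) (nat_lit 5) (nat_lit 384) (nat_lit 342) (nat_lit 294)))) (XT.nd (nat_lit 78) (nat_lit 380) (nat_lit 0) (XT.lf (nat_lit 0) (nat_lit 203538081) (nat_lit 304) (nat_lit 7338041691) (nat_lit 76) (nat_lit 8327621138) (nat_lit 97) (nat_lit 5) (nat_lit 101) (nat_lit 5) (nat_lit 98) (nat_lit 5) (nat_lit 385) (nat_lit 342) (nat_lit 293)) (XT.nd (nat_lit 78) (nat_lit 152) (nat_lit 0) (XT.lf (nat_lit 0) (nat_lit 7226675333) (nat_lit 304) (nat_lit 7524390924) (nat_lit 76) (nat_lit 1614246035) (nat_lit 94) (nat_lit 5) (nat_lit 98) (nat_lit 5) (nat_lit 95) (nat_lit 5) (nat_lit 386) (nat_lit 342) (nat_lit 292)) (XT.lf (nat_lit 0) (nat_lit 9076893122) (nat_lit 152) (nat_lit 5690771838) (nat_lit 228) (nat_lit 2113573828) (nat_lit 92) (nat_lit 5) (nat_lit 94) (nat_lit 5) (nat_lit 95) (nat_lit 5) (nat_lit 387) (nat_lit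 342) (nat_lit 291)))))) (XT.nd (nat_lit 468) (nat_lit 1140) (nat_lit 0) (XT.nd (nat_lit 234) (nat_lit 532) (nat_lit 0) (XT.nd (nat_lit 78) (nat_lit 456) (nat_lit 0) (XT.lf (nat_lit 0) (nat_lit 5294336819) (nat_lit 304) (nat_lit 8202460509) (nat_lit 76) (nat_lit 3920627563) (nat_lit 88) (nat_lit 5) (nat_lit 92) (nat_lit 5) (nat_lit 89) (nat_lit 5) (nat_lit 388) (nat_lit 342) (nat_lit 290)) (XT.nd (nat_lit 78) (nat_lit 304) (nat_lit 0) (XT.lf (nat_lit 0) (nat_lit 9253599470) (nat_lit 152) (nat_lit 3933758004) (nat_lit 228) (nat_lit 4787691407) (nat_lit 86) (nat_lit 5) (nat_lit 88) (nat_lit 5) (nat_lit 89) (nat_lit 5) (nat_lit 389) (nat_lit 342) (nat_lit 289)) (XT.lf (nat_lit 0) (nat_lit 3023896024) (nat_lit 304) (nat_lit 9385364429) (nat_lit 76) (nat_lit 6145472837) (nat_lit 82) (nat_lit 5) (nat_lit 86) (nat_lit 5) (nat_lit 83) (nat_lit 5) (nat_lit 390) (nat_lit 342) (nat_lit 288)))) (XT.nd (nat_lit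 78) (nat_lit 380) (nat_lit 0) (XT.lf (nat_lit 0) (nat_lit 8948036744) (nat_lit 152) (nat_lit 2330056952) (nat_lit 228) (nat_lit 7879362781) (nat_lit 80) (nat_lit 5) (nat_lit 82) (nat_lit 5) (nat_lit 83) (nat_lit 5) (nat_lit 391) (nat_lit 342) (nat_lit 287)) (XT.nd (nat_lit 78) (nat_lit 152) (nat_lit 0) (XT.lf (nat_lit 0) (nat_lit 348371284) (nat_lit 228) (nat_lit 11206053511) (nat_lit 76) (nat_lit 8229952753) (nat_lit 77) (nat_lit 5) (nat_lit 80) (nat_lit 5) (nat_lit 78) (nat_lit 5) (nat_lit 392) (nat_lit 342) (nat_lit 286)) (XT.lf (nat_lit 0) (nat_lit 8021554977) (nat_lit 152) (nat_lit 948045865) (nat_lit 228) (nat_lit 11466358554) (nat_lit 75) (nat_lit 5) (nat_lit 77) (nat_lit 5) (nat_lit 78) (nat_lit 5) (nat_lit 393) (nat_lit 342) (nat_lit 285))))) (XT.nd (nat_lit 234) (nat_lit 608) (nat_lit 0) (XT.nd (nat_lit 78) (nat_lit 380) (nat_lit 0) (XT.lf (nat_lit 0) (nat_lit 7262246304) (nat_lit 152)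 (nat_lit 10982221522) (nat_lit 228) (nat_lit 2868982002) (nat_lit 73) (nat_lit 5) (nat_lit 75) (nat_lit 5) (nat_lit 76) (nat_lit 5) (nat_lit 394) (nat_lit 342) (nat_lit 284)) (XT.nd (nat_lit 78) (nat_lit 152) (nat_lit 0) (XT.lf (nat_lit 0) (nat_lit 6178267428) (nat_lit 228) (nat_lit 15512447167) (nat_lit 76) (nat_lit 128125319) (nat_lit 70) (nat_lit 5) (nat_lit 73) (nat_lit 5) (nat_lit 71) (nat_lit 5) (nat_lit 395) (nat_lit 342) (nat_lit 283)) (XT.lf (nat_lit 0) (nat_lit 5058781727) (nat_lit 152) (nat_lit 10804887212) (nat_lit 228) (nat_lit 6687630618) (nat_lit 68) (nat_lit 5) (nat_lit 70) (nat_lit 5) (nat_lit 71) (nat_lit 5) (nat_lit 396) (nat_lit 342) (nat_lit 282)))) (XT.nd (nat_lit 156) (nat_lit 228) (nat_lit 0) (XT.nd (nat_lit 78) (nat_lit 152) (nat_lit 0) (XT.lf (nat_lit 0) (nat_lit 2806087650) (nat_lit 228) (nat_lit 19716322652) (nat_lit 76) (nat_lit 792812968) (nat_lit 65) (nat_lit 5)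 (nat_lit 68) (nat_lit 5) (nat_lit 66) (nat_lit 5) (nat_lit 397) (nat_lit 342) (nat_lit 281)) (XT.lf (nat_lit 0) (nat_lit 1753093324) (nat_lit 152) (nat_lit 11135850384) (nat_lit 228) (nat_lit 11218835416) (nat_lit 63) (nat_lit 5) (nat_lit 65) (nat_lit 5) (nat_lit 66) (nat_lit 5) (nat_lit 398) (nat_lit 342) (nat_lit 280))) (XT.nd (nat_lit 78) (nat_lit 228) (nat_lit 0) (XT.lf (nat_lit 0) (nat_lit 23633825998) (nat_lit 228) (nat_lit 335358216) (nat_lit 76) (nat_lit 966047054) (nat_lit 63) (nat_lit 5) (nat_lit 66) (nat_lit 5) (nat_lit 64) (nat_lit 4) (nat_lit 399) (nat_lit 342) (nat_lit 279)) (XT.lf (nat_lit 0) (nat_lit 9218265382) (nat_lit 228) (nat_lit 2858957979) (nat_lit 76) (nat_lit 13715684361) (nat_lit 60) (nat_lit 5) (nat_lit 63) (nat_lit 5) (nat_lit 61) (nat_lit 5) (nat_lit 400) (nat_lit 342) (nat_lit 278))))))))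
noncomputable def xc53 : XT := (XT.nd (nat_lit 1950) (nat_lit 608) (nat_lit 0) (XT.nd (nat_lit 936) (nat_lit 1140) (nat_lit 0) (XT.nd (nat_lit 468) (nat_lit 684) (nat_lit 0) (XT.nd (nat_lit 234) (nat_lit 380) (nat_lit 0) (XT.nd (nat_lit 78) (nat_lit 304) (nat_lit 0) (XT.lf (nat_lit 0) (nat_lit 20396888470) (nat_lit 228) (nat_lit 5710641816) (nat_lit 76) (nat_lit 580759042) (nat_lit 58) (nat_lit 5) (nat_lit 61) (nat_lit 5) (nat_lit 59) (nat_lit 4) (nat_lit 401) (nat_lit 342) (nat_lit 277)) (XT.nd (nat_lit 78) (nat_lit 152) (nat_lit 0) (XT.lf (nat_lit 0) (nat_lit 4701062412) (nat_lit 152) (nat_lit 9078924336) (nat_lit 76) (nat_lit 13838668261) (nat_lit 56) (nat_lit 5) (nat_lit 58) (nat_lit 5) (nat_lit 57) (nat_lit 5) (nat_lit 402) (nat_lit 342) (nat_lit 276)) (XT.lf (nat_lit 0) (nat_lit 15680139506) (nat_lit 152) (nat_lit 595169021) (nat_lit 228) (nat_lit 12313497329) (nat_lit 54) (nat_lit 5) (nat_lit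 56) (nat_lit 5) (nat_lit 57) (nat_lit 5) (nat_lit 403) (nat_lit 342) (nat_lit 275)))) (XT.nd (nat_lit 78) (nat_lit 304) (nat_lit 0) (XT.lf (nat_lit 0) (nat_lit 12285262090) (nat_lit 76) (nat_lit 16434922592) (nat_lit 152) (nat_lit 878525723) (nat_lit 53) (nat_lit 5) (nat_lit 54) (nat_lit 5) (nat_lit 55) (nat_lit 4) (nat_lit 404) (nat_lit 342) (nat_lit 274)) (XT.nd (nat_lit 78) (nat_lit 76) (nat_lit 0) (XT.lf (nat_lit 0) (nat_lit 8314663650) (nat_lit 152) (nat_lit 2769587338) (nat_lit 228) (nat_lit 19566457248) (nat_lit 50) (nat_lit 5) (nat_lit 52) (nat_lit 5) (nat_lit 53) (nat_lit 5) (nat_lit 405) (nat_lit 342) (nat_lit 273)) (XT.lf (nat_lit 0) (nat_lit 3700990789) (nat_lit 76) (nat_lit 20207174093) (nat_lit 152) (nat_lit 7838448352) (nat_lit 49) (nat_lit 5) (nat_lit 50) (nat_lit 5) (nat_lit 51) (nat_lit 4) (nat_lit 406) (nat_lit 342) (nat_lit 272))))) (XT.nd (nat_lit 234) (nat_lit 380) (nat_lit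 0) (XT.nd (nat_lit 78) (nat_lit 228) (nat_lit 0) (XT.lf (nat_lit 0) (nat_lit 4603850408) (nat_lit 152) (nat_lit 1540802703) (nat_lit 76) (nat_lit 26744915662) (nat_lit 48) (nat_lit 5) (nat_lit 50) (nat_lit 5) (nat_lit 49) (nat_lit 5) (nat_lit 407) (nat_lit 342) (nat_lit 271)) (XT.nd (nat_lit 78) (nat_lit 76) (nat_lit 0) (XT.lf (nat_lit 0) (nat_lit 17806884948) (nat_lit 228) (nat_lit 7516323567) (nat_lit 76) (nat_lit 8755116227) (nat_lit 46) (nat_lit 5) (nat_lit 49) (nat_lit 5) (nat_lit 47) (nat_lit 4) (nat_lit 408) (nat_lit 342) (nat_lit 270)) (XT.lf (nat_lit 0) (nat_lit 21046219534) (nat_lit 76) (nat_lit 10862355745) (nat_lit 152) (nat_lit 3410790834) (nat_lit 45) (nat_lit 5) (nat_lit 46) (nat_lit 5) (nat_lit 47) (nat_lit 4) (nat_lit 409) (nat_lit 342) (nat_lit 269)))) (XT.nd (nat_lit 78) (nat_lit 152) (nat_lit 0) (XT.lf (nat_lit 0) (nat_lit 10118590106) (nat_lit 228) (nat_lit 21972887575) (nat_lit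 76) (nat_lit 4521394378) (nat_lit 42) (nat_lit 5) (nat_lit 45) (nat_lit 5) (nat_lit 43) (nat_lit 4) (nat_lit 410) (nat_lit 342) (nat_lit 268)) (XT.nd (nat_lit 78) (nat_lit 76) (nat_lit 0) (XT.lf (nat_lit 0) (nat_lit 7250748777) (nat_lit 76) (nat_lit 17291435948) (nat_lit 152) (nat_lit 13419209323) (nat_lit 41) (nat_lit 5) (nat_lit 42) (nat_lit 5) (nat_lit 43) (nat_lit 4) (nat_lit 411) (nat_lit 342) (nat_lit 267)) (XT.lf (nat_lit 0) (nat_lit 492732025) (nat_lit 152) (nat_lit 1055268648) (nat_lit 76) (nat_lit 37823579693) (nat_lit 40) (nat_lit 5) (nat_lit 42) (nat_lit 5) (nat_lit 41) (nat_lit 5) (nat_lit 412) (nat_lit 342) (nat_lit 266)))))) (XT.nd (nat_lit 468) (nat_lit 532) (nat_lit 0) (XT.nd (nat_lit 234) (nat_lit 228) (nat_lit 0) (XT.nd (nat_lit 78) (nat_lit 228) (nat_lit 0) (XT.lf (nat_lit 0) (nat_lit 15228768732) (nat_lit 228) (nat_lit 10517150924) (nat_lit 76) (nat_lit 15090191711) (nat_lit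 38) (nat_lit 5) (nat_lit 41) (nat_lit 5) (nat_lit 39) (nat_lit 4) (nat_lit 413) (nat_lit 342) (nat_lit 265)) (XT.nd (nat_lit 78) (nat_lit 152) (nat_lit 0) (XT.lf (nat_lit 0) (nat_lit 21239690984) (nat_lit 76) (nat_lit 9656085875) (nat_lit 152) (nat_lit 11472268986) (nat_lit 37) (nat_lit 5) (nat_lit 38) (nat_lit 5) (nat_lit 39) (nat_lit 4) (nat_lit 414) (nat_lit 342) (nat_lit 264)) (XT.lf (nat_lit 0) (nat_lit 3554189830) (nat_lit 152) (nat_lit 33099241002) (nat_lit 76) (nat_lit 7314664859) (nat_lit 35) (nat_lit 5) (nat_lit 37) (nat_lit 5) (nat_lit 36) (nat_lit 4) (nat_lit 415) (nat_lit 342) (nat_lit 263)))) (XT.nd (nat_lit 78) (nat_lit 228) (nat_lit 0) (XT.lf (nat_lit 0) (nat_lit 19378940504) (nat_lit 152) (nat_lit 1016548409) (nat_lit 76) (nat_lit 25240726293) (nat_lit 35) (nat_lit 5) (nat_lit 37) (nat_lit 5) (nat_lit 36) (nat_lit 4) (nat_lit 416) (nat_lit 342) (nat_lit 262)) (XT.nd (nat_lit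 78) (nat_lit 152) (nat_lit 0) (XT.lf (nat_lit 0) (nat_lit 33255437456) (nat_lit 76) (nat_lit 3025748620) (nat_lit 152) (nat_lit 11097968592) (nat_lit 34) (nat_lit 5) (nat_lit 35) (nat_lit 5) (nat_lit 36) (nat_lit 4) (nat_lit 417) (nat_lit 342) (nat_lit 261)) (XT.lf (nat_lit 0) (nat_lit 5047064177) (nat_lit 152) (nat_lit 29009856334) (nat_lit 76) (nat_lit 15141278271) (nat_lit 32) (nat_lit 5) (nat_lit 34) (nat_lit 5) (nat_lit 33) (nat_lit 4) (nat_lit 418) (nat_lit 342) (nat_lit 260))))) (XT.nd (nat_lit 234) (nat_lit 304) (nat_lit 0) (XT.nd (nat_lit 78) (nat_lit 152) (nat_lit 0) (XT.lf (nat_lit 0) (nat_lit 5305368365) (nat_lit 76) (nat_lit 16662913945) (nat_lit 152) (nat_lit 29130664150) (nat_lit 31) (nat_lit 5) (nat_lit 32) (nat_lit 5) (nat_lit 33) (nat_lit 4) (nat_lit 419) (nat_lit 342) (nat_lit 259)) (XT.nd (nat_lit 78) (nat_lit 152) (nat_lit 0) (XT.lf (nat_lit 0) (nat_lit 40021167892) (nat_lit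 152) (nat_lit 11221919642) (nat_lit 0) (nat_lit 1843077209) (nat_lit 31) (nat_lit 5) (nat_lit 33) (nat_lit 4) (nat_lit 31) (nat_lit 4) (nat_lit 420) (nat_lit 342) (nat_lit 258)) (XT.lf (nat_lit 0) (nat_lit 4115466449) (nat_lit 152) (nat_lit 29854381426) (nat_lit 76) (nat_lit 21190228153) (nat_lit 29) (nat_lit 5) (nat_lit 31) (nat_lit 5) (nat_lit 30) (nat_lit 4) (nat_lit 421) (nat_lit 342) (nat_lit 257)))) (XT.nd (nat_lit 156) (nat_lit 228) (nat_lit 0) (XT.nd (nat_lit 78) (nat_lit 0) (nat_lit 0) (XT.lf (nat_lit 0) (nat_lit 6497313441) (nat_lit 76) (nat_lit 15539789060) (nat_lit 152) (nat_lit 35292130318) (nat_lit 28) (nat_lit 5) (nat_lit 29) (nat_lit 5) (nat_lit 30) (nat_lit 4) (nat_lit 422) (nat_lit 342) (nat_lit 256)) (XT.lf (nat_lit 0) (nat_lit 41173164442) (nat_lit 152) (nat_lit 14402269655) (nat_lit 0) (nat_lit 4021864220) (nat_lit 28) (nat_lit 5) (nat_lit 30) (nat_lit 4) (nat_lit 28) (nat_lit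 4) (nat_lit 423) (nat_lit 342) (nat_lit 255))) (XT.nd (nat_lit 78) (nat_lit 152) (nat_lit 0) (XT.lf (nat_lit 0) (nat_lit 24109702015) (nat_lit 76) (nat_lit 37517632155) (nat_lit 76) (nat_lit 340594910) (nat_lit 27) (nat_lit 4) (nat_lit 28) (nat_lit 5) (nat_lit 28) (nat_lit 4) (nat_lit 424) (nat_lit 342) (nat_lit 254)) (XT.lf (nat_lit 0) (nat_lit 166322439) (nat_lit 76) (nat_lit 18241495853) (nat_lit 152) (nat_lit 46040159617) (nat_lit 25) (nat_lit 5) (nat_lit 26) (nat_lit 5) (nat_lit 27) (nat_lit 4) (nat_lit 425) (nat_lit 342) (nat_lit 253))))))) (XT.nd (nat_lit 46800) (nat_lit 0) (nat_lit 20292) (XT.nd (nat_lit 468) (nat_lit 304) (nat_lit 0) (XT.nd (nat_lit 234) (nat_lit 152) (nat_lit 0) (XT.nd (nat_lit 78) (nat_lit 152) (nat_lit 0) (XT.lf (nat_lit 0) (nat_lit 38473260285) (nat_lit 152) (nat_lit 26234481625) (nat_lit 0) (nat_lit 2332587534) (nat_lit 25) (nat_lit 5) (nat_lit 27) (nat_lit 4) (nat_lit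 25) (nat_lit 4) (nat_lit 426) (nat_lit 342) (nat_lit 252)) (XT.nd (nat_lit 78) (nat_lit 76) (nat_lit 0) (XT.lf (nat_lit 0) (nat_lit 13750822786) (nat_lit 76) (nat_lit 46082497081) (nat_lit 76) (nat_lit 9920239274) (nat_lit 24) (nat_lit 4) (nat_lit 25) (nat_lit 5) (nat_lit 25) (nat_lit 4) (nat_lit 427) (nat_lit 342) (nat_lit 251)) (XT.lf (nat_lit 0) (nat_lit 9718729829) (nat_lit 152) (nat_lit 16453793450) (nat_lit 76) (nat_lit 46419694145) (nat_lit 23) (nat_lit 5) (nat_lit 25) (nat_lit 5) (nat_lit 24) (nat_lit 4) (nat_lit 428) (nat_lit 342) (nat_lit 250)))) (XT.nd (nat_lit 78) (nat_lit 76) (nat_lit 0) (XT.lf (nat_lit 0) (nat_lit 25423293589) (nat_lit 76) (nat_lit 4934187629) (nat_lit 152) (nat_lit 45205691645) (nat_lit 22) (nat_lit 5) (nat_lit 23) (nat_lit 5) (nat_lit 24) (nat_lit 4) (nat_lit 429) (nat_lit 342) (nat_lit 249)) (XT.nd (nat_lit 78) (nat_lit 76) (nat_lit 0) (XT.lf (nat_lit 0) (nat_lit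 52343346815) (nat_lit 152) (nat_lit 9152585486) (nat_lit 0) (nat_lit 17177289272) (nat_lit 22) (nat_lit 5) (nat_lit 24) (nat_lit 4) (nat_lit 22) (nat_lit 4) (nat_lit 430) (nat_lit 342) (nat_lit 248)) (XT.lf (nat_lit 0) (nat_lit 34464462208) (nat_lit 76) (nat_lit 41323414269) (nat_lit 76) (nat_lit 6140115873) (nat_lit 21) (nat_lit 4) (nat_lit 22) (nat_lit 5) (nat_lit 22) (nat_lit 4) (nat_lit 431) (nat_lit 342) (nat_lit 247))))) (XT.nd (nat_lit 312) (nat_lit 152) (nat_lit 0) (XT.nd (nat_lit 78) (nat_lit 76) (nat_lit 0) (XT.lf (nat_lit 0) (nat_lit 14839128804) (nat_lit 152) (nat_lit 5076286783) (nat_lit 76) (nat_lit 65423528383) (nat_lit 20) (nat_lit 5) (nat_lit 22) (nat_lit 5) (nat_lit 21) (nat_lit 4) (nat_lit 432) (nat_lit 342) (nat_lit 246)) (XT.nd (nat_lit 78) (nat_lit 0) (nat_lit 0) (XT.lf (nat_lit 0) (nat_lit 37135707297) (nat_lit 152) (nat_lit 48825010922) (nat_lit 0) (nat_lit 2946041064)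 (nat_lit 19) (nat_lit 5) (nat_lit 21) (nat_lit 4) (nat_lit 19) (nat_lit 4) (nat_lit 433) (nat_lit 342) (nat_lit 245)) (XT.lf (nat_lit 0) (nat_lit 60781034336) (nat_lit 152) (nat_lit 5288005482) (nat_lit 0) (nat_lit 26576908591) (nat_lit 19) (nat_lit 5) (nat_lit 21) (nat_lit 4) (nat_lit 19) (nat_lit 4) (nat_lit 434) (nat_lit 342) (nat_lit 244)))) (XT.nd (nat_lit 45864) (nat_lit 0) (nat_lit 27892) (XT.lf (nat_lit 0) (nat_lit 11585762536) (nat_lit 152) (nat_lit 10711913963) (nat_lit 76) (nat_lit 78369199987) (nat_lit 17) (nat_lit 5) (nat_lit 19) (nat_lit 5) (nat_lit 18) (nat_lit 4) (nat_lit 436) (nat_lit 342) (nat_lit 242)) (XT.nd (nat_lit 78) (nat_lit 0) (nat_lit 0) (XT.lf (nat_lit 0) (nat_lit 526099107) (nat_lit 0) (nat_lit 526099107) (nat_lit 380) (nat_lit 2221136165) (nat_lit 384) (nat_lit 5) (nat_lit 384) (nat_lit 3) (nat_lit 389) (nat_lit 3) (nat_lit 343) (nat_lit 343) (nat_lit 334)) (XT.lf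 (nat_lit 0) (nat_lit 6236793230) (nat_lit 380) (nat_lit 146102320) (nat_lit 456) (nat_lit 202875048) (nat_lit 384) (nat_lit 5) (nat_lit 389) (nat_lit 3) (nat_lit 390) (nat_lit 5) (nat_lit 344) (nat_lit 343) (nat_lit 333)))))) (XT.nd (nat_lit 468) (nat_lit 5396) (nat_lit 0) (XT.nd (nat_lit 234) (nat_lit 1216) (nat_lit 0) (XT.nd (nat_lit 78) (nat_lit 532) (nat_lit 0) (XT.lf (nat_lit 0) (nat_lit 3672831575) (nat_lit 456) (nat_lit 1243695081) (nat_lit 532) (nat_lit 1715269766) (nat_lit 378) (nat_lit 5) (nat_lit 384) (nat_lit 5) (nat_lit 385) (nat_lit 5) (nat_lit 345) (nat_lit 343) (nat_lit 332)) (XT.nd (nat_lit 78) (nat_lit 0) (nat_lit 0) (XT.lf (nat_lit 0) (nat_lit 975939458) (nat_lit 532) (nat_lit 2231208911) (nat_lit 608) (nat_lit 3478916947) (nat_lit 371) (nat_lit 5) (nat_lit 378) (nat_lit 5) (nat_lit 379) (nat_lit 5) (nat_lit 346) (nat_lit 343) (nat_lit 331)) (XT.lf (nat_lit 76) (nat_lit 3620534808)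 (nat_lit 0) (nat_lit 1231006063) (nat_lit 608) (nat_lit 1896592277) (nat_lit 372) (nat_lit 5) (nat_lit 371) (nat_lit 5) (nat_lit 379) (nat_lit 5) (nat_lit 347) (nat_lit 343) (nat_lit 330)))) (XT.nd (nat_lit 78) (nat_lit 684) (nat_lit 0) (XT.lf (nat_lit 0) (nat_lit 1891883960) (nat_lit 608) (nat_lit 3935730521) (nat_lit 684) (nat_lit 990430179) (nat_lit 364) (nat_lit 5) (nat_lit 372) (nat_lit 5) (nat_lit 373) (nat_lit 5) (nat_lit 348) (nat_lit 343) (nat_lit 329)) (XT.nd (nat_lit 78) (nat_lit 684) (nat_lit 0) (XT.lf (nat_lit 76) (nat_lit 2233152349) (nat_lit 0) (nat_lit 3439573665) (nat_lit 684) (nat_lit 1223002040) (nat_lit 365) (nat_lit 5) (nat_lit 364) (nat_lit 5) (nat_lit 373) (nat_lit 5) (nat_lit 349) (nat_lit 343) (nat_lit 328)) (XT.lf (nat_lit 76) (nat_lit 1676977761) (nat_lit 0) (nat_lit 775860817) (nat_lit 760) (nat_lit 4528599159) (nat_lit 356) (nat_lit 5) (nat_lit 355) (nat_lit 5) (nat_lit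 365) (nat_lit 5) (nat_lit 350) (nat_lit 343) (nat_lit 327))))) (XT.nd (nat_lit 234) (nat_lit 3116) (nat_lit 0) (XT.nd (nat_lit 78) (nat_lit 1672) (nat_lit 0) (XT.lf (nat_lit 0) (nat_lit 1203020278) (nat_lit 684) (nat_lit 4955982506) (nat_lit 760) (nat_lit 916004251) (nat_lit 347) (nat_lit 5) (nat_lit 356) (nat_lit 5) (nat_lit 357) (nat_lit 5) (nat_lit 351) (nat_lit 343) (nat_lit 326)) (XT.nd (nat_lit 78) (nat_lit 836) (nat_lit 0) (XT.lf (nat_lit 0) (nat_lit 805824133) (nat_lit 760) (nat_lit 1884545855) (nat_lit 836) (nat_lit 4486061451) (nat_lit 336) (nat_lit 5) (nat_lit 346) (nat_lit 5) (nat_lit 347) (nat_lit 5) (nat_lit 352) (nat_lit 343) (nat_lit 325)) (XT.lf (nat_lit 0) (nat_lit 494998392) (nat_lit 836) (nat_lit 5849224587) (nat_lit 912) (nat_lit 941930019) (nat_lit 325) (nat_lit 5) (nat_lit 336) (nat_lit 5) (nat_lit 337) (nat_lit 5) (nat_lit 353) (nat_lit 343) (nat_lit 324)))) (XT.nd (nat_lit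 156) (nat_lit 1140) (nat_lit 0) (XT.nd (nat_lit 78) (nat_lit 988) (nat_lit 0) (XT.lf (nat_lit 0) (nat_lit 245505380) (nat_lit 912) (nat_lit 2380377211) (nat_lit 988) (nat_lit 4777730229) (nat_lit 312) (nat_lit 5) (nat_lit 324) (nat_lit 5) (nat_lit 325) (nat_lit 5) (nat_lit 354) (nat_lit 343) (nat_lit 323)) (XT.lf (nat_lit 0) (nat_lit 78289467) (nat_lit 988) (nat_lit 6178895277) (nat_lit 1064) (nat_lit 1272415186) (nat_lit 299) (nat_lit 5) (nat_lit 312) (nat_lit 5) (nat_lit 313) (nat_lit 5) (nat_lit 355) (nat_lit 343) (nat_lit 322))) (XT.nd (nat_lit 78) (nat_lit 1064) (nat_lit 0) (XT.lf (nat_lit 0) (nat_lit 2285869168) (nat_lit 1064) (nat_lit 32631736) (nat_lit 76) (nat_lit 5345016236) (nat_lit 298) (nat_lit 5) (nat_lit 312) (nat_lit 5) (nat_lit 299) (nat_lit 5) (nat_lit 356) (nat_lit 343) (nat_lit 321)) (XT.lf (nat_lit 0) (nat_lit 5922784936) (nat_lit 1140) (nat_lit 72832953) (nat_lit 76) (nat_lit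 1810386325) (nat_lit 284) (nat_lit 5) (nat_lit 299) (nat_lit 5) (nat_lit 285) (nat_lit 5) (nat_lit 357) (nat_lit 343) (nat_lit 320))))))))
noncomputable def xc54 : XT := (XT.nd (nat_lit 1950) (nat_lit 4712) (nat_lit 0) (XT.nd (nat_lit 936) (nat_lit 4636) (nat_lit 0) (XT.nd (nat_lit 468) (nat_lit 2964) (nat_lit 0) (XT.nd (nat_lit 234) (nat_lit 1748) (nat_lit 0) (XT.nd (nat_lit 78) (nat_lit 2584) (nat_lit 0) (XT.lf (nat_lit 0) (nat_lit 1691545041) (nat_lit 1216) (nat_lit 55398961) (nat_lit 76) (nat_lit 6210000878) (nat_lit 268) (nat_lit 5) (nat_lit 284) (nat_lit 5) (nat_lit 269) (nat_lit 5) (nat_lit 358) (nat_lit 343) (nat_lit 319)) (XT.nd (nat_lit 78) (nat_lit 684) (nat_lit 0) (XT.lf (nat_lit 0) (nat_lit 13041167) (nat_lit 684) (nat_lit 5345763615) (nat_lit 760) (nat_lit 2757542688) (nat_lit 243) (nat_lit 5) (nat_lit 252) (nat_lit 5) (nat_lit 253) (nat_lit 5) (nat_lit 359) (nat_lit 343) (nat_lit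 318)) (XT.lf (nat_lit 0) (nat_lit 152533968) (nat_lit 608) (nat_lit 707117222) (nat_lit 684) (nat_lit 7425293054) (nat_lit 234) (nat_lit 5) (nat_lit 242) (nat_lit 5) (nat_lit 243) (nat_lit 5) (nat_lit 360) (nat_lit 343) (nat_lit 317)))) (XT.nd (nat_lit 78) (nat_lit 1140) (nat_lit 0) (XT.lf (nat_lit 0) (nat_lit 318287502) (nat_lit 608) (nat_lit 4265040821) (nat_lit 684) (nat_lit 3878392647) (nat_lit 226) (nat_lit 5) (nat_lit 234) (nat_lit 5) (nat_lit 235) (nat_lit 5) (nat_lit 361) (nat_lit 343) (nat_lit 316)) (XT.nd (nat_lit 78) (nat_lit 608) (nat_lit 0) (XT.lf (nat_lit 0) (nat_lit 563008481) (nat_lit 532) (nat_lit 7894030486) (nat_lit 608) (nat_lit 191428551) (nat_lit 219) (nat_lit 5) (nat_lit 226) (nat_lit 5) (nat_lit 227) (nat_lit 5) (nat_lit 362) (nat_lit 343) (nat_lit 315)) (XT.lf (nat_lit 0) (nat_lit 821092191) (nat_lit 532) (nat_lit 2786712718) (nat_lit 608) (nat_lit 5235736391) (nat_lit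 211) (nat_lit 5) (nat_lit 218) (nat_lit 5) (nat_lit 219) (nat_lit 5) (nat_lit 363) (nat_lit 343) (nat_lit 314))))) (XT.nd (nat_lit 234) (nat_lit 1444) (nat_lit 0) (XT.nd (nat_lit 78) (nat_lit 1064) (nat_lit 0) (XT.lf (nat_lit 0) (nat_lit 1142677339) (nat_lit 456) (nat_lit 6439284228) (nat_lit 532) (nat_lit 1466723654) (nat_lit 205) (nat_lit 5) (nat_lit 211) (nat_lit 5) (nat_lit 212) (nat_lit 5) (nat_lit 364) (nat_lit 343) (nat_lit 313)) (XT.nd (nat_lit 78) (nat_lit 456) (nat_lit 0) (XT.lf (nat_lit 0) (nat_lit 1502030520) (nat_lit 532) (nat_lit 938718480) (nat_lit 608) (nat_lit 6822698528) (nat_lit 197) (nat_lit 5) (nat_lit 204) (nat_lit 5) (nat_lit 205) (nat_lit 5) (nat_lit 365) (nat_lit 343) (nat_lit 312)) (XT.lf (nat_lit 0) (nat_lit 1888098349) (nat_lit 456) (nat_lit 4649434048) (nat_lit 532) (nat_lit 2950287800) (nat_lit 191) (nat_lit 5) (nat_lit 197) (nat_lit 5) (nat_lit 198) (nat_lit 5)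 (nat_lit 366) (nat_lit 343) (nat_lit 311)))) (XT.nd (nat_lit 78) (nat_lit 912) (nat_lit 0) (XT.lf (nat_lit 0) (nat_lit 1099144608) (nat_lit 532) (nat_lit 7393468249) (nat_lit 76) (nat_lit 1230355008) (nat_lit 184) (nat_lit 5) (nat_lit 191) (nat_lit 5) (nat_lit 185) (nat_lit 5) (nat_lit 367) (nat_lit 343) (nat_lit 310)) (XT.nd (nat_lit 78) (nat_lit 456) (nat_lit 0) (XT.lf (nat_lit 0) (nat_lit 2780064905) (nat_lit 456) (nat_lit 2547740323) (nat_lit 532) (nat_lit 4640089913) (nat_lit 178) (nat_lit 5) (nat_lit 184) (nat_lit 5) (nat_lit 185) (nat_lit 5) (nat_lit 368) (nat_lit 343) (nat_lit 309)) (XT.lf (nat_lit 0) (nat_lit 3279550853) (nat_lit 456) (nat_lit 6520689718) (nat_lit 532) (nat_lit 423888186) (nat_lit 172) (nat_lit 5) (nat_lit 178) (nat_lit 5) (nat_lit 179) (nat_lit 5) (nat_lit 369) (nat_lit 343) (nat_lit 308)))))) (XT.nd (nat_lit 468) (nat_lit 2204) (nat_lit 0) (XT.nd (nat_lit 234) (nat_lit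 1140) (nat_lit 0) (XT.nd (nat_lit 78) (nat_lit 836) (nat_lit 0) (XT.lf (nat_lit 0) (nat_lit 3798459662) (nat_lit 380) (nat_lit 154834463) (nat_lit 456) (nat_lit 6537904887) (nat_lit 166) (nat_lit 5) (nat_lit 171) (nat_lit 5) (nat_lit 172) (nat_lit 5) (nat_lit 370) (nat_lit 343) (nat_lit 307)) (XT.nd (nat_lit 78) (nat_lit 456) (nat_lit 0) (XT.lf (nat_lit 0) (nat_lit 4331941870) (nat_lit 380) (nat_lit 4280204817) (nat_lit 456) (nat_lit 2157229470) (nat_lit 161) (nat_lit 5) (nat_lit 166) (nat_lit 5) (nat_lit 167) (nat_lit 5) (nat_lit 371) (nat_lit 343) (nat_lit 306)) (XT.lf (nat_lit 0) (nat_lit 2434972195) (nat_lit 456) (nat_lit 6163010556) (nat_lit 76) (nat_lit 2461595039) (nat_lit 155) (nat_lit 5) (nat_lit 161) (nat_lit 5) (nat_lit 156) (nat_lit 5) (nat_lit 372) (nat_lit 343) (nat_lit 305)))) (XT.nd (nat_lit 78) (nat_lit 760) (nat_lit 0) (XT.lf (nat_lit 0) (nat_lit 5474761016) (nat_lit 380) (nat_lit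 1801412137) (nat_lit 456) (nat_lit 4085578910) (nat_lit 150) (nat_lit 5) (nat_lit 155) (nat_lit 5) (nat_lit 156) (nat_lit 5) (nat_lit 373) (nat_lit 343) (nat_lit 304)) (XT.nd (nat_lit 78) (nat_lit 380) (nat_lit 0) (XT.lf (nat_lit 0) (nat_lit 745592316) (nat_lit 380) (nat_lit 5605840435) (nat_lit 76) (nat_lit 5325073653) (nat_lit 145) (nat_lit 5) (nat_lit 150) (nat_lit 5) (nat_lit 146) (nat_lit 5) (nat_lit 374) (nat_lit 343) (nat_lit 303)) (XT.lf (nat_lit 0) (nat_lit 5793169447) (nat_lit 456) (nat_lit 5331102306) (nat_lit 76) (nat_lit 879753512) (nat_lit 140) (nat_lit 5) (nat_lit 146) (nat_lit 5) (nat_lit 141) (nat_lit 5) (nat_lit 375) (nat_lit 343) (nat_lit 302))))) (XT.nd (nat_lit 234) (nat_lit 1216) (nat_lit 0) (XT.nd (nat_lit 78) (nat_lit 684) (nat_lit 0) (XT.lf (nat_lit 0) (nat_lit 7282847574) (nat_lit 304) (nat_lit 3911844102) (nat_lit 380) (nat_lit 1150201064) (nat_lit 136) (nat_lit 5)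 (nat_lit 140) (nat_lit 5) (nat_lit 141) (nat_lit 5) (nat_lit 376) (nat_lit 343) (nat_lit 301)) (XT.nd (nat_lit 78) (nat_lit 304) (nat_lit 0) (XT.lf (nat_lit 0) (nat_lit 4161710903) (nat_lit 380) (nat_lit 4814252047) (nat_lit 76) (nat_lit 3723274083) (nat_lit 131) (nat_lit 5) (nat_lit 136) (nat_lit 5) (nat_lit 132) (nat_lit 5) (nat_lit 377) (nat_lit 343) (nat_lit 300)) (XT.lf (nat_lit 0) (nat_lit 8502019168) (nat_lit 304) (nat_lit 1301484801) (nat_lit 380) (nat_lit 3264828037) (nat_lit 127) (nat_lit 5) (nat_lit 131) (nat_lit 5) (nat_lit 132) (nat_lit 5) (nat_lit 378) (nat_lit 343) (nat_lit 299)))) (XT.nd (nat_lit 156) (nat_lit 608) (nat_lit 0) (XT.nd (nat_lit 78) (nat_lit 228) (nat_lit 0) (XT.lf (nat_lit 0) (nat_lit 2347502572) (nat_lit 380) (nat_lit 4358713429) (nat_lit 76) (nat_lit 6745416995) (nat_lit 122) (nat_lit 5) (nat_lit 127) (nat_lit 5) (nat_lit 123) (nat_lit 5) (nat_lit 379) (nat_lit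 343) (nat_lit 298)) (XT.lf (nat_lit 0) (nat_lit 8259822048) (nat_lit 304) (nat_lit 4168562166) (nat_lit 76) (nat_lit 1422153496) (nat_lit 119) (nat_lit 5) (nat_lit 123) (nat_lit 5) (nat_lit 120) (nat_lit 5) (nat_lit 380) (nat_lit 343) (nat_lit 297))) (XT.nd (nat_lit 78) (nat_lit 228) (nat_lit 0) (XT.lf (nat_lit 0) (nat_lit 328222732) (nat_lit 380) (nat_lit 4011465847) (nat_lit 76) (nat_lit 9925644257) (nat_lit 114) (nat_lit 5) (nat_lit 119) (nat_lit 5) (nat_lit 115) (nat_lit 5) (nat_lit 381) (nat_lit 343) (nat_lit 296)) (XT.lf (nat_lit 0) (nat_lit 6540098114) (nat_lit 304) (nat_lit 3920031866) (nat_lit 76) (nat_lit 4235712115) (nat_lit 111) (nat_lit 5) (nat_lit 115) (nat_lit 5) (nat_lit 112) (nat_lit 5) (nat_lit 382) (nat_lit 343) (nat_lit 295))))))) (XT.nd (nat_lit 936) (nat_lit 1976) (nat_lit 0) (XT.nd (nat_lit 468) (nat_lit 1292) (nat_lit 0) (XT.nd (nat_lit 234) (nat_lit 684) (nat_lit 0) (XT.nd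 (nat_lit 78) (nat_lit 532) (nat_lit 0) (XT.lf (nat_lit 0) (nat_lit 11296860020) (nat_lit 228) (nat_lit 1884634293) (nat_lit 304) (nat_lit 1962827478) (nat_lit 108) (nat_lit 5) (nat_lit 111) (nat_lit 5) (nat_lit 112) (nat_lit 5) (nat_lit 383) (nat_lit 343) (nat_lit 294)) (XT.nd (nat_lit 78) (nat_lit 228) (nat_lit 0) (XT.lf (nat_lit 0) (nat_lit 4601989016) (nat_lit 304) (nat_lit 3869601825) (nat_lit 76) (nat_lit 7137812069) (nat_lit 104) (nat_lit 5) (nat_lit 108) (nat_lit 5) (nat_lit 105) (nat_lit 5) (nat_lit 384) (nat_lit 343) (nat_lit 293)) (XT.lf (nat_lit 0) (nat_lit 11565324753) (nat_lit 304) (nat_lit 3926772105) (nat_lit 76) (nat_lit 601743287) (nat_lit 101) (nat_lit 5) (nat_lit 105) (nat_lit 5) (nat_lit 102) (nat_lit 5) (nat_lit 385) (nat_lit 343) (nat_lit 292)))) (XT.nd (nat_lit 78) (nat_lit 380) (nat_lit 0) (XT.lf (nat_lit 0) (nat_lit 2408335966) (nat_lit 304) (nat_lit 4090898454) (nat_lit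 76) (nat_lit 10097267717) (nat_lit 97) (nat_lit 5) (nat_lit 101) (nat_lit 5) (nat_lit 98) (nat_lit 5) (nat_lit 386) (nat_lit 343) (nat_lit 291)) (XT.nd (nat_lit 78) (nat_lit 152) (nat_lit 0) (XT.lf (nat_lit 0) (nat_lit 9725197656) (nat_lit 304) (nat_lit 4339469044) (nat_lit 76) (nat_lit 3054490608) (nat_lit 94) (nat_lit 5) (nat_lit 98) (nat_lit 5) (nat_lit 95) (nat_lit 5) (nat_lit 387) (nat_lit 343) (nat_lit 290)) (XT.lf (nat_lit 0) (nat_lit 12989799800) (nat_lit 152) (nat_lit 4584916701) (nat_lit 228) (nat_lit 88233758) (nat_lit 92) (nat_lit 5) (nat_lit 94) (nat_lit 5) (nat_lit 95) (nat_lit 5) (nat_lit 388) (nat_lit 343) (nat_lit 289))))) (XT.nd (nat_lit 234) (nat_lit 532) (nat_lit 0) (XT.nd (nat_lit 78) (nat_lit 456) (nat_lit 0) (XT.lf (nat_lit 0) (nat_lit 7594925751) (nat_lit 304) (nat_lit 5164307447) (nat_lit 76) (nat_lit 5467718241) (nat_lit 88) (nat_lit 5) (nat_lit 92) (nat_lit 5) (nat_lit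 89) (nat_lit 5) (nat_lit 389) (nat_lit 343) (nat_lit 288)) (XT.nd (nat_lit 78) (nat_lit 304) (nat_lit 0) (XT.lf (nat_lit 0) (nat_lit 13065711390) (nat_lit 152) (nat_lit 2752136547) (nat_lit 228) (nat_lit 2996563964) (nat_lit 86) (nat_lit 5) (nat_lit 88) (nat_lit 5) (nat_lit 89) (nat_lit 5) (nat_lit 390) (nat_lit 343) (nat_lit 287)) (XT.lf (nat_lit 0) (nat_lit 5115937750) (nat_lit 304) (nat_lit 6517530694) (nat_lit 76) (nat_lit 7790539628) (nat_lit 82) (nat_lit 5) (nat_lit 86) (nat_lit 5) (nat_lit 83) (nat_lit 5) (nat_lit 391) (nat_lit 343) (nat_lit 286)))) (XT.nd (nat_lit 78) (nat_lit 380) (nat_lit 0) (XT.lf (nat_lit 0) (nat_lit 12636883179) (nat_lit 152) (nat_lit 1084699592) (nat_lit 228) (nat_lit 6337133783) (nat_lit 80) (nat_lit 5) (nat_lit 82) (nat_lit 5) (nat_lit 83) (nat_lit 5) (nat_lit 392) (nat_lit 343) (nat_lit 285)) (XT.nd (nat_lit 78) (nat_lit 152) (nat_lit 0) (XT.lf (nat_lit 0) (nat_lit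 2217370823) (nat_lit 228) (nat_lit 8538494442) (nat_lit 76) (nat_lit 9961975490) (nat_lit 77) (nat_lit 5) (nat_lit 80) (nat_lit 5) (nat_lit 78) (nat_lit 5) (nat_lit 393) (nat_lit 343) (nat_lit 284)) (XT.lf (nat_lit 0) (nat_lit 11214959317) (nat_lit 228) (nat_lit 9849113319) (nat_lit 76) (nat_lit 339580052) (nat_lit 75) (nat_lit 5) (nat_lit 78) (nat_lit 5) (nat_lit 76) (nat_lit 5) (nat_lit 394) (nat_lit 343) (nat_lit 283)))))) (XT.nd (nat_lit 468) (nat_lit 836) (nat_lit 0) (XT.nd (nat_lit 234) (nat_lit 608) (nat_lit 0) (XT.nd (nat_lit 78) (nat_lit 380) (nat_lit 0) (XT.lf (nat_lit 0) (nat_lit 10710748999) (nat_lit 152) (nat_lit 10196026868) (nat_lit 228) (nat_lit 1209655031) (nat_lit 73) (nat_lit 5) (nat_lit 75) (nat_lit 5) (nat_lit 76) (nat_lit 5) (nat_lit 395) (nat_lit 343) (nat_lit 282)) (XT.nd (nat_lit 78) (nat_lit 152) (nat_lit 0) (XT.lf (nat_lit 0) (nat_lit 8212422045) (nat_lit 228) (nat_lit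 13217897718) (nat_lit 76) (nat_lit 1427530260) (nat_lit 70) (nat_lit 5) (nat_lit 73) (nat_lit 5) (nat_lit 71) (nat_lit 5) (nat_lit 396) (nat_lit 343) (nat_lit 281)) (XT.lf (nat_lit 0) (nat_lit 8293886762) (nat_lit 152) (nat_lit 10034718929) (nat_lit 228) (nat_lit 5299939913) (nat_lit 68) (nat_lit 5) (nat_lit 70) (nat_lit 5) (nat_lit 71) (nat_lit 5) (nat_lit 397) (nat_lit 343) (nat_lit 280)))) (XT.nd (nat_lit 78) (nat_lit 380) (nat_lit 0) (XT.lf (nat_lit 0) (nat_lit 4595048693) (nat_lit 228) (nat_lit 17735849591) (nat_lit 76) (nat_lit 2100472652) (nat_lit 65) (nat_lit 5) (nat_lit 68) (nat_lit 5) (nat_lit 66) (nat_lit 5) (nat_lit 398) (nat_lit 343) (nat_lit 279)) (XT.nd (nat_lit 78) (nat_lit 228) (nat_lit 0) (XT.lf (nat_lit 0) (nat_lit 4722009099) (nat_lit 152) (nat_lit 10409227439) (nat_lit 228) (nat_lit 10133849699) (nat_lit 63) (nat_lit 5) (nat_lit 65) (nat_lit 5) (nat_lit 66) (nat_lit 5) (nat_lit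 399) (nat_lit 343) (nat_lit 278)) (XT.lf (nat_lit 0) (nat_lit 233036151) (nat_lit 228) (nat_lit 23663162804) (nat_lit 76) (nat_lit 2238867099) (nat_lit 60) (nat_lit 5) (nat_lit 63) (nat_lit 5) (nat_lit 61) (nat_lit 5) (nat_lit 400) (nat_lit 343) (nat_lit 277))))) (XT.nd (nat_lit 234) (nat_lit 532) (nat_lit 0) (XT.nd (nat_lit 78) (nat_lit 304) (nat_lit 0) (XT.lf (nat_lit 0) (nat_lit 11180448388) (nat_lit 228) (nat_lit 273431456) (nat_lit 76) (nat_lit 15583506187) (nat_lit 60) (nat_lit 5) (nat_lit 63) (nat_lit 5) (nat_lit 61) (nat_lit 5) (nat_lit 401) (nat_lit 343) (nat_lit 276)) (XT.nd (nat_lit 78) (nat_lit 152) (nat_lit 0) (XT.lf (nat_lit 0) (nat_lit 22883476681) (nat_lit 228) (nat_lit 3313617246) (nat_lit 76) (nat_lit 1781484709) (nat_lit 58) (nat_lit 5) (nat_lit 61) (nat_lit 5) (nat_lit 59) (nat_lit 4) (nat_lit 402) (nat_lit 343) (nat_lit 275)) (XT.lf (nat_lit 0) (nat_lit 6372254978) (nat_lit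 152) (nat_lit 6898513264) (nat_lit 76) (nat_lit 15685621749) (nat_lit 56) (nat_lit 5) (nat_lit 58) (nat_lit 5) (nat_lit 57) (nat_lit 5) (nat_lit 403) (nat_lit 343) (nat_lit 274)))) (XT.nd (nat_lit 156) (nat_lit 228) (nat_lit 0) (XT.nd (nat_lit 78) (nat_lit 152) (nat_lit 0) (XT.lf (nat_lit 0) (nat_lit 18486628857) (nat_lit 228) (nat_lit 10958582931) (nat_lit 76) (nat_lit 530999536) (nat_lit 54) (nat_lit 5) (nat_lit 57) (nat_lit 5) (nat_lit 55) (nat_lit 4) (nat_lit 404) (nat_lit 343) (nat_lit 273)) (XT.lf (nat_lit 0) (nat_lit 470027892) (nat_lit 152) (nat_lit 15627516915) (nat_lit 76) (nat_lit 14940032722) (nat_lit 52) (nat_lit 5) (nat_lit 54) (nat_lit 5) (nat_lit 53) (nat_lit 5) (nat_lit 405) (nat_lit 343) (nat_lit 272))) (XT.nd (nat_lit 78) (nat_lit 76) (nat_lit 0) (XT.lf (nat_lit 0) (nat_lit 11200246441) (nat_lit 152) (nat_lit 1770986936) (nat_lit 228) (nat_lit 19171931913) (nat_lit 50) (nat_lit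 5) (nat_lit 52) (nat_lit 5) (nat_lit 53) (nat_lit 5) (nat_lit 406) (nat_lit 343) (nat_lit 271)) (XT.lf (nat_lit 0) (nat_lit 6313404721) (nat_lit 76) (nat_lit 20093216140) (nat_lit 152) (nat_lit 6888140876) (nat_lit 49) (nat_lit 5) (nat_lit 50) (nat_lit 5) (nat_lit 51) (nat_lit 4) (nat_lit 407) (nat_lit 343) (nat_lit 270))))))))
noncomputable def xc55 : XT := (XT.nd (nat_lit 1950) (nat_lit 228) (nat_lit 0) (XT.nd (nat_lit 936) (nat_lit 836) (nat_lit 0) (XT.nd (nat_lit 468) (nat_lit 456) (nat_lit 0) (XT.nd (nat_lit 234) (nat_lit 532) (nat_lit 0) (XT.nd (nat_lit 78) (nat_lit 76) (nat_lit 0) (XT.lf (nat_lit 0) (nat_lit 733269914) (nat_lit 152) (nat_lit 5361191324) (nat_lit 228) (nat_lit 28401689536) (nat_lit 46) (nat_lit 5) (nat_lit 48) (nat_lit 5) (nat_lit 49) (nat_lit 5) (nat_lit 408) (nat_lit 343) (nat_lit 269)) (XT.nd (nat_lit 78) (nat_lit 76) (nat_lit 0) (XT.lf (nat_lit 0) (nat_lit 19922868222)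 (nat_lit 228) (nat_lit 5595909451) (nat_lit 76) (nat_lit 10226614239) (nat_lit 46) (nat_lit 5) (nat_lit 49) (nat_lit 5) (nat_lit 47) (nat_lit 4) (nat_lit 409) (nat_lit 343) (nat_lit 268)) (XT.lf (nat_lit 0) (nat_lit 24328939824) (nat_lit 76) (nat_lit 10363779542) (nat_lit 152) (nat_lit 2356877504) (nat_lit 45) (nat_lit 5) (nat_lit 46) (nat_lit 5) (nat_lit 47) (nat_lit 4) (nat_lit 410) (nat_lit 343) (nat_lit 267)))) (XT.nd (nat_lit 78) (nat_lit 304) (nat_lit 0) (XT.lf (nat_lit 0) (nat_lit 11798814739) (nat_lit 228) (nat_lit 20856628973) (nat_lit 76) (nat_lit 5752772741) (nat_lit 42) (nat_lit 5) (nat_lit 45) (nat_lit 5) (nat_lit 43) (nat_lit 4) (nat_lit 411) (nat_lit 343) (nat_lit 266)) (XT.nd (nat_lit 78) (nat_lit 228) (nat_lit 0) (XT.lf (nat_lit 0) (nat_lit 9764699448) (nat_lit 76) (nat_lit 17143651526) (nat_lit 152) (nat_lit 12916874062) (nat_lit 41) (nat_lit 5) (nat_lit 42) (nat_lit 5) (nat_lit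 43) (nat_lit 4) (nat_lit 412) (nat_lit 343) (nat_lit 265)) (XT.lf (nat_lit 0) (nat_lit 981961439) (nat_lit 152) (nat_lit 640465927) (nat_lit 228) (nat_lit 39684518300) (nat_lit 38) (nat_lit 5) (nat_lit 40) (nat_lit 5) (nat_lit 41) (nat_lit 5) (nat_lit 413) (nat_lit 343) (nat_lit 264))))) (XT.nd (nat_lit 234) (nat_lit 228) (nat_lit 0) (XT.nd (nat_lit 78) (nat_lit 228) (nat_lit 0) (XT.lf (nat_lit 0) (nat_lit 17062109216) (nat_lit 228) (nat_lit 9008713432) (nat_lit 76) (nat_lit 16774878221) (nat_lit 38) (nat_lit 5) (nat_lit 41) (nat_lit 5) (nat_lit 39) (nat_lit 4) (nat_lit 414) (nat_lit 343) (nat_lit 263)) (XT.nd (nat_lit 78) (nat_lit 152) (nat_lit 0) (XT.lf (nat_lit 0) (nat_lit 24277657914) (nat_lit 76) (nat_lit 9202761234) (nat_lit 152) (nat_lit 10974777191) (nat_lit 37) (nat_lit 5) (nat_lit 38) (nat_lit 5) (nat_lit 39) (nat_lit 4) (nat_lit 415) (nat_lit 343) (nat_lit 262)) (XT.lf (nat_lit 0)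 (nat_lit 4759591105) (nat_lit 152) (nat_lit 32792741494) (nat_lit 76) (nat_lit 8583285162) (nat_lit 35) (nat_lit 5) (nat_lit 37) (nat_lit 5) (nat_lit 36) (nat_lit 4) (nat_lit 416) (nat_lit 343) (nat_lit 261)))) (XT.nd (nat_lit 78) (nat_lit 152) (nat_lit 0) (XT.lf (nat_lit 0) (nat_lit 816617954) (nat_lit 76) (nat_lit 20517873486) (nat_lit 152) (nat_lit 26553886923) (nat_lit 34) (nat_lit 5) (nat_lit 35) (nat_lit 5) (nat_lit 36) (nat_lit 4) (nat_lit 417) (nat_lit 343) (nat_lit 260)) (XT.nd (nat_lit 78) (nat_lit 152) (nat_lit 0) (XT.lf (nat_lit 0) (nat_lit 36732720430) (nat_lit 76) (nat_lit 2312113882) (nat_lit 152) (nat_lit 10674743290) (nat_lit 34) (nat_lit 5) (nat_lit 35) (nat_lit 5) (nat_lit 36) (nat_lit 4) (nat_lit 418) (nat_lit 343) (nat_lit 259)) (XT.lf (nat_lit 0) (nat_lit 6238083247) (nat_lit 152) (nat_lit 28659484759) (nat_lit 76) (nat_lit 16732337160) (nat_lit 32) (nat_lit 5) (nat_lit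 34) (nat_lit 5) (nat_lit 33) (nat_lit 4) (nat_lit 419) (nat_lit 343) (nat_lit 258)))))) (XT.nd (nat_lit 468) (nat_lit 380) (nat_lit 0) (XT.nd (nat_lit 234) (nat_lit 228) (nat_lit 0) (XT.nd (nat_lit 78) (nat_lit 152) (nat_lit 0) (XT.lf (nat_lit 0) (nat_lit 7319879758) (nat_lit 76) (nat_lit 16657598948) (nat_lit 152) (nat_lit 29649050105) (nat_lit 31) (nat_lit 5) (nat_lit 32) (nat_lit 5) (nat_lit 33) (nat_lit 4) (nat_lit 420) (nat_lit 343) (nat_lit 257)) (XT.nd (nat_lit 78) (nat_lit 152) (nat_lit 0) (XT.lf (nat_lit 0) (nat_lit 42897313979) (nat_lit 152) (nat_lit 10098684053) (nat_lit 0) (nat_lit 2718182790) (nat_lit 31) (nat_lit 5) (nat_lit 33) (nat_lit 4) (nat_lit 31) (nat_lit 4) (nat_lit 421) (nat_lit 343) (nat_lit 256)) (XT.lf (nat_lit 0) (nat_lit 5178827613) (nat_lit 152) (nat_lit 29693945724) (nat_lit 76) (nat_lit 23019542308) (nat_lit 29) (nat_lit 5) (nat_lit 31) (nat_lit 5) (nat_lit 30)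 (nat_lit 4) (nat_lit 422) (nat_lit 343) (nat_lit 255)))) (XT.nd (nat_lit 78) (nat_lit 152) (nat_lit 0) (XT.lf (nat_lit 0) (nat_lit 8427946536) (nat_lit 76) (nat_lit 15543197034) (nat_lit 152) (nat_lit 36199550504) (nat_lit 28) (nat_lit 5) (nat_lit 29) (nat_lit 5) (nat_lit 30) (nat_lit 4) (nat_lit 423) (nat_lit 343) (nat_lit 254)) (XT.nd (nat_lit 78) (nat_lit 152) (nat_lit 0) (XT.lf (nat_lit 0) (nat_lit 44031462743) (nat_lit 152) (nat_lit 13576352975) (nat_lit 0) (nat_lit 4945325163) (nat_lit 28) (nat_lit 5) (nat_lit 30) (nat_lit 4) (nat_lit 28) (nat_lit 4) (nat_lit 424) (nat_lit 343) (nat_lit 253)) (XT.lf (nat_lit 0) (nat_lit 433065355) (nat_lit 152) (nat_lit 38230359146) (nat_lit 76) (nat_lit 26379462168) (nat_lit 26) (nat_lit 5) (nat_lit 28) (nat_lit 5) (nat_lit 27) (nat_lit 4) (nat_lit 425) (nat_lit 343) (nat_lit 252))))) (XT.nd (nat_lit 234) (nat_lit 228) (nat_lit 0) (XT.nd (nat_lit 78) (nat_lit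 76) (nat_lit 0) (XT.lf (nat_lit 0) (nat_lit 1648485836) (nat_lit 76) (nat_lit 18440282765) (nat_lit 152) (nat_lit 47558762229) (nat_lit 25) (nat_lit 5) (nat_lit 26) (nat_lit 5) (nat_lit 27) (nat_lit 4) (nat_lit 426) (nat_lit 343) (nat_lit 251)) (XT.nd (nat_lit 78) (nat_lit 76) (nat_lit 0) (XT.lf (nat_lit 0) (nat_lit 41127795636) (nat_lit 152) (nat_lit 26127313621) (nat_lit 0) (nat_lit 3115282686) (nat_lit 25) (nat_lit 5) (nat_lit 27) (nat_lit 4) (nat_lit 25) (nat_lit 4) (nat_lit 427) (nat_lit 343) (nat_lit 250)) (XT.lf (nat_lit 0) (nat_lit 15816583754) (nat_lit 76) (nat_lit 47717719291) (nat_lit 76) (nat_lit 9685628058) (nat_lit 24) (nat_lit 4) (nat_lit 25) (nat_lit 5) (nat_lit 25) (nat_lit 4) (nat_lit 428) (nat_lit 343) (nat_lit 249)))) (XT.nd (nat_lit 156) (nat_lit 76) (nat_lit 0) (XT.nd (nat_lit 78) (nat_lit 76) (nat_lit 0) (XT.lf (nat_lit 0) (nat_lit 10886919738) (nat_lit 152) (nat_lit 15950290145)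 (nat_lit 76) (nat_lit 49364126325) (nat_lit 23) (nat_lit 5) (nat_lit 25) (nat_lit 5) (nat_lit 24) (nat_lit 4) (nat_lit 429) (nat_lit 343) (nat_lit 248)) (XT.lf (nat_lit 0) (nat_lit 27982636190) (nat_lit 76) (nat_lit 4554867004) (nat_lit 152) (nat_lit 46783940558) (nat_lit 22) (nat_lit 5) (nat_lit 23) (nat_lit 5) (nat_lit 24) (nat_lit 4) (nat_lit 430) (nat_lit 343) (nat_lit 247))) (XT.nd (nat_lit 78) (nat_lit 76) (nat_lit 0) (XT.lf (nat_lit 0) (nat_lit 55596862439) (nat_lit 152) (nat_lit 8370169147) (nat_lit 0) (nat_lit 18620738409) (nat_lit 22) (nat_lit 5) (nat_lit 24) (nat_lit 4) (nat_lit 22) (nat_lit 4) (nat_lit 431) (nat_lit 343) (nat_lit 246)) (XT.lf (nat_lit 0) (nat_lit 37392185273) (nat_lit 76) (nat_lit 42802709404) (nat_lit 76) (nat_lit 5810947411) (nat_lit 21) (nat_lit 4) (nat_lit 22) (nat_lit 5) (nat_lit 22) (nat_lit 4) (nat_lit 432) (nat_lit 343) (nat_lit 245))))))) (XT.nd (nat_lit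 46878) (nat_lit 0) (nat_lit 14136) (XT.nd (nat_lit 46410) (nat_lit 0) (nat_lit 24852) (XT.nd (nat_lit 46176) (nat_lit 0) (nat_lit 26752) (XT.nd (nat_lit 78) (nat_lit 152) (nat_lit 0) (XT.lf (nat_lit 0) (nat_lit 16175142582) (nat_lit 152) (nat_lit 4171115847) (nat_lit 76) (nat_lit 69241791463) (nat_lit 20) (nat_lit 5) (nat_lit 22) (nat_lit 5) (nat_lit 21) (nat_lit 4) (nat_lit 433) (nat_lit 343) (nat_lit 244)) (XT.nd (nat_lit 156) (nat_lit 76) (nat_lit 0) (XT.lf (nat_lit 0) (nat_lit 39574362064) (nat_lit 152) (nat_lit 50128460920) (nat_lit 0) (nat_lit 3631799556) (nat_lit 19) (nat_lit 5) (nat_lit 21) (nat_lit 4) (nat_lit 19) (nat_lit 4) (nat_lit 434) (nat_lit 343) (nat_lit 243)) (XT.lf (nat_lit 0) (nat_lit 44304864847) (nat_lit 76) (nat_lit 46517987658) (nat_lit 76) (nat_lit 10549819276) (nat_lit 18) (nat_lit 4) (nat_lit 19) (nat_lit 5) (nat_lit 19) (nat_lit 4) (nat_lit 436) (nat_lit 343) (nat_lit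 241)))) (XT.nd (nat_lit 78) (nat_lit 532) (nat_lit 0) (XT.lf (nat_lit 0) (nat_lit 1769288125) (nat_lit 532) (nat_lit 772315629) (nat_lit 532) (nat_lit 772315629) (nat_lit 377) (nat_lit 3) (nat_lit 384) (nat_lit 3) (nat_lit 384) (nat_lit 5) (nat_lit 344) (nat_lit 344) (nat_lit 332)) (XT.nd (nat_lit 78) (nat_lit 0) (nat_lit 0) (XT.lf (nat_lit 0) (nat_lit 709356864) (nat_lit 532) (nat_lit 2776134979) (nat_lit 608) (nat_lit 3192677845) (nat_lit 370) (nat_lit 5) (nat_lit 377) (nat_lit 3) (nat_lit 378) (nat_lit 5) (nat_lit 345) (nat_lit 344) (nat_lit 331)) (XT.lf (nat_lit 76) (nat_lit 2815707088) (nat_lit 0) (nat_lit 1619088955) (nat_lit 608) (nat_lit 2301398953) (nat_lit 371) (nat_lit 5) (nat_lit 370) (nat_lit 5) (nat_lit 378) (nat_lit 5) (nat_lit 346) (nat_lit 344) (nat_lit 330))))) (XT.nd (nat_lit 234) (nat_lit 684) (nat_lit 0) (XT.nd (nat_lit 78) (nat_lit 684) (nat_lit 0) (XT.lf (nat_lit 0) (nat_lit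 1335550252) (nat_lit 608) (nat_lit 4969450243) (nat_lit 684) (nat_lit 497292180) (nat_lit 363) (nat_lit 5) (nat_lit 371) (nat_lit 5) (nat_lit 372) (nat_lit 5) (nat_lit 347) (nat_lit 344) (nat_lit 329)) (XT.nd (nat_lit 78) (nat_lit 684) (nat_lit 0) (XT.lf (nat_lit 76) (nat_lit 927687369) (nat_lit 0) (nat_lit 4021412587) (nat_lit 684) (nat_lit 1926745857) (nat_lit 364) (nat_lit 5) (nat_lit 363) (nat_lit 5) (nat_lit 372) (nat_lit 5) (nat_lit 348) (nat_lit 344) (nat_lit 328)) (XT.lf (nat_lit 76) (nat_lit 120370124) (nat_lit 0) (nat_lit 1470837095) (nat_lit 760) (nat_lit 5366373148) (nat_lit 355) (nat_lit 5) (nat_lit 354) (nat_lit 5) (nat_lit 364) (nat_lit 5) (nat_lit 349) (nat_lit 344) (nat_lit 327)))) (XT.nd (nat_lit 78) (nat_lit 760) (nat_lit 0) (XT.lf (nat_lit 0) (nat_lit 5111877609) (nat_lit 684) (nat_lit 595997718) (nat_lit 760) (nat_lit 1339046139) (nat_lit 355) (nat_lit 5) (nat_lit 364) (nat_lit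 5) (nat_lit 365) (nat_lit 5) (nat_lit 350) (nat_lit 344) (nat_lit 326)) (XT.nd (nat_lit 78) (nat_lit 0) (nat_lit 76) (XT.lf (nat_lit 0) (nat_lit 1508499814) (nat_lit 760) (nat_lit 1234077959) (nat_lit 836) (nat_lit 4401560270) (nat_lit 345) (nat_lit 5) (nat_lit 355) (nat_lit 5) (nat_lit 356) (nat_lit 5) (nat_lit 351) (nat_lit 344) (nat_lit 325)) (XT.lf (nat_lit 0) (nat_lit 4957092933) (nat_lit 760) (nat_lit 1792586259) (nat_lit 76) (nat_lit 499855880) (nat_lit 346) (nat_lit 5) (nat_lit 356) (nat_lit 5) (nat_lit 347) (nat_lit 5) (nat_lit 352) (nat_lit 344) (nat_lit 324)))))) (XT.nd (nat_lit 468) (nat_lit 4864) (nat_lit 0) (XT.nd (nat_lit 234) (nat_lit 3268) (nat_lit 0) (XT.nd (nat_lit 78) (nat_lit 1824) (nat_lit 0) (XT.lf (nat_lit 0) (nat_lit 1099836262) (nat_lit 836) (nat_lit 2289077726) (nat_lit 76) (nat_lit 3973841127) (nat_lit 335) (nat_lit 5) (nat_lit 346) (nat_lit 5) (nat_lit 336) (nat_lit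 5) (nat_lit 353) (nat_lit 344) (nat_lit 323)) (XT.nd (nat_lit 78) (nat_lit 988) (nat_lit 0) (XT.lf (nat_lit 0) (nat_lit 4504839066) (nat_lit 912) (nat_lit 2712375761) (nat_lit 76) (nat_lit 267096219) (nat_lit 324) (nat_lit 5) (nat_lit 336) (nat_lit 5) (nat_lit 325) (nat_lit 5) (nat_lit 354) (nat_lit 344) (nat_lit 322)) (XT.lf (nat_lit 0) (nat_lit 390395961) (nat_lit 988) (nat_lit 3077644672) (nat_lit 76) (nat_lit 4145893691) (nat_lit 311) (nat_lit 5) (nat_lit 324) (nat_lit 5) (nat_lit 312) (nat_lit 5) (nat_lit 355) (nat_lit 344) (nat_lit 321)))) (XT.nd (nat_lit 78) (nat_lit 2280) (nat_lit 0) (XT.lf (nat_lit 0) (nat_lit 3779323952) (nat_lit 1064) (nat_lit 3383868908) (nat_lit 76) (nat_lit 588658244) (nat_lit 298) (nat_lit 5) (nat_lit 312) (nat_lit 5) (nat_lit 299) (nat_lit 5) (nat_lit 356) (nat_lit 344) (nat_lit 320)) (XT.nd (nat_lit 78) (nat_lit 1216) (nat_lit 0) (XT.lf (nat_lit 0) (nat_lit 4265315278)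 (nat_lit 1064) (nat_lit 3022790097) (nat_lit 1140) (nat_lit 610106068) (nat_lit 284) (nat_lit 5) (nat_lit 298) (nat_lit 5) (nat_lit 299) (nat_lit 5) (nat_lit 357) (nat_lit 344) (nat_lit 319)) (XT.lf (nat_lit 0) (nat_lit 2800333561) (nat_lit 1216) (nat_lit 3832551008) (nat_lit 76) (nat_lit 1420111884) (nat_lit 268) (nat_lit 5) (nat_lit 284) (nat_lit 5) (nat_lit 269) (nat_lit 5) (nat_lit 358) (nat_lit 344) (nat_lit 318))))) (XT.nd (nat_lit 234) (nat_lit 2280) (nat_lit 0) (XT.nd (nat_lit 78) (nat_lit 1368) (nat_lit 0) (XT.lf (nat_lit 0) (nat_lit 4236653259) (nat_lit 1216) (nat_lit 2094370687) (nat_lit 1292) (nat_lit 1885497922) (nat_lit 252) (nat_lit 5) (nat_lit 268) (nat_lit 5) (nat_lit 269) (nat_lit 5) (nat_lit 359) (nat_lit 344) (nat_lit 317)) (XT.nd (nat_lit 78) (nat_lit 608) (nat_lit 0) (XT.lf (nat_lit 0) (nat_lit 1583533950) (nat_lit 760) (nat_lit 4081539963) (nat_lit 76) (nat_lit 2723751412)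 (nat_lit 242) (nat_lit 5) (nat_lit 252) (nat_lit 5) (nat_lit 243) (nat_lit 5) (nat_lit 360) (nat_lit 344) (nat_lit 316)) (XT.lf (nat_lit 0) (nat_lit 4433160483) (nat_lit 608) (nat_lit 722408625) (nat_lit 684) (nat_lit 3414604874) (nat_lit 234) (nat_lit 5) (nat_lit 242) (nat_lit 5) (nat_lit 243) (nat_lit 5) (nat_lit 361) (nat_lit 344) (nat_lit 315)))) (XT.nd (nat_lit 156) (nat_lit 1064) (nat_lit 0) (XT.nd (nat_lit 78) (nat_lit 532) (nat_lit 0) (XT.lf (nat_lit 0) (nat_lit 140698298) (nat_lit 684) (nat_lit 4152225231) (nat_lit 76) (nat_lit 4467729808) (nat_lit 225) (nat_lit 5) (nat_lit 234) (nat_lit 5) (nat_lit 226) (nat_lit 5) (nat_lit 362) (nat_lit 344) (nat_lit 314)) (XT.lf (nat_lit 0) (nat_lit 3782803489) (nat_lit 608) (nat_lit 4135410109) (nat_lit 76) (nat_lit 1042080066) (nat_lit 218) (nat_lit 5) (nat_lit 226) (nat_lit 5) (nat_lit 219) (nat_lit 5) (nat_lit 363) (nat_lit 344) (nat_lit 313)))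 (XT.nd (nat_lit 78) (nat_lit 532) (nat_lit 0) (XT.lf (nat_lit 0) (nat_lit 5089776168) (nat_lit 532) (nat_lit 2529420627) (nat_lit 608) (nat_lit 1550392704) (nat_lit 211) (nat_lit 5) (nat_lit 218) (nat_lit 5) (nat_lit 219) (nat_lit 5) (nat_lit 364) (nat_lit 344) (nat_lit 312)) (XT.lf (nat_lit 0) (nat_lit 2220399808) (nat_lit 532) (nat_lit 3995611444) (nat_lit 76) (nat_lit 3172531648) (nat_lit 204) (nat_lit 5) (nat_lit 211) (nat_lit 5) (nat_lit 205) (nat_lit 5) (nat_lit 365) (nat_lit 344) (nat_lit 311))))))))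
noncomputable def xc56 : XT := (XT.nd (nat_lit 1872) (nat_lit 4028) (nat_lit 0) (XT.nd (nat_lit 936) (nat_lit 3344) (nat_lit 0) (XT.nd (nat_lit 468) (nat_lit 2356) (nat_lit 0) (XT.nd (nat_lit 234) (nat_lit 1368) (nat_lit 0) (XT.nd (nat_lit 78) (nat_lit 988) (nat_lit 0) (XT.lf (nat_lit 0) (nat_lit 5745027300) (nat_lit 532) (nat_lit 410592588) (nat_lit 608) (nat_lit 3462159323) (nat_lit 197) (nat_lit 5) (nat_lit 204) (nat_lit 5) (nat_lit 205) (nat_lit 5) (nat_lit 366) (nat_lit 344) (nat_lit 310)) (XT.nd (nat_lit 78) (nat_lit 456) (nat_lit 0) (XT.lf (nat_lit 0) (nat_lit 464849852) (nat_lit 532) (nat_lit 3730478353) (nat_lit 76) (nat_lit 5661734120) (nat_lit 190) (nat_lit 5) (nat_lit 197) (nat_lit 5) (nat_lit 191) (nat_lit 5) (nat_lit 367) (nat_lit 344) (nat_lit 309)) (XT.lf (nat_lit 0) (nat_lit 4535886741) (nat_lit 532) (nat_lit 3569421660) (nat_lit 76) (nat_lit 2001424657) (nat_lit 184) (nat_lit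 5) (nat_lit 191) (nat_lit 5) (nat_lit 185) (nat_lit 5) (nat_lit 368) (nat_lit 344) (nat_lit 308)))) (XT.nd (nat_lit 78) (nat_lit 912) (nat_lit 0) (XT.lf (nat_lit 0) (nat_lit 6992576009) (nat_lit 456) (nat_lit 1861524056) (nat_lit 532) (nat_lit 1513507312) (nat_lit 178) (nat_lit 5) (nat_lit 184) (nat_lit 5) (nat_lit 185) (nat_lit 5) (nat_lit 369) (nat_lit 344) (nat_lit 307)) (XT.nd (nat_lit 78) (nat_lit 380) (nat_lit 0) (XT.lf (nat_lit 0) (nat_lit 2746629839) (nat_lit 532) (nat_lit 3178362534) (nat_lit 76) (nat_lit 4714161692) (nat_lit 171) (nat_lit 5) (nat_lit 178) (nat_lit 5) (nat_lit 172) (nat_lit 5) (nat_lit 370) (nat_lit 344) (nat_lit 306)) (XT.lf (nat_lit 0) (nat_lit 7228076708) (nat_lit 456) (nat_lit 2950420303) (nat_lit 76) (nat_lit 744168735) (nat_lit 166) (nat_lit 5) (nat_lit 172) (nat_lit 5) (nat_lit 167) (nat_lit 5) (nat_lit 371) (nat_lit 344) (nat_lit 305))))) (XT.nd (nat_lit 234)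 (nat_lit 1140) (nat_lit 0) (XT.nd (nat_lit 78) (nat_lit 760) (nat_lit 0) (XT.lf (nat_lit 0) (nat_lit 779373461) (nat_lit 456) (nat_lit 2718527590) (nat_lit 76) (nat_lit 7719868262) (nat_lit 160) (nat_lit 5) (nat_lit 166) (nat_lit 5) (nat_lit 161) (nat_lit 5) (nat_lit 372) (nat_lit 344) (nat_lit 304)) (XT.nd (nat_lit 78) (nat_lit 380) (nat_lit 0) (XT.lf (nat_lit 0) (nat_lit 5461339099) (nat_lit 456) (nat_lit 2489523858) (nat_lit 76) (nat_lit 3573868580) (nat_lit 155) (nat_lit 5) (nat_lit 161) (nat_lit 5) (nat_lit 156) (nat_lit 5) (nat_lit 373) (nat_lit 344) (nat_lit 303)) (XT.lf (nat_lit 0) (nat_lit 9616003461) (nat_lit 380) (nat_lit 827458305) (nat_lit 456) (nat_lit 1401619602) (nat_lit 150) (nat_lit 5) (nat_lit 155) (nat_lit 5) (nat_lit 156) (nat_lit 5) (nat_lit 374) (nat_lit 344) (nat_lit 302)))) (XT.nd (nat_lit 78) (nat_lit 760) (nat_lit 0) (XT.lf (nat_lit 0) (nat_lit 3526907827) (nat_lit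 380) (nat_lit 2001879133) (nat_lit 76) (nat_lit 6648619065) (nat_lit 145) (nat_lit 5) (nat_lit 150) (nat_lit 5) (nat_lit 146) (nat_lit 5) (nat_lit 375) (nat_lit 344) (nat_lit 301)) (XT.nd (nat_lit 78) (nat_lit 380) (nat_lit 0) (XT.lf (nat_lit 0) (nat_lit 8743260601) (nat_lit 456) (nat_lit 1755478181) (nat_lit 76) (nat_lit 2025098934) (nat_lit 140) (nat_lit 5) (nat_lit 146) (nat_lit 5) (nat_lit 141) (nat_lit 5) (nat_lit 376) (nat_lit 344) (nat_lit 300)) (XT.lf (nat_lit 0) (nat_lit 1411455269) (nat_lit 380) (nat_lit 1519304264) (nat_lit 76) (nat_lit 9953325696) (nat_lit 135) (nat_lit 5) (nat_lit 140) (nat_lit 5) (nat_lit 136) (nat_lit 5) (nat_lit 377) (nat_lit 344) (nat_lit 299)))))) (XT.nd (nat_lit 468) (nat_lit 1520) (nat_lit 0) (XT.nd (nat_lit 234) (nat_lit 836) (nat_lit 0) (XT.nd (nat_lit 78) (nat_lit 684) (nat_lit 0) (XT.lf (nat_lit 0) (nat_lit 6888361339) (nat_lit 380) (nat_lit 1314709600)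 (nat_lit 76) (nat_lit 5055063915) (nat_lit 131) (nat_lit 5) (nat_lit 136) (nat_lit 5) (nat_lit 132) (nat_lit 5) (nat_lit 378) (nat_lit 344) (nat_lit 298)) (XT.nd (nat_lit 78) (nat_lit 380) (nat_lit 0) (XT.lf (nat_lit 0) (nat_lit 12560161516) (nat_lit 304) (nat_lit 167073898) (nat_lit 380) (nat_lit 921023569) (nat_lit 127) (nat_lit 5) (nat_lit 131) (nat_lit 5) (nat_lit 132) (nat_lit 5) (nat_lit 379) (nat_lit 344) (nat_lit 297)) (XT.lf (nat_lit 0) (nat_lit 4851880449) (nat_lit 380) (nat_lit 939612152) (nat_lit 76) (nat_lit 8260665419) (nat_lit 122) (nat_lit 5) (nat_lit 127) (nat_lit 5) (nat_lit 123) (nat_lit 5) (nat_lit 380) (nat_lit 344) (nat_lit 296)))) (XT.nd (nat_lit 78) (nat_lit 608) (nat_lit 0) (XT.lf (nat_lit 0) (nat_lit 10991888492) (nat_lit 304) (nat_lit 786344252) (nat_lit 76) (nat_lit 2694834311) (nat_lit 119) (nat_lit 5) (nat_lit 123) (nat_lit 5) (nat_lit 120) (nat_lit 5) (nat_lit 381)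 (nat_lit 344) (nat_lit 295)) (XT.nd (nat_lit 78) (nat_lit 228) (nat_lit 0) (XT.lf (nat_lit 0) (nat_lit 2609399979) (nat_lit 380) (nat_lit 678851748) (nat_lit 76) (nat_lit 11622011538) (nat_lit 114) (nat_lit 5) (nat_lit 119) (nat_lit 5) (nat_lit 115) (nat_lit 5) (nat_lit 382) (nat_lit 344) (nat_lit 294)) (XT.lf (nat_lit 0) (nat_lit 9068951596) (nat_lit 304) (nat_lit 629991238) (nat_lit 76) (nat_lit 5665261404) (nat_lit 111) (nat_lit 5) (nat_lit 115) (nat_lit 5) (nat_lit 112) (nat_lit 5) (nat_lit 383) (nat_lit 344) (nat_lit 293))))) (XT.nd (nat_lit 234) (nat_lit 760) (nat_lit 0) (XT.nd (nat_lit 78) (nat_lit 456) (nat_lit 0) (XT.lf (nat_lit 0) (nat_lit 130230477) (nat_lit 304) (nat_lit 590752994) (nat_lit 76) (nat_lit 15116272993) (nat_lit 107) (nat_lit 5) (nat_lit 111) (nat_lit 5) (nat_lit 108) (nat_lit 5) (nat_lit 384) (nat_lit 344) (nat_lit 292)) (XT.nd (nat_lit 78) (nat_lit 228) (nat_lit 0)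 (XT.lf (nat_lit 0) (nat_lit 6924682053) (nat_lit 304) (nat_lit 681383265) (nat_lit 76) (nat_lit 8720700135) (nat_lit 104) (nat_lit 5) (nat_lit 108) (nat_lit 5) (nat_lit 105) (nat_lit 5) (nat_lit 385) (nat_lit 344) (nat_lit 291)) (XT.lf (nat_lit 0) (nat_lit 14180226626) (nat_lit 304) (nat_lit 789412253) (nat_lit 76) (nat_lit 1867480114) (nat_lit 101) (nat_lit 5) (nat_lit 105) (nat_lit 5) (nat_lit 102) (nat_lit 5) (nat_lit 386) (nat_lit 344) (nat_lit 290)))) (XT.nd (nat_lit 78) (nat_lit 456) (nat_lit 0) (XT.lf (nat_lit 0) (nat_lit 4519338689) (nat_lit 304) (nat_lit 1017397734) (nat_lit 76) (nat_lit 11829582823) (nat_lit 97) (nat_lit 5) (nat_lit 101) (nat_lit 5) (nat_lit 98) (nat_lit 5) (nat_lit 387) (nat_lit 344) (nat_lit 289)) (XT.nd (nat_lit 78) (nat_lit 228) (nat_lit 0) (XT.lf (nat_lit 0) (nat_lit 12149950560) (nat_lit 304) (nat_lit 1326382247) (nat_lit 76) (nat_lit 4440350986) (nat_lit 94)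 (nat_lit 5) (nat_lit 98) (nat_lit 5) (nat_lit 95) (nat_lit 5) (nat_lit 388) (nat_lit 344) (nat_lit 288)) (XT.lf (nat_lit 0) (nat_lit 1804341456) (nat_lit 228) (nat_lit 1730472670) (nat_lit 76) (nat_lit 14954199244) (nat_lit 91) (nat_lit 5) (nat_lit 94) (nat_lit 5) (nat_lit 92) (nat_lit 5) (nat_lit 389) (nat_lit 344) (nat_lit 287))))))) (XT.nd (nat_lit 936) (nat_lit 1672) (nat_lit 0) (XT.nd (nat_lit 468) (nat_lit 1140) (nat_lit 0) (XT.nd (nat_lit 234) (nat_lit 532) (nat_lit 0) (XT.nd (nat_lit 78) (nat_lit 456) (nat_lit 0) (XT.lf (nat_lit 0) (nat_lit 9821268039) (nat_lit 304) (nat_lit 2294834757) (nat_lit 76) (nat_lit 6966554766) (nat_lit 88) (nat_lit 5) (nat_lit 92) (nat_lit 5) (nat_lit 89) (nat_lit 5) (nat_lit 390) (nat_lit 344) (nat_lit 286)) (XT.nd (nat_lit 78) (nat_lit 304) (nat_lit 0) (XT.lf (nat_lit 0) (nat_lit 16757030471) (nat_lit 152) (nat_lit 1639576157) (nat_lit 228) (nat_lit 1304657908)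 (nat_lit 86) (nat_lit 5) (nat_lit 88) (nat_lit 5) (nat_lit 89) (nat_lit 5) (nat_lit 391) (nat_lit 344) (nat_lit 285)) (XT.lf (nat_lit 0) (nat_lit 7132140011) (nat_lit 304) (nat_lit 3816557382) (nat_lit 76) (nat_lit 9393484433) (nat_lit 82) (nat_lit 5) (nat_lit 86) (nat_lit 5) (nat_lit 83) (nat_lit 5) (nat_lit 392) (nat_lit 344) (nat_lit 284)))) (XT.nd (nat_lit 78) (nat_lit 380) (nat_lit 0) (XT.lf (nat_lit 0) (nat_lit 16113426177) (nat_lit 228) (nat_lit 4802415629) (nat_lit 76) (nat_lit 94433373) (nat_lit 80) (nat_lit 5) (nat_lit 83) (nat_lit 5) (nat_lit 81) (nat_lit 5) (nat_lit 393) (nat_lit 344) (nat_lit 283)) (XT.nd (nat_lit 78) (nat_lit 152) (nat_lit 0) (XT.lf (nat_lit 0) (nat_lit 4007677889) (nat_lit 228) (nat_lit 6037653409) (nat_lit 76) (nat_lit 11657829457) (nat_lit 77) (nat_lit 5) (nat_lit 80) (nat_lit 5) (nat_lit 78) (nat_lit 5) (nat_lit 394) (nat_lit 344) (nat_lit 282)) (XT.lf (nat_lit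 0) (nat_lit 13414208225) (nat_lit 228) (nat_lit 7460442032) (nat_lit 76) (nat_lit 1549850148) (nat_lit 75) (nat_lit 5) (nat_lit 78) (nat_lit 5) (nat_lit 76) (nat_lit 5) (nat_lit 395) (nat_lit 344) (nat_lit 281))))) (XT.nd (nat_lit 234) (nat_lit 608) (nat_lit 0) (XT.nd (nat_lit 78) (nat_lit 304) (nat_lit 0) (XT.lf (nat_lit 0) (nat_lit 357910142) (nat_lit 228) (nat_lit 9133142219) (nat_lit 76) (nat_lit 13683302142) (nat_lit 72) (nat_lit 5) (nat_lit 75) (nat_lit 5) (nat_lit 73) (nat_lit 5) (nat_lit 396) (nat_lit 344) (nat_lit 280)) (XT.nd (nat_lit 78) (nat_lit 152) (nat_lit 0) (XT.lf (nat_lit 0) (nat_lit 10187887816) (nat_lit 228) (nat_lit 11094056271) (nat_lit 76) (nat_lit 2671694687) (nat_lit 70) (nat_lit 5) (nat_lit 73) (nat_lit 5) (nat_lit 71) (nat_lit 5) (nat_lit 397) (nat_lit 344) (nat_lit 279)) (XT.lf (nat_lit 0) (nat_lit 11413493525) (nat_lit 152) (nat_lit 9347871979) (nat_lit 228) (nat_lit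 4002966627) (nat_lit 68) (nat_lit 5) (nat_lit 70) (nat_lit 5) (nat_lit 71) (nat_lit 5) (nat_lit 398) (nat_lit 344) (nat_lit 278)))) (XT.nd (nat_lit 78) (nat_lit 380) (nat_lit 0) (XT.lf (nat_lit 0) (nat_lit 6320181319) (nat_lit 228) (nat_lit 15932130331) (nat_lit 76) (nat_lit 3355626929) (nat_lit 65) (nat_lit 5) (nat_lit 68) (nat_lit 5) (nat_lit 66) (nat_lit 5) (nat_lit 399) (nat_lit 344) (nat_lit 277)) (XT.nd (nat_lit 78) (nat_lit 228) (nat_lit 0) (XT.lf (nat_lit 0) (nat_lit 7571498315) (nat_lit 152) (nat_lit 9765593153) (nat_lit 228) (nat_lit 9147637433) (nat_lit 63) (nat_lit 5) (nat_lit 65) (nat_lit 5) (nat_lit 66) (nat_lit 5) (nat_lit 400) (nat_lit 344) (nat_lit 276)) (XT.lf (nat_lit 0) (nat_lit 1674468660) (nat_lit 228) (nat_lit 22247773875) (nat_lit 76) (nat_lit 3476560557) (nat_lit 60) (nat_lit 5) (nat_lit 63) (nat_lit 5) (nat_lit 61) (nat_lit 5) (nat_lit 401) (nat_lit 344) (nat_lit 275))))))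 (XT.nd (nat_lit 468) (nat_lit 912) (nat_lit 0) (XT.nd (nat_lit 234) (nat_lit 456) (nat_lit 0) (XT.nd (nat_lit 78) (nat_lit 152) (nat_lit 0) (XT.lf (nat_lit 0) (nat_lit 2231243296) (nat_lit 152) (nat_lit 10891371492) (nat_lit 228) (nat_lit 15225029230) (nat_lit 58) (nat_lit 5) (nat_lit 60) (nat_lit 5) (nat_lit 61) (nat_lit 5) (nat_lit 402) (nat_lit 344) (nat_lit 274)) (XT.nd (nat_lit 78) (nat_lit 152) (nat_lit 0) (XT.lf (nat_lit 0) (nat_lit 25358030368) (nat_lit 228) (nat_lit 1046140141) (nat_lit 76) (nat_lit 2933314241) (nat_lit 58) (nat_lit 5) (nat_lit 61) (nat_lit 5) (nat_lit 59) (nat_lit 4) (nat_lit 403) (nat_lit 344) (nat_lit 273)) (XT.lf (nat_lit 0) (nat_lit 7993488538) (nat_lit 152) (nat_lit 4853999209) (nat_lit 76) (nat_lit 17517540092) (nat_lit 56) (nat_lit 5) (nat_lit 58) (nat_lit 5) (nat_lit 57) (nat_lit 5) (nat_lit 404) (nat_lit 344) (nat_lit 272)))) (XT.nd (nat_lit 78) (nat_lit 304)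 (nat_lit 0) (XT.lf (nat_lit 0) (nat_lit 20684032489) (nat_lit 228) (nat_lit 9157750580) (nat_lit 76) (nat_lit 1594948536) (nat_lit 54) (nat_lit 5) (nat_lit 57) (nat_lit 5) (nat_lit 55) (nat_lit 4) (nat_lit 405) (nat_lit 344) (nat_lit 271)) (XT.nd (nat_lit 78) (nat_lit 152) (nat_lit 0) (XT.lf (nat_lit 0) (nat_lit 1740222748) (nat_lit 152) (nat_lit 14102555669) (nat_lit 76) (nat_lit 16709186458) (nat_lit 52) (nat_lit 5) (nat_lit 54) (nat_lit 5) (nat_lit 53) (nat_lit 5) (nat_lit 406) (nat_lit 344) (nat_lit 270)) (XT.lf (nat_lit 0) (nat_lit 14000485165) (nat_lit 152) (nat_lit 828171413) (nat_lit 228) (nat_lit 18885314725) (nat_lit 50) (nat_lit 5) (nat_lit 52) (nat_lit 5) (nat_lit 53) (nat_lit 5) (nat_lit 407) (nat_lit 344) (nat_lit 269))))) (XT.nd (nat_lit 234) (nat_lit 608) (nat_lit 0) (XT.nd (nat_lit 78) (nat_lit 228) (nat_lit 0) (XT.lf (nat_lit 0) (nat_lit 8830766017) (nat_lit 76) (nat_lit 20078088596)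 (nat_lit 152) (nat_lit 6015105839) (nat_lit 49) (nat_lit 5) (nat_lit 50) (nat_lit 5) (nat_lit 51) (nat_lit 4) (nat_lit 408) (nat_lit 344) (nat_lit 268)) (XT.nd (nat_lit 78) (nat_lit 0) (nat_lit 0) (XT.lf (nat_lit 0) (nat_lit 2931666741) (nat_lit 152) (nat_lit 4625140701) (nat_lit 228) (nat_lit 28629346086) (nat_lit 46) (nat_lit 5) (nat_lit 48) (nat_lit 5) (nat_lit 49) (nat_lit 5) (nat_lit 409) (nat_lit 344) (nat_lit 267)) (XT.lf (nat_lit 0) (nat_lit 22030702361) (nat_lit 228) (nat_lit 3792956358) (nat_lit 76) (nat_lit 11675579601) (nat_lit 46) (nat_lit 5) (nat_lit 49) (nat_lit 5) (nat_lit 47) (nat_lit 4) (nat_lit 410) (nat_lit 344) (nat_lit 266)))) (XT.nd (nat_lit 156) (nat_lit 304) (nat_lit 0) (XT.nd (nat_lit 78) (nat_lit 228) (nat_lit 0) (XT.lf (nat_lit 0) (nat_lit 27568433812) (nat_lit 76) (nat_lit 9937121362) (nat_lit 152) (nat_lit 1364106529) (nat_lit 45) (nat_lit 5) (nat_lit 46) (nat_lit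 5) (nat_lit 47) (nat_lit 4) (nat_lit 411) (nat_lit 344) (nat_lit 265)) (XT.lf (nat_lit 0) (nat_lit 13453875773) (nat_lit 228) (nat_lit 19890478125) (nat_lit 76) (nat_lit 6952255954) (nat_lit 42) (nat_lit 5) (nat_lit 45) (nat_lit 5) (nat_lit 43) (nat_lit 4) (nat_lit 412) (nat_lit 344) (nat_lit 264))) (XT.nd (nat_lit 78) (nat_lit 228) (nat_lit 0) (XT.lf (nat_lit 0) (nat_lit 12204329642) (nat_lit 76) (nat_lit 17082597167) (nat_lit 152) (nat_lit 12498503953) (nat_lit 41) (nat_lit 5) (nat_lit 42) (nat_lit 5) (nat_lit 43) (nat_lit 4) (nat_lit 413) (nat_lit 344) (nat_lit 263)) (XT.lf (nat_lit 0) (nat_lit 2717943450) (nat_lit 228) (nat_lit 40397345215) (nat_lit 76) (nat_lit 226516247) (nat_lit 38) (nat_lit 5) (nat_lit 41) (nat_lit 5) (nat_lit 39) (nat_lit 4) (nat_lit 414) (nat_lit 344) (nat_lit 262))))))))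
noncomputable def xc57 : XT := (XT.nd (nat_lit 47970) (nat_lit 0) (nat_lit 10336) (XT.nd (nat_lit 936) (nat_lit 532) (nat_lit 0) (XT.nd (nat_lit 468) (nat_lit 456) (nat_lit 0) (XT.nd (nat_lit 234) (nat_lit 228) (nat_lit 0) (XT.nd (nat_lit 78) (nat_lit 228) (nat_lit 0) (XT.lf (nat_lit 0) (nat_lit 18887461432) (nat_lit 228) (nat_lit 7613983535) (nat_lit 76) (nat_lit 18457320022) (nat_lit 38) (nat_lit 5) (nat_lit 41) (nat_lit 5) (nat_lit 39) (nat_lit 4) (nat_lit 415) (nat_lit 344) (nat_lit 261)) (XT.nd (nat_lit 78) (nat_lit 152) (nat_lit 0) (XT.lf (nat_lit 0) (nat_lit 27283815077) (nat_lit 76) (nat_lit 8813802755) (nat_lit 152) (nat_lit 10551992020) (nat_lit 37) (nat_lit 5) (nat_lit 38) (nat_lit 5) (nat_lit 39) (nat_lit 4) (nat_lit 416) (nat_lit 344) (nat_lit 260)) (XT.lf (nat_lit 0) (nat_lit 5929717402) (nat_lit 152) (nat_lit 32653275115) (nat_lit 76) (nat_lit 9831394599) (nat_lit 35) (nat_lit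 5) (nat_lit 37) (nat_lit 5) (nat_lit 36) (nat_lit 4) (nat_lit 417) (nat_lit 344) (nat_lit 259)))) (XT.nd (nat_lit 78) (nat_lit 152) (nat_lit 0) (XT.lf (nat_lit 0) (nat_lit 2585554662) (nat_lit 76) (nat_lit 20720031762) (nat_lit 152) (nat_lit 26950034859) (nat_lit 34) (nat_lit 5) (nat_lit 35) (nat_lit 5) (nat_lit 36) (nat_lit 4) (nat_lit 418) (nat_lit 344) (nat_lit 258)) (XT.nd (nat_lit 78) (nat_lit 152) (nat_lit 0) (XT.lf (nat_lit 0) (nat_lit 40215171509) (nat_lit 76) (nat_lit 1643209673) (nat_lit 152) (nat_lit 10321293396) (nat_lit 34) (nat_lit 5) (nat_lit 35) (nat_lit 5) (nat_lit 36) (nat_lit 4) (nat_lit 419) (nat_lit 344) (nat_lit 257)) (XT.lf (nat_lit 0) (nat_lit 7401385016) (nat_lit 152) (nat_lit 28459021907) (nat_lit 76) (nat_lit 18325412045) (nat_lit 32) (nat_lit 5) (nat_lit 34) (nat_lit 5) (nat_lit 33) (nat_lit 4) (nat_lit 420) (nat_lit 344) (nat_lit 256))))) (XT.nd (nat_lit 234) (nat_lit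 228) (nat_lit 0) (XT.nd (nat_lit 78) (nat_lit 152) (nat_lit 0) (XT.lf (nat_lit 0) (nat_lit 9272488689) (nat_lit 76) (nat_lit 16729970329) (nat_lit 152) (nat_lit 30280575397) (nat_lit 31) (nat_lit 5) (nat_lit 32) (nat_lit 5) (nat_lit 33) (nat_lit 4) (nat_lit 421) (nat_lit 344) (nat_lit 255)) (XT.nd (nat_lit 78) (nat_lit 152) (nat_lit 0) (XT.lf (nat_lit 0) (nat_lit 45835910012) (nat_lit 152) (nat_lit 9075879869) (nat_lit 0) (nat_lit 3564252220) (nat_lit 31) (nat_lit 5) (nat_lit 33) (nat_lit 4) (nat_lit 31) (nat_lit 4) (nat_lit 422) (nat_lit 344) (nat_lit 254)) (XT.lf (nat_lit 0) (nat_lit 6215626446) (nat_lit 152) (nat_lit 29679182899) (nat_lit 76) (nat_lit 24868753208) (nat_lit 29) (nat_lit 5) (nat_lit 31) (nat_lit 5) (nat_lit 30) (nat_lit 4) (nat_lit 423) (nat_lit 344) (nat_lit 253)))) (XT.nd (nat_lit 78) (nat_lit 152) (nat_lit 0) (XT.lf (nat_lit 0) (nat_lit 10305822252) (nat_lit 76) (nat_lit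 15618695680) (nat_lit 152) (nat_lit 37232034759) (nat_lit 28) (nat_lit 5) (nat_lit 29) (nat_lit 5) (nat_lit 30) (nat_lit 4) (nat_lit 424) (nat_lit 344) (nat_lit 252)) (XT.nd (nat_lit 78) (nat_lit 152) (nat_lit 0) (XT.lf (nat_lit 0) (nat_lit 46958333003) (nat_lit 152) (nat_lit 12852875691) (nat_lit 0) (nat_lit 5847800248) (nat_lit 28) (nat_lit 5) (nat_lit 30) (nat_lit 4) (nat_lit 28) (nat_lit 4) (nat_lit 425) (nat_lit 344) (nat_lit 251)) (XT.lf (nat_lit 0) (nat_lit 1165568026) (nat_lit 152) (nat_lit 38765603574) (nat_lit 76) (nat_lit 28342506119) (nat_lit 26) (nat_lit 5) (nat_lit 28) (nat_lit 5) (nat_lit 27) (nat_lit 4) (nat_lit 426) (nat_lit 344) (nat_lit 250)))))) (XT.nd (nat_lit 468) (nat_lit 228) (nat_lit 0) (XT.nd (nat_lit 234) (nat_lit 152) (nat_lit 0) (XT.nd (nat_lit 78) (nat_lit 76) (nat_lit 0) (XT.lf (nat_lit 0) (nat_lit 3067733053) (nat_lit 76) (nat_lit 18715323770) (nat_lit 152) (nat_lit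 49226128576) (nat_lit 25) (nat_lit 5) (nat_lit 26) (nat_lit 5) (nat_lit 27) (nat_lit 4) (nat_lit 427) (nat_lit 344) (nat_lit 249)) (XT.nd (nat_lit 78) (nat_lit 76) (nat_lit 0) (XT.lf (nat_lit 0) (nat_lit 43847108173) (nat_lit 152) (nat_lit 26146702353) (nat_lit 0) (nat_lit 3875188114) (nat_lit 25) (nat_lit 5) (nat_lit 27) (nat_lit 4) (nat_lit 25) (nat_lit 4) (nat_lit 428) (nat_lit 344) (nat_lit 248)) (XT.lf (nat_lit 0) (nat_lit 17857498954) (nat_lit 76) (nat_lit 49496890839) (nat_lit 76) (nat_lit 9507212700) (nat_lit 24) (nat_lit 4) (nat_lit 25) (nat_lit 5) (nat_lit 25) (nat_lit 4) (nat_lit 429) (nat_lit 344) (nat_lit 247)))) (XT.nd (nat_lit 78) (nat_lit 76) (nat_lit 0) (XT.lf (nat_lit 0) (nat_lit 12050089688) (nat_lit 152) (nat_lit 15544908528) (nat_lit 76) (nat_lit 52397817878) (nat_lit 23) (nat_lit 5) (nat_lit 25) (nat_lit 5) (nat_lit 24) (nat_lit 4) (nat_lit 430) (nat_lit 344) (nat_lit 246))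 (XT.nd (nat_lit 78) (nat_lit 0) (nat_lit 0) (XT.lf (nat_lit 0) (nat_lit 30550183348) (nat_lit 76) (nat_lit 4214782683) (nat_lit 152) (nat_lit 48504511128) (nat_lit 22) (nat_lit 5) (nat_lit 23) (nat_lit 5) (nat_lit 24) (nat_lit 4) (nat_lit 431) (nat_lit 344) (nat_lit 245)) (XT.lf (nat_lit 0) (nat_lit 58953892213) (nat_lit 152) (nat_lit 7663919679) (nat_lit 0) (nat_lit 20082010861) (nat_lit 22) (nat_lit 5) (nat_lit 24) (nat_lit 4) (nat_lit 22) (nat_lit 4) (nat_lit 432) (nat_lit 344) (nat_lit 244))))) (XT.nd (nat_lit 46254) (nat_lit 0) (nat_lit 25384) (XT.nd (nat_lit 78) (nat_lit 152) (nat_lit 0) (XT.lf (nat_lit 0) (nat_lit 40354311501) (nat_lit 76) (nat_lit 44410531423) (nat_lit 76) (nat_lit 5524465978) (nat_lit 21) (nat_lit 4) (nat_lit 22) (nat_lit 5) (nat_lit 22) (nat_lit 4) (nat_lit 433) (nat_lit 344) (nat_lit 243)) (XT.nd (nat_lit 156) (nat_lit 76) (nat_lit 0) (XT.lf (nat_lit 0) (nat_lit 17522727229)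 (nat_lit 152) (nat_lit 3328437830) (nat_lit 76) (nat_lit 73200104765) (nat_lit 20) (nat_lit 5) (nat_lit 22) (nat_lit 5) (nat_lit 21) (nat_lit 4) (nat_lit 434) (nat_lit 344) (nat_lit 242)) (XT.lf (nat_lit 0) (nat_lit 68095600425) (nat_lit 152) (nat_lit 3709350604) (nat_lit 0) (nat_lit 30304637076) (nat_lit 19) (nat_lit 5) (nat_lit 21) (nat_lit 4) (nat_lit 19) (nat_lit 4) (nat_lit 436) (nat_lit 344) (nat_lit 240)))) (XT.nd (nat_lit 156) (nat_lit 608) (nat_lit 0) (XT.nd (nat_lit 78) (nat_lit 684) (nat_lit 0) (XT.lf (nat_lit 0) (nat_lit 1074002198) (nat_lit 0) (nat_lit 1074002198) (nat_lit 532) (nat_lit 1218104724) (nat_lit 370) (nat_lit 5) (nat_lit 370) (nat_lit 3) (nat_lit 377) (nat_lit 3) (nat_lit 345) (nat_lit 345) (nat_lit 330)) (XT.lf (nat_lit 76) (nat_lit 918792869) (nat_lit 0) (nat_lit 136512684) (nat_lit 684) (nat_lit 5739192753) (nat_lit 362) (nat_lit 5) (nat_lit 361) (nat_lit 3) (nat_lit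 370) (nat_lit 5) (nat_lit 346) (nat_lit 345) (nat_lit 329))) (XT.nd (nat_lit 78) (nat_lit 684) (nat_lit 0) (XT.lf (nat_lit 0) (nat_lit 4514314535) (nat_lit 608) (nat_lit 235217560) (nat_lit 684) (nat_lit 2114442210) (nat_lit 362) (nat_lit 5) (nat_lit 370) (nat_lit 5) (nat_lit 371) (nat_lit 5) (nat_lit 347) (nat_lit 345) (nat_lit 328)) (XT.lf (nat_lit 0) (nat_lit 1026892078) (nat_lit 684) (nat_lit 1274574691) (nat_lit 760) (nat_lit 4639971113) (nat_lit 353) (nat_lit 5) (nat_lit 362) (nat_lit 5) (nat_lit 363) (nat_lit 5) (nat_lit 348) (nat_lit 345) (nat_lit 327))))))) (XT.nd (nat_lit 936) (nat_lit 7296) (nat_lit 0) (XT.nd (nat_lit 468) (nat_lit 5548) (nat_lit 0) (XT.nd (nat_lit 234) (nat_lit 1520) (nat_lit 0) (XT.nd (nat_lit 78) (nat_lit 760) (nat_lit 0) (XT.lf (nat_lit 0) (nat_lit 4370567765) (nat_lit 684) (nat_lit 2235147032) (nat_lit 760) (nat_lit 421047348) (nat_lit 354) (nat_lit 5) (nat_lit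 363) (nat_lit 5) (nat_lit 364) (nat_lit 5) (nat_lit 349) (nat_lit 345) (nat_lit 326)) (XT.nd (nat_lit 78) (nat_lit 0) (nat_lit 0) (XT.lf (nat_lit 0) (nat_lit 627051162) (nat_lit 760) (nat_lit 3123281572) (nat_lit 836) (nat_lit 3369577285) (nat_lit 344) (nat_lit 5) (nat_lit 354) (nat_lit 5) (nat_lit 355) (nat_lit 5) (nat_lit 350) (nat_lit 345) (nat_lit 325)) (XT.lf (nat_lit 76) (nat_lit 3282784491) (nat_lit 0) (nat_lit 601549935) (nat_lit 836) (nat_lit 3336728751) (nat_lit 345) (nat_lit 5) (nat_lit 344) (nat_lit 5) (nat_lit 355) (nat_lit 5) (nat_lit 351) (nat_lit 345) (nat_lit 324)))) (XT.nd (nat_lit 78) (nat_lit 1596) (nat_lit 0) (XT.lf (nat_lit 76) (nat_lit 2646932151) (nat_lit 0) (nat_lit 4559480744) (nat_lit 836) (nat_lit 123880451) (nat_lit 346) (nat_lit 5) (nat_lit 345) (nat_lit 5) (nat_lit 356) (nat_lit 5) (nat_lit 352) (nat_lit 345) (nat_lit 323)) (XT.nd (nat_lit 78) (nat_lit 760) (nat_lit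 0) (XT.lf (nat_lit 76) (nat_lit 2076271314) (nat_lit 0) (nat_lit 1000602883) (nat_lit 912) (nat_lit 4370524903) (nat_lit 335) (nat_lit 5) (nat_lit 334) (nat_lit 5) (nat_lit 346) (nat_lit 5) (nat_lit 353) (nat_lit 345) (nat_lit 322)) (XT.lf (nat_lit 0) (nat_lit 1577159220) (nat_lit 836) (nat_lit 4779482181) (nat_lit 912) (nat_lit 1216103896) (nat_lit 324) (nat_lit 5) (nat_lit 335) (nat_lit 5) (nat_lit 336) (nat_lit 5) (nat_lit 354) (nat_lit 345) (nat_lit 321))))) (XT.nd (nat_lit 234) (nat_lit 2432) (nat_lit 0) (XT.nd (nat_lit 78) (nat_lit 2128) (nat_lit 0) (XT.lf (nat_lit 0) (nat_lit 1145904779) (nat_lit 912) (nat_lit 822712514) (nat_lit 988) (nat_lit 5737795576) (nat_lit 311) (nat_lit 5) (nat_lit 323) (nat_lit 5) (nat_lit 324) (nat_lit 5) (nat_lit 355) (nat_lit 345) (nat_lit 320)) (XT.nd (nat_lit 78) (nat_lit 1140) (nat_lit 0) (XT.lf (nat_lit 0) (nat_lit 765400054) (nat_lit 988) (nat_lit 4467401943)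 (nat_lit 1064) (nat_lit 2615299184) (nat_lit 298) (nat_lit 5) (nat_lit 311) (nat_lit 5) (nat_lit 312) (nat_lit 5) (nat_lit 356) (nat_lit 345) (nat_lit 319)) (XT.lf (nat_lit 0) (nat_lit 464734293) (nat_lit 1064) (nat_lit 114749456) (nat_lit 1140) (nat_lit 7419381124) (nat_lit 283) (nat_lit 5) (nat_lit 297) (nat_lit 5) (nat_lit 298) (nat_lit 5) (nat_lit 357) (nat_lit 345) (nat_lit 318)))) (XT.nd (nat_lit 78) (nat_lit 1292) (nat_lit 0) (XT.lf (nat_lit 0) (nat_lit 186490195) (nat_lit 1140) (nat_lit 3666542986) (nat_lit 1216) (nat_lit 4304216049) (nat_lit 268) (nat_lit 5) (nat_lit 283) (nat_lit 5) (nat_lit 284) (nat_lit 5) (nat_lit 358) (nat_lit 345) (nat_lit 317)) (XT.nd (nat_lit 78) (nat_lit 1292) (nat_lit 0) (XT.lf (nat_lit 0) (nat_lit 7239565810) (nat_lit 1216) (nat_lit 12607316) (nat_lit 76) (nat_lit 1072950771) (nat_lit 268) (nat_lit 5) (nat_lit 284) (nat_lit 5) (nat_lit 269) (nat_lit 5) (nat_lit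 359) (nat_lit 345) (nat_lit 316)) (XT.lf (nat_lit 0) (nat_lit 2233160949) (nat_lit 1292) (nat_lit 178744701) (nat_lit 76) (nat_lit 6089354784) (nat_lit 251) (nat_lit 5) (nat_lit 268) (nat_lit 5) (nat_lit 252) (nat_lit 5) (nat_lit 360) (nat_lit 345) (nat_lit 315)))))) (XT.nd (nat_lit 468) (nat_lit 3724) (nat_lit 0) (XT.nd (nat_lit 234) (nat_lit 1596) (nat_lit 0) (XT.nd (nat_lit 78) (nat_lit 1292) (nat_lit 0) (XT.lf (nat_lit 0) (nat_lit 5674006525) (nat_lit 760) (nat_lit 295504391) (nat_lit 76) (nat_lit 2717055454) (nat_lit 242) (nat_lit 5) (nat_lit 252) (nat_lit 5) (nat_lit 243) (nat_lit 5) (nat_lit 361) (nat_lit 345) (nat_lit 314)) (XT.nd (nat_lit 78) (nat_lit 608) (nat_lit 0) (XT.lf (nat_lit 0) (nat_lit 381630088) (nat_lit 684) (nat_lit 354846198) (nat_lit 76) (nat_lit 8145071498) (nat_lit 233) (nat_lit 5) (nat_lit 242) (nat_lit 5) (nat_lit 234) (nat_lit 5) (nat_lit 362) (nat_lit 345) (nat_lit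 313)) (XT.lf (nat_lit 0) (nat_lit 3896980466) (nat_lit 684) (nat_lit 405882431) (nat_lit 76) (nat_lit 4782146873) (nat_lit 225) (nat_lit 5) (nat_lit 234) (nat_lit 5) (nat_lit 226) (nat_lit 5) (nat_lit 363) (nat_lit 345) (nat_lit 312)))) (XT.nd (nat_lit 78) (nat_lit 1064) (nat_lit 0) (XT.lf (nat_lit 0) (nat_lit 7581813264) (nat_lit 608) (nat_lit 394434813) (nat_lit 76) (nat_lit 1322622451) (nat_lit 218) (nat_lit 5) (nat_lit 226) (nat_lit 5) (nat_lit 219) (nat_lit 5) (nat_lit 364) (nat_lit 345) (nat_lit 311)) (XT.nd (nat_lit 78) (nat_lit 456) (nat_lit 0) (XT.lf (nat_lit 0) (nat_lit 1914155927) (nat_lit 608) (nat_lit 362653468) (nat_lit 76) (nat_lit 7245364287) (nat_lit 210) (nat_lit 5) (nat_lit 218) (nat_lit 5) (nat_lit 211) (nat_lit 5) (nat_lit 365) (nat_lit 345) (nat_lit 310)) (XT.lf (nat_lit 0) (nat_lit 5715009397) (nat_lit 532) (nat_lit 303425726) (nat_lit 76) (nat_lit 3737021815) (nat_lit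 204) (nat_lit 5) (nat_lit 211) (nat_lit 5) (nat_lit 205) (nat_lit 5) (nat_lit 366) (nat_lit 345) (nat_lit 309))))) (XT.nd (nat_lit 234) (nat_lit 1748) (nat_lit 0) (XT.nd (nat_lit 78) (nat_lit 1444) (nat_lit 0) (XT.lf (nat_lit 0) (nat_lit 9723076430) (nat_lit 608) (nat_lit 188133639) (nat_lit 76) (nat_lit 88710293) (nat_lit 197) (nat_lit 5) (nat_lit 205) (nat_lit 5) (nat_lit 198) (nat_lit 5) (nat_lit 367) (nat_lit 345) (nat_lit 308)) (XT.nd (nat_lit 78) (nat_lit 912) (nat_lit 0) (XT.lf (nat_lit 0) (nat_lit 3664693491) (nat_lit 532) (nat_lit 89835271) (nat_lit 76) (nat_lit 6499203261) (nat_lit 190) (nat_lit 5) (nat_lit 197) (nat_lit 5) (nat_lit 191) (nat_lit 5) (nat_lit 368) (nat_lit 345) (nat_lit 307)) (XT.lf (nat_lit 0) (nat_lit 57048136) (nat_lit 456) (nat_lit 7773559919) (nat_lit 532) (nat_lit 2688580623) (nat_lit 178) (nat_lit 5) (nat_lit 184) (nat_lit 5) (nat_lit 185) (nat_lit 5) (nat_lit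 369) (nat_lit 345) (nat_lit 306)))) (XT.nd (nat_lit 156) (nat_lit 836) (nat_lit 0) (XT.nd (nat_lit 78) (nat_lit 380) (nat_lit 0) (XT.lf (nat_lit 0) (nat_lit 231017651) (nat_lit 456) (nat_lit 1199923517) (nat_lit 532) (nat_lit 9365051789) (nat_lit 171) (nat_lit 5) (nat_lit 177) (nat_lit 5) (nat_lit 178) (nat_lit 5) (nat_lit 370) (nat_lit 345) (nat_lit 305)) (XT.lf (nat_lit 0) (nat_lit 397612761) (nat_lit 380) (nat_lit 5377270232) (nat_lit 456) (nat_lit 5308758574) (nat_lit 166) (nat_lit 5) (nat_lit 171) (nat_lit 5) (nat_lit 172) (nat_lit 5) (nat_lit 371) (nat_lit 345) (nat_lit 304))) (XT.nd (nat_lit 78) (nat_lit 456) (nat_lit 0) (XT.lf (nat_lit 0) (nat_lit 610473007) (nat_lit 380) (nat_lit 9777329888) (nat_lit 456) (nat_lit 996339276) (nat_lit 161) (nat_lit 5) (nat_lit 166) (nat_lit 5) (nat_lit 167) (nat_lit 5) (nat_lit 372) (nat_lit 345) (nat_lit 303)) (XT.lf (nat_lit 0) (nat_lit 806642513) (nat_lit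 380) (nat_lit 2740781745) (nat_lit 456) (nat_lit 8148707158) (nat_lit 155) (nat_lit 5) (nat_lit 160) (nat_lit 5) (nat_lit 161) (nat_lit 5) (nat_lit 373) (nat_lit 345) (nat_lit 302))))))))
noncomputable def xc58 : XT := (XT.nd (nat_lit 1950) (nat_lit 2964) (nat_lit 0) (XT.nd (nat_lit 936) (nat_lit 2584) (nat_lit 0) (XT.nd (nat_lit 468) (nat_lit 1748) (nat_lit 0) (XT.nd (nat_lit 234) (nat_lit 988) (nat_lit 0) (XT.nd (nat_lit 78) (nat_lit 760) (nat_lit 0) (XT.lf (nat_lit 0) (nat_lit 1017313740) (nat_lit 380) (nat_lit 7361445772) (nat_lit 456) (nat_lit 3642255237) (nat_lit 150) (nat_lit 5) (nat_lit 155) (nat_lit 5) (nat_lit 156) (nat_lit 5) (nat_lit 374) (nat_lit 345) (nat_lit 301)) (XT.nd (nat_lit 78) (nat_lit 380) (nat_lit 0) (XT.lf (nat_lit 0) (nat_lit 1138859795) (nat_lit 380) (nat_lit 11103122111) (nat_lit 76) (nat_lit 117746841) (nat_lit 145) (nat_lit 5) (nat_lit 150) (nat_lit 5) (nat_lit 146)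 (nat_lit 5) (nat_lit 375) (nat_lit 345) (nat_lit 300)) (XT.lf (nat_lit 0) (nat_lit 1449443030) (nat_lit 380) (nat_lit 4756664568) (nat_lit 456) (nat_lit 6504534687) (nat_lit 140) (nat_lit 5) (nat_lit 145) (nat_lit 5) (nat_lit 146) (nat_lit 5) (nat_lit 376) (nat_lit 345) (nat_lit 299)))) (XT.nd (nat_lit 78) (nat_lit 684) (nat_lit 0) (XT.lf (nat_lit 0) (nat_lit 1674391143) (nat_lit 304) (nat_lit 9935218628) (nat_lit 380) (nat_lit 1467021952) (nat_lit 136) (nat_lit 5) (nat_lit 140) (nat_lit 5) (nat_lit 141) (nat_lit 5) (nat_lit 377) (nat_lit 345) (nat_lit 298)) (XT.nd (nat_lit 78) (nat_lit 304) (nat_lit 0) (XT.lf (nat_lit 0) (nat_lit 1873704956) (nat_lit 304) (nat_lit 1980619619) (nat_lit 380) (nat_lit 9602313083) (nat_lit 131) (nat_lit 5) (nat_lit 135) (nat_lit 5) (nat_lit 136) (nat_lit 5) (nat_lit 378) (nat_lit 345) (nat_lit 297)) (XT.lf (nat_lit 0) (nat_lit 2052120773) (nat_lit 304) (nat_lit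 7484797473) (nat_lit 380) (nat_lit 4314539248) (nat_lit 127) (nat_lit 5) (nat_lit 131) (nat_lit 5) (nat_lit 132) (nat_lit 5) (nat_lit 379) (nat_lit 345) (nat_lit 296))))) (XT.nd (nat_lit 234) (nat_lit 836) (nat_lit 0) (XT.nd (nat_lit 78) (nat_lit 532) (nat_lit 0) (XT.lf (nat_lit 0) (nat_lit 1312134093) (nat_lit 380) (nat_lit 12021310295) (nat_lit 76) (nat_lit 929271016) (nat_lit 122) (nat_lit 5) (nat_lit 127) (nat_lit 5) (nat_lit 123) (nat_lit 5) (nat_lit 380) (nat_lit 345) (nat_lit 295)) (XT.nd (nat_lit 78) (nat_lit 304) (nat_lit 0) (XT.lf (nat_lit 0) (nat_lit 2358326409) (nat_lit 228) (nat_lit 4923899597) (nat_lit 304) (nat_lit 7406502342) (nat_lit 119) (nat_lit 5) (nat_lit 122) (nat_lit 5) (nat_lit 123) (nat_lit 5) (nat_lit 381) (nat_lit 345) (nat_lit 294)) (XT.lf (nat_lit 0) (nat_lit 2479545180) (nat_lit 304) (nat_lit 11189242340) (nat_lit 380) (nat_lit 1463728010) (nat_lit 115) (nat_lit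 5) (nat_lit 119) (nat_lit 5) (nat_lit 120) (nat_lit 5) (nat_lit 382) (nat_lit 345) (nat_lit 293)))) (XT.nd (nat_lit 78) (nat_lit 532) (nat_lit 0) (XT.lf (nat_lit 0) (nat_lit 2541504692) (nat_lit 228) (nat_lit 2277005407) (nat_lit 304) (nat_lit 10774550453) (nat_lit 111) (nat_lit 5) (nat_lit 114) (nat_lit 5) (nat_lit 115) (nat_lit 5) (nat_lit 383) (nat_lit 345) (nat_lit 292)) (XT.nd (nat_lit 78) (nat_lit 304) (nat_lit 0) (XT.lf (nat_lit 0) (nat_lit 2550216160) (nat_lit 228) (nat_lit 8993838818) (nat_lit 304) (nat_lit 4527370109) (nat_lit 108) (nat_lit 5) (nat_lit 111) (nat_lit 5) (nat_lit 112) (nat_lit 5) (nat_lit 384) (nat_lit 345) (nat_lit 291)) (XT.lf (nat_lit 0) (nat_lit 2116269721) (nat_lit 304) (nat_lit 14033934718) (nat_lit 76) (nat_lit 419214927) (nat_lit 104) (nat_lit 5) (nat_lit 108) (nat_lit 5) (nat_lit 105) (nat_lit 5) (nat_lit 385) (nat_lit 345) (nat_lit 290)))))) (XT.nd (nat_lit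 468) (nat_lit 1216) (nat_lit 0) (XT.nd (nat_lit 234) (nat_lit 608) (nat_lit 0) (XT.nd (nat_lit 78) (nat_lit 532) (nat_lit 0) (XT.lf (nat_lit 0) (nat_lit 2398654319) (nat_lit 228) (nat_lit 6793363239) (nat_lit 304) (nat_lit 7893153995) (nat_lit 101) (nat_lit 5) (nat_lit 104) (nat_lit 5) (nat_lit 105) (nat_lit 5) (nat_lit 386) (nat_lit 345) (nat_lit 289)) (XT.nd (nat_lit 78) (nat_lit 304) (nat_lit 0) (XT.lf (nat_lit 0) (nat_lit 2238562320) (nat_lit 228) (nat_lit 14519482626) (nat_lit 304) (nat_lit 864580900) (nat_lit 98) (nat_lit 5) (nat_lit 101) (nat_lit 5) (nat_lit 102) (nat_lit 5) (nat_lit 387) (nat_lit 345) (nat_lit 288)) (XT.lf (nat_lit 0) (nat_lit 1942929970) (nat_lit 228) (nat_lit 4626572397) (nat_lit 304) (nat_lit 11610143519) (nat_lit 94) (nat_lit 5) (nat_lit 97) (nat_lit 5) (nat_lit 98) (nat_lit 5) (nat_lit 388) (nat_lit 345) (nat_lit 287)))) (XT.nd (nat_lit 78) (nat_lit 456) (nat_lit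 0) (XT.lf (nat_lit 0) (nat_lit 1567648982) (nat_lit 152) (nat_lit 12963138621) (nat_lit 228) (nat_lit 4228279318) (nat_lit 92) (nat_lit 5) (nat_lit 94) (nat_lit 5) (nat_lit 95) (nat_lit 5) (nat_lit 389) (nat_lit 345) (nat_lit 286)) (XT.nd (nat_lit 78) (nat_lit 152) (nat_lit 0) (XT.lf (nat_lit 0) (nat_lit 1084385965) (nat_lit 228) (nat_lit 2539579616) (nat_lit 304) (nat_lit 15737384276) (nat_lit 88) (nat_lit 5) (nat_lit 91) (nat_lit 5) (nat_lit 92) (nat_lit 5) (nat_lit 390) (nat_lit 345) (nat_lit 285)) (XT.lf (nat_lit 0) (nat_lit 435833456) (nat_lit 152) (nat_lit 11555604490) (nat_lit 228) (nat_lit 7994758375) (nat_lit 86) (nat_lit 5) (nat_lit 88) (nat_lit 5) (nat_lit 89) (nat_lit 5) (nat_lit 391) (nat_lit 345) (nat_lit 284))))) (XT.nd (nat_lit 234) (nat_lit 760) (nat_lit 0) (XT.nd (nat_lit 78) (nat_lit 380) (nat_lit 0) (XT.lf (nat_lit 0) (nat_lit 294750344) (nat_lit 228) (nat_lit 289889701) (nat_lit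 76) (nat_lit 20052741200) (nat_lit 85) (nat_lit 5) (nat_lit 88) (nat_lit 5) (nat_lit 86) (nat_lit 5) (nat_lit 392) (nat_lit 345) (nat_lit 283)) (XT.nd (nat_lit 78) (nat_lit 152) (nat_lit 0) (XT.lf (nat_lit 0) (nat_lit 9085486579) (nat_lit 304) (nat_lit 1261943213) (nat_lit 76) (nat_lit 10963764389) (nat_lit 82) (nat_lit 5) (nat_lit 86) (nat_lit 5) (nat_lit 83) (nat_lit 5) (nat_lit 393) (nat_lit 345) (nat_lit 282)) (XT.lf (nat_lit 0) (nat_lit 18476206241) (nat_lit 228) (nat_lit 2339986497) (nat_lit 76) (nat_lit 1197697653) (nat_lit 80) (nat_lit 5) (nat_lit 83) (nat_lit 5) (nat_lit 81) (nat_lit 5) (nat_lit 394) (nat_lit 345) (nat_lit 281)))) (XT.nd (nat_lit 156) (nat_lit 380) (nat_lit 0) (XT.nd (nat_lit 78) (nat_lit 152) (nat_lit 0) (XT.lf (nat_lit 0) (nat_lit 5731362033) (nat_lit 228) (nat_lit 3683966234) (nat_lit 76) (nat_lit 13327120197) (nat_lit 77) (nat_lit 5) (nat_lit 80) (nat_lit 5) (nat_lit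 78) (nat_lit 5) (nat_lit 395) (nat_lit 345) (nat_lit 280)) (XT.lf (nat_lit 0) (nat_lit 15571087292) (nat_lit 228) (nat_lit 5220197056) (nat_lit 76) (nat_lit 2709692855) (nat_lit 75) (nat_lit 5) (nat_lit 78) (nat_lit 5) (nat_lit 76) (nat_lit 5) (nat_lit 396) (nat_lit 345) (nat_lit 279))) (XT.nd (nat_lit 78) (nat_lit 152) (nat_lit 0) (XT.lf (nat_lit 0) (nat_lit 1830012418) (nat_lit 228) (nat_lit 7022348595) (nat_lit 76) (nat_lit 15436934145) (nat_lit 72) (nat_lit 5) (nat_lit 75) (nat_lit 5) (nat_lit 73) (nat_lit 5) (nat_lit 397) (nat_lit 345) (nat_lit 278)) (XT.lf (nat_lit 0) (nat_lit 12116642450) (nat_lit 228) (nat_lit 9122921141) (nat_lit 76) (nat_lit 3869032632) (nat_lit 70) (nat_lit 5) (nat_lit 73) (nat_lit 5) (nat_lit 71) (nat_lit 5) (nat_lit 398) (nat_lit 345) (nat_lit 277))))))) (XT.nd (nat_lit 936) (nat_lit 1140) (nat_lit 0) (XT.nd (nat_lit 468) (nat_lit 836) (nat_lit 0) (XT.nd (nat_lit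 234) (nat_lit 456) (nat_lit 0) (XT.nd (nat_lit 78) (nat_lit 380) (nat_lit 0) (XT.lf (nat_lit 0) (nat_lit 14437603507) (nat_lit 152) (nat_lit 8737185853) (nat_lit 228) (nat_lit 2786361869) (nat_lit 68) (nat_lit 5) (nat_lit 70) (nat_lit 5) (nat_lit 71) (nat_lit 5) (nat_lit 399) (nat_lit 345) (nat_lit 276)) (XT.nd (nat_lit 78) (nat_lit 152) (nat_lit 0) (XT.lf (nat_lit 0) (nat_lit 7992544300) (nat_lit 228) (nat_lit 14288363387) (nat_lit 76) (nat_lit 4566610674) (nat_lit 65) (nat_lit 5) (nat_lit 68) (nat_lit 5) (nat_lit 66) (nat_lit 5) (nat_lit 400) (nat_lit 345) (nat_lit 275)) (XT.lf (nat_lit 0) (nat_lit 10320493876) (nat_lit 152) (nat_lit 9198003732) (nat_lit 228) (nat_lit 8250910687) (nat_lit 63) (nat_lit 5) (nat_lit 65) (nat_lit 5) (nat_lit 66) (nat_lit 5) (nat_lit 401) (nat_lit 345) (nat_lit 274)))) (XT.nd (nat_lit 78) (nat_lit 228) (nat_lit 0) (XT.lf (nat_lit 0) (nat_lit 3055045336) (nat_lit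 228) (nat_lit 21003203776) (nat_lit 76) (nat_lit 4671477113) (nat_lit 60) (nat_lit 5) (nat_lit 63) (nat_lit 5) (nat_lit 61) (nat_lit 5) (nat_lit 402) (nat_lit 345) (nat_lit 273)) (XT.nd (nat_lit 78) (nat_lit 76) (nat_lit 0) (XT.lf (nat_lit 0) (nat_lit 4632202503) (nat_lit 152) (nat_lit 10403648437) (nat_lit 228) (nat_lit 14691356000) (nat_lit 58) (nat_lit 5) (nat_lit 60) (nat_lit 5) (nat_lit 61) (nat_lit 5) (nat_lit 403) (nat_lit 345) (nat_lit 272)) (XT.lf (nat_lit 0) (nat_lit 1130560155) (nat_lit 76) (nat_lit 26712933111) (nat_lit 152) (nat_lit 2924237817) (nat_lit 57) (nat_lit 5) (nat_lit 58) (nat_lit 5) (nat_lit 59) (nat_lit 4) (nat_lit 404) (nat_lit 345) (nat_lit 271))))) (XT.nd (nat_lit 234) (nat_lit 456) (nat_lit 0) (XT.nd (nat_lit 78) (nat_lit 304) (nat_lit 0) (XT.lf (nat_lit 0) (nat_lit 9574678440) (nat_lit 152) (nat_lit 2929406909) (nat_lit 76) (nat_lit 19343654971) (nat_lit 56) (nat_lit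 5) (nat_lit 58) (nat_lit 5) (nat_lit 57) (nat_lit 5) (nat_lit 405) (nat_lit 345) (nat_lit 270)) (XT.nd (nat_lit 78) (nat_lit 152) (nat_lit 0) (XT.lf (nat_lit 0) (nat_lit 22872948117) (nat_lit 228) (nat_lit 7485242192) (nat_lit 76) (nat_lit 2615647457) (nat_lit 54) (nat_lit 5) (nat_lit 57) (nat_lit 5) (nat_lit 55) (nat_lit 4) (nat_lit 406) (nat_lit 345) (nat_lit 269)) (XT.lf (nat_lit 0) (nat_lit 2958021605) (nat_lit 152) (nat_lit 12715767723) (nat_lit 76) (nat_lit 18471767868) (nat_lit 52) (nat_lit 5) (nat_lit 54) (nat_lit 5) (nat_lit 53) (nat_lit 5) (nat_lit 407) (nat_lit 345) (nat_lit 268)))) (XT.nd (nat_lit 78) (nat_lit 304) (nat_lit 0) (XT.lf (nat_lit 0) (nat_lit 16667195908) (nat_lit 228) (nat_lit 18634869952) (nat_lit 76) (nat_lit 64612440) (nat_lit 50) (nat_lit 5) (nat_lit 53) (nat_lit 5) (nat_lit 51) (nat_lit 4) (nat_lit 408) (nat_lit 345) (nat_lit 267)) (XT.nd (nat_lit 78) (nat_lit 228)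 (nat_lit 0) (XT.lf (nat_lit 0) (nat_lit 11269303011) (nat_lit 76) (nat_lit 20157014930) (nat_lit 152) (nat_lit 5211605275) (nat_lit 49) (nat_lit 5) (nat_lit 50) (nat_lit 5) (nat_lit 51) (nat_lit 4) (nat_lit 409) (nat_lit 345) (nat_lit 266)) (XT.lf (nat_lit 0) (nat_lit 5039005933) (nat_lit 152) (nat_lit 3945640195) (nat_lit 228) (nat_lit 28979246110) (nat_lit 46) (nat_lit 5) (nat_lit 48) (nat_lit 5) (nat_lit 49) (nat_lit 5) (nat_lit 410) (nat_lit 345) (nat_lit 265)))))) (XT.nd (nat_lit 468) (nat_lit 532) (nat_lit 0) (XT.nd (nat_lit 234) (nat_lit 304) (nat_lit 0) (XT.nd (nat_lit 78) (nat_lit 304) (nat_lit 0) (XT.lf (nat_lit 0) (nat_lit 24140573739) (nat_lit 228) (nat_lit 2093489831) (nat_lit 76) (nat_lit 13109820849) (nat_lit 46) (nat_lit 5) (nat_lit 49) (nat_lit 5) (nat_lit 47) (nat_lit 4) (nat_lit 411) (nat_lit 345) (nat_lit 264)) (XT.nd (nat_lit 78) (nat_lit 228) (nat_lit 0) (XT.lf (nat_lit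 0) (nat_lit 30781818764) (nat_lit 76) (nat_lit 9576973205) (nat_lit 152) (nat_lit 424951448) (nat_lit 45) (nat_lit 5) (nat_lit 46) (nat_lit 5) (nat_lit 47) (nat_lit 4) (nat_lit 412) (nat_lit 345) (nat_lit 263)) (XT.lf (nat_lit 0) (nat_lit 15092665069) (nat_lit 228) (nat_lit 19062795867) (nat_lit 76) (nat_lit 8126938661) (nat_lit 42) (nat_lit 5) (nat_lit 45) (nat_lit 5) (nat_lit 43) (nat_lit 4) (nat_lit 413) (nat_lit 345) (nat_lit 262)))) (XT.nd (nat_lit 78) (nat_lit 228) (nat_lit 0) (XT.lf (nat_lit 0) (nat_lit 14584519115) (nat_lit 76) (nat_lit 17103859058) (nat_lit 152) (nat_lit 12158155851) (nat_lit 41) (nat_lit 5) (nat_lit 42) (nat_lit 5) (nat_lit 43) (nat_lit 4) (nat_lit 414) (nat_lit 345) (nat_lit 261)) (XT.nd (nat_lit 78) (nat_lit 0) (nat_lit 0) (XT.lf (nat_lit 0) (nat_lit 3779789913) (nat_lit 228) (nat_lit 40659911934) (nat_lit 76) (nat_lit 1041363860) (nat_lit 38) (nat_lit 5) (nat_lit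 41) (nat_lit 5) (nat_lit 39) (nat_lit 4) (nat_lit 415) (nat_lit 345) (nat_lit 260)) (XT.lf (nat_lit 0) (nat_lit 20713690971) (nat_lit 228) (nat_lit 6321063148) (nat_lit 76) (nat_lit 20145444881) (nat_lit 38) (nat_lit 5) (nat_lit 41) (nat_lit 5) (nat_lit 39) (nat_lit 4) (nat_lit 416) (nat_lit 345) (nat_lit 259))))) (XT.nd (nat_lit 234) (nat_lit 228) (nat_lit 0) (XT.nd (nat_lit 78) (nat_lit 228) (nat_lit 0) (XT.lf (nat_lit 0) (nat_lit 30273651425) (nat_lit 76) (nat_lit 8484337301) (nat_lit 152) (nat_lit 10198390686) (nat_lit 37) (nat_lit 5) (nat_lit 38) (nat_lit 5) (nat_lit 39) (nat_lit 4) (nat_lit 417) (nat_lit 345) (nat_lit 258)) (XT.nd (nat_lit 78) (nat_lit 76) (nat_lit 0) (XT.lf (nat_lit 0) (nat_lit 7071687846) (nat_lit 152) (nat_lit 32672239593) (nat_lit 76) (nat_lit 11065771748) (nat_lit 35) (nat_lit 5) (nat_lit 37) (nat_lit 5) (nat_lit 36) (nat_lit 4) (nat_lit 418) (nat_lit 345) (nat_lit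 257)) (XT.lf (nat_lit 0) (nat_lit 4282275307) (nat_lit 76) (nat_lit 21008881062) (nat_lit 152) (nat_lit 27452596547) (nat_lit 34) (nat_lit 5) (nat_lit 35) (nat_lit 5) (nat_lit 36) (nat_lit 4) (nat_lit 419) (nat_lit 345) (nat_lit 256)))) (XT.nd (nat_lit 156) (nat_lit 76) (nat_lit 0) (XT.nd (nat_lit 78) (nat_lit 152) (nat_lit 0) (XT.lf (nat_lit 0) (nat_lit 43718732858) (nat_lit 76) (nat_lit 1013796549) (nat_lit 152) (nat_lit 10032653252) (nat_lit 34) (nat_lit 5) (nat_lit 35) (nat_lit 5) (nat_lit 36) (nat_lit 4) (nat_lit 420) (nat_lit 345) (nat_lit 255)) (XT.lf (nat_lit 0) (nat_lit 8543696994) (nat_lit 152) (nat_lit 28400397411) (nat_lit 76) (nat_lit 19927812378) (nat_lit 32) (nat_lit 5) (nat_lit 34) (nat_lit 5) (nat_lit 33) (nat_lit 4) (nat_lit 421) (nat_lit 345) (nat_lit 254))) (XT.nd (nat_lit 78) (nat_lit 0) (nat_lit 0) (XT.lf (nat_lit 0) (nat_lit 11175219649) (nat_lit 76) (nat_lit 16876665157)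 (nat_lit 152) (nat_lit 31022788100) (nat_lit 31) (nat_lit 5) (nat_lit 32) (nat_lit 5) (nat_lit 33) (nat_lit 4) (nat_lit 422) (nat_lit 345) (nat_lit 253)) (XT.lf (nat_lit 0) (nat_lit 48847642324) (nat_lit 152) (nat_lit 8143970110) (nat_lit 0) (nat_lit 4386601149) (nat_lit 31) (nat_lit 5) (nat_lit 33) (nat_lit 4) (nat_lit 31) (nat_lit 4) (nat_lit 423) (nat_lit 345) (nat_lit 252))))))))
noncomputable def xc59 : XT := (XT.nd (nat_lit 48048) (nat_lit 0) (nat_lit 7220) (XT.nd (nat_lit 47034) (nat_lit 0) (nat_lit 20064) (XT.nd (nat_lit 468) (nat_lit 456) (nat_lit 0) (XT.nd (nat_lit 234) (nat_lit 228) (nat_lit 0) (XT.nd (nat_lit 78) (nat_lit 76) (nat_lit 0) (XT.lf (nat_lit 0) (nat_lit 7231947408) (nat_lit 152) (nat_lit 29803087521) (nat_lit 76) (nat_lit 26745509495) (nat_lit 29) (nat_lit 5) (nat_lit 31) (nat_lit 5) (nat_lit 30) (nat_lit 4) (nat_lit 424) (nat_lit 345) (nat_lit 251)) (XT.nd (nat_lit 78)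 (nat_lit 0) (nat_lit 0) (XT.lf (nat_lit 0) (nat_lit 12142182198) (nat_lit 76) (nat_lit 15763203067) (nat_lit 152) (nat_lit 38388427181) (nat_lit 28) (nat_lit 5) (nat_lit 29) (nat_lit 5) (nat_lit 30) (nat_lit 4) (nat_lit 425) (nat_lit 345) (nat_lit 250)) (XT.lf (nat_lit 0) (nat_lit 49964115525) (nat_lit 152) (nat_lit 12223596634) (nat_lit 0) (nat_lit 6734483981) (nat_lit 28) (nat_lit 5) (nat_lit 30) (nat_lit 4) (nat_lit 28) (nat_lit 4) (nat_lit 426) (nat_lit 345) (nat_lit 249)))) (XT.nd (nat_lit 78) (nat_lit 76) (nat_lit 0) (XT.lf (nat_lit 0) (nat_lit 1868607790) (nat_lit 152) (nat_lit 39455563091) (nat_lit 76) (nat_lit 30343822664) (nat_lit 26) (nat_lit 5) (nat_lit 28) (nat_lit 5) (nat_lit 27) (nat_lit 4) (nat_lit 427) (nat_lit 345) (nat_lit 248)) (XT.nd (nat_lit 78) (nat_lit 0) (nat_lit 0) (XT.lf (nat_lit 0) (nat_lit 4433657506) (nat_lit 76) (nat_lit 19064266254) (nat_lit 152) (nat_lit 51042925469)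 (nat_lit 25) (nat_lit 5) (nat_lit 26) (nat_lit 5) (nat_lit 27) (nat_lit 4) (nat_lit 428) (nat_lit 345) (nat_lit 247)) (XT.lf (nat_lit 0) (nat_lit 46640754063) (nat_lit 152) (nat_lit 26286711441) (nat_lit 0) (nat_lit 4616921481) (nat_lit 25) (nat_lit 5) (nat_lit 27) (nat_lit 4) (nat_lit 25) (nat_lit 4) (nat_lit 429) (nat_lit 345) (nat_lit 246))))) (XT.nd (nat_lit 234) (nat_lit 228) (nat_lit 0) (XT.nd (nat_lit 78) (nat_lit 152) (nat_lit 0) (XT.lf (nat_lit 0) (nat_lit 19884238766) (nat_lit 76) (nat_lit 51421427520) (nat_lit 76) (nat_lit 9381487838) (nat_lit 24) (nat_lit 4) (nat_lit 25) (nat_lit 5) (nat_lit 25) (nat_lit 4) (nat_lit 430) (nat_lit 345) (nat_lit 245)) (XT.nd (nat_lit 78) (nat_lit 76) (nat_lit 0) (XT.lf (nat_lit 0) (nat_lit 13213885748) (nat_lit 152) (nat_lit 15231091710) (nat_lit 76) (nat_lit 55530620551) (nat_lit 23) (nat_lit 5) (nat_lit 25) (nat_lit 5) (nat_lit 24) (nat_lit 4) (nat_lit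 431) (nat_lit 345) (nat_lit 244)) (XT.lf (nat_lit 0) (nat_lit 33137479680) (nat_lit 76) (nat_lit 3910485381) (nat_lit 152) (nat_lit 50368624252) (nat_lit 22) (nat_lit 5) (nat_lit 23) (nat_lit 5) (nat_lit 24) (nat_lit 4) (nat_lit 432) (nat_lit 345) (nat_lit 243)))) (XT.nd (nat_lit 78) (nat_lit 228) (nat_lit 0) (XT.lf (nat_lit 0) (nat_lit 62425112132) (nat_lit 152) (nat_lit 7026927069) (nat_lit 0) (nat_lit 21567050661) (nat_lit 22) (nat_lit 5) (nat_lit 24) (nat_lit 4) (nat_lit 22) (nat_lit 4) (nat_lit 433) (nat_lit 345) (nat_lit 242)) (XT.nd (nat_lit 156) (nat_lit 152) (nat_lit 0) (XT.lf (nat_lit 0) (nat_lit 43362972170) (nat_lit 76) (nat_lit 46148234003) (nat_lit 76) (nat_lit 5277307142) (nat_lit 21) (nat_lit 4) (nat_lit 22) (nat_lit 5) (nat_lit 22) (nat_lit 4) (nat_lit 434) (nat_lit 345) (nat_lit 241)) (XT.lf (nat_lit 0) (nat_lit 44663600908) (nat_lit 152) (nat_lit 53246937270) (nat_lit 0) (nat_lit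 4959864110) (nat_lit 19) (nat_lit 5) (nat_lit 21) (nat_lit 4) (nat_lit 19) (nat_lit 4) (nat_lit 436) (nat_lit 345) (nat_lit 239)))))) (XT.nd (nat_lit 468) (nat_lit 4560) (nat_lit 0) (XT.nd (nat_lit 234) (nat_lit 684) (nat_lit 0) (XT.nd (nat_lit 78) (nat_lit 684) (nat_lit 0) (XT.lf (nat_lit 0) (nat_lit 2186244100) (nat_lit 684) (nat_lit 621860614) (nat_lit 684) (nat_lit 621860614) (nat_lit 361) (nat_lit 3) (nat_lit 370) (nat_lit 3) (nat_lit 370) (nat_lit 5) (nat_lit 346) (nat_lit 346) (nat_lit 328)) (XT.nd (nat_lit 78) (nat_lit 0) (nat_lit 0) (XT.lf (nat_lit 0) (nat_lit 745698942) (nat_lit 684) (nat_lit 2532660882) (nat_lit 760) (nat_lit 3654997547) (nat_lit 352) (nat_lit 5) (nat_lit 361) (nat_lit 3) (nat_lit 362) (nat_lit 5) (nat_lit 347) (nat_lit 346) (nat_lit 327)) (XT.lf (nat_lit 76) (nat_lit 3271027421) (nat_lit 0) (nat_lit 656823851) (nat_lit 760) (nat_lit 3086793511) (nat_lit 353) (nat_lit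 5) (nat_lit 352) (nat_lit 5) (nat_lit 362) (nat_lit 5) (nat_lit 348) (nat_lit 346) (nat_lit 326)))) (XT.nd (nat_lit 78) (nat_lit 0) (nat_lit 0) (XT.lf (nat_lit 0) (nat_lit 35926143) (nat_lit 760) (nat_lit 4877139689) (nat_lit 836) (nat_lit 2190863825) (nat_lit 343) (nat_lit 5) (nat_lit 353) (nat_lit 5) (nat_lit 354) (nat_lit 5) (nat_lit 349) (nat_lit 346) (nat_lit 325)) (XT.nd (nat_lit 78) (nat_lit 0) (nat_lit 76) (XT.lf (nat_lit 76) (nat_lit 1248526799) (nat_lit 0) (nat_lit 1870483634) (nat_lit 836) (nat_lit 4081790574) (nat_lit 344) (nat_lit 5) (nat_lit 343) (nat_lit 5) (nat_lit 354) (nat_lit 5) (nat_lit 350) (nat_lit 346) (nat_lit 324)) (XT.lf (nat_lit 76) (nat_lit 357114853) (nat_lit 0) (nat_lit 5884576399) (nat_lit 836) (nat_lit 1064338685) (nat_lit 345) (nat_lit 5) (nat_lit 344) (nat_lit 5) (nat_lit 355) (nat_lit 5) (nat_lit 351) (nat_lit 346) (nat_lit 323))))) (XT.nd (nat_lit 234) (nat_lit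 2964) (nat_lit 0) (XT.nd (nat_lit 78) (nat_lit 836) (nat_lit 0) (XT.lf (nat_lit 0) (nat_lit 1968009548) (nat_lit 836) (nat_lit 466231567) (nat_lit 912) (nat_lit 4984591514) (nat_lit 333) (nat_lit 5) (nat_lit 344) (nat_lit 5) (nat_lit 345) (nat_lit 5) (nat_lit 352) (nat_lit 346) (nat_lit 322)) (XT.nd (nat_lit 78) (nat_lit 912) (nat_lit 0) (XT.lf (nat_lit 0) (nat_lit 5036469540) (nat_lit 836) (nat_lit 1211863034) (nat_lit 912) (nat_lit 1291499602) (nat_lit 334) (nat_lit 5) (nat_lit 345) (nat_lit 5) (nat_lit 346) (nat_lit 5) (nat_lit 353) (nat_lit 346) (nat_lit 321)) (XT.lf (nat_lit 0) (nat_lit 504178031) (nat_lit 912) (nat_lit 1895823396) (nat_lit 988) (nat_lit 5269045167) (nat_lit 322) (nat_lit 5) (nat_lit 334) (nat_lit 5) (nat_lit 335) (nat_lit 5) (nat_lit 354) (nat_lit 346) (nat_lit 320)))) (XT.nd (nat_lit 156) (nat_lit 2128) (nat_lit 0) (XT.nd (nat_lit 78) (nat_lit 912) (nat_lit 0) (XT.lf (nat_lit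 0) (nat_lit 3536367278) (nat_lit 912) (nat_lit 2531958261) (nat_lit 76) (nat_lit 1737931206) (nat_lit 323) (nat_lit 5) (nat_lit 335) (nat_lit 5) (nat_lit 324) (nat_lit 5) (nat_lit 355) (nat_lit 346) (nat_lit 319)) (XT.lf (nat_lit 0) (nat_lit 4846807241) (nat_lit 912) (nat_lit 1815607664) (nat_lit 988) (nat_lit 1289702107) (nat_lit 311) (nat_lit 5) (nat_lit 323) (nat_lit 5) (nat_lit 324) (nat_lit 5) (nat_lit 356) (nat_lit 346) (nat_lit 318))) (XT.nd (nat_lit 78) (nat_lit 1064) (nat_lit 0) (XT.lf (nat_lit 0) (nat_lit 1755993301) (nat_lit 1064) (nat_lit 3636617799) (nat_lit 76) (nat_lit 2713609684) (nat_lit 297) (nat_lit 5) (nat_lit 311) (nat_lit 5) (nat_lit 298) (nat_lit 5) (nat_lit 357) (nat_lit 346) (nat_lit 317)) (XT.lf (nat_lit 0) (nat_lit 4153616707) (nat_lit 1064) (nat_lit 726717508) (nat_lit 1140) (nat_lit 3388771701) (nat_lit 283) (nat_lit 5) (nat_lit 297) (nat_lit 5) (nat_lit 298) (nat_lit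 5) (nat_lit 358) (nat_lit 346) (nat_lit 316))))))) (XT.nd (nat_lit 936) (nat_lit 4788) (nat_lit 0) (XT.nd (nat_lit 468) (nat_lit 3116) (nat_lit 0) (XT.nd (nat_lit 234) (nat_lit 1824) (nat_lit 0) (XT.nd (nat_lit 78) (nat_lit 1976) (nat_lit 0) (XT.lf (nat_lit 0) (nat_lit 3888030134) (nat_lit 1140) (nat_lit 4256050178) (nat_lit 1216) (nat_lit 296607220) (nat_lit 268) (nat_lit 5) (nat_lit 283) (nat_lit 5) (nat_lit 284) (nat_lit 5) (nat_lit 359) (nat_lit 346) (nat_lit 315)) (XT.nd (nat_lit 78) (nat_lit 684) (nat_lit 0) (XT.lf (nat_lit 0) (nat_lit 2857800266) (nat_lit 1292) (nat_lit 4952416037) (nat_lit 76) (nat_lit 810869328) (nat_lit 251) (nat_lit 5) (nat_lit 268) (nat_lit 5) (nat_lit 252) (nat_lit 5) (nat_lit 360) (nat_lit 346) (nat_lit 314)) (XT.lf (nat_lit 0) (nat_lit 3491410925) (nat_lit 684) (nat_lit 2673183954) (nat_lit 760) (nat_lit 2645838781) (nat_lit 242) (nat_lit 5) (nat_lit 251) (nat_lit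 5) (nat_lit 252) (nat_lit 5) (nat_lit 361) (nat_lit 346) (nat_lit 313)))) (XT.nd (nat_lit 78) (nat_lit 1140) (nat_lit 0) (XT.lf (nat_lit 0) (nat_lit 606896135) (nat_lit 684) (nat_lit 5640762648) (nat_lit 76) (nat_lit 2761698519) (nat_lit 233) (nat_lit 5) (nat_lit 242) (nat_lit 5) (nat_lit 234) (nat_lit 5) (nat_lit 362) (nat_lit 346) (nat_lit 312)) (XT.nd (nat_lit 78) (nat_lit 532) (nat_lit 0) (XT.lf (nat_lit 0) (nat_lit 3278279161) (nat_lit 608) (nat_lit 688641313) (nat_lit 684) (nat_lit 5250576702) (nat_lit 225) (nat_lit 5) (nat_lit 233) (nat_lit 5) (nat_lit 234) (nat_lit 5) (nat_lit 363) (nat_lit 346) (nat_lit 311)) (XT.lf (nat_lit 0) (nat_lit 3223070043) (nat_lit 532) (nat_lit 4300419348) (nat_lit 608) (nat_lit 1911733708) (nat_lit 218) (nat_lit 5) (nat_lit 225) (nat_lit 5) (nat_lit 226) (nat_lit 5) (nat_lit 364) (nat_lit 346) (nat_lit 310))))) (XT.nd (nat_lit 234) (nat_lit 1520) (nat_lit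 0) (XT.nd (nat_lit 78) (nat_lit 988) (nat_lit 0) (XT.lf (nat_lit 0) (nat_lit 1571315186) (nat_lit 608) (nat_lit 6449438319) (nat_lit 76) (nat_lit 1642403729) (nat_lit 210) (nat_lit 5) (nat_lit 218) (nat_lit 5) (nat_lit 211) (nat_lit 5) (nat_lit 365) (nat_lit 346) (nat_lit 309)) (XT.nd (nat_lit 78) (nat_lit 532) (nat_lit 0) (XT.lf (nat_lit 0) (nat_lit 3224541760) (nat_lit 456) (nat_lit 2000265474) (nat_lit 532) (nat_lit 4676069284) (nat_lit 204) (nat_lit 5) (nat_lit 210) (nat_lit 5) (nat_lit 211) (nat_lit 5) (nat_lit 366) (nat_lit 346) (nat_lit 308)) (XT.lf (nat_lit 0) (nat_lit 3275446908) (nat_lit 532) (nat_lit 5825814066) (nat_lit 608) (nat_lit 1048041831) (nat_lit 197) (nat_lit 5) (nat_lit 204) (nat_lit 5) (nat_lit 205) (nat_lit 5) (nat_lit 367) (nat_lit 346) (nat_lit 307)))) (XT.nd (nat_lit 78) (nat_lit 988) (nat_lit 0) (XT.lf (nat_lit 0) (nat_lit 2738364784) (nat_lit 532) (nat_lit 7053711863)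 (nat_lit 76) (nat_lit 616378981) (nat_lit 190) (nat_lit 5) (nat_lit 197) (nat_lit 5) (nat_lit 191) (nat_lit 5) (nat_lit 368) (nat_lit 346) (nat_lit 306)) (XT.nd (nat_lit 78) (nat_lit 532) (nat_lit 0) (XT.lf (nat_lit 0) (nat_lit 3444235696) (nat_lit 456) (nat_lit 3318071451) (nat_lit 532) (nat_lit 3915877038) (nat_lit 184) (nat_lit 5) (nat_lit 190) (nat_lit 5) (nat_lit 191) (nat_lit 5) (nat_lit 369) (nat_lit 346) (nat_lit 305)) (XT.lf (nat_lit 0) (nat_lit 76736942) (nat_lit 532) (nat_lit 7381904974) (nat_lit 76) (nat_lit 3501237955) (nat_lit 177) (nat_lit 5) (nat_lit 184) (nat_lit 5) (nat_lit 178) (nat_lit 5) (nat_lit 370) (nat_lit 346) (nat_lit 304)))))) (XT.nd (nat_lit 468) (nat_lit 2356) (nat_lit 0) (XT.nd (nat_lit 234) (nat_lit 1140) (nat_lit 0) (XT.nd (nat_lit 78) (nat_lit 836) (nat_lit 0) (XT.lf (nat_lit 0) (nat_lit 3716263404) (nat_lit 456) (nat_lit 528815637) (nat_lit 532) (nat_lit 7007728648)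 (nat_lit 171) (nat_lit 5) (nat_lit 177) (nat_lit 5) (nat_lit 178) (nat_lit 5) (nat_lit 371) (nat_lit 346) (nat_lit 303)) (XT.nd (nat_lit 78) (nat_lit 456) (nat_lit 0) (XT.lf (nat_lit 0) (nat_lit 3865395306) (nat_lit 380) (nat_lit 4850059592) (nat_lit 456) (nat_lit 2842140399) (nat_lit 166) (nat_lit 5) (nat_lit 171) (nat_lit 5) (nat_lit 172) (nat_lit 5) (nat_lit 372) (nat_lit 346) (nat_lit 302)) (XT.lf (nat_lit 0) (nat_lit 1565999163) (nat_lit 456) (nat_lit 7830528726) (nat_lit 76) (nat_lit 2478748085) (nat_lit 160) (nat_lit 5) (nat_lit 166) (nat_lit 5) (nat_lit 161) (nat_lit 5) (nat_lit 373) (nat_lit 346) (nat_lit 301)))) (XT.nd (nat_lit 78) (nat_lit 760) (nat_lit 0) (XT.lf (nat_lit 0) (nat_lit 4219224720) (nat_lit 380) (nat_lit 2006311765) (nat_lit 456) (nat_lit 5979786166) (nat_lit 155) (nat_lit 5) (nat_lit 160) (nat_lit 5) (nat_lit 161) (nat_lit 5) (nat_lit 374) (nat_lit 346) (nat_lit 300))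 (XT.nd (nat_lit 78) (nat_lit 380) (nat_lit 0) (XT.lf (nat_lit 0) (nat_lit 4409075135) (nat_lit 380) (nat_lit 6810373745) (nat_lit 456) (nat_lit 1329399202) (nat_lit 150) (nat_lit 5) (nat_lit 155) (nat_lit 5) (nat_lit 156) (nat_lit 5) (nat_lit 375) (nat_lit 346) (nat_lit 299)) (XT.lf (nat_lit 0) (nat_lit 3566204163) (nat_lit 380) (nat_lit 8302914153) (nat_lit 76) (nat_lit 1036962531) (nat_lit 145) (nat_lit 5) (nat_lit 150) (nat_lit 5) (nat_lit 146) (nat_lit 5) (nat_lit 376) (nat_lit 346) (nat_lit 298))))) (XT.nd (nat_lit 234) (nat_lit 1292) (nat_lit 0) (XT.nd (nat_lit 78) (nat_lit 684) (nat_lit 0) (XT.lf (nat_lit 0) (nat_lit 4781098408) (nat_lit 380) (nat_lit 4024168955) (nat_lit 456) (nat_lit 4471743981) (nat_lit 140) (nat_lit 5) (nat_lit 145) (nat_lit 5) (nat_lit 146) (nat_lit 5) (nat_lit 377) (nat_lit 346) (nat_lit 297)) (XT.nd (nat_lit 78) (nat_lit 304) (nat_lit 0) (XT.lf (nat_lit 0) (nat_lit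 731861695) (nat_lit 380) (nat_lit 8688582076) (nat_lit 76) (nat_lit 4242738514) (nat_lit 135) (nat_lit 5) (nat_lit 140) (nat_lit 5) (nat_lit 136) (nat_lit 5) (nat_lit 378) (nat_lit 346) (nat_lit 296)) (XT.lf (nat_lit 0) (nat_lit 5142649547) (nat_lit 304) (nat_lit 1070320001) (nat_lit 380) (nat_lit 7851084093) (nat_lit 131) (nat_lit 5) (nat_lit 135) (nat_lit 5) (nat_lit 136) (nat_lit 5) (nat_lit 379) (nat_lit 346) (nat_lit 295)))) (XT.nd (nat_lit 156) (nat_lit 608) (nat_lit 0) (XT.nd (nat_lit 78) (nat_lit 380) (nat_lit 0) (XT.lf (nat_lit 0) (nat_lit 5293084560) (nat_lit 304) (nat_lit 6822876981) (nat_lit 380) (nat_lit 2364585727) (nat_lit 127) (nat_lit 5) (nat_lit 131) (nat_lit 5) (nat_lit 132) (nat_lit 5) (nat_lit 380) (nat_lit 346) (nat_lit 294)) (XT.lf (nat_lit 0) (nat_lit 3439723520) (nat_lit 380) (nat_lit 9480566546) (nat_lit 76) (nat_lit 1993315885) (nat_lit 122) (nat_lit 5) (nat_lit 127)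 (nat_lit 5) (nat_lit 123) (nat_lit 5) (nat_lit 381) (nat_lit 346) (nat_lit 293))) (XT.nd (nat_lit 78) (nat_lit 380) (nat_lit 0) (XT.lf (nat_lit 0) (nat_lit 5527992662) (nat_lit 228) (nat_lit 4111473001) (nat_lit 304) (nat_lit 5723537880) (nat_lit 119) (nat_lit 5) (nat_lit 122) (nat_lit 5) (nat_lit 123) (nat_lit 5) (nat_lit 382) (nat_lit 346) (nat_lit 292)) (XT.lf (nat_lit 0) (nat_lit 449466442) (nat_lit 380) (nat_lit 10218744996) (nat_lit 76) (nat_lit 5162341691) (nat_lit 114) (nat_lit 5) (nat_lit 119) (nat_lit 5) (nat_lit 115) (nat_lit 5) (nat_lit 383) (nat_lit 346) (nat_lit 291))))))))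
noncomputable def xc60 : XT := (XT.nd (nat_lit 1950) (nat_lit 2280) (nat_lit 0) (XT.nd (nat_lit 936) (nat_lit 2128) (nat_lit 0) (XT.nd (nat_lit 468) (nat_lit 1064) (nat_lit 0) (XT.nd (nat_lit 234) (nat_lit 760) (nat_lit 0) (XT.nd (nat_lit 78) (nat_lit 532) (nat_lit 0) (XT.lf (nat_lit 0) (nat_lit 5633192201) (nat_lit 228) (nat_lit 1317969753) (nat_lit 304) (nat_lit 9364476323) (nat_lit 111) (nat_lit 5) (nat_lit 114) (nat_lit 5) (nat_lit 115) (nat_lit 5) (nat_lit 384) (nat_lit 346) (nat_lit 290)) (XT.nd (nat_lit 78) (nat_lit 304) (nat_lit 0) (XT.lf (nat_lit 0) (nat_lit 5602780869) (nat_lit 228) (nat_lit 8358060539) (nat_lit 304) (nat_lit 2858659317) (nat_lit 108) (nat_lit 5) (nat_lit 111) (nat_lit 5) (nat_lit 112) (nat_lit 5) (nat_lit 385) (nat_lit 346) (nat_lit 289)) (XT.lf (nat_lit 0) (nat_lit 4029744225) (nat_lit 304) (nat_lit 11814393013) (nat_lit 76) (nat_lit 1499238378) (nat_lit 104) (nat_lit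 5) (nat_lit 108) (nat_lit 5) (nat_lit 105) (nat_lit 5) (nat_lit 386) (nat_lit 346) (nat_lit 288)))) (XT.nd (nat_lit 78) (nat_lit 532) (nat_lit 0) (XT.lf (nat_lit 0) (nat_lit 5356088762) (nat_lit 228) (nat_lit 6044387398) (nat_lit 304) (nat_lit 6486216916) (nat_lit 101) (nat_lit 5) (nat_lit 104) (nat_lit 5) (nat_lit 105) (nat_lit 5) (nat_lit 387) (nat_lit 346) (nat_lit 287)) (XT.nd (nat_lit 78) (nat_lit 228) (nat_lit 0) (XT.lf (nat_lit 0) (nat_lit 829447661) (nat_lit 304) (nat_lit 13312841202) (nat_lit 76) (nat_lit 4309892903) (nat_lit 97) (nat_lit 5) (nat_lit 101) (nat_lit 5) (nat_lit 98) (nat_lit 5) (nat_lit 388) (nat_lit 346) (nat_lit 286)) (XT.lf (nat_lit 0) (nat_lit 4790605460) (nat_lit 228) (nat_lit 3771471760) (nat_lit 304) (nat_lit 10476389040) (nat_lit 94) (nat_lit 5) (nat_lit 97) (nat_lit 5) (nat_lit 98) (nat_lit 5) (nat_lit 389) (nat_lit 346) (nat_lit 285))))) (XT.nd (nat_lit 234) (nat_lit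 456) (nat_lit 0) (XT.nd (nat_lit 78) (nat_lit 456) (nat_lit 0) (XT.lf (nat_lit 0) (nat_lit 4356297036) (nat_lit 152) (nat_lit 12521885684) (nat_lit 228) (nat_lit 2769984323) (nat_lit 92) (nat_lit 5) (nat_lit 94) (nat_lit 5) (nat_lit 95) (nat_lit 5) (nat_lit 390) (nat_lit 346) (nat_lit 284)) (XT.nd (nat_lit 78) (nat_lit 152) (nat_lit 0) (XT.lf (nat_lit 0) (nat_lit 3803044318) (nat_lit 228) (nat_lit 1586900260) (nat_lit 304) (nat_lit 14891718946) (nat_lit 88) (nat_lit 5) (nat_lit 91) (nat_lit 5) (nat_lit 92) (nat_lit 5) (nat_lit 391) (nat_lit 346) (nat_lit 283)) (XT.lf (nat_lit 0) (nat_lit 3081992701) (nat_lit 152) (nat_lit 11053443268) (nat_lit 228) (nat_lit 6803537000) (nat_lit 86) (nat_lit 5) (nat_lit 88) (nat_lit 5) (nat_lit 89) (nat_lit 5) (nat_lit 392) (nat_lit 346) (nat_lit 282)))) (XT.nd (nat_lit 78) (nat_lit 152) (nat_lit 0) (XT.lf (nat_lit 0) (nat_lit 1821277594) (nat_lit 304) (nat_lit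 19359144699) (nat_lit 76) (nat_lit 443289039) (nat_lit 82) (nat_lit 5) (nat_lit 86) (nat_lit 5) (nat_lit 83) (nat_lit 5) (nat_lit 393) (nat_lit 346) (nat_lit 281)) (XT.nd (nat_lit 78) (nat_lit 0) (nat_lit 0) (XT.lf (nat_lit 0) (nat_lit 1188345384) (nat_lit 152) (nat_lit 9811128484) (nat_lit 228) (nat_lit 11333312173) (nat_lit 80) (nat_lit 5) (nat_lit 82) (nat_lit 5) (nat_lit 83) (nat_lit 5) (nat_lit 394) (nat_lit 346) (nat_lit 280)) (XT.lf (nat_lit 0) (nat_lit 20812360096) (nat_lit 228) (nat_lit 5693383) (nat_lit 76) (nat_lit 2253993067) (nat_lit 80) (nat_lit 5) (nat_lit 83) (nat_lit 5) (nat_lit 81) (nat_lit 5) (nat_lit 395) (nat_lit 346) (nat_lit 279)))))) (XT.nd (nat_lit 468) (nat_lit 988) (nat_lit 0) (XT.nd (nat_lit 234) (nat_lit 532) (nat_lit 0) (XT.nd (nat_lit 78) (nat_lit 380) (nat_lit 0) (XT.lf (nat_lit 0) (nat_lit 7399608366) (nat_lit 228) (nat_lit 1459484413) (nat_lit 76) (nat_lit 14978872367)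 (nat_lit 77) (nat_lit 5) (nat_lit 80) (nat_lit 5) (nat_lit 78) (nat_lit 5) (nat_lit 396) (nat_lit 346) (nat_lit 278)) (XT.nd (nat_lit 78) (nat_lit 228) (nat_lit 0) (XT.lf (nat_lit 0) (nat_lit 17697640437) (nat_lit 228) (nat_lit 3110896635) (nat_lit 76) (nat_lit 3826901034) (nat_lit 75) (nat_lit 5) (nat_lit 78) (nat_lit 5) (nat_lit 76) (nat_lit 5) (nat_lit 397) (nat_lit 346) (nat_lit 277)) (XT.lf (nat_lit 0) (nat_lit 3240521446) (nat_lit 228) (nat_lit 5044712524) (nat_lit 76) (nat_lit 17178818852) (nat_lit 72) (nat_lit 5) (nat_lit 75) (nat_lit 5) (nat_lit 73) (nat_lit 5) (nat_lit 398) (nat_lit 346) (nat_lit 276)))) (XT.nd (nat_lit 78) (nat_lit 380) (nat_lit 0) (XT.lf (nat_lit 0) (nat_lit 14009876153) (nat_lit 228) (nat_lit 7288057726) (nat_lit 76) (nat_lit 5027339782) (nat_lit 70) (nat_lit 5) (nat_lit 73) (nat_lit 5) (nat_lit 71) (nat_lit 5) (nat_lit 399) (nat_lit 346) (nat_lit 275)) (XT.nd (nat_lit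 78) (nat_lit 228) (nat_lit 0) (XT.lf (nat_lit 0) (nat_lit 17384821829) (nat_lit 152) (nat_lit 8196195055) (nat_lit 228) (nat_lit 1640643146) (nat_lit 68) (nat_lit 5) (nat_lit 70) (nat_lit 5) (nat_lit 71) (nat_lit 5) (nat_lit 400) (nat_lit 346) (nat_lit 274)) (XT.lf (nat_lit 0) (nat_lit 9622424500) (nat_lit 228) (nat_lit 12789290889) (nat_lit 76) (nat_lit 5741156536) (nat_lit 65) (nat_lit 5) (nat_lit 68) (nat_lit 5) (nat_lit 66) (nat_lit 5) (nat_lit 401) (nat_lit 346) (nat_lit 273))))) (XT.nd (nat_lit 234) (nat_lit 456) (nat_lit 0) (XT.nd (nat_lit 78) (nat_lit 380) (nat_lit 0) (XT.lf (nat_lit 0) (nat_lit 12986559971) (nat_lit 152) (nat_lit 8700199539) (nat_lit 228) (nat_lit 7435239788) (nat_lit 63) (nat_lit 5) (nat_lit 65) (nat_lit 5) (nat_lit 66) (nat_lit 5) (nat_lit 402) (nat_lit 346) (nat_lit 272)) (XT.nd (nat_lit 78) (nat_lit 152) (nat_lit 0) (XT.lf (nat_lit 0) (nat_lit 4384081725) (nat_lit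 228) (nat_lit 19915532860) (nat_lit 76) (nat_lit 5831208364) (nat_lit 60) (nat_lit 5) (nat_lit 63) (nat_lit 5) (nat_lit 61) (nat_lit 5) (nat_lit 403) (nat_lit 346) (nat_lit 271)) (XT.lf (nat_lit 0) (nat_lit 6940363234) (nat_lit 152) (nat_lit 9987511920) (nat_lit 228) (nat_lit 14251388932) (nat_lit 58) (nat_lit 5) (nat_lit 60) (nat_lit 5) (nat_lit 61) (nat_lit 5) (nat_lit 404) (nat_lit 346) (nat_lit 270)))) (XT.nd (nat_lit 156) (nat_lit 304) (nat_lit 0) (XT.nd (nat_lit 78) (nat_lit 76) (nat_lit 0) (XT.lf (nat_lit 0) (nat_lit 3228692295) (nat_lit 76) (nat_lit 27121107579) (nat_lit 152) (nat_lit 1922802136) (nat_lit 57) (nat_lit 5) (nat_lit 58) (nat_lit 5) (nat_lit 59) (nat_lit 4) (nat_lit 405) (nat_lit 346) (nat_lit 269)) (XT.lf (nat_lit 0) (nat_lit 11125081727) (nat_lit 152) (nat_lit 1110079285) (nat_lit 76) (nat_lit 21172731482) (nat_lit 56) (nat_lit 5) (nat_lit 58) (nat_lit 5) (nat_lit 57) (nat_lit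 5) (nat_lit 406) (nat_lit 346) (nat_lit 268))) (XT.nd (nat_lit 78) (nat_lit 152) (nat_lit 0) (XT.lf (nat_lit 0) (nat_lit 25063955164) (nat_lit 228) (nat_lit 5927172404) (nat_lit 76) (nat_lit 3599900574) (nat_lit 54) (nat_lit 5) (nat_lit 57) (nat_lit 5) (nat_lit 55) (nat_lit 4) (nat_lit 407) (nat_lit 346) (nat_lit 267)) (XT.lf (nat_lit 0) (nat_lit 4131580481) (nat_lit 152) (nat_lit 11454126877) (nat_lit 76) (nat_lit 20236283324) (nat_lit 52) (nat_lit 5) (nat_lit 54) (nat_lit 5) (nat_lit 53) (nat_lit 5) (nat_lit 408) (nat_lit 346) (nat_lit 266))))))) (XT.nd (nat_lit 936) (nat_lit 912) (nat_lit 0) (XT.nd (nat_lit 468) (nat_lit 608) (nat_lit 0) (XT.nd (nat_lit 234) (nat_lit 304) (nat_lit 0) (XT.nd (nat_lit 78) (nat_lit 304) (nat_lit 0) (XT.lf (nat_lit 0) (nat_lit 18503245441) (nat_lit 228) (nat_lit 17701822920) (nat_lit 76) (nat_lit 899792076) (nat_lit 50) (nat_lit 5) (nat_lit 53) (nat_lit 5) (nat_lit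 51) (nat_lit 4) (nat_lit 409) (nat_lit 346) (nat_lit 265)) (XT.nd (nat_lit 78) (nat_lit 228) (nat_lit 0) (XT.lf (nat_lit 0) (nat_lit 13644104845) (nat_lit 76) (nat_lit 20325883277) (nat_lit 152) (nat_lit 4470592926) (nat_lit 49) (nat_lit 5) (nat_lit 50) (nat_lit 5) (nat_lit 51) (nat_lit 4) (nat_lit 410) (nat_lit 346) (nat_lit 264)) (XT.lf (nat_lit 0) (nat_lit 7069419591) (nat_lit 152) (nat_lit 3316838267) (nat_lit 228) (nat_lit 29447195010) (nat_lit 46) (nat_lit 5) (nat_lit 48) (nat_lit 5) (nat_lit 49) (nat_lit 5) (nat_lit 411) (nat_lit 346) (nat_lit 263)))) (XT.nd (nat_lit 78) (nat_lit 304) (nat_lit 0) (XT.lf (nat_lit 0) (nat_lit 26262193139) (nat_lit 228) (nat_lit 484681923) (nat_lit 76) (nat_lit 14536706239) (nat_lit 46) (nat_lit 5) (nat_lit 49) (nat_lit 5) (nat_lit 47) (nat_lit 4) (nat_lit 412) (nat_lit 346) (nat_lit 262)) (XT.nd (nat_lit 78) (nat_lit 152) (nat_lit 0) (XT.lf (nat_lit 0) (nat_lit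 458383827) (nat_lit 152) (nat_lit 8815481165) (nat_lit 76) (nat_lit 33522262867) (nat_lit 44) (nat_lit 5) (nat_lit 46) (nat_lit 5) (nat_lit 45) (nat_lit 5) (nat_lit 413) (nat_lit 346) (nat_lit 261)) (XT.lf (nat_lit 0) (nat_lit 16723575427) (nat_lit 228) (nat_lit 18363140954) (nat_lit 76) (nat_lit 9283462383) (nat_lit 42) (nat_lit 5) (nat_lit 45) (nat_lit 5) (nat_lit 43) (nat_lit 4) (nat_lit 414) (nat_lit 346) (nat_lit 260))))) (XT.nd (nat_lit 234) (nat_lit 304) (nat_lit 0) (XT.nd (nat_lit 78) (nat_lit 228) (nat_lit 0) (XT.lf (nat_lit 0) (nat_lit 16919162749) (nat_lit 76) (nat_lit 17203616212) (nat_lit 152) (nat_lit 11890532307) (nat_lit 41) (nat_lit 5) (nat_lit 42) (nat_lit 5) (nat_lit 43) (nat_lit 4) (nat_lit 415) (nat_lit 346) (nat_lit 259)) (XT.nd (nat_lit 78) (nat_lit 0) (nat_lit 0) (XT.lf (nat_lit 0) (nat_lit 4808642712) (nat_lit 228) (nat_lit 41098984137) (nat_lit 76) (nat_lit 1822250013)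 (nat_lit 38) (nat_lit 5) (nat_lit 41) (nat_lit 5) (nat_lit 39) (nat_lit 4) (nat_lit 416) (nat_lit 346) (nat_lit 258)) (XT.lf (nat_lit 0) (nat_lit 22549245332) (nat_lit 228) (nat_lit 5119094026) (nat_lit 76) (nat_lit 21846829467) (nat_lit 38) (nat_lit 5) (nat_lit 41) (nat_lit 5) (nat_lit 39) (nat_lit 4) (nat_lit 417) (nat_lit 346) (nat_lit 257)))) (XT.nd (nat_lit 78) (nat_lit 228) (nat_lit 0) (XT.lf (nat_lit 0) (nat_lit 33261842472) (nat_lit 76) (nat_lit 8210000341) (nat_lit 152) (nat_lit 9909034995) (nat_lit 37) (nat_lit 5) (nat_lit 38) (nat_lit 5) (nat_lit 39) (nat_lit 4) (nat_lit 418) (nat_lit 346) (nat_lit 256)) (XT.nd (nat_lit 78) (nat_lit 76) (nat_lit 0) (XT.lf (nat_lit 0) (nat_lit 8192151670) (nat_lit 152) (nat_lit 32842178758) (nat_lit 76) (nat_lit 12292808561) (nat_lit 35) (nat_lit 5) (nat_lit 37) (nat_lit 5) (nat_lit 36) (nat_lit 4) (nat_lit 419) (nat_lit 346) (nat_lit 255)) (XT.lf (nat_lit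 0) (nat_lit 5918105999) (nat_lit 76) (nat_lit 21381635964) (nat_lit 152) (nat_lit 28058840836) (nat_lit 34) (nat_lit 5) (nat_lit 35) (nat_lit 5) (nat_lit 36) (nat_lit 4) (nat_lit 420) (nat_lit 346) (nat_lit 254)))))) (XT.nd (nat_lit 468) (nat_lit 456) (nat_lit 0) (XT.nd (nat_lit 234) (nat_lit 228) (nat_lit 0) (XT.nd (nat_lit 78) (nat_lit 228) (nat_lit 0) (XT.lf (nat_lit 0) (nat_lit 47258685622) (nat_lit 76) (nat_lit 419068138) (nat_lit 152) (nat_lit 9804394926) (nat_lit 34) (nat_lit 5) (nat_lit 35) (nat_lit 5) (nat_lit 36) (nat_lit 4) (nat_lit 421) (nat_lit 346) (nat_lit 253)) (XT.nd (nat_lit 78) (nat_lit 76) (nat_lit 0) (XT.lf (nat_lit 0) (nat_lit 9671328762) (nat_lit 152) (nat_lit 28476584545) (nat_lit 76) (nat_lit 21546542888) (nat_lit 32) (nat_lit 5) (nat_lit 34) (nat_lit 5) (nat_lit 33) (nat_lit 4) (nat_lit 422) (nat_lit 346) (nat_lit 252)) (XT.lf (nat_lit 0) (nat_lit 13039292672) (nat_lit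 76) (nat_lit 17094826135) (nat_lit 152) (nat_lit 31873867581) (nat_lit 31) (nat_lit 5) (nat_lit 32) (nat_lit 5) (nat_lit 33) (nat_lit 4) (nat_lit 423) (nat_lit 346) (nat_lit 251)))) (XT.nd (nat_lit 78) (nat_lit 228) (nat_lit 0) (XT.lf (nat_lit 0) (nat_lit 51943028350) (nat_lit 152) (nat_lit 7294294464) (nat_lit 0) (nat_lit 5190181835) (nat_lit 31) (nat_lit 5) (nat_lit 33) (nat_lit 4) (nat_lit 31) (nat_lit 4) (nat_lit 424) (nat_lit 346) (nat_lit 250)) (XT.nd (nat_lit 78) (nat_lit 76) (nat_lit 0) (XT.lf (nat_lit 0) (nat_lit 8233490030) (nat_lit 152) (nat_lit 30059632352) (nat_lit 76) (nat_lit 28657223632) (nat_lit 29) (nat_lit 5) (nat_lit 31) (nat_lit 5) (nat_lit 30) (nat_lit 4) (nat_lit 425) (nat_lit 346) (nat_lit 249)) (XT.lf (nat_lit 0) (nat_lit 13947539682) (nat_lit 76) (nat_lit 15974104810) (nat_lit 152) (nat_lit 39668202902) (nat_lit 28) (nat_lit 5) (nat_lit 29) (nat_lit 5) (nat_lit 30) (nat_lit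 4) (nat_lit 426) (nat_lit 346) (nat_lit 248))))) (XT.nd (nat_lit 234) (nat_lit 228) (nat_lit 0) (XT.nd (nat_lit 78) (nat_lit 228) (nat_lit 0) (XT.lf (nat_lit 0) (nat_lit 53059025040) (nat_lit 152) (nat_lit 11681104954) (nat_lit 0) (nat_lit 7610250103) (nat_lit 28) (nat_lit 5) (nat_lit 30) (nat_lit 4) (nat_lit 28) (nat_lit 4) (nat_lit 427) (nat_lit 346) (nat_lit 247)) (XT.nd (nat_lit 78) (nat_lit 76) (nat_lit 0) (XT.lf (nat_lit 0) (nat_lit 2546855743) (nat_lit 152) (nat_lit 40296077607) (nat_lit 76) (nat_lit 32390892473) (nat_lit 26) (nat_lit 5) (nat_lit 28) (nat_lit 5) (nat_lit 27) (nat_lit 4) (nat_lit 428) (nat_lit 346) (nat_lit 246)) (XT.lf (nat_lit 0) (nat_lit 5755147910) (nat_lit 76) (nat_lit 19485213169) (nat_lit 152) (nat_lit 53010482594) (nat_lit 25) (nat_lit 5) (nat_lit 26) (nat_lit 5) (nat_lit 27) (nat_lit 4) (nat_lit 429) (nat_lit 346) (nat_lit 245)))) (XT.nd (nat_lit 156) (nat_lit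 152) (nat_lit 0) (XT.nd (nat_lit 78) (nat_lit 76) (nat_lit 0) (XT.lf (nat_lit 0) (nat_lit 49518179957) (nat_lit 152) (nat_lit 26542247892) (nat_lit 0) (nat_lit 5344796092) (nat_lit 25) (nat_lit 5) (nat_lit 27) (nat_lit 4) (nat_lit 25) (nat_lit 4) (nat_lit 430) (nat_lit 346) (nat_lit 244)) (XT.lf (nat_lit 0) (nat_lit 21906899560) (nat_lit 76) (nat_lit 53493353445) (nat_lit 76) (nat_lit 9305359964) (nat_lit 24) (nat_lit 4) (nat_lit 25) (nat_lit 5) (nat_lit 25) (nat_lit 4) (nat_lit 431) (nat_lit 346) (nat_lit 243))) (XT.nd (nat_lit 78) (nat_lit 76) (nat_lit 0) (XT.lf (nat_lit 0) (nat_lit 14383688040) (nat_lit 152) (nat_lit 15003020677) (nat_lit 76) (nat_lit 58772377682) (nat_lit 23) (nat_lit 5) (nat_lit 25) (nat_lit 5) (nat_lit 24) (nat_lit 4) (nat_lit 432) (nat_lit 346) (nat_lit 242)) (XT.lf (nat_lit 0) (nat_lit 35755611863) (nat_lit 76) (nat_lit 3638856420) (nat_lit 152) (nat_lit 52378109947)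 (nat_lit 22) (nat_lit 5) (nat_lit 23) (nat_lit 5) (nat_lit 24) (nat_lit 4) (nat_lit 433) (nat_lit 346) (nat_lit 241))))))))
noncomputable def xc61 : XT := (XT.nd (nat_lit 48126) (nat_lit 0) (nat_lit 4712) (XT.nd (nat_lit 47112) (nat_lit 0) (nat_lit 12920) (XT.nd (nat_lit 46644) (nat_lit 0) (nat_lit 22116) (XT.nd (nat_lit 46410) (nat_lit 0) (nat_lit 24472) (XT.nd (nat_lit 156) (nat_lit 152) (nat_lit 0) (XT.lf (nat_lit 0) (nat_lit 66021220625) (nat_lit 152) (nat_lit 6452932294) (nat_lit 0) (nat_lit 23081629278) (nat_lit 22) (nat_lit 5) (nat_lit 24) (nat_lit 4) (nat_lit 22) (nat_lit 4) (nat_lit 434) (nat_lit 346) (nat_lit 240)) (XT.nd (nat_lit 46176) (nat_lit 0) (nat_lit 25232) (XT.lf (nat_lit 0) (nat_lit 20275270566) (nat_lit 152) (nat_lit 1803574994) (nat_lit 76) (nat_lit 81583954022) (nat_lit 20) (nat_lit 5) (nat_lit 22) (nat_lit 5) (nat_lit 21) (nat_lit 4) (nat_lit 436) (nat_lit 346) (nat_lit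 238)) (XT.lf (nat_lit 0) (nat_lit 945446970) (nat_lit 0) (nat_lit 945446970) (nat_lit 684) (nat_lit 1614389616) (nat_lit 352) (nat_lit 5) (nat_lit 352) (nat_lit 3) (nat_lit 361) (nat_lit 3) (nat_lit 347) (nat_lit 347) (nat_lit 326)))) (XT.nd (nat_lit 78) (nat_lit 760) (nat_lit 0) (XT.lf (nat_lit 76) (nat_lit 598556372) (nat_lit 0) (nat_lit 6225790634) (nat_lit 760) (nat_lit 271738127) (nat_lit 353) (nat_lit 5) (nat_lit 352) (nat_lit 5) (nat_lit 362) (nat_lit 5) (nat_lit 348) (nat_lit 347) (nat_lit 325)) (XT.nd (nat_lit 78) (nat_lit 0) (nat_lit 0) (XT.lf (nat_lit 0) (nat_lit 2660355641) (nat_lit 760) (nat_lit 627834708) (nat_lit 836) (nat_lit 3900478263) (nat_lit 342) (nat_lit 5) (nat_lit 352) (nat_lit 5) (nat_lit 353) (nat_lit 5) (nat_lit 349) (nat_lit 347) (nat_lit 324)) (XT.lf (nat_lit 76) (nat_lit 5539381123) (nat_lit 0) (nat_lit 66568501) (nat_lit 836) (nat_lit 1683752746) (nat_lit 343) (nat_lit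 5) (nat_lit 342) (nat_lit 5) (nat_lit 353) (nat_lit 5) (nat_lit 350) (nat_lit 347) (nat_lit 323))))) (XT.nd (nat_lit 234) (nat_lit 1596) (nat_lit 0) (XT.nd (nat_lit 78) (nat_lit 0) (nat_lit 0) (XT.lf (nat_lit 0) (nat_lit 1186726031) (nat_lit 836) (nat_lit 2824563205) (nat_lit 912) (nat_lit 3386920748) (nat_lit 332) (nat_lit 5) (nat_lit 343) (nat_lit 5) (nat_lit 344) (nat_lit 5) (nat_lit 351) (nat_lit 347) (nat_lit 322)) (XT.nd (nat_lit 78) (nat_lit 0) (nat_lit 76) (XT.lf (nat_lit 76) (nat_lit 3688119525) (nat_lit 0) (nat_lit 365558322) (nat_lit 912) (nat_lit 3461399914) (nat_lit 333) (nat_lit 5) (nat_lit 332) (nat_lit 5) (nat_lit 344) (nat_lit 5) (nat_lit 352) (nat_lit 347) (nat_lit 321)) (XT.lf (nat_lit 76) (nat_lit 2863645409) (nat_lit 0) (nat_lit 4131160264) (nat_lit 912) (nat_lit 645123219) (nat_lit 334) (nat_lit 5) (nat_lit 333) (nat_lit 5) (nat_lit 345) (nat_lit 5) (nat_lit 353) (nat_lit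 347) (nat_lit 320)))) (XT.nd (nat_lit 78) (nat_lit 760) (nat_lit 0) (XT.lf (nat_lit 76) (nat_lit 2106444611) (nat_lit 0) (nat_lit 69798871) (nat_lit 988) (nat_lit 5596890578) (nat_lit 322) (nat_lit 5) (nat_lit 321) (nat_lit 5) (nat_lit 334) (nat_lit 5) (nat_lit 354) (nat_lit 347) (nat_lit 319)) (XT.nd (nat_lit 78) (nat_lit 836) (nat_lit 0) (XT.lf (nat_lit 76) (nat_lit 1392335423) (nat_lit 0) (nat_lit 3688920989) (nat_lit 988) (nat_lit 2832930930) (nat_lit 323) (nat_lit 5) (nat_lit 322) (nat_lit 5) (nat_lit 335) (nat_lit 5) (nat_lit 355) (nat_lit 347) (nat_lit 318)) (XT.lf (nat_lit 0) (nat_lit 758635462) (nat_lit 912) (nat_lit 7305025662) (nat_lit 988) (nat_lit 722291) (nat_lit 311) (nat_lit 5) (nat_lit 323) (nat_lit 5) (nat_lit 324) (nat_lit 5) (nat_lit 356) (nat_lit 347) (nat_lit 317)))))) (XT.nd (nat_lit 468) (nat_lit 3876) (nat_lit 0) (XT.nd (nat_lit 234) (nat_lit 3116) (nat_lit 0) (XT.nd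 (nat_lit 78) (nat_lit 1140) (nat_lit 0) (XT.lf (nat_lit 0) (nat_lit 145492589) (nat_lit 988) (nat_lit 2739106796) (nat_lit 1064) (nat_lit 5337597240) (nat_lit 297) (nat_lit 5) (nat_lit 310) (nat_lit 5) (nat_lit 311) (nat_lit 5) (nat_lit 357) (nat_lit 347) (nat_lit 316)) (XT.nd (nat_lit 78) (nat_lit 1140) (nat_lit 0) (XT.lf (nat_lit 0) (nat_lit 5878688062) (nat_lit 1064) (nat_lit 395481309) (nat_lit 76) (nat_lit 2114843304) (nat_lit 297) (nat_lit 5) (nat_lit 311) (nat_lit 5) (nat_lit 298) (nat_lit 5) (nat_lit 358) (nat_lit 347) (nat_lit 315)) (XT.lf (nat_lit 0) (nat_lit 425679292) (nat_lit 1140) (nat_lit 882944572) (nat_lit 76) (nat_lit 7256168432) (nat_lit 282) (nat_lit 5) (nat_lit 297) (nat_lit 5) (nat_lit 283) (nat_lit 5) (nat_lit 359) (nat_lit 347) (nat_lit 314)))) (XT.nd (nat_lit 78) (nat_lit 1976) (nat_lit 0) (XT.lf (nat_lit 0) (nat_lit 3450120151) (nat_lit 1216) (nat_lit 1352310359) (nat_lit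 76) (nat_lit 3946420276) (nat_lit 267) (nat_lit 5) (nat_lit 283) (nat_lit 5) (nat_lit 268) (nat_lit 5) (nat_lit 360) (nat_lit 347) (nat_lit 313)) (XT.nd (nat_lit 78) (nat_lit 760) (nat_lit 0) (XT.lf (nat_lit 0) (nat_lit 6606608664) (nat_lit 1292) (nat_lit 1761024593) (nat_lit 76) (nat_lit 575094324) (nat_lit 251) (nat_lit 5) (nat_lit 268) (nat_lit 5) (nat_lit 252) (nat_lit 5) (nat_lit 361) (nat_lit 347) (nat_lit 312)) (XT.lf (nat_lit 0) (nat_lit 777871911) (nat_lit 760) (nat_lit 2147000886) (nat_lit 76) (nat_lit 6220688230) (nat_lit 241) (nat_lit 5) (nat_lit 251) (nat_lit 5) (nat_lit 242) (nat_lit 5) (nat_lit 362) (nat_lit 347) (nat_lit 311))))) (XT.nd (nat_lit 234) (nat_lit 2052) (nat_lit 0) (XT.nd (nat_lit 78) (nat_lit 1216) (nat_lit 0) (XT.lf (nat_lit 0) (nat_lit 4003618140) (nat_lit 684) (nat_lit 2506708746) (nat_lit 76) (nat_lit 2847419604) (nat_lit 233) (nat_lit 5) (nat_lit 242) (nat_lit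 5) (nat_lit 234) (nat_lit 5) (nat_lit 363) (nat_lit 347) (nat_lit 310)) (XT.nd (nat_lit 78) (nat_lit 608) (nat_lit 0) (XT.lf (nat_lit 0) (nat_lit 6760363561) (nat_lit 608) (nat_lit 642872743) (nat_lit 684) (nat_lit 2176961054) (nat_lit 225) (nat_lit 5) (nat_lit 233) (nat_lit 5) (nat_lit 234) (nat_lit 5) (nat_lit 364) (nat_lit 347) (nat_lit 309)) (XT.lf (nat_lit 0) (nat_lit 1180078633) (nat_lit 608) (nat_lit 3122184211) (nat_lit 76) (nat_lit 5509895865) (nat_lit 217) (nat_lit 5) (nat_lit 225) (nat_lit 5) (nat_lit 218) (nat_lit 5) (nat_lit 365) (nat_lit 347) (nat_lit 308)))) (XT.nd (nat_lit 156) (nat_lit 1064) (nat_lit 0) (XT.nd (nat_lit 78) (nat_lit 456) (nat_lit 0) (XT.lf (nat_lit 0) (nat_lit 4682211652) (nat_lit 608) (nat_lit 3398190731) (nat_lit 76) (nat_lit 1974030845) (nat_lit 210) (nat_lit 5) (nat_lit 218) (nat_lit 5) (nat_lit 211) (nat_lit 5) (nat_lit 366) (nat_lit 347) (nat_lit 307)) (XT.lf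 (nat_lit 0) (nat_lit 6662781360) (nat_lit 456) (nat_lit 1742700892) (nat_lit 532) (nat_lit 1901986533) (nat_lit 204) (nat_lit 5) (nat_lit 210) (nat_lit 5) (nat_lit 211) (nat_lit 5) (nat_lit 367) (nat_lit 347) (nat_lit 306))) (XT.nd (nat_lit 78) (nat_lit 456) (nat_lit 0) (XT.lf (nat_lit 0) (nat_lit 1764791801) (nat_lit 608) (nat_lit 3883916051) (nat_lit 76) (nat_lit 4922261506) (nat_lit 196) (nat_lit 5) (nat_lit 204) (nat_lit 5) (nat_lit 197) (nat_lit 5) (nat_lit 368) (nat_lit 347) (nat_lit 305)) (XT.lf (nat_lit 0) (nat_lit 5619350529) (nat_lit 532) (nat_lit 4100346706) (nat_lit 76) (nat_lit 1126094321) (nat_lit 190) (nat_lit 5) (nat_lit 197) (nat_lit 5) (nat_lit 191) (nat_lit 5) (nat_lit 369) (nat_lit 347) (nat_lit 304))))))) (XT.nd (nat_lit 936) (nat_lit 3420) (nat_lit 0) (XT.nd (nat_lit 468) (nat_lit 2128) (nat_lit 0) (XT.nd (nat_lit 234) (nat_lit 1216) (nat_lit 0) (XT.nd (nat_lit 78) (nat_lit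 988) (nat_lit 0) (XT.lf (nat_lit 0) (nat_lit 6827730951) (nat_lit 456) (nat_lit 2916958000) (nat_lit 532) (nat_lit 1387348043) (nat_lit 184) (nat_lit 5) (nat_lit 190) (nat_lit 5) (nat_lit 191) (nat_lit 5) (nat_lit 370) (nat_lit 347) (nat_lit 303)) (XT.nd (nat_lit 78) (nat_lit 456) (nat_lit 0) (XT.lf (nat_lit 0) (nat_lit 2660763821) (nat_lit 532) (nat_lit 4507275868) (nat_lit 76) (nat_lit 4261754958) (nat_lit 177) (nat_lit 5) (nat_lit 184) (nat_lit 5) (nat_lit 178) (nat_lit 5) (nat_lit 371) (nat_lit 347) (nat_lit 302)) (XT.lf (nat_lit 0) (nat_lit 6945980684) (nat_lit 532) (nat_lit 4688395062) (nat_lit 76) (nat_lit 105771452) (nat_lit 171) (nat_lit 5) (nat_lit 178) (nat_lit 5) (nat_lit 172) (nat_lit 5) (nat_lit 372) (nat_lit 347) (nat_lit 301)))) (XT.nd (nat_lit 78) (nat_lit 836) (nat_lit 0) (XT.lf (nat_lit 0) (nat_lit 7186013739) (nat_lit 380) (nat_lit 4370499849) (nat_lit 456) (nat_lit 506191996)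 (nat_lit 166) (nat_lit 5) (nat_lit 171) (nat_lit 5) (nat_lit 172) (nat_lit 5) (nat_lit 373) (nat_lit 347) (nat_lit 300)) (XT.nd (nat_lit 78) (nat_lit 380) (nat_lit 0) (XT.lf (nat_lit 0) (nat_lit 3995084724) (nat_lit 456) (nat_lit 5073059605) (nat_lit 76) (nat_lit 3329807013) (nat_lit 160) (nat_lit 5) (nat_lit 166) (nat_lit 5) (nat_lit 161) (nat_lit 5) (nat_lit 374) (nat_lit 347) (nat_lit 299)) (XT.lf (nat_lit 0) (nat_lit 7488916189) (nat_lit 380) (nat_lit 1316142938) (nat_lit 456) (nat_lit 3941944318) (nat_lit 155) (nat_lit 5) (nat_lit 160) (nat_lit 5) (nat_lit 161) (nat_lit 5) (nat_lit 375) (nat_lit 347) (nat_lit 298))))) (XT.nd (nat_lit 234) (nat_lit 988) (nat_lit 0) (XT.nd (nat_lit 78) (nat_lit 684) (nat_lit 0) (XT.lf (nat_lit 0) (nat_lit 850220038) (nat_lit 456) (nat_lit 5458395849) (nat_lit 76) (nat_lit 6801014190) (nat_lit 149) (nat_lit 5) (nat_lit 155) (nat_lit 5) (nat_lit 150) (nat_lit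 5) (nat_lit 376) (nat_lit 347) (nat_lit 297)) (XT.nd (nat_lit 78) (nat_lit 380) (nat_lit 0) (XT.lf (nat_lit 0) (nat_lit 5894538297) (nat_lit 380) (nat_lit 5674645744) (nat_lit 76) (nat_lit 1917226394) (nat_lit 145) (nat_lit 5) (nat_lit 150) (nat_lit 5) (nat_lit 146) (nat_lit 5) (nat_lit 377) (nat_lit 347) (nat_lit 296)) (XT.lf (nat_lit 0) (nat_lit 7976328590) (nat_lit 380) (nat_lit 3345260540) (nat_lit 456) (nat_lit 2556539851) (nat_lit 140) (nat_lit 5) (nat_lit 145) (nat_lit 5) (nat_lit 146) (nat_lit 5) (nat_lit 378) (nat_lit 347) (nat_lit 295)))) (XT.nd (nat_lit 78) (nat_lit 608) (nat_lit 0) (XT.lf (nat_lit 0) (nat_lit 2802174978) (nat_lit 380) (nat_lit 6157964897) (nat_lit 76) (nat_lit 5324772739) (nat_lit 135) (nat_lit 5) (nat_lit 140) (nat_lit 5) (nat_lit 136) (nat_lit 5) (nat_lit 379) (nat_lit 347) (nat_lit 294)) (XT.nd (nat_lit 78) (nat_lit 304) (nat_lit 0) (XT.lf (nat_lit 0) (nat_lit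 8279835850) (nat_lit 304) (nat_lit 208343395) (nat_lit 380) (nat_lit 6219742929) (nat_lit 131) (nat_lit 5) (nat_lit 135) (nat_lit 5) (nat_lit 136) (nat_lit 5) (nat_lit 380) (nat_lit 347) (nat_lit 293)) (XT.lf (nat_lit 0) (nat_lit 8404321781) (nat_lit 304) (nat_lit 6224192834) (nat_lit 380) (nat_lit 518478973) (nat_lit 127) (nat_lit 5) (nat_lit 131) (nat_lit 5) (nat_lit 132) (nat_lit 5) (nat_lit 381) (nat_lit 347) (nat_lit 292)))))) (XT.nd (nat_lit 468) (nat_lit 1672) (nat_lit 0) (XT.nd (nat_lit 234) (nat_lit 760) (nat_lit 0) (XT.nd (nat_lit 78) (nat_lit 608) (nat_lit 0) (XT.lf (nat_lit 0) (nat_lit 5481988810) (nat_lit 380) (nat_lit 7104881255) (nat_lit 76) (nat_lit 3015957933) (nat_lit 122) (nat_lit 5) (nat_lit 127) (nat_lit 5) (nat_lit 123) (nat_lit 5) (nat_lit 382) (nat_lit 347) (nat_lit 291)) (XT.nd (nat_lit 78) (nat_lit 380) (nat_lit 0) (XT.lf (nat_lit 0) (nat_lit 8572419444) (nat_lit 228)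 (nat_lit 3356845675) (nat_lit 304) (nat_lit 4147320597) (nat_lit 119) (nat_lit 5) (nat_lit 122) (nat_lit 5) (nat_lit 123) (nat_lit 5) (nat_lit 383) (nat_lit 347) (nat_lit 290)) (XT.lf (nat_lit 0) (nat_lit 2246443272) (nat_lit 380) (nat_lit 7961337473) (nat_lit 76) (nat_lit 6360756828) (nat_lit 114) (nat_lit 5) (nat_lit 119) (nat_lit 5) (nat_lit 115) (nat_lit 5) (nat_lit 384) (nat_lit 347) (nat_lit 289)))) (XT.nd (nat_lit 78) (nat_lit 532) (nat_lit 0) (XT.lf (nat_lit 0) (nat_lit 8603842536) (nat_lit 228) (nat_lit 410729080) (nat_lit 304) (nat_lit 8065079592) (nat_lit 111) (nat_lit 5) (nat_lit 114) (nat_lit 5) (nat_lit 115) (nat_lit 5) (nat_lit 385) (nat_lit 347) (nat_lit 288)) (XT.nd (nat_lit 78) (nat_lit 304) (nat_lit 0) (XT.lf (nat_lit 0) (nat_lit 8536030026) (nat_lit 228) (nat_lit 7791410078) (nat_lit 304) (nat_lit 1282699497) (nat_lit 108) (nat_lit 5) (nat_lit 111) (nat_lit 5) (nat_lit 112)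 (nat_lit 5) (nat_lit 386) (nat_lit 347) (nat_lit 287)) (XT.lf (nat_lit 0) (nat_lit 5870833267) (nat_lit 304) (nat_lit 9755463284) (nat_lit 76) (nat_lit 2534801389) (nat_lit 104) (nat_lit 5) (nat_lit 108) (nat_lit 5) (nat_lit 105) (nat_lit 5) (nat_lit 387) (nat_lit 347) (nat_lit 286))))) (XT.nd (nat_lit 234) (nat_lit 912) (nat_lit 0) (XT.nd (nat_lit 78) (nat_lit 532) (nat_lit 0) (XT.lf (nat_lit 0) (nat_lit 8197590913) (nat_lit 228) (nat_lit 5359174565) (nat_lit 304) (nat_lit 5176428190) (nat_lit 101) (nat_lit 5) (nat_lit 104) (nat_lit 5) (nat_lit 105) (nat_lit 5) (nat_lit 388) (nat_lit 347) (nat_lit 285)) (XT.nd (nat_lit 78) (nat_lit 228) (nat_lit 0) (XT.lf (nat_lit 0) (nat_lit 2430596203) (nat_lit 304) (nat_lit 11410048726) (nat_lit 76) (nat_lit 5487128090) (nat_lit 97) (nat_lit 5) (nat_lit 101) (nat_lit 5) (nat_lit 98) (nat_lit 5) (nat_lit 389) (nat_lit 347) (nat_lit 284)) (XT.lf (nat_lit 0)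 (nat_lit 7524946609) (nat_lit 228) (nat_lit 2974621986) (nat_lit 304) (nat_lit 9445322637) (nat_lit 94) (nat_lit 5) (nat_lit 97) (nat_lit 5) (nat_lit 98) (nat_lit 5) (nat_lit 390) (nat_lit 347) (nat_lit 283)))) (XT.nd (nat_lit 156) (nat_lit 456) (nat_lit 0) (XT.nd (nat_lit 78) (nat_lit 304) (nat_lit 0) (XT.lf (nat_lit 0) (nat_lit 7032402686) (nat_lit 152) (nat_lit 12159853104) (nat_lit 228) (nat_lit 1394008292) (nat_lit 92) (nat_lit 5) (nat_lit 94) (nat_lit 5) (nat_lit 95) (nat_lit 5) (nat_lit 391) (nat_lit 347) (nat_lit 282)) (XT.lf (nat_lit 0) (nat_lit 6409921301) (nat_lit 228) (nat_lit 686963334) (nat_lit 304) (nat_lit 14155547938) (nat_lit 88) (nat_lit 5) (nat_lit 91) (nat_lit 5) (nat_lit 92) (nat_lit 5) (nat_lit 392) (nat_lit 347) (nat_lit 281))) (XT.nd (nat_lit 78) (nat_lit 304) (nat_lit 0) (XT.lf (nat_lit 0) (nat_lit 5616471087) (nat_lit 152) (nat_lit 10626576704) (nat_lit 228) (nat_lit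 5700666871) (nat_lit 86) (nat_lit 5) (nat_lit 88) (nat_lit 5) (nat_lit 89) (nat_lit 5) (nat_lit 393) (nat_lit 347) (nat_lit 280)) (XT.lf (nat_lit 0) (nat_lit 3291665147) (nat_lit 304) (nat_lit 17955485877) (nat_lit 76) (nat_lit 1416198106) (nat_lit 82) (nat_lit 5) (nat_lit 86) (nat_lit 5) (nat_lit 83) (nat_lit 5) (nat_lit 394) (nat_lit 347) (nat_lit 279))))))))
noncomputable def xc62 : XT := (XT.nd (nat_lit 1950) (nat_lit 1216) (nat_lit 0) (XT.nd (nat_lit 936) (nat_lit 1520) (nat_lit 0) (XT.nd (nat_lit 468) (nat_lit 988) (nat_lit 0) (XT.nd (nat_lit 234) (nat_lit 380) (nat_lit 0) (XT.nd (nat_lit 78) (nat_lit 380) (nat_lit 0) (XT.lf (nat_lit 0) (nat_lit 3551396812) (nat_lit 152) (nat_lit 9333836285) (nat_lit 228) (nat_lit 10523958625) (nat_lit 80) (nat_lit 5) (nat_lit 82) (nat_lit 5) (nat_lit 83) (nat_lit 5) (nat_lit 395) (nat_lit 347) (nat_lit 278)) (XT.nd (nat_lit 78) (nat_lit 228) (nat_lit 0)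 (XT.lf (nat_lit 0) (nat_lit 2261547384) (nat_lit 152) (nat_lit 20894207320) (nat_lit 228) (nat_lit 1030658438) (nat_lit 78) (nat_lit 5) (nat_lit 80) (nat_lit 5) (nat_lit 81) (nat_lit 5) (nat_lit 396) (nat_lit 347) (nat_lit 277)) (XT.lf (nat_lit 0) (nat_lit 665267004) (nat_lit 152) (nat_lit 8363939618) (nat_lit 228) (nat_lit 15962727300) (nat_lit 75) (nat_lit 5) (nat_lit 77) (nat_lit 5) (nat_lit 78) (nat_lit 5) (nat_lit 397) (nat_lit 347) (nat_lit 276)))) (XT.nd (nat_lit 78) (nat_lit 380) (nat_lit 0) (XT.lf (nat_lit 0) (nat_lit 19805197090) (nat_lit 228) (nat_lit 1116500175) (nat_lit 76) (nat_lit 4908698273) (nat_lit 75) (nat_lit 5) (nat_lit 78) (nat_lit 5) (nat_lit 76) (nat_lit 5) (nat_lit 398) (nat_lit 347) (nat_lit 275)) (XT.nd (nat_lit 78) (nat_lit 152) (nat_lit 0) (XT.lf (nat_lit 0) (nat_lit 4598927026) (nat_lit 228) (nat_lit 3184700077) (nat_lit 76) (nat_lit 18917612856) (nat_lit 72) (nat_lit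 5) (nat_lit 75) (nat_lit 5) (nat_lit 73) (nat_lit 5) (nat_lit 399) (nat_lit 347) (nat_lit 274)) (XT.lf (nat_lit 0) (nat_lit 15878081146) (nat_lit 228) (nat_lit 5574447485) (nat_lit 76) (nat_lit 6153859170) (nat_lit 70) (nat_lit 5) (nat_lit 73) (nat_lit 5) (nat_lit 71) (nat_lit 5) (nat_lit 400) (nat_lit 347) (nat_lit 273))))) (XT.nd (nat_lit 234) (nat_lit 456) (nat_lit 0) (XT.nd (nat_lit 78) (nat_lit 380) (nat_lit 0) (XT.lf (nat_lit 0) (nat_lit 20272510218) (nat_lit 152) (nat_lit 7719065950) (nat_lit 228) (nat_lit 557109030) (nat_lit 68) (nat_lit 5) (nat_lit 70) (nat_lit 5) (nat_lit 71) (nat_lit 5) (nat_lit 401) (nat_lit 347) (nat_lit 272)) (XT.nd (nat_lit 78) (nat_lit 152) (nat_lit 0) (XT.lf (nat_lit 0) (nat_lit 11219421447) (nat_lit 228) (nat_lit 11421054149) (nat_lit 76) (nat_lit 6886459558) (nat_lit 65) (nat_lit 5) (nat_lit 68) (nat_lit 5) (nat_lit 66) (nat_lit 5) (nat_lit 402) (nat_lit 347)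 (nat_lit 271)) (XT.lf (nat_lit 0) (nat_lit 15586038901) (nat_lit 152) (nat_lit 8266543413) (nat_lit 228) (nat_lit 6692973266) (nat_lit 63) (nat_lit 5) (nat_lit 65) (nat_lit 5) (nat_lit 66) (nat_lit 5) (nat_lit 403) (nat_lit 347) (nat_lit 270)))) (XT.nd (nat_lit 78) (nat_lit 228) (nat_lit 0) (XT.lf (nat_lit 0) (nat_lit 5670210184) (nat_lit 228) (nat_lit 18972233672) (nat_lit 76) (nat_lit 6962820842) (nat_lit 60) (nat_lit 5) (nat_lit 63) (nat_lit 5) (nat_lit 61) (nat_lit 5) (nat_lit 404) (nat_lit 347) (nat_lit 269)) (XT.nd (nat_lit 78) (nat_lit 76) (nat_lit 0) (XT.lf (nat_lit 0) (nat_lit 9170874008) (nat_lit 152) (nat_lit 9637618637) (nat_lit 228) (nat_lit 13898620630) (nat_lit 58) (nat_lit 5) (nat_lit 60) (nat_lit 5) (nat_lit 61) (nat_lit 5) (nat_lit 405) (nat_lit 347) (nat_lit 268)) (XT.lf (nat_lit 0) (nat_lit 5241922041) (nat_lit 76) (nat_lit 27635918344) (nat_lit 152) (nat_lit 977992065) (nat_lit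 57) (nat_lit 5) (nat_lit 58) (nat_lit 5) (nat_lit 59) (nat_lit 4) (nat_lit 406) (nat_lit 347) (nat_lit 267)))))) (XT.nd (nat_lit 468) (nat_lit 684) (nat_lit 0) (XT.nd (nat_lit 234) (nat_lit 456) (nat_lit 0) (XT.nd (nat_lit 78) (nat_lit 152) (nat_lit 0) (XT.lf (nat_lit 0) (nat_lit 629741991) (nat_lit 152) (nat_lit 12029682993) (nat_lit 228) (nat_lit 22389442580) (nat_lit 54) (nat_lit 5) (nat_lit 56) (nat_lit 5) (nat_lit 57) (nat_lit 5) (nat_lit 407) (nat_lit 347) (nat_lit 266)) (XT.nd (nat_lit 78) (nat_lit 152) (nat_lit 0) (XT.lf (nat_lit 0) (nat_lit 27267138990) (nat_lit 228) (nat_lit 4470849032) (nat_lit 76) (nat_lit 4554018726) (nat_lit 54) (nat_lit 5) (nat_lit 57) (nat_lit 5) (nat_lit 55) (nat_lit 4) (nat_lit 408) (nat_lit 347) (nat_lit 265)) (XT.lf (nat_lit 0) (nat_lit 5268461361) (nat_lit 152) (nat_lit 10305808973) (nat_lit 76) (nat_lit 22010843126) (nat_lit 52) (nat_lit 5) (nat_lit 54)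 (nat_lit 5) (nat_lit 53) (nat_lit 5) (nat_lit 409) (nat_lit 347) (nat_lit 264)))) (XT.nd (nat_lit 78) (nat_lit 304) (nat_lit 0) (XT.lf (nat_lit 0) (nat_lit 20337876863) (nat_lit 228) (nat_lit 16895494085) (nat_lit 76) (nat_lit 1699383960) (nat_lit 50) (nat_lit 5) (nat_lit 53) (nat_lit 5) (nat_lit 51) (nat_lit 4) (nat_lit 410) (nat_lit 347) (nat_lit 263)) (XT.nd (nat_lit 78) (nat_lit 228) (nat_lit 0) (XT.lf (nat_lit 0) (nat_lit 15969245855) (nat_lit 76) (nat_lit 20581195672) (nat_lit 152) (nat_lit 3785648547) (nat_lit 49) (nat_lit 5) (nat_lit 50) (nat_lit 5) (nat_lit 51) (nat_lit 4) (nat_lit 411) (nat_lit 347) (nat_lit 262)) (XT.lf (nat_lit 0) (nat_lit 9036009266) (nat_lit 152) (nat_lit 2733397698) (nat_lit 228) (nat_lit 30029746682) (nat_lit 46) (nat_lit 5) (nat_lit 48) (nat_lit 5) (nat_lit 49) (nat_lit 5) (nat_lit 412) (nat_lit 347) (nat_lit 261))))) (XT.nd (nat_lit 234) (nat_lit 380) (nat_lit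 0) (XT.nd (nat_lit 78) (nat_lit 228) (nat_lit 0) (XT.lf (nat_lit 0) (nat_lit 1066065810) (nat_lit 76) (nat_lit 27349045399) (nat_lit 152) (nat_lit 14907400829) (nat_lit 45) (nat_lit 5) (nat_lit 46) (nat_lit 5) (nat_lit 47) (nat_lit 4) (nat_lit 413) (nat_lit 347) (nat_lit 260)) (XT.nd (nat_lit 78) (nat_lit 152) (nat_lit 0) (XT.lf (nat_lit 0) (nat_lit 1293888868) (nat_lit 152) (nat_lit 7730404355) (nat_lit 76) (nat_lit 35887213454) (nat_lit 44) (nat_lit 5) (nat_lit 46) (nat_lit 5) (nat_lit 45) (nat_lit 5) (nat_lit 414) (nat_lit 347) (nat_lit 259)) (XT.lf (nat_lit 0) (nat_lit 18354563363) (nat_lit 228) (nat_lit 17782164481) (nat_lit 76) (nat_lit 10428067964) (nat_lit 42) (nat_lit 5) (nat_lit 45) (nat_lit 5) (nat_lit 43) (nat_lit 4) (nat_lit 415) (nat_lit 347) (nat_lit 258)))) (XT.nd (nat_lit 156) (nat_lit 76) (nat_lit 0) (XT.nd (nat_lit 78) (nat_lit 228) (nat_lit 0) (XT.lf (nat_lit 0) (nat_lit 19221282046)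 (nat_lit 76) (nat_lit 17378594485) (nat_lit 152) (nat_lit 11690926191) (nat_lit 41) (nat_lit 5) (nat_lit 42) (nat_lit 5) (nat_lit 43) (nat_lit 4) (nat_lit 416) (nat_lit 347) (nat_lit 257)) (XT.lf (nat_lit 0) (nat_lit 5810855620) (nat_lit 228) (nat_lit 41708197840) (nat_lit 76) (nat_lit 2574421887) (nat_lit 38) (nat_lit 5) (nat_lit 41) (nat_lit 5) (nat_lit 39) (nat_lit 4) (nat_lit 417) (nat_lit 347) (nat_lit 256))) (XT.nd (nat_lit 78) (nat_lit 76) (nat_lit 0) (XT.lf (nat_lit 0) (nat_lit 24402213097) (nat_lit 228) (nat_lit 3998157771) (nat_lit 76) (nat_lit 23568751296) (nat_lit 38) (nat_lit 5) (nat_lit 41) (nat_lit 5) (nat_lit 39) (nat_lit 4) (nat_lit 418) (nat_lit 347) (nat_lit 255)) (XT.lf (nat_lit 0) (nat_lit 36262357250) (nat_lit 76) (nat_lit 7986891446) (nat_lit 152) (nat_lit 9679520555) (nat_lit 37) (nat_lit 5) (nat_lit 38) (nat_lit 5) (nat_lit 39) (nat_lit 4) (nat_lit 419) (nat_lit 347)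 (nat_lit 254))))))) (XT.nd (nat_lit 936) (nat_lit 304) (nat_lit 0) (XT.nd (nat_lit 468) (nat_lit 456) (nat_lit 0) (XT.nd (nat_lit 234) (nat_lit 228) (nat_lit 0) (XT.nd (nat_lit 78) (nat_lit 76) (nat_lit 0) (XT.lf (nat_lit 0) (nat_lit 9297341504) (nat_lit 152) (nat_lit 33156693306) (nat_lit 76) (nat_lit 13518558491) (nat_lit 35) (nat_lit 5) (nat_lit 37) (nat_lit 5) (nat_lit 36) (nat_lit 4) (nat_lit 420) (nat_lit 347) (nat_lit 253)) (XT.nd (nat_lit 78) (nat_lit 0) (nat_lit 0) (XT.lf (nat_lit 0) (nat_lit 7503550462) (nat_lit 76) (nat_lit 21836033725) (nat_lit 152) (nat_lit 28766648604) (nat_lit 34) (nat_lit 5) (nat_lit 35) (nat_lit 5) (nat_lit 36) (nat_lit 4) (nat_lit 421) (nat_lit 347) (nat_lit 252)) (XT.lf (nat_lit 0) (nat_lit 50705758211) (nat_lit 152) (nat_lit 9488587802) (nat_lit 0) (nat_lit 142554705) (nat_lit 34) (nat_lit 5) (nat_lit 36) (nat_lit 4) (nat_lit 34) (nat_lit 4) (nat_lit 422)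 (nat_lit 347) (nat_lit 251)))) (XT.nd (nat_lit 78) (nat_lit 76) (nat_lit 0) (XT.lf (nat_lit 0) (nat_lit 10790221203) (nat_lit 152) (nat_lit 28681517867) (nat_lit 76) (nat_lit 23188350660) (nat_lit 32) (nat_lit 5) (nat_lit 34) (nat_lit 5) (nat_lit 33) (nat_lit 4) (nat_lit 423) (nat_lit 347) (nat_lit 250)) (XT.nd (nat_lit 78) (nat_lit 0) (nat_lit 0) (XT.lf (nat_lit 0) (nat_lit 14875213804) (nat_lit 76) (nat_lit 17382064240) (nat_lit 152) (nat_lit 32832585972) (nat_lit 31) (nat_lit 5) (nat_lit 32) (nat_lit 5) (nat_lit 33) (nat_lit 4) (nat_lit 424) (nat_lit 347) (nat_lit 249)) (XT.lf (nat_lit 0) (nat_lit 55132473563) (nat_lit 152) (nat_lit 6518987281) (nat_lit 0) (nat_lit 5979623469) (nat_lit 31) (nat_lit 5) (nat_lit 33) (nat_lit 4) (nat_lit 31) (nat_lit 4) (nat_lit 425) (nat_lit 347) (nat_lit 248))))) (XT.nd (nat_lit 234) (nat_lit 228) (nat_lit 0) (XT.nd (nat_lit 78) (nat_lit 76) (nat_lit 0) (XT.lf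 (nat_lit 0) (nat_lit 9225613739) (nat_lit 152) (nat_lit 30443693748) (nat_lit 76) (nat_lit 30611117614) (nat_lit 29) (nat_lit 5) (nat_lit 31) (nat_lit 5) (nat_lit 30) (nat_lit 4) (nat_lit 426) (nat_lit 347) (nat_lit 247)) (XT.nd (nat_lit 78) (nat_lit 0) (nat_lit 0) (XT.lf (nat_lit 0) (nat_lit 15731763265) (nat_lit 76) (nat_lit 16249219656) (nat_lit 152) (nat_lit 41071435598) (nat_lit 28) (nat_lit 5) (nat_lit 29) (nat_lit 5) (nat_lit 30) (nat_lit 4) (nat_lit 427) (nat_lit 347) (nat_lit 246)) (XT.lf (nat_lit 0) (nat_lit 56253204173) (nat_lit 152) (nat_lit 11218746133) (nat_lit 0) (nat_lit 8479689523) (nat_lit 28) (nat_lit 5) (nat_lit 30) (nat_lit 4) (nat_lit 28) (nat_lit 4) (nat_lit 428) (nat_lit 347) (nat_lit 245)))) (XT.nd (nat_lit 78) (nat_lit 76) (nat_lit 0) (XT.lf (nat_lit 0) (nat_lit 3204645299) (nat_lit 152) (nat_lit 41283884990) (nat_lit 76) (nat_lit 34491052675) (nat_lit 26) (nat_lit 5)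 (nat_lit 28) (nat_lit 5) (nat_lit 27) (nat_lit 4) (nat_lit 429) (nat_lit 347) (nat_lit 244)) (XT.nd (nat_lit 78) (nat_lit 0) (nat_lit 0) (XT.lf (nat_lit 0) (nat_lit 7040463155) (nat_lit 76) (nat_lit 19976692513) (nat_lit 152) (nat_lit 55130767133) (nat_lit 25) (nat_lit 5) (nat_lit 26) (nat_lit 5) (nat_lit 27) (nat_lit 4) (nat_lit 430) (nat_lit 347) (nat_lit 243)) (XT.lf (nat_lit 0) (nat_lit 52488772121) (nat_lit 152) (nat_lit 26908998273) (nat_lit 0) (nat_lit 6062855431) (nat_lit 25) (nat_lit 5) (nat_lit 27) (nat_lit 4) (nat_lit 25) (nat_lit 4) (nat_lit 431) (nat_lit 347) (nat_lit 242)))))) (XT.nd (nat_lit 46722) (nat_lit 0) (nat_lit 21888) (XT.nd (nat_lit 312) (nat_lit 76) (nat_lit 0) (XT.nd (nat_lit 78) (nat_lit 152) (nat_lit 0) (XT.lf (nat_lit 0) (nat_lit 23935077968) (nat_lit 76) (nat_lit 55715281478) (nat_lit 76) (nat_lit 9276113436) (nat_lit 24) (nat_lit 4) (nat_lit 25) (nat_lit 5) (nat_lit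 25) (nat_lit 4) (nat_lit 432) (nat_lit 347) (nat_lit 241)) (XT.nd (nat_lit 78) (nat_lit 76) (nat_lit 0) (XT.lf (nat_lit 0) (nat_lit 15564648411) (nat_lit 152) (nat_lit 14855552102) (nat_lit 76) (nat_lit 62132970356) (nat_lit 23) (nat_lit 5) (nat_lit 25) (nat_lit 5) (nat_lit 24) (nat_lit 4) (nat_lit 433) (nat_lit 347) (nat_lit 240)) (XT.lf (nat_lit 0) (nat_lit 38415281979) (nat_lit 76) (nat_lit 3397077490) (nat_lit 152) (nat_lit 54535386857) (nat_lit 22) (nat_lit 5) (nat_lit 23) (nat_lit 5) (nat_lit 24) (nat_lit 4) (nat_lit 434) (nat_lit 347) (nat_lit 239)))) (XT.nd (nat_lit 46254) (nat_lit 0) (nat_lit 24320) (XT.lf (nat_lit 0) (nat_lit 49566687029) (nat_lit 76) (nat_lit 50021375123) (nat_lit 76) (nat_lit 4889184171) (nat_lit 21) (nat_lit 4) (nat_lit 22) (nat_lit 5) (nat_lit 22) (nat_lit 4) (nat_lit 436) (nat_lit 347) (nat_lit 237)) (XT.nd (nat_lit 78) (nat_lit 0) (nat_lit 0) (XT.lf (nat_lit 0)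 (nat_lit 1255802952) (nat_lit 836) (nat_lit 1168225341) (nat_lit 836) (nat_lit 1168225341) (nat_lit 341) (nat_lit 3) (nat_lit 352) (nat_lit 3) (nat_lit 352) (nat_lit 5) (nat_lit 348) (nat_lit 348) (nat_lit 324)) (XT.lf (nat_lit 76) (nat_lit 3560942393) (nat_lit 0) (nat_lit 1736221001) (nat_lit 836) (nat_lit 1984123700) (nat_lit 342) (nat_lit 5) (nat_lit 341) (nat_lit 3) (nat_lit 352) (nat_lit 5) (nat_lit 349) (nat_lit 348) (nat_lit 323))))) (XT.nd (nat_lit 234) (nat_lit 1672) (nat_lit 0) (XT.nd (nat_lit 78) (nat_lit 0) (nat_lit 0) (XT.lf (nat_lit 0) (nat_lit 711016756) (nat_lit 836) (nat_lit 5038925013) (nat_lit 912) (nat_lit 1636144696) (nat_lit 331) (nat_lit 5) (nat_lit 342) (nat_lit 5) (nat_lit 343) (nat_lit 5) (nat_lit 350) (nat_lit 348) (nat_lit 322)) (XT.nd (nat_lit 78) (nat_lit 0) (nat_lit 76) (XT.lf (nat_lit 76) (nat_lit 1188975467) (nat_lit 0) (nat_lit 2212336469) (nat_lit 912) (nat_lit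 4097249610) (nat_lit 332) (nat_lit 5) (nat_lit 331) (nat_lit 5) (nat_lit 343) (nat_lit 5) (nat_lit 351) (nat_lit 348) (nat_lit 321)) (XT.lf (nat_lit 76) (nat_lit 105774916) (nat_lit 0) (nat_lit 6029261718) (nat_lit 912) (nat_lit 1484421121) (nat_lit 333) (nat_lit 5) (nat_lit 332) (nat_lit 5) (nat_lit 344) (nat_lit 5) (nat_lit 352) (nat_lit 348) (nat_lit 320)))) (XT.nd (nat_lit 156) (nat_lit 836) (nat_lit 0) (XT.nd (nat_lit 78) (nat_lit 0) (nat_lit 76) (XT.lf (nat_lit 0) (nat_lit 1168545839) (nat_lit 912) (nat_lit 905832608) (nat_lit 988) (nat_lit 5673695208) (nat_lit 320) (nat_lit 5) (nat_lit 332) (nat_lit 5) (nat_lit 333) (nat_lit 5) (nat_lit 353) (nat_lit 348) (nat_lit 319)) (XT.lf (nat_lit 0) (nat_lit 3856467487) (nat_lit 912) (nat_lit 1866583464) (nat_lit 988) (nat_lit 2161695367) (nat_lit 321) (nat_lit 5) (nat_lit 333) (nat_lit 5) (nat_lit 334) (nat_lit 5) (nat_lit 354) (nat_lit 348) (nat_lit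 318))) (XT.nd (nat_lit 78) (nat_lit 912) (nat_lit 0) (XT.lf (nat_lit 76) (nat_lit 5263704771) (nat_lit 0) (nat_lit 1356048700) (nat_lit 988) (nat_lit 1410324455) (nat_lit 322) (nat_lit 5) (nat_lit 321) (nat_lit 5) (nat_lit 334) (nat_lit 5) (nat_lit 355) (nat_lit 348) (nat_lit 317)) (XT.lf (nat_lit 0) (nat_lit 1272462971) (nat_lit 988) (nat_lit 3630066646) (nat_lit 1064) (nat_lit 3281009113) (nat_lit 309) (nat_lit 5) (nat_lit 322) (nat_lit 5) (nat_lit 323) (nat_lit 5) (nat_lit 356) (nat_lit 348) (nat_lit 316))))))))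
noncomputable def xc63 : XT := (XT.nd (nat_lit 1950) (nat_lit 5548) (nat_lit 0) (XT.nd (nat_lit 936) (nat_lit 5472) (nat_lit 0) (XT.nd (nat_lit 468) (nat_lit 2888) (nat_lit 0) (XT.nd (nat_lit 234) (nat_lit 3116) (nat_lit 0) (XT.nd (nat_lit 78) (nat_lit 2052) (nat_lit 0) (XT.lf (nat_lit 76) (nat_lit 3902490310) (nat_lit 0) (nat_lit 108247543) (nat_lit 1064) (nat_lit 4335048211) (nat_lit 310) (nat_lit 5) (nat_lit 309) (nat_lit 5) (nat_lit 323) (nat_lit 5) (nat_lit 357) (nat_lit 348) (nat_lit 315)) (XT.nd (nat_lit 78) (nat_lit 1140) (nat_lit 0) (XT.lf (nat_lit 0) (nat_lit 3288987941) (nat_lit 988) (nat_lit 3589456228) (nat_lit 1064) (nat_lit 1637971656) (nat_lit 297) (nat_lit 5) (nat_lit 310) (nat_lit 5) (nat_lit 311) (nat_lit 5) (nat_lit 358) (nat_lit 348) (nat_lit 314)) (XT.lf (nat_lit 0) (nat_lit 1139535873) (nat_lit 1140) (nat_lit 5964712921) (nat_lit 76) (nat_lit 1591959855) (nat_lit 282) (nat_lit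 5) (nat_lit 297) (nat_lit 5) (nat_lit 283) (nat_lit 5) (nat_lit 359) (nat_lit 348) (nat_lit 313)))) (XT.nd (nat_lit 78) (nat_lit 1976) (nat_lit 0) (XT.lf (nat_lit 0) (nat_lit 2203540226) (nat_lit 1140) (nat_lit 1815131864) (nat_lit 1216) (nat_lit 4865973774) (nat_lit 267) (nat_lit 5) (nat_lit 282) (nat_lit 5) (nat_lit 283) (nat_lit 5) (nat_lit 360) (nat_lit 348) (nat_lit 312)) (XT.nd (nat_lit 78) (nat_lit 760) (nat_lit 0) (XT.lf (nat_lit 0) (nat_lit 1720204945) (nat_lit 1216) (nat_lit 5325288360) (nat_lit 1292) (nat_lit 2036938023) (nat_lit 251) (nat_lit 5) (nat_lit 267) (nat_lit 5) (nat_lit 268) (nat_lit 5) (nat_lit 361) (nat_lit 348) (nat_lit 311)) (XT.lf (nat_lit 0) (nat_lit 911672182) (nat_lit 760) (nat_lit 8003698797) (nat_lit 76) (nat_lit 374611040) (nat_lit 241) (nat_lit 5) (nat_lit 251) (nat_lit 5) (nat_lit 242) (nat_lit 5) (nat_lit 362) (nat_lit 348) (nat_lit 310))))) (XT.nd (nat_lit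 234) (nat_lit 1064) (nat_lit 0) (XT.nd (nat_lit 78) (nat_lit 1216) (nat_lit 0) (XT.lf (nat_lit 0) (nat_lit 856482669) (nat_lit 608) (nat_lit 3144743803) (nat_lit 684) (nat_lit 5505043193) (nat_lit 233) (nat_lit 5) (nat_lit 241) (nat_lit 5) (nat_lit 242) (nat_lit 5) (nat_lit 363) (nat_lit 348) (nat_lit 309)) (XT.nd (nat_lit 78) (nat_lit 608) (nat_lit 0) (XT.lf (nat_lit 0) (nat_lit 475735302) (nat_lit 608) (nat_lit 6786040158) (nat_lit 684) (nat_lit 2471132793) (nat_lit 225) (nat_lit 5) (nat_lit 233) (nat_lit 5) (nat_lit 234) (nat_lit 5) (nat_lit 364) (nat_lit 348) (nat_lit 308)) (XT.lf (nat_lit 0) (nat_lit 133388137) (nat_lit 532) (nat_lit 593622926) (nat_lit 608) (nat_lit 9242896922) (nat_lit 217) (nat_lit 5) (nat_lit 224) (nat_lit 5) (nat_lit 225) (nat_lit 5) (nat_lit 365) (nat_lit 348) (nat_lit 307)))) (XT.nd (nat_lit 78) (nat_lit 1064) (nat_lit 0) (XT.lf (nat_lit 0) (nat_lit 4094619051) (nat_lit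 608) (nat_lit 211371965) (nat_lit 76) (nat_lit 5910241015) (nat_lit 217) (nat_lit 5) (nat_lit 225) (nat_lit 5) (nat_lit 218) (nat_lit 5) (nat_lit 366) (nat_lit 348) (nat_lit 306)) (XT.nd (nat_lit 78) (nat_lit 532) (nat_lit 0) (XT.lf (nat_lit 0) (nat_lit 7666735575) (nat_lit 608) (nat_lit 508037225) (nat_lit 76) (nat_lit 2299042528) (nat_lit 210) (nat_lit 5) (nat_lit 218) (nat_lit 5) (nat_lit 211) (nat_lit 5) (nat_lit 367) (nat_lit 348) (nat_lit 305)) (XT.lf (nat_lit 0) (nat_lit 716888125) (nat_lit 532) (nat_lit 781374991) (nat_lit 76) (nat_lit 9244140088) (nat_lit 203) (nat_lit 5) (nat_lit 210) (nat_lit 5) (nat_lit 204) (nat_lit 5) (nat_lit 368) (nat_lit 348) (nat_lit 304)))))) (XT.nd (nat_lit 468) (nat_lit 2584) (nat_lit 0) (XT.nd (nat_lit 234) (nat_lit 1368) (nat_lit 0) (XT.nd (nat_lit 78) (nat_lit 988) (nat_lit 0) (XT.lf (nat_lit 0) (nat_lit 4432407445) (nat_lit 608) (nat_lit 1064003462) (nat_lit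 76) (nat_lit 5524997229) (nat_lit 196) (nat_lit 5) (nat_lit 204) (nat_lit 5) (nat_lit 197) (nat_lit 5) (nat_lit 369) (nat_lit 348) (nat_lit 303)) (XT.nd (nat_lit 78) (nat_lit 532) (nat_lit 0) (XT.lf (nat_lit 0) (nat_lit 8389268174) (nat_lit 532) (nat_lit 1306678553) (nat_lit 76) (nat_lit 1616772180) (nat_lit 190) (nat_lit 5) (nat_lit 197) (nat_lit 5) (nat_lit 191) (nat_lit 5) (nat_lit 370) (nat_lit 348) (nat_lit 302)) (XT.lf (nat_lit 0) (nat_lit 994532538) (nat_lit 532) (nat_lit 1543929379) (nat_lit 76) (nat_lit 9077270902) (nat_lit 183) (nat_lit 5) (nat_lit 190) (nat_lit 5) (nat_lit 184) (nat_lit 5) (nat_lit 371) (nat_lit 348) (nat_lit 301)))) (XT.nd (nat_lit 78) (nat_lit 912) (nat_lit 0) (XT.lf (nat_lit 0) (nat_lit 5134110431) (nat_lit 532) (nat_lit 1790486053) (nat_lit 76) (nat_lit 5005867744) (nat_lit 177) (nat_lit 5) (nat_lit 184) (nat_lit 5) (nat_lit 178) (nat_lit 5) (nat_lit 372) (nat_lit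 348) (nat_lit 300)) (XT.nd (nat_lit 78) (nat_lit 456) (nat_lit 0) (XT.lf (nat_lit 0) (nat_lit 9555397773) (nat_lit 532) (nat_lit 2002507357) (nat_lit 76) (nat_lit 700804079) (nat_lit 171) (nat_lit 5) (nat_lit 178) (nat_lit 5) (nat_lit 172) (nat_lit 5) (nat_lit 373) (nat_lit 348) (nat_lit 299)) (XT.lf (nat_lit 0) (nat_lit 1682679108) (nat_lit 456) (nat_lit 2234421799) (nat_lit 76) (nat_lit 8682240990) (nat_lit 165) (nat_lit 5) (nat_lit 171) (nat_lit 5) (nat_lit 166) (nat_lit 5) (nat_lit 374) (nat_lit 348) (nat_lit 298))))) (XT.nd (nat_lit 234) (nat_lit 1368) (nat_lit 0) (XT.nd (nat_lit 78) (nat_lit 836) (nat_lit 0) (XT.lf (nat_lit 0) (nat_lit 6327070799) (nat_lit 456) (nat_lit 2470480786) (nat_lit 76) (nat_lit 4155818021) (nat_lit 160) (nat_lit 5) (nat_lit 166) (nat_lit 5) (nat_lit 161) (nat_lit 5) (nat_lit 375) (nat_lit 348) (nat_lit 297)) (XT.nd (nat_lit 78) (nat_lit 456) (nat_lit 0) (XT.lf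 (nat_lit 0) (nat_lit 10637720486) (nat_lit 380) (nat_lit 664957418) (nat_lit 456) (nat_lit 2019466789) (nat_lit 155) (nat_lit 5) (nat_lit 160) (nat_lit 5) (nat_lit 161) (nat_lit 5) (nat_lit 376) (nat_lit 348) (nat_lit 296)) (XT.lf (nat_lit 0) (nat_lit 2905294093) (nat_lit 456) (nat_lit 2942247345) (nat_lit 76) (nat_lit 7856742073) (nat_lit 149) (nat_lit 5) (nat_lit 155) (nat_lit 5) (nat_lit 150) (nat_lit 5) (nat_lit 377) (nat_lit 348) (nat_lit 295)))) (XT.nd (nat_lit 156) (nat_lit 684) (nat_lit 0) (XT.nd (nat_lit 78) (nat_lit 380) (nat_lit 0) (XT.lf (nat_lit 0) (nat_lit 8139400291) (nat_lit 380) (nat_lit 3197911713) (nat_lit 76) (nat_lit 2764485206) (nat_lit 145) (nat_lit 5) (nat_lit 150) (nat_lit 5) (nat_lit 146) (nat_lit 5) (nat_lit 378) (nat_lit 348) (nat_lit 294)) (XT.lf (nat_lit 0) (nat_lit 11056483126) (nat_lit 380) (nat_lit 2714231628) (nat_lit 456) (nat_lit 744420059) (nat_lit 140) (nat_lit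 5) (nat_lit 145) (nat_lit 5) (nat_lit 146) (nat_lit 5) (nat_lit 379) (nat_lit 348) (nat_lit 293))) (XT.nd (nat_lit 78) (nat_lit 304) (nat_lit 0) (XT.lf (nat_lit 0) (nat_lit 4786927899) (nat_lit 380) (nat_lit 3776478759) (nat_lit 76) (nat_lit 6380033869) (nat_lit 135) (nat_lit 5) (nat_lit 140) (nat_lit 5) (nat_lit 136) (nat_lit 5) (nat_lit 380) (nat_lit 348) (nat_lit 292)) (XT.lf (nat_lit 0) (nat_lit 10700382394) (nat_lit 380) (nat_lit 4089258346) (nat_lit 76) (nat_lit 599683342) (nat_lit 131) (nat_lit 5) (nat_lit 136) (nat_lit 5) (nat_lit 132) (nat_lit 5) (nat_lit 381) (nat_lit 348) (nat_lit 291))))))) (XT.nd (nat_lit 936) (nat_lit 2280) (nat_lit 0) (XT.nd (nat_lit 468) (nat_lit 1444) (nat_lit 0) (XT.nd (nat_lit 234) (nat_lit 912) (nat_lit 0) (XT.nd (nat_lit 78) (nat_lit 532) (nat_lit 0) (XT.lf (nat_lit 0) (nat_lit 1213163439) (nat_lit 380) (nat_lit 4457536767) (nat_lit 76) (nat_lit 10181058545)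 (nat_lit 126) (nat_lit 5) (nat_lit 131) (nat_lit 5) (nat_lit 127) (nat_lit 5) (nat_lit 382) (nat_lit 348) (nat_lit 290)) (XT.nd (nat_lit 78) (nat_lit 228) (nat_lit 0) (XT.lf (nat_lit 0) (nat_lit 7452486539) (nat_lit 380) (nat_lit 4875351062) (nat_lit 76) (nat_lit 4003922499) (nat_lit 122) (nat_lit 5) (nat_lit 127) (nat_lit 5) (nat_lit 123) (nat_lit 5) (nat_lit 383) (nat_lit 348) (nat_lit 289)) (XT.lf (nat_lit 0) (nat_lit 11511722638) (nat_lit 228) (nat_lit 2653757369) (nat_lit 304) (nat_lit 2665440209) (nat_lit 119) (nat_lit 5) (nat_lit 122) (nat_lit 5) (nat_lit 123) (nat_lit 5) (nat_lit 384) (nat_lit 348) (nat_lit 288)))) (XT.nd (nat_lit 78) (nat_lit 532) (nat_lit 0) (XT.lf (nat_lit 0) (nat_lit 3968292427) (nat_lit 380) (nat_lit 5848434032) (nat_lit 76) (nat_lit 7531672722) (nat_lit 114) (nat_lit 5) (nat_lit 119) (nat_lit 5) (nat_lit 115) (nat_lit 5) (nat_lit 385) (nat_lit 348) (nat_lit 287))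 (XT.nd (nat_lit 78) (nat_lit 304) (nat_lit 0) (XT.lf (nat_lit 0) (nat_lit 11025967284) (nat_lit 304) (nat_lit 6417988396) (nat_lit 76) (nat_lit 442591923) (nat_lit 111) (nat_lit 5) (nat_lit 115) (nat_lit 5) (nat_lit 112) (nat_lit 5) (nat_lit 386) (nat_lit 348) (nat_lit 286)) (XT.lf (nat_lit 0) (nat_lit 208110155) (nat_lit 304) (nat_lit 7077749886) (nat_lit 76) (nat_lit 11159068950) (nat_lit 107) (nat_lit 5) (nat_lit 111) (nat_lit 5) (nat_lit 108) (nat_lit 5) (nat_lit 387) (nat_lit 348) (nat_lit 285))))) (XT.nd (nat_lit 234) (nat_lit 684) (nat_lit 0) (XT.nd (nat_lit 78) (nat_lit 532) (nat_lit 0) (XT.lf (nat_lit 0) (nat_lit 7651542124) (nat_lit 304) (nat_lit 7839926353) (nat_lit 76) (nat_lit 3532834966) (nat_lit 104) (nat_lit 5) (nat_lit 108) (nat_lit 5) (nat_lit 105) (nat_lit 5) (nat_lit 388) (nat_lit 348) (nat_lit 284)) (XT.nd (nat_lit 78) (nat_lit 304) (nat_lit 0) (XT.lf (nat_lit 0) (nat_lit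 10941890152) (nat_lit 228) (nat_lit 4731503178) (nat_lit 304) (nat_lit 3953073116) (nat_lit 101) (nat_lit 5) (nat_lit 104) (nat_lit 5) (nat_lit 105) (nat_lit 5) (nat_lit 389) (nat_lit 348) (nat_lit 283)) (XT.lf (nat_lit 0) (nat_lit 3966798265) (nat_lit 304) (nat_lit 9650905324) (nat_lit 76) (nat_lit 6633811516) (nat_lit 97) (nat_lit 5) (nat_lit 101) (nat_lit 5) (nat_lit 98) (nat_lit 5) (nat_lit 390) (nat_lit 348) (nat_lit 282)))) (XT.nd (nat_lit 78) (nat_lit 456) (nat_lit 0) (XT.lf (nat_lit 0) (nat_lit 10164060947) (nat_lit 228) (nat_lit 2229545047) (nat_lit 304) (nat_lit 8507261463) (nat_lit 94) (nat_lit 5) (nat_lit 97) (nat_lit 5) (nat_lit 98) (nat_lit 5) (nat_lit 391) (nat_lit 348) (nat_lit 281)) (XT.nd (nat_lit 78) (nat_lit 304) (nat_lit 0) (XT.lf (nat_lit 0) (nat_lit 9613765041) (nat_lit 152) (nat_lit 11871585564) (nat_lit 228) (nat_lit 90035012) (nat_lit 92) (nat_lit 5) (nat_lit 94) (nat_lit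 5) (nat_lit 95) (nat_lit 5) (nat_lit 392) (nat_lit 348) (nat_lit 280)) (XT.lf (nat_lit 0) (nat_lit 8757136482) (nat_lit 304) (nat_lit 13354913637) (nat_lit 76) (nat_lit 163668755) (nat_lit 88) (nat_lit 5) (nat_lit 92) (nat_lit 5) (nat_lit 89) (nat_lit 5) (nat_lit 393) (nat_lit 348) (nat_lit 279)))))) (XT.nd (nat_lit 468) (nat_lit 1140) (nat_lit 0) (XT.nd (nat_lit 234) (nat_lit 532) (nat_lit 0) (XT.nd (nat_lit 78) (nat_lit 456) (nat_lit 0) (XT.lf (nat_lit 0) (nat_lit 8056368338) (nat_lit 152) (nat_lit 10269435039) (nat_lit 228) (nat_lit 4676814065) (nat_lit 86) (nat_lit 5) (nat_lit 88) (nat_lit 5) (nat_lit 89) (nat_lit 5) (nat_lit 394) (nat_lit 348) (nat_lit 278)) (XT.nd (nat_lit 78) (nat_lit 152) (nat_lit 0) (XT.lf (nat_lit 0) (nat_lit 4707335637) (nat_lit 304) (nat_lit 16702134496) (nat_lit 76) (nat_lit 2349361404) (nat_lit 82) (nat_lit 5) (nat_lit 86) (nat_lit 5) (nat_lit 83) (nat_lit 5) (nat_lit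 395) (nat_lit 348) (nat_lit 277)) (XT.lf (nat_lit 0) (nat_lit 5818430742) (nat_lit 152) (nat_lit 8922660866) (nat_lit 228) (nat_lit 9802066619) (nat_lit 80) (nat_lit 5) (nat_lit 82) (nat_lit 5) (nat_lit 83) (nat_lit 5) (nat_lit 396) (nat_lit 348) (nat_lit 276)))) (XT.nd (nat_lit 78) (nat_lit 304) (nat_lit 0) (XT.lf (nat_lit 0) (nat_lit 132471695) (nat_lit 228) (nat_lit 20929997901) (nat_lit 76) (nat_lit 4297635681) (nat_lit 77) (nat_lit 5) (nat_lit 80) (nat_lit 5) (nat_lit 78) (nat_lit 5) (nat_lit 397) (nat_lit 348) (nat_lit 275)) (XT.nd (nat_lit 78) (nat_lit 152) (nat_lit 0) (XT.lf (nat_lit 0) (nat_lit 2719595725) (nat_lit 152) (nat_lit 7917209045) (nat_lit 228) (nat_lit 15569913871) (nat_lit 75) (nat_lit 5) (nat_lit 77) (nat_lit 5) (nat_lit 78) (nat_lit 5) (nat_lit 398) (nat_lit 348) (nat_lit 274)) (XT.lf (nat_lit 0) (nat_lit 793213394) (nat_lit 152) (nat_lit 21118870336) (nat_lit 228) (nat_lit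 5176211027) (nat_lit 73) (nat_lit 5) (nat_lit 75) (nat_lit 5) (nat_lit 76) (nat_lit 5) (nat_lit 399) (nat_lit 348) (nat_lit 273))))) (XT.nd (nat_lit 234) (nat_lit 684) (nat_lit 0) (XT.nd (nat_lit 78) (nat_lit 380) (nat_lit 0) (XT.lf (nat_lit 0) (nat_lit 5914024858) (nat_lit 228) (nat_lit 1428063813) (nat_lit 76) (nat_lit 20661546162) (nat_lit 72) (nat_lit 5) (nat_lit 75) (nat_lit 5) (nat_lit 73) (nat_lit 5) (nat_lit 400) (nat_lit 348) (nat_lit 272)) (XT.nd (nat_lit 78) (nat_lit 228) (nat_lit 0) (XT.lf (nat_lit 0) (nat_lit 17731133670) (nat_lit 228) (nat_lit 3968350697) (nat_lit 76) (nat_lit 7255341152) (nat_lit 70) (nat_lit 5) (nat_lit 73) (nat_lit 5) (nat_lit 71) (nat_lit 5) (nat_lit 401) (nat_lit 348) (nat_lit 271)) (XT.lf (nat_lit 0) (nat_lit 463023412) (nat_lit 228) (nat_lit 6832840517) (nat_lit 76) (nat_lit 22649227888) (nat_lit 67) (nat_lit 5) (nat_lit 70) (nat_lit 5) (nat_lit 68) (nat_lit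 5) (nat_lit 402) (nat_lit 348) (nat_lit 270)))) (XT.nd (nat_lit 156) (nat_lit 380) (nat_lit 0) (XT.nd (nat_lit 78) (nat_lit 152) (nat_lit 0) (XT.lf (nat_lit 0) (nat_lit 12792524695) (nat_lit 228) (nat_lit 10171062606) (nat_lit 76) (nat_lit 8009236227) (nat_lit 65) (nat_lit 5) (nat_lit 68) (nat_lit 5) (nat_lit 66) (nat_lit 5) (nat_lit 403) (nat_lit 348) (nat_lit 269)) (XT.lf (nat_lit 0) (nat_lit 18134185228) (nat_lit 152) (nat_lit 7891964820) (nat_lit 228) (nat_lit 6017165230) (nat_lit 63) (nat_lit 5) (nat_lit 65) (nat_lit 5) (nat_lit 66) (nat_lit 5) (nat_lit 404) (nat_lit 348) (nat_lit 268))) (XT.nd (nat_lit 78) (nat_lit 152) (nat_lit 0) (XT.lf (nat_lit 0) (nat_lit 6921452551) (nat_lit 228) (nat_lit 18162046415) (nat_lit 76) (nat_lit 8072913866) (nat_lit 60) (nat_lit 5) (nat_lit 63) (nat_lit 5) (nat_lit 61) (nat_lit 5) (nat_lit 405) (nat_lit 348) (nat_lit 267)) (XT.lf (nat_lit 0) (nat_lit 11337801030)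 (nat_lit 152) (nat_lit 9349187661) (nat_lit 228) (nat_lit 13627258919) (nat_lit 58) (nat_lit 5) (nat_lit 60) (nat_lit 5) (nat_lit 61) (nat_lit 5) (nat_lit 406) (nat_lit 348) (nat_lit 266))))))))
noncomputable def xc64 : XT := (XT.nd (nat_lit 1872) (nat_lit 304) (nat_lit 0) (XT.nd (nat_lit 936) (nat_lit 912) (nat_lit 0) (XT.nd (nat_lit 468) (nat_lit 836) (nat_lit 0) (XT.nd (nat_lit 234) (nat_lit 380) (nat_lit 0) (XT.nd (nat_lit 78) (nat_lit 228) (nat_lit 0) (XT.lf (nat_lit 0) (nat_lit 7183650915) (nat_lit 76) (nat_lit 28254680598) (nat_lit 152) (nat_lit 82719171) (nat_lit 57) (nat_lit 5) (nat_lit 58) (nat_lit 5) (nat_lit 59) (nat_lit 4) (nat_lit 407) (nat_lit 348) (nat_lit 265)) (XT.nd (nat_lit 78) (nat_lit 0) (nat_lit 0) (XT.lf (nat_lit 0) (nat_lit 2310682727) (nat_lit 152) (nat_lit 11879234103) (nat_lit 228) (nat_lit 22584398763) (nat_lit 54) (nat_lit 5) (nat_lit 56) (nat_lit 5) (nat_lit 57)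 (nat_lit 5) (nat_lit 408) (nat_lit 348) (nat_lit 264)) (XT.lf (nat_lit 0) (nat_lit 29492161308) (nat_lit 228) (nat_lit 3104657250) (nat_lit 76) (nat_lit 5483872155) (nat_lit 54) (nat_lit 5) (nat_lit 57) (nat_lit 5) (nat_lit 55) (nat_lit 4) (nat_lit 409) (nat_lit 348) (nat_lit 263)))) (XT.nd (nat_lit 78) (nat_lit 228) (nat_lit 0) (XT.lf (nat_lit 0) (nat_lit 6375695635) (nat_lit 152) (nat_lit 9260079696) (nat_lit 76) (nat_lit 23803218058) (nat_lit 52) (nat_lit 5) (nat_lit 54) (nat_lit 5) (nat_lit 53) (nat_lit 5) (nat_lit 410) (nat_lit 348) (nat_lit 262)) (XT.nd (nat_lit 78) (nat_lit 76) (nat_lit 0) (XT.lf (nat_lit 0) (nat_lit 22179686034) (nat_lit 228) (nat_lit 16206101005) (nat_lit 76) (nat_lit 2468799671) (nat_lit 50) (nat_lit 5) (nat_lit 53) (nat_lit 5) (nat_lit 51) (nat_lit 4) (nat_lit 411) (nat_lit 348) (nat_lit 261)) (XT.lf (nat_lit 0) (nat_lit 18257899320) (nat_lit 76) (nat_lit 20920022558)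 (nat_lit 152) (nat_lit 3150918253) (nat_lit 49) (nat_lit 5) (nat_lit 50) (nat_lit 5) (nat_lit 51) (nat_lit 4) (nat_lit 412) (nat_lit 348) (nat_lit 260))))) (XT.nd (nat_lit 234) (nat_lit 456) (nat_lit 0) (XT.nd (nat_lit 78) (nat_lit 152) (nat_lit 0) (XT.lf (nat_lit 0) (nat_lit 10950955938) (nat_lit 152) (nat_lit 2190446283) (nat_lit 228) (nat_lit 30724151860) (nat_lit 46) (nat_lit 5) (nat_lit 48) (nat_lit 5) (nat_lit 49) (nat_lit 5) (nat_lit 413) (nat_lit 348) (nat_lit 259)) (XT.nd (nat_lit 78) (nat_lit 76) (nat_lit 0) (XT.lf (nat_lit 0) (nat_lit 2557110831) (nat_lit 76) (nat_lit 28045012434) (nat_lit 152) (nat_lit 14863477632) (nat_lit 45) (nat_lit 5) (nat_lit 46) (nat_lit 5) (nat_lit 47) (nat_lit 4) (nat_lit 414) (nat_lit 348) (nat_lit 258)) (XT.lf (nat_lit 0) (nat_lit 2095622630) (nat_lit 152) (nat_lit 6732932855) (nat_lit 76) (nat_lit 38306369994) (nat_lit 44) (nat_lit 5) (nat_lit 46) (nat_lit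 5) (nat_lit 45) (nat_lit 5) (nat_lit 415) (nat_lit 348) (nat_lit 257)))) (XT.nd (nat_lit 78) (nat_lit 304) (nat_lit 0) (XT.lf (nat_lit 0) (nat_lit 19993206873) (nat_lit 228) (nat_lit 17311514409) (nat_lit 76) (nat_lit 11566643663) (nat_lit 42) (nat_lit 5) (nat_lit 45) (nat_lit 5) (nat_lit 43) (nat_lit 4) (nat_lit 416) (nat_lit 348) (nat_lit 256)) (XT.nd (nat_lit 78) (nat_lit 228) (nat_lit 0) (XT.lf (nat_lit 0) (nat_lit 21503127245) (nat_lit 76) (nat_lit 17626025308) (nat_lit 152) (nat_lit 11555170703) (nat_lit 41) (nat_lit 5) (nat_lit 42) (nat_lit 5) (nat_lit 43) (nat_lit 4) (nat_lit 417) (nat_lit 348) (nat_lit 255)) (XT.lf (nat_lit 0) (nat_lit 6792356019) (nat_lit 228) (nat_lit 42482283011) (nat_lit 76) (nat_lit 3302743320) (nat_lit 38) (nat_lit 5) (nat_lit 41) (nat_lit 5) (nat_lit 39) (nat_lit 4) (nat_lit 418) (nat_lit 348) (nat_lit 254)))))) (XT.nd (nat_lit 468) (nat_lit 456) (nat_lit 0) (XT.nd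 (nat_lit 234) (nat_lit 228) (nat_lit 0) (XT.nd (nat_lit 78) (nat_lit 228) (nat_lit 0) (XT.lf (nat_lit 0) (nat_lit 26280378625) (nat_lit 228) (nat_lit 2949184974) (nat_lit 76) (nat_lit 25318236803) (nat_lit 38) (nat_lit 5) (nat_lit 41) (nat_lit 5) (nat_lit 39) (nat_lit 4) (nat_lit 419) (nat_lit 348) (nat_lit 253)) (XT.nd (nat_lit 78) (nat_lit 152) (nat_lit 0) (XT.lf (nat_lit 0) (nat_lit 39288556884) (nat_lit 76) (nat_lit 7811534058) (nat_lit 152) (nat_lit 9505930878) (nat_lit 37) (nat_lit 5) (nat_lit 38) (nat_lit 5) (nat_lit 39) (nat_lit 4) (nat_lit 420) (nat_lit 348) (nat_lit 252)) (XT.lf (nat_lit 0) (nat_lit 10393122186) (nat_lit 152) (nat_lit 33610360725) (nat_lit 76) (nat_lit 14748780748) (nat_lit 35) (nat_lit 5) (nat_lit 37) (nat_lit 5) (nat_lit 36) (nat_lit 4) (nat_lit 421) (nat_lit 348) (nat_lit 251)))) (XT.nd (nat_lit 78) (nat_lit 152) (nat_lit 0) (XT.lf (nat_lit 0) (nat_lit 9048378020)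 (nat_lit 76) (nat_lit 22370298870) (nat_lit 152) (nat_lit 29574473756) (nat_lit 34) (nat_lit 5) (nat_lit 35) (nat_lit 5) (nat_lit 36) (nat_lit 4) (nat_lit 422) (nat_lit 348) (nat_lit 250)) (XT.nd (nat_lit 78) (nat_lit 152) (nat_lit 0) (XT.lf (nat_lit 0) (nat_lit 53829115527) (nat_lit 152) (nat_lit 8836651061) (nat_lit 0) (nat_lit 670308150) (nat_lit 34) (nat_lit 5) (nat_lit 36) (nat_lit 4) (nat_lit 34) (nat_lit 4) (nat_lit 423) (nat_lit 348) (nat_lit 249)) (XT.lf (nat_lit 0) (nat_lit 11905991676) (nat_lit 152) (nat_lit 29010019243) (nat_lit 76) (nat_lit 24859768762) (nat_lit 32) (nat_lit 5) (nat_lit 34) (nat_lit 5) (nat_lit 33) (nat_lit 4) (nat_lit 424) (nat_lit 348) (nat_lit 248))))) (XT.nd (nat_lit 234) (nat_lit 228) (nat_lit 0) (XT.nd (nat_lit 78) (nat_lit 152) (nat_lit 0) (XT.lf (nat_lit 0) (nat_lit 16692857941) (nat_lit 76) (nat_lit 17736425319) (nat_lit 152) (nat_lit 33898274239) (nat_lit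 31) (nat_lit 5) (nat_lit 32) (nat_lit 5) (nat_lit 33) (nat_lit 4) (nat_lit 425) (nat_lit 348) (nat_lit 247)) (XT.nd (nat_lit 78) (nat_lit 152) (nat_lit 0) (XT.lf (nat_lit 0) (nat_lit 58426325174) (nat_lit 152) (nat_lit 5810903170) (nat_lit 0) (nat_lit 6759269081) (nat_lit 31) (nat_lit 5) (nat_lit 33) (nat_lit 4) (nat_lit 31) (nat_lit 4) (nat_lit 426) (nat_lit 348) (nat_lit 246)) (XT.lf (nat_lit 0) (nat_lit 10213378968) (nat_lit 152) (nat_lit 30950984810) (nat_lit 76) (nat_lit 32614265605) (nat_lit 29) (nat_lit 5) (nat_lit 31) (nat_lit 5) (nat_lit 30) (nat_lit 4) (nat_lit 427) (nat_lit 348) (nat_lit 245)))) (XT.nd (nat_lit 78) (nat_lit 152) (nat_lit 0) (XT.lf (nat_lit 0) (nat_lit 17504153331) (nat_lit 76) (nat_lit 16586768716) (nat_lit 152) (nat_lit 42598769329) (nat_lit 28) (nat_lit 5) (nat_lit 29) (nat_lit 5) (nat_lit 30) (nat_lit 4) (nat_lit 428) (nat_lit 348) (nat_lit 244)) (XT.nd (nat_lit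 78) (nat_lit 152) (nat_lit 0) (XT.lf (nat_lit 0) (nat_lit 59556774024) (nat_lit 152) (nat_lit 10830555032) (nat_lit 0) (nat_lit 9347145124) (nat_lit 28) (nat_lit 5) (nat_lit 30) (nat_lit 4) (nat_lit 28) (nat_lit 4) (nat_lit 429) (nat_lit 348) (nat_lit 243)) (XT.lf (nat_lit 0) (nat_lit 3846008421) (nat_lit 152) (nat_lit 42416563142) (nat_lit 76) (nat_lit 36651537807) (nat_lit 26) (nat_lit 5) (nat_lit 28) (nat_lit 5) (nat_lit 27) (nat_lit 4) (nat_lit 430) (nat_lit 348) (nat_lit 242))))))) (XT.nd (nat_lit 47268) (nat_lit 0) (nat_lit 13832) (XT.nd (nat_lit 46800) (nat_lit 0) (nat_lit 21736) (XT.nd (nat_lit 234) (nat_lit 152) (nat_lit 0) (XT.nd (nat_lit 78) (nat_lit 76) (nat_lit 0) (XT.lf (nat_lit 0) (nat_lit 8297300688) (nat_lit 76) (nat_lit 20537630256) (nat_lit 152) (nat_lit 57406362551) (nat_lit 25) (nat_lit 5) (nat_lit 26) (nat_lit 5) (nat_lit 27) (nat_lit 4) (nat_lit 431) (nat_lit 348) (nat_lit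 241)) (XT.nd (nat_lit 78) (nat_lit 76) (nat_lit 0) (XT.lf (nat_lit 0) (nat_lit 55561902942) (nat_lit 152) (nat_lit 27383371530) (nat_lit 0) (nat_lit 6774904810) (nat_lit 25) (nat_lit 5) (nat_lit 27) (nat_lit 4) (nat_lit 25) (nat_lit 4) (nat_lit 432) (nat_lit 348) (nat_lit 240)) (XT.lf (nat_lit 0) (nat_lit 25977939286) (nat_lit 76) (nat_lit 58090397354) (nat_lit 76) (nat_lit 9291379855) (nat_lit 24) (nat_lit 4) (nat_lit 25) (nat_lit 5) (nat_lit 25) (nat_lit 4) (nat_lit 433) (nat_lit 348) (nat_lit 239)))) (XT.nd (nat_lit 156) (nat_lit 76) (nat_lit 0) (XT.lf (nat_lit 0) (nat_lit 16761725247) (nat_lit 152) (nat_lit 14784162262) (nat_lit 76) (nat_lit 65622361540) (nat_lit 23) (nat_lit 5) (nat_lit 25) (nat_lit 5) (nat_lit 24) (nat_lit 4) (nat_lit 434) (nat_lit 348) (nat_lit 238)) (XT.nd (nat_lit 46332) (nat_lit 0) (nat_lit 23408) (XT.lf (nat_lit 0) (nat_lit 73631299229) (nat_lit 152) (nat_lit 5471800152)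 (nat_lit 0) (nat_lit 26221833971) (nat_lit 22) (nat_lit 5) (nat_lit 24) (nat_lit 4) (nat_lit 22) (nat_lit 4) (nat_lit 436) (nat_lit 348) (nat_lit 236)) (XT.lf (nat_lit 0) (nat_lit 135566409) (nat_lit 0) (nat_lit 135566409) (nat_lit 836) (nat_lit 3420046036) (nat_lit 330) (nat_lit 5) (nat_lit 330) (nat_lit 3) (nat_lit 341) (nat_lit 3) (nat_lit 349) (nat_lit 349) (nat_lit 322))))) (XT.nd (nat_lit 234) (nat_lit 836) (nat_lit 0) (XT.nd (nat_lit 78) (nat_lit 836) (nat_lit 0) (XT.lf (nat_lit 0) (nat_lit 3076134069) (nat_lit 836) (nat_lit 1133449134) (nat_lit 912) (nat_lit 3280711539) (nat_lit 330) (nat_lit 5) (nat_lit 341) (nat_lit 3) (nat_lit 342) (nat_lit 5) (nat_lit 350) (nat_lit 349) (nat_lit 321)) (XT.nd (nat_lit 78) (nat_lit 836) (nat_lit 0) (XT.lf (nat_lit 76) (nat_lit 5155843092) (nat_lit 0) (nat_lit 474643520) (nat_lit 912) (nat_lit 1976393107) (nat_lit 331) (nat_lit 5) (nat_lit 330) (nat_lit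 5) (nat_lit 342) (nat_lit 5) (nat_lit 351) (nat_lit 349) (nat_lit 320)) (XT.lf (nat_lit 0) (nat_lit 503536526) (nat_lit 912) (nat_lit 3725033386) (nat_lit 988) (nat_lit 3502666108) (nat_lit 319) (nat_lit 5) (nat_lit 331) (nat_lit 5) (nat_lit 332) (nat_lit 5) (nat_lit 352) (nat_lit 349) (nat_lit 319)))) (XT.nd (nat_lit 78) (nat_lit 836) (nat_lit 0) (XT.lf (nat_lit 76) (nat_lit 2919939271) (nat_lit 0) (nat_lit 59158273) (nat_lit 988) (nat_lit 4884807330) (nat_lit 320) (nat_lit 5) (nat_lit 319) (nat_lit 5) (nat_lit 332) (nat_lit 5) (nat_lit 353) (nat_lit 349) (nat_lit 318)) (XT.nd (nat_lit 78) (nat_lit 912) (nat_lit 0) (XT.lf (nat_lit 76) (nat_lit 1876917779) (nat_lit 0) (nat_lit 3660246324) (nat_lit 988) (nat_lit 2467335604) (nat_lit 321) (nat_lit 5) (nat_lit 320) (nat_lit 5) (nat_lit 333) (nat_lit 5) (nat_lit 354) (nat_lit 349) (nat_lit 317)) (XT.lf (nat_lit 0) (nat_lit 4157637) (nat_lit 988)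 (nat_lit 7246471234) (nat_lit 1064) (nat_lit 903489187) (nat_lit 308) (nat_lit 5) (nat_lit 321) (nat_lit 5) (nat_lit 322) (nat_lit 5) (nat_lit 355) (nat_lit 349) (nat_lit 316)))))) (XT.nd (nat_lit 468) (nat_lit 4788) (nat_lit 0) (XT.nd (nat_lit 234) (nat_lit 3116) (nat_lit 0) (XT.nd (nat_lit 78) (nat_lit 0) (nat_lit 76) (XT.lf (nat_lit 0) (nat_lit 2520169139) (nat_lit 988) (nat_lit 41734260) (nat_lit 1064) (nat_lit 5749469771) (nat_lit 308) (nat_lit 5) (nat_lit 321) (nat_lit 5) (nat_lit 322) (nat_lit 5) (nat_lit 356) (nat_lit 349) (nat_lit 315)) (XT.nd (nat_lit 78) (nat_lit 0) (nat_lit 0) (XT.lf (nat_lit 0) (nat_lit 5135628731) (nat_lit 988) (nat_lit 918795002) (nat_lit 1064) (nat_lit 2422903470) (nat_lit 309) (nat_lit 5) (nat_lit 322) (nat_lit 5) (nat_lit 323) (nat_lit 5) (nat_lit 357) (nat_lit 349) (nat_lit 314)) (XT.lf (nat_lit 76) (nat_lit 6907468988) (nat_lit 0) (nat_lit 949427806) (nat_lit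 1064) (nat_lit 795474497) (nat_lit 310) (nat_lit 5) (nat_lit 309) (nat_lit 5) (nat_lit 323) (nat_lit 5) (nat_lit 358) (nat_lit 349) (nat_lit 313)))) (XT.nd (nat_lit 78) (nat_lit 2204) (nat_lit 0) (XT.lf (nat_lit 0) (nat_lit 1841223174) (nat_lit 1064) (nat_lit 2556182593) (nat_lit 76) (nat_lit 4438266066) (nat_lit 296) (nat_lit 5) (nat_lit 310) (nat_lit 5) (nat_lit 297) (nat_lit 5) (nat_lit 359) (nat_lit 349) (nat_lit 312)) (XT.nd (nat_lit 78) (nat_lit 1140) (nat_lit 0) (XT.lf (nat_lit 0) (nat_lit 4577967007) (nat_lit 1140) (nat_lit 3322345691) (nat_lit 76) (nat_lit 1128086772) (nat_lit 282) (nat_lit 5) (nat_lit 297) (nat_lit 5) (nat_lit 283) (nat_lit 5) (nat_lit 360) (nat_lit 349) (nat_lit 311)) (XT.lf (nat_lit 0) (nat_lit 5170028322) (nat_lit 1140) (nat_lit 2297466686) (nat_lit 1216) (nat_lit 1762826487) (nat_lit 267) (nat_lit 5) (nat_lit 282) (nat_lit 5) (nat_lit 283) (nat_lit 5) (nat_lit 361)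 (nat_lit 349) (nat_lit 310))))) (XT.nd (nat_lit 234) (nat_lit 2204) (nat_lit 0) (XT.nd (nat_lit 78) (nat_lit 1292) (nat_lit 0) (XT.lf (nat_lit 0) (nat_lit 1052128366) (nat_lit 1292) (nat_lit 4772244747) (nat_lit 76) (nat_lit 3617285642) (nat_lit 250) (nat_lit 5) (nat_lit 267) (nat_lit 5) (nat_lit 251) (nat_lit 5) (nat_lit 362) (nat_lit 349) (nat_lit 309)) (XT.nd (nat_lit 78) (nat_lit 608) (nat_lit 0) (XT.lf (nat_lit 0) (nat_lit 3982234774) (nat_lit 760) (nat_lit 5457102271) (nat_lit 76) (nat_lit 223408436) (nat_lit 241) (nat_lit 5) (nat_lit 251) (nat_lit 5) (nat_lit 242) (nat_lit 5) (nat_lit 363) (nat_lit 349) (nat_lit 308)) (XT.lf (nat_lit 0) (nat_lit 3761619369) (nat_lit 608) (nat_lit 3348115091) (nat_lit 684) (nat_lit 2783655985) (nat_lit 233) (nat_lit 5) (nat_lit 241) (nat_lit 5) (nat_lit 242) (nat_lit 5) (nat_lit 364) (nat_lit 349) (nat_lit 307)))) (XT.nd (nat_lit 156) (nat_lit 988) (nat_lit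 0) (XT.nd (nat_lit 78) (nat_lit 532) (nat_lit 0) (XT.lf (nat_lit 0) (nat_lit 281593346) (nat_lit 684) (nat_lit 6771624955) (nat_lit 76) (nat_lit 3081445566) (nat_lit 224) (nat_lit 5) (nat_lit 233) (nat_lit 5) (nat_lit 225) (nat_lit 5) (nat_lit 365) (nat_lit 349) (nat_lit 306)) (XT.lf (nat_lit 0) (nat_lit 2979721912) (nat_lit 532) (nat_lit 502032527) (nat_lit 608) (nat_lit 6904269999) (nat_lit 217) (nat_lit 5) (nat_lit 224) (nat_lit 5) (nat_lit 225) (nat_lit 5) (nat_lit 366) (nat_lit 349) (nat_lit 305))) (XT.nd (nat_lit 78) (nat_lit 456) (nat_lit 0) (XT.lf (nat_lit 0) (nat_lit 2610793592) (nat_lit 532) (nat_lit 4303708726) (nat_lit 608) (nat_lit 3733298972) (nat_lit 210) (nat_lit 5) (nat_lit 217) (nat_lit 5) (nat_lit 218) (nat_lit 5) (nat_lit 367) (nat_lit 349) (nat_lit 304)) (XT.lf (nat_lit 0) (nat_lit 2286751047) (nat_lit 456) (nat_lit 8280008934) (nat_lit 532) (nat_lit 354495225) (nat_lit 204)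 (nat_lit 5) (nat_lit 210) (nat_lit 5) (nat_lit 211) (nat_lit 5) (nat_lit 368) (nat_lit 349) (nat_lit 303))))))))
noncomputable def xc65 : XT := (XT.nd (nat_lit 1950) (nat_lit 3800) (nat_lit 0) (XT.nd (nat_lit 936) (nat_lit 3648) (nat_lit 0) (XT.nd (nat_lit 468) (nat_lit 2052) (nat_lit 0) (XT.nd (nat_lit 234) (nat_lit 1368) (nat_lit 0) (XT.nd (nat_lit 78) (nat_lit 912) (nat_lit 0) (XT.lf (nat_lit 0) (nat_lit 1962846764) (nat_lit 532) (nat_lit 1235061014) (nat_lit 608) (nat_lit 8007566606) (nat_lit 196) (nat_lit 5) (nat_lit 203) (nat_lit 5) (nat_lit 204) (nat_lit 5) (nat_lit 369) (nat_lit 349) (nat_lit 302)) (XT.nd (nat_lit 78) (nat_lit 456) (nat_lit 0) (XT.lf (nat_lit 0) (nat_lit 1648856659) (nat_lit 456) (nat_lit 5360591094) (nat_lit 532) (nat_lit 4491707504) (nat_lit 190) (nat_lit 5) (nat_lit 196) (nat_lit 5) (nat_lit 197) (nat_lit 5) (nat_lit 370) (nat_lit 349) (nat_lit 301)) (XT.lf (nat_lit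 0) (nat_lit 1374709180) (nat_lit 456) (nat_lit 9704788077) (nat_lit 532) (nat_lit 730105401) (nat_lit 184) (nat_lit 5) (nat_lit 190) (nat_lit 5) (nat_lit 191) (nat_lit 5) (nat_lit 371) (nat_lit 349) (nat_lit 300)))) (XT.nd (nat_lit 78) (nat_lit 836) (nat_lit 0) (XT.lf (nat_lit 0) (nat_lit 1086320825) (nat_lit 456) (nat_lit 2165951893) (nat_lit 532) (nat_lit 8877424526) (nat_lit 177) (nat_lit 5) (nat_lit 183) (nat_lit 5) (nat_lit 184) (nat_lit 5) (nat_lit 372) (nat_lit 349) (nat_lit 299)) (XT.nd (nat_lit 78) (nat_lit 380) (nat_lit 0) (XT.lf (nat_lit 0) (nat_lit 804304577) (nat_lit 456) (nat_lit 6716971568) (nat_lit 532) (nat_lit 4941243385) (nat_lit 171) (nat_lit 5) (nat_lit 177) (nat_lit 5) (nat_lit 178) (nat_lit 5) (nat_lit 373) (nat_lit 349) (nat_lit 298)) (XT.lf (nat_lit 0) (nat_lit 557042124) (nat_lit 380) (nat_lit 11533287926) (nat_lit 456) (nat_lit 719072030) (nat_lit 166) (nat_lit 5) (nat_lit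 171) (nat_lit 5) (nat_lit 172) (nat_lit 5) (nat_lit 374) (nat_lit 349) (nat_lit 297))))) (XT.nd (nat_lit 234) (nat_lit 1216) (nat_lit 0) (XT.nd (nat_lit 78) (nat_lit 380) (nat_lit 0) (XT.lf (nat_lit 0) (nat_lit 272318897) (nat_lit 380) (nat_lit 3496031766) (nat_lit 456) (nat_lit 9400424251) (nat_lit 160) (nat_lit 5) (nat_lit 165) (nat_lit 5) (nat_lit 166) (nat_lit 5) (nat_lit 375) (nat_lit 349) (nat_lit 296)) (XT.nd (nat_lit 78) (nat_lit 380) (nat_lit 0) (XT.lf (nat_lit 0) (nat_lit 8577421472) (nat_lit 456) (nat_lit 3318387) (nat_lit 76) (nat_lit 4961813600) (nat_lit 160) (nat_lit 5) (nat_lit 166) (nat_lit 5) (nat_lit 161) (nat_lit 5) (nat_lit 376) (nat_lit 349) (nat_lit 295)) (XT.lf (nat_lit 0) (nat_lit 13686031442) (nat_lit 380) (nat_lit 47871804) (nat_lit 456) (nat_lit 197923352) (nat_lit 155) (nat_lit 5) (nat_lit 160) (nat_lit 5) (nat_lit 161) (nat_lit 5) (nat_lit 377) (nat_lit 349) (nat_lit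 294)))) (XT.nd (nat_lit 78) (nat_lit 760) (nat_lit 0) (XT.lf (nat_lit 0) (nat_lit 4876012814) (nat_lit 456) (nat_lit 559592549) (nat_lit 76) (nat_lit 8898719470) (nat_lit 149) (nat_lit 5) (nat_lit 155) (nat_lit 5) (nat_lit 150) (nat_lit 5) (nat_lit 378) (nat_lit 349) (nat_lit 293)) (XT.nd (nat_lit 78) (nat_lit 456) (nat_lit 0) (XT.lf (nat_lit 0) (nat_lit 10315200310) (nat_lit 380) (nat_lit 853982973) (nat_lit 76) (nat_lit 3584249142) (nat_lit 145) (nat_lit 5) (nat_lit 150) (nat_lit 5) (nat_lit 146) (nat_lit 5) (nat_lit 379) (nat_lit 349) (nat_lit 292)) (XT.lf (nat_lit 0) (nat_lit 958864572) (nat_lit 456) (nat_lit 1157321664) (nat_lit 76) (nat_lit 13072812762) (nat_lit 139) (nat_lit 5) (nat_lit 145) (nat_lit 5) (nat_lit 140) (nat_lit 5) (nat_lit 380) (nat_lit 349) (nat_lit 291)))))) (XT.nd (nat_lit 468) (nat_lit 1748) (nat_lit 0) (XT.nd (nat_lit 234) (nat_lit 912) (nat_lit 0) (XT.nd (nat_lit 78)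 (nat_lit 684) (nat_lit 0) (XT.lf (nat_lit 0) (nat_lit 6699420934) (nat_lit 380) (nat_lit 1525951783) (nat_lit 76) (nat_lit 7414702223) (nat_lit 135) (nat_lit 5) (nat_lit 140) (nat_lit 5) (nat_lit 136) (nat_lit 5) (nat_lit 381) (nat_lit 349) (nat_lit 290)) (XT.nd (nat_lit 78) (nat_lit 380) (nat_lit 0) (XT.lf (nat_lit 0) (nat_lit 12858890899) (nat_lit 380) (nat_lit 1882719510) (nat_lit 76) (nat_lit 1368148326) (nat_lit 131) (nat_lit 5) (nat_lit 136) (nat_lit 5) (nat_lit 132) (nat_lit 5) (nat_lit 382) (nat_lit 349) (nat_lit 289)) (XT.lf (nat_lit 0) (nat_lit 2858350500) (nat_lit 380) (nat_lit 2306685263) (nat_lit 76) (nat_lit 11431472821) (nat_lit 126) (nat_lit 5) (nat_lit 131) (nat_lit 5) (nat_lit 127) (nat_lit 5) (nat_lit 383) (nat_lit 349) (nat_lit 288)))) (XT.nd (nat_lit 78) (nat_lit 608) (nat_lit 0) (XT.lf (nat_lit 0) (nat_lit 9363794121) (nat_lit 380) (nat_lit 2774652169) (nat_lit 76) (nat_lit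 4963453471) (nat_lit 122) (nat_lit 5) (nat_lit 127) (nat_lit 5) (nat_lit 123) (nat_lit 5) (nat_lit 384) (nat_lit 349) (nat_lit 287)) (XT.nd (nat_lit 78) (nat_lit 380) (nat_lit 0) (XT.lf (nat_lit 0) (nat_lit 14364571556) (nat_lit 228) (nat_lit 1996485518) (nat_lit 304) (nat_lit 1266515922) (nat_lit 119) (nat_lit 5) (nat_lit 122) (nat_lit 5) (nat_lit 123) (nat_lit 5) (nat_lit 385) (nat_lit 349) (nat_lit 286)) (XT.lf (nat_lit 0) (nat_lit 5626595476) (nat_lit 380) (nat_lit 3863331638) (nat_lit 76) (nat_lit 8681841893) (nat_lit 114) (nat_lit 5) (nat_lit 119) (nat_lit 5) (nat_lit 115) (nat_lit 5) (nat_lit 386) (nat_lit 349) (nat_lit 285))))) (XT.nd (nat_lit 234) (nat_lit 988) (nat_lit 0) (XT.nd (nat_lit 78) (nat_lit 532) (nat_lit 0) (XT.lf (nat_lit 0) (nat_lit 12996596872) (nat_lit 304) (nat_lit 4491753917) (nat_lit 76) (nat_lit 1249702847) (nat_lit 111) (nat_lit 5) (nat_lit 115) (nat_lit 5) (nat_lit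 112) (nat_lit 5) (nat_lit 387) (nat_lit 349) (nat_lit 284)) (XT.nd (nat_lit 78) (nat_lit 228) (nat_lit 0) (XT.lf (nat_lit 0) (nat_lit 1605058098) (nat_lit 304) (nat_lit 5221098993) (nat_lit 76) (nat_lit 12499198858) (nat_lit 107) (nat_lit 5) (nat_lit 111) (nat_lit 5) (nat_lit 108) (nat_lit 5) (nat_lit 388) (nat_lit 349) (nat_lit 283)) (XT.lf (nat_lit 0) (nat_lit 9383023713) (nat_lit 304) (nat_lit 6052049569) (nat_lit 76) (nat_lit 4499765610) (nat_lit 104) (nat_lit 5) (nat_lit 108) (nat_lit 5) (nat_lit 105) (nat_lit 5) (nat_lit 389) (nat_lit 349) (nat_lit 282)))) (XT.nd (nat_lit 156) (nat_lit 456) (nat_lit 0) (XT.nd (nat_lit 78) (nat_lit 304) (nat_lit 0) (XT.lf (nat_lit 0) (nat_lit 13606372137) (nat_lit 228) (nat_lit 4155715420) (nat_lit 304) (nat_lit 2806349010) (nat_lit 101) (nat_lit 5) (nat_lit 104) (nat_lit 5) (nat_lit 105) (nat_lit 5) (nat_lit 390) (nat_lit 349) (nat_lit 281)) (XT.lf (nat_lit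 0) (nat_lit 5448287614) (nat_lit 304) (nat_lit 8020393141) (nat_lit 76) (nat_lit 7756728415) (nat_lit 97) (nat_lit 5) (nat_lit 101) (nat_lit 5) (nat_lit 98) (nat_lit 5) (nat_lit 391) (nat_lit 349) (nat_lit 280))) (XT.nd (nat_lit 78) (nat_lit 228) (nat_lit 0) (XT.lf (nat_lit 0) (nat_lit 12724751076) (nat_lit 228) (nat_lit 1530312060) (nat_lit 304) (nat_lit 7653416096) (nat_lit 94) (nat_lit 5) (nat_lit 97) (nat_lit 5) (nat_lit 98) (nat_lit 5) (nat_lit 392) (nat_lit 349) (nat_lit 279)) (XT.lf (nat_lit 0) (nat_lit 1128957307) (nat_lit 228) (nat_lit 10511872863) (nat_lit 76) (nat_lit 10976537655) (nat_lit 91) (nat_lit 5) (nat_lit 94) (nat_lit 5) (nat_lit 92) (nat_lit 5) (nat_lit 393) (nat_lit 349) (nat_lit 278))))))) (XT.nd (nat_lit 936) (nat_lit 1672) (nat_lit 0) (XT.nd (nat_lit 468) (nat_lit 912) (nat_lit 0) (XT.nd (nat_lit 234) (nat_lit 532) (nat_lit 0) (XT.nd (nat_lit 78) (nat_lit 456) (nat_lit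 0) (XT.lf (nat_lit 0) (nat_lit 10385325553) (nat_lit 304) (nat_lit 12006523707) (nat_lit 76) (nat_lit 961788584) (nat_lit 88) (nat_lit 5) (nat_lit 92) (nat_lit 5) (nat_lit 89) (nat_lit 5) (nat_lit 394) (nat_lit 349) (nat_lit 277)) (XT.nd (nat_lit 78) (nat_lit 304) (nat_lit 0) (XT.lf (nat_lit 0) (nat_lit 10417530244) (nat_lit 152) (nat_lit 9977037856) (nat_lit 228) (nat_lit 3723456447) (nat_lit 86) (nat_lit 5) (nat_lit 88) (nat_lit 5) (nat_lit 89) (nat_lit 5) (nat_lit 395) (nat_lit 349) (nat_lit 276)) (XT.lf (nat_lit 0) (nat_lit 6077475419) (nat_lit 304) (nat_lit 15586106821) (nat_lit 76) (nat_lit 3249009421) (nat_lit 82) (nat_lit 5) (nat_lit 86) (nat_lit 5) (nat_lit 83) (nat_lit 5) (nat_lit 396) (nat_lit 349) (nat_lit 275)))) (XT.nd (nat_lit 78) (nat_lit 380) (nat_lit 0) (XT.lf (nat_lit 0) (nat_lit 8004557803) (nat_lit 152) (nat_lit 8572542452) (nat_lit 228) (nat_lit 9160115585) (nat_lit 80)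 (nat_lit 5) (nat_lit 82) (nat_lit 5) (nat_lit 83) (nat_lit 5) (nat_lit 397) (nat_lit 349) (nat_lit 274)) (XT.nd (nat_lit 78) (nat_lit 152) (nat_lit 0) (XT.lf (nat_lit 0) (nat_lit 1221676327) (nat_lit 228) (nat_lit 20089233885) (nat_lit 76) (nat_lit 5284601142) (nat_lit 77) (nat_lit 5) (nat_lit 80) (nat_lit 5) (nat_lit 78) (nat_lit 5) (nat_lit 398) (nat_lit 349) (nat_lit 273)) (XT.lf (nat_lit 0) (nat_lit 4688741381) (nat_lit 152) (nat_lit 7528554709) (nat_lit 228) (nat_lit 15268182995) (nat_lit 75) (nat_lit 5) (nat_lit 77) (nat_lit 5) (nat_lit 78) (nat_lit 5) (nat_lit 399) (nat_lit 349) (nat_lit 272))))) (XT.nd (nat_lit 234) (nat_lit 532) (nat_lit 0) (XT.nd (nat_lit 78) (nat_lit 228) (nat_lit 0) (XT.lf (nat_lit 0) (nat_lit 2636837918) (nat_lit 152) (nat_lit 21394088247) (nat_lit 228) (nat_lit 4380975747) (nat_lit 73) (nat_lit 5) (nat_lit 75) (nat_lit 5) (nat_lit 76) (nat_lit 5) (nat_lit 400) (nat_lit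 349) (nat_lit 271)) (XT.nd (nat_lit 78) (nat_lit 0) (nat_lit 0) (XT.lf (nat_lit 0) (nat_lit 243027046) (nat_lit 152) (nat_lit 6953299562) (nat_lit 228) (nat_lit 22177789840) (nat_lit 70) (nat_lit 5) (nat_lit 72) (nat_lit 5) (nat_lit 73) (nat_lit 5) (nat_lit 401) (nat_lit 349) (nat_lit 270)) (XT.lf (nat_lit 0) (nat_lit 19578369235) (nat_lit 228) (nat_lit 2457181689) (nat_lit 76) (nat_lit 8338098253) (nat_lit 70) (nat_lit 5) (nat_lit 73) (nat_lit 5) (nat_lit 71) (nat_lit 5) (nat_lit 402) (nat_lit 349) (nat_lit 269)))) (XT.nd (nat_lit 78) (nat_lit 304) (nat_lit 0) (XT.lf (nat_lit 0) (nat_lit 1426376969) (nat_lit 228) (nat_lit 5495099163) (nat_lit 76) (nat_lit 24492574282) (nat_lit 67) (nat_lit 5) (nat_lit 70) (nat_lit 5) (nat_lit 68) (nat_lit 5) (nat_lit 403) (nat_lit 349) (nat_lit 268)) (XT.nd (nat_lit 78) (nat_lit 152) (nat_lit 0) (XT.lf (nat_lit 0) (nat_lit 14350184648) (nat_lit 228) (nat_lit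 9027874921) (nat_lit 76) (nat_lit 9115778485) (nat_lit 65) (nat_lit 5) (nat_lit 68) (nat_lit 5) (nat_lit 66) (nat_lit 5) (nat_lit 404) (nat_lit 349) (nat_lit 267)) (XT.lf (nat_lit 0) (nat_lit 20645288486) (nat_lit 152) (nat_lit 7571909308) (nat_lit 228) (nat_lit 5401509479) (nat_lit 63) (nat_lit 5) (nat_lit 65) (nat_lit 5) (nat_lit 66) (nat_lit 5) (nat_lit 405) (nat_lit 349) (nat_lit 266)))))) (XT.nd (nat_lit 468) (nat_lit 836) (nat_lit 0) (XT.nd (nat_lit 234) (nat_lit 304) (nat_lit 0) (XT.nd (nat_lit 78) (nat_lit 304) (nat_lit 0) (XT.lf (nat_lit 0) (nat_lit 8145286501) (nat_lit 228) (nat_lit 17474866250) (nat_lit 76) (nat_lit 9167672468) (nat_lit 60) (nat_lit 5) (nat_lit 63) (nat_lit 5) (nat_lit 61) (nat_lit 5) (nat_lit 406) (nat_lit 349) (nat_lit 265)) (XT.nd (nat_lit 78) (nat_lit 152) (nat_lit 0) (XT.lf (nat_lit 0) (nat_lit 13454245115) (nat_lit 152) (nat_lit 9117951436) (nat_lit 228) (nat_lit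 13432165863) (nat_lit 58) (nat_lit 5) (nat_lit 60) (nat_lit 5) (nat_lit 61) (nat_lit 5) (nat_lit 407) (nat_lit 349) (nat_lit 264)) (XT.lf (nat_lit 0) (nat_lit 754520715) (nat_lit 152) (nat_lit 28213180706) (nat_lit 76) (nat_lit 8304170002) (nat_lit 56) (nat_lit 5) (nat_lit 58) (nat_lit 5) (nat_lit 57) (nat_lit 5) (nat_lit 408) (nat_lit 349) (nat_lit 263)))) (XT.nd (nat_lit 78) (nat_lit 152) (nat_lit 0) (XT.lf (nat_lit 0) (nat_lit 3922319934) (nat_lit 152) (nat_lit 11791170375) (nat_lit 228) (nat_lit 22875055484) (nat_lit 54) (nat_lit 5) (nat_lit 56) (nat_lit 5) (nat_lit 57) (nat_lit 5) (nat_lit 409) (nat_lit 349) (nat_lit 262)) (XT.nd (nat_lit 78) (nat_lit 152) (nat_lit 0) (XT.lf (nat_lit 0) (nat_lit 31748325263) (nat_lit 228) (nat_lit 1817954299) (nat_lit 76) (nat_lit 6394938772) (nat_lit 54) (nat_lit 5) (nat_lit 57) (nat_lit 5) (nat_lit 55) (nat_lit 4) (nat_lit 410) (nat_lit 349) (nat_lit 261))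 (XT.lf (nat_lit 0) (nat_lit 7459842056) (nat_lit 152) (nat_lit 8307192773) (nat_lit 76) (nat_lit 25620891683) (nat_lit 52) (nat_lit 5) (nat_lit 54) (nat_lit 5) (nat_lit 53) (nat_lit 5) (nat_lit 411) (nat_lit 349) (nat_lit 260))))) (XT.nd (nat_lit 234) (nat_lit 380) (nat_lit 0) (XT.nd (nat_lit 78) (nat_lit 304) (nat_lit 0) (XT.lf (nat_lit 0) (nat_lit 24036892856) (nat_lit 228) (nat_lit 15624870651) (nat_lit 76) (nat_lit 3213052818) (nat_lit 50) (nat_lit 5) (nat_lit 53) (nat_lit 5) (nat_lit 51) (nat_lit 4) (nat_lit 412) (nat_lit 349) (nat_lit 259)) (XT.nd (nat_lit 78) (nat_lit 228) (nat_lit 0) (XT.lf (nat_lit 0) (nat_lit 20522441607) (nat_lit 76) (nat_lit 21339962102) (nat_lit 152) (nat_lit 2561060336) (nat_lit 49) (nat_lit 5) (nat_lit 50) (nat_lit 5) (nat_lit 51) (nat_lit 4) (nat_lit 413) (nat_lit 349) (nat_lit 258)) (XT.lf (nat_lit 0) (nat_lit 12825620478) (nat_lit 152) (nat_lit 1683532044) (nat_lit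 228) (nat_lit 31528312145) (nat_lit 46) (nat_lit 5) (nat_lit 48) (nat_lit 5) (nat_lit 49) (nat_lit 5) (nat_lit 414) (nat_lit 349) (nat_lit 257)))) (XT.nd (nat_lit 156) (nat_lit 228) (nat_lit 0) (XT.nd (nat_lit 78) (nat_lit 76) (nat_lit 0) (XT.lf (nat_lit 0) (nat_lit 3989040504) (nat_lit 76) (nat_lit 28838206154) (nat_lit 152) (nat_lit 14890739279) (nat_lit 45) (nat_lit 5) (nat_lit 46) (nat_lit 5) (nat_lit 47) (nat_lit 4) (nat_lit 415) (nat_lit 349) (nat_lit 256)) (XT.lf (nat_lit 0) (nat_lit 2868920150) (nat_lit 152) (nat_lit 5814258212) (nat_lit 76) (nat_lit 40788396763) (nat_lit 44) (nat_lit 5) (nat_lit 46) (nat_lit 5) (nat_lit 45) (nat_lit 5) (nat_lit 416) (nat_lit 349) (nat_lit 255))) (XT.nd (nat_lit 78) (nat_lit 76) (nat_lit 0) (XT.lf (nat_lit 0) (nat_lit 21646758684) (nat_lit 228) (nat_lit 16943749272) (nat_lit 76) (nat_lit 12704769317) (nat_lit 42) (nat_lit 5) (nat_lit 45) (nat_lit 5) (nat_lit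 43) (nat_lit 4) (nat_lit 417) (nat_lit 349) (nat_lit 254)) (XT.lf (nat_lit 0) (nat_lit 23776270997) (nat_lit 76) (nat_lit 17943608749) (nat_lit 152) (nat_lit 11479594274) (nat_lit 41) (nat_lit 5) (nat_lit 42) (nat_lit 5) (nat_lit 43) (nat_lit 4) (nat_lit 418) (nat_lit 349) (nat_lit 253))))))))
noncomputable def xc66 : XT := (XT.nd (nat_lit 48360) (nat_lit 0) (nat_lit 8284) (XT.nd (nat_lit 936) (nat_lit 456) (nat_lit 0) (XT.nd (nat_lit 468) (nat_lit 456) (nat_lit 0) (XT.nd (nat_lit 234) (nat_lit 228) (nat_lit 0) (XT.nd (nat_lit 78) (nat_lit 76) (nat_lit 0) (XT.lf (nat_lit 0) (nat_lit 7758692747) (nat_lit 228) (nat_lit 43416986985) (nat_lit 76) (nat_lit 4011735669) (nat_lit 38) (nat_lit 5) (nat_lit 41) (nat_lit 5) (nat_lit 39) (nat_lit 4) (nat_lit 419) (nat_lit 349) (nat_lit 252)) (XT.nd (nat_lit 78) (nat_lit 76) (nat_lit 0) (XT.lf (nat_lit 0) (nat_lit 28191272725) (nat_lit 228) (nat_lit 1963872625)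 (nat_lit 76) (nat_lit 27102105960) (nat_lit 38) (nat_lit 5) (nat_lit 41) (nat_lit 5) (nat_lit 39) (nat_lit 4) (nat_lit 420) (nat_lit 349) (nat_lit 251)) (XT.lf (nat_lit 0) (nat_lit 42353285655) (nat_lit 76) (nat_lit 7680839141) (nat_lit 152) (nat_lit 9384795943) (nat_lit 37) (nat_lit 5) (nat_lit 38) (nat_lit 5) (nat_lit 39) (nat_lit 4) (nat_lit 421) (nat_lit 349) (nat_lit 250)))) (XT.nd (nat_lit 78) (nat_lit 76) (nat_lit 0) (XT.lf (nat_lit 0) (nat_lit 11485035534) (nat_lit 152) (nat_lit 34198663571) (nat_lit 76) (nat_lit 15988981085) (nat_lit 35) (nat_lit 5) (nat_lit 37) (nat_lit 5) (nat_lit 36) (nat_lit 4) (nat_lit 422) (nat_lit 349) (nat_lit 249)) (XT.nd (nat_lit 78) (nat_lit 0) (nat_lit 0) (XT.lf (nat_lit 0) (nat_lit 10561703981) (nat_lit 76) (nat_lit 22983111736) (nat_lit 152) (nat_lit 30481308756) (nat_lit 34) (nat_lit 5) (nat_lit 35) (nat_lit 5) (nat_lit 36) (nat_lit 4) (nat_lit 423) (nat_lit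 349) (nat_lit 248)) (XT.lf (nat_lit 0) (nat_lit 57053967589) (nat_lit 152) (nat_lit 8256836330) (nat_lit 0) (nat_lit 1176046424) (nat_lit 34) (nat_lit 5) (nat_lit 36) (nat_lit 4) (nat_lit 34) (nat_lit 4) (nat_lit 424) (nat_lit 349) (nat_lit 247))))) (XT.nd (nat_lit 234) (nat_lit 228) (nat_lit 0) (XT.nd (nat_lit 78) (nat_lit 76) (nat_lit 0) (XT.lf (nat_lit 0) (nat_lit 13023975534) (nat_lit 152) (nat_lit 29457731527) (nat_lit 76) (nat_lit 26567156809) (nat_lit 32) (nat_lit 5) (nat_lit 34) (nat_lit 5) (nat_lit 33) (nat_lit 4) (nat_lit 425) (nat_lit 349) (nat_lit 246)) (XT.nd (nat_lit 78) (nat_lit 0) (nat_lit 0) (XT.lf (nat_lit 0) (nat_lit 18501544780) (nat_lit 76) (nat_lit 18156360297) (nat_lit 152) (nat_lit 35070792457) (nat_lit 31) (nat_lit 5) (nat_lit 32) (nat_lit 5) (nat_lit 33) (nat_lit 4) (nat_lit 426) (nat_lit 349) (nat_lit 245)) (XT.lf (nat_lit 0) (nat_lit 61834923005) (nat_lit 152) (nat_lit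 5163549485) (nat_lit 0) (nat_lit 7533209349) (nat_lit 31) (nat_lit 5) (nat_lit 33) (nat_lit 4) (nat_lit 31) (nat_lit 4) (nat_lit 427) (nat_lit 349) (nat_lit 244)))) (XT.nd (nat_lit 78) (nat_lit 76) (nat_lit 0) (XT.lf (nat_lit 0) (nat_lit 11201584917) (nat_lit 152) (nat_lit 31577995615) (nat_lit 76) (nat_lit 34673633859) (nat_lit 29) (nat_lit 5) (nat_lit 31) (nat_lit 5) (nat_lit 30) (nat_lit 4) (nat_lit 428) (nat_lit 349) (nat_lit 243)) (XT.nd (nat_lit 78) (nat_lit 0) (nat_lit 0) (XT.lf (nat_lit 0) (nat_lit 19273512384) (nat_lit 76) (nat_lit 16985348038) (nat_lit 152) (nat_lit 44251394373) (nat_lit 28) (nat_lit 5) (nat_lit 29) (nat_lit 5) (nat_lit 30) (nat_lit 4) (nat_lit 429) (nat_lit 349) (nat_lit 242)) (XT.lf (nat_lit 0) (nat_lit 62979882242) (nat_lit 152) (nat_lit 10511195339) (nat_lit 0) (nat_lit 10216743762) (nat_lit 28) (nat_lit 5) (nat_lit 30) (nat_lit 4) (nat_lit 28) (nat_lit 4) (nat_lit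 430) (nat_lit 349) (nat_lit 241)))))) (XT.nd (nat_lit 46878) (nat_lit 0) (nat_lit 21660) (XT.nd (nat_lit 234) (nat_lit 228) (nat_lit 0) (XT.nd (nat_lit 78) (nat_lit 76) (nat_lit 0) (XT.lf (nat_lit 0) (nat_lit 4474708712) (nat_lit 152) (nat_lit 43692478738) (nat_lit 76) (nat_lit 38879518323) (nat_lit 26) (nat_lit 5) (nat_lit 28) (nat_lit 5) (nat_lit 27) (nat_lit 4) (nat_lit 431) (nat_lit 349) (nat_lit 240)) (XT.nd (nat_lit 78) (nat_lit 0) (nat_lit 0) (XT.lf (nat_lit 0) (nat_lit 9532859034) (nat_lit 76) (nat_lit 21167326387) (nat_lit 152) (nat_lit 59840451255) (nat_lit 25) (nat_lit 5) (nat_lit 26) (nat_lit 5) (nat_lit 27) (nat_lit 4) (nat_lit 432) (nat_lit 349) (nat_lit 239)) (XT.lf (nat_lit 0) (nat_lit 58746975154) (nat_lit 152) (nat_lit 27962447901) (nat_lit 0) (nat_lit 7484540398) (nat_lit 25) (nat_lit 5) (nat_lit 27) (nat_lit 4) (nat_lit 25) (nat_lit 4) (nat_lit 433) (nat_lit 349) (nat_lit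 238)))) (XT.nd (nat_lit 156) (nat_lit 152) (nat_lit 0) (XT.lf (nat_lit 0) (nat_lit 28044280621) (nat_lit 76) (nat_lit 60622447200) (nat_lit 76) (nat_lit 9349110523) (nat_lit 24) (nat_lit 4) (nat_lit 25) (nat_lit 5) (nat_lit 25) (nat_lit 4) (nat_lit 434) (nat_lit 349) (nat_lit 237)) (XT.nd (nat_lit 46410) (nat_lit 0) (nat_lit 23408) (XT.lf (nat_lit 0) (nat_lit 43900525024) (nat_lit 76) (nat_lit 2993136475) (nat_lit 152) (nat_lit 59305834754) (nat_lit 22) (nat_lit 5) (nat_lit 23) (nat_lit 5) (nat_lit 24) (nat_lit 4) (nat_lit 436) (nat_lit 349) (nat_lit 235)) (XT.lf (nat_lit 0) (nat_lit 1366995224) (nat_lit 0) (nat_lit 1366995224) (nat_lit 836) (nat_lit 1067271571) (nat_lit 330) (nat_lit 5) (nat_lit 330) (nat_lit 3) (nat_lit 341) (nat_lit 3) (nat_lit 350) (nat_lit 350) (nat_lit 320))))) (XT.nd (nat_lit 234) (nat_lit 836) (nat_lit 0) (XT.nd (nat_lit 78) (nat_lit 0) (nat_lit 0) (XT.lf (nat_lit 0)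 (nat_lit 159256298) (nat_lit 912) (nat_lit 6391964415) (nat_lit 988) (nat_lit 1171971628) (nat_lit 318) (nat_lit 5) (nat_lit 330) (nat_lit 5) (nat_lit 331) (nat_lit 5) (nat_lit 351) (nat_lit 350) (nat_lit 319)) (XT.nd (nat_lit 78) (nat_lit 0) (nat_lit 76) (XT.lf (nat_lit 0) (nat_lit 2456201546) (nat_lit 912) (nat_lit 37131932) (nat_lit 988) (nat_lit 5358005594) (nat_lit 318) (nat_lit 5) (nat_lit 330) (nat_lit 5) (nat_lit 331) (nat_lit 5) (nat_lit 352) (nat_lit 350) (nat_lit 318)) (XT.lf (nat_lit 0) (nat_lit 4811433458) (nat_lit 912) (nat_lit 1318380326) (nat_lit 988) (nat_lit 1857830532) (nat_lit 319) (nat_lit 5) (nat_lit 331) (nat_lit 5) (nat_lit 332) (nat_lit 5) (nat_lit 353) (nat_lit 350) (nat_lit 317)))) (XT.nd (nat_lit 156) (nat_lit 0) (nat_lit 0) (XT.nd (nat_lit 78) (nat_lit 912) (nat_lit 0) (XT.lf (nat_lit 76) (nat_lit 5584515871) (nat_lit 0) (nat_lit 1646527732) (nat_lit 988) (nat_lit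 901374492) (nat_lit 320) (nat_lit 5) (nat_lit 319) (nat_lit 5) (nat_lit 332) (nat_lit 5) (nat_lit 354) (nat_lit 350) (nat_lit 316)) (XT.lf (nat_lit 0) (nat_lit 1418057880) (nat_lit 988) (nat_lit 3746522393) (nat_lit 1064) (nat_lit 3120673037) (nat_lit 307) (nat_lit 5) (nat_lit 320) (nat_lit 5) (nat_lit 321) (nat_lit 5) (nat_lit 355) (nat_lit 350) (nat_lit 315))) (XT.nd (nat_lit 78) (nat_lit 0) (nat_lit 76) (XT.lf (nat_lit 76) (nat_lit 3548822988) (nat_lit 0) (nat_lit 240822494) (nat_lit 1064) (nat_lit 4657217894) (nat_lit 308) (nat_lit 5) (nat_lit 307) (nat_lit 5) (nat_lit 321) (nat_lit 5) (nat_lit 356) (nat_lit 350) (nat_lit 314)) (XT.lf (nat_lit 76) (nat_lit 2590606654) (nat_lit 0) (nat_lit 3683297275) (nat_lit 1064) (nat_lit 2342870693) (nat_lit 309) (nat_lit 5) (nat_lit 308) (nat_lit 5) (nat_lit 322) (nat_lit 5) (nat_lit 357) (nat_lit 350) (nat_lit 313))))))) (XT.nd (nat_lit 936) (nat_lit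 5472) (nat_lit 0) (XT.nd (nat_lit 468) (nat_lit 3572) (nat_lit 0) (XT.nd (nat_lit 234) (nat_lit 3420) (nat_lit 0) (XT.nd (nat_lit 78) (nat_lit 0) (nat_lit 0) (XT.lf (nat_lit 0) (nat_lit 57778227) (nat_lit 1064) (nat_lit 7104494590) (nat_lit 1140) (nat_lit 1633755044) (nat_lit 295) (nat_lit 5) (nat_lit 309) (nat_lit 5) (nat_lit 310) (nat_lit 5) (nat_lit 358) (nat_lit 350) (nat_lit 312)) (XT.nd (nat_lit 78) (nat_lit 0) (nat_lit 76) (XT.lf (nat_lit 76) (nat_lit 807928392) (nat_lit 0) (nat_lit 1721502149) (nat_lit 1140) (nat_lit 6454172797) (nat_lit 296) (nat_lit 5) (nat_lit 295) (nat_lit 5) (nat_lit 310) (nat_lit 5) (nat_lit 359) (nat_lit 350) (nat_lit 311)) (XT.lf (nat_lit 0) (nat_lit 5132860342) (nat_lit 1064) (nat_lit 39017354) (nat_lit 76) (nat_lit 4008470465) (nat_lit 296) (nat_lit 5) (nat_lit 310) (nat_lit 5) (nat_lit 297) (nat_lit 5) (nat_lit 360) (nat_lit 350) (nat_lit 310)))) (XT.nd (nat_lit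 78) (nat_lit 2432) (nat_lit 0) (XT.lf (nat_lit 0) (nat_lit 7873944124) (nat_lit 1140) (nat_lit 821249482) (nat_lit 76) (nat_lit 691546824) (nat_lit 282) (nat_lit 5) (nat_lit 297) (nat_lit 5) (nat_lit 283) (nat_lit 5) (nat_lit 361) (nat_lit 350) (nat_lit 309)) (XT.nd (nat_lit 78) (nat_lit 1216) (nat_lit 0) (XT.lf (nat_lit 0) (nat_lit 1161246259) (nat_lit 1216) (nat_lit 1594540447) (nat_lit 76) (nat_lit 6846315523) (nat_lit 266) (nat_lit 5) (nat_lit 282) (nat_lit 5) (nat_lit 267) (nat_lit 5) (nat_lit 362) (nat_lit 350) (nat_lit 308)) (XT.lf (nat_lit 0) (nat_lit 3961131968) (nat_lit 1292) (nat_lit 2346427372) (nat_lit 76) (nat_lit 3519551133) (nat_lit 250) (nat_lit 5) (nat_lit 267) (nat_lit 5) (nat_lit 251) (nat_lit 5) (nat_lit 363) (nat_lit 350) (nat_lit 307))))) (XT.nd (nat_lit 234) (nat_lit 1596) (nat_lit 0) (XT.nd (nat_lit 78) (nat_lit 1292) (nat_lit 0) (XT.lf (nat_lit 0) (nat_lit 6925091622)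 (nat_lit 760) (nat_lit 3057139729) (nat_lit 76) (nat_lit 80444475) (nat_lit 241) (nat_lit 5) (nat_lit 251) (nat_lit 5) (nat_lit 242) (nat_lit 5) (nat_lit 364) (nat_lit 350) (nat_lit 306)) (XT.nd (nat_lit 78) (nat_lit 684) (nat_lit 0) (XT.lf (nat_lit 0) (nat_lit 6545902212) (nat_lit 608) (nat_lit 3557365832) (nat_lit 684) (nat_lit 204798541) (nat_lit 233) (nat_lit 5) (nat_lit 241) (nat_lit 5) (nat_lit 242) (nat_lit 5) (nat_lit 365) (nat_lit 350) (nat_lit 305)) (XT.lf (nat_lit 0) (nat_lit 2858621805) (nat_lit 684) (nat_lit 4458537357) (nat_lit 76) (nat_lit 3246561662) (nat_lit 224) (nat_lit 5) (nat_lit 233) (nat_lit 5) (nat_lit 225) (nat_lit 5) (nat_lit 366) (nat_lit 350) (nat_lit 304)))) (XT.nd (nat_lit 78) (nat_lit 1064) (nat_lit 0) (XT.lf (nat_lit 0) (nat_lit 5704367298) (nat_lit 532) (nat_lit 417137286) (nat_lit 608) (nat_lit 4709100943) (nat_lit 217) (nat_lit 5) (nat_lit 224) (nat_lit 5) (nat_lit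 225) (nat_lit 5) (nat_lit 367) (nat_lit 350) (nat_lit 303)) (XT.nd (nat_lit 78) (nat_lit 532) (nat_lit 0) (XT.lf (nat_lit 0) (nat_lit 5314713052) (nat_lit 532) (nat_lit 4319508216) (nat_lit 608) (nat_lit 1474035737) (nat_lit 210) (nat_lit 5) (nat_lit 217) (nat_lit 5) (nat_lit 218) (nat_lit 5) (nat_lit 368) (nat_lit 350) (nat_lit 302)) (XT.lf (nat_lit 0) (nat_lit 1945812092) (nat_lit 532) (nat_lit 6448376795) (nat_lit 76) (nat_lit 3003252671) (nat_lit 203) (nat_lit 5) (nat_lit 210) (nat_lit 5) (nat_lit 204) (nat_lit 5) (nat_lit 369) (nat_lit 350) (nat_lit 301)))))) (XT.nd (nat_lit 468) (nat_lit 2584) (nat_lit 0) (XT.nd (nat_lit 234) (nat_lit 1368) (nat_lit 0) (XT.nd (nat_lit 78) (nat_lit 988) (nat_lit 0) (XT.lf (nat_lit 0) (nat_lit 4600326013) (nat_lit 532) (nat_lit 982618934) (nat_lit 608) (nat_lit 6115419677) (nat_lit 196) (nat_lit 5) (nat_lit 203) (nat_lit 5) (nat_lit 204) (nat_lit 5) (nat_lit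 370) (nat_lit 350) (nat_lit 300)) (XT.nd (nat_lit 78) (nat_lit 532) (nat_lit 0) (XT.lf (nat_lit 0) (nat_lit 4260365104) (nat_lit 456) (nat_lit 5245925026) (nat_lit 532) (nat_lit 2504932528) (nat_lit 190) (nat_lit 5) (nat_lit 196) (nat_lit 5) (nat_lit 197) (nat_lit 5) (nat_lit 371) (nat_lit 350) (nat_lit 299)) (XT.lf (nat_lit 0) (nat_lit 1341273591) (nat_lit 532) (nat_lit 8390936981) (nat_lit 76) (nat_lit 2604751441) (nat_lit 183) (nat_lit 5) (nat_lit 190) (nat_lit 5) (nat_lit 184) (nat_lit 5) (nat_lit 372) (nat_lit 350) (nat_lit 298)))) (XT.nd (nat_lit 78) (nat_lit 912) (nat_lit 0) (XT.lf (nat_lit 0) (nat_lit 3625634831) (nat_lit 456) (nat_lit 1806400678) (nat_lit 532) (nat_lit 7243104404) (nat_lit 177) (nat_lit 5) (nat_lit 183) (nat_lit 5) (nat_lit 184) (nat_lit 5) (nat_lit 373) (nat_lit 350) (nat_lit 297)) (XT.nd (nat_lit 78) (nat_lit 456) (nat_lit 0) (XT.lf (nat_lit 0) (nat_lit 3313209897)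 (nat_lit 456) (nat_lit 6533238143) (nat_lit 532) (nat_lit 3180221636) (nat_lit 171) (nat_lit 5) (nat_lit 177) (nat_lit 5) (nat_lit 178) (nat_lit 5) (nat_lit 374) (nat_lit 350) (nat_lit 296)) (XT.lf (nat_lit 0) (nat_lit 1163440879) (nat_lit 456) (nat_lit 10369007934) (nat_lit 76) (nat_lit 1860064392) (nat_lit 165) (nat_lit 5) (nat_lit 171) (nat_lit 5) (nat_lit 166) (nat_lit 5) (nat_lit 375) (nat_lit 350) (nat_lit 295))))) (XT.nd (nat_lit 234) (nat_lit 1368) (nat_lit 0) (XT.nd (nat_lit 78) (nat_lit 836) (nat_lit 0) (XT.lf (nat_lit 0) (nat_lit 2703308656) (nat_lit 380) (nat_lit 3089776093) (nat_lit 456) (nat_lit 7978596829) (nat_lit 160) (nat_lit 5) (nat_lit 165) (nat_lit 5) (nat_lit 166) (nat_lit 5) (nat_lit 376) (nat_lit 350) (nat_lit 294)) (XT.nd (nat_lit 78) (nat_lit 456) (nat_lit 0) (XT.lf (nat_lit 0) (nat_lit 2393041522) (nat_lit 380) (nat_lit 8390446814) (nat_lit 456) (nat_lit 3382455413)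 (nat_lit 155) (nat_lit 5) (nat_lit 160) (nat_lit 5) (nat_lit 161) (nat_lit 5) (nat_lit 377) (nat_lit 350) (nat_lit 293)) (XT.lf (nat_lit 0) (nat_lit 1531724943) (nat_lit 456) (nat_lit 12479907167) (nat_lit 76) (nat_lit 564391330) (nat_lit 149) (nat_lit 5) (nat_lit 155) (nat_lit 5) (nat_lit 150) (nat_lit 5) (nat_lit 378) (nat_lit 350) (nat_lit 292)))) (XT.nd (nat_lit 156) (nat_lit 684) (nat_lit 0) (XT.nd (nat_lit 78) (nat_lit 380) (nat_lit 0) (XT.lf (nat_lit 0) (nat_lit 1740973883) (nat_lit 304) (nat_lit 5051315481) (nat_lit 380) (nat_lit 8208206248) (nat_lit 145) (nat_lit 5) (nat_lit 149) (nat_lit 5) (nat_lit 150) (nat_lit 5) (nat_lit 379) (nat_lit 350) (nat_lit 291)) (XT.lf (nat_lit 0) (nat_lit 1401712816) (nat_lit 380) (nat_lit 11047102587) (nat_lit 456) (nat_lit 2993399481) (nat_lit 140) (nat_lit 5) (nat_lit 145) (nat_lit 5) (nat_lit 146) (nat_lit 5) (nat_lit 380) (nat_lit 350) (nat_lit 290)))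 (XT.nd (nat_lit 78) (nat_lit 304) (nat_lit 0) (XT.lf (nat_lit 0) (nat_lit 1042570616) (nat_lit 304) (nat_lit 1539114342) (nat_lit 380) (nat_lit 13319190804) (nat_lit 135) (nat_lit 5) (nat_lit 139) (nat_lit 5) (nat_lit 140) (nat_lit 5) (nat_lit 381) (nat_lit 350) (nat_lit 289)) (XT.lf (nat_lit 0) (nat_lit 622460256) (nat_lit 304) (nat_lit 7935508518) (nat_lit 380) (nat_lit 7818091304) (nat_lit 131) (nat_lit 5) (nat_lit 135) (nat_lit 5) (nat_lit 136) (nat_lit 5) (nat_lit 382) (nat_lit 350) (nat_lit 288))))))))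
noncomputable def xc67 : XT := (XT.nd (nat_lit 1950) (nat_lit 2584) (nat_lit 0) (XT.nd (nat_lit 936) (nat_lit 2356) (nat_lit 0) (XT.nd (nat_lit 468) (nat_lit 1520) (nat_lit 0) (XT.nd (nat_lit 234) (nat_lit 836) (nat_lit 0) (XT.nd (nat_lit 78) (nat_lit 380) (nat_lit 0) (XT.lf (nat_lit 0) (nat_lit 214173472) (nat_lit 304) (nat_lit 14762273467) (nat_lit 380) (nat_lit 1894264906) (nat_lit 127) (nat_lit 5) (nat_lit 131) (nat_lit 5) (nat_lit 132) (nat_lit 5) (nat_lit 383) (nat_lit 350) (nat_lit 287)) (XT.nd (nat_lit 78) (nat_lit 304) (nat_lit 0) (XT.lf (nat_lit 0) (nat_lit 4438482437) (nat_lit 380) (nat_lit 268977946) (nat_lit 76) (nat_lit 12675483059) (nat_lit 126) (nat_lit 5) (nat_lit 131) (nat_lit 5) (nat_lit 127) (nat_lit 5) (nat_lit 384) (nat_lit 350) (nat_lit 286)) (XT.lf (nat_lit 0) (nat_lit 11227614898) (nat_lit 380) (nat_lit 786884599) (nat_lit 76) (nat_lit 5900365236) (nat_lit 122) (nat_lit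 5) (nat_lit 127) (nat_lit 5) (nat_lit 123) (nat_lit 5) (nat_lit 385) (nat_lit 350) (nat_lit 285)))) (XT.nd (nat_lit 78) (nat_lit 532) (nat_lit 0) (XT.lf (nat_lit 0) (nat_lit 58736518) (nat_lit 304) (nat_lit 1320463400) (nat_lit 76) (nat_lit 17089014969) (nat_lit 118) (nat_lit 5) (nat_lit 122) (nat_lit 5) (nat_lit 119) (nat_lit 5) (nat_lit 386) (nat_lit 350) (nat_lit 284)) (XT.nd (nat_lit 78) (nat_lit 228) (nat_lit 0) (XT.lf (nat_lit 0) (nat_lit 7232087089) (nat_lit 380) (nat_lit 1990716728) (nat_lit 76) (nat_lit 9817598871) (nat_lit 114) (nat_lit 5) (nat_lit 119) (nat_lit 5) (nat_lit 115) (nat_lit 5) (nat_lit 387) (nat_lit 350) (nat_lit 283)) (XT.lf (nat_lit 0) (nat_lit 14933801976) (nat_lit 304) (nat_lit 2678124925) (nat_lit 76) (nat_lit 2024189193) (nat_lit 111) (nat_lit 5) (nat_lit 115) (nat_lit 5) (nat_lit 112) (nat_lit 5) (nat_lit 388) (nat_lit 350) (nat_lit 282))))) (XT.nd (nat_lit 234)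 (nat_lit 760) (nat_lit 0) (XT.nd (nat_lit 78) (nat_lit 456) (nat_lit 0) (XT.lf (nat_lit 0) (nat_lit 2942945866) (nat_lit 304) (nat_lit 3477130463) (nat_lit 76) (nat_lit 13833615907) (nat_lit 107) (nat_lit 5) (nat_lit 111) (nat_lit 5) (nat_lit 108) (nat_lit 5) (nat_lit 389) (nat_lit 350) (nat_lit 281)) (XT.nd (nat_lit 78) (nat_lit 228) (nat_lit 0) (XT.lf (nat_lit 0) (nat_lit 11075671030) (nat_lit 304) (nat_lit 4377442885) (nat_lit 76) (nat_lit 5441569215) (nat_lit 104) (nat_lit 5) (nat_lit 108) (nat_lit 5) (nat_lit 105) (nat_lit 5) (nat_lit 390) (nat_lit 350) (nat_lit 280)) (XT.lf (nat_lit 0) (nat_lit 16207223603) (nat_lit 228) (nat_lit 3626664079) (nat_lit 304) (nat_lit 1727276200) (nat_lit 101) (nat_lit 5) (nat_lit 104) (nat_lit 5) (nat_lit 105) (nat_lit 5) (nat_lit 391) (nat_lit 350) (nat_lit 279)))) (XT.nd (nat_lit 78) (nat_lit 456) (nat_lit 0) (XT.lf (nat_lit 0) (nat_lit 6884556358) (nat_lit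 304) (nat_lit 6504807402) (nat_lit 76) (nat_lit 8862230435) (nat_lit 97) (nat_lit 5) (nat_lit 101) (nat_lit 5) (nat_lit 98) (nat_lit 5) (nat_lit 392) (nat_lit 350) (nat_lit 278)) (XT.nd (nat_lit 78) (nat_lit 228) (nat_lit 0) (XT.lf (nat_lit 0) (nat_lit 15222654917) (nat_lit 228) (nat_lit 871489578) (nat_lit 304) (nat_lit 6875807135) (nat_lit 94) (nat_lit 5) (nat_lit 97) (nat_lit 5) (nat_lit 98) (nat_lit 5) (nat_lit 393) (nat_lit 350) (nat_lit 277)) (XT.lf (nat_lit 0) (nat_lit 2293477116) (nat_lit 228) (nat_lit 9180849729) (nat_lit 76) (nat_lit 12240517683) (nat_lit 91) (nat_lit 5) (nat_lit 94) (nat_lit 5) (nat_lit 92) (nat_lit 5) (nat_lit 394) (nat_lit 350) (nat_lit 276)))))) (XT.nd (nat_lit 468) (nat_lit 1140) (nat_lit 0) (XT.nd (nat_lit 234) (nat_lit 532) (nat_lit 0) (XT.nd (nat_lit 78) (nat_lit 456) (nat_lit 0) (XT.lf (nat_lit 0) (nat_lit 11984258267) (nat_lit 304) (nat_lit 10778155460) (nat_lit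 76) (nat_lit 1726373606) (nat_lit 88) (nat_lit 5) (nat_lit 92) (nat_lit 5) (nat_lit 89) (nat_lit 5) (nat_lit 395) (nat_lit 350) (nat_lit 275)) (XT.nd (nat_lit 78) (nat_lit 304) (nat_lit 0) (XT.lf (nat_lit 0) (nat_lit 12714682030) (nat_lit 152) (nat_lit 9744942869) (nat_lit 228) (nat_lit 2832805396) (nat_lit 86) (nat_lit 5) (nat_lit 88) (nat_lit 5) (nat_lit 89) (nat_lit 5) (nat_lit 396) (nat_lit 350) (nat_lit 274)) (XT.lf (nat_lit 0) (nat_lit 7410621752) (nat_lit 304) (nat_lit 14595675745) (nat_lit 76) (nat_lit 4120920162) (nat_lit 82) (nat_lit 5) (nat_lit 86) (nat_lit 5) (nat_lit 83) (nat_lit 5) (nat_lit 397) (nat_lit 350) (nat_lit 273)))) (XT.nd (nat_lit 78) (nat_lit 380) (nat_lit 0) (XT.lf (nat_lit 0) (nat_lit 10123792971) (nat_lit 152) (nat_lit 8278946029) (nat_lit 228) (nat_lit 8591314684) (nat_lit 80) (nat_lit 5) (nat_lit 82) (nat_lit 5) (nat_lit 83) (nat_lit 5) (nat_lit 398) (nat_lit 350)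 (nat_lit 272)) (XT.nd (nat_lit 78) (nat_lit 152) (nat_lit 0) (XT.lf (nat_lit 0) (nat_lit 2264693067) (nat_lit 228) (nat_lit 19381891579) (nat_lit 76) (nat_lit 6249133853) (nat_lit 77) (nat_lit 5) (nat_lit 80) (nat_lit 5) (nat_lit 78) (nat_lit 5) (nat_lit 399) (nat_lit 350) (nat_lit 271)) (XT.lf (nat_lit 0) (nat_lit 6585913932) (nat_lit 152) (nat_lit 7193404405) (nat_lit 228) (nat_lit 15051794802) (nat_lit 75) (nat_lit 5) (nat_lit 77) (nat_lit 5) (nat_lit 78) (nat_lit 5) (nat_lit 400) (nat_lit 350) (nat_lit 270))))) (XT.nd (nat_lit 234) (nat_lit 760) (nat_lit 0) (XT.nd (nat_lit 78) (nat_lit 228) (nat_lit 0) (XT.lf (nat_lit 0) (nat_lit 4404928207) (nat_lit 152) (nat_lit 21755651522) (nat_lit 228) (nat_lit 3643973893) (nat_lit 73) (nat_lit 5) (nat_lit 75) (nat_lit 5) (nat_lit 76) (nat_lit 5) (nat_lit 401) (nat_lit 350) (nat_lit 269)) (XT.nd (nat_lit 78) (nat_lit 0) (nat_lit 0) (XT.lf (nat_lit 0)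 (nat_lit 1862739744) (nat_lit 152) (nat_lit 6601612866) (nat_lit 228) (nat_lit 22351130750) (nat_lit 70) (nat_lit 5) (nat_lit 72) (nat_lit 5) (nat_lit 73) (nat_lit 5) (nat_lit 402) (nat_lit 350) (nat_lit 268)) (XT.lf (nat_lit 0) (nat_lit 21428651761) (nat_lit 228) (nat_lit 1029395384) (nat_lit 76) (nat_lit 9408055360) (nat_lit 70) (nat_lit 5) (nat_lit 73) (nat_lit 5) (nat_lit 71) (nat_lit 5) (nat_lit 403) (nat_lit 350) (nat_lit 267)))) (XT.nd (nat_lit 156) (nat_lit 380) (nat_lit 0) (XT.nd (nat_lit 78) (nat_lit 152) (nat_lit 0) (XT.lf (nat_lit 0) (nat_lit 2350487098) (nat_lit 228) (nat_lit 4246603890) (nat_lit 76) (nat_lit 26361996648) (nat_lit 67) (nat_lit 5) (nat_lit 70) (nat_lit 5) (nat_lit 68) (nat_lit 5) (nat_lit 404) (nat_lit 350) (nat_lit 266)) (XT.lf (nat_lit 0) (nat_lit 15900377525) (nat_lit 228) (nat_lit 7981091056) (nat_lit 76) (nat_lit 10212003188) (nat_lit 65) (nat_lit 5) (nat_lit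 68) (nat_lit 5) (nat_lit 66) (nat_lit 5) (nat_lit 405) (nat_lit 350) (nat_lit 265))) (XT.nd (nat_lit 78) (nat_lit 228) (nat_lit 0) (XT.lf (nat_lit 0) (nat_lit 23132785561) (nat_lit 152) (nat_lit 7302292752) (nat_lit 228) (nat_lit 4840279726) (nat_lit 63) (nat_lit 5) (nat_lit 65) (nat_lit 5) (nat_lit 66) (nat_lit 5) (nat_lit 406) (nat_lit 350) (nat_lit 264)) (XT.lf (nat_lit 0) (nat_lit 9348706220) (nat_lit 228) (nat_lit 16901641321) (nat_lit 76) (nat_lit 10252915872) (nat_lit 60) (nat_lit 5) (nat_lit 63) (nat_lit 5) (nat_lit 61) (nat_lit 5) (nat_lit 407) (nat_lit 350) (nat_lit 263))))))) (XT.nd (nat_lit 936) (nat_lit 1140) (nat_lit 0) (XT.nd (nat_lit 468) (nat_lit 684) (nat_lit 0) (XT.nd (nat_lit 234) (nat_lit 304) (nat_lit 0) (XT.nd (nat_lit 78) (nat_lit 304) (nat_lit 0) (XT.lf (nat_lit 0) (nat_lit 15532448558) (nat_lit 152) (nat_lit 8940111495) (nat_lit 228) (nat_lit 13308802725) (nat_lit 58)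 (nat_lit 5) (nat_lit 60) (nat_lit 5) (nat_lit 61) (nat_lit 5) (nat_lit 408) (nat_lit 350) (nat_lit 262)) (XT.nd (nat_lit 78) (nat_lit 152) (nat_lit 0) (XT.lf (nat_lit 0) (nat_lit 1553862161) (nat_lit 152) (nat_lit 28226783826) (nat_lit 76) (nat_lit 9331910309) (nat_lit 56) (nat_lit 5) (nat_lit 58) (nat_lit 5) (nat_lit 57) (nat_lit 5) (nat_lit 409) (nat_lit 350) (nat_lit 261)) (XT.lf (nat_lit 0) (nat_lit 5475445519) (nat_lit 152) (nat_lit 11762111721) (nat_lit 228) (nat_lit 23258206701) (nat_lit 54) (nat_lit 5) (nat_lit 56) (nat_lit 5) (nat_lit 57) (nat_lit 5) (nat_lit 410) (nat_lit 350) (nat_lit 260)))) (XT.nd (nat_lit 78) (nat_lit 304) (nat_lit 0) (XT.lf (nat_lit 0) (nat_lit 34044635757) (nat_lit 228) (nat_lit 600973725) (nat_lit 76) (nat_lit 7292348305) (nat_lit 54) (nat_lit 5) (nat_lit 57) (nat_lit 5) (nat_lit 55) (nat_lit 4) (nat_lit 411) (nat_lit 350) (nat_lit 259)) (XT.nd (nat_lit 78) (nat_lit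 152) (nat_lit 0) (XT.lf (nat_lit 0) (nat_lit 8527039727) (nat_lit 152) (nat_lit 7438297620) (nat_lit 76) (nat_lit 27471108803) (nat_lit 52) (nat_lit 5) (nat_lit 54) (nat_lit 5) (nat_lit 53) (nat_lit 5) (nat_lit 412) (nat_lit 350) (nat_lit 258)) (XT.lf (nat_lit 0) (nat_lit 25917397381) (nat_lit 228) (nat_lit 15143950551) (nat_lit 76) (nat_lit 3936801299) (nat_lit 50) (nat_lit 5) (nat_lit 53) (nat_lit 5) (nat_lit 51) (nat_lit 4) (nat_lit 413) (nat_lit 350) (nat_lit 257))))) (XT.nd (nat_lit 234) (nat_lit 304) (nat_lit 0) (XT.nd (nat_lit 78) (nat_lit 304) (nat_lit 0) (XT.lf (nat_lit 0) (nat_lit 22774547653) (nat_lit 76) (nat_lit 21839103894) (nat_lit 152) (nat_lit 2011196048) (nat_lit 49) (nat_lit 5) (nat_lit 50) (nat_lit 5) (nat_lit 51) (nat_lit 4) (nat_lit 414) (nat_lit 350) (nat_lit 256)) (XT.nd (nat_lit 78) (nat_lit 76) (nat_lit 0) (XT.lf (nat_lit 0) (nat_lit 14670635508) (nat_lit 152) (nat_lit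 1208582522) (nat_lit 228) (nat_lit 32440739264) (nat_lit 46) (nat_lit 5) (nat_lit 48) (nat_lit 5) (nat_lit 49) (nat_lit 5) (nat_lit 415) (nat_lit 350) (nat_lit 255)) (XT.lf (nat_lit 0) (nat_lit 5371326208) (nat_lit 76) (nat_lit 29727683898) (nat_lit 152) (nat_lit 14985922742) (nat_lit 45) (nat_lit 5) (nat_lit 46) (nat_lit 5) (nat_lit 47) (nat_lit 4) (nat_lit 416) (nat_lit 350) (nat_lit 254)))) (XT.nd (nat_lit 78) (nat_lit 228) (nat_lit 0) (XT.lf (nat_lit 0) (nat_lit 3618730230) (nat_lit 152) (nat_lit 4966357711) (nat_lit 76) (nat_lit 43341837708) (nat_lit 44) (nat_lit 5) (nat_lit 46) (nat_lit 5) (nat_lit 45) (nat_lit 5) (nat_lit 417) (nat_lit 350) (nat_lit 253)) (XT.nd (nat_lit 78) (nat_lit 76) (nat_lit 0) (XT.lf (nat_lit 0) (nat_lit 23322195454) (nat_lit 228) (nat_lit 16672260220) (nat_lit 76) (nat_lit 13847756962) (nat_lit 42) (nat_lit 5) (nat_lit 45) (nat_lit 5) (nat_lit 43) (nat_lit 4) (nat_lit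 418) (nat_lit 350) (nat_lit 252)) (XT.lf (nat_lit 0) (nat_lit 26051694425) (nat_lit 76) (nat_lit 18329480503) (nat_lit 152) (nat_lit 11460979916) (nat_lit 41) (nat_lit 5) (nat_lit 42) (nat_lit 5) (nat_lit 43) (nat_lit 4) (nat_lit 419) (nat_lit 350) (nat_lit 251)))))) (XT.nd (nat_lit 468) (nat_lit 608) (nat_lit 0) (XT.nd (nat_lit 234) (nat_lit 228) (nat_lit 0) (XT.nd (nat_lit 78) (nat_lit 76) (nat_lit 0) (XT.lf (nat_lit 0) (nat_lit 8715079926) (nat_lit 228) (nat_lit 44509006241) (nat_lit 76) (nat_lit 4705615135) (nat_lit 38) (nat_lit 5) (nat_lit 41) (nat_lit 5) (nat_lit 39) (nat_lit 4) (nat_lit 420) (nat_lit 350) (nat_lit 250)) (XT.nd (nat_lit 78) (nat_lit 76) (nat_lit 0) (XT.lf (nat_lit 0) (nat_lit 30142219734) (nat_lit 228) (nat_lit 1034609025) (nat_lit 76) (nat_lit 28927013813) (nat_lit 38) (nat_lit 5) (nat_lit 41) (nat_lit 5) (nat_lit 39) (nat_lit 4) (nat_lit 421) (nat_lit 350) (nat_lit 249))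 (XT.lf (nat_lit 0) (nat_lit 45468955314) (nat_lit 76) (nat_lit 7592072373) (nat_lit 152) (nat_lit 9313054807) (nat_lit 37) (nat_lit 5) (nat_lit 38) (nat_lit 5) (nat_lit 39) (nat_lit 4) (nat_lit 422) (nat_lit 350) (nat_lit 248)))) (XT.nd (nat_lit 78) (nat_lit 76) (nat_lit 0) (XT.lf (nat_lit 0) (nat_lit 12578341496) (nat_lit 152) (nat_lit 34917925376) (nat_lit 76) (nat_lit 17244449458) (nat_lit 35) (nat_lit 5) (nat_lit 37) (nat_lit 5) (nat_lit 36) (nat_lit 4) (nat_lit 423) (nat_lit 350) (nat_lit 247)) (XT.nd (nat_lit 78) (nat_lit 0) (nat_lit 0) (XT.lf (nat_lit 0) (nat_lit 12052063158) (nat_lit 76) (nat_lit 23673580630) (nat_lit 152) (nat_lit 31486654295) (nat_lit 34) (nat_lit 5) (nat_lit 35) (nat_lit 5) (nat_lit 36) (nat_lit 4) (nat_lit 424) (nat_lit 350) (nat_lit 246)) (XT.lf (nat_lit 0) (nat_lit 60390472123) (nat_lit 152) (nat_lit 7743013943) (nat_lit 0) (nat_lit 1663168805) (nat_lit 34) (nat_lit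 5) (nat_lit 36) (nat_lit 4) (nat_lit 34) (nat_lit 4) (nat_lit 425) (nat_lit 350) (nat_lit 245))))) (XT.nd (nat_lit 234) (nat_lit 380) (nat_lit 0) (XT.nd (nat_lit 78) (nat_lit 76) (nat_lit 0) (XT.lf (nat_lit 0) (nat_lit 14149264356) (nat_lit 152) (nat_lit 30021059211) (nat_lit 76) (nat_lit 28316738784) (nat_lit 32) (nat_lit 5) (nat_lit 34) (nat_lit 5) (nat_lit 33) (nat_lit 4) (nat_lit 426) (nat_lit 350) (nat_lit 244)) (XT.nd (nat_lit 78) (nat_lit 0) (nat_lit 0) (XT.lf (nat_lit 0) (nat_lit 20310108588) (nat_lit 76) (nat_lit 18640698685) (nat_lit 152) (nat_lit 36350503967) (nat_lit 31) (nat_lit 5) (nat_lit 32) (nat_lit 5) (nat_lit 33) (nat_lit 4) (nat_lit 427) (nat_lit 350) (nat_lit 243)) (XT.lf (nat_lit 0) (nat_lit 65368647905) (nat_lit 152) (nat_lit 4571025060) (nat_lit 0) (nat_lit 8305313640) (nat_lit 31) (nat_lit 5) (nat_lit 33) (nat_lit 4) (nat_lit 31) (nat_lit 4) (nat_lit 428) (nat_lit 350)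 (nat_lit 242)))) (XT.nd (nat_lit 156) (nat_lit 152) (nat_lit 0) (XT.nd (nat_lit 78) (nat_lit 76) (nat_lit 0) (XT.lf (nat_lit 0) (nat_lit 12194804298) (nat_lit 152) (nat_lit 32321939898) (nat_lit 76) (nat_lit 36796118250) (nat_lit 29) (nat_lit 5) (nat_lit 31) (nat_lit 5) (nat_lit 30) (nat_lit 4) (nat_lit 429) (nat_lit 350) (nat_lit 241)) (XT.lf (nat_lit 0) (nat_lit 21048209669) (nat_lit 76) (nat_lit 17443904226) (nat_lit 152) (nat_lit 46031026746) (nat_lit 28) (nat_lit 5) (nat_lit 29) (nat_lit 5) (nat_lit 30) (nat_lit 4) (nat_lit 430) (nat_lit 350) (nat_lit 240))) (XT.nd (nat_lit 78) (nat_lit 152) (nat_lit 0) (XT.lf (nat_lit 0) (nat_lit 66532748932) (nat_lit 152) (nat_lit 10255904816) (nat_lit 0) (nat_lit 11092425742) (nat_lit 28) (nat_lit 5) (nat_lit 30) (nat_lit 4) (nat_lit 28) (nat_lit 4) (nat_lit 431) (nat_lit 350) (nat_lit 239)) (XT.lf (nat_lit 0) (nat_lit 5094271694) (nat_lit 152) (nat_lit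 45110742077) (nat_lit 76) (nat_lit 41182136984) (nat_lit 26) (nat_lit 5) (nat_lit 28) (nat_lit 5) (nat_lit 27) (nat_lit 4) (nat_lit 432) (nat_lit 350) (nat_lit 238))))))))
noncomputable def xc68 : XT := (XT.nd (nat_lit 48282) (nat_lit 0) (nat_lit 5168) (XT.nd (nat_lit 47346) (nat_lit 0) (nat_lit 13680) (XT.nd (nat_lit 46878) (nat_lit 0) (nat_lit 20596) (XT.nd (nat_lit 234) (nat_lit 76) (nat_lit 0) (XT.nd (nat_lit 78) (nat_lit 76) (nat_lit 0) (XT.lf (nat_lit 0) (nat_lit 10753895012) (nat_lit 76) (nat_lit 21865433857) (nat_lit 152) (nat_lit 62436800872) (nat_lit 25) (nat_lit 5) (nat_lit 26) (nat_lit 5) (nat_lit 27) (nat_lit 4) (nat_lit 433) (nat_lit 350) (nat_lit 237)) (XT.nd (nat_lit 78) (nat_lit 76) (nat_lit 0) (XT.lf (nat_lit 0) (nat_lit 62053464108) (nat_lit 152) (nat_lit 28643933375) (nat_lit 0) (nat_lit 8195175895) (nat_lit 25) (nat_lit 5) (nat_lit 27) (nat_lit 4) (nat_lit 25) (nat_lit 4)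 (nat_lit 434) (nat_lit 350) (nat_lit 236)) (XT.lf (nat_lit 0) (nat_lit 30142589320) (nat_lit 76) (nat_lit 63315728271) (nat_lit 76) (nat_lit 9447551696) (nat_lit 24) (nat_lit 4) (nat_lit 25) (nat_lit 5) (nat_lit 25) (nat_lit 4) (nat_lit 435) (nat_lit 350) (nat_lit 235)))) (XT.nd (nat_lit 46488) (nat_lit 0) (nat_lit 22344) (XT.lf (nat_lit 0) (nat_lit 19223285866) (nat_lit 152) (nat_lit 14854323754) (nat_lit 76) (nat_lit 73028053763) (nat_lit 23) (nat_lit 5) (nat_lit 25) (nat_lit 5) (nat_lit 24) (nat_lit 4) (nat_lit 436) (nat_lit 350) (nat_lit 234)) (XT.nd (nat_lit 78) (nat_lit 0) (nat_lit 0) (XT.lf (nat_lit 0) (nat_lit 1145703036) (nat_lit 988) (nat_lit 1388866692) (nat_lit 988) (nat_lit 1388866692) (nat_lit 317) (nat_lit 3) (nat_lit 330) (nat_lit 3) (nat_lit 330) (nat_lit 5) (nat_lit 351) (nat_lit 351) (nat_lit 318)) (XT.lf (nat_lit 76) (nat_lit 3656605517) (nat_lit 0) (nat_lit 795324873) (nat_lit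 988) (nat_lit 3527208329) (nat_lit 318) (nat_lit 5) (nat_lit 317) (nat_lit 3) (nat_lit 330) (nat_lit 5) (nat_lit 352) (nat_lit 351) (nat_lit 317))))) (XT.nd (nat_lit 234) (nat_lit 912) (nat_lit 0) (XT.nd (nat_lit 78) (nat_lit 912) (nat_lit 0) (XT.lf (nat_lit 76) (nat_lit 2288209910) (nat_lit 0) (nat_lit 4386193698) (nat_lit 988) (nat_lit 1445048369) (nat_lit 319) (nat_lit 5) (nat_lit 318) (nat_lit 5) (nat_lit 331) (nat_lit 5) (nat_lit 353) (nat_lit 351) (nat_lit 316)) (XT.nd (nat_lit 78) (nat_lit 0) (nat_lit 0) (XT.lf (nat_lit 0) (nat_lit 664137679) (nat_lit 988) (nat_lit 7288402391) (nat_lit 1064) (nat_lit 315953490) (nat_lit 306) (nat_lit 5) (nat_lit 319) (nat_lit 5) (nat_lit 320) (nat_lit 5) (nat_lit 354) (nat_lit 351) (nat_lit 315)) (XT.lf (nat_lit 0) (nat_lit 2831822189) (nat_lit 988) (nat_lit 305544054) (nat_lit 1064) (nat_lit 5287749597) (nat_lit 306) (nat_lit 5) (nat_lit 319) (nat_lit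 5) (nat_lit 320) (nat_lit 5) (nat_lit 355) (nat_lit 351) (nat_lit 314)))) (XT.nd (nat_lit 78) (nat_lit 988) (nat_lit 0) (XT.lf (nat_lit 0) (nat_lit 5079170597) (nat_lit 988) (nat_lit 1518850584) (nat_lit 1064) (nat_lit 1992453083) (nat_lit 307) (nat_lit 5) (nat_lit 320) (nat_lit 5) (nat_lit 321) (nat_lit 5) (nat_lit 356) (nat_lit 351) (nat_lit 313)) (XT.nd (nat_lit 78) (nat_lit 988) (nat_lit 0) (XT.lf (nat_lit 76) (nat_lit 6072036635) (nat_lit 0) (nat_lit 1348887573) (nat_lit 1064) (nat_lit 1343756620) (nat_lit 308) (nat_lit 5) (nat_lit 307) (nat_lit 5) (nat_lit 321) (nat_lit 5) (nat_lit 357) (nat_lit 351) (nat_lit 312)) (XT.lf (nat_lit 0) (nat_lit 912604153) (nat_lit 1064) (nat_lit 3846192314) (nat_lit 1140) (nat_lit 4188611881) (nat_lit 294) (nat_lit 5) (nat_lit 308) (nat_lit 5) (nat_lit 309) (nat_lit 5) (nat_lit 358) (nat_lit 351) (nat_lit 311)))))) (XT.nd (nat_lit 468) (nat_lit 3572) (nat_lit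 0) (XT.nd (nat_lit 234) (nat_lit 2432) (nat_lit 0) (XT.nd (nat_lit 78) (nat_lit 988) (nat_lit 0) (XT.lf (nat_lit 0) (nat_lit 3242204054) (nat_lit 1064) (nat_lit 4968022841) (nat_lit 1140) (nat_lit 929036268) (nat_lit 295) (nat_lit 5) (nat_lit 309) (nat_lit 5) (nat_lit 310) (nat_lit 5) (nat_lit 359) (nat_lit 351) (nat_lit 310)) (XT.nd (nat_lit 78) (nat_lit 988) (nat_lit 0) (XT.lf (nat_lit 76) (nat_lit 3268597311) (nat_lit 0) (nat_lit 2440605056) (nat_lit 1140) (nat_lit 3630915480) (nat_lit 296) (nat_lit 5) (nat_lit 295) (nat_lit 5) (nat_lit 310) (nat_lit 5) (nat_lit 360) (nat_lit 351) (nat_lit 309)) (XT.lf (nat_lit 0) (nat_lit 2405032343) (nat_lit 1064) (nat_lit 5909699418) (nat_lit 1140) (nat_lit 1235861099) (nat_lit 282) (nat_lit 5) (nat_lit 296) (nat_lit 5) (nat_lit 297) (nat_lit 5) (nat_lit 361) (nat_lit 351) (nat_lit 308)))) (XT.nd (nat_lit 78) (nat_lit 1216) (nat_lit 0) (XT.lf (nat_lit 0)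 (nat_lit 1268398456) (nat_lit 1216) (nat_lit 8195714149) (nat_lit 76) (nat_lit 306708458) (nat_lit 266) (nat_lit 5) (nat_lit 282) (nat_lit 5) (nat_lit 267) (nat_lit 5) (nat_lit 362) (nat_lit 351) (nat_lit 307)) (XT.nd (nat_lit 78) (nat_lit 0) (nat_lit 0) (XT.lf (nat_lit 0) (nat_lit 744778077) (nat_lit 1216) (nat_lit 3181095673) (nat_lit 1292) (nat_lit 6074242059) (nat_lit 250) (nat_lit 5) (nat_lit 266) (nat_lit 5) (nat_lit 267) (nat_lit 5) (nat_lit 363) (nat_lit 351) (nat_lit 306)) (XT.lf (nat_lit 0) (nat_lit 6750025013) (nat_lit 1292) (nat_lit 47032540) (nat_lit 76) (nat_lit 3442831374) (nat_lit 250) (nat_lit 5) (nat_lit 267) (nat_lit 5) (nat_lit 251) (nat_lit 5) (nat_lit 364) (nat_lit 351) (nat_lit 305))))) (XT.nd (nat_lit 234) (nat_lit 1596) (nat_lit 0) (XT.nd (nat_lit 78) (nat_lit 1292) (nat_lit 0) (XT.lf (nat_lit 0) (nat_lit 9704107367) (nat_lit 684) (nat_lit 56439057) (nat_lit 760) (nat_lit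 729775780) (nat_lit 241) (nat_lit 5) (nat_lit 250) (nat_lit 5) (nat_lit 251) (nat_lit 5) (nat_lit 365) (nat_lit 351) (nat_lit 304)) (XT.nd (nat_lit 78) (nat_lit 608) (nat_lit 0) (XT.lf (nat_lit 0) (nat_lit 2206392616) (nat_lit 684) (nat_lit 1544515905) (nat_lit 76) (nat_lit 6999356099) (nat_lit 232) (nat_lit 5) (nat_lit 241) (nat_lit 5) (nat_lit 233) (nat_lit 5) (nat_lit 366) (nat_lit 351) (nat_lit 303)) (XT.lf (nat_lit 0) (nat_lit 5326223000) (nat_lit 684) (nat_lit 2276322414) (nat_lit 76) (nat_lit 3418906813) (nat_lit 224) (nat_lit 5) (nat_lit 233) (nat_lit 5) (nat_lit 225) (nat_lit 5) (nat_lit 367) (nat_lit 351) (nat_lit 302)))) (XT.nd (nat_lit 78) (nat_lit 1064) (nat_lit 0) (XT.lf (nat_lit 0) (nat_lit 8325784566) (nat_lit 532) (nat_lit 338223750) (nat_lit 608) (nat_lit 2640354125) (nat_lit 217) (nat_lit 5) (nat_lit 224) (nat_lit 5) (nat_lit 225) (nat_lit 5) (nat_lit 368) (nat_lit 351) (nat_lit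 301)) (XT.nd (nat_lit 78) (nat_lit 456) (nat_lit 0) (XT.lf (nat_lit 0) (nat_lit 657701882) (nat_lit 608) (nat_lit 3690291314) (nat_lit 76) (nat_lit 7250236643) (nat_lit 209) (nat_lit 5) (nat_lit 217) (nat_lit 5) (nat_lit 210) (nat_lit 5) (nat_lit 369) (nat_lit 351) (nat_lit 300)) (XT.lf (nat_lit 0) (nat_lit 4139038050) (nat_lit 532) (nat_lit 4399571538) (nat_lit 76) (nat_lit 3365226724) (nat_lit 203) (nat_lit 5) (nat_lit 210) (nat_lit 5) (nat_lit 204) (nat_lit 5) (nat_lit 370) (nat_lit 351) (nat_lit 299))))))) (XT.nd (nat_lit 936) (nat_lit 3344) (nat_lit 0) (XT.nd (nat_lit 468) (nat_lit 2280) (nat_lit 0) (XT.nd (nat_lit 234) (nat_lit 1368) (nat_lit 0) (XT.nd (nat_lit 78) (nat_lit 988) (nat_lit 0) (XT.lf (nat_lit 0) (nat_lit 7133595748) (nat_lit 532) (nat_lit 746765635) (nat_lit 608) (nat_lit 4341802670) (nat_lit 196) (nat_lit 5) (nat_lit 203) (nat_lit 5) (nat_lit 204) (nat_lit 5) (nat_lit 371)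 (nat_lit 351) (nat_lit 298)) (XT.nd (nat_lit 78) (nat_lit 532) (nat_lit 0) (XT.lf (nat_lit 0) (nat_lit 6767320423) (nat_lit 456) (nat_lit 5161105065) (nat_lit 532) (nat_lit 624410128) (nat_lit 190) (nat_lit 5) (nat_lit 196) (nat_lit 5) (nat_lit 197) (nat_lit 5) (nat_lit 372) (nat_lit 351) (nat_lit 297)) (XT.lf (nat_lit 0) (nat_lit 3306681875) (nat_lit 532) (nat_lit 6490001255) (nat_lit 76) (nat_lit 3099674057) (nat_lit 183) (nat_lit 5) (nat_lit 190) (nat_lit 5) (nat_lit 184) (nat_lit 5) (nat_lit 373) (nat_lit 351) (nat_lit 296)))) (XT.nd (nat_lit 78) (nat_lit 912) (nat_lit 0) (XT.lf (nat_lit 0) (nat_lit 6060882981) (nat_lit 456) (nat_lit 1472368051) (nat_lit 532) (nat_lit 5720278810) (nat_lit 177) (nat_lit 5) (nat_lit 183) (nat_lit 5) (nat_lit 184) (nat_lit 5) (nat_lit 374) (nat_lit 351) (nat_lit 295)) (XT.nd (nat_lit 78) (nat_lit 456) (nat_lit 0) (XT.lf (nat_lit 0) (nat_lit 5718045078) (nat_lit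 456) (nat_lit 6388623856) (nat_lit 532) (nat_lit 1517841408) (nat_lit 171) (nat_lit 5) (nat_lit 177) (nat_lit 5) (nat_lit 178) (nat_lit 5) (nat_lit 375) (nat_lit 351) (nat_lit 294)) (XT.lf (nat_lit 0) (nat_lit 2948355092) (nat_lit 456) (nat_lit 8630122955) (nat_lit 76) (nat_lit 2431437043) (nat_lit 165) (nat_lit 5) (nat_lit 171) (nat_lit 5) (nat_lit 166) (nat_lit 5) (nat_lit 376) (nat_lit 351) (nat_lit 293))))) (XT.nd (nat_lit 234) (nat_lit 1064) (nat_lit 0) (XT.nd (nat_lit 78) (nat_lit 836) (nat_lit 0) (XT.lf (nat_lit 0) (nat_lit 5031103399) (nat_lit 380) (nat_lit 2717228834) (nat_lit 456) (nat_lit 6661564189) (nat_lit 160) (nat_lit 5) (nat_lit 165) (nat_lit 5) (nat_lit 166) (nat_lit 5) (nat_lit 377) (nat_lit 351) (nat_lit 292)) (XT.nd (nat_lit 78) (nat_lit 456) (nat_lit 0) (XT.lf (nat_lit 0) (nat_lit 4686476068) (nat_lit 380) (nat_lit 8248186639) (nat_lit 456) (nat_lit 1890835910) (nat_lit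 155) (nat_lit 5) (nat_lit 160) (nat_lit 5) (nat_lit 161) (nat_lit 5) (nat_lit 378) (nat_lit 351) (nat_lit 291)) (XT.lf (nat_lit 0) (nat_lit 3185207004) (nat_lit 456) (nat_lit 10918594535) (nat_lit 76) (nat_lit 1153362689) (nat_lit 149) (nat_lit 5) (nat_lit 155) (nat_lit 5) (nat_lit 150) (nat_lit 5) (nat_lit 379) (nat_lit 351) (nat_lit 290)))) (XT.nd (nat_lit 78) (nat_lit 760) (nat_lit 0) (XT.lf (nat_lit 0) (nat_lit 3950689153) (nat_lit 304) (nat_lit 4703424585) (nat_lit 380) (nat_lit 7050403680) (nat_lit 145) (nat_lit 5) (nat_lit 149) (nat_lit 5) (nat_lit 150) (nat_lit 5) (nat_lit 380) (nat_lit 351) (nat_lit 289)) (XT.nd (nat_lit 78) (nat_lit 380) (nat_lit 0) (XT.lf (nat_lit 0) (nat_lit 3572697024) (nat_lit 380) (nat_lit 10973975094) (nat_lit 456) (nat_lit 1623070389) (nat_lit 140) (nat_lit 5) (nat_lit 145) (nat_lit 5) (nat_lit 146) (nat_lit 5) (nat_lit 381) (nat_lit 351) (nat_lit 288)) (XT.lf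 (nat_lit 0) (nat_lit 3164488699) (nat_lit 304) (nat_lit 985546504) (nat_lit 380) (nat_lit 12502409886) (nat_lit 135) (nat_lit 5) (nat_lit 139) (nat_lit 5) (nat_lit 140) (nat_lit 5) (nat_lit 382) (nat_lit 351) (nat_lit 287)))))) (XT.nd (nat_lit 468) (nat_lit 1748) (nat_lit 0) (XT.nd (nat_lit 234) (nat_lit 608) (nat_lit 0) (XT.nd (nat_lit 78) (nat_lit 684) (nat_lit 0) (XT.lf (nat_lit 0) (nat_lit 2700383753) (nat_lit 304) (nat_lit 7681660441) (nat_lit 380) (nat_lit 6770651216) (nat_lit 131) (nat_lit 5) (nat_lit 135) (nat_lit 5) (nat_lit 136) (nat_lit 5) (nat_lit 383) (nat_lit 351) (nat_lit 286)) (XT.nd (nat_lit 78) (nat_lit 380) (nat_lit 0) (XT.lf (nat_lit 0) (nat_lit 2247895533) (nat_lit 304) (nat_lit 14832468931) (nat_lit 380) (nat_lit 592961202) (nat_lit 127) (nat_lit 5) (nat_lit 131) (nat_lit 5) (nat_lit 132) (nat_lit 5) (nat_lit 384) (nat_lit 351) (nat_lit 285)) (XT.lf (nat_lit 0) (nat_lit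 1703690475) (nat_lit 304) (nat_lit 4276688838) (nat_lit 380) (nat_lit 12231863468) (nat_lit 122) (nat_lit 5) (nat_lit 126) (nat_lit 5) (nat_lit 127) (nat_lit 5) (nat_lit 385) (nat_lit 351) (nat_lit 284)))) (XT.nd (nat_lit 78) (nat_lit 380) (nat_lit 0) (XT.lf (nat_lit 0) (nat_lit 1124512812) (nat_lit 228) (nat_lit 11941170857) (nat_lit 304) (nat_lit 5706386848) (nat_lit 119) (nat_lit 5) (nat_lit 122) (nat_lit 5) (nat_lit 123) (nat_lit 5) (nat_lit 386) (nat_lit 351) (nat_lit 283)) (XT.nd (nat_lit 78) (nat_lit 0) (nat_lit 0) (XT.lf (nat_lit 0) (nat_lit 522026449) (nat_lit 304) (nat_lit 780608909) (nat_lit 380) (nat_lit 18051542447) (nat_lit 114) (nat_lit 5) (nat_lit 118) (nat_lit 5) (nat_lit 119) (nat_lit 5) (nat_lit 387) (nat_lit 351) (nat_lit 282)) (XT.lf (nat_lit 0) (nat_lit 8794745265) (nat_lit 380) (nat_lit 216527855) (nat_lit 76) (nat_lit 10944909549) (nat_lit 114) (nat_lit 5) (nat_lit 119)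 (nat_lit 5) (nat_lit 115) (nat_lit 5) (nat_lit 388) (nat_lit 351) (nat_lit 281))))) (XT.nd (nat_lit 234) (nat_lit 988) (nat_lit 0) (XT.nd (nat_lit 78) (nat_lit 532) (nat_lit 0) (XT.lf (nat_lit 0) (nat_lit 16848179386) (nat_lit 304) (nat_lit 963308552) (nat_lit 76) (nat_lit 2771204734) (nat_lit 111) (nat_lit 5) (nat_lit 115) (nat_lit 5) (nat_lit 112) (nat_lit 5) (nat_lit 389) (nat_lit 351) (nat_lit 280)) (XT.nd (nat_lit 78) (nat_lit 228) (nat_lit 0) (XT.lf (nat_lit 0) (nat_lit 4230805053) (nat_lit 304) (nat_lit 1832371584) (nat_lit 76) (nat_lit 15168795212) (nat_lit 107) (nat_lit 5) (nat_lit 111) (nat_lit 5) (nat_lit 108) (nat_lit 5) (nat_lit 390) (nat_lit 351) (nat_lit 279)) (XT.lf (nat_lit 0) (nat_lit 12739201638) (nat_lit 304) (nat_lit 2802928033) (nat_lit 76) (nat_lit 6363820307) (nat_lit 104) (nat_lit 5) (nat_lit 108) (nat_lit 5) (nat_lit 105) (nat_lit 5) (nat_lit 391) (nat_lit 351) (nat_lit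 278)))) (XT.nd (nat_lit 156) (nat_lit 456) (nat_lit 0) (XT.nd (nat_lit 78) (nat_lit 304) (nat_lit 0) (XT.lf (nat_lit 0) (nat_lit 18759564700) (nat_lit 228) (nat_lit 3139664301) (nat_lit 304) (nat_lit 707617098) (nat_lit 101) (nat_lit 5) (nat_lit 104) (nat_lit 5) (nat_lit 105) (nat_lit 5) (nat_lit 392) (nat_lit 351) (nat_lit 277)) (XT.lf (nat_lit 0) (nat_lit 8284434392) (nat_lit 304) (nat_lit 5091630179) (nat_lit 76) (nat_lit 9956285811) (nat_lit 97) (nat_lit 5) (nat_lit 101) (nat_lit 5) (nat_lit 98) (nat_lit 5) (nat_lit 393) (nat_lit 351) (nat_lit 276))) (XT.nd (nat_lit 78) (nat_lit 228) (nat_lit 0) (XT.lf (nat_lit 0) (nat_lit 17672373864) (nat_lit 228) (nat_lit 248090737) (nat_lit 304) (nat_lit 6167189542) (nat_lit 94) (nat_lit 5) (nat_lit 97) (nat_lit 5) (nat_lit 98) (nat_lit 5) (nat_lit 394) (nat_lit 351) (nat_lit 275)) (XT.lf (nat_lit 0) (nat_lit 3413204889) (nat_lit 228) (nat_lit 7955886068)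 (nat_lit 76) (nat_lit 13501208552) (nat_lit 91) (nat_lit 5) (nat_lit 94) (nat_lit 5) (nat_lit 92) (nat_lit 5) (nat_lit 395) (nat_lit 351) (nat_lit 274))))))))
noncomputable def xc69 : XT := (XT.nd (nat_lit 1950) (nat_lit 1292) (nat_lit 0) (XT.nd (nat_lit 936) (nat_lit 1672) (nat_lit 0) (XT.nd (nat_lit 468) (nat_lit 912) (nat_lit 0) (XT.nd (nat_lit 234) (nat_lit 532) (nat_lit 0) (XT.nd (nat_lit 78) (nat_lit 456) (nat_lit 0) (XT.lf (nat_lit 0) (nat_lit 13562760466) (nat_lit 304) (nat_lit 9658383476) (nat_lit 76) (nat_lit 2462574910) (nat_lit 88) (nat_lit 5) (nat_lit 92) (nat_lit 5) (nat_lit 89) (nat_lit 5) (nat_lit 396) (nat_lit 351) (nat_lit 273)) (XT.nd (nat_lit 78) (nat_lit 304) (nat_lit 0) (XT.lf (nat_lit 0) (nat_lit 14961550167) (nat_lit 152) (nat_lit 9569199646) (nat_lit 228) (nat_lit 1997734669) (nat_lit 86) (nat_lit 5) (nat_lit 88) (nat_lit 5) (nat_lit 89) (nat_lit 5) (nat_lit 397) (nat_lit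 351) (nat_lit 272)) (XT.lf (nat_lit 0) (nat_lit 8714733395) (nat_lit 304) (nat_lit 13720256434) (nat_lit 76) (nat_lit 4970467549) (nat_lit 82) (nat_lit 5) (nat_lit 86) (nat_lit 5) (nat_lit 83) (nat_lit 5) (nat_lit 398) (nat_lit 351) (nat_lit 271)))) (XT.nd (nat_lit 78) (nat_lit 380) (nat_lit 0) (XT.lf (nat_lit 0) (nat_lit 12189172894) (nat_lit 152) (nat_lit 8037815286) (nat_lit 228) (nat_lit 8089536490) (nat_lit 80) (nat_lit 5) (nat_lit 82) (nat_lit 5) (nat_lit 83) (nat_lit 5) (nat_lit 399) (nat_lit 351) (nat_lit 270)) (XT.nd (nat_lit 78) (nat_lit 152) (nat_lit 0) (XT.lf (nat_lit 0) (nat_lit 3268569827) (nat_lit 228) (nat_lit 18798329469) (nat_lit 76) (nat_lit 7196785697) (nat_lit 77) (nat_lit 5) (nat_lit 80) (nat_lit 5) (nat_lit 78) (nat_lit 5) (nat_lit 400) (nat_lit 351) (nat_lit 269)) (XT.lf (nat_lit 0) (nat_lit 8423359726) (nat_lit 152) (nat_lit 6907652368) (nat_lit 228) (nat_lit 14915679469)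 (nat_lit 75) (nat_lit 5) (nat_lit 77) (nat_lit 5) (nat_lit 78) (nat_lit 5) (nat_lit 401) (nat_lit 351) (nat_lit 268))))) (XT.nd (nat_lit 234) (nat_lit 380) (nat_lit 0) (XT.nd (nat_lit 78) (nat_lit 380) (nat_lit 0) (XT.lf (nat_lit 0) (nat_lit 6109300144) (nat_lit 152) (nat_lit 22201129211) (nat_lit 228) (nat_lit 2959006474) (nat_lit 73) (nat_lit 5) (nat_lit 75) (nat_lit 5) (nat_lit 76) (nat_lit 5) (nat_lit 402) (nat_lit 351) (nat_lit 267)) (XT.nd (nat_lit 78) (nat_lit 152) (nat_lit 0) (XT.lf (nat_lit 0) (nat_lit 3413982260) (nat_lit 152) (nat_lit 6297360925) (nat_lit 228) (nat_lit 22620117146) (nat_lit 70) (nat_lit 5) (nat_lit 72) (nat_lit 5) (nat_lit 73) (nat_lit 5) (nat_lit 403) (nat_lit 351) (nat_lit 266)) (XT.lf (nat_lit 0) (nat_lit 332096321) (nat_lit 152) (nat_lit 22961533235) (nat_lit 228) (nat_lit 10141891711) (nat_lit 68) (nat_lit 5) (nat_lit 70) (nat_lit 5) (nat_lit 71) (nat_lit 5) (nat_lit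 404) (nat_lit 351) (nat_lit 265)))) (XT.nd (nat_lit 78) (nat_lit 304) (nat_lit 0) (XT.lf (nat_lit 0) (nat_lit 3241518283) (nat_lit 228) (nat_lit 3077301221) (nat_lit 76) (nat_lit 28264943329) (nat_lit 67) (nat_lit 5) (nat_lit 70) (nat_lit 5) (nat_lit 68) (nat_lit 5) (nat_lit 405) (nat_lit 351) (nat_lit 264)) (XT.nd (nat_lit 78) (nat_lit 152) (nat_lit 0) (XT.lf (nat_lit 0) (nat_lit 17450665014) (nat_lit 228) (nat_lit 7021254352) (nat_lit 76) (nat_lit 11303497477) (nat_lit 65) (nat_lit 5) (nat_lit 68) (nat_lit 5) (nat_lit 66) (nat_lit 5) (nat_lit 406) (nat_lit 351) (nat_lit 263)) (XT.lf (nat_lit 0) (nat_lit 25609363751) (nat_lit 152) (nat_lit 7079459979) (nat_lit 228) (nat_lit 4328275365) (nat_lit 63) (nat_lit 5) (nat_lit 65) (nat_lit 5) (nat_lit 66) (nat_lit 5) (nat_lit 407) (nat_lit 351) (nat_lit 262)))))) (XT.nd (nat_lit 468) (nat_lit 836) (nat_lit 0) (XT.nd (nat_lit 234) (nat_lit 304) (nat_lit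 0) (XT.nd (nat_lit 78) (nat_lit 304) (nat_lit 0) (XT.lf (nat_lit 0) (nat_lit 10538277944) (nat_lit 228) (nat_lit 16434280538) (nat_lit 76) (nat_lit 11334141965) (nat_lit 60) (nat_lit 5) (nat_lit 63) (nat_lit 5) (nat_lit 61) (nat_lit 5) (nat_lit 408) (nat_lit 351) (nat_lit 261)) (XT.nd (nat_lit 78) (nat_lit 152) (nat_lit 0) (XT.lf (nat_lit 0) (nat_lit 17583892924) (nat_lit 152) (nat_lit 8812298464) (nat_lit 228) (nat_lit 13253180339) (nat_lit 58) (nat_lit 5) (nat_lit 60) (nat_lit 5) (nat_lit 61) (nat_lit 5) (nat_lit 409) (nat_lit 351) (nat_lit 260)) (XT.lf (nat_lit 0) (nat_lit 2322362897) (nat_lit 152) (nat_lit 28370952119) (nat_lit 76) (nat_lit 10354090229) (nat_lit 56) (nat_lit 5) (nat_lit 58) (nat_lit 5) (nat_lit 57) (nat_lit 5) (nat_lit 410) (nat_lit 351) (nat_lit 259)))) (XT.nd (nat_lit 78) (nat_lit 152) (nat_lit 0) (XT.lf (nat_lit 0) (nat_lit 6980065494) (nat_lit 152) (nat_lit 11789113296)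 (nat_lit 228) (nat_lit 23731229003) (nat_lit 54) (nat_lit 5) (nat_lit 56) (nat_lit 5) (nat_lit 57) (nat_lit 5) (nat_lit 411) (nat_lit 351) (nat_lit 258)) (XT.nd (nat_lit 78) (nat_lit 76) (nat_lit 0) (XT.lf (nat_lit 0) (nat_lit 566312547) (nat_lit 76) (nat_lit 35828986705) (nat_lit 152) (nat_lit 7620053916) (nat_lit 53) (nat_lit 5) (nat_lit 54) (nat_lit 5) (nat_lit 55) (nat_lit 4) (nat_lit 412) (nat_lit 351) (nat_lit 257)) (XT.lf (nat_lit 0) (nat_lit 9583056628) (nat_lit 152) (nat_lit 6645355547) (nat_lit 76) (nat_lit 29360920513) (nat_lit 52) (nat_lit 5) (nat_lit 54) (nat_lit 5) (nat_lit 53) (nat_lit 5) (nat_lit 413) (nat_lit 351) (nat_lit 256))))) (XT.nd (nat_lit 234) (nat_lit 380) (nat_lit 0) (XT.nd (nat_lit 78) (nat_lit 304) (nat_lit 0) (XT.lf (nat_lit 0) (nat_lit 27828831769) (nat_lit 228) (nat_lit 14756328457) (nat_lit 76) (nat_lit 4644385890) (nat_lit 50) (nat_lit 5) (nat_lit 53) (nat_lit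 5) (nat_lit 51) (nat_lit 4) (nat_lit 414) (nat_lit 351) (nat_lit 255)) (XT.nd (nat_lit 78) (nat_lit 228) (nat_lit 0) (XT.lf (nat_lit 0) (nat_lit 25025278632) (nat_lit 76) (nat_lit 22415996674) (nat_lit 152) (nat_lit 1496864871) (nat_lit 49) (nat_lit 5) (nat_lit 50) (nat_lit 5) (nat_lit 51) (nat_lit 4) (nat_lit 415) (nat_lit 351) (nat_lit 254)) (XT.lf (nat_lit 0) (nat_lit 16495989512) (nat_lit 152) (nat_lit 761867770) (nat_lit 228) (nat_lit 33460519096) (nat_lit 46) (nat_lit 5) (nat_lit 48) (nat_lit 5) (nat_lit 49) (nat_lit 5) (nat_lit 416) (nat_lit 351) (nat_lit 253)))) (XT.nd (nat_lit 156) (nat_lit 228) (nat_lit 0) (XT.nd (nat_lit 78) (nat_lit 76) (nat_lit 0) (XT.lf (nat_lit 0) (nat_lit 6712757534) (nat_lit 76) (nat_lit 30712995472) (nat_lit 152) (nat_lit 15146236112) (nat_lit 45) (nat_lit 5) (nat_lit 46) (nat_lit 5) (nat_lit 47) (nat_lit 4) (nat_lit 417) (nat_lit 351) (nat_lit 252)) (XT.lf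 (nat_lit 0) (nat_lit 4349656829) (nat_lit 152) (nat_lit 4181919668) (nat_lit 76) (nat_lit 45975161889) (nat_lit 44) (nat_lit 5) (nat_lit 46) (nat_lit 5) (nat_lit 45) (nat_lit 5) (nat_lit 418) (nat_lit 351) (nat_lit 251))) (XT.nd (nat_lit 78) (nat_lit 76) (nat_lit 0) (XT.lf (nat_lit 0) (nat_lit 25026263355) (nat_lit 228) (nat_lit 16491200656) (nat_lit 76) (nat_lit 15000688283) (nat_lit 42) (nat_lit 5) (nat_lit 45) (nat_lit 5) (nat_lit 43) (nat_lit 4) (nat_lit 419) (nat_lit 351) (nat_lit 250)) (XT.lf (nat_lit 0) (nat_lit 28339866336) (nat_lit 76) (nat_lit 18782182479) (nat_lit 152) (nat_lit 11496528621) (nat_lit 41) (nat_lit 5) (nat_lit 42) (nat_lit 5) (nat_lit 43) (nat_lit 4) (nat_lit 420) (nat_lit 351) (nat_lit 249))))))) (XT.nd (nat_lit 936) (nat_lit 304) (nat_lit 0) (XT.nd (nat_lit 468) (nat_lit 456) (nat_lit 0) (XT.nd (nat_lit 234) (nat_lit 228) (nat_lit 0) (XT.nd (nat_lit 78) (nat_lit 76)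 (nat_lit 0) (XT.lf (nat_lit 0) (nat_lit 9666437135) (nat_lit 228) (nat_lit 45755925857) (nat_lit 76) (nat_lit 5388326896) (nat_lit 38) (nat_lit 5) (nat_lit 41) (nat_lit 5) (nat_lit 39) (nat_lit 4) (nat_lit 421) (nat_lit 351) (nat_lit 248)) (XT.nd (nat_lit 78) (nat_lit 76) (nat_lit 0) (XT.lf (nat_lit 0) (nat_lit 32140381400) (nat_lit 228) (nat_lit 154405480) (nat_lit 76) (nat_lit 30799489270) (nat_lit 38) (nat_lit 5) (nat_lit 41) (nat_lit 5) (nat_lit 39) (nat_lit 4) (nat_lit 422) (nat_lit 351) (nat_lit 247)) (XT.lf (nat_lit 0) (nat_lit 48647623375) (nat_lit 76) (nat_lit 7542824540) (nat_lit 152) (nat_lit 9288021894) (nat_lit 37) (nat_lit 5) (nat_lit 38) (nat_lit 5) (nat_lit 39) (nat_lit 4) (nat_lit 423) (nat_lit 351) (nat_lit 246)))) (XT.nd (nat_lit 78) (nat_lit 76) (nat_lit 0) (XT.lf (nat_lit 0) (nat_lit 13678056018) (nat_lit 152) (nat_lit 35765253505) (nat_lit 76) (nat_lit 18520294896) (nat_lit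 35) (nat_lit 5) (nat_lit 37) (nat_lit 5) (nat_lit 36) (nat_lit 4) (nat_lit 424) (nat_lit 351) (nat_lit 245)) (XT.nd (nat_lit 78) (nat_lit 0) (nat_lit 0) (XT.lf (nat_lit 0) (nat_lit 13527477181) (nat_lit 76) (nat_lit 24441217310) (nat_lit 152) (nat_lit 32590492771) (nat_lit 34) (nat_lit 5) (nat_lit 35) (nat_lit 5) (nat_lit 36) (nat_lit 4) (nat_lit 425) (nat_lit 351) (nat_lit 244)) (XT.lf (nat_lit 0) (nat_lit 63848822173) (nat_lit 152) (nat_lit 7289652891) (nat_lit 0) (nat_lit 2134826165) (nat_lit 34) (nat_lit 5) (nat_lit 36) (nat_lit 4) (nat_lit 34) (nat_lit 4) (nat_lit 426) (nat_lit 351) (nat_lit 243))))) (XT.nd (nat_lit 234) (nat_lit 228) (nat_lit 0) (XT.nd (nat_lit 78) (nat_lit 76) (nat_lit 0) (XT.lf (nat_lit 0) (nat_lit 15286741221) (nat_lit 152) (nat_lit 30697115444) (nat_lit 76) (nat_lit 30114638431) (nat_lit 32) (nat_lit 5) (nat_lit 34) (nat_lit 5) (nat_lit 33) (nat_lit 4) (nat_lit 427)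 (nat_lit 351) (nat_lit 242)) (XT.nd (nat_lit 78) (nat_lit 0) (nat_lit 0) (XT.lf (nat_lit 0) (nat_lit 22126962379) (nat_lit 76) (nat_lit 19188625114) (nat_lit 152) (nat_lit 37738253100) (nat_lit 31) (nat_lit 5) (nat_lit 32) (nat_lit 5) (nat_lit 33) (nat_lit 4) (nat_lit 428) (nat_lit 351) (nat_lit 241)) (XT.lf (nat_lit 0) (nat_lit 69037968055) (nat_lit 152) (nat_lit 4027964614) (nat_lit 0) (nat_lit 9079258526) (nat_lit 31) (nat_lit 5) (nat_lit 33) (nat_lit 4) (nat_lit 31) (nat_lit 4) (nat_lit 429) (nat_lit 351) (nat_lit 240)))) (XT.nd (nat_lit 78) (nat_lit 76) (nat_lit 0) (XT.lf (nat_lit 0) (nat_lit 13197415384) (nat_lit 152) (nat_lit 33180707644) (nat_lit 76) (nat_lit 38988579671) (nat_lit 29) (nat_lit 5) (nat_lit 31) (nat_lit 5) (nat_lit 30) (nat_lit 4) (nat_lit 430) (nat_lit 351) (nat_lit 239)) (XT.nd (nat_lit 78) (nat_lit 0) (nat_lit 0) (XT.lf (nat_lit 0) (nat_lit 22836240711) (nat_lit 76)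 (nat_lit 17961712848) (nat_lit 152) (nat_lit 47939891149) (nat_lit 28) (nat_lit 5) (nat_lit 29) (nat_lit 5) (nat_lit 30) (nat_lit 4) (nat_lit 431) (nat_lit 351) (nat_lit 238)) (XT.lf (nat_lit 0) (nat_lit 70225710712) (nat_lit 152) (nat_lit 10060445826) (nat_lit 0) (nat_lit 11977972010) (nat_lit 28) (nat_lit 5) (nat_lit 30) (nat_lit 4) (nat_lit 28) (nat_lit 4) (nat_lit 432) (nat_lit 351) (nat_lit 237)))))) (XT.nd (nat_lit 46956) (nat_lit 0) (nat_lit 20444) (XT.nd (nat_lit 234) (nat_lit 76) (nat_lit 0) (XT.nd (nat_lit 78) (nat_lit 76) (nat_lit 0) (XT.lf (nat_lit 0) (nat_lit 5708012531) (nat_lit 152) (nat_lit 46671167526) (nat_lit 76) (nat_lit 43566543374) (nat_lit 26) (nat_lit 5) (nat_lit 28) (nat_lit 5) (nat_lit 27) (nat_lit 4) (nat_lit 433) (nat_lit 351) (nat_lit 236)) (XT.nd (nat_lit 78) (nat_lit 0) (nat_lit 0) (XT.lf (nat_lit 0) (nat_lit 11966776181) (nat_lit 76) (nat_lit 22631940154) (nat_lit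 152) (nat_lit 65199753889) (nat_lit 25) (nat_lit 5) (nat_lit 26) (nat_lit 5) (nat_lit 27) (nat_lit 4) (nat_lit 434) (nat_lit 351) (nat_lit 235)) (XT.lf (nat_lit 0) (nat_lit 65490958352) (nat_lit 152) (nat_lit 29426119230) (nat_lit 0) (nat_lit 8910067096) (nat_lit 25) (nat_lit 5) (nat_lit 27) (nat_lit 4) (nat_lit 25) (nat_lit 4) (nat_lit 435) (nat_lit 351) (nat_lit 234)))) (XT.nd (nat_lit 46566) (nat_lit 0) (nat_lit 21280) (XT.lf (nat_lit 0) (nat_lit 32281097170) (nat_lit 76) (nat_lit 66175082676) (nat_lit 76) (nat_lit 9585222384) (nat_lit 24) (nat_lit 4) (nat_lit 25) (nat_lit 5) (nat_lit 25) (nat_lit 4) (nat_lit 436) (nat_lit 351) (nat_lit 233)) (XT.nd (nat_lit 78) (nat_lit 988) (nat_lit 0) (XT.lf (nat_lit 0) (nat_lit 3238789149) (nat_lit 988) (nat_lit 409474460) (nat_lit 988) (nat_lit 409474460) (nat_lit 317) (nat_lit 3) (nat_lit 330) (nat_lit 3) (nat_lit 330) (nat_lit 5) (nat_lit 352) (nat_lit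 352) (nat_lit 316)) (XT.lf (nat_lit 0) (nat_lit 306077457) (nat_lit 988) (nat_lit 2385683279) (nat_lit 1064) (nat_lit 5567809364) (nat_lit 304) (nat_lit 5) (nat_lit 317) (nat_lit 3) (nat_lit 318) (nat_lit 5) (nat_lit 353) (nat_lit 352) (nat_lit 315))))) (XT.nd (nat_lit 234) (nat_lit 912) (nat_lit 0) (XT.nd (nat_lit 78) (nat_lit 0) (nat_lit 0) (XT.lf (nat_lit 0) (nat_lit 2265493303) (nat_lit 988) (nat_lit 3920579605) (nat_lit 1064) (nat_lit 2225791456) (nat_lit 305) (nat_lit 5) (nat_lit 318) (nat_lit 5) (nat_lit 319) (nat_lit 5) (nat_lit 354) (nat_lit 352) (nat_lit 314)) (XT.nd (nat_lit 78) (nat_lit 0) (nat_lit 76) (XT.lf (nat_lit 76) (nat_lit 3157376865) (nat_lit 0) (nat_lit 1131604314) (nat_lit 1064) (nat_lit 4283852545) (nat_lit 306) (nat_lit 5) (nat_lit 305) (nat_lit 5) (nat_lit 319) (nat_lit 5) (nat_lit 355) (nat_lit 352) (nat_lit 313)) (XT.lf (nat_lit 76) (nat_lit 1856591651) (nat_lit 0)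 (nat_lit 4544914955) (nat_lit 1064) (nat_lit 2340750403) (nat_lit 307) (nat_lit 5) (nat_lit 306) (nat_lit 5) (nat_lit 320) (nat_lit 5) (nat_lit 356) (nat_lit 352) (nat_lit 312)))) (XT.nd (nat_lit 156) (nat_lit 0) (nat_lit 76) (XT.nd (nat_lit 78) (nat_lit 1064) (nat_lit 0) (XT.lf (nat_lit 76) (nat_lit 607536421) (nat_lit 0) (nat_lit 7987858861) (nat_lit 1064) (nat_lit 325523449) (nat_lit 308) (nat_lit 5) (nat_lit 307) (nat_lit 5) (nat_lit 321) (nat_lit 5) (nat_lit 357) (nat_lit 352) (nat_lit 311)) (XT.lf (nat_lit 0) (nat_lit 1770439087) (nat_lit 1064) (nat_lit 622140936) (nat_lit 1140) (nat_lit 6715006221) (nat_lit 293) (nat_lit 5) (nat_lit 307) (nat_lit 5) (nat_lit 308) (nat_lit 5) (nat_lit 358) (nat_lit 352) (nat_lit 310))) (XT.nd (nat_lit 78) (nat_lit 0) (nat_lit 76) (XT.lf (nat_lit 0) (nat_lit 3973757847) (nat_lit 1064) (nat_lit 1809352822) (nat_lit 1140) (nat_lit 3520135742) (nat_lit 294)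 (nat_lit 5) (nat_lit 308) (nat_lit 5) (nat_lit 309) (nat_lit 5) (nat_lit 359) (nat_lit 352) (nat_lit 309)) (XT.lf (nat_lit 0) (nat_lit 6290062026) (nat_lit 1064) (nat_lit 2956381827) (nat_lit 1140) (nat_lit 262194178) (nat_lit 295) (nat_lit 5) (nat_lit 309) (nat_lit 5) (nat_lit 310) (nat_lit 5) (nat_lit 360) (nat_lit 352) (nat_lit 308))))))))
noncomputable def xc70 : XT := (XT.nd (nat_lit 1950) (nat_lit 5168) (nat_lit 0) (XT.nd (nat_lit 936) (nat_lit 5320) (nat_lit 0) (XT.nd (nat_lit 468) (nat_lit 2736) (nat_lit 0) (XT.nd (nat_lit 234) (nat_lit 2584) (nat_lit 0) (XT.nd (nat_lit 78) (nat_lit 2204) (nat_lit 0) (XT.lf (nat_lit 76) (nat_lit 5627285678) (nat_lit 0) (nat_lit 3136810184) (nat_lit 1140) (nat_lit 958977392) (nat_lit 296) (nat_lit 5) (nat_lit 295) (nat_lit 5) (nat_lit 310) (nat_lit 5) (nat_lit 361) (nat_lit 352) (nat_lit 307)) (XT.nd (nat_lit 78) (nat_lit 1140) (nat_lit 0) (XT.lf (nat_lit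 0) (nat_lit 1408477475) (nat_lit 1140) (nat_lit 5216782590) (nat_lit 76) (nat_lit 3321917786) (nat_lit 281) (nat_lit 5) (nat_lit 296) (nat_lit 5) (nat_lit 282) (nat_lit 5) (nat_lit 362) (nat_lit 352) (nat_lit 306)) (XT.lf (nat_lit 0) (nat_lit 3865524605) (nat_lit 1140) (nat_lit 37517188) (nat_lit 1216) (nat_lit 6278331644) (nat_lit 266) (nat_lit 5) (nat_lit 281) (nat_lit 5) (nat_lit 282) (nat_lit 5) (nat_lit 363) (nat_lit 352) (nat_lit 305)))) (XT.nd (nat_lit 78) (nat_lit 1368) (nat_lit 0) (XT.lf (nat_lit 0) (nat_lit 3006385918) (nat_lit 1216) (nat_lit 3585604254) (nat_lit 1292) (nat_lit 3833225339) (nat_lit 250) (nat_lit 5) (nat_lit 266) (nat_lit 5) (nat_lit 267) (nat_lit 5) (nat_lit 364) (nat_lit 352) (nat_lit 304)) (XT.nd (nat_lit 78) (nat_lit 684) (nat_lit 0) (XT.lf (nat_lit 0) (nat_lit 2185291578) (nat_lit 684) (nat_lit 7273206076) (nat_lit 760) (nat_lit 1221483810) (nat_lit 241) (nat_lit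 5) (nat_lit 250) (nat_lit 5) (nat_lit 251) (nat_lit 5) (nat_lit 365) (nat_lit 352) (nat_lit 303)) (XT.lf (nat_lit 0) (nat_lit 1384172155) (nat_lit 608) (nat_lit 159433742) (nat_lit 684) (nat_lit 9401891322) (nat_lit 232) (nat_lit 5) (nat_lit 240) (nat_lit 5) (nat_lit 241) (nat_lit 5) (nat_lit 366) (nat_lit 352) (nat_lit 302))))) (XT.nd (nat_lit 234) (nat_lit 1596) (nat_lit 0) (XT.nd (nat_lit 78) (nat_lit 532) (nat_lit 0) (XT.lf (nat_lit 0) (nat_lit 569590389) (nat_lit 608) (nat_lit 3945100427) (nat_lit 684) (nat_lit 6706467168) (nat_lit 224) (nat_lit 5) (nat_lit 232) (nat_lit 5) (nat_lit 233) (nat_lit 5) (nat_lit 367) (nat_lit 352) (nat_lit 301)) (XT.nd (nat_lit 78) (nat_lit 532) (nat_lit 0) (XT.lf (nat_lit 0) (nat_lit 7701078464) (nat_lit 684) (nat_lit 208604014) (nat_lit 76) (nat_lit 3598937930) (nat_lit 224) (nat_lit 5) (nat_lit 233) (nat_lit 5) (nat_lit 225) (nat_lit 5) (nat_lit 368) (nat_lit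 352) (nat_lit 300)) (XT.lf (nat_lit 0) (nat_lit 10861075066) (nat_lit 532) (nat_lit 264640243) (nat_lit 608) (nat_lit 682392815) (nat_lit 217) (nat_lit 5) (nat_lit 224) (nat_lit 5) (nat_lit 225) (nat_lit 5) (nat_lit 369) (nat_lit 352) (nat_lit 299)))) (XT.nd (nat_lit 78) (nat_lit 988) (nat_lit 0) (XT.lf (nat_lit 0) (nat_lit 2663591487) (nat_lit 608) (nat_lit 1717842581) (nat_lit 76) (nat_lit 7736946402) (nat_lit 209) (nat_lit 5) (nat_lit 217) (nat_lit 5) (nat_lit 210) (nat_lit 5) (nat_lit 370) (nat_lit 352) (nat_lit 298)) (XT.nd (nat_lit 78) (nat_lit 532) (nat_lit 0) (XT.lf (nat_lit 0) (nat_lit 6247065102) (nat_lit 532) (nat_lit 2468779959) (nat_lit 76) (nat_lit 3725607262) (nat_lit 203) (nat_lit 5) (nat_lit 210) (nat_lit 5) (nat_lit 204) (nat_lit 5) (nat_lit 371) (nat_lit 352) (nat_lit 297)) (XT.lf (nat_lit 0) (nat_lit 9579394296) (nat_lit 532) (nat_lit 525614806) (nat_lit 608) (nat_lit 2672826598)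 (nat_lit 196) (nat_lit 5) (nat_lit 203) (nat_lit 5) (nat_lit 204) (nat_lit 5) (nat_lit 372) (nat_lit 352) (nat_lit 296)))))) (XT.nd (nat_lit 468) (nat_lit 2584) (nat_lit 0) (XT.nd (nat_lit 234) (nat_lit 1292) (nat_lit 0) (XT.nd (nat_lit 78) (nat_lit 912) (nat_lit 0) (XT.lf (nat_lit 0) (nat_lit 1140953782) (nat_lit 532) (nat_lit 3951840504) (nat_lit 76) (nat_lit 8033879804) (nat_lit 189) (nat_lit 5) (nat_lit 196) (nat_lit 5) (nat_lit 190) (nat_lit 5) (nat_lit 373) (nat_lit 352) (nat_lit 295)) (XT.nd (nat_lit 78) (nat_lit 456) (nat_lit 0) (XT.lf (nat_lit 0) (nat_lit 5193870486) (nat_lit 532) (nat_lit 4709755218) (nat_lit 76) (nat_lit 3585437845) (nat_lit 183) (nat_lit 5) (nat_lit 190) (nat_lit 5) (nat_lit 184) (nat_lit 5) (nat_lit 374) (nat_lit 352) (nat_lit 294)) (XT.lf (nat_lit 0) (nat_lit 8408341106) (nat_lit 456) (nat_lit 1161086080) (nat_lit 532) (nat_lit 4296559586) (nat_lit 177) (nat_lit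 5) (nat_lit 183) (nat_lit 5) (nat_lit 184) (nat_lit 5) (nat_lit 375) (nat_lit 352) (nat_lit 293)))) (XT.nd (nat_lit 78) (nat_lit 760) (nat_lit 0) (XT.lf (nat_lit 0) (nat_lit 57184055) (nat_lit 532) (nat_lit 6222832147) (nat_lit 76) (nat_lit 7977183277) (nat_lit 170) (nat_lit 5) (nat_lit 177) (nat_lit 5) (nat_lit 171) (nat_lit 5) (nat_lit 376) (nat_lit 352) (nat_lit 292)) (XT.nd (nat_lit 78) (nat_lit 380) (nat_lit 0) (XT.lf (nat_lit 0) (nat_lit 4661978896) (nat_lit 456) (nat_lit 7014159375) (nat_lit 76) (nat_lit 2986904072) (nat_lit 165) (nat_lit 5) (nat_lit 171) (nat_lit 5) (nat_lit 166) (nat_lit 5) (nat_lit 377) (nat_lit 352) (nat_lit 291)) (XT.lf (nat_lit 0) (nat_lit 7271437989) (nat_lit 380) (nat_lit 2375053029) (nat_lit 456) (nat_lit 5438213845) (nat_lit 160) (nat_lit 5) (nat_lit 165) (nat_lit 5) (nat_lit 166) (nat_lit 5) (nat_lit 378) (nat_lit 352) (nat_lit 290))))) (XT.nd (nat_lit 234)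 (nat_lit 1444) (nat_lit 0) (XT.nd (nat_lit 78) (nat_lit 760) (nat_lit 0) (XT.lf (nat_lit 0) (nat_lit 6892484652) (nat_lit 380) (nat_lit 8151042669) (nat_lit 456) (nat_lit 479035506) (nat_lit 155) (nat_lit 5) (nat_lit 160) (nat_lit 5) (nat_lit 161) (nat_lit 5) (nat_lit 379) (nat_lit 352) (nat_lit 289)) (XT.nd (nat_lit 78) (nat_lit 304) (nat_lit 0) (XT.lf (nat_lit 0) (nat_lit 4774758341) (nat_lit 456) (nat_lit 9482385494) (nat_lit 76) (nat_lit 1719649229) (nat_lit 149) (nat_lit 5) (nat_lit 155) (nat_lit 5) (nat_lit 150) (nat_lit 5) (nat_lit 380) (nat_lit 352) (nat_lit 288)) (XT.lf (nat_lit 0) (nat_lit 6073544768) (nat_lit 304) (nat_lit 4393963915) (nat_lit 380) (nat_lit 5980508554) (nat_lit 145) (nat_lit 5) (nat_lit 149) (nat_lit 5) (nat_lit 150) (nat_lit 5) (nat_lit 381) (nat_lit 352) (nat_lit 287)))) (XT.nd (nat_lit 156) (nat_lit 684) (nat_lit 0) (XT.nd (nat_lit 78) (nat_lit 380) (nat_lit 0)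 (XT.lf (nat_lit 0) (nat_lit 5656908806) (nat_lit 380) (nat_lit 10955342671) (nat_lit 456) (nat_lit 325539947) (nat_lit 140) (nat_lit 5) (nat_lit 145) (nat_lit 5) (nat_lit 146) (nat_lit 5) (nat_lit 382) (nat_lit 352) (nat_lit 286)) (XT.lf (nat_lit 0) (nat_lit 5200073273) (nat_lit 304) (nat_lit 462920378) (nat_lit 380) (nat_lit 11782641075) (nat_lit 135) (nat_lit 5) (nat_lit 139) (nat_lit 5) (nat_lit 140) (nat_lit 5) (nat_lit 383) (nat_lit 352) (nat_lit 285))) (XT.nd (nat_lit 78) (nat_lit 380) (nat_lit 0) (XT.lf (nat_lit 0) (nat_lit 4691911316) (nat_lit 304) (nat_lit 7475608766) (nat_lit 380) (nat_lit 5804562777) (nat_lit 131) (nat_lit 5) (nat_lit 135) (nat_lit 5) (nat_lit 136) (nat_lit 5) (nat_lit 384) (nat_lit 352) (nat_lit 284)) (XT.lf (nat_lit 0) (nat_lit 631059932) (nat_lit 380) (nat_lit 14330838470) (nat_lit 76) (nat_lit 3557790687) (nat_lit 126) (nat_lit 5) (nat_lit 131) (nat_lit 5) (nat_lit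 127) (nat_lit 5) (nat_lit 385) (nat_lit 352) (nat_lit 283))))))) (XT.nd (nat_lit 936) (nat_lit 2280) (nat_lit 0) (XT.nd (nat_lit 468) (nat_lit 1444) (nat_lit 0) (XT.nd (nat_lit 234) (nat_lit 532) (nat_lit 0) (XT.nd (nat_lit 78) (nat_lit 608) (nat_lit 0) (XT.lf (nat_lit 0) (nat_lit 3595440229) (nat_lit 304) (nat_lit 3883723712) (nat_lit 380) (nat_lit 11607472473) (nat_lit 122) (nat_lit 5) (nat_lit 126) (nat_lit 5) (nat_lit 127) (nat_lit 5) (nat_lit 386) (nat_lit 352) (nat_lit 282)) (XT.nd (nat_lit 78) (nat_lit 380) (nat_lit 0) (XT.lf (nat_lit 0) (nat_lit 2965033434) (nat_lit 228) (nat_lit 11919275290) (nat_lit 304) (nat_lit 4791190299) (nat_lit 119) (nat_lit 5) (nat_lit 122) (nat_lit 5) (nat_lit 123) (nat_lit 5) (nat_lit 387) (nat_lit 352) (nat_lit 281)) (XT.lf (nat_lit 0) (nat_lit 2304233732) (nat_lit 304) (nat_lit 201451780) (nat_lit 380) (nat_lit 17781865024) (nat_lit 114) (nat_lit 5) (nat_lit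 118) (nat_lit 5) (nat_lit 119) (nat_lit 5) (nat_lit 388) (nat_lit 352) (nat_lit 280)))) (XT.nd (nat_lit 78) (nat_lit 304) (nat_lit 0) (XT.lf (nat_lit 0) (nat_lit 1501468353) (nat_lit 228) (nat_lit 8836838429) (nat_lit 304) (nat_lit 10582381142) (nat_lit 111) (nat_lit 5) (nat_lit 114) (nat_lit 5) (nat_lit 115) (nat_lit 5) (nat_lit 389) (nat_lit 352) (nat_lit 279)) (XT.nd (nat_lit 78) (nat_lit 76) (nat_lit 0) (XT.lf (nat_lit 0) (nat_lit 678614139) (nat_lit 228) (nat_lit 18077624282) (nat_lit 304) (nat_lit 2823439239) (nat_lit 108) (nat_lit 5) (nat_lit 111) (nat_lit 5) (nat_lit 112) (nat_lit 5) (nat_lit 390) (nat_lit 352) (nat_lit 278)) (XT.lf (nat_lit 0) (nat_lit 5477004619) (nat_lit 304) (nat_lit 274452384) (nat_lit 76) (nat_lit 16510907091) (nat_lit 107) (nat_lit 5) (nat_lit 111) (nat_lit 5) (nat_lit 108) (nat_lit 5) (nat_lit 391) (nat_lit 352) (nat_lit 277))))) (XT.nd (nat_lit 234) (nat_lit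 684) (nat_lit 0) (XT.nd (nat_lit 78) (nat_lit 532) (nat_lit 0) (XT.lf (nat_lit 0) (nat_lit 14382735014) (nat_lit 304) (nat_lit 1316419563) (nat_lit 76) (nat_lit 7271737064) (nat_lit 104) (nat_lit 5) (nat_lit 108) (nat_lit 5) (nat_lit 105) (nat_lit 5) (nat_lit 392) (nat_lit 352) (nat_lit 276)) (XT.nd (nat_lit 78) (nat_lit 228) (nat_lit 0) (XT.lf (nat_lit 0) (nat_lit 255120042) (nat_lit 304) (nat_lit 2432753545) (nat_lit 76) (nat_lit 21019873817) (nat_lit 100) (nat_lit 5) (nat_lit 104) (nat_lit 5) (nat_lit 101) (nat_lit 5) (nat_lit 393) (nat_lit 352) (nat_lit 275)) (XT.lf (nat_lit 0) (nat_lit 9656161977) (nat_lit 304) (nat_lit 3769415686) (nat_lit 76) (nat_lit 11044525367) (nat_lit 97) (nat_lit 5) (nat_lit 101) (nat_lit 5) (nat_lit 98) (nat_lit 5) (nat_lit 394) (nat_lit 352) (nat_lit 274)))) (XT.nd (nat_lit 78) (nat_lit 456) (nat_lit 0) (XT.lf (nat_lit 0) (nat_lit 19746432080) (nat_lit 304) (nat_lit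 5179826046) (nat_lit 76) (nat_lit 337747353) (nat_lit 94) (nat_lit 5) (nat_lit 98) (nat_lit 5) (nat_lit 95) (nat_lit 5) (nat_lit 395) (nat_lit 352) (nat_lit 273)) (XT.nd (nat_lit 78) (nat_lit 228) (nat_lit 0) (XT.lf (nat_lit 0) (nat_lit 4495478663) (nat_lit 228) (nat_lit 6826237153) (nat_lit 76) (nat_lit 14764627243) (nat_lit 91) (nat_lit 5) (nat_lit 94) (nat_lit 5) (nat_lit 92) (nat_lit 5) (nat_lit 396) (nat_lit 352) (nat_lit 272)) (XT.lf (nat_lit 0) (nat_lit 15129142738) (nat_lit 304) (nat_lit 8636831214) (nat_lit 76) (nat_lit 3175166353) (nat_lit 88) (nat_lit 5) (nat_lit 92) (nat_lit 5) (nat_lit 89) (nat_lit 5) (nat_lit 397) (nat_lit 352) (nat_lit 271)))))) (XT.nd (nat_lit 468) (nat_lit 1140) (nat_lit 0) (XT.nd (nat_lit 234) (nat_lit 532) (nat_lit 0) (XT.nd (nat_lit 78) (nat_lit 456) (nat_lit 0) (XT.lf (nat_lit 0) (nat_lit 17170973739) (nat_lit 152) (nat_lit 9446307821) (nat_lit 228) (nat_lit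 1211715737) (nat_lit 86) (nat_lit 5) (nat_lit 88) (nat_lit 5) (nat_lit 89) (nat_lit 5) (nat_lit 398) (nat_lit 352) (nat_lit 270)) (XT.nd (nat_lit 78) (nat_lit 152) (nat_lit 0) (XT.lf (nat_lit 0) (nat_lit 9997255149) (nat_lit 304) (nat_lit 12950302726) (nat_lit 76) (nat_lit 5802665647) (nat_lit 82) (nat_lit 5) (nat_lit 86) (nat_lit 5) (nat_lit 83) (nat_lit 5) (nat_lit 399) (nat_lit 352) (nat_lit 269)) (XT.lf (nat_lit 0) (nat_lit 14212863080) (nat_lit 152) (nat_lit 7845530952) (nat_lit 228) (nat_lit 7649256918) (nat_lit 80) (nat_lit 5) (nat_lit 82) (nat_lit 5) (nat_lit 83) (nat_lit 5) (nat_lit 400) (nat_lit 352) (nat_lit 268)))) (XT.nd (nat_lit 78) (nat_lit 304) (nat_lit 0) (XT.lf (nat_lit 0) (nat_lit 4239836964) (nat_lit 228) (nat_lit 18329940555) (nat_lit 76) (nat_lit 8132765709) (nat_lit 77) (nat_lit 5) (nat_lit 80) (nat_lit 5) (nat_lit 78) (nat_lit 5) (nat_lit 401) (nat_lit 352) (nat_lit 267))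 (XT.nd (nat_lit 78) (nat_lit 152) (nat_lit 0) (XT.lf (nat_lit 0) (nat_lit 10212464308) (nat_lit 152) (nat_lit 6667617972) (nat_lit 228) (nat_lit 14855381744) (nat_lit 75) (nat_lit 5) (nat_lit 77) (nat_lit 5) (nat_lit 78) (nat_lit 5) (nat_lit 402) (nat_lit 352) (nat_lit 266)) (XT.lf (nat_lit 0) (nat_lit 7760910754) (nat_lit 152) (nat_lit 22728596204) (nat_lit 228) (nat_lit 2320411569) (nat_lit 73) (nat_lit 5) (nat_lit 75) (nat_lit 5) (nat_lit 76) (nat_lit 5) (nat_lit 403) (nat_lit 352) (nat_lit 265))))) (XT.nd (nat_lit 234) (nat_lit 684) (nat_lit 0) (XT.nd (nat_lit 78) (nat_lit 228) (nat_lit 0) (XT.lf (nat_lit 0) (nat_lit 4907226071) (nat_lit 152) (nat_lit 6036870619) (nat_lit 228) (nat_lit 22981444870) (nat_lit 70) (nat_lit 5) (nat_lit 72) (nat_lit 5) (nat_lit 73) (nat_lit 5) (nat_lit 404) (nat_lit 352) (nat_lit 264)) (XT.nd (nat_lit 78) (nat_lit 76) (nat_lit 0) (XT.lf (nat_lit 0) (nat_lit 1649810262)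 (nat_lit 152) (nat_lit 23537881201) (nat_lit 228) (nat_lit 9897651884) (nat_lit 68) (nat_lit 5) (nat_lit 70) (nat_lit 5) (nat_lit 71) (nat_lit 5) (nat_lit 405) (nat_lit 352) (nat_lit 263)) (XT.lf (nat_lit 0) (nat_lit 4105187694) (nat_lit 228) (nat_lit 1977984547) (nat_lit 76) (nat_lit 30208663828) (nat_lit 67) (nat_lit 5) (nat_lit 70) (nat_lit 5) (nat_lit 68) (nat_lit 5) (nat_lit 406) (nat_lit 352) (nat_lit 262)))) (XT.nd (nat_lit 156) (nat_lit 380) (nat_lit 0) (XT.nd (nat_lit 78) (nat_lit 152) (nat_lit 0) (XT.lf (nat_lit 0) (nat_lit 19008249160) (nat_lit 228) (nat_lit 6139762641) (nat_lit 76) (nat_lit 12395560451) (nat_lit 65) (nat_lit 5) (nat_lit 68) (nat_lit 5) (nat_lit 66) (nat_lit 5) (nat_lit 407) (nat_lit 352) (nat_lit 261)) (XT.lf (nat_lit 0) (nat_lit 28087055442) (nat_lit 152) (nat_lit 6900147343) (nat_lit 228) (nat_lit 3860772266) (nat_lit 63) (nat_lit 5) (nat_lit 65) (nat_lit 5) (nat_lit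 66) (nat_lit 5) (nat_lit 408) (nat_lit 352) (nat_lit 260))) (XT.nd (nat_lit 78) (nat_lit 152) (nat_lit 0) (XT.lf (nat_lit 0) (nat_lit 11720190854) (nat_lit 228) (nat_lit 16065570213) (nat_lit 76) (nat_lit 12416568157) (nat_lit 60) (nat_lit 5) (nat_lit 63) (nat_lit 5) (nat_lit 61) (nat_lit 5) (nat_lit 409) (nat_lit 352) (nat_lit 259)) (XT.lf (nat_lit 0) (nat_lit 19619388648) (nat_lit 152) (nat_lit 8731535967) (nat_lit 228) (nat_lit 13261814393) (nat_lit 58) (nat_lit 5) (nat_lit 60) (nat_lit 5) (nat_lit 61) (nat_lit 5) (nat_lit 410) (nat_lit 352) (nat_lit 258))))))))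
noncomputable def xc71 : XT := (XT.nd (nat_lit 48672) (nat_lit 0) (nat_lit 10640) (XT.nd (nat_lit 936) (nat_lit 988) (nat_lit 0) (XT.nd (nat_lit 468) (nat_lit 836) (nat_lit 0) (XT.nd (nat_lit 234) (nat_lit 304) (nat_lit 0) (XT.nd (nat_lit 78) (nat_lit 228) (nat_lit 0) (XT.lf (nat_lit 0) (nat_lit 3065063924) (nat_lit 152) (nat_lit 28640138366) (nat_lit 76) (nat_lit 11375726173) (nat_lit 56) (nat_lit 5) (nat_lit 58) (nat_lit 5) (nat_lit 57) (nat_lit 5) (nat_lit 411) (nat_lit 352) (nat_lit 257)) (XT.nd (nat_lit 78) (nat_lit 76) (nat_lit 0) (XT.lf (nat_lit 0) (nat_lit 8445483916) (nat_lit 152) (nat_lit 11869631082) (nat_lit 228) (nat_lit 24292041670) (nat_lit 54) (nat_lit 5) (nat_lit 56) (nat_lit 5) (nat_lit 57) (nat_lit 5) (nat_lit 412) (nat_lit 352) (nat_lit 256)) (XT.lf (nat_lit 0) (nat_lit 1692037283) (nat_lit 76) (nat_lit 37116784937) (nat_lit 152) (nat_lit 7389440916) (nat_lit 53) (nat_lit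 5) (nat_lit 54) (nat_lit 5) (nat_lit 55) (nat_lit 4) (nat_lit 413) (nat_lit 352) (nat_lit 255)))) (XT.nd (nat_lit 78) (nat_lit 228) (nat_lit 0) (XT.lf (nat_lit 0) (nat_lit 10633334098) (nat_lit 152) (nat_lit 5921063729) (nat_lit 76) (nat_lit 31297226193) (nat_lit 52) (nat_lit 5) (nat_lit 54) (nat_lit 5) (nat_lit 53) (nat_lit 5) (nat_lit 414) (nat_lit 352) (nat_lit 254)) (XT.nd (nat_lit 78) (nat_lit 76) (nat_lit 0) (XT.lf (nat_lit 0) (nat_lit 29778608522) (nat_lit 228) (nat_lit 14455759736) (nat_lit 76) (nat_lit 5339865525) (nat_lit 50) (nat_lit 5) (nat_lit 53) (nat_lit 5) (nat_lit 51) (nat_lit 4) (nat_lit 415) (nat_lit 352) (nat_lit 253)) (XT.lf (nat_lit 0) (nat_lit 27285162606) (nat_lit 76) (nat_lit 23069619714) (nat_lit 152) (nat_lit 1013983870) (nat_lit 49) (nat_lit 5) (nat_lit 50) (nat_lit 5) (nat_lit 51) (nat_lit 4) (nat_lit 416) (nat_lit 352) (nat_lit 252))))) (XT.nd (nat_lit 234) (nat_lit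 456) (nat_lit 0) (XT.nd (nat_lit 78) (nat_lit 152) (nat_lit 0) (XT.lf (nat_lit 0) (nat_lit 18311103934) (nat_lit 152) (nat_lit 339966712) (nat_lit 228) (nat_lit 34587280078) (nat_lit 46) (nat_lit 5) (nat_lit 48) (nat_lit 5) (nat_lit 49) (nat_lit 5) (nat_lit 417) (nat_lit 352) (nat_lit 251)) (XT.nd (nat_lit 78) (nat_lit 76) (nat_lit 0) (XT.lf (nat_lit 0) (nat_lit 8021515606) (nat_lit 76) (nat_lit 31794157608) (nat_lit 152) (nat_lit 15369323185) (nat_lit 45) (nat_lit 5) (nat_lit 46) (nat_lit 5) (nat_lit 47) (nat_lit 4) (nat_lit 418) (nat_lit 352) (nat_lit 250)) (XT.lf (nat_lit 0) (nat_lit 5065996892) (nat_lit 152) (nat_lit 3454275580) (nat_lit 76) (nat_lit 48696806420) (nat_lit 44) (nat_lit 5) (nat_lit 46) (nat_lit 5) (nat_lit 45) (nat_lit 5) (nat_lit 419) (nat_lit 352) (nat_lit 249)))) (XT.nd (nat_lit 78) (nat_lit 304) (nat_lit 0) (XT.lf (nat_lit 0) (nat_lit 26765520403) (nat_lit 228) (nat_lit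 16395422751) (nat_lit 76) (nat_lit 16168449203) (nat_lit 42) (nat_lit 5) (nat_lit 45) (nat_lit 5) (nat_lit 43) (nat_lit 4) (nat_lit 420) (nat_lit 352) (nat_lit 248)) (XT.nd (nat_lit 78) (nat_lit 228) (nat_lit 0) (XT.lf (nat_lit 0) (nat_lit 30650816288) (nat_lit 76) (nat_lit 19300636683) (nat_lit 152) (nat_lit 11583826442) (nat_lit 41) (nat_lit 5) (nat_lit 42) (nat_lit 5) (nat_lit 43) (nat_lit 4) (nat_lit 421) (nat_lit 352) (nat_lit 247)) (XT.lf (nat_lit 0) (nat_lit 10617426304) (nat_lit 228) (nat_lit 47156165963) (nat_lit 76) (nat_lit 6063576352) (nat_lit 38) (nat_lit 5) (nat_lit 41) (nat_lit 5) (nat_lit 39) (nat_lit 4) (nat_lit 422) (nat_lit 352) (nat_lit 246)))))) (XT.nd (nat_lit 468) (nat_lit 532) (nat_lit 0) (XT.nd (nat_lit 234) (nat_lit 228) (nat_lit 0) (XT.nd (nat_lit 78) (nat_lit 152) (nat_lit 0) (XT.lf (nat_lit 0) (nat_lit 696762192) (nat_lit 76) (nat_lit 33502733422) (nat_lit 152) (nat_lit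 32035906970) (nat_lit 37) (nat_lit 5) (nat_lit 38) (nat_lit 5) (nat_lit 39) (nat_lit 4) (nat_lit 423) (nat_lit 352) (nat_lit 245)) (XT.nd (nat_lit 78) (nat_lit 152) (nat_lit 0) (XT.lf (nat_lit 0) (nat_lit 51901066037) (nat_lit 76) (nat_lit 7530984859) (nat_lit 152) (nat_lit 9307356636) (nat_lit 37) (nat_lit 5) (nat_lit 38) (nat_lit 5) (nat_lit 39) (nat_lit 4) (nat_lit 424) (nat_lit 352) (nat_lit 244)) (XT.lf (nat_lit 0) (nat_lit 14788985982) (nat_lit 152) (nat_lit 36738488389) (nat_lit 76) (nat_lit 19821477863) (nat_lit 35) (nat_lit 5) (nat_lit 37) (nat_lit 5) (nat_lit 36) (nat_lit 4) (nat_lit 425) (nat_lit 352) (nat_lit 243)))) (XT.nd (nat_lit 78) (nat_lit 152) (nat_lit 0) (XT.lf (nat_lit 0) (nat_lit 14995516223) (nat_lit 76) (nat_lit 25285915499) (nat_lit 152) (nat_lit 33793265266) (nat_lit 34) (nat_lit 5) (nat_lit 35) (nat_lit 5) (nat_lit 36) (nat_lit 4) (nat_lit 426) (nat_lit 352) (nat_lit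 242)) (XT.nd (nat_lit 78) (nat_lit 152) (nat_lit 0) (XT.lf (nat_lit 0) (nat_lit 67439291803) (nat_lit 152) (nat_lit 6891766602) (nat_lit 0) (nat_lit 2593947447) (nat_lit 34) (nat_lit 5) (nat_lit 36) (nat_lit 4) (nat_lit 34) (nat_lit 4) (nat_lit 427) (nat_lit 352) (nat_lit 241)) (XT.lf (nat_lit 0) (nat_lit 16441113335) (nat_lit 152) (nat_lit 31483674865) (nat_lit 76) (nat_lit 31966912491) (nat_lit 32) (nat_lit 5) (nat_lit 34) (nat_lit 5) (nat_lit 33) (nat_lit 4) (nat_lit 428) (nat_lit 352) (nat_lit 240))))) (XT.nd (nat_lit 234) (nat_lit 304) (nat_lit 0) (XT.nd (nat_lit 78) (nat_lit 152) (nat_lit 0) (XT.lf (nat_lit 0) (nat_lit 23960157084) (nat_lit 76) (nat_lit 19799658633) (nat_lit 152) (nat_lit 39235346194) (nat_lit 31) (nat_lit 5) (nat_lit 32) (nat_lit 5) (nat_lit 33) (nat_lit 4) (nat_lit 429) (nat_lit 352) (nat_lit 239)) (XT.nd (nat_lit 78) (nat_lit 152) (nat_lit 0) (XT.lf (nat_lit 0) (nat_lit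 72853483469) (nat_lit 152) (nat_lit 3529488287) (nat_lit 0) (nat_lit 9858554064) (nat_lit 31) (nat_lit 5) (nat_lit 33) (nat_lit 4) (nat_lit 31) (nat_lit 4) (nat_lit 430) (nat_lit 352) (nat_lit 238)) (XT.lf (nat_lit 0) (nat_lit 14213631615) (nat_lit 152) (nat_lit 34152823072) (nat_lit 76) (nat_lit 41257877597) (nat_lit 29) (nat_lit 5) (nat_lit 31) (nat_lit 5) (nat_lit 30) (nat_lit 4) (nat_lit 431) (nat_lit 352) (nat_lit 237)))) (XT.nd (nat_lit 234) (nat_lit 228) (nat_lit 0) (XT.nd (nat_lit 78) (nat_lit 0) (nat_lit 0) (XT.lf (nat_lit 0) (nat_lit 24645282278) (nat_lit 76) (nat_lit 18538359408) (nat_lit 152) (nat_lit 49980707081) (nat_lit 28) (nat_lit 5) (nat_lit 29) (nat_lit 5) (nat_lit 30) (nat_lit 4) (nat_lit 432) (nat_lit 352) (nat_lit 236)) (XT.lf (nat_lit 0) (nat_lit 74069263216) (nat_lit 152) (nat_lit 9921060651) (nat_lit 0) (nat_lit 12877029324) (nat_lit 28) (nat_lit 5) (nat_lit 30) (nat_lit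 4) (nat_lit 28) (nat_lit 4) (nat_lit 433) (nat_lit 352) (nat_lit 235))) (XT.nd (nat_lit 46722) (nat_lit 0) (nat_lit 21204) (XT.lf (nat_lit 0) (nat_lit 13177528974) (nat_lit 76) (nat_lit 23467151315) (nat_lit 152) (nat_lit 68134220472) (nat_lit 25) (nat_lit 5) (nat_lit 26) (nat_lit 5) (nat_lit 27) (nat_lit 4) (nat_lit 435) (nat_lit 352) (nat_lit 233)) (XT.lf (nat_lit 0) (nat_lit 516265058) (nat_lit 0) (nat_lit 516265058) (nat_lit 988) (nat_lit 3171372335) (nat_lit 304) (nat_lit 5) (nat_lit 304) (nat_lit 3) (nat_lit 317) (nat_lit 3) (nat_lit 353) (nat_lit 353) (nat_lit 314))))))) (XT.nd (nat_lit 936) (nat_lit 6460) (nat_lit 0) (XT.nd (nat_lit 468) (nat_lit 3192) (nat_lit 0) (XT.nd (nat_lit 234) (nat_lit 912) (nat_lit 0) (XT.nd (nat_lit 78) (nat_lit 0) (nat_lit 76) (XT.lf (nat_lit 0) (nat_lit 3892697645) (nat_lit 988) (nat_lit 584445343) (nat_lit 1064) (nat_lit 4086930712) (nat_lit 304) (nat_lit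 5) (nat_lit 317) (nat_lit 3) (nat_lit 318) (nat_lit 5) (nat_lit 354) (nat_lit 353) (nat_lit 313)) (XT.nd (nat_lit 78) (nat_lit 0) (nat_lit 0) (XT.lf (nat_lit 0) (nat_lit 5783018389) (nat_lit 988) (nat_lit 2132355213) (nat_lit 1064) (nat_lit 813684644) (nat_lit 305) (nat_lit 5) (nat_lit 318) (nat_lit 5) (nat_lit 319) (nat_lit 5) (nat_lit 355) (nat_lit 353) (nat_lit 312)) (XT.lf (nat_lit 76) (nat_lit 5242620856) (nat_lit 0) (nat_lit 2521479749) (nat_lit 1064) (nat_lit 1138343433) (nat_lit 306) (nat_lit 5) (nat_lit 305) (nat_lit 5) (nat_lit 319) (nat_lit 5) (nat_lit 356) (nat_lit 353) (nat_lit 311)))) (XT.nd (nat_lit 78) (nat_lit 0) (nat_lit 0) (XT.lf (nat_lit 0) (nat_lit 734352218) (nat_lit 1064) (nat_lit 5161858486) (nat_lit 1140) (nat_lit 3188422550) (nat_lit 292) (nat_lit 5) (nat_lit 306) (nat_lit 5) (nat_lit 307) (nat_lit 5) (nat_lit 357) (nat_lit 353) (nat_lit 310)) (XT.nd (nat_lit 78) (nat_lit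 0) (nat_lit 76) (XT.lf (nat_lit 76) (nat_lit 2637017616) (nat_lit 0) (nat_lit 31825986) (nat_lit 1140) (nat_lit 6607033779) (nat_lit 293) (nat_lit 5) (nat_lit 292) (nat_lit 5) (nat_lit 307) (nat_lit 5) (nat_lit 358) (nat_lit 353) (nat_lit 309)) (XT.lf (nat_lit 76) (nat_lit 1361133592) (nat_lit 0) (nat_lit 3371547261) (nat_lit 1140) (nat_lit 4743057251) (nat_lit 294) (nat_lit 5) (nat_lit 293) (nat_lit 5) (nat_lit 308) (nat_lit 5) (nat_lit 359) (nat_lit 353) (nat_lit 308))))) (XT.nd (nat_lit 234) (nat_lit 2280) (nat_lit 0) (XT.nd (nat_lit 78) (nat_lit 1064) (nat_lit 0) (XT.lf (nat_lit 76) (nat_lit 124513190) (nat_lit 0) (nat_lit 6784298141) (nat_lit 1140) (nat_lit 2776538949) (nat_lit 295) (nat_lit 5) (nat_lit 294) (nat_lit 5) (nat_lit 309) (nat_lit 5) (nat_lit 360) (nat_lit 353) (nat_lit 307)) (XT.nd (nat_lit 78) (nat_lit 1064) (nat_lit 0) (XT.lf (nat_lit 76) (nat_lit 8846595526) (nat_lit 0) (nat_lit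 379071765) (nat_lit 1140) (nat_lit 678848163) (nat_lit 295) (nat_lit 5) (nat_lit 294) (nat_lit 5) (nat_lit 309) (nat_lit 5) (nat_lit 361) (nat_lit 353) (nat_lit 306)) (XT.lf (nat_lit 0) (nat_lit 1550411487) (nat_lit 1140) (nat_lit 2248376627) (nat_lit 1216) (nat_lit 6333746533) (nat_lit 280) (nat_lit 5) (nat_lit 295) (nat_lit 5) (nat_lit 296) (nat_lit 5) (nat_lit 362) (nat_lit 353) (nat_lit 305)))) (XT.nd (nat_lit 78) (nat_lit 2356) (nat_lit 0) (XT.lf (nat_lit 0) (nat_lit 3910474793) (nat_lit 1140) (nat_lit 3415415726) (nat_lit 76) (nat_lit 3044887614) (nat_lit 281) (nat_lit 5) (nat_lit 296) (nat_lit 5) (nat_lit 282) (nat_lit 5) (nat_lit 363) (nat_lit 353) (nat_lit 304)) (XT.nd (nat_lit 78) (nat_lit 1216) (nat_lit 0) (XT.lf (nat_lit 0) (nat_lit 6061894108) (nat_lit 1140) (nat_lit 371338967) (nat_lit 1216) (nat_lit 4186385092) (nat_lit 266) (nat_lit 5) (nat_lit 281) (nat_lit 5) (nat_lit 282) (nat_lit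 5) (nat_lit 364) (nat_lit 353) (nat_lit 303)) (XT.lf (nat_lit 0) (nat_lit 5174273411) (nat_lit 1216) (nat_lit 3987518297) (nat_lit 1292) (nat_lit 1716742549) (nat_lit 250) (nat_lit 5) (nat_lit 266) (nat_lit 5) (nat_lit 267) (nat_lit 5) (nat_lit 365) (nat_lit 353) (nat_lit 302)))))) (XT.nd (nat_lit 468) (nat_lit 2888) (nat_lit 0) (XT.nd (nat_lit 234) (nat_lit 1596) (nat_lit 0) (XT.nd (nat_lit 78) (nat_lit 1216) (nat_lit 0) (XT.lf (nat_lit 0) (nat_lit 915433493) (nat_lit 760) (nat_lit 6835360651) (nat_lit 76) (nat_lit 3397686822) (nat_lit 240) (nat_lit 5) (nat_lit 250) (nat_lit 5) (nat_lit 241) (nat_lit 5) (nat_lit 366) (nat_lit 353) (nat_lit 301)) (XT.nd (nat_lit 78) (nat_lit 608) (nat_lit 0) (XT.lf (nat_lit 0) (nat_lit 3465729893) (nat_lit 608) (nat_lit 243889914) (nat_lit 684) (nat_lit 7719839162) (nat_lit 232) (nat_lit 5) (nat_lit 240) (nat_lit 5) (nat_lit 241) (nat_lit 5) (nat_lit 367) (nat_lit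 353) (nat_lit 300)) (XT.lf (nat_lit 0) (nat_lit 2614947850) (nat_lit 608) (nat_lit 4133530115) (nat_lit 684) (nat_lit 4972879101) (nat_lit 224) (nat_lit 5) (nat_lit 232) (nat_lit 5) (nat_lit 233) (nat_lit 5) (nat_lit 368) (nat_lit 353) (nat_lit 299)))) (XT.nd (nat_lit 78) (nat_lit 1064) (nat_lit 0) (XT.lf (nat_lit 0) (nat_lit 1794703024) (nat_lit 532) (nat_lit 8221192995) (nat_lit 608) (nat_lit 2009674651) (nat_lit 217) (nat_lit 5) (nat_lit 224) (nat_lit 5) (nat_lit 225) (nat_lit 5) (nat_lit 369) (nat_lit 353) (nat_lit 298)) (XT.nd (nat_lit 78) (nat_lit 456) (nat_lit 0) (XT.lf (nat_lit 0) (nat_lit 991379802) (nat_lit 532) (nat_lit 174300405) (nat_lit 608) (nat_lit 11176450073) (nat_lit 209) (nat_lit 5) (nat_lit 216) (nat_lit 5) (nat_lit 217) (nat_lit 5) (nat_lit 370) (nat_lit 353) (nat_lit 297)) (XT.lf (nat_lit 0) (nat_lit 155733507) (nat_lit 456) (nat_lit 4432107812) (nat_lit 532) (nat_lit 8082208400)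 (nat_lit 203) (nat_lit 5) (nat_lit 209) (nat_lit 5) (nat_lit 210) (nat_lit 5) (nat_lit 371) (nat_lit 353) (nat_lit 296))))) (XT.nd (nat_lit 234) (nat_lit 1824) (nat_lit 0) (XT.nd (nat_lit 78) (nat_lit 1064) (nat_lit 0) (XT.lf (nat_lit 0) (nat_lit 8283749560) (nat_lit 532) (nat_lit 641407024) (nat_lit 76) (nat_lit 4086145405) (nat_lit 203) (nat_lit 5) (nat_lit 210) (nat_lit 5) (nat_lit 204) (nat_lit 5) (nat_lit 372) (nat_lit 353) (nat_lit 295)) (XT.nd (nat_lit 78) (nat_lit 532) (nat_lit 0) (XT.lf (nat_lit 0) (nat_lit 11953256311) (nat_lit 532) (nat_lit 317438302) (nat_lit 608) (nat_lit 1095750282) (nat_lit 196) (nat_lit 5) (nat_lit 203) (nat_lit 5) (nat_lit 204) (nat_lit 5) (nat_lit 373) (nat_lit 353) (nat_lit 294)) (XT.lf (nat_lit 0) (nat_lit 2815952220) (nat_lit 532) (nat_lit 2229570283) (nat_lit 76) (nat_lit 8688512614) (nat_lit 189) (nat_lit 5) (nat_lit 196) (nat_lit 5) (nat_lit 190) (nat_lit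 5) (nat_lit 374) (nat_lit 353) (nat_lit 293)))) (XT.nd (nat_lit 156) (nat_lit 912) (nat_lit 0) (XT.nd (nat_lit 78) (nat_lit 456) (nat_lit 0) (XT.lf (nat_lit 0) (nat_lit 7015336814) (nat_lit 532) (nat_lit 3036176221) (nat_lit 76) (nat_lit 4064737026) (nat_lit 183) (nat_lit 5) (nat_lit 190) (nat_lit 5) (nat_lit 184) (nat_lit 5) (nat_lit 375) (nat_lit 353) (nat_lit 292)) (XT.lf (nat_lit 0) (nat_lit 10683101903) (nat_lit 456) (nat_lit 870024399) (nat_lit 532) (nat_lit 2960609184) (nat_lit 177) (nat_lit 5) (nat_lit 183) (nat_lit 5) (nat_lit 184) (nat_lit 5) (nat_lit 376) (nat_lit 353) (nat_lit 291))) (XT.nd (nat_lit 78) (nat_lit 380) (nat_lit 0) (XT.lf (nat_lit 0) (nat_lit 1529265982) (nat_lit 532) (nat_lit 4662194670) (nat_lit 76) (nat_lit 8734158003) (nat_lit 170) (nat_lit 5) (nat_lit 177) (nat_lit 5) (nat_lit 171) (nat_lit 5) (nat_lit 377) (nat_lit 353) (nat_lit 290)) (XT.lf (nat_lit 0) (nat_lit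 6315672897) (nat_lit 456) (nat_lit 5507751944) (nat_lit 76) (nat_lit 3529804991) (nat_lit 165) (nat_lit 5) (nat_lit 171) (nat_lit 5) (nat_lit 166) (nat_lit 5) (nat_lit 378) (nat_lit 353) (nat_lit 289))))))))
noncomputable def xc72 : XT := (XT.nd (nat_lit 1872) (nat_lit 3268) (nat_lit 0) (XT.nd (nat_lit 936) (nat_lit 2584) (nat_lit 0) (XT.nd (nat_lit 468) (nat_lit 1824) (nat_lit 0) (XT.nd (nat_lit 234) (nat_lit 1064) (nat_lit 0) (XT.nd (nat_lit 78) (nat_lit 836) (nat_lit 0) (XT.lf (nat_lit 0) (nat_lit 9438891448) (nat_lit 380) (nat_lit 2060211806) (nat_lit 456) (nat_lit 4298397958) (nat_lit 160) (nat_lit 5) (nat_lit 165) (nat_lit 5) (nat_lit 166) (nat_lit 5) (nat_lit 379) (nat_lit 353) (nat_lit 288)) (XT.nd (nat_lit 78) (nat_lit 380) (nat_lit 0) (XT.lf (nat_lit 0) (nat_lit 846463219) (nat_lit 456) (nat_lit 7241404097) (nat_lit 76) (nat_lit 8170474264) (nat_lit 154) (nat_lit 5) (nat_lit 160) (nat_lit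 5) (nat_lit 155) (nat_lit 5) (nat_lit 380) (nat_lit 353) (nat_lit 287)) (XT.lf (nat_lit 0) (nat_lit 6310812347) (nat_lit 456) (nat_lit 8158646477) (nat_lit 76) (nat_lit 2266963578) (nat_lit 149) (nat_lit 5) (nat_lit 155) (nat_lit 5) (nat_lit 150) (nat_lit 5) (nat_lit 381) (nat_lit 353) (nat_lit 286)))) (XT.nd (nat_lit 78) (nat_lit 760) (nat_lit 0) (XT.lf (nat_lit 0) (nat_lit 8123545051) (nat_lit 304) (nat_lit 4119664923) (nat_lit 380) (nat_lit 4989361364) (nat_lit 145) (nat_lit 5) (nat_lit 149) (nat_lit 5) (nat_lit 150) (nat_lit 5) (nat_lit 382) (nat_lit 353) (nat_lit 285)) (XT.nd (nat_lit 78) (nat_lit 304) (nat_lit 0) (XT.lf (nat_lit 0) (nat_lit 890958233) (nat_lit 456) (nat_lit 10088568539) (nat_lit 76) (nat_lit 6768213533) (nat_lit 139) (nat_lit 5) (nat_lit 145) (nat_lit 5) (nat_lit 140) (nat_lit 5) (nat_lit 383) (nat_lit 353) (nat_lit 284)) (XT.lf (nat_lit 0) (nat_lit 7130545046) (nat_lit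 380) (nat_lit 11119566006) (nat_lit 76) (nat_lit 32029443) (nat_lit 135) (nat_lit 5) (nat_lit 140) (nat_lit 5) (nat_lit 136) (nat_lit 5) (nat_lit 384) (nat_lit 353) (nat_lit 283))))) (XT.nd (nat_lit 234) (nat_lit 836) (nat_lit 0) (XT.nd (nat_lit 78) (nat_lit 684) (nat_lit 0) (XT.lf (nat_lit 0) (nat_lit 6610414705) (nat_lit 304) (nat_lit 7314119637) (nat_lit 380) (nat_lit 4911461211) (nat_lit 131) (nat_lit 5) (nat_lit 135) (nat_lit 5) (nat_lit 136) (nat_lit 5) (nat_lit 385) (nat_lit 353) (nat_lit 282)) (XT.nd (nat_lit 78) (nat_lit 304) (nat_lit 0) (XT.lf (nat_lit 0) (nat_lit 1788708028) (nat_lit 380) (nat_lit 13360415978) (nat_lit 76) (nat_lit 4262551890) (nat_lit 126) (nat_lit 5) (nat_lit 131) (nat_lit 5) (nat_lit 127) (nat_lit 5) (nat_lit 386) (nat_lit 353) (nat_lit 281)) (XT.lf (nat_lit 0) (nat_lit 5413820160) (nat_lit 304) (nat_lit 3527524803) (nat_lit 380) (nat_lit 11066772021) (nat_lit 122)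 (nat_lit 5) (nat_lit 126) (nat_lit 5) (nat_lit 127) (nat_lit 5) (nat_lit 387) (nat_lit 353) (nat_lit 280)))) (XT.nd (nat_lit 78) (nat_lit 608) (nat_lit 0) (XT.lf (nat_lit 0) (nat_lit 4731693251) (nat_lit 228) (nat_lit 11953829430) (nat_lit 304) (nat_lit 3941846511) (nat_lit 119) (nat_lit 5) (nat_lit 122) (nat_lit 5) (nat_lit 123) (nat_lit 5) (nat_lit 388) (nat_lit 353) (nat_lit 279)) (XT.nd (nat_lit 78) (nat_lit 228) (nat_lit 0) (XT.lf (nat_lit 0) (nat_lit 3666451936) (nat_lit 380) (nat_lit 17261855490) (nat_lit 76) (nat_lit 342376029) (nat_lit 114) (nat_lit 5) (nat_lit 119) (nat_lit 5) (nat_lit 115) (nat_lit 5) (nat_lit 389) (nat_lit 353) (nat_lit 278)) (XT.lf (nat_lit 0) (nat_lit 3148738956) (nat_lit 228) (nat_lit 8709706039) (nat_lit 304) (nat_lit 10078009074) (nat_lit 111) (nat_lit 5) (nat_lit 114) (nat_lit 5) (nat_lit 115) (nat_lit 5) (nat_lit 390) (nat_lit 353) (nat_lit 277)))))) (XT.nd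 (nat_lit 468) (nat_lit 1292) (nat_lit 0) (XT.nd (nat_lit 234) (nat_lit 532) (nat_lit 0) (XT.nd (nat_lit 78) (nat_lit 532) (nat_lit 0) (XT.lf (nat_lit 0) (nat_lit 2263763381) (nat_lit 228) (nat_lit 18405857463) (nat_lit 304) (nat_lit 1959610189) (nat_lit 108) (nat_lit 5) (nat_lit 111) (nat_lit 5) (nat_lit 112) (nat_lit 5) (nat_lit 391) (nat_lit 353) (nat_lit 276)) (XT.nd (nat_lit 78) (nat_lit 228) (nat_lit 0) (XT.lf (nat_lit 0) (nat_lit 1232046043) (nat_lit 228) (nat_lit 5469118485) (nat_lit 304) (nat_lit 16645657398) (nat_lit 104) (nat_lit 5) (nat_lit 107) (nat_lit 5) (nat_lit 108) (nat_lit 5) (nat_lit 392) (nat_lit 353) (nat_lit 275)) (XT.lf (nat_lit 0) (nat_lit 95037909) (nat_lit 228) (nat_lit 15920739068) (nat_lit 304) (nat_lit 8076098202) (nat_lit 101) (nat_lit 5) (nat_lit 104) (nat_lit 5) (nat_lit 105) (nat_lit 5) (nat_lit 393) (nat_lit 353) (nat_lit 274)))) (XT.nd (nat_lit 78) (nat_lit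 456) (nat_lit 0) (XT.lf (nat_lit 0) (nat_lit 1160047863) (nat_lit 304) (nat_lit 1103371020) (nat_lit 76) (nat_lit 22602817692) (nat_lit 100) (nat_lit 5) (nat_lit 104) (nat_lit 5) (nat_lit 101) (nat_lit 5) (nat_lit 394) (nat_lit 353) (nat_lit 273)) (XT.nd (nat_lit 78) (nat_lit 228) (nat_lit 0) (XT.lf (nat_lit 0) (nat_lit 11007456121) (nat_lit 304) (nat_lit 2527686014) (nat_lit 76) (nat_lit 12132284755) (nat_lit 97) (nat_lit 5) (nat_lit 101) (nat_lit 5) (nat_lit 98) (nat_lit 5) (nat_lit 395) (nat_lit 353) (nat_lit 272)) (XT.lf (nat_lit 0) (nat_lit 21579511768) (nat_lit 304) (nat_lit 4029552761) (nat_lit 76) (nat_lit 892647806) (nat_lit 94) (nat_lit 5) (nat_lit 98) (nat_lit 5) (nat_lit 95) (nat_lit 5) (nat_lit 396) (nat_lit 353) (nat_lit 271))))) (XT.nd (nat_lit 234) (nat_lit 684) (nat_lit 0) (XT.nd (nat_lit 78) (nat_lit 380) (nat_lit 0) (XT.lf (nat_lit 0) (nat_lit 5547112941) (nat_lit 228) (nat_lit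 5782112986) (nat_lit 76) (nat_lit 16036516893) (nat_lit 91) (nat_lit 5) (nat_lit 94) (nat_lit 5) (nat_lit 92) (nat_lit 5) (nat_lit 397) (nat_lit 353) (nat_lit 270)) (XT.nd (nat_lit 78) (nat_lit 152) (nat_lit 0) (XT.lf (nat_lit 0) (nat_lit 16691263594) (nat_lit 304) (nat_lit 7704072834) (nat_lit 76) (nat_lit 3868584714) (nat_lit 88) (nat_lit 5) (nat_lit 92) (nat_lit 5) (nat_lit 89) (nat_lit 5) (nat_lit 398) (nat_lit 353) (nat_lit 269)) (XT.lf (nat_lit 0) (nat_lit 19355006384) (nat_lit 152) (nat_lit 9373179396) (nat_lit 228) (nat_lit 468758969) (nat_lit 86) (nat_lit 5) (nat_lit 88) (nat_lit 5) (nat_lit 89) (nat_lit 5) (nat_lit 399) (nat_lit 353) (nat_lit 268)))) (XT.nd (nat_lit 78) (nat_lit 380) (nat_lit 0) (XT.lf (nat_lit 0) (nat_lit 11265176940) (nat_lit 304) (nat_lit 12277213300) (nat_lit 76) (nat_lit 6622209106) (nat_lit 82) (nat_lit 5) (nat_lit 86) (nat_lit 5) (nat_lit 83) (nat_lit 5) (nat_lit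 400) (nat_lit 353) (nat_lit 267)) (XT.nd (nat_lit 78) (nat_lit 228) (nat_lit 0) (XT.lf (nat_lit 0) (nat_lit 16206255931) (nat_lit 152) (nat_lit 7698873171) (nat_lit 228) (nat_lit 7265500809) (nat_lit 80) (nat_lit 5) (nat_lit 82) (nat_lit 5) (nat_lit 83) (nat_lit 5) (nat_lit 401) (nat_lit 353) (nat_lit 266)) (XT.lf (nat_lit 0) (nat_lit 5184562278) (nat_lit 228) (nat_lit 17969063082) (nat_lit 76) (nat_lit 9061980617) (nat_lit 77) (nat_lit 5) (nat_lit 80) (nat_lit 5) (nat_lit 78) (nat_lit 5) (nat_lit 402) (nat_lit 353) (nat_lit 265))))))) (XT.nd (nat_lit 936) (nat_lit 1444) (nat_lit 0) (XT.nd (nat_lit 468) (nat_lit 912) (nat_lit 0) (XT.nd (nat_lit 234) (nat_lit 380) (nat_lit 0) (XT.nd (nat_lit 78) (nat_lit 380) (nat_lit 0) (XT.lf (nat_lit 0) (nat_lit 11963846341) (nat_lit 152) (nat_lit 6470008382) (nat_lit 228) (nat_lit 14867010969) (nat_lit 75) (nat_lit 5) (nat_lit 77) (nat_lit 5) (nat_lit 78)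 (nat_lit 5) (nat_lit 403) (nat_lit 353) (nat_lit 264)) (XT.nd (nat_lit 78) (nat_lit 228) (nat_lit 0) (XT.lf (nat_lit 0) (nat_lit 9369950036) (nat_lit 152) (nat_lit 23336600194) (nat_lit 228) (nat_lit 1723012440) (nat_lit 73) (nat_lit 5) (nat_lit 75) (nat_lit 5) (nat_lit 76) (nat_lit 5) (nat_lit 404) (nat_lit 353) (nat_lit 263)) (XT.lf (nat_lit 0) (nat_lit 6352174401) (nat_lit 152) (nat_lit 5816847163) (nat_lit 228) (nat_lit 23432396357) (nat_lit 70) (nat_lit 5) (nat_lit 72) (nat_lit 5) (nat_lit 73) (nat_lit 5) (nat_lit 405) (nat_lit 353) (nat_lit 262)))) (XT.nd (nat_lit 78) (nat_lit 228) (nat_lit 0) (XT.lf (nat_lit 0) (nat_lit 2912445106) (nat_lit 152) (nat_lit 24196200480) (nat_lit 228) (nat_lit 9711052019) (nat_lit 68) (nat_lit 5) (nat_lit 70) (nat_lit 5) (nat_lit 71) (nat_lit 5) (nat_lit 406) (nat_lit 353) (nat_lit 261)) (XT.nd (nat_lit 78) (nat_lit 152) (nat_lit 0) (XT.lf (nat_lit 0) (nat_lit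 4946813062) (nat_lit 228) (nat_lit 940210999) (nat_lit 76) (nat_lit 32200251969) (nat_lit 67) (nat_lit 5) (nat_lit 70) (nat_lit 5) (nat_lit 68) (nat_lit 5) (nat_lit 407) (nat_lit 353) (nat_lit 260)) (XT.lf (nat_lit 0) (nat_lit 20580022975) (nat_lit 228) (nat_lit 5328787573) (nat_lit 76) (nat_lit 13493241512) (nat_lit 65) (nat_lit 5) (nat_lit 68) (nat_lit 5) (nat_lit 66) (nat_lit 5) (nat_lit 408) (nat_lit 353) (nat_lit 259))))) (XT.nd (nat_lit 234) (nat_lit 380) (nat_lit 0) (XT.nd (nat_lit 78) (nat_lit 380) (nat_lit 0) (XT.lf (nat_lit 0) (nat_lit 30577325223) (nat_lit 152) (nat_lit 6761448920) (nat_lit 228) (nat_lit 3433478120) (nat_lit 63) (nat_lit 5) (nat_lit 65) (nat_lit 5) (nat_lit 66) (nat_lit 5) (nat_lit 409) (nat_lit 353) (nat_lit 258)) (XT.nd (nat_lit 78) (nat_lit 152) (nat_lit 0) (XT.lf (nat_lit 0) (nat_lit 12900303810) (nat_lit 228) (nat_lit 15789098743) (nat_lit 76) (nat_lit 13505168985)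 (nat_lit 60) (nat_lit 5) (nat_lit 63) (nat_lit 5) (nat_lit 61) (nat_lit 5) (nat_lit 410) (nat_lit 353) (nat_lit 257)) (XT.lf (nat_lit 0) (nat_lit 21649157243) (nat_lit 152) (nat_lit 8695208076) (nat_lit 228) (nat_lit 13331685191) (nat_lit 58) (nat_lit 5) (nat_lit 60) (nat_lit 5) (nat_lit 61) (nat_lit 5) (nat_lit 411) (nat_lit 353) (nat_lit 256)))) (XT.nd (nat_lit 78) (nat_lit 228) (nat_lit 0) (XT.lf (nat_lit 0) (nat_lit 3786646266) (nat_lit 152) (nat_lit 29029640650) (nat_lit 76) (nat_lit 12401593146) (nat_lit 56) (nat_lit 5) (nat_lit 58) (nat_lit 5) (nat_lit 57) (nat_lit 5) (nat_lit 412) (nat_lit 353) (nat_lit 255)) (XT.nd (nat_lit 78) (nat_lit 76) (nat_lit 0) (XT.lf (nat_lit 0) (nat_lit 9880379560) (nat_lit 152) (nat_lit 12001490978) (nat_lit 228) (nat_lit 24939071161) (nat_lit 54) (nat_lit 5) (nat_lit 56) (nat_lit 5) (nat_lit 57) (nat_lit 5) (nat_lit 413) (nat_lit 353) (nat_lit 254)) (XT.lf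 (nat_lit 0) (nat_lit 2772021559) (nat_lit 76) (nat_lit 38515797787) (nat_lit 152) (nat_lit 7204159496) (nat_lit 53) (nat_lit 5) (nat_lit 54) (nat_lit 5) (nat_lit 55) (nat_lit 4) (nat_lit 414) (nat_lit 353) (nat_lit 253)))))) (XT.nd (nat_lit 468) (nat_lit 760) (nat_lit 0) (XT.nd (nat_lit 234) (nat_lit 380) (nat_lit 0) (XT.nd (nat_lit 78) (nat_lit 228) (nat_lit 0) (XT.lf (nat_lit 0) (nat_lit 11683027687) (nat_lit 152) (nat_lit 5258786217) (nat_lit 76) (nat_lit 33286812813) (nat_lit 52) (nat_lit 5) (nat_lit 54) (nat_lit 5) (nat_lit 53) (nat_lit 5) (nat_lit 415) (nat_lit 353) (nat_lit 252)) (XT.nd (nat_lit 78) (nat_lit 76) (nat_lit 0) (XT.lf (nat_lit 0) (nat_lit 31773965401) (nat_lit 228) (nat_lit 14236701788) (nat_lit 76) (nat_lit 6027049587) (nat_lit 50) (nat_lit 5) (nat_lit 53) (nat_lit 5) (nat_lit 51) (nat_lit 4) (nat_lit 416) (nat_lit 353) (nat_lit 251)) (XT.lf (nat_lit 0) (nat_lit 29564268847)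 (nat_lit 76) (nat_lit 23799357577) (nat_lit 152) (nat_lit 558810732) (nat_lit 49) (nat_lit 5) (nat_lit 50) (nat_lit 5) (nat_lit 51) (nat_lit 4) (nat_lit 417) (nat_lit 353) (nat_lit 250)))) (XT.nd (nat_lit 78) (nat_lit 152) (nat_lit 0) (XT.lf (nat_lit 0) (nat_lit 20065219795) (nat_lit 228) (nat_lit 35761481463) (nat_lit 76) (nat_lit 59087518) (nat_lit 46) (nat_lit 5) (nat_lit 49) (nat_lit 5) (nat_lit 47) (nat_lit 4) (nat_lit 418) (nat_lit 353) (nat_lit 249)) (XT.nd (nat_lit 78) (nat_lit 76) (nat_lit 0) (XT.lf (nat_lit 0) (nat_lit 9305240090) (nat_lit 76) (nat_lit 32971631803) (nat_lit 152) (nat_lit 15653231764) (nat_lit 45) (nat_lit 5) (nat_lit 46) (nat_lit 5) (nat_lit 47) (nat_lit 4) (nat_lit 419) (nat_lit 353) (nat_lit 248)) (XT.lf (nat_lit 0) (nat_lit 5771774943) (nat_lit 152) (nat_lit 2777338501) (nat_lit 76) (nat_lit 51515217205) (nat_lit 44) (nat_lit 5) (nat_lit 46) (nat_lit 5) (nat_lit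 45) (nat_lit 5) (nat_lit 420) (nat_lit 353) (nat_lit 247))))) (XT.nd (nat_lit 234) (nat_lit 304) (nat_lit 0) (XT.nd (nat_lit 78) (nat_lit 304) (nat_lit 0) (XT.lf (nat_lit 0) (nat_lit 28546375906) (nat_lit 228) (nat_lit 16380420249) (nat_lit 76) (nat_lit 17355761919) (nat_lit 42) (nat_lit 5) (nat_lit 45) (nat_lit 5) (nat_lit 43) (nat_lit 4) (nat_lit 421) (nat_lit 353) (nat_lit 246)) (XT.nd (nat_lit 78) (nat_lit 228) (nat_lit 0) (XT.lf (nat_lit 0) (nat_lit 32994202123) (nat_lit 76) (nat_lit 19884122105) (nat_lit 152) (nat_lit 11720814944) (nat_lit 41) (nat_lit 5) (nat_lit 42) (nat_lit 5) (nat_lit 43) (nat_lit 4) (nat_lit 422) (nat_lit 353) (nat_lit 245)) (XT.lf (nat_lit 0) (nat_lit 11572485658) (nat_lit 228) (nat_lit 48708934635) (nat_lit 76) (nat_lit 6734857765) (nat_lit 38) (nat_lit 5) (nat_lit 41) (nat_lit 5) (nat_lit 39) (nat_lit 4) (nat_lit 423) (nat_lit 353) (nat_lit 244)))) (XT.nd (nat_lit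 156) (nat_lit 228) (nat_lit 0) (XT.nd (nat_lit 78) (nat_lit 0) (nat_lit 0) (XT.lf (nat_lit 0) (nat_lit 1513563628) (nat_lit 76) (nat_lit 34807412086) (nat_lit 152) (nat_lit 33213829602) (nat_lit 37) (nat_lit 5) (nat_lit 38) (nat_lit 5) (nat_lit 39) (nat_lit 4) (nat_lit 424) (nat_lit 353) (nat_lit 243)) (XT.lf (nat_lit 0) (nat_lit 55240846316) (nat_lit 76) (nat_lit 7554716952) (nat_lit 152) (nat_lit 9369036167) (nat_lit 37) (nat_lit 5) (nat_lit 38) (nat_lit 5) (nat_lit 39) (nat_lit 4) (nat_lit 425) (nat_lit 353) (nat_lit 242))) (XT.nd (nat_lit 78) (nat_lit 76) (nat_lit 0) (XT.lf (nat_lit 0) (nat_lit 15915761506) (nat_lit 152) (nat_lit 37836158576) (nat_lit 76) (nat_lit 21152840394) (nat_lit 35) (nat_lit 5) (nat_lit 37) (nat_lit 5) (nat_lit 36) (nat_lit 4) (nat_lit 426) (nat_lit 353) (nat_lit 241)) (XT.lf (nat_lit 0) (nat_lit 16463355692) (nat_lit 76) (nat_lit 26207932201) (nat_lit 152) (nat_lit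 35095851754) (nat_lit 34) (nat_lit 5) (nat_lit 35) (nat_lit 5) (nat_lit 36) (nat_lit 4) (nat_lit 427) (nat_lit 353) (nat_lit 240))))))))
noncomputable def xc73 : XT := (XT.nd (nat_lit 48750) (nat_lit 0) (nat_lit 5396) (XT.nd (nat_lit 47736) (nat_lit 0) (nat_lit 13908) (XT.nd (nat_lit 546) (nat_lit 152) (nat_lit 0) (XT.nd (nat_lit 234) (nat_lit 228) (nat_lit 0) (XT.nd (nat_lit 78) (nat_lit 228) (nat_lit 0) (XT.lf (nat_lit 0) (nat_lit 71172279995) (nat_lit 152) (nat_lit 6544863836) (nat_lit 0) (nat_lit 3043263843) (nat_lit 34) (nat_lit 5) (nat_lit 36) (nat_lit 4) (nat_lit 34) (nat_lit 4) (nat_lit 428) (nat_lit 353) (nat_lit 239)) (XT.nd (nat_lit 78) (nat_lit 76) (nat_lit 0) (XT.lf (nat_lit 0) (nat_lit 17616942293) (nat_lit 152) (nat_lit 32379131760) (nat_lit 76) (nat_lit 33879582050) (nat_lit 32) (nat_lit 5) (nat_lit 34) (nat_lit 5) (nat_lit 33) (nat_lit 4) (nat_lit 429) (nat_lit 353) (nat_lit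 238)) (XT.lf (nat_lit 0) (nat_lit 25817436219) (nat_lit 76) (nat_lit 20473634547) (nat_lit 152) (nat_lit 40843535671) (nat_lit 31) (nat_lit 5) (nat_lit 32) (nat_lit 5) (nat_lit 33) (nat_lit 4) (nat_lit 430) (nat_lit 353) (nat_lit 237)))) (XT.nd (nat_lit 78) (nat_lit 228) (nat_lit 0) (XT.lf (nat_lit 0) (nat_lit 76825968991) (nat_lit 152) (nat_lit 3071155846) (nat_lit 0) (nat_lit 10646568036) (nat_lit 31) (nat_lit 5) (nat_lit 33) (nat_lit 4) (nat_lit 31) (nat_lit 4) (nat_lit 431) (nat_lit 353) (nat_lit 236)) (XT.nd (nat_lit 78) (nat_lit 76) (nat_lit 0) (XT.lf (nat_lit 0) (nat_lit 15247529034) (nat_lit 152) (nat_lit 35237407578) (nat_lit 76) (nat_lit 43610902036) (nat_lit 29) (nat_lit 5) (nat_lit 31) (nat_lit 5) (nat_lit 30) (nat_lit 4) (nat_lit 432) (nat_lit 353) (nat_lit 235)) (XT.lf (nat_lit 0) (nat_lit 26482743246) (nat_lit 76) (nat_lit 19173722654) (nat_lit 152) (nat_lit 52156677922) (nat_lit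 28) (nat_lit 5) (nat_lit 29) (nat_lit 5) (nat_lit 30) (nat_lit 4) (nat_lit 433) (nat_lit 353) (nat_lit 234))))) (XT.nd (nat_lit 46956) (nat_lit 0) (nat_lit 20064) (XT.nd (nat_lit 46800) (nat_lit 0) (nat_lit 21128) (XT.lf (nat_lit 0) (nat_lit 6930387142) (nat_lit 152) (nat_lit 50221081020) (nat_lit 76) (nat_lit 48609547896) (nat_lit 26) (nat_lit 5) (nat_lit 28) (nat_lit 5) (nat_lit 27) (nat_lit 4) (nat_lit 435) (nat_lit 353) (nat_lit 232)) (XT.nd (nat_lit 78) (nat_lit 0) (nat_lit 0) (XT.lf (nat_lit 0) (nat_lit 1396498323) (nat_lit 0) (nat_lit 1396498323) (nat_lit 988) (nat_lit 1569199815) (nat_lit 304) (nat_lit 5) (nat_lit 304) (nat_lit 3) (nat_lit 317) (nat_lit 3) (nat_lit 354) (nat_lit 354) (nat_lit 312)) (XT.lf (nat_lit 76) (nat_lit 1150757980) (nat_lit 0) (nat_lit 6186925511) (nat_lit 1064) (nat_lit 1555872103) (nat_lit 305) (nat_lit 5) (nat_lit 304) (nat_lit 5) (nat_lit 318) (nat_lit 5) (nat_lit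 355) (nat_lit 354) (nat_lit 311)))) (XT.nd (nat_lit 78) (nat_lit 0) (nat_lit 76) (XT.lf (nat_lit 0) (nat_lit 91700530) (nat_lit 1064) (nat_lit 445266251) (nat_lit 1140) (nat_lit 8534576042) (nat_lit 290) (nat_lit 5) (nat_lit 304) (nat_lit 5) (nat_lit 305) (nat_lit 5) (nat_lit 356) (nat_lit 354) (nat_lit 310)) (XT.nd (nat_lit 78) (nat_lit 0) (nat_lit 76) (XT.lf (nat_lit 0) (nat_lit 1815947004) (nat_lit 1064) (nat_lit 2022607294) (nat_lit 1140) (nat_lit 5418653465) (nat_lit 291) (nat_lit 5) (nat_lit 305) (nat_lit 5) (nat_lit 306) (nat_lit 5) (nat_lit 357) (nat_lit 354) (nat_lit 309)) (XT.lf (nat_lit 0) (nat_lit 3622933635) (nat_lit 1064) (nat_lit 3565561950) (nat_lit 1140) (nat_lit 2263797560) (nat_lit 292) (nat_lit 5) (nat_lit 306) (nat_lit 5) (nat_lit 307) (nat_lit 5) (nat_lit 358) (nat_lit 354) (nat_lit 308)))))) (XT.nd (nat_lit 468) (nat_lit 5320) (nat_lit 0) (XT.nd (nat_lit 234) (nat_lit 988)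 (nat_lit 0) (XT.nd (nat_lit 78) (nat_lit 0) (nat_lit 76) (XT.lf (nat_lit 76) (nat_lit 4570102255) (nat_lit 0) (nat_lit 965558855) (nat_lit 1140) (nat_lit 4121041396) (nat_lit 293) (nat_lit 5) (nat_lit 292) (nat_lit 5) (nat_lit 307) (nat_lit 5) (nat_lit 359) (nat_lit 354) (nat_lit 307)) (XT.nd (nat_lit 78) (nat_lit 0) (nat_lit 76) (XT.lf (nat_lit 76) (nat_lit 3268085956) (nat_lit 0) (nat_lit 4313586495) (nat_lit 1140) (nat_lit 2288560419) (nat_lit 294) (nat_lit 5) (nat_lit 293) (nat_lit 5) (nat_lit 308) (nat_lit 5) (nat_lit 360) (nat_lit 354) (nat_lit 306)) (XT.lf (nat_lit 76) (nat_lit 2001164070) (nat_lit 0) (nat_lit 7751946134) (nat_lit 1140) (nat_lit 340664305) (nat_lit 295) (nat_lit 5) (nat_lit 294) (nat_lit 5) (nat_lit 309) (nat_lit 5) (nat_lit 361) (nat_lit 354) (nat_lit 305)))) (XT.nd (nat_lit 78) (nat_lit 0) (nat_lit 76) (XT.lf (nat_lit 76) (nat_lit 740503747) (nat_lit 0) (nat_lit 971980480)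 (nat_lit 1216) (nat_lit 8614310176) (nat_lit 280) (nat_lit 5) (nat_lit 279) (nat_lit 5) (nat_lit 295) (nat_lit 5) (nat_lit 362) (nat_lit 354) (nat_lit 304)) (XT.nd (nat_lit 78) (nat_lit 0) (nat_lit 76) (XT.lf (nat_lit 0) (nat_lit 3929690784) (nat_lit 1140) (nat_lit 508168576) (nat_lit 1216) (nat_lit 6131476490) (nat_lit 280) (nat_lit 5) (nat_lit 295) (nat_lit 5) (nat_lit 296) (nat_lit 5) (nat_lit 363) (nat_lit 354) (nat_lit 303)) (XT.lf (nat_lit 0) (nat_lit 6311507326) (nat_lit 1140) (nat_lit 1715704886) (nat_lit 76) (nat_lit 2795203595) (nat_lit 281) (nat_lit 5) (nat_lit 296) (nat_lit 5) (nat_lit 282) (nat_lit 5) (nat_lit 364) (nat_lit 354) (nat_lit 302))))) (XT.nd (nat_lit 234) (nat_lit 2356) (nat_lit 0) (XT.nd (nat_lit 78) (nat_lit 1976) (nat_lit 0) (XT.lf (nat_lit 0) (nat_lit 8181853460) (nat_lit 1140) (nat_lit 690990649) (nat_lit 1216) (nat_lit 2213515562) (nat_lit 266) (nat_lit 5) (nat_lit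 281) (nat_lit 5) (nat_lit 282) (nat_lit 5) (nat_lit 365) (nat_lit 354) (nat_lit 301)) (XT.nd (nat_lit 78) (nat_lit 684) (nat_lit 0) (XT.lf (nat_lit 0) (nat_lit 285297053) (nat_lit 1292) (nat_lit 4100651665) (nat_lit 76) (nat_lit 6974802917) (nat_lit 249) (nat_lit 5) (nat_lit 266) (nat_lit 5) (nat_lit 250) (nat_lit 5) (nat_lit 366) (nat_lit 354) (nat_lit 300)) (XT.lf (nat_lit 0) (nat_lit 2932147724) (nat_lit 760) (nat_lit 5298003969) (nat_lit 76) (nat_lit 3416007804) (nat_lit 240) (nat_lit 5) (nat_lit 250) (nat_lit 5) (nat_lit 241) (nat_lit 5) (nat_lit 367) (nat_lit 354) (nat_lit 299)))) (XT.nd (nat_lit 156) (nat_lit 1140) (nat_lit 0) (XT.nd (nat_lit 78) (nat_lit 608) (nat_lit 0) (XT.lf (nat_lit 0) (nat_lit 5464276370) (nat_lit 608) (nat_lit 325458092) (nat_lit 684) (nat_lit 6153770597) (nat_lit 232) (nat_lit 5) (nat_lit 240) (nat_lit 5) (nat_lit 241) (nat_lit 5) (nat_lit 368) (nat_lit 354) (nat_lit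 298)) (XT.lf (nat_lit 0) (nat_lit 4575062989) (nat_lit 608) (nat_lit 4332201783) (nat_lit 684) (nat_lit 3344959404) (nat_lit 224) (nat_lit 5) (nat_lit 232) (nat_lit 5) (nat_lit 233) (nat_lit 5) (nat_lit 369) (nat_lit 354) (nat_lit 297))) (XT.nd (nat_lit 78) (nat_lit 608) (nat_lit 0) (XT.lf (nat_lit 0) (nat_lit 3714911146) (nat_lit 532) (nat_lit 8554079925) (nat_lit 608) (nat_lit 304755930) (nat_lit 217) (nat_lit 5) (nat_lit 224) (nat_lit 5) (nat_lit 225) (nat_lit 5) (nat_lit 370) (nat_lit 354) (nat_lit 296)) (XT.lf (nat_lit 0) (nat_lit 2853674496) (nat_lit 532) (nat_lit 73593369) (nat_lit 608) (nat_lit 9980376805) (nat_lit 209) (nat_lit 5) (nat_lit 216) (nat_lit 5) (nat_lit 217) (nat_lit 5) (nat_lit 371) (nat_lit 354) (nat_lit 295))))))) (XT.nd (nat_lit 936) (nat_lit 3648) (nat_lit 0) (XT.nd (nat_lit 468) (nat_lit 2432) (nat_lit 0) (XT.nd (nat_lit 234) (nat_lit 912) (nat_lit 0) (XT.nd (nat_lit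 78) (nat_lit 1064) (nat_lit 0) (XT.lf (nat_lit 0) (nat_lit 1973376034) (nat_lit 456) (nat_lit 4484450488) (nat_lit 532) (nat_lit 6796038352) (nat_lit 203) (nat_lit 5) (nat_lit 209) (nat_lit 5) (nat_lit 210) (nat_lit 5) (nat_lit 372) (nat_lit 354) (nat_lit 294)) (XT.nd (nat_lit 78) (nat_lit 532) (nat_lit 0) (XT.lf (nat_lit 0) (nat_lit 1117778437) (nat_lit 532) (nat_lit 9154922601) (nat_lit 608) (nat_lit 3341475951) (nat_lit 196) (nat_lit 5) (nat_lit 203) (nat_lit 5) (nat_lit 204) (nat_lit 5) (nat_lit 373) (nat_lit 354) (nat_lit 293)) (XT.lf (nat_lit 0) (nat_lit 282132430) (nat_lit 456) (nat_lit 113885576) (nat_lit 532) (nat_lit 13592944303) (nat_lit 189) (nat_lit 5) (nat_lit 195) (nat_lit 5) (nat_lit 196) (nat_lit 5) (nat_lit 374) (nat_lit 354) (nat_lit 292)))) (XT.nd (nat_lit 78) (nat_lit 912) (nat_lit 0) (XT.lf (nat_lit 0) (nat_lit 4424278856) (nat_lit 532) (nat_lit 599677146) (nat_lit 76) (nat_lit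 9352361210) (nat_lit 189) (nat_lit 5) (nat_lit 196) (nat_lit 5) (nat_lit 190) (nat_lit 5) (nat_lit 375) (nat_lit 354) (nat_lit 291)) (XT.nd (nat_lit 78) (nat_lit 456) (nat_lit 0) (XT.lf (nat_lit 0) (nat_lit 8782677627) (nat_lit 532) (nat_lit 1456405207) (nat_lit 76) (nat_lit 4540107472) (nat_lit 183) (nat_lit 5) (nat_lit 190) (nat_lit 5) (nat_lit 184) (nat_lit 5) (nat_lit 376) (nat_lit 354) (nat_lit 290)) (XT.lf (nat_lit 0) (nat_lit 12899201436) (nat_lit 456) (nat_lit 596867129) (nat_lit 532) (nat_lit 1702037937) (nat_lit 177) (nat_lit 5) (nat_lit 183) (nat_lit 5) (nat_lit 184) (nat_lit 5) (nat_lit 377) (nat_lit 354) (nat_lit 289))))) (XT.nd (nat_lit 234) (nat_lit 1140) (nat_lit 0) (XT.nd (nat_lit 78) (nat_lit 760) (nat_lit 0) (XT.lf (nat_lit 0) (nat_lit 2938357603) (nat_lit 532) (nat_lit 3197545597) (nat_lit 76) (nat_lit 9495687275) (nat_lit 170) (nat_lit 5) (nat_lit 177) (nat_lit 5) (nat_lit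 171) (nat_lit 5) (nat_lit 378) (nat_lit 354) (nat_lit 288)) (XT.nd (nat_lit 78) (nat_lit 380) (nat_lit 0) (XT.lf (nat_lit 0) (nat_lit 7919978135) (nat_lit 456) (nat_lit 4098681128) (nat_lit 76) (nat_lit 4063261875) (nat_lit 165) (nat_lit 5) (nat_lit 171) (nat_lit 5) (nat_lit 166) (nat_lit 5) (nat_lit 379) (nat_lit 354) (nat_lit 287)) (XT.lf (nat_lit 0) (nat_lit 11547009770) (nat_lit 380) (nat_lit 1769939971) (nat_lit 456) (nat_lit 3232840232) (nat_lit 160) (nat_lit 5) (nat_lit 165) (nat_lit 5) (nat_lit 166) (nat_lit 5) (nat_lit 380) (nat_lit 354) (nat_lit 286)))) (XT.nd (nat_lit 78) (nat_lit 684) (nat_lit 0) (XT.lf (nat_lit 0) (nat_lit 2103875186) (nat_lit 456) (nat_lit 5956904720) (nat_lit 76) (nat_lit 8973749106) (nat_lit 154) (nat_lit 5) (nat_lit 160) (nat_lit 5) (nat_lit 155) (nat_lit 5) (nat_lit 381) (nat_lit 354) (nat_lit 285)) (XT.nd (nat_lit 78) (nat_lit 304) (nat_lit 0) (XT.lf (nat_lit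 0) (nat_lit 7803056899) (nat_lit 456) (nat_lit 6935868332) (nat_lit 76) (nat_lit 2798753378) (nat_lit 149) (nat_lit 5) (nat_lit 155) (nat_lit 5) (nat_lit 150) (nat_lit 5) (nat_lit 382) (nat_lit 354) (nat_lit 284)) (XT.lf (nat_lit 0) (nat_lit 10113688785) (nat_lit 304) (nat_lit 3877578157) (nat_lit 380) (nat_lit 4068604836) (nat_lit 145) (nat_lit 5) (nat_lit 149) (nat_lit 5) (nat_lit 150) (nat_lit 5) (nat_lit 383) (nat_lit 354) (nat_lit 283)))))) (XT.nd (nat_lit 468) (nat_lit 1672) (nat_lit 0) (XT.nd (nat_lit 234) (nat_lit 912) (nat_lit 0) (XT.nd (nat_lit 78) (nat_lit 608) (nat_lit 0) (XT.lf (nat_lit 0) (nat_lit 2047619612) (nat_lit 456) (nat_lit 9002908569) (nat_lit 76) (nat_lit 7551003434) (nat_lit 139) (nat_lit 5) (nat_lit 145) (nat_lit 5) (nat_lit 140) (nat_lit 5) (nat_lit 384) (nat_lit 354) (nat_lit 282)) (XT.nd (nat_lit 78) (nat_lit 304) (nat_lit 0) (XT.lf (nat_lit 0) (nat_lit 8565597541)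 (nat_lit 380) (nat_lit 10103116957) (nat_lit 76) (nat_lit 494956025) (nat_lit 135) (nat_lit 5) (nat_lit 140) (nat_lit 5) (nat_lit 136) (nat_lit 5) (nat_lit 385) (nat_lit 354) (nat_lit 281)) (XT.lf (nat_lit 0) (nat_lit 8468289475) (nat_lit 304) (nat_lit 7194320344) (nat_lit 380) (nat_lit 4083719346) (nat_lit 131) (nat_lit 5) (nat_lit 135) (nat_lit 5) (nat_lit 136) (nat_lit 5) (nat_lit 386) (nat_lit 354) (nat_lit 280)))) (XT.nd (nat_lit 78) (nat_lit 532) (nat_lit 0) (XT.lf (nat_lit 0) (nat_lit 2899544879) (nat_lit 380) (nat_lit 12498310323) (nat_lit 76) (nat_lit 4953567620) (nat_lit 126) (nat_lit 5) (nat_lit 131) (nat_lit 5) (nat_lit 127) (nat_lit 5) (nat_lit 387) (nat_lit 354) (nat_lit 279)) (XT.nd (nat_lit 78) (nat_lit 228) (nat_lit 0) (XT.lf (nat_lit 0) (nat_lit 7170776855) (nat_lit 304) (nat_lit 3204685537) (nat_lit 380) (nat_lit 10603263388) (nat_lit 122) (nat_lit 5) (nat_lit 126) (nat_lit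 5) (nat_lit 127) (nat_lit 5) (nat_lit 388) (nat_lit 354) (nat_lit 278)) (XT.lf (nat_lit 0) (nat_lit 6436221810) (nat_lit 228) (nat_lit 12042305824) (nat_lit 304) (nat_lit 3151271442) (nat_lit 119) (nat_lit 5) (nat_lit 122) (nat_lit 5) (nat_lit 123) (nat_lit 5) (nat_lit 389) (nat_lit 354) (nat_lit 277))))) (XT.nd (nat_lit 234) (nat_lit 836) (nat_lit 0) (XT.nd (nat_lit 78) (nat_lit 456) (nat_lit 0) (XT.lf (nat_lit 0) (nat_lit 4790831630) (nat_lit 380) (nat_lit 16656835925) (nat_lit 76) (nat_lit 858154963) (nat_lit 114) (nat_lit 5) (nat_lit 119) (nat_lit 5) (nat_lit 115) (nat_lit 5) (nat_lit 390) (nat_lit 354) (nat_lit 276)) (XT.nd (nat_lit 78) (nat_lit 228) (nat_lit 0) (XT.lf (nat_lit 0) (nat_lit 4732205097) (nat_lit 228) (nat_lit 8629114867) (nat_lit 304) (nat_lit 9644502612) (nat_lit 111) (nat_lit 5) (nat_lit 114) (nat_lit 5) (nat_lit 115) (nat_lit 5) (nat_lit 391) (nat_lit 354) (nat_lit 275))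 (XT.lf (nat_lit 0) (nat_lit 3783952488) (nat_lit 228) (nat_lit 18804020601) (nat_lit 304) (nat_lit 1146025154) (nat_lit 108) (nat_lit 5) (nat_lit 111) (nat_lit 5) (nat_lit 112) (nat_lit 5) (nat_lit 392) (nat_lit 354) (nat_lit 274)))) (XT.nd (nat_lit 156) (nat_lit 304) (nat_lit 0) (XT.nd (nat_lit 78) (nat_lit 228) (nat_lit 0) (XT.lf (nat_lit 0) (nat_lit 2677735687) (nat_lit 228) (nat_lit 5223008539) (nat_lit 304) (nat_lit 16587346116) (nat_lit 104) (nat_lit 5) (nat_lit 107) (nat_lit 5) (nat_lit 108) (nat_lit 5) (nat_lit 393) (nat_lit 354) (nat_lit 273)) (XT.lf (nat_lit 0) (nat_lit 1464676652) (nat_lit 228) (nat_lit 16193119642) (nat_lit 304) (nat_lit 7613305220) (nat_lit 101) (nat_lit 5) (nat_lit 104) (nat_lit 5) (nat_lit 105) (nat_lit 5) (nat_lit 394) (nat_lit 354) (nat_lit 272))) (XT.nd (nat_lit 78) (nat_lit 0) (nat_lit 0) (XT.lf (nat_lit 0) (nat_lit 160714647) (nat_lit 228) (nat_lit 1868106635)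 (nat_lit 304) (nat_lit 24056283316) (nat_lit 97) (nat_lit 5) (nat_lit 100) (nat_lit 5) (nat_lit 101) (nat_lit 5) (nat_lit 395) (nat_lit 354) (nat_lit 271)) (XT.lf (nat_lit 0) (nat_lit 12345571371) (nat_lit 304) (nat_lit 1356836341) (nat_lit 76) (nat_lit 13224643319) (nat_lit 97) (nat_lit 5) (nat_lit 101) (nat_lit 5) (nat_lit 98) (nat_lit 5) (nat_lit 396) (nat_lit 354) (nat_lit 270))))))))
noncomputable def xc74 : XT := (XT.nd (nat_lit 1950) (nat_lit 1216) (nat_lit 0) (XT.nd (nat_lit 936) (nat_lit 1596) (nat_lit 0) (XT.nd (nat_lit 468) (nat_lit 1140) (nat_lit 0) (XT.nd (nat_lit 234) (nat_lit 608) (nat_lit 0) (XT.nd (nat_lit 78) (nat_lit 456) (nat_lit 0) (XT.lf (nat_lit 0) (nat_lit 23425614871) (nat_lit 304) (nat_lit 2952785875) (nat_lit 76) (nat_lit 1425273925) (nat_lit 94) (nat_lit 5) (nat_lit 98) (nat_lit 5) (nat_lit 95) (nat_lit 5) (nat_lit 397) (nat_lit 354) (nat_lit 269)) (XT.nd (nat_lit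 78) (nat_lit 228) (nat_lit 0) (XT.lf (nat_lit 0) (nat_lit 6574455295) (nat_lit 228) (nat_lit 4814587320) (nat_lit 76) (nat_lit 17322386537) (nat_lit 91) (nat_lit 5) (nat_lit 94) (nat_lit 5) (nat_lit 92) (nat_lit 5) (nat_lit 398) (nat_lit 354) (nat_lit 268)) (XT.lf (nat_lit 0) (nat_lit 18256587516) (nat_lit 304) (nat_lit 6851544102) (nat_lit 76) (nat_lit 4546966369) (nat_lit 88) (nat_lit 5) (nat_lit 92) (nat_lit 5) (nat_lit 89) (nat_lit 5) (nat_lit 399) (nat_lit 354) (nat_lit 267)))) (XT.nd (nat_lit 78) (nat_lit 380) (nat_lit 0) (XT.lf (nat_lit 0) (nat_lit 232022169) (nat_lit 228) (nat_lit 9112739608) (nat_lit 76) (nat_lit 21290644587) (nat_lit 85) (nat_lit 5) (nat_lit 88) (nat_lit 5) (nat_lit 86) (nat_lit 5) (nat_lit 400) (nat_lit 354) (nat_lit 266)) (XT.nd (nat_lit 78) (nat_lit 152) (nat_lit 0) (XT.lf (nat_lit 0) (nat_lit 12525087972) (nat_lit 304) (nat_lit 11693246698) (nat_lit 76) (nat_lit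 7433510198) (nat_lit 82) (nat_lit 5) (nat_lit 86) (nat_lit 5) (nat_lit 83) (nat_lit 5) (nat_lit 401) (nat_lit 354) (nat_lit 265)) (XT.lf (nat_lit 0) (nat_lit 18180060517) (nat_lit 152) (nat_lit 7594987506) (nat_lit 228) (nat_lit 6933792671) (nat_lit 80) (nat_lit 5) (nat_lit 82) (nat_lit 5) (nat_lit 83) (nat_lit 5) (nat_lit 402) (nat_lit 354) (nat_lit 264))))) (XT.nd (nat_lit 234) (nat_lit 608) (nat_lit 0) (XT.nd (nat_lit 78) (nat_lit 304) (nat_lit 0) (XT.lf (nat_lit 0) (nat_lit 6108401245) (nat_lit 228) (nat_lit 17708899909) (nat_lit 76) (nat_lit 9989072050) (nat_lit 77) (nat_lit 5) (nat_lit 80) (nat_lit 5) (nat_lit 78) (nat_lit 5) (nat_lit 403) (nat_lit 354) (nat_lit 263)) (XT.nd (nat_lit 78) (nat_lit 152) (nat_lit 0) (XT.lf (nat_lit 0) (nat_lit 13687443481) (nat_lit 152) (nat_lit 6311884775) (nat_lit 228) (nat_lit 14947196109) (nat_lit 75) (nat_lit 5) (nat_lit 77) (nat_lit 5) (nat_lit 78) (nat_lit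 5) (nat_lit 404) (nat_lit 354) (nat_lit 262)) (XT.lf (nat_lit 0) (nat_lit 10945924856) (nat_lit 152) (nat_lit 24024132408) (nat_lit 228) (nat_lit 1162070356) (nat_lit 73) (nat_lit 5) (nat_lit 75) (nat_lit 5) (nat_lit 76) (nat_lit 5) (nat_lit 405) (nat_lit 354) (nat_lit 261)))) (XT.nd (nat_lit 78) (nat_lit 380) (nat_lit 0) (XT.lf (nat_lit 0) (nat_lit 7757843917) (nat_lit 152) (nat_lit 5634340780) (nat_lit 228) (nat_lit 23970800070) (nat_lit 70) (nat_lit 5) (nat_lit 72) (nat_lit 5) (nat_lit 73) (nat_lit 5) (nat_lit 406) (nat_lit 354) (nat_lit 260)) (XT.nd (nat_lit 78) (nat_lit 228) (nat_lit 0) (XT.lf (nat_lit 0) (nat_lit 4128493059) (nat_lit 152) (nat_lit 24935647891) (nat_lit 228) (nat_lit 9578479939) (nat_lit 68) (nat_lit 5) (nat_lit 70) (nat_lit 5) (nat_lit 71) (nat_lit 5) (nat_lit 407) (nat_lit 354) (nat_lit 259)) (XT.lf (nat_lit 0) (nat_lit 44645357) (nat_lit 152) (nat_lit 5727140223) (nat_lit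 228) (nat_lit 34202470093) (nat_lit 65) (nat_lit 5) (nat_lit 67) (nat_lit 5) (nat_lit 68) (nat_lit 5) (nat_lit 408) (nat_lit 354) (nat_lit 258)))))) (XT.nd (nat_lit 468) (nat_lit 760) (nat_lit 0) (XT.nd (nat_lit 234) (nat_lit 456) (nat_lit 0) (XT.nd (nat_lit 78) (nat_lit 380) (nat_lit 0) (XT.lf (nat_lit 0) (nat_lit 22172617191) (nat_lit 228) (nat_lit 4581201373) (nat_lit 76) (nat_lit 14601375732) (nat_lit 65) (nat_lit 5) (nat_lit 68) (nat_lit 5) (nat_lit 66) (nat_lit 5) (nat_lit 409) (nat_lit 354) (nat_lit 257)) (XT.nd (nat_lit 78) (nat_lit 228) (nat_lit 0) (XT.lf (nat_lit 0) (nat_lit 33091150223) (nat_lit 152) (nat_lit 6660785955) (nat_lit 228) (nat_lit 3042491926) (nat_lit 63) (nat_lit 5) (nat_lit 65) (nat_lit 5) (nat_lit 66) (nat_lit 5) (nat_lit 410) (nat_lit 354) (nat_lit 256)) (XT.lf (nat_lit 0) (nat_lit 14084188310) (nat_lit 228) (nat_lit 15599188620) (nat_lit 76) (nat_lit 14604710808)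 (nat_lit 60) (nat_lit 5) (nat_lit 63) (nat_lit 5) (nat_lit 61) (nat_lit 5) (nat_lit 411) (nat_lit 354) (nat_lit 255)))) (XT.nd (nat_lit 78) (nat_lit 304) (nat_lit 0) (XT.lf (nat_lit 0) (nat_lit 23682906864) (nat_lit 152) (nat_lit 8701029985) (nat_lit 228) (nat_lit 13460201495) (nat_lit 58) (nat_lit 5) (nat_lit 60) (nat_lit 5) (nat_lit 61) (nat_lit 5) (nat_lit 412) (nat_lit 354) (nat_lit 254)) (XT.nd (nat_lit 78) (nat_lit 152) (nat_lit 0) (XT.lf (nat_lit 0) (nat_lit 4491469867) (nat_lit 152) (nat_lit 29535540248) (nat_lit 76) (nat_lit 13436258440) (nat_lit 56) (nat_lit 5) (nat_lit 58) (nat_lit 5) (nat_lit 57) (nat_lit 5) (nat_lit 413) (nat_lit 354) (nat_lit 253)) (XT.lf (nat_lit 0) (nat_lit 11292876042) (nat_lit 152) (nat_lit 12182861074) (nat_lit 228) (nat_lit 25671219646) (nat_lit 54) (nat_lit 5) (nat_lit 56) (nat_lit 5) (nat_lit 57) (nat_lit 5) (nat_lit 414) (nat_lit 354) (nat_lit 252)))))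 (XT.nd (nat_lit 234) (nat_lit 456) (nat_lit 0) (XT.nd (nat_lit 78) (nat_lit 228) (nat_lit 0) (XT.lf (nat_lit 0) (nat_lit 3813463827) (nat_lit 76) (nat_lit 40027232667) (nat_lit 152) (nat_lit 7061189724) (nat_lit 53) (nat_lit 5) (nat_lit 54) (nat_lit 5) (nat_lit 55) (nat_lit 4) (nat_lit 415) (nat_lit 354) (nat_lit 251)) (XT.nd (nat_lit 78) (nat_lit 152) (nat_lit 0) (XT.lf (nat_lit 0) (nat_lit 12737044725) (nat_lit 152) (nat_lit 4652491334) (nat_lit 76) (nat_lit 35336391830) (nat_lit 52) (nat_lit 5) (nat_lit 54) (nat_lit 5) (nat_lit 53) (nat_lit 5) (nat_lit 416) (nat_lit 354) (nat_lit 250)) (XT.lf (nat_lit 0) (nat_lit 33822007393) (nat_lit 228) (nat_lit 14094254849) (nat_lit 76) (nat_lit 6709527495) (nat_lit 50) (nat_lit 5) (nat_lit 53) (nat_lit 5) (nat_lit 51) (nat_lit 4) (nat_lit 417) (nat_lit 354) (nat_lit 249)))) (XT.nd (nat_lit 156) (nat_lit 152) (nat_lit 0) (XT.nd (nat_lit 78) (nat_lit 228)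 (nat_lit 0) (XT.lf (nat_lit 0) (nat_lit 31872276495) (nat_lit 76) (nat_lit 24604977951) (nat_lit 152) (nat_lit 127910153) (nat_lit 49) (nat_lit 5) (nat_lit 50) (nat_lit 5) (nat_lit 51) (nat_lit 4) (nat_lit 418) (nat_lit 354) (nat_lit 248)) (XT.lf (nat_lit 0) (nat_lit 21508414555) (nat_lit 228) (nat_lit 36725341205) (nat_lit 76) (nat_lit 433095764) (nat_lit 46) (nat_lit 5) (nat_lit 49) (nat_lit 5) (nat_lit 47) (nat_lit 4) (nat_lit 419) (nat_lit 354) (nat_lit 247))) (XT.nd (nat_lit 78) (nat_lit 76) (nat_lit 0) (XT.lf (nat_lit 0) (nat_lit 10571090487) (nat_lit 76) (nat_lit 34246305289) (nat_lit 152) (nat_lit 15996385343) (nat_lit 45) (nat_lit 5) (nat_lit 46) (nat_lit 5) (nat_lit 47) (nat_lit 4) (nat_lit 420) (nat_lit 354) (nat_lit 246)) (XT.lf (nat_lit 0) (nat_lit 6470774762) (nat_lit 152) (nat_lit 2145547051) (nat_lit 76) (nat_lit 54438887783) (nat_lit 44) (nat_lit 5) (nat_lit 46) (nat_lit 5) (nat_lit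 45) (nat_lit 5) (nat_lit 421) (nat_lit 354) (nat_lit 245))))))) (XT.nd (nat_lit 1014) (nat_lit 76) (nat_lit 0) (XT.nd (nat_lit 468) (nat_lit 456) (nat_lit 0) (XT.nd (nat_lit 234) (nat_lit 228) (nat_lit 0) (XT.nd (nat_lit 78) (nat_lit 304) (nat_lit 0) (XT.lf (nat_lit 0) (nat_lit 30375127339) (nat_lit 228) (nat_lit 16442276963) (nat_lit 76) (nat_lit 18567214645) (nat_lit 42) (nat_lit 5) (nat_lit 45) (nat_lit 5) (nat_lit 43) (nat_lit 4) (nat_lit 422) (nat_lit 354) (nat_lit 244)) (XT.nd (nat_lit 78) (nat_lit 228) (nat_lit 0) (XT.lf (nat_lit 0) (nat_lit 35379372565) (nat_lit 76) (nat_lit 20532254367) (nat_lit 152) (nat_lit 11905764698) (nat_lit 41) (nat_lit 5) (nat_lit 42) (nat_lit 5) (nat_lit 43) (nat_lit 4) (nat_lit 423) (nat_lit 354) (nat_lit 243)) (XT.lf (nat_lit 0) (nat_lit 12535860997) (nat_lit 228) (nat_lit 50414186695) (nat_lit 76) (nat_lit 7405480557) (nat_lit 38) (nat_lit 5) (nat_lit 41)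 (nat_lit 5) (nat_lit 39) (nat_lit 4) (nat_lit 424) (nat_lit 354) (nat_lit 242)))) (XT.nd (nat_lit 78) (nat_lit 152) (nat_lit 0) (XT.lf (nat_lit 0) (nat_lit 2298505598) (nat_lit 76) (nat_lit 36211766356) (nat_lit 152) (nat_lit 34490056033) (nat_lit 37) (nat_lit 5) (nat_lit 38) (nat_lit 5) (nat_lit 39) (nat_lit 4) (nat_lit 425) (nat_lit 354) (nat_lit 241)) (XT.nd (nat_lit 78) (nat_lit 152) (nat_lit 0) (XT.lf (nat_lit 0) (nat_lit 58678377954) (nat_lit 76) (nat_lit 7612437243) (nat_lit 152) (nat_lit 9471330785) (nat_lit 37) (nat_lit 5) (nat_lit 38) (nat_lit 5) (nat_lit 39) (nat_lit 4) (nat_lit 426) (nat_lit 354) (nat_lit 240)) (XT.lf (nat_lit 0) (nat_lit 17062865885) (nat_lit 152) (nat_lit 39057441125) (nat_lit 76) (nat_lit 22519134238) (nat_lit 35) (nat_lit 5) (nat_lit 37) (nat_lit 5) (nat_lit 36) (nat_lit 4) (nat_lit 427) (nat_lit 354) (nat_lit 239))))) (XT.nd (nat_lit 234) (nat_lit 228) (nat_lit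 0) (XT.nd (nat_lit 78) (nat_lit 152) (nat_lit 0) (XT.lf (nat_lit 0) (nat_lit 17937828382) (nat_lit 76) (nat_lit 27207871603) (nat_lit 152) (nat_lit 36499554297) (nat_lit 34) (nat_lit 5) (nat_lit 35) (nat_lit 5) (nat_lit 36) (nat_lit 4) (nat_lit 428) (nat_lit 354) (nat_lit 238)) (XT.nd (nat_lit 78) (nat_lit 152) (nat_lit 0) (XT.lf (nat_lit 0) (nat_lit 75058353044) (nat_lit 152) (nat_lit 6244904220) (nat_lit 0) (nat_lit 3485330911) (nat_lit 34) (nat_lit 5) (nat_lit 36) (nat_lit 4) (nat_lit 34) (nat_lit 4) (nat_lit 429) (nat_lit 354) (nat_lit 237)) (XT.lf (nat_lit 0) (nat_lit 18818672211) (nat_lit 152) (nat_lit 33382463087) (nat_lit 76) (nat_lit 35858662228) (nat_lit 32) (nat_lit 5) (nat_lit 34) (nat_lit 5) (nat_lit 33) (nat_lit 4) (nat_lit 430) (nat_lit 354) (nat_lit 236)))) (XT.nd (nat_lit 78) (nat_lit 152) (nat_lit 0) (XT.lf (nat_lit 0) (nat_lit 27706286515) (nat_lit 76) (nat_lit 21210688595)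 (nat_lit 152) (nat_lit 42565006937) (nat_lit 31) (nat_lit 5) (nat_lit 32) (nat_lit 5) (nat_lit 33) (nat_lit 4) (nat_lit 431) (nat_lit 354) (nat_lit 235)) (XT.nd (nat_lit 78) (nat_lit 152) (nat_lit 0) (XT.lf (nat_lit 0) (nat_lit 80966416055) (nat_lit 152) (nat_lit 2648925108) (nat_lit 0) (nat_lit 11446548382) (nat_lit 31) (nat_lit 5) (nat_lit 33) (nat_lit 4) (nat_lit 31) (nat_lit 4) (nat_lit 432) (nat_lit 354) (nat_lit 234)) (XT.lf (nat_lit 0) (nat_lit 16303071779) (nat_lit 152) (nat_lit 36434147211) (nat_lit 76) (nat_lit 46054604108) (nat_lit 29) (nat_lit 5) (nat_lit 31) (nat_lit 5) (nat_lit 30) (nat_lit 4) (nat_lit 433) (nat_lit 354) (nat_lit 233)))))) (XT.nd (nat_lit 47268) (nat_lit 0) (nat_lit 18088) (XT.nd (nat_lit 47034) (nat_lit 0) (nat_lit 19912) (XT.nd (nat_lit 46878) (nat_lit 0) (nat_lit 19912) (XT.lf (nat_lit 0) (nat_lit 82251164286) (nat_lit 152) (nat_lit 9797642522) (nat_lit 0) (nat_lit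 14729731586) (nat_lit 28) (nat_lit 5) (nat_lit 30) (nat_lit 4) (nat_lit 28) (nat_lit 4) (nat_lit 435) (nat_lit 354) (nat_lit 231)) (XT.nd (nat_lit 78) (nat_lit 1064) (nat_lit 0) (XT.lf (nat_lit 0) (nat_lit 2241307377) (nat_lit 0) (nat_lit 2241307377) (nat_lit 988) (nat_lit 50615690) (nat_lit 304) (nat_lit 5) (nat_lit 304) (nat_lit 3) (nat_lit 317) (nat_lit 3) (nat_lit 355) (nat_lit 355) (nat_lit 310)) (XT.lf (nat_lit 0) (nat_lit 1382155124) (nat_lit 1064) (nat_lit 6442317006) (nat_lit 1140) (nat_lit 1423647444) (nat_lit 290) (nat_lit 5) (nat_lit 304) (nat_lit 5) (nat_lit 305) (nat_lit 5) (nat_lit 356) (nat_lit 355) (nat_lit 309)))) (XT.nd (nat_lit 78) (nat_lit 0) (nat_lit 76) (XT.lf (nat_lit 76) (nat_lit 1147157220) (nat_lit 0) (nat_lit 1802005162) (nat_lit 1140) (nat_lit 6489355420) (nat_lit 291) (nat_lit 5) (nat_lit 290) (nat_lit 5) (nat_lit 305) (nat_lit 5) (nat_lit 357) (nat_lit 355) (nat_lit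 308)) (XT.nd (nat_lit 78) (nat_lit 0) (nat_lit 76) (XT.lf (nat_lit 0) (nat_lit 4616843013) (nat_lit 1064) (nat_lit 483177594) (nat_lit 1140) (nat_lit 4537777102) (nat_lit 291) (nat_lit 5) (nat_lit 305) (nat_lit 5) (nat_lit 306) (nat_lit 5) (nat_lit 358) (nat_lit 355) (nat_lit 307)) (XT.lf (nat_lit 0) (nat_lit 6390804857) (nat_lit 1064) (nat_lit 2061854143) (nat_lit 1140) (nat_lit 1393725653) (nat_lit 292) (nat_lit 5) (nat_lit 306) (nat_lit 5) (nat_lit 307) (nat_lit 5) (nat_lit 359) (nat_lit 355) (nat_lit 306))))) (XT.nd (nat_lit 234) (nat_lit 912) (nat_lit 0) (XT.nd (nat_lit 78) (nat_lit 1064) (nat_lit 0) (XT.lf (nat_lit 76) (nat_lit 6432379485) (nat_lit 0) (nat_lit 1859316680) (nat_lit 1140) (nat_lit 1772586371) (nat_lit 293) (nat_lit 5) (nat_lit 292) (nat_lit 5) (nat_lit 307) (nat_lit 5) (nat_lit 360) (nat_lit 355) (nat_lit 305)) (XT.nd (nat_lit 78) (nat_lit 0) (nat_lit 76) (XT.lf (nat_lit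 0) (nat_lit 37667521) (nat_lit 1140) (nat_lit 5192770648) (nat_lit 1216) (nat_lit 5061374958) (nat_lit 278) (nat_lit 5) (nat_lit 293) (nat_lit 5) (nat_lit 294) (nat_lit 5) (nat_lit 361) (nat_lit 355) (nat_lit 304)) (XT.lf (nat_lit 0) (nat_lit 1939041983) (nat_lit 1140) (nat_lit 6750928269) (nat_lit 1216) (nat_lit 1839130581) (nat_lit 279) (nat_lit 5) (nat_lit 294) (nat_lit 5) (nat_lit 295) (nat_lit 5) (nat_lit 362) (nat_lit 355) (nat_lit 303)))) (XT.nd (nat_lit 156) (nat_lit 988) (nat_lit 0) (XT.nd (nat_lit 78) (nat_lit 0) (nat_lit 76) (XT.lf (nat_lit 76) (nat_lit 2470444078) (nat_lit 0) (nat_lit 1524661066) (nat_lit 1216) (nat_lit 6781383109) (nat_lit 280) (nat_lit 5) (nat_lit 279) (nat_lit 5) (nat_lit 295) (nat_lit 5) (nat_lit 363) (nat_lit 355) (nat_lit 302)) (XT.lf (nat_lit 76) (nat_lit 1169633960) (nat_lit 0) (nat_lit 5055547614) (nat_lit 1216) (nat_lit 4808949958) (nat_lit 281) (nat_lit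 5) (nat_lit 280) (nat_lit 5) (nat_lit 296) (nat_lit 5) (nat_lit 364) (nat_lit 355) (nat_lit 301))) (XT.nd (nat_lit 78) (nat_lit 1140) (nat_lit 0) (XT.lf (nat_lit 0) (nat_lit 8627544183) (nat_lit 1140) (nat_lit 104908156) (nat_lit 76) (nat_lit 2570402867) (nat_lit 281) (nat_lit 5) (nat_lit 296) (nat_lit 5) (nat_lit 282) (nat_lit 5) (nat_lit 365) (nat_lit 355) (nat_lit 300)) (XT.lf (nat_lit 0) (nat_lit 10238895925) (nat_lit 1140) (nat_lit 998632910) (nat_lit 1216) (nat_lit 344881785) (nat_lit 266) (nat_lit 5) (nat_lit 281) (nat_lit 5) (nat_lit 282) (nat_lit 5) (nat_lit 366) (nat_lit 355) (nat_lit 299))))))))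
noncomputable def xc75 : XT := (XT.nd (nat_lit 1950) (nat_lit 4636) (nat_lit 0) (XT.nd (nat_lit 936) (nat_lit 4788) (nat_lit 0) (XT.nd (nat_lit 468) (nat_lit 2432) (nat_lit 0) (XT.nd (nat_lit 234) (nat_lit 1748) (nat_lit 0) (XT.nd (nat_lit 78) (nat_lit 1292) (nat_lit 0) (XT.lf (nat_lit 0) (nat_lit 2161423046) (nat_lit 1292) (nat_lit 2608183364) (nat_lit 76) (nat_lit 7102739124) (nat_lit 249) (nat_lit 5) (nat_lit 266) (nat_lit 5) (nat_lit 250) (nat_lit 5) (nat_lit 367) (nat_lit 355) (nat_lit 298)) (XT.nd (nat_lit 78) (nat_lit 608) (nat_lit 0) (XT.lf (nat_lit 0) (nat_lit 4866458110) (nat_lit 760) (nat_lit 3858482657) (nat_lit 76) (nat_lit 3449335760) (nat_lit 240) (nat_lit 5) (nat_lit 250) (nat_lit 5) (nat_lit 241) (nat_lit 5) (nat_lit 368) (nat_lit 355) (nat_lit 297)) (XT.lf (nat_lit 0) (nat_lit 7393054798) (nat_lit 608) (nat_lit 404654972) (nat_lit 684) (nat_lit 4690882689) (nat_lit 232) (nat_lit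 5) (nat_lit 240) (nat_lit 5) (nat_lit 241) (nat_lit 5) (nat_lit 369) (nat_lit 355) (nat_lit 296)))) (XT.nd (nat_lit 78) (nat_lit 1140) (nat_lit 0) (XT.lf (nat_lit 0) (nat_lit 6463106612) (nat_lit 608) (nat_lit 4541551248) (nat_lit 684) (nat_lit 1810108824) (nat_lit 224) (nat_lit 5) (nat_lit 232) (nat_lit 5) (nat_lit 233) (nat_lit 5) (nat_lit 370) (nat_lit 355) (nat_lit 295)) (XT.nd (nat_lit 78) (nat_lit 532) (nat_lit 0) (XT.lf (nat_lit 0) (nat_lit 1291849188) (nat_lit 608) (nat_lit 7605984628) (nat_lit 76) (nat_lit 4256055316) (nat_lit 216) (nat_lit 5) (nat_lit 224) (nat_lit 5) (nat_lit 217) (nat_lit 5) (nat_lit 371) (nat_lit 355) (nat_lit 294)) (XT.lf (nat_lit 0) (nat_lit 4618789124) (nat_lit 608) (nat_lit 8865888702) (nat_lit 76) (nat_lit 21547162) (nat_lit 209) (nat_lit 5) (nat_lit 217) (nat_lit 5) (nat_lit 210) (nat_lit 5) (nat_lit 372) (nat_lit 355) (nat_lit 293))))) (XT.nd (nat_lit 234)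 (nat_lit 912) (nat_lit 0) (XT.nd (nat_lit 78) (nat_lit 1064) (nat_lit 0) (XT.lf (nat_lit 0) (nat_lit 3713637444) (nat_lit 456) (nat_lit 4555146740) (nat_lit 532) (nat_lit 5602706058) (nat_lit 203) (nat_lit 5) (nat_lit 209) (nat_lit 5) (nat_lit 210) (nat_lit 5) (nat_lit 373) (nat_lit 355) (nat_lit 292)) (XT.nd (nat_lit 78) (nat_lit 532) (nat_lit 0) (XT.lf (nat_lit 0) (nat_lit 2810546573) (nat_lit 532) (nat_lit 9410135749) (nat_lit 608) (nat_lit 2030767525) (nat_lit 196) (nat_lit 5) (nat_lit 203) (nat_lit 5) (nat_lit 204) (nat_lit 5) (nat_lit 374) (nat_lit 355) (nat_lit 291)) (XT.lf (nat_lit 0) (nat_lit 1812316123) (nat_lit 532) (nat_lit 12732572707) (nat_lit 76) (nat_lit 101251640) (nat_lit 189) (nat_lit 5) (nat_lit 196) (nat_lit 5) (nat_lit 190) (nat_lit 5) (nat_lit 375) (nat_lit 355) (nat_lit 290)))) (XT.nd (nat_lit 78) (nat_lit 456) (nat_lit 0) (XT.lf (nat_lit 0) (nat_lit 968717586) (nat_lit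 456) (nat_lit 5017179204) (nat_lit 532) (nat_lit 9068666983) (nat_lit 183) (nat_lit 5) (nat_lit 189) (nat_lit 5) (nat_lit 190) (nat_lit 5) (nat_lit 376) (nat_lit 355) (nat_lit 289)) (XT.nd (nat_lit 78) (nat_lit 0) (nat_lit 0) (XT.lf (nat_lit 0) (nat_lit 42191792) (nat_lit 456) (nat_lit 10464899641) (nat_lit 532) (nat_lit 4972159820) (nat_lit 177) (nat_lit 5) (nat_lit 183) (nat_lit 5) (nat_lit 184) (nat_lit 5) (nat_lit 377) (nat_lit 355) (nat_lit 288)) (XT.lf (nat_lit 0) (nat_lit 15069734693) (nat_lit 456) (nat_lit 339491901) (nat_lit 532) (nat_lit 511310622) (nat_lit 177) (nat_lit 5) (nat_lit 183) (nat_lit 5) (nat_lit 184) (nat_lit 5) (nat_lit 378) (nat_lit 355) (nat_lit 287)))))) (XT.nd (nat_lit 468) (nat_lit 2356) (nat_lit 0) (XT.nd (nat_lit 234) (nat_lit 1140) (nat_lit 0) (XT.nd (nat_lit 78) (nat_lit 760) (nat_lit 0) (XT.lf (nat_lit 0) (nat_lit 4294008655) (nat_lit 532) (nat_lit 1817505592)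 (nat_lit 76) (nat_lit 10265094198) (nat_lit 170) (nat_lit 5) (nat_lit 177) (nat_lit 5) (nat_lit 171) (nat_lit 5) (nat_lit 379) (nat_lit 355) (nat_lit 286)) (XT.nd (nat_lit 78) (nat_lit 380) (nat_lit 0) (XT.lf (nat_lit 0) (nat_lit 9484704110) (nat_lit 456) (nat_lit 2775761749) (nat_lit 76) (nat_lit 4590204230) (nat_lit 165) (nat_lit 5) (nat_lit 171) (nat_lit 5) (nat_lit 166) (nat_lit 5) (nat_lit 380) (nat_lit 355) (nat_lit 285)) (XT.lf (nat_lit 0) (nat_lit 13608418082) (nat_lit 380) (nat_lit 1501718216) (nat_lit 456) (nat_lit 2233051293) (nat_lit 160) (nat_lit 5) (nat_lit 165) (nat_lit 5) (nat_lit 166) (nat_lit 5) (nat_lit 381) (nat_lit 355) (nat_lit 284)))) (XT.nd (nat_lit 78) (nat_lit 684) (nat_lit 0) (XT.lf (nat_lit 0) (nat_lit 3311190310) (nat_lit 456) (nat_lit 4761262806) (nat_lit 76) (nat_lit 9780487471) (nat_lit 154) (nat_lit 5) (nat_lit 160) (nat_lit 5) (nat_lit 155) (nat_lit 5) (nat_lit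 382) (nat_lit 355) (nat_lit 283)) (XT.nd (nat_lit 78) (nat_lit 304) (nat_lit 0) (XT.lf (nat_lit 0) (nat_lit 9260514900) (nat_lit 456) (nat_lit 5803559283) (nat_lit 76) (nat_lit 3318229932) (nat_lit 149) (nat_lit 5) (nat_lit 155) (nat_lit 5) (nat_lit 150) (nat_lit 5) (nat_lit 383) (nat_lit 355) (nat_lit 282)) (XT.lf (nat_lit 0) (nat_lit 12056077515) (nat_lit 304) (nat_lit 3665044356) (nat_lit 380) (nat_lit 3210606872) (nat_lit 145) (nat_lit 5) (nat_lit 149) (nat_lit 5) (nat_lit 150) (nat_lit 5) (nat_lit 384) (nat_lit 355) (nat_lit 281))))) (XT.nd (nat_lit 234) (nat_lit 1292) (nat_lit 0) (XT.nd (nat_lit 78) (nat_lit 608) (nat_lit 0) (XT.lf (nat_lit 0) (nat_lit 3158720292) (nat_lit 456) (nat_lit 8010796948) (nat_lit 76) (nat_lit 8331618662) (nat_lit 139) (nat_lit 5) (nat_lit 145) (nat_lit 5) (nat_lit 140) (nat_lit 5) (nat_lit 385) (nat_lit 355) (nat_lit 280)) (XT.nd (nat_lit 78) (nat_lit 304) (nat_lit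 0) (XT.lf (nat_lit 0) (nat_lit 9972131607) (nat_lit 380) (nat_lit 9182034846) (nat_lit 76) (nat_lit 938139301) (nat_lit 135) (nat_lit 5) (nat_lit 140) (nat_lit 5) (nat_lit 136) (nat_lit 5) (nat_lit 386) (nat_lit 355) (nat_lit 279)) (XT.lf (nat_lit 0) (nat_lit 10277059083) (nat_lit 304) (nat_lit 7113668764) (nat_lit 380) (nat_lit 3314377036) (nat_lit 131) (nat_lit 5) (nat_lit 135) (nat_lit 5) (nat_lit 136) (nat_lit 5) (nat_lit 387) (nat_lit 355) (nat_lit 278)))) (XT.nd (nat_lit 156) (nat_lit 608) (nat_lit 0) (XT.nd (nat_lit 78) (nat_lit 304) (nat_lit 0) (XT.lf (nat_lit 0) (nat_lit 3970963347) (nat_lit 380) (nat_lit 11735356040) (nat_lit 76) (nat_lit 5634704627) (nat_lit 126) (nat_lit 5) (nat_lit 131) (nat_lit 5) (nat_lit 127) (nat_lit 5) (nat_lit 388) (nat_lit 355) (nat_lit 277)) (XT.lf (nat_lit 0) (nat_lit 8877402488) (nat_lit 304) (nat_lit 2912116634) (nat_lit 380) (nat_lit 10211116141) (nat_lit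 122) (nat_lit 5) (nat_lit 126) (nat_lit 5) (nat_lit 127) (nat_lit 5) (nat_lit 389) (nat_lit 355) (nat_lit 276))) (XT.nd (nat_lit 78) (nat_lit 380) (nat_lit 0) (XT.lf (nat_lit 0) (nat_lit 8089501287) (nat_lit 228) (nat_lit 12182548028) (nat_lit 304) (nat_lit 2412991572) (nat_lit 119) (nat_lit 5) (nat_lit 122) (nat_lit 5) (nat_lit 123) (nat_lit 5) (nat_lit 390) (nat_lit 355) (nat_lit 275)) (XT.lf (nat_lit 0) (nat_lit 5883939740) (nat_lit 380) (nat_lit 16158056553) (nat_lit 76) (nat_lit 1353362152) (nat_lit 114) (nat_lit 5) (nat_lit 119) (nat_lit 5) (nat_lit 115) (nat_lit 5) (nat_lit 391) (nat_lit 355) (nat_lit 274))))))) (XT.nd (nat_lit 936) (nat_lit 2052) (nat_lit 0) (XT.nd (nat_lit 468) (nat_lit 1292) (nat_lit 0) (XT.nd (nat_lit 234) (nat_lit 532) (nat_lit 0) (XT.nd (nat_lit 78) (nat_lit 532) (nat_lit 0) (XT.lf (nat_lit 0) (nat_lit 6262265868) (nat_lit 228) (nat_lit 8592474035) (nat_lit 304)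 (nat_lit 9276472037) (nat_lit 111) (nat_lit 5) (nat_lit 114) (nat_lit 5) (nat_lit 115) (nat_lit 5) (nat_lit 392) (nat_lit 355) (nat_lit 273)) (XT.nd (nat_lit 78) (nat_lit 304) (nat_lit 0) (XT.lf (nat_lit 0) (nat_lit 5249341441) (nat_lit 228) (nat_lit 19270634570) (nat_lit 304) (nat_lit 376509592) (nat_lit 108) (nat_lit 5) (nat_lit 111) (nat_lit 5) (nat_lit 112) (nat_lit 5) (nat_lit 393) (nat_lit 355) (nat_lit 272)) (XT.lf (nat_lit 0) (nat_lit 4067030492) (nat_lit 228) (nat_lit 5012897406) (nat_lit 304) (nat_lit 16608918272) (nat_lit 104) (nat_lit 5) (nat_lit 107) (nat_lit 5) (nat_lit 108) (nat_lit 5) (nat_lit 394) (nat_lit 355) (nat_lit 271)))) (XT.nd (nat_lit 78) (nat_lit 304) (nat_lit 0) (XT.lf (nat_lit 0) (nat_lit 2775903089) (nat_lit 228) (nat_lit 16527803852) (nat_lit 304) (nat_lit 7207940646) (nat_lit 101) (nat_lit 5) (nat_lit 104) (nat_lit 5) (nat_lit 105) (nat_lit 5) (nat_lit 395) (nat_lit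 355) (nat_lit 270)) (XT.nd (nat_lit 78) (nat_lit 0) (nat_lit 0) (XT.lf (nat_lit 0) (nat_lit 1386266414) (nat_lit 228) (nat_lit 1489691404) (nat_lit 304) (nat_lit 24490921689) (nat_lit 97) (nat_lit 5) (nat_lit 100) (nat_lit 5) (nat_lit 101) (nat_lit 5) (nat_lit 396) (nat_lit 355) (nat_lit 269)) (XT.lf (nat_lit 0) (nat_lit 13677355559) (nat_lit 304) (nat_lit 248048704) (nat_lit 76) (nat_lit 14326459908) (nat_lit 97) (nat_lit 5) (nat_lit 101) (nat_lit 5) (nat_lit 98) (nat_lit 5) (nat_lit 397) (nat_lit 355) (nat_lit 268))))) (XT.nd (nat_lit 234) (nat_lit 608) (nat_lit 0) (XT.nd (nat_lit 78) (nat_lit 456) (nat_lit 0) (XT.lf (nat_lit 0) (nat_lit 25292702883) (nat_lit 304) (nat_lit 1941019704) (nat_lit 76) (nat_lit 1939162318) (nat_lit 94) (nat_lit 5) (nat_lit 98) (nat_lit 5) (nat_lit 95) (nat_lit 5) (nat_lit 398) (nat_lit 355) (nat_lit 267)) (XT.nd (nat_lit 78) (nat_lit 228) (nat_lit 0) (XT.lf (nat_lit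 0) (nat_lit 7583438112) (nat_lit 228) (nat_lit 3915515040) (nat_lit 76) (nat_lit 18627547858) (nat_lit 91) (nat_lit 5) (nat_lit 94) (nat_lit 5) (nat_lit 92) (nat_lit 5) (nat_lit 399) (nat_lit 355) (nat_lit 266)) (XT.lf (nat_lit 0) (nat_lit 19832238427) (nat_lit 304) (nat_lit 6071461559) (nat_lit 76) (nat_lit 5214180829) (nat_lit 88) (nat_lit 5) (nat_lit 92) (nat_lit 5) (nat_lit 89) (nat_lit 5) (nat_lit 400) (nat_lit 355) (nat_lit 265)))) (XT.nd (nat_lit 78) (nat_lit 380) (nat_lit 0) (XT.lf (nat_lit 0) (nat_lit 891799743) (nat_lit 228) (nat_lit 8464916835) (nat_lit 76) (nat_lit 22790933973) (nat_lit 85) (nat_lit 5) (nat_lit 88) (nat_lit 5) (nat_lit 86) (nat_lit 5) (nat_lit 401) (nat_lit 355) (nat_lit 264)) (XT.nd (nat_lit 78) (nat_lit 152) (nat_lit 0) (XT.lf (nat_lit 0) (nat_lit 13783226438) (nat_lit 304) (nat_lit 11191444391) (nat_lit 76) (nat_lit 8240732770) (nat_lit 82) (nat_lit 5) (nat_lit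 86) (nat_lit 5) (nat_lit 83) (nat_lit 5) (nat_lit 402) (nat_lit 355) (nat_lit 263)) (XT.lf (nat_lit 0) (nat_lit 20144384893) (nat_lit 152) (nat_lit 7531354275) (nat_lit 228) (nat_lit 6650112075) (nat_lit 80) (nat_lit 5) (nat_lit 82) (nat_lit 5) (nat_lit 83) (nat_lit 5) (nat_lit 403) (nat_lit 355) (nat_lit 262)))))) (XT.nd (nat_lit 468) (nat_lit 912) (nat_lit 0) (XT.nd (nat_lit 234) (nat_lit 608) (nat_lit 0) (XT.nd (nat_lit 78) (nat_lit 304) (nat_lit 0) (XT.lf (nat_lit 0) (nat_lit 7016642943) (nat_lit 228) (nat_lit 17543445741) (nat_lit 76) (nat_lit 10918450733) (nat_lit 77) (nat_lit 5) (nat_lit 80) (nat_lit 5) (nat_lit 78) (nat_lit 5) (nat_lit 404) (nat_lit 355) (nat_lit 261)) (XT.nd (nat_lit 78) (nat_lit 152) (nat_lit 0) (XT.lf (nat_lit 0) (nat_lit 15392591005) (nat_lit 152) (nat_lit 6190631825) (nat_lit 228) (nat_lit 15093045340) (nat_lit 75) (nat_lit 5) (nat_lit 77) (nat_lit 5) (nat_lit 78)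 (nat_lit 5) (nat_lit 405) (nat_lit 355) (nat_lit 260)) (XT.lf (nat_lit 0) (nat_lit 12497735674) (nat_lit 152) (nat_lit 24790601798) (nat_lit 228) (nat_lit 633241714) (nat_lit 73) (nat_lit 5) (nat_lit 75) (nat_lit 5) (nat_lit 76) (nat_lit 5) (nat_lit 406) (nat_lit 355) (nat_lit 259)))) (XT.nd (nat_lit 78) (nat_lit 380) (nat_lit 0) (XT.lf (nat_lit 0) (nat_lit 9132639329) (nat_lit 152) (nat_lit 5486716558) (nat_lit 228) (nat_lit 24594994400) (nat_lit 70) (nat_lit 5) (nat_lit 72) (nat_lit 5) (nat_lit 73) (nat_lit 5) (nat_lit 407) (nat_lit 355) (nat_lit 258)) (XT.nd (nat_lit 78) (nat_lit 228) (nat_lit 0) (XT.lf (nat_lit 0) (nat_lit 5305825374) (nat_lit 152) (nat_lit 25755797530) (nat_lit 228) (nat_lit 9496746630) (nat_lit 68) (nat_lit 5) (nat_lit 70) (nat_lit 5) (nat_lit 71) (nat_lit 5) (nat_lit 408) (nat_lit 355) (nat_lit 257)) (XT.lf (nat_lit 0) (nat_lit 1000632319) (nat_lit 152) (nat_lit 5592450482)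 (nat_lit 228) (nat_lit 35363854344) (nat_lit 65) (nat_lit 5) (nat_lit 67) (nat_lit 5) (nat_lit 68) (nat_lit 5) (nat_lit 409) (nat_lit 355) (nat_lit 256))))) (XT.nd (nat_lit 234) (nat_lit 532) (nat_lit 0) (XT.nd (nat_lit 78) (nat_lit 380) (nat_lit 0) (XT.lf (nat_lit 0) (nat_lit 23792443576) (nat_lit 228) (nat_lit 3890510350) (nat_lit 76) (nat_lit 15724616531) (nat_lit 65) (nat_lit 5) (nat_lit 68) (nat_lit 5) (nat_lit 66) (nat_lit 5) (nat_lit 410) (nat_lit 355) (nat_lit 255)) (XT.nd (nat_lit 78) (nat_lit 228) (nat_lit 0) (XT.lf (nat_lit 0) (nat_lit 35639094346) (nat_lit 152) (nat_lit 6595879302) (nat_lit 228) (nat_lit 2684267226) (nat_lit 63) (nat_lit 5) (nat_lit 65) (nat_lit 5) (nat_lit 66) (nat_lit 5) (nat_lit 411) (nat_lit 355) (nat_lit 254)) (XT.lf (nat_lit 0) (nat_lit 15277168074) (nat_lit 228) (nat_lit 15490835070) (nat_lit 76) (nat_lit 15719783876) (nat_lit 60) (nat_lit 5) (nat_lit 63) (nat_lit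 5) (nat_lit 61) (nat_lit 5) (nat_lit 412) (nat_lit 355) (nat_lit 253)))) (XT.nd (nat_lit 156) (nat_lit 228) (nat_lit 0) (XT.nd (nat_lit 78) (nat_lit 152) (nat_lit 0) (XT.lf (nat_lit 0) (nat_lit 25729901874) (nat_lit 152) (nat_lit 8747021626) (nat_lit 228) (nat_lit 13645168072) (nat_lit 58) (nat_lit 5) (nat_lit 60) (nat_lit 5) (nat_lit 61) (nat_lit 5) (nat_lit 413) (nat_lit 355) (nat_lit 252)) (XT.lf (nat_lit 0) (nat_lit 5183609155) (nat_lit 152) (nat_lit 30154646118) (nat_lit 76) (nat_lit 14484112756) (nat_lit 56) (nat_lit 5) (nat_lit 58) (nat_lit 5) (nat_lit 57) (nat_lit 5) (nat_lit 414) (nat_lit 355) (nat_lit 251))) (XT.nd (nat_lit 78) (nat_lit 76) (nat_lit 0) (XT.lf (nat_lit 0) (nat_lit 12690606015) (nat_lit 152) (nat_lit 12412226847) (nat_lit 228) (nat_lit 26487837252) (nat_lit 54) (nat_lit 5) (nat_lit 56) (nat_lit 5) (nat_lit 57) (nat_lit 5) (nat_lit 415) (nat_lit 355) (nat_lit 250)) (XT.lf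 (nat_lit 0) (nat_lit 4823040592) (nat_lit 76) (nat_lit 41652762093) (nat_lit 152) (nat_lit 6957852161) (nat_lit 53) (nat_lit 5) (nat_lit 54) (nat_lit 5) (nat_lit 55) (nat_lit 4) (nat_lit 416) (nat_lit 355) (nat_lit 249))))))))
noncomputable def xc76 : XT := (XT.nd (nat_lit 48906) (nat_lit 0) (nat_lit 8132) (XT.nd (nat_lit 936) (nat_lit 532) (nat_lit 0) (XT.nd (nat_lit 468) (nat_lit 684) (nat_lit 0) (XT.nd (nat_lit 234) (nat_lit 304) (nat_lit 0) (XT.nd (nat_lit 78) (nat_lit 304) (nat_lit 0) (XT.lf (nat_lit 0) (nat_lit 13800078960) (nat_lit 152) (nat_lit 4096694863) (nat_lit 76) (nat_lit 37452633985) (nat_lit 52) (nat_lit 5) (nat_lit 54) (nat_lit 5) (nat_lit 53) (nat_lit 5) (nat_lit 417) (nat_lit 355) (nat_lit 248)) (XT.nd (nat_lit 78) (nat_lit 152) (nat_lit 0) (XT.lf (nat_lit 0) (nat_lit 35929746059) (nat_lit 228) (nat_lit 14024108610) (nat_lit 76) (nat_lit 7390695869) (nat_lit 50) (nat_lit 5)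 (nat_lit 53) (nat_lit 5) (nat_lit 51) (nat_lit 4) (nat_lit 418) (nat_lit 355) (nat_lit 247)) (XT.lf (nat_lit 0) (nat_lit 276376326) (nat_lit 152) (nat_lit 25207445147) (nat_lit 76) (nat_lit 33939370939) (nat_lit 48) (nat_lit 5) (nat_lit 50) (nat_lit 5) (nat_lit 49) (nat_lit 5) (nat_lit 419) (nat_lit 355) (nat_lit 246)))) (XT.nd (nat_lit 78) (nat_lit 152) (nat_lit 0) (XT.lf (nat_lit 0) (nat_lit 22982868181) (nat_lit 228) (nat_lit 37814021570) (nat_lit 76) (nat_lit 791307350) (nat_lit 46) (nat_lit 5) (nat_lit 49) (nat_lit 5) (nat_lit 47) (nat_lit 4) (nat_lit 420) (nat_lit 355) (nat_lit 245)) (XT.nd (nat_lit 78) (nat_lit 76) (nat_lit 0) (XT.lf (nat_lit 0) (nat_lit 11825802284) (nat_lit 76) (nat_lit 35619474881) (nat_lit 152) (nat_lit 16397557890) (nat_lit 45) (nat_lit 5) (nat_lit 46) (nat_lit 5) (nat_lit 47) (nat_lit 4) (nat_lit 421) (nat_lit 355) (nat_lit 244)) (XT.lf (nat_lit 0) (nat_lit 7166568440)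 (nat_lit 152) (nat_lit 1553814539) (nat_lit 76) (nat_lit 57476396542) (nat_lit 44) (nat_lit 5) (nat_lit 46) (nat_lit 5) (nat_lit 45) (nat_lit 5) (nat_lit 422) (nat_lit 355) (nat_lit 243))))) (XT.nd (nat_lit 234) (nat_lit 228) (nat_lit 0) (XT.nd (nat_lit 78) (nat_lit 304) (nat_lit 0) (XT.lf (nat_lit 0) (nat_lit 32257994943) (nat_lit 228) (nat_lit 16577620472) (nat_lit 76) (nat_lit 19807289328) (nat_lit 42) (nat_lit 5) (nat_lit 45) (nat_lit 5) (nat_lit 43) (nat_lit 4) (nat_lit 423) (nat_lit 355) (nat_lit 242)) (XT.nd (nat_lit 78) (nat_lit 228) (nat_lit 0) (XT.lf (nat_lit 0) (nat_lit 37815425398) (nat_lit 76) (nat_lit 21244967908) (nat_lit 152) (nat_lit 12137251579) (nat_lit 41) (nat_lit 5) (nat_lit 42) (nat_lit 5) (nat_lit 43) (nat_lit 4) (nat_lit 424) (nat_lit 355) (nat_lit 241)) (XT.lf (nat_lit 0) (nat_lit 13511634596) (nat_lit 228) (nat_lit 52272587938) (nat_lit 76) (nat_lit 8078593501) (nat_lit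 38) (nat_lit 5) (nat_lit 41) (nat_lit 5) (nat_lit 39) (nat_lit 4) (nat_lit 425) (nat_lit 355) (nat_lit 240)))) (XT.nd (nat_lit 78) (nat_lit 152) (nat_lit 0) (XT.lf (nat_lit 0) (nat_lit 3056754041) (nat_lit 76) (nat_lit 37717577954) (nat_lit 152) (nat_lit 35865837701) (nat_lit 37) (nat_lit 5) (nat_lit 38) (nat_lit 5) (nat_lit 39) (nat_lit 4) (nat_lit 426) (nat_lit 355) (nat_lit 239)) (XT.nd (nat_lit 78) (nat_lit 152) (nat_lit 0) (XT.lf (nat_lit 0) (nat_lit 62224985579) (nat_lit 76) (nat_lit 7702795563) (nat_lit 152) (nat_lit 9612781960) (nat_lit 37) (nat_lit 5) (nat_lit 38) (nat_lit 5) (nat_lit 39) (nat_lit 4) (nat_lit 427) (nat_lit 355) (nat_lit 238)) (XT.lf (nat_lit 0) (nat_lit 18234663423) (nat_lit 152) (nat_lit 40402126894) (nat_lit 76) (nat_lit 23925047254) (nat_lit 35) (nat_lit 5) (nat_lit 37) (nat_lit 5) (nat_lit 36) (nat_lit 4) (nat_lit 428) (nat_lit 355) (nat_lit 237)))))) (XT.nd (nat_lit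 47424) (nat_lit 0) (nat_lit 18924) (XT.nd (nat_lit 234) (nat_lit 304) (nat_lit 0) (XT.nd (nat_lit 78) (nat_lit 152) (nat_lit 0) (XT.lf (nat_lit 0) (nat_lit 19425472550) (nat_lit 76) (nat_lit 28286671344) (nat_lit 152) (nat_lit 38006082992) (nat_lit 34) (nat_lit 5) (nat_lit 35) (nat_lit 5) (nat_lit 36) (nat_lit 4) (nat_lit 429) (nat_lit 355) (nat_lit 236)) (XT.nd (nat_lit 78) (nat_lit 152) (nat_lit 0) (XT.lf (nat_lit 0) (nat_lit 79108285707) (nat_lit 152) (nat_lit 5988257995) (nat_lit 0) (nat_lit 3922548818) (nat_lit 34) (nat_lit 5) (nat_lit 36) (nat_lit 4) (nat_lit 34) (nat_lit 4) (nat_lit 430) (nat_lit 355) (nat_lit 235)) (XT.lf (nat_lit 0) (nat_lit 20050655984) (nat_lit 152) (nat_lit 34493195983) (nat_lit 76) (nat_lit 37910190418) (nat_lit 32) (nat_lit 5) (nat_lit 34) (nat_lit 5) (nat_lit 33) (nat_lit 4) (nat_lit 431) (nat_lit 355) (nat_lit 234)))) (XT.nd (nat_lit 78) (nat_lit 228) (nat_lit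 0) (XT.lf (nat_lit 0) (nat_lit 29633984955) (nat_lit 76) (nat_lit 22011243269) (nat_lit 152) (nat_lit 44402367926) (nat_lit 31) (nat_lit 5) (nat_lit 32) (nat_lit 5) (nat_lit 33) (nat_lit 4) (nat_lit 432) (nat_lit 355) (nat_lit 233)) (XT.nd (nat_lit 156) (nat_lit 228) (nat_lit 0) (XT.lf (nat_lit 0) (nat_lit 85286073471) (nat_lit 152) (nat_lit 2259114193) (nat_lit 0) (nat_lit 12261644005) (nat_lit 31) (nat_lit 5) (nat_lit 33) (nat_lit 4) (nat_lit 31) (nat_lit 4) (nat_lit 433) (nat_lit 355) (nat_lit 232)) (XT.lf (nat_lit 0) (nat_lit 30271499334) (nat_lit 76) (nat_lit 20621495268) (nat_lit 152) (nat_lit 56929270946) (nat_lit 28) (nat_lit 5) (nat_lit 29) (nat_lit 5) (nat_lit 30) (nat_lit 4) (nat_lit 435) (nat_lit 355) (nat_lit 230))))) (XT.nd (nat_lit 234) (nat_lit 912) (nat_lit 0) (XT.nd (nat_lit 78) (nat_lit 0) (nat_lit 76) (XT.lf (nat_lit 0) (nat_lit 1368189953) (nat_lit 1140) (nat_lit 1674300215)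 (nat_lit 1140) (nat_lit 1674300215) (nat_lit 289) (nat_lit 3) (nat_lit 304) (nat_lit 3) (nat_lit 304) (nat_lit 5) (nat_lit 356) (nat_lit 356) (nat_lit 308)) (XT.nd (nat_lit 78) (nat_lit 0) (nat_lit 0) (XT.lf (nat_lit 0) (nat_lit 4157786355) (nat_lit 1064) (nat_lit 5247955128) (nat_lit 1140) (nat_lit 222620883) (nat_lit 290) (nat_lit 5) (nat_lit 304) (nat_lit 5) (nat_lit 305) (nat_lit 5) (nat_lit 357) (nat_lit 356) (nat_lit 307)) (XT.lf (nat_lit 76) (nat_lit 2677523280) (nat_lit 0) (nat_lit 3010898082) (nat_lit 1140) (nat_lit 4143346892) (nat_lit 291) (nat_lit 5) (nat_lit 290) (nat_lit 5) (nat_lit 305) (nat_lit 5) (nat_lit 358) (nat_lit 356) (nat_lit 306)))) (XT.nd (nat_lit 156) (nat_lit 1064) (nat_lit 0) (XT.nd (nat_lit 78) (nat_lit 0) (nat_lit 76) (XT.lf (nat_lit 76) (nat_lit 1000217716) (nat_lit 0) (nat_lit 6315221524) (nat_lit 1140) (nat_lit 2729338196) (nat_lit 292) (nat_lit 5) (nat_lit 291)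 (nat_lit 5) (nat_lit 306) (nat_lit 5) (nat_lit 359) (nat_lit 356) (nat_lit 305)) (XT.lf (nat_lit 0) (nat_lit 9056580511) (nat_lit 1064) (nat_lit 639336052) (nat_lit 1140) (nat_lit 571564512) (nat_lit 292) (nat_lit 5) (nat_lit 306) (nat_lit 5) (nat_lit 307) (nat_lit 5) (nat_lit 360) (nat_lit 356) (nat_lit 304))) (XT.nd (nat_lit 78) (nat_lit 0) (nat_lit 76) (XT.lf (nat_lit 0) (nat_lit 446903295) (nat_lit 1140) (nat_lit 2267741548) (nat_lit 1216) (nat_lit 7784461787) (nat_lit 277) (nat_lit 5) (nat_lit 292) (nat_lit 5) (nat_lit 293) (nat_lit 5) (nat_lit 361) (nat_lit 356) (nat_lit 303)) (XT.lf (nat_lit 0) (nat_lit 2210766318) (nat_lit 1140) (nat_lit 3895597737) (nat_lit 1216) (nat_lit 4634167297) (nat_lit 278) (nat_lit 5) (nat_lit 293) (nat_lit 5) (nat_lit 294) (nat_lit 5) (nat_lit 362) (nat_lit 356) (nat_lit 302))))))) (XT.nd (nat_lit 936) (nat_lit 5168) (nat_lit 0) (XT.nd (nat_lit 468) (nat_lit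 3496) (nat_lit 0) (XT.nd (nat_lit 234) (nat_lit 2280) (nat_lit 0) (XT.nd (nat_lit 78) (nat_lit 0) (nat_lit 0) (XT.lf (nat_lit 0) (nat_lit 4112873481) (nat_lit 1140) (nat_lit 5507636328) (nat_lit 1216) (nat_lit 1372038760) (nat_lit 279) (nat_lit 5) (nat_lit 294) (nat_lit 5) (nat_lit 295) (nat_lit 5) (nat_lit 363) (nat_lit 356) (nat_lit 301)) (XT.nd (nat_lit 78) (nat_lit 0) (nat_lit 76) (XT.lf (nat_lit 76) (nat_lit 4129490222) (nat_lit 0) (nat_lit 2058110955) (nat_lit 1216) (nat_lit 5067261720) (nat_lit 280) (nat_lit 5) (nat_lit 279) (nat_lit 5) (nat_lit 295) (nat_lit 5) (nat_lit 364) (nat_lit 356) (nat_lit 300)) (XT.lf (nat_lit 76) (nat_lit 2782610166) (nat_lit 0) (nat_lit 5662435836) (nat_lit 1216) (nat_lit 3082898187) (nat_lit 281) (nat_lit 5) (nat_lit 280) (nat_lit 5) (nat_lit 296) (nat_lit 5) (nat_lit 365) (nat_lit 356) (nat_lit 299)))) (XT.nd (nat_lit 78) (nat_lit 1292) (nat_lit 0) (XT.lf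 (nat_lit 0) (nat_lit 1457130156) (nat_lit 1140) (nat_lit 9430275605) (nat_lit 1216) (nat_lit 925132191) (nat_lit 266) (nat_lit 5) (nat_lit 281) (nat_lit 5) (nat_lit 282) (nat_lit 5) (nat_lit 366) (nat_lit 356) (nat_lit 298)) (XT.nd (nat_lit 78) (nat_lit 0) (nat_lit 0) (XT.lf (nat_lit 0) (nat_lit 125572426) (nat_lit 1216) (nat_lit 1280834655) (nat_lit 1292) (nat_lit 10701824647) (nat_lit 249) (nat_lit 5) (nat_lit 265) (nat_lit 5) (nat_lit 266) (nat_lit 5) (nat_lit 367) (nat_lit 356) (nat_lit 297)) (XT.lf (nat_lit 0) (nat_lit 3958257138) (nat_lit 1292) (nat_lit 1198909190) (nat_lit 76) (nat_lit 7257600399) (nat_lit 249) (nat_lit 5) (nat_lit 266) (nat_lit 5) (nat_lit 250) (nat_lit 5) (nat_lit 368) (nat_lit 356) (nat_lit 296))))) (XT.nd (nat_lit 234) (nat_lit 1596) (nat_lit 0) (XT.nd (nat_lit 78) (nat_lit 1216) (nat_lit 0) (XT.lf (nat_lit 0) (nat_lit 6731280334) (nat_lit 760) (nat_lit 2505446237)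 (nat_lit 76) (nat_lit 3497110997) (nat_lit 240) (nat_lit 5) (nat_lit 250) (nat_lit 5) (nat_lit 241) (nat_lit 5) (nat_lit 369) (nat_lit 356) (nat_lit 295)) (XT.nd (nat_lit 78) (nat_lit 608) (nat_lit 0) (XT.lf (nat_lit 0) (nat_lit 9264353442) (nat_lit 608) (nat_lit 481961621) (nat_lit 684) (nat_lit 3319461801) (nat_lit 232) (nat_lit 5) (nat_lit 240) (nat_lit 5) (nat_lit 241) (nat_lit 5) (nat_lit 370) (nat_lit 356) (nat_lit 294)) (XT.lf (nat_lit 0) (nat_lit 8291287315) (nat_lit 608) (nat_lit 4762043210) (nat_lit 684) (nat_lit 356760705) (nat_lit 224) (nat_lit 5) (nat_lit 232) (nat_lit 5) (nat_lit 233) (nat_lit 5) (nat_lit 371) (nat_lit 356) (nat_lit 293)))) (XT.nd (nat_lit 78) (nat_lit 988) (nat_lit 0) (XT.lf (nat_lit 0) (nat_lit 2812766984) (nat_lit 608) (nat_lit 6450939602) (nat_lit 76) (nat_lit 4503761357) (nat_lit 216) (nat_lit 5) (nat_lit 224) (nat_lit 5) (nat_lit 217) (nat_lit 5) (nat_lit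 372) (nat_lit 356) (nat_lit 292)) (XT.nd (nat_lit 78) (nat_lit 456) (nat_lit 0) (XT.lf (nat_lit 0) (nat_lit 6251906051) (nat_lit 608) (nat_lit 7776269591) (nat_lit 76) (nat_lit 110889668) (nat_lit 209) (nat_lit 5) (nat_lit 217) (nat_lit 5) (nat_lit 210) (nat_lit 5) (nat_lit 373) (nat_lit 356) (nat_lit 291)) (XT.lf (nat_lit 0) (nat_lit 5388292204) (nat_lit 456) (nat_lit 4643651222) (nat_lit 532) (nat_lit 4492243437) (nat_lit 203) (nat_lit 5) (nat_lit 209) (nat_lit 5) (nat_lit 210) (nat_lit 5) (nat_lit 374) (nat_lit 356) (nat_lit 290)))))) (XT.nd (nat_lit 468) (nat_lit 2660) (nat_lit 0) (XT.nd (nat_lit 234) (nat_lit 988) (nat_lit 0) (XT.nd (nat_lit 78) (nat_lit 988) (nat_lit 0) (XT.lf (nat_lit 0) (nat_lit 4435771601) (nat_lit 532) (nat_lit 9696939151) (nat_lit 608) (nat_lit 791913862) (nat_lit 196) (nat_lit 5) (nat_lit 203) (nat_lit 5) (nat_lit 204) (nat_lit 5) (nat_lit 375) (nat_lit 356) (nat_lit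 289)) (XT.nd (nat_lit 78) (nat_lit 456) (nat_lit 0) (XT.lf (nat_lit 0) (nat_lit 3170638677) (nat_lit 532) (nat_lit 11864939037) (nat_lit 76) (nat_lit 304498405) (nat_lit 189) (nat_lit 5) (nat_lit 196) (nat_lit 5) (nat_lit 190) (nat_lit 5) (nat_lit 376) (nat_lit 356) (nat_lit 288)) (XT.lf (nat_lit 0) (nat_lit 2478296394) (nat_lit 456) (nat_lit 5028280395) (nat_lit 532) (nat_lit 8263749644) (nat_lit 183) (nat_lit 5) (nat_lit 189) (nat_lit 5) (nat_lit 190) (nat_lit 5) (nat_lit 377) (nat_lit 356) (nat_lit 287)))) (XT.nd (nat_lit 78) (nat_lit 532) (nat_lit 0) (XT.lf (nat_lit 0) (nat_lit 1497228225) (nat_lit 456) (nat_lit 10714603114) (nat_lit 532) (nat_lit 4005692371) (nat_lit 177) (nat_lit 5) (nat_lit 183) (nat_lit 5) (nat_lit 184) (nat_lit 5) (nat_lit 378) (nat_lit 356) (nat_lit 286)) (XT.nd (nat_lit 78) (nat_lit 0) (nat_lit 0) (XT.lf (nat_lit 0) (nat_lit 528742372) (nat_lit 456) (nat_lit 84573734)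 (nat_lit 532) (nat_lit 16068926024) (nat_lit 170) (nat_lit 5) (nat_lit 176) (nat_lit 5) (nat_lit 177) (nat_lit 5) (nat_lit 379) (nat_lit 356) (nat_lit 285)) (XT.lf (nat_lit 0) (nat_lit 5605065706) (nat_lit 532) (nat_lit 511630500) (nat_lit 76) (nat_lit 11045580254) (nat_lit 170) (nat_lit 5) (nat_lit 177) (nat_lit 5) (nat_lit 171) (nat_lit 5) (nat_lit 380) (nat_lit 356) (nat_lit 284))))) (XT.nd (nat_lit 234) (nat_lit 1444) (nat_lit 0) (XT.nd (nat_lit 78) (nat_lit 836) (nat_lit 0) (XT.lf (nat_lit 0) (nat_lit 11019009219) (nat_lit 456) (nat_lit 1528741732) (nat_lit 76) (nat_lit 5113391776) (nat_lit 165) (nat_lit 5) (nat_lit 171) (nat_lit 5) (nat_lit 166) (nat_lit 5) (nat_lit 381) (nat_lit 356) (nat_lit 283)) (XT.nd (nat_lit 78) (nat_lit 456) (nat_lit 0) (XT.lf (nat_lit 0) (nat_lit 15634923180) (nat_lit 380) (nat_lit 1253249702) (nat_lit 456) (nat_lit 1291251748) (nat_lit 160) (nat_lit 5) (nat_lit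 165) (nat_lit 5) (nat_lit 166) (nat_lit 5) (nat_lit 382) (nat_lit 356) (nat_lit 282)) (XT.lf (nat_lit 0) (nat_lit 4476406393) (nat_lit 456) (nat_lit 3644689076) (nat_lit 76) (nat_lit 10594274575) (nat_lit 154) (nat_lit 5) (nat_lit 160) (nat_lit 5) (nat_lit 155) (nat_lit 5) (nat_lit 383) (nat_lit 356) (nat_lit 281)))) (XT.nd (nat_lit 156) (nat_lit 760) (nat_lit 0) (XT.nd (nat_lit 78) (nat_lit 304) (nat_lit 0) (XT.lf (nat_lit 0) (nat_lit 10691617885) (nat_lit 456) (nat_lit 4752147708) (nat_lit 76) (nat_lit 3828394386) (nat_lit 149) (nat_lit 5) (nat_lit 155) (nat_lit 5) (nat_lit 150) (nat_lit 5) (nat_lit 384) (nat_lit 356) (nat_lit 280)) (XT.lf (nat_lit 0) (nat_lit 13962014534) (nat_lit 304) (nat_lit 3479668267) (nat_lit 380) (nat_lit 2408390545) (nat_lit 145) (nat_lit 5) (nat_lit 149) (nat_lit 5) (nat_lit 150) (nat_lit 5) (nat_lit 385) (nat_lit 356) (nat_lit 279))) (XT.nd (nat_lit 78) (nat_lit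 304) (nat_lit 0) (XT.lf (nat_lit 0) (nat_lit 4231594809) (nat_lit 456) (nat_lit 7103167136) (nat_lit 76) (nat_lit 9113791482) (nat_lit 139) (nat_lit 5) (nat_lit 145) (nat_lit 5) (nat_lit 140) (nat_lit 5) (nat_lit 386) (nat_lit 356) (nat_lit 278)) (XT.lf (nat_lit 0) (nat_lit 11358043573) (nat_lit 380) (nat_lit 8347496717) (nat_lit 76) (nat_lit 1364579576) (nat_lit 135) (nat_lit 5) (nat_lit 140) (nat_lit 5) (nat_lit 136) (nat_lit 5) (nat_lit 387) (nat_lit 356) (nat_lit 277))))))))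
noncomputable def xc77 : XT := (XT.nd (nat_lit 1950) (nat_lit 2584) (nat_lit 0) (XT.nd (nat_lit 936) (nat_lit 2356) (nat_lit 0) (XT.nd (nat_lit 468) (nat_lit 1292) (nat_lit 0) (XT.nd (nat_lit 234) (nat_lit 836) (nat_lit 0) (XT.nd (nat_lit 78) (nat_lit 684) (nat_lit 0) (XT.lf (nat_lit 0) (nat_lit 12047469981) (nat_lit 304) (nat_lit 7069925810) (nat_lit 380) (nat_lit 2597077042) (nat_lit 131) (nat_lit 5) (nat_lit 135) (nat_lit 5) (nat_lit 136) (nat_lit 5) (nat_lit 388) (nat_lit 356) (nat_lit 276)) (XT.nd (nat_lit 78) (nat_lit 304) (nat_lit 0) (XT.lf (nat_lit 0) (nat_lit 5009821016) (nat_lit 380) (nat_lit 11063285021) (nat_lit 76) (nat_lit 6309599610) (nat_lit 126) (nat_lit 5) (nat_lit 131) (nat_lit 5) (nat_lit 127) (nat_lit 5) (nat_lit 389) (nat_lit 356) (nat_lit 275)) (XT.lf (nat_lit 0) (nat_lit 10544027071) (nat_lit 304) (nat_lit 2647016634) (nat_lit 380) (nat_lit 9885109213) (nat_lit 122) (nat_lit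 5) (nat_lit 126) (nat_lit 5) (nat_lit 127) (nat_lit 5) (nat_lit 390) (nat_lit 356) (nat_lit 274)))) (XT.nd (nat_lit 78) (nat_lit 608) (nat_lit 0) (XT.lf (nat_lit 0) (nat_lit 9701657428) (nat_lit 228) (nat_lit 12372742924) (nat_lit 304) (nat_lit 1721084740) (nat_lit 119) (nat_lit 5) (nat_lit 122) (nat_lit 5) (nat_lit 123) (nat_lit 5) (nat_lit 391) (nat_lit 356) (nat_lit 273)) (XT.nd (nat_lit 78) (nat_lit 228) (nat_lit 0) (XT.lf (nat_lit 0) (nat_lit 6952346730) (nat_lit 380) (nat_lit 15758139726) (nat_lit 76) (nat_lit 1831279185) (nat_lit 114) (nat_lit 5) (nat_lit 119) (nat_lit 5) (nat_lit 115) (nat_lit 5) (nat_lit 392) (nat_lit 356) (nat_lit 272)) (XT.lf (nat_lit 0) (nat_lit 7748576908) (nat_lit 228) (nat_lit 8597520345) (nat_lit 304) (nat_lit 8969088649) (nat_lit 111) (nat_lit 5) (nat_lit 114) (nat_lit 5) (nat_lit 115) (nat_lit 5) (nat_lit 393) (nat_lit 356) (nat_lit 271))))) (XT.nd (nat_lit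 234) (nat_lit 532) (nat_lit 0) (XT.nd (nat_lit 78) (nat_lit 456) (nat_lit 0) (XT.lf (nat_lit 0) (nat_lit 347692396) (nat_lit 304) (nat_lit 19453405464) (nat_lit 76) (nat_lit 6318148259) (nat_lit 107) (nat_lit 5) (nat_lit 111) (nat_lit 5) (nat_lit 108) (nat_lit 5) (nat_lit 394) (nat_lit 356) (nat_lit 270)) (XT.nd (nat_lit 78) (nat_lit 228) (nat_lit 0) (XT.lf (nat_lit 0) (nat_lit 5409074099) (nat_lit 228) (nat_lit 4836094149) (nat_lit 304) (nat_lit 16706670172) (nat_lit 104) (nat_lit 5) (nat_lit 107) (nat_lit 5) (nat_lit 108) (nat_lit 5) (nat_lit 395) (nat_lit 356) (nat_lit 269)) (XT.lf (nat_lit 0) (nat_lit 4037594030) (nat_lit 228) (nat_lit 16923380646) (nat_lit 304) (nat_lit 6855385448) (nat_lit 101) (nat_lit 5) (nat_lit 104) (nat_lit 5) (nat_lit 105) (nat_lit 5) (nat_lit 396) (nat_lit 356) (nat_lit 268)))) (XT.nd (nat_lit 78) (nat_lit 228) (nat_lit 0) (XT.lf (nat_lit 0) (nat_lit 2559902669)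 (nat_lit 228) (nat_lit 1136220815) (nat_lit 304) (nat_lit 25018709685) (nat_lit 97) (nat_lit 5) (nat_lit 100) (nat_lit 5) (nat_lit 101) (nat_lit 5) (nat_lit 397) (nat_lit 356) (nat_lit 267)) (XT.nd (nat_lit 78) (nat_lit 0) (nat_lit 0) (XT.lf (nat_lit 0) (nat_lit 822843093) (nat_lit 228) (nat_lit 14194367573) (nat_lit 304) (nat_lit 14627472541) (nat_lit 94) (nat_lit 5) (nat_lit 97) (nat_lit 5) (nat_lit 98) (nat_lit 5) (nat_lit 398) (nat_lit 356) (nat_lit 266)) (XT.lf (nat_lit 0) (nat_lit 27188455732) (nat_lit 304) (nat_lit 986455756) (nat_lit 76) (nat_lit 2437594082) (nat_lit 94) (nat_lit 5) (nat_lit 98) (nat_lit 5) (nat_lit 95) (nat_lit 5) (nat_lit 399) (nat_lit 356) (nat_lit 265)))))) (XT.nd (nat_lit 468) (nat_lit 1064) (nat_lit 0) (XT.nd (nat_lit 234) (nat_lit 608) (nat_lit 0) (XT.nd (nat_lit 78) (nat_lit 456) (nat_lit 0) (XT.lf (nat_lit 0) (nat_lit 8579625938) (nat_lit 228) (nat_lit 3077457099)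 (nat_lit 76) (nat_lit 19957149282) (nat_lit 91) (nat_lit 5) (nat_lit 94) (nat_lit 5) (nat_lit 92) (nat_lit 5) (nat_lit 400) (nat_lit 356) (nat_lit 264)) (XT.nd (nat_lit 78) (nat_lit 228) (nat_lit 0) (XT.lf (nat_lit 0) (nat_lit 21425049019) (nat_lit 304) (nat_lit 5356749150) (nat_lit 76) (nat_lit 5873861426) (nat_lit 88) (nat_lit 5) (nat_lit 92) (nat_lit 5) (nat_lit 89) (nat_lit 5) (nat_lit 401) (nat_lit 356) (nat_lit 263)) (XT.lf (nat_lit 0) (nat_lit 1524304891) (nat_lit 228) (nat_lit 7887292151) (nat_lit 76) (nat_lit 24325725257) (nat_lit 85) (nat_lit 5) (nat_lit 88) (nat_lit 5) (nat_lit 86) (nat_lit 5) (nat_lit 402) (nat_lit 356) (nat_lit 262)))) (XT.nd (nat_lit 78) (nat_lit 380) (nat_lit 0) (XT.lf (nat_lit 0) (nat_lit 15045525236) (nat_lit 304) (nat_lit 10765561153) (nat_lit 76) (nat_lit 9047823434) (nat_lit 82) (nat_lit 5) (nat_lit 86) (nat_lit 5) (nat_lit 83) (nat_lit 5) (nat_lit 403) (nat_lit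 356) (nat_lit 261)) (XT.nd (nat_lit 78) (nat_lit 228) (nat_lit 0) (XT.lf (nat_lit 0) (nat_lit 22108811712) (nat_lit 152) (nat_lit 7505760895) (nat_lit 228) (nat_lit 6410853298) (nat_lit 80) (nat_lit 5) (nat_lit 82) (nat_lit 5) (nat_lit 83) (nat_lit 5) (nat_lit 404) (nat_lit 356) (nat_lit 260)) (XT.lf (nat_lit 0) (nat_lit 7914252084) (nat_lit 228) (nat_lit 17467421508) (nat_lit 76) (nat_lit 11854327992) (nat_lit 77) (nat_lit 5) (nat_lit 80) (nat_lit 5) (nat_lit 78) (nat_lit 5) (nat_lit 405) (nat_lit 356) (nat_lit 259))))) (XT.nd (nat_lit 234) (nat_lit 532) (nat_lit 0) (XT.nd (nat_lit 78) (nat_lit 380) (nat_lit 0) (XT.lf (nat_lit 0) (nat_lit 17088093888) (nat_lit 152) (nat_lit 6103930138) (nat_lit 228) (nat_lit 15302109784) (nat_lit 75) (nat_lit 5) (nat_lit 77) (nat_lit 5) (nat_lit 78) (nat_lit 5) (nat_lit 406) (nat_lit 356) (nat_lit 258)) (XT.nd (nat_lit 78) (nat_lit 228) (nat_lit 0) (XT.lf (nat_lit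 0) (nat_lit 14033746788) (nat_lit 152) (nat_lit 25635812405) (nat_lit 228) (nat_lit 132539029) (nat_lit 73) (nat_lit 5) (nat_lit 75) (nat_lit 5) (nat_lit 76) (nat_lit 5) (nat_lit 407) (nat_lit 356) (nat_lit 257)) (XT.lf (nat_lit 0) (nat_lit 10484421605) (nat_lit 152) (nat_lit 5371627205) (nat_lit 228) (nat_lit 25303795663) (nat_lit 70) (nat_lit 5) (nat_lit 72) (nat_lit 5) (nat_lit 73) (nat_lit 5) (nat_lit 408) (nat_lit 356) (nat_lit 256)))) (XT.nd (nat_lit 156) (nat_lit 152) (nat_lit 0) (XT.nd (nat_lit 78) (nat_lit 228) (nat_lit 0) (XT.lf (nat_lit 0) (nat_lit 6451758513) (nat_lit 152) (nat_lit 26656618921) (nat_lit 228) (nat_lit 9463051257) (nat_lit 68) (nat_lit 5) (nat_lit 70) (nat_lit 5) (nat_lit 71) (nat_lit 5) (nat_lit 409) (nat_lit 356) (nat_lit 255)) (XT.lf (nat_lit 0) (nat_lit 1915747559) (nat_lit 152) (nat_lit 5490171190) (nat_lit 228) (nat_lit 36634324383) (nat_lit 65) (nat_lit 5) (nat_lit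 67) (nat_lit 5) (nat_lit 68) (nat_lit 5) (nat_lit 410) (nat_lit 356) (nat_lit 254))) (XT.nd (nat_lit 78) (nat_lit 152) (nat_lit 0) (XT.lf (nat_lit 0) (nat_lit 25445735166) (nat_lit 228) (nat_lit 3250794515) (nat_lit 76) (nat_lit 16867465963) (nat_lit 65) (nat_lit 5) (nat_lit 68) (nat_lit 5) (nat_lit 66) (nat_lit 5) (nat_lit 411) (nat_lit 356) (nat_lit 253)) (XT.lf (nat_lit 0) (nat_lit 38231377055) (nat_lit 152) (nat_lit 6564724559) (nat_lit 228) (nat_lit 2355578731) (nat_lit 63) (nat_lit 5) (nat_lit 65) (nat_lit 5) (nat_lit 66) (nat_lit 5) (nat_lit 412) (nat_lit 356) (nat_lit 252))))))) (XT.nd (nat_lit 936) (nat_lit 988) (nat_lit 0) (XT.nd (nat_lit 468) (nat_lit 760) (nat_lit 0) (XT.nd (nat_lit 234) (nat_lit 304) (nat_lit 0) (XT.nd (nat_lit 78) (nat_lit 304) (nat_lit 0) (XT.lf (nat_lit 0) (nat_lit 16484355592) (nat_lit 228) (nat_lit 15459650764) (nat_lit 76) (nat_lit 16854832052) (nat_lit 60)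 (nat_lit 5) (nat_lit 63) (nat_lit 5) (nat_lit 61) (nat_lit 5) (nat_lit 413) (nat_lit 356) (nat_lit 251)) (XT.nd (nat_lit 78) (nat_lit 152) (nat_lit 0) (XT.lf (nat_lit 0) (nat_lit 27799027052) (nat_lit 152) (nat_lit 8831483947) (nat_lit 228) (nat_lit 13884756637) (nat_lit 58) (nat_lit 5) (nat_lit 60) (nat_lit 5) (nat_lit 61) (nat_lit 5) (nat_lit 414) (nat_lit 356) (nat_lit 250)) (XT.lf (nat_lit 0) (nat_lit 5866885571) (nat_lit 152) (nat_lit 30884445414) (nat_lit 76) (nat_lit 15549399023) (nat_lit 56) (nat_lit 5) (nat_lit 58) (nat_lit 5) (nat_lit 57) (nat_lit 5) (nat_lit 415) (nat_lit 356) (nat_lit 249)))) (XT.nd (nat_lit 78) (nat_lit 152) (nat_lit 0) (XT.lf (nat_lit 0) (nat_lit 14080770031) (nat_lit 152) (nat_lit 12688369000) (nat_lit 228) (nat_lit 27388697707) (nat_lit 54) (nat_lit 5) (nat_lit 56) (nat_lit 5) (nat_lit 57) (nat_lit 5) (nat_lit 416) (nat_lit 356) (nat_lit 248)) (XT.nd (nat_lit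 78) (nat_lit 76) (nat_lit 0) (XT.lf (nat_lit 0) (nat_lit 5806962303) (nat_lit 76) (nat_lit 43394509306) (nat_lit 152) (nat_lit 6891779192) (nat_lit 53) (nat_lit 5) (nat_lit 54) (nat_lit 5) (nat_lit 55) (nat_lit 4) (nat_lit 417) (nat_lit 356) (nat_lit 247)) (XT.lf (nat_lit 0) (nat_lit 14876642544) (nat_lit 152) (nat_lit 3586408484) (nat_lit 76) (nat_lit 39642202251) (nat_lit 52) (nat_lit 5) (nat_lit 54) (nat_lit 5) (nat_lit 53) (nat_lit 5) (nat_lit 418) (nat_lit 356) (nat_lit 246))))) (XT.nd (nat_lit 234) (nat_lit 304) (nat_lit 0) (XT.nd (nat_lit 78) (nat_lit 304) (nat_lit 0) (XT.lf (nat_lit 0) (nat_lit 38104136578) (nat_lit 228) (nat_lit 14022494102) (nat_lit 76) (nat_lit 8073783496) (nat_lit 50) (nat_lit 5) (nat_lit 53) (nat_lit 5) (nat_lit 51) (nat_lit 4) (nat_lit 419) (nat_lit 356) (nat_lit 245)) (XT.nd (nat_lit 78) (nat_lit 152) (nat_lit 0) (XT.lf (nat_lit 0) (nat_lit 660318680) (nat_lit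 152) (nat_lit 25777752701) (nat_lit 76) (nat_lit 35945152172) (nat_lit 48) (nat_lit 5) (nat_lit 50) (nat_lit 5) (nat_lit 49) (nat_lit 5) (nat_lit 420) (nat_lit 356) (nat_lit 244)) (XT.lf (nat_lit 0) (nat_lit 24493946192) (nat_lit 228) (nat_lit 39026639479) (nat_lit 76) (nat_lit 1136139655) (nat_lit 46) (nat_lit 5) (nat_lit 49) (nat_lit 5) (nat_lit 47) (nat_lit 4) (nat_lit 421) (nat_lit 356) (nat_lit 243)))) (XT.nd (nat_lit 78) (nat_lit 228) (nat_lit 0) (XT.lf (nat_lit 0) (nat_lit 13075738451) (nat_lit 76) (nat_lit 37092833502) (nat_lit 152) (nat_lit 16855851458) (nat_lit 45) (nat_lit 5) (nat_lit 46) (nat_lit 5) (nat_lit 47) (nat_lit 4) (nat_lit 422) (nat_lit 356) (nat_lit 242)) (XT.nd (nat_lit 78) (nat_lit 152) (nat_lit 0) (XT.lf (nat_lit 0) (nat_lit 7862543066) (nat_lit 152) (nat_lit 997482714) (nat_lit 76) (nat_lit 60636442555) (nat_lit 44) (nat_lit 5) (nat_lit 46) (nat_lit 5) (nat_lit 45)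 (nat_lit 5) (nat_lit 423) (nat_lit 356) (nat_lit 241)) (XT.lf (nat_lit 0) (nat_lit 34201154314) (nat_lit 228) (nat_lit 16783580554) (nat_lit 76) (nat_lit 21080387536) (nat_lit 42) (nat_lit 5) (nat_lit 45) (nat_lit 5) (nat_lit 43) (nat_lit 4) (nat_lit 424) (nat_lit 356) (nat_lit 240)))))) (XT.nd (nat_lit 468) (nat_lit 380) (nat_lit 0) (XT.nd (nat_lit 234) (nat_lit 228) (nat_lit 0) (XT.nd (nat_lit 78) (nat_lit 304) (nat_lit 0) (XT.lf (nat_lit 0) (nat_lit 40311261707) (nat_lit 76) (nat_lit 22022500496) (nat_lit 152) (nat_lit 12414135605) (nat_lit 41) (nat_lit 5) (nat_lit 42) (nat_lit 5) (nat_lit 43) (nat_lit 4) (nat_lit 425) (nat_lit 356) (nat_lit 239)) (XT.nd (nat_lit 78) (nat_lit 76) (nat_lit 0) (XT.lf (nat_lit 0) (nat_lit 14503751972) (nat_lit 228) (nat_lit 54285484371) (nat_lit 76) (nat_lit 8757207000) (nat_lit 38) (nat_lit 5) (nat_lit 41) (nat_lit 5) (nat_lit 39) (nat_lit 4) (nat_lit 426) (nat_lit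 356) (nat_lit 238)) (XT.lf (nat_lit 0) (nat_lit 3793104817) (nat_lit 76) (nat_lit 39327015382) (nat_lit 152) (nat_lit 37342829239) (nat_lit 37) (nat_lit 5) (nat_lit 38) (nat_lit 5) (nat_lit 39) (nat_lit 4) (nat_lit 427) (nat_lit 356) (nat_lit 237)))) (XT.nd (nat_lit 78) (nat_lit 228) (nat_lit 0) (XT.lf (nat_lit 0) (nat_lit 65891961595) (nat_lit 76) (nat_lit 7824657751) (nat_lit 152) (nat_lit 9792182632) (nat_lit 37) (nat_lit 5) (nat_lit 38) (nat_lit 5) (nat_lit 39) (nat_lit 4) (nat_lit 428) (nat_lit 356) (nat_lit 236)) (XT.nd (nat_lit 78) (nat_lit 76) (nat_lit 0) (XT.lf (nat_lit 0) (nat_lit 19435425386) (nat_lit 152) (nat_lit 41870590349) (nat_lit 76) (nat_lit 25375228237) (nat_lit 35) (nat_lit 5) (nat_lit 37) (nat_lit 5) (nat_lit 36) (nat_lit 4) (nat_lit 429) (nat_lit 356) (nat_lit 235)) (XT.lf (nat_lit 0) (nat_lit 20932576335) (nat_lit 76) (nat_lit 29445590997) (nat_lit 152) (nat_lit 39617544492)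 (nat_lit 34) (nat_lit 5) (nat_lit 35) (nat_lit 5) (nat_lit 36) (nat_lit 4) (nat_lit 430) (nat_lit 356) (nat_lit 234))))) (XT.nd (nat_lit 312) (nat_lit 152) (nat_lit 0) (XT.nd (nat_lit 78) (nat_lit 228) (nat_lit 0) (XT.lf (nat_lit 0) (nat_lit 83333101362) (nat_lit 152) (nat_lit 5771669592) (nat_lit 0) (nat_lit 4357180896) (nat_lit 34) (nat_lit 5) (nat_lit 36) (nat_lit 4) (nat_lit 34) (nat_lit 4) (nat_lit 431) (nat_lit 356) (nat_lit 233)) (XT.nd (nat_lit 78) (nat_lit 76) (nat_lit 0) (XT.lf (nat_lit 0) (nat_lit 21317179860) (nat_lit 152) (nat_lit 35711379358) (nat_lit 76) (nat_lit 40040253299) (nat_lit 32) (nat_lit 5) (nat_lit 34) (nat_lit 5) (nat_lit 33) (nat_lit 4) (nat_lit 432) (nat_lit 356) (nat_lit 232)) (XT.lf (nat_lit 0) (nat_lit 31607642583) (nat_lit 76) (nat_lit 22875996130) (nat_lit 152) (nat_lit 46358641099) (nat_lit 31) (nat_lit 5) (nat_lit 32) (nat_lit 5) (nat_lit 33) (nat_lit 4) (nat_lit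 433) (nat_lit 356) (nat_lit 231)))) (XT.nd (nat_lit 47112) (nat_lit 0) (nat_lit 19760) (XT.nd (nat_lit 47034) (nat_lit 0) (nat_lit 19760) (XT.lf (nat_lit 0) (nat_lit 18494531265) (nat_lit 152) (nat_lit 39165493079) (nat_lit 76) (nat_lit 51242326605) (nat_lit 29) (nat_lit 5) (nat_lit 31) (nat_lit 5) (nat_lit 30) (nat_lit 4) (nat_lit 435) (nat_lit 356) (nat_lit 229)) (XT.lf (nat_lit 0) (nat_lit 2724852829) (nat_lit 1140) (nat_lit 1094334383) (nat_lit 1140) (nat_lit 1094334383) (nat_lit 289) (nat_lit 3) (nat_lit 304) (nat_lit 3) (nat_lit 304) (nat_lit 5) (nat_lit 357) (nat_lit 357) (nat_lit 306))) (XT.nd (nat_lit 78) (nat_lit 0) (nat_lit 76) (XT.lf (nat_lit 76) (nat_lit 5891101165) (nat_lit 0) (nat_lit 938492446) (nat_lit 1140) (nat_lit 3205391798) (nat_lit 290) (nat_lit 5) (nat_lit 289) (nat_lit 3) (nat_lit 304) (nat_lit 5) (nat_lit 358) (nat_lit 357) (nat_lit 305)) (XT.lf (nat_lit 76) (nat_lit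 4147461302) (nat_lit 0) (nat_lit 4176220910) (nat_lit 1140) (nat_lit 1928313512) (nat_lit 291) (nat_lit 5) (nat_lit 290) (nat_lit 5) (nat_lit 305) (nat_lit 5) (nat_lit 359) (nat_lit 357) (nat_lit 304))))))))
noncomputable def xc78 : XT := (XT.nd (nat_lit 1950) (nat_lit 6384) (nat_lit 0) (XT.nd (nat_lit 936) (nat_lit 5928) (nat_lit 0) (XT.nd (nat_lit 468) (nat_lit 3344) (nat_lit 0) (XT.nd (nat_lit 234) (nat_lit 0) (nat_lit 152) (XT.nd (nat_lit 78) (nat_lit 1140) (nat_lit 0) (XT.lf (nat_lit 76) (nat_lit 2426782960) (nat_lit 0) (nat_lit 7497265397) (nat_lit 1140) (nat_lit 554886885) (nat_lit 292) (nat_lit 5) (nat_lit 291) (nat_lit 5) (nat_lit 306) (nat_lit 5) (nat_lit 360) (nat_lit 357) (nat_lit 303)) (XT.nd (nat_lit 78) (nat_lit 0) (nat_lit 76) (XT.lf (nat_lit 76) (nat_lit 715510358) (nat_lit 0) (nat_lit 196717954) (nat_lit 1216) (nat_lit 9803491602) (nat_lit 277) (nat_lit 5) (nat_lit 276) (nat_lit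 5) (nat_lit 292) (nat_lit 5) (nat_lit 361) (nat_lit 357) (nat_lit 302)) (XT.lf (nat_lit 0) (nat_lit 2529837996) (nat_lit 1140) (nat_lit 995309567) (nat_lit 1216) (nat_lit 7436395790) (nat_lit 277) (nat_lit 5) (nat_lit 292) (nat_lit 5) (nat_lit 293) (nat_lit 5) (nat_lit 362) (nat_lit 357) (nat_lit 301)))) (XT.nd (nat_lit 78) (nat_lit 0) (nat_lit 76) (XT.lf (nat_lit 0) (nat_lit 4290661025) (nat_lit 1140) (nat_lit 2678303752) (nat_lit 1216) (nat_lit 4248844905) (nat_lit 278) (nat_lit 5) (nat_lit 293) (nat_lit 5) (nat_lit 294) (nat_lit 5) (nat_lit 363) (nat_lit 357) (nat_lit 300)) (XT.nd (nat_lit 78) (nat_lit 0) (nat_lit 0) (XT.lf (nat_lit 0) (nat_lit 6202307993) (nat_lit 1140) (nat_lit 4349151157) (nat_lit 1216) (nat_lit 933567364) (nat_lit 279) (nat_lit 5) (nat_lit 294) (nat_lit 5) (nat_lit 295) (nat_lit 5) (nat_lit 364) (nat_lit 357) (nat_lit 299)) (XT.lf (nat_lit 76) (nat_lit 5728730211) (nat_lit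 0) (nat_lit 2575725650) (nat_lit 1216) (nat_lit 3458320457) (nat_lit 280) (nat_lit 5) (nat_lit 279) (nat_lit 5) (nat_lit 295) (nat_lit 5) (nat_lit 365) (nat_lit 357) (nat_lit 298))))) (XT.nd (nat_lit 234) (nat_lit 1292) (nat_lit 0) (XT.nd (nat_lit 78) (nat_lit 2356) (nat_lit 0) (XT.lf (nat_lit 76) (nat_lit 4331713017) (nat_lit 0) (nat_lit 6266746600) (nat_lit 1216) (nat_lit 1453370291) (nat_lit 281) (nat_lit 5) (nat_lit 280) (nat_lit 5) (nat_lit 296) (nat_lit 5) (nat_lit 366) (nat_lit 357) (nat_lit 297)) (XT.nd (nat_lit 78) (nat_lit 1216) (nat_lit 0) (XT.lf (nat_lit 0) (nat_lit 724004109) (nat_lit 1216) (nat_lit 9406382021) (nat_lit 76) (nat_lit 2222232523) (nat_lit 265) (nat_lit 5) (nat_lit 281) (nat_lit 5) (nat_lit 266) (nat_lit 5) (nat_lit 367) (nat_lit 357) (nat_lit 296)) (XT.lf (nat_lit 0) (nat_lit 1547531872) (nat_lit 1216) (nat_lit 1539411207) (nat_lit 1292) (nat_lit 9577885960) (nat_lit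 249) (nat_lit 5) (nat_lit 265) (nat_lit 5) (nat_lit 266) (nat_lit 5) (nat_lit 368) (nat_lit 357) (nat_lit 295)))) (XT.nd (nat_lit 78) (nat_lit 608) (nat_lit 0) (XT.lf (nat_lit 0) (nat_lit 140423700) (nat_lit 684) (nat_lit 5548853901) (nat_lit 760) (nat_lit 7299750610) (nat_lit 240) (nat_lit 5) (nat_lit 249) (nat_lit 5) (nat_lit 250) (nat_lit 5) (nat_lit 369) (nat_lit 357) (nat_lit 294)) (XT.nd (nat_lit 78) (nat_lit 608) (nat_lit 0) (XT.lf (nat_lit 0) (nat_lit 8538592032) (nat_lit 760) (nat_lit 1228486754) (nat_lit 76) (nat_lit 3558867635) (nat_lit 240) (nat_lit 5) (nat_lit 250) (nat_lit 5) (nat_lit 241) (nat_lit 5) (nat_lit 370) (nat_lit 357) (nat_lit 293)) (XT.lf (nat_lit 0) (nat_lit 11089608216) (nat_lit 608) (nat_lit 557827412) (nat_lit 684) (nat_lit 2028777274) (nat_lit 232) (nat_lit 5) (nat_lit 240) (nat_lit 5) (nat_lit 241) (nat_lit 5) (nat_lit 371) (nat_lit 357) (nat_lit 292)))))) (XT.nd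 (nat_lit 468) (nat_lit 2660) (nat_lit 0) (XT.nd (nat_lit 234) (nat_lit 1520) (nat_lit 0) (XT.nd (nat_lit 78) (nat_lit 1064) (nat_lit 0) (XT.lf (nat_lit 0) (nat_lit 1005706418) (nat_lit 684) (nat_lit 3978309956) (nat_lit 76) (nat_lit 9055091978) (nat_lit 223) (nat_lit 5) (nat_lit 232) (nat_lit 5) (nat_lit 224) (nat_lit 5) (nat_lit 372) (nat_lit 357) (nat_lit 291)) (XT.nd (nat_lit 78) (nat_lit 532) (nat_lit 0) (XT.lf (nat_lit 0) (nat_lit 4274335345) (nat_lit 608) (nat_lit 5380884081) (nat_lit 76) (nat_lit 4760607724) (nat_lit 216) (nat_lit 5) (nat_lit 224) (nat_lit 5) (nat_lit 217) (nat_lit 5) (nat_lit 373) (nat_lit 357) (nat_lit 290)) (XT.lf (nat_lit 0) (nat_lit 7836317653) (nat_lit 608) (nat_lit 6774685296) (nat_lit 76) (nat_lit 196493242) (nat_lit 209) (nat_lit 5) (nat_lit 217) (nat_lit 5) (nat_lit 210) (nat_lit 5) (nat_lit 374) (nat_lit 357) (nat_lit 289)))) (XT.nd (nat_lit 78) (nat_lit 1064)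 (nat_lit 0) (XT.lf (nat_lit 0) (nat_lit 7008249115) (nat_lit 456) (nat_lit 4749527339) (nat_lit 532) (nat_lit 3455542299) (nat_lit 203) (nat_lit 5) (nat_lit 209) (nat_lit 5) (nat_lit 210) (nat_lit 5) (nat_lit 375) (nat_lit 357) (nat_lit 288)) (XT.nd (nat_lit 78) (nat_lit 456) (nat_lit 0) (XT.lf (nat_lit 0) (nat_lit 376767132) (nat_lit 608) (nat_lit 9634589981) (nat_lit 76) (nat_lit 5623653021) (nat_lit 195) (nat_lit 5) (nat_lit 203) (nat_lit 5) (nat_lit 196) (nat_lit 5) (nat_lit 376) (nat_lit 357) (nat_lit 287)) (XT.lf (nat_lit 0) (nat_lit 4479018002) (nat_lit 532) (nat_lit 11093775734) (nat_lit 76) (nat_lit 499482222) (nat_lit 189) (nat_lit 5) (nat_lit 196) (nat_lit 5) (nat_lit 190) (nat_lit 5) (nat_lit 377) (nat_lit 357) (nat_lit 286))))) (XT.nd (nat_lit 234) (nat_lit 1216) (nat_lit 0) (XT.nd (nat_lit 78) (nat_lit 988) (nat_lit 0) (XT.lf (nat_lit 0) (nat_lit 3927510923) (nat_lit 456) (nat_lit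 5062227051) (nat_lit 532) (nat_lit 7535575959) (nat_lit 183) (nat_lit 5) (nat_lit 189) (nat_lit 5) (nat_lit 190) (nat_lit 5) (nat_lit 378) (nat_lit 357) (nat_lit 285)) (XT.nd (nat_lit 78) (nat_lit 532) (nat_lit 0) (XT.lf (nat_lit 0) (nat_lit 2889937113) (nat_lit 456) (nat_lit 11002223057) (nat_lit 532) (nat_lit 3103867747) (nat_lit 177) (nat_lit 5) (nat_lit 183) (nat_lit 5) (nat_lit 184) (nat_lit 5) (nat_lit 379) (nat_lit 357) (nat_lit 284)) (XT.lf (nat_lit 0) (nat_lit 1687277449) (nat_lit 532) (nat_lit 15630082675) (nat_lit 76) (nat_lit 167436477) (nat_lit 170) (nat_lit 5) (nat_lit 177) (nat_lit 5) (nat_lit 171) (nat_lit 5) (nat_lit 380) (nat_lit 357) (nat_lit 283)))) (XT.nd (nat_lit 156) (nat_lit 836) (nat_lit 0) (XT.nd (nat_lit 78) (nat_lit 0) (nat_lit 0) (XT.lf (nat_lit 0) (nat_lit 744203832) (nat_lit 380) (nat_lit 6142696673) (nat_lit 456) (nat_lit 11103195885) (nat_lit 165) (nat_lit 5)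 (nat_lit 170) (nat_lit 5) (nat_lit 171) (nat_lit 5) (nat_lit 381) (nat_lit 357) (nat_lit 282)) (XT.lf (nat_lit 0) (nat_lit 12531474331) (nat_lit 456) (nat_lit 348210016) (nat_lit 76) (nat_lit 5635435364) (nat_lit 165) (nat_lit 5) (nat_lit 171) (nat_lit 5) (nat_lit 166) (nat_lit 5) (nat_lit 382) (nat_lit 357) (nat_lit 281))) (XT.nd (nat_lit 78) (nat_lit 456) (nat_lit 0) (XT.lf (nat_lit 0) (nat_lit 17637607383) (nat_lit 380) (nat_lit 1022438786) (nat_lit 456) (nat_lit 400302218) (nat_lit 160) (nat_lit 5) (nat_lit 165) (nat_lit 5) (nat_lit 166) (nat_lit 5) (nat_lit 383) (nat_lit 357) (nat_lit 280)) (XT.lf (nat_lit 0) (nat_lit 5606944688) (nat_lit 456) (nat_lit 2598227956) (nat_lit 76) (nat_lit 11418557673) (nat_lit 154) (nat_lit 5) (nat_lit 160) (nat_lit 5) (nat_lit 155) (nat_lit 5) (nat_lit 384) (nat_lit 357) (nat_lit 279))))))) (XT.nd (nat_lit 936) (nat_lit 2584) (nat_lit 0) (XT.nd (nat_lit 468)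 (nat_lit 1672) (nat_lit 0) (XT.nd (nat_lit 234) (nat_lit 988) (nat_lit 0) (XT.nd (nat_lit 78) (nat_lit 760) (nat_lit 0) (XT.lf (nat_lit 0) (nat_lit 12104273372) (nat_lit 456) (nat_lit 3772893834) (nat_lit 76) (nat_lit 4332061686) (nat_lit 149) (nat_lit 5) (nat_lit 155) (nat_lit 5) (nat_lit 150) (nat_lit 5) (nat_lit 385) (nat_lit 357) (nat_lit 278)) (XT.nd (nat_lit 78) (nat_lit 456) (nat_lit 0) (XT.lf (nat_lit 0) (nat_lit 15842095437) (nat_lit 304) (nat_lit 3319294939) (nat_lit 380) (nat_lit 1655570461) (nat_lit 145) (nat_lit 5) (nat_lit 149) (nat_lit 5) (nat_lit 150) (nat_lit 5) (nat_lit 386) (nat_lit 357) (nat_lit 277)) (XT.lf (nat_lit 0) (nat_lit 5273050742) (nat_lit 456) (nat_lit 6271777049) (nat_lit 76) (nat_lit 9901083675) (nat_lit 139) (nat_lit 5) (nat_lit 145) (nat_lit 5) (nat_lit 140) (nat_lit 5) (nat_lit 387) (nat_lit 357) (nat_lit 276)))) (XT.nd (nat_lit 78) (nat_lit 684) (nat_lit 0)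 (XT.lf (nat_lit 0) (nat_lit 12730757894) (nat_lit 380) (nat_lit 7591502055) (nat_lit 76) (nat_lit 1777056455) (nat_lit 135) (nat_lit 5) (nat_lit 140) (nat_lit 5) (nat_lit 136) (nat_lit 5) (nat_lit 388) (nat_lit 357) (nat_lit 275)) (XT.nd (nat_lit 78) (nat_lit 380) (nat_lit 0) (XT.lf (nat_lit 0) (nat_lit 13789578577) (nat_lit 304) (nat_lit 7061130589) (nat_lit 380) (nat_lit 1926006772) (nat_lit 131) (nat_lit 5) (nat_lit 135) (nat_lit 5) (nat_lit 136) (nat_lit 5) (nat_lit 389) (nat_lit 357) (nat_lit 274)) (XT.lf (nat_lit 0) (nat_lit 6022497554) (nat_lit 380) (nat_lit 10474645354) (nat_lit 76) (nat_lit 6981687075) (nat_lit 126) (nat_lit 5) (nat_lit 131) (nat_lit 5) (nat_lit 127) (nat_lit 5) (nat_lit 390) (nat_lit 357) (nat_lit 273))))) (XT.nd (nat_lit 234) (nat_lit 760) (nat_lit 0) (XT.nd (nat_lit 78) (nat_lit 608) (nat_lit 0) (XT.lf (nat_lit 0) (nat_lit 12180302763) (nat_lit 304) (nat_lit 2406845169)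 (nat_lit 380) (nat_lit 9620577611) (nat_lit 122) (nat_lit 5) (nat_lit 126) (nat_lit 5) (nat_lit 127) (nat_lit 5) (nat_lit 391) (nat_lit 357) (nat_lit 272)) (XT.nd (nat_lit 78) (nat_lit 380) (nat_lit 0) (XT.lf (nat_lit 0) (nat_lit 11282142637) (nat_lit 228) (nat_lit 12611395939) (nat_lit 304) (nat_lit 1070126361) (nat_lit 119) (nat_lit 5) (nat_lit 122) (nat_lit 5) (nat_lit 123) (nat_lit 5) (nat_lit 392) (nat_lit 357) (nat_lit 271)) (XT.lf (nat_lit 0) (nat_lit 8002195361) (nat_lit 380) (nat_lit 15450518681) (nat_lit 76) (nat_lit 2294951014) (nat_lit 114) (nat_lit 5) (nat_lit 119) (nat_lit 5) (nat_lit 115) (nat_lit 5) (nat_lit 393) (nat_lit 357) (nat_lit 270)))) (XT.nd (nat_lit 78) (nat_lit 532) (nat_lit 0) (XT.lf (nat_lit 0) (nat_lit 9200130693) (nat_lit 228) (nat_lit 8642292151) (nat_lit 304) (nat_lit 8718035608) (nat_lit 111) (nat_lit 5) (nat_lit 114) (nat_lit 5) (nat_lit 115) (nat_lit 5) (nat_lit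 394) (nat_lit 357) (nat_lit 269)) (XT.nd (nat_lit 78) (nat_lit 228) (nat_lit 0) (XT.lf (nat_lit 0) (nat_lit 1032027635) (nat_lit 304) (nat_lit 19362768978) (nat_lit 76) (nat_lit 7010295923) (nat_lit 107) (nat_lit 5) (nat_lit 111) (nat_lit 5) (nat_lit 108) (nat_lit 5) (nat_lit 395) (nat_lit 357) (nat_lit 268)) (XT.lf (nat_lit 0) (nat_lit 6712355089) (nat_lit 228) (nat_lit 4690190805) (nat_lit 304) (nat_lit 16877428612) (nat_lit 104) (nat_lit 5) (nat_lit 107) (nat_lit 5) (nat_lit 108) (nat_lit 5) (nat_lit 396) (nat_lit 357) (nat_lit 267)))))) (XT.nd (nat_lit 468) (nat_lit 1368) (nat_lit 0) (XT.nd (nat_lit 234) (nat_lit 456) (nat_lit 0) (XT.nd (nat_lit 78) (nat_lit 532) (nat_lit 0) (XT.lf (nat_lit 0) (nat_lit 5257973312) (nat_lit 228) (nat_lit 17378789225) (nat_lit 304) (nat_lit 6551486031) (nat_lit 101) (nat_lit 5) (nat_lit 104) (nat_lit 5) (nat_lit 105) (nat_lit 5) (nat_lit 397) (nat_lit 357)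 (nat_lit 266)) (XT.nd (nat_lit 78) (nat_lit 228) (nat_lit 0) (XT.lf (nat_lit 0) (nat_lit 3689551257) (nat_lit 228) (nat_lit 804863911) (nat_lit 304) (nat_lit 25637665044) (nat_lit 97) (nat_lit 5) (nat_lit 100) (nat_lit 5) (nat_lit 101) (nat_lit 5) (nat_lit 398) (nat_lit 357) (nat_lit 265)) (XT.lf (nat_lit 0) (nat_lit 1851266628) (nat_lit 228) (nat_lit 14514120465) (nat_lit 304) (nat_lit 14743525036) (nat_lit 94) (nat_lit 5) (nat_lit 97) (nat_lit 5) (nat_lit 98) (nat_lit 5) (nat_lit 399) (nat_lit 357) (nat_lit 264)))) (XT.nd (nat_lit 78) (nat_lit 456) (nat_lit 0) (XT.lf (nat_lit 0) (nat_lit 29120320880) (nat_lit 304) (nat_lit 81932800) (nat_lit 76) (nat_lit 2923622219) (nat_lit 94) (nat_lit 5) (nat_lit 98) (nat_lit 5) (nat_lit 95) (nat_lit 5) (nat_lit 400) (nat_lit 357) (nat_lit 263)) (XT.nd (nat_lit 78) (nat_lit 228) (nat_lit 0) (XT.lf (nat_lit 0) (nat_lit 9568258863) (nat_lit 228) (nat_lit 2293612318)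 (nat_lit 76) (nat_lit 21316207682) (nat_lit 91) (nat_lit 5) (nat_lit 94) (nat_lit 5) (nat_lit 92) (nat_lit 5) (nat_lit 401) (nat_lit 357) (nat_lit 262)) (XT.lf (nat_lit 0) (nat_lit 23041606387) (nat_lit 304) (nat_lit 4700971654) (nat_lit 76) (nat_lit 6529433460) (nat_lit 88) (nat_lit 5) (nat_lit 92) (nat_lit 5) (nat_lit 89) (nat_lit 5) (nat_lit 402) (nat_lit 357) (nat_lit 261))))) (XT.nd (nat_lit 234) (nat_lit 760) (nat_lit 0) (XT.nd (nat_lit 78) (nat_lit 380) (nat_lit 0) (XT.lf (nat_lit 0) (nat_lit 2133776518) (nat_lit 228) (nat_lit 7373837689) (nat_lit 76) (nat_lit 25900510010) (nat_lit 85) (nat_lit 5) (nat_lit 88) (nat_lit 5) (nat_lit 86) (nat_lit 5) (nat_lit 403) (nat_lit 357) (nat_lit 260)) (XT.nd (nat_lit 78) (nat_lit 152) (nat_lit 0) (XT.lf (nat_lit 0) (nat_lit 16317654084) (nat_lit 304) (nat_lit 10410002062) (nat_lit 76) (nat_lit 9858540252) (nat_lit 82) (nat_lit 5) (nat_lit 86) (nat_lit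 5) (nat_lit 83) (nat_lit 5) (nat_lit 404) (nat_lit 357) (nat_lit 259)) (XT.lf (nat_lit 0) (nat_lit 24082467785) (nat_lit 152) (nat_lit 7516276972) (nat_lit 228) (nat_lit 6212788815) (nat_lit 80) (nat_lit 5) (nat_lit 82) (nat_lit 5) (nat_lit 83) (nat_lit 5) (nat_lit 405) (nat_lit 357) (nat_lit 258)))) (XT.nd (nat_lit 156) (nat_lit 380) (nat_lit 0) (XT.nd (nat_lit 78) (nat_lit 152) (nat_lit 0) (XT.lf (nat_lit 0) (nat_lit 8805907540) (nat_lit 228) (nat_lit 17476215241) (nat_lit 76) (nat_lit 12800744820) (nat_lit 77) (nat_lit 5) (nat_lit 80) (nat_lit 5) (nat_lit 78) (nat_lit 5) (nat_lit 406) (nat_lit 357) (nat_lit 257)) (XT.lf (nat_lit 0) (nat_lit 18782292989) (nat_lit 152) (nat_lit 6049731381) (nat_lit 228) (nat_lit 15572351035) (nat_lit 75) (nat_lit 5) (nat_lit 77) (nat_lit 5) (nat_lit 78) (nat_lit 5) (nat_lit 407) (nat_lit 357) (nat_lit 256))) (XT.nd (nat_lit 78) (nat_lit 152) (nat_lit 0) (XT.lf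 (nat_lit 0) (nat_lit 336997644) (nat_lit 228) (nat_lit 26219542970) (nat_lit 76) (nat_lit 15221450094) (nat_lit 72) (nat_lit 5) (nat_lit 75) (nat_lit 5) (nat_lit 73) (nat_lit 5) (nat_lit 408) (nat_lit 357) (nat_lit 255)) (XT.lf (nat_lit 0) (nat_lit 11820570404) (nat_lit 152) (nat_lit 5286988447) (nat_lit 228) (nat_lit 26096469839) (nat_lit 70) (nat_lit 5) (nat_lit 72) (nat_lit 5) (nat_lit 73) (nat_lit 5) (nat_lit 409) (nat_lit 357) (nat_lit 254))))))))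
noncomputable def xc79 : XT := (XT.nd (nat_lit 49062) (nat_lit 0) (nat_lit 10184) (XT.nd (nat_lit 936) (nat_lit 1292) (nat_lit 0) (XT.nd (nat_lit 468) (nat_lit 760) (nat_lit 0) (XT.nd (nat_lit 234) (nat_lit 532) (nat_lit 0) (XT.nd (nat_lit 78) (nat_lit 228) (nat_lit 0) (XT.lf (nat_lit 0) (nat_lit 7573114575) (nat_lit 152) (nat_lit 27638458043) (nat_lit 228) (nat_lit 9474949667) (nat_lit 68) (nat_lit 5) (nat_lit 70) (nat_lit 5) (nat_lit 71) (nat_lit 5) (nat_lit 410) (nat_lit 357) (nat_lit 253)) (XT.nd (nat_lit 78) (nat_lit 0) (nat_lit 0) (XT.lf (nat_lit 0) (nat_lit 2796191285) (nat_lit 152) (nat_lit 5418283545) (nat_lit 228) (nat_lit 38014591461) (nat_lit 65) (nat_lit 5) (nat_lit 67) (nat_lit 5) (nat_lit 68) (nat_lit 5) (nat_lit 411) (nat_lit 357) (nat_lit 252)) (XT.lf (nat_lit 0) (nat_lit 27138583748) (nat_lit 228) (nat_lit 2656652742) (nat_lit 76) (nat_lit 18034302849) (nat_lit 65) (nat_lit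 5) (nat_lit 68) (nat_lit 5) (nat_lit 66) (nat_lit 5) (nat_lit 412) (nat_lit 357) (nat_lit 251)))) (XT.nd (nat_lit 78) (nat_lit 380) (nat_lit 0) (XT.lf (nat_lit 0) (nat_lit 40877937283) (nat_lit 152) (nat_lit 6565569669) (nat_lit 228) (nat_lit 2053492038) (nat_lit 63) (nat_lit 5) (nat_lit 65) (nat_lit 5) (nat_lit 66) (nat_lit 5) (nat_lit 413) (nat_lit 357) (nat_lit 250)) (XT.nd (nat_lit 78) (nat_lit 152) (nat_lit 0) (XT.lf (nat_lit 0) (nat_lit 17710685947) (nat_lit 228) (nat_lit 15501816015) (nat_lit 76) (nat_lit 18014180441) (nat_lit 60) (nat_lit 5) (nat_lit 63) (nat_lit 5) (nat_lit 61) (nat_lit 5) (nat_lit 414) (nat_lit 357) (nat_lit 249)) (XT.lf (nat_lit 0) (nat_lit 29898846961) (nat_lit 152) (nat_lit 8952977636) (nat_lit 228) (nat_lit 14177479875) (nat_lit 58) (nat_lit 5) (nat_lit 60) (nat_lit 5) (nat_lit 61) (nat_lit 5) (nat_lit 415) (nat_lit 357) (nat_lit 248))))) (XT.nd (nat_lit 234) (nat_lit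 380) (nat_lit 0) (XT.nd (nat_lit 78) (nat_lit 228) (nat_lit 0) (XT.lf (nat_lit 0) (nat_lit 6544897386) (nat_lit 152) (nat_lit 31723059514) (nat_lit 76) (nat_lit 16636239160) (nat_lit 56) (nat_lit 5) (nat_lit 58) (nat_lit 5) (nat_lit 57) (nat_lit 5) (nat_lit 416) (nat_lit 357) (nat_lit 247)) (XT.nd (nat_lit 78) (nat_lit 76) (nat_lit 0) (XT.lf (nat_lit 0) (nat_lit 15470190588) (nat_lit 152) (nat_lit 13010343741) (nat_lit 228) (nat_lit 28373977121) (nat_lit 54) (nat_lit 5) (nat_lit 56) (nat_lit 5) (nat_lit 57) (nat_lit 5) (nat_lit 417) (nat_lit 357) (nat_lit 246)) (XT.lf (nat_lit 0) (nat_lit 6771024415) (nat_lit 76) (nat_lit 45255036684) (nat_lit 152) (nat_lit 6860889169) (nat_lit 53) (nat_lit 5) (nat_lit 54) (nat_lit 5) (nat_lit 55) (nat_lit 4) (nat_lit 418) (nat_lit 357) (nat_lit 245)))) (XT.nd (nat_lit 78) (nat_lit 304) (nat_lit 0) (XT.lf (nat_lit 0) (nat_lit 15971095657) (nat_lit 152) (nat_lit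 3117092970) (nat_lit 76) (nat_lit 41911783171) (nat_lit 52) (nat_lit 5) (nat_lit 54) (nat_lit 5) (nat_lit 53) (nat_lit 5) (nat_lit 419) (nat_lit 357) (nat_lit 244)) (XT.nd (nat_lit 78) (nat_lit 152) (nat_lit 0) (XT.lf (nat_lit 0) (nat_lit 40352112765) (nat_lit 228) (nat_lit 14086140405) (nat_lit 76) (nat_lit 8761874334) (nat_lit 50) (nat_lit 5) (nat_lit 53) (nat_lit 5) (nat_lit 51) (nat_lit 4) (nat_lit 420) (nat_lit 357) (nat_lit 243)) (XT.lf (nat_lit 0) (nat_lit 1029047574) (nat_lit 152) (nat_lit 26440731309) (nat_lit 76) (nat_lit 38022511990) (nat_lit 48) (nat_lit 5) (nat_lit 50) (nat_lit 5) (nat_lit 49) (nat_lit 5) (nat_lit 421) (nat_lit 357) (nat_lit 242)))))) (XT.nd (nat_lit 468) (nat_lit 532) (nat_lit 0) (XT.nd (nat_lit 234) (nat_lit 456) (nat_lit 0) (XT.nd (nat_lit 78) (nat_lit 152) (nat_lit 0) (XT.lf (nat_lit 0) (nat_lit 26046928854) (nat_lit 228) (nat_lit 40362930028) (nat_lit 76) (nat_lit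 1469832749) (nat_lit 46) (nat_lit 5) (nat_lit 49) (nat_lit 5) (nat_lit 47) (nat_lit 4) (nat_lit 422) (nat_lit 357) (nat_lit 241)) (XT.nd (nat_lit 78) (nat_lit 76) (nat_lit 0) (XT.lf (nat_lit 0) (nat_lit 14326936759) (nat_lit 76) (nat_lit 38668459193) (nat_lit 152) (nat_lit 17370676387) (nat_lit 45) (nat_lit 5) (nat_lit 46) (nat_lit 5) (nat_lit 47) (nat_lit 4) (nat_lit 423) (nat_lit 357) (nat_lit 240)) (XT.lf (nat_lit 0) (nat_lit 8561925280) (nat_lit 152) (nat_lit 472279705) (nat_lit 76) (nat_lit 63927880271) (nat_lit 44) (nat_lit 5) (nat_lit 46) (nat_lit 5) (nat_lit 45) (nat_lit 5) (nat_lit 424) (nat_lit 357) (nat_lit 239)))) (XT.nd (nat_lit 78) (nat_lit 304) (nat_lit 0) (XT.lf (nat_lit 0) (nat_lit 36210767245) (nat_lit 228) (nat_lit 17057751924) (nat_lit 76) (nat_lit 22390854752) (nat_lit 42) (nat_lit 5) (nat_lit 45) (nat_lit 5) (nat_lit 43) (nat_lit 4) (nat_lit 425) (nat_lit 357) (nat_lit 238))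 (XT.nd (nat_lit 78) (nat_lit 228) (nat_lit 0) (XT.lf (nat_lit 0) (nat_lit 42875636619) (nat_lit 76) (nat_lit 22865379890) (nat_lit 152) (nat_lit 12735542111) (nat_lit 41) (nat_lit 5) (nat_lit 42) (nat_lit 5) (nat_lit 43) (nat_lit 4) (nat_lit 426) (nat_lit 357) (nat_lit 237)) (XT.lf (nat_lit 0) (nat_lit 15516046732) (nat_lit 228) (nat_lit 56454876083) (nat_lit 76) (nat_lit 9444213676) (nat_lit 38) (nat_lit 5) (nat_lit 41) (nat_lit 5) (nat_lit 39) (nat_lit 4) (nat_lit 427) (nat_lit 357) (nat_lit 236))))) (XT.nd (nat_lit 234) (nat_lit 304) (nat_lit 0) (XT.nd (nat_lit 78) (nat_lit 152) (nat_lit 0) (XT.lf (nat_lit 0) (nat_lit 4512023617) (nat_lit 76) (nat_lit 41042625590) (nat_lit 152) (nat_lit 38923076962) (nat_lit 37) (nat_lit 5) (nat_lit 38) (nat_lit 5) (nat_lit 39) (nat_lit 4) (nat_lit 428) (nat_lit 357) (nat_lit 235)) (XT.nd (nat_lit 78) (nat_lit 152) (nat_lit 0) (XT.lf (nat_lit 0) (nat_lit 69690620207)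 (nat_lit 76) (nat_lit 7977090103) (nat_lit 152) (nat_lit 10008559631) (nat_lit 37) (nat_lit 5) (nat_lit 38) (nat_lit 5) (nat_lit 39) (nat_lit 4) (nat_lit 429) (nat_lit 357) (nat_lit 234)) (XT.lf (nat_lit 0) (nat_lit 20669354290) (nat_lit 152) (nat_lit 43463763504) (nat_lit 76) (nat_lit 26874310393) (nat_lit 35) (nat_lit 5) (nat_lit 37) (nat_lit 5) (nat_lit 36) (nat_lit 4) (nat_lit 430) (nat_lit 357) (nat_lit 233)))) (XT.nd (nat_lit 156) (nat_lit 228) (nat_lit 0) (XT.nd (nat_lit 78) (nat_lit 0) (nat_lit 0) (XT.lf (nat_lit 0) (nat_lit 22465218900) (nat_lit 76) (nat_lit 30686202598) (nat_lit 152) (nat_lit 41336432920) (nat_lit 34) (nat_lit 5) (nat_lit 35) (nat_lit 5) (nat_lit 36) (nat_lit 4) (nat_lit 431) (nat_lit 357) (nat_lit 232)) (XT.lf (nat_lit 0) (nat_lit 87744111415) (nat_lit 152) (nat_lit 5592224679) (nat_lit 0) (nat_lit 4791370676) (nat_lit 34) (nat_lit 5) (nat_lit 36) (nat_lit 4) (nat_lit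 34) (nat_lit 4) (nat_lit 432) (nat_lit 357) (nat_lit 231))) (XT.nd (nat_lit 156) (nat_lit 76) (nat_lit 0) (XT.lf (nat_lit 0) (nat_lit 22622486542) (nat_lit 152) (nat_lit 37037559278) (nat_lit 76) (nat_lit 42255012776) (nat_lit 32) (nat_lit 5) (nat_lit 34) (nat_lit 5) (nat_lit 33) (nat_lit 4) (nat_lit 433) (nat_lit 357) (nat_lit 230)) (XT.lf (nat_lit 0) (nat_lit 94509541125) (nat_lit 152) (nat_lit 1563623349) (nat_lit 0) (nat_lit 13949396331) (nat_lit 31) (nat_lit 5) (nat_lit 33) (nat_lit 4) (nat_lit 31) (nat_lit 4) (nat_lit 435) (nat_lit 357) (nat_lit 228))))))) (XT.nd (nat_lit 936) (nat_lit 6384) (nat_lit 0) (XT.nd (nat_lit 468) (nat_lit 1976) (nat_lit 0) (XT.nd (nat_lit 234) (nat_lit 0) (nat_lit 76) (XT.nd (nat_lit 78) (nat_lit 1064) (nat_lit 0) (XT.lf (nat_lit 0) (nat_lit 4029579260) (nat_lit 1140) (nat_lit 547073013) (nat_lit 1140) (nat_lit 547073013) (nat_lit 289) (nat_lit 3) (nat_lit 304)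 (nat_lit 3) (nat_lit 304) (nat_lit 5) (nat_lit 358) (nat_lit 358) (nat_lit 304)) (XT.nd (nat_lit 78) (nat_lit 1064) (nat_lit 0) (XT.lf (nat_lit 76) (nat_lit 7355101239) (nat_lit 0) (nat_lit 2052896882) (nat_lit 1140) (nat_lit 1060832863) (nat_lit 290) (nat_lit 5) (nat_lit 289) (nat_lit 3) (nat_lit 304) (nat_lit 5) (nat_lit 359) (nat_lit 358) (nat_lit 303)) (XT.lf (nat_lit 0) (nat_lit 168916501) (nat_lit 1140) (nat_lit 5134843220) (nat_lit 1216) (nat_lit 5396059631) (nat_lit 275) (nat_lit 5) (nat_lit 290) (nat_lit 5) (nat_lit 291) (nat_lit 5) (nat_lit 360) (nat_lit 358) (nat_lit 302)))) (XT.nd (nat_lit 78) (nat_lit 0) (nat_lit 0) (XT.lf (nat_lit 0) (nat_lit 1483907059) (nat_lit 1140) (nat_lit 7158981089) (nat_lit 1216) (nat_lit 2297805880) (nat_lit 276) (nat_lit 5) (nat_lit 291) (nat_lit 5) (nat_lit 292) (nat_lit 5) (nat_lit 361) (nat_lit 358) (nat_lit 301)) (XT.nd (nat_lit 78) (nat_lit 0) (nat_lit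 76) (XT.lf (nat_lit 76) (nat_lit 2004481376) (nat_lit 0) (nat_lit 922708695) (nat_lit 1216) (nat_lit 8264567782) (nat_lit 277) (nat_lit 5) (nat_lit 276) (nat_lit 5) (nat_lit 292) (nat_lit 5) (nat_lit 362) (nat_lit 358) (nat_lit 300)) (XT.lf (nat_lit 76) (nat_lit 216120991) (nat_lit 0) (nat_lit 4311301845) (nat_lit 1216) (nat_lit 6925429139) (nat_lit 278) (nat_lit 5) (nat_lit 277) (nat_lit 5) (nat_lit 293) (nat_lit 5) (nat_lit 363) (nat_lit 358) (nat_lit 299))))) (XT.nd (nat_lit 234) (nat_lit 2204) (nat_lit 0) (XT.nd (nat_lit 78) (nat_lit 0) (nat_lit 76) (XT.lf (nat_lit 0) (nat_lit 6291458376) (nat_lit 1140) (nat_lit 1531426312) (nat_lit 1216) (nat_lit 3901622065) (nat_lit 278) (nat_lit 5) (nat_lit 293) (nat_lit 5) (nat_lit 294) (nat_lit 5) (nat_lit 364) (nat_lit 358) (nat_lit 298)) (XT.nd (nat_lit 78) (nat_lit 0) (nat_lit 0) (XT.lf (nat_lit 0) (nat_lit 8221077214) (nat_lit 1140) (nat_lit 3266049089)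 (nat_lit 1216) (nat_lit 520315271) (nat_lit 279) (nat_lit 5) (nat_lit 294) (nat_lit 5) (nat_lit 295) (nat_lit 5) (nat_lit 365) (nat_lit 358) (nat_lit 297)) (XT.lf (nat_lit 76) (nat_lit 7278446067) (nat_lit 0) (nat_lit 3080665355) (nat_lit 1216) (nat_lit 1942071538) (nat_lit 280) (nat_lit 5) (nat_lit 279) (nat_lit 5) (nat_lit 295) (nat_lit 5) (nat_lit 366) (nat_lit 358) (nat_lit 296)))) (XT.nd (nat_lit 78) (nat_lit 1140) (nat_lit 0) (XT.lf (nat_lit 0) (nat_lit 90013562) (nat_lit 1216) (nat_lit 6780489274) (nat_lit 1292) (nat_lit 5736262624) (nat_lit 264) (nat_lit 5) (nat_lit 280) (nat_lit 5) (nat_lit 281) (nat_lit 5) (nat_lit 367) (nat_lit 358) (nat_lit 295)) (XT.nd (nat_lit 78) (nat_lit 1216) (nat_lit 0) (XT.lf (nat_lit 0) (nat_lit 2280782652) (nat_lit 1216) (nat_lit 8554743224) (nat_lit 76) (nat_lit 2088622736) (nat_lit 265) (nat_lit 5) (nat_lit 281) (nat_lit 5) (nat_lit 266) (nat_lit 5) (nat_lit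 368) (nat_lit 358) (nat_lit 294)) (XT.lf (nat_lit 0) (nat_lit 2908972706) (nat_lit 1216) (nat_lit 1792830583) (nat_lit 1292) (nat_lit 8551991216) (nat_lit 249) (nat_lit 5) (nat_lit 265) (nat_lit 5) (nat_lit 266) (nat_lit 5) (nat_lit 369) (nat_lit 358) (nat_lit 293)))))) (XT.nd (nat_lit 468) (nat_lit 3344) (nat_lit 0) (XT.nd (nat_lit 234) (nat_lit 1748) (nat_lit 0) (XT.nd (nat_lit 78) (nat_lit 608) (nat_lit 0) (XT.lf (nat_lit 0) (nat_lit 1439356020) (nat_lit 684) (nat_lit 5936153551) (nat_lit 760) (nat_lit 6220478346) (nat_lit 240) (nat_lit 5) (nat_lit 249) (nat_lit 5) (nat_lit 250) (nat_lit 5) (nat_lit 370) (nat_lit 358) (nat_lit 292)) (XT.nd (nat_lit 78) (nat_lit 608) (nat_lit 0) (XT.lf (nat_lit 0) (nat_lit 10299533136) (nat_lit 760) (nat_lit 18045519) (nat_lit 76) (nat_lit 3634226969) (nat_lit 240) (nat_lit 5) (nat_lit 250) (nat_lit 5) (nat_lit 241) (nat_lit 5) (nat_lit 371) (nat_lit 358) (nat_lit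 291)) (XT.lf (nat_lit 0) (nat_lit 12879496428) (nat_lit 608) (nat_lit 632673621) (nat_lit 684) (nat_lit 808984738) (nat_lit 232) (nat_lit 5) (nat_lit 240) (nat_lit 5) (nat_lit 241) (nat_lit 5) (nat_lit 372) (nat_lit 358) (nat_lit 290)))) (XT.nd (nat_lit 78) (nat_lit 1064) (nat_lit 0) (XT.lf (nat_lit 0) (nat_lit 2301339031) (nat_lit 684) (nat_lit 2913884606) (nat_lit 76) (nat_lit 9488111818) (nat_lit 223) (nat_lit 5) (nat_lit 232) (nat_lit 5) (nat_lit 224) (nat_lit 5) (nat_lit 373) (nat_lit 358) (nat_lit 289)) (XT.nd (nat_lit 78) (nat_lit 532) (nat_lit 0) (XT.lf (nat_lit 0) (nat_lit 5686174571) (nat_lit 608) (nat_lit 4386796764) (nat_lit 76) (nat_lit 5027353121) (nat_lit 216) (nat_lit 5) (nat_lit 224) (nat_lit 5) (nat_lit 217) (nat_lit 5) (nat_lit 374) (nat_lit 358) (nat_lit 288)) (XT.lf (nat_lit 0) (nat_lit 9381708410) (nat_lit 608) (nat_lit 5852287792) (nat_lit 76) (nat_lit 278933859) (nat_lit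 209) (nat_lit 5) (nat_lit 217) (nat_lit 5) (nat_lit 210) (nat_lit 5) (nat_lit 375) (nat_lit 358) (nat_lit 287))))) (XT.nd (nat_lit 234) (nat_lit 1824) (nat_lit 0) (XT.nd (nat_lit 78) (nat_lit 1064) (nat_lit 0) (XT.lf (nat_lit 0) (nat_lit 8583643251) (nat_lit 456) (nat_lit 4872440038) (nat_lit 532) (nat_lit 2484271061) (nat_lit 203) (nat_lit 5) (nat_lit 209) (nat_lit 5) (nat_lit 210) (nat_lit 5) (nat_lit 376) (nat_lit 358) (nat_lit 286)) (XT.nd (nat_lit 78) (nat_lit 456) (nat_lit 0) (XT.lf (nat_lit 0) (nat_lit 1476830832) (nat_lit 608) (nat_lit 8873042651) (nat_lit 76) (nat_lit 6034156544) (nat_lit 195) (nat_lit 5) (nat_lit 203) (nat_lit 5) (nat_lit 196) (nat_lit 5) (nat_lit 377) (nat_lit 358) (nat_lit 285)) (XT.lf (nat_lit 0) (nat_lit 5745914381) (nat_lit 532) (nat_lit 10410904199) (nat_lit 76) (nat_lit 687502951) (nat_lit 189) (nat_lit 5) (nat_lit 196) (nat_lit 5) (nat_lit 190) (nat_lit 5) (nat_lit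 378) (nat_lit 358) (nat_lit 284)))) (XT.nd (nat_lit 156) (nat_lit 912) (nat_lit 0) (XT.nd (nat_lit 78) (nat_lit 456) (nat_lit 0) (XT.lf (nat_lit 0) (nat_lit 5325972372) (nat_lit 456) (nat_lit 5118089094) (nat_lit 532) (nat_lit 6877106532) (nat_lit 183) (nat_lit 5) (nat_lit 189) (nat_lit 5) (nat_lit 190) (nat_lit 5) (nat_lit 379) (nat_lit 358) (nat_lit 283)) (XT.lf (nat_lit 0) (nat_lit 4229760479) (nat_lit 456) (nat_lit 11327290934) (nat_lit 532) (nat_lit 2259415562) (nat_lit 177) (nat_lit 5) (nat_lit 183) (nat_lit 5) (nat_lit 184) (nat_lit 5) (nat_lit 380) (nat_lit 358) (nat_lit 282))) (XT.nd (nat_lit 78) (nat_lit 380) (nat_lit 0) (XT.lf (nat_lit 0) (nat_lit 2718715390) (nat_lit 532) (nat_lit 15205021322) (nat_lit 76) (nat_lit 406652785) (nat_lit 170) (nat_lit 5) (nat_lit 177) (nat_lit 5) (nat_lit 171) (nat_lit 5) (nat_lit 381) (nat_lit 358) (nat_lit 281)) (XT.lf (nat_lit 0) (nat_lit 1953393553)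 (nat_lit 380) (nat_lit 6191093064) (nat_lit 456) (nat_lit 10717493824) (nat_lit 165) (nat_lit 5) (nat_lit 170) (nat_lit 5) (nat_lit 171) (nat_lit 5) (nat_lit 382) (nat_lit 358) (nat_lit 280))))))))
noncomputable def xc80 : XT := (XT.nd (nat_lit 1872) (nat_lit 3420) (nat_lit 0) (XT.nd (nat_lit 936) (nat_lit 2584) (nat_lit 0) (XT.nd (nat_lit 468) (nat_lit 1900) (nat_lit 0) (XT.nd (nat_lit 234) (nat_lit 1140) (nat_lit 0) (XT.nd (nat_lit 78) (nat_lit 456) (nat_lit 0) (XT.lf (nat_lit 0) (nat_lit 789901054) (nat_lit 380) (nat_lit 13247862138) (nat_lit 456) (nat_lit 5376508160) (nat_lit 160) (nat_lit 5) (nat_lit 165) (nat_lit 5) (nat_lit 166) (nat_lit 5) (nat_lit 383) (nat_lit 358) (nat_lit 279)) (XT.nd (nat_lit 78) (nat_lit 380) (nat_lit 0) (XT.lf (nat_lit 0) (nat_lit 437650230) (nat_lit 456) (nat_lit 365302060) (nat_lit 76) (nat_lit 19184844910) (nat_lit 159) (nat_lit 5) (nat_lit 165) (nat_lit 5)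 (nat_lit 160) (nat_lit 5) (nat_lit 384) (nat_lit 358) (nat_lit 278)) (XT.lf (nat_lit 0) (nat_lit 6709711854) (nat_lit 456) (nat_lit 1613676248) (nat_lit 76) (nat_lit 12256668659) (nat_lit 154) (nat_lit 5) (nat_lit 160) (nat_lit 5) (nat_lit 155) (nat_lit 5) (nat_lit 385) (nat_lit 358) (nat_lit 277)))) (XT.nd (nat_lit 78) (nat_lit 760) (nat_lit 0) (XT.lf (nat_lit 0) (nat_lit 13505926582) (nat_lit 456) (nat_lit 2857809493) (nat_lit 76) (nat_lit 4831882530) (nat_lit 149) (nat_lit 5) (nat_lit 155) (nat_lit 5) (nat_lit 150) (nat_lit 5) (nat_lit 386) (nat_lit 358) (nat_lit 276)) (XT.nd (nat_lit 78) (nat_lit 456) (nat_lit 0) (XT.lf (nat_lit 0) (nat_lit 17706291071) (nat_lit 304) (nat_lit 3181988265) (nat_lit 380) (nat_lit 946294915) (nat_lit 145) (nat_lit 5) (nat_lit 149) (nat_lit 5) (nat_lit 150) (nat_lit 5) (nat_lit 387) (nat_lit 358) (nat_lit 275)) (XT.lf (nat_lit 0) (nat_lit 6289425449) (nat_lit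 456) (nat_lit 5509131486) (nat_lit 76) (nat_lit 10696911210) (nat_lit 139) (nat_lit 5) (nat_lit 145) (nat_lit 5) (nat_lit 140) (nat_lit 5) (nat_lit 388) (nat_lit 358) (nat_lit 274))))) (XT.nd (nat_lit 234) (nat_lit 912) (nat_lit 0) (XT.nd (nat_lit 78) (nat_lit 684) (nat_lit 0) (XT.lf (nat_lit 0) (nat_lit 14097284126) (nat_lit 380) (nat_lit 6906796434) (nat_lit 76) (nat_lit 2178152271) (nat_lit 135) (nat_lit 5) (nat_lit 140) (nat_lit 5) (nat_lit 136) (nat_lit 5) (nat_lit 389) (nat_lit 358) (nat_lit 273)) (XT.nd (nat_lit 78) (nat_lit 380) (nat_lit 0) (XT.lf (nat_lit 0) (nat_lit 15512830837) (nat_lit 304) (nat_lit 7085578037) (nat_lit 380) (nat_lit 1295845321) (nat_lit 131) (nat_lit 5) (nat_lit 135) (nat_lit 5) (nat_lit 136) (nat_lit 5) (nat_lit 390) (nat_lit 358) (nat_lit 272)) (XT.lf (nat_lit 0) (nat_lit 7014947138) (nat_lit 380) (nat_lit 9962727808) (nat_lit 76) (nat_lit 7654224930) (nat_lit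 126) (nat_lit 5) (nat_lit 131) (nat_lit 5) (nat_lit 127) (nat_lit 5) (nat_lit 391) (nat_lit 358) (nat_lit 271)))) (XT.nd (nat_lit 78) (nat_lit 608) (nat_lit 0) (XT.lf (nat_lit 0) (nat_lit 13795281020) (nat_lit 304) (nat_lit 2189298723) (nat_lit 380) (nat_lit 9413364259) (nat_lit 122) (nat_lit 5) (nat_lit 126) (nat_lit 5) (nat_lit 127) (nat_lit 5) (nat_lit 392) (nat_lit 358) (nat_lit 270)) (XT.nd (nat_lit 78) (nat_lit 380) (nat_lit 0) (XT.lf (nat_lit 0) (nat_lit 12839811979) (nat_lit 228) (nat_lit 12897308927) (nat_lit 304) (nat_lit 455140509) (nat_lit 119) (nat_lit 5) (nat_lit 122) (nat_lit 5) (nat_lit 123) (nat_lit 5) (nat_lit 393) (nat_lit 358) (nat_lit 269)) (XT.lf (nat_lit 0) (nat_lit 9039249614) (nat_lit 380) (nat_lit 15229368397) (nat_lit 76) (nat_lit 2747211371) (nat_lit 114) (nat_lit 5) (nat_lit 119) (nat_lit 5) (nat_lit 115) (nat_lit 5) (nat_lit 394) (nat_lit 358) (nat_lit 268))))))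 (XT.nd (nat_lit 468) (nat_lit 1064) (nat_lit 0) (XT.nd (nat_lit 234) (nat_lit 760) (nat_lit 0) (XT.nd (nat_lit 78) (nat_lit 532) (nat_lit 0) (XT.lf (nat_lit 0) (nat_lit 10625329917) (nat_lit 228) (nat_lit 8725105888) (nat_lit 304) (nat_lit 8519463490) (nat_lit 111) (nat_lit 5) (nat_lit 114) (nat_lit 5) (nat_lit 115) (nat_lit 5) (nat_lit 395) (nat_lit 358) (nat_lit 267)) (XT.nd (nat_lit 78) (nat_lit 228) (nat_lit 0) (XT.lf (nat_lit 0) (nat_lit 1688572889) (nat_lit 304) (nat_lit 19366456850) (nat_lit 76) (nat_lit 7702071718) (nat_lit 107) (nat_lit 5) (nat_lit 111) (nat_lit 5) (nat_lit 108) (nat_lit 5) (nat_lit 396) (nat_lit 358) (nat_lit 266)) (XT.lf (nat_lit 0) (nat_lit 7984777637) (nat_lit 228) (nat_lit 4573037713) (nat_lit 304) (nat_lit 17118510864) (nat_lit 104) (nat_lit 5) (nat_lit 107) (nat_lit 5) (nat_lit 108) (nat_lit 5) (nat_lit 397) (nat_lit 358) (nat_lit 265)))) (XT.nd (nat_lit 78) (nat_lit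 532) (nat_lit 0) (XT.lf (nat_lit 0) (nat_lit 6444681120) (nat_lit 228) (nat_lit 17893297437) (nat_lit 304) (nat_lit 6292512768) (nat_lit 101) (nat_lit 5) (nat_lit 104) (nat_lit 5) (nat_lit 105) (nat_lit 5) (nat_lit 398) (nat_lit 358) (nat_lit 264)) (XT.nd (nat_lit 78) (nat_lit 228) (nat_lit 0) (XT.lf (nat_lit 0) (nat_lit 4782558031) (nat_lit 228) (nat_lit 493027338) (nat_lit 304) (nat_lit 26346323693) (nat_lit 97) (nat_lit 5) (nat_lit 100) (nat_lit 5) (nat_lit 101) (nat_lit 5) (nat_lit 399) (nat_lit 358) (nat_lit 263)) (XT.lf (nat_lit 0) (nat_lit 2839323274) (nat_lit 228) (nat_lit 14886116297) (nat_lit 304) (nat_lit 14922586882) (nat_lit 94) (nat_lit 5) (nat_lit 97) (nat_lit 5) (nat_lit 98) (nat_lit 5) (nat_lit 400) (nat_lit 358) (nat_lit 262))))) (XT.nd (nat_lit 234) (nat_lit 608) (nat_lit 0) (XT.nd (nat_lit 78) (nat_lit 304) (nat_lit 0) (XT.lf (nat_lit 0) (nat_lit 794643117) (nat_lit 152) (nat_lit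 30308554500) (nat_lit 228) (nat_lit 2613092172) (nat_lit 92) (nat_lit 5) (nat_lit 94) (nat_lit 5) (nat_lit 95) (nat_lit 5) (nat_lit 401) (nat_lit 358) (nat_lit 261)) (XT.nd (nat_lit 78) (nat_lit 228) (nat_lit 0) (XT.lf (nat_lit 0) (nat_lit 10554292331) (nat_lit 228) (nat_lit 1557755396) (nat_lit 76) (nat_lit 22709637962) (nat_lit 91) (nat_lit 5) (nat_lit 94) (nat_lit 5) (nat_lit 92) (nat_lit 5) (nat_lit 402) (nat_lit 358) (nat_lit 260)) (XT.lf (nat_lit 0) (nat_lit 24688294341) (nat_lit 304) (nat_lit 4098274247) (nat_lit 76) (nat_lit 7184140019) (nat_lit 88) (nat_lit 5) (nat_lit 92) (nat_lit 5) (nat_lit 89) (nat_lit 5) (nat_lit 403) (nat_lit 358) (nat_lit 259)))) (XT.nd (nat_lit 78) (nat_lit 380) (nat_lit 0) (XT.lf (nat_lit 0) (nat_lit 2724144602) (nat_lit 228) (nat_lit 6919110915) (nat_lit 76) (nat_lit 27520704210) (nat_lit 85) (nat_lit 5) (nat_lit 88) (nat_lit 5) (nat_lit 86) (nat_lit 5) (nat_lit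 404) (nat_lit 358) (nat_lit 258)) (XT.nd (nat_lit 78) (nat_lit 152) (nat_lit 0) (XT.lf (nat_lit 0) (nat_lit 17605058408) (nat_lit 304) (nat_lit 10119765522) (nat_lit 76) (nat_lit 10676479188) (nat_lit 82) (nat_lit 5) (nat_lit 86) (nat_lit 5) (nat_lit 83) (nat_lit 5) (nat_lit 405) (nat_lit 358) (nat_lit 257)) (XT.lf (nat_lit 0) (nat_lit 26074088214) (nat_lit 152) (nat_lit 7561231894) (nat_lit 228) (nat_lit 6053036284) (nat_lit 80) (nat_lit 5) (nat_lit 82) (nat_lit 5) (nat_lit 83) (nat_lit 5) (nat_lit 406) (nat_lit 358) (nat_lit 256))))))) (XT.nd (nat_lit 936) (nat_lit 1444) (nat_lit 0) (XT.nd (nat_lit 468) (nat_lit 836) (nat_lit 0) (XT.nd (nat_lit 234) (nat_lit 532) (nat_lit 0) (XT.nd (nat_lit 78) (nat_lit 380) (nat_lit 0) (XT.lf (nat_lit 0) (nat_lit 9696037703) (nat_lit 228) (nat_lit 17565828867) (nat_lit 76) (nat_lit 13761598776) (nat_lit 77) (nat_lit 5) (nat_lit 80) (nat_lit 5) (nat_lit 78)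 (nat_lit 5) (nat_lit 407) (nat_lit 358) (nat_lit 255)) (XT.nd (nat_lit 78) (nat_lit 228) (nat_lit 0) (XT.lf (nat_lit 0) (nat_lit 20483125921) (nat_lit 152) (nat_lit 6026235852) (nat_lit 228) (nat_lit 15902112135) (nat_lit 75) (nat_lit 5) (nat_lit 77) (nat_lit 5) (nat_lit 78) (nat_lit 5) (nat_lit 408) (nat_lit 358) (nat_lit 254)) (XT.lf (nat_lit 0) (nat_lit 783278816) (nat_lit 228) (nat_lit 26772344800) (nat_lit 76) (nat_lit 16298339137) (nat_lit 72) (nat_lit 5) (nat_lit 75) (nat_lit 5) (nat_lit 73) (nat_lit 5) (nat_lit 409) (nat_lit 358) (nat_lit 253)))) (XT.nd (nat_lit 78) (nat_lit 380) (nat_lit 0) (XT.lf (nat_lit 0) (nat_lit 13148041299) (nat_lit 152) (nat_lit 5230956810) (nat_lit 228) (nat_lit 26972707747) (nat_lit 70) (nat_lit 5) (nat_lit 72) (nat_lit 5) (nat_lit 73) (nat_lit 5) (nat_lit 410) (nat_lit 358) (nat_lit 252)) (XT.nd (nat_lit 78) (nat_lit 228) (nat_lit 0) (XT.lf (nat_lit 0) (nat_lit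 8676276549) (nat_lit 152) (nat_lit 28702021015) (nat_lit 228) (nat_lit 9530326036) (nat_lit 68) (nat_lit 5) (nat_lit 70) (nat_lit 5) (nat_lit 71) (nat_lit 5) (nat_lit 411) (nat_lit 358) (nat_lit 251)) (XT.lf (nat_lit 0) (nat_lit 3647707287) (nat_lit 152) (nat_lit 5375006153) (nat_lit 228) (nat_lit 39505843354) (nat_lit 65) (nat_lit 5) (nat_lit 67) (nat_lit 5) (nat_lit 68) (nat_lit 5) (nat_lit 412) (nat_lit 358) (nat_lit 250))))) (XT.nd (nat_lit 234) (nat_lit 456) (nat_lit 0) (XT.nd (nat_lit 78) (nat_lit 380) (nat_lit 0) (XT.lf (nat_lit 0) (nat_lit 28876974907) (nat_lit 228) (nat_lit 2103152953) (nat_lit 76) (nat_lit 19229409001) (nat_lit 65) (nat_lit 5) (nat_lit 68) (nat_lit 5) (nat_lit 66) (nat_lit 5) (nat_lit 413) (nat_lit 358) (nat_lit 249)) (XT.nd (nat_lit 78) (nat_lit 228) (nat_lit 0) (XT.lf (nat_lit 0) (nat_lit 43588492992) (nat_lit 152) (nat_lit 6596894756) (nat_lit 228) (nat_lit 1775336137)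 (nat_lit 63) (nat_lit 5) (nat_lit 65) (nat_lit 5) (nat_lit 66) (nat_lit 5) (nat_lit 414) (nat_lit 358) (nat_lit 248)) (XT.lf (nat_lit 0) (nat_lit 18960948203) (nat_lit 228) (nat_lit 15614033992) (nat_lit 76) (nat_lit 19202061151) (nat_lit 60) (nat_lit 5) (nat_lit 63) (nat_lit 5) (nat_lit 61) (nat_lit 5) (nat_lit 415) (nat_lit 358) (nat_lit 247)))) (XT.nd (nat_lit 78) (nat_lit 304) (nat_lit 0) (XT.lf (nat_lit 0) (nat_lit 32037661016) (nat_lit 152) (nat_lit 9110304061) (nat_lit 228) (nat_lit 14522168297) (nat_lit 58) (nat_lit 5) (nat_lit 60) (nat_lit 5) (nat_lit 61) (nat_lit 5) (nat_lit 416) (nat_lit 358) (nat_lit 246)) (XT.nd (nat_lit 78) (nat_lit 152) (nat_lit 0) (XT.lf (nat_lit 0) (nat_lit 7221047050) (nat_lit 152) (nat_lit 32669205077) (nat_lit 76) (nat_lit 17748658996) (nat_lit 56) (nat_lit 5) (nat_lit 58) (nat_lit 5) (nat_lit 57) (nat_lit 5) (nat_lit 417) (nat_lit 358) (nat_lit 245)) (XT.lf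 (nat_lit 0) (nat_lit 16865361845) (nat_lit 152) (nat_lit 13377465274) (nat_lit 228) (nat_lit 29444235640) (nat_lit 54) (nat_lit 5) (nat_lit 56) (nat_lit 5) (nat_lit 57) (nat_lit 5) (nat_lit 418) (nat_lit 358) (nat_lit 244)))))) (XT.nd (nat_lit 468) (nat_lit 760) (nat_lit 0) (XT.nd (nat_lit 234) (nat_lit 380) (nat_lit 0) (XT.nd (nat_lit 78) (nat_lit 228) (nat_lit 0) (XT.lf (nat_lit 0) (nat_lit 7720654091) (nat_lit 76) (nat_lit 47237336738) (nat_lit 152) (nat_lit 6863363123) (nat_lit 53) (nat_lit 5) (nat_lit 54) (nat_lit 5) (nat_lit 55) (nat_lit 4) (nat_lit 419) (nat_lit 358) (nat_lit 243)) (XT.nd (nat_lit 78) (nat_lit 152) (nat_lit 0) (XT.lf (nat_lit 0) (nat_lit 17087674009) (nat_lit 152) (nat_lit 2684615701) (nat_lit 76) (nat_lit 44268116827) (nat_lit 52) (nat_lit 5) (nat_lit 54) (nat_lit 5) (nat_lit 53) (nat_lit 5) (nat_lit 420) (nat_lit 358) (nat_lit 242)) (XT.lf (nat_lit 0) (nat_lit 42680620314)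 (nat_lit 228) (nat_lit 14212235723) (nat_lit 76) (nat_lit 9457928743) (nat_lit 50) (nat_lit 5) (nat_lit 53) (nat_lit 5) (nat_lit 51) (nat_lit 4) (nat_lit 421) (nat_lit 358) (nat_lit 241)))) (XT.nd (nat_lit 78) (nat_lit 228) (nat_lit 0) (XT.lf (nat_lit 0) (nat_lit 1385001503) (nat_lit 152) (nat_lit 27195049936) (nat_lit 76) (nat_lit 40177698550) (nat_lit 48) (nat_lit 5) (nat_lit 50) (nat_lit 5) (nat_lit 49) (nat_lit 5) (nat_lit 422) (nat_lit 358) (nat_lit 240)) (XT.nd (nat_lit 78) (nat_lit 76) (nat_lit 0) (XT.lf (nat_lit 0) (nat_lit 27647039790) (nat_lit 228) (nat_lit 41823215828) (nat_lit 76) (nat_lit 1794468251) (nat_lit 46) (nat_lit 5) (nat_lit 49) (nat_lit 5) (nat_lit 47) (nat_lit 4) (nat_lit 423) (nat_lit 358) (nat_lit 239)) (XT.lf (nat_lit 0) (nat_lit 15585153334) (nat_lit 76) (nat_lit 40348806430) (nat_lit 152) (nat_lit 17941733886) (nat_lit 45) (nat_lit 5) (nat_lit 46) (nat_lit 5) (nat_lit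 47) (nat_lit 4) (nat_lit 424) (nat_lit 358) (nat_lit 238))))) (XT.nd (nat_lit 234) (nat_lit 456) (nat_lit 0) (XT.nd (nat_lit 78) (nat_lit 76) (nat_lit 0) (XT.lf (nat_lit 0) (nat_lit 26230075) (nat_lit 152) (nat_lit 9241825976) (nat_lit 228) (nat_lit 67333775340) (nat_lit 42) (nat_lit 5) (nat_lit 44) (nat_lit 5) (nat_lit 45) (nat_lit 5) (nat_lit 425) (nat_lit 358) (nat_lit 237)) (XT.nd (nat_lit 78) (nat_lit 76) (nat_lit 0) (XT.lf (nat_lit 0) (nat_lit 38293011018) (nat_lit 228) (nat_lit 17398160919) (nat_lit 76) (nat_lit 23743003239) (nat_lit 42) (nat_lit 5) (nat_lit 45) (nat_lit 5) (nat_lit 43) (nat_lit 4) (nat_lit 426) (nat_lit 358) (nat_lit 236)) (XT.lf (nat_lit 0) (nat_lit 45517206954) (nat_lit 76) (nat_lit 23774412485) (nat_lit 152) (nat_lit 13100845044) (nat_lit 41) (nat_lit 5) (nat_lit 42) (nat_lit 5) (nat_lit 43) (nat_lit 4) (nat_lit 427) (nat_lit 358) (nat_lit 235)))) (XT.nd (nat_lit 156)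 (nat_lit 152) (nat_lit 0) (XT.nd (nat_lit 78) (nat_lit 76) (nat_lit 0) (XT.lf (nat_lit 0) (nat_lit 16552263728) (nat_lit 228) (nat_lit 58783395392) (nat_lit 76) (nat_lit 10142407421) (nat_lit 38) (nat_lit 5) (nat_lit 41) (nat_lit 5) (nat_lit 39) (nat_lit 4) (nat_lit 428) (nat_lit 358) (nat_lit 234)) (XT.lf (nat_lit 0) (nat_lit 5217682448) (nat_lit 76) (nat_lit 42867327788) (nat_lit 152) (nat_lit 40609009732) (nat_lit 37) (nat_lit 5) (nat_lit 38) (nat_lit 5) (nat_lit 39) (nat_lit 4) (nat_lit 429) (nat_lit 358) (nat_lit 233))) (XT.nd (nat_lit 78) (nat_lit 152) (nat_lit 0) (XT.lf (nat_lit 0) (nat_lit 73632348979) (nat_lit 76) (nat_lit 8159345484) (nat_lit 152) (nat_lit 10261158014) (nat_lit 37) (nat_lit 5) (nat_lit 38) (nat_lit 5) (nat_lit 39) (nat_lit 4) (nat_lit 430) (nat_lit 358) (nat_lit 232)) (XT.lf (nat_lit 0) (nat_lit 21940606708) (nat_lit 152) (nat_lit 45183113708) (nat_lit 76) (nat_lit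 28426933617) (nat_lit 35) (nat_lit 5) (nat_lit 37) (nat_lit 5) (nat_lit 36) (nat_lit 4) (nat_lit 431) (nat_lit 358) (nat_lit 231))))))))
noncomputable def xc81 : XT := (XT.nd (nat_lit 49140) (nat_lit 0) (nat_lit 4104) (XT.nd (nat_lit 48126) (nat_lit 0) (nat_lit 11552) (XT.nd (nat_lit 47658) (nat_lit 0) (nat_lit 18620) (XT.nd (nat_lit 47424) (nat_lit 0) (nat_lit 18468) (XT.nd (nat_lit 78) (nat_lit 228) (nat_lit 0) (XT.lf (nat_lit 0) (nat_lit 24029308641) (nat_lit 76) (nat_lit 32010383070) (nat_lit 152) (nat_lit 43165623004) (nat_lit 34) (nat_lit 5) (nat_lit 35) (nat_lit 5) (nat_lit 36) (nat_lit 4) (nat_lit 432) (nat_lit 358) (nat_lit 230)) (XT.nd (nat_lit 156) (nat_lit 228) (nat_lit 0) (XT.lf (nat_lit 0) (nat_lit 92352954159) (nat_lit 152) (nat_lit 5447320365) (nat_lit 0) (nat_lit 5227157565) (nat_lit 34) (nat_lit 5) (nat_lit 36) (nat_lit 4) (nat_lit 34) (nat_lit 4) (nat_lit 433) (nat_lit 358)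 (nat_lit 229)) (XT.lf (nat_lit 0) (nat_lit 35720693115) (nat_lit 76) (nat_lit 24802204550) (nat_lit 152) (nat_lit 50642054530) (nat_lit 31) (nat_lit 5) (nat_lit 32) (nat_lit 5) (nat_lit 33) (nat_lit 4) (nat_lit 435) (nat_lit 358) (nat_lit 227)))) (XT.nd (nat_lit 78) (nat_lit 1140) (nat_lit 0) (XT.lf (nat_lit 0) (nat_lit 5290907466) (nat_lit 1140) (nat_lit 28414792) (nat_lit 1140) (nat_lit 28414792) (nat_lit 289) (nat_lit 3) (nat_lit 304) (nat_lit 3) (nat_lit 304) (nat_lit 5) (nat_lit 359) (nat_lit 359) (nat_lit 302)) (XT.nd (nat_lit 78) (nat_lit 0) (nat_lit 76) (XT.lf (nat_lit 0) (nat_lit 957614502) (nat_lit 1140) (nat_lit 2156492854) (nat_lit 1216) (nat_lit 7816292872) (nat_lit 274) (nat_lit 5) (nat_lit 289) (nat_lit 3) (nat_lit 290) (nat_lit 5) (nat_lit 360) (nat_lit 359) (nat_lit 301)) (XT.lf (nat_lit 0) (nat_lit 2131227117) (nat_lit 1140) (nat_lit 4252850697) (nat_lit 1216) (nat_lit 4791449016)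 (nat_lit 275) (nat_lit 5) (nat_lit 290) (nat_lit 5) (nat_lit 291) (nat_lit 5) (nat_lit 361) (nat_lit 359) (nat_lit 300))))) (XT.nd (nat_lit 234) (nat_lit 0) (nat_lit 152) (XT.nd (nat_lit 78) (nat_lit 0) (nat_lit 0) (XT.lf (nat_lit 0) (nat_lit 3422201328) (nat_lit 1140) (nat_lit 6346700484) (nat_lit 1216) (nat_lit 1662268192) (nat_lit 276) (nat_lit 5) (nat_lit 291) (nat_lit 5) (nat_lit 292) (nat_lit 5) (nat_lit 362) (nat_lit 359) (nat_lit 299)) (XT.nd (nat_lit 78) (nat_lit 0) (nat_lit 76) (XT.lf (nat_lit 76) (nat_lit 3241390706) (nat_lit 0) (nat_lit 1618417684) (nat_lit 1216) (nat_lit 6837344108) (nat_lit 277) (nat_lit 5) (nat_lit 276) (nat_lit 5) (nat_lit 292) (nat_lit 5) (nat_lit 363) (nat_lit 359) (nat_lit 298)) (XT.lf (nat_lit 76) (nat_lit 1389734369) (nat_lit 0) (nat_lit 5070489335) (nat_lit 1216) (nat_lit 5513501327) (nat_lit 278) (nat_lit 5) (nat_lit 277) (nat_lit 5) (nat_lit 293) (nat_lit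 5) (nat_lit 364) (nat_lit 359) (nat_lit 297)))) (XT.nd (nat_lit 78) (nat_lit 0) (nat_lit 76) (XT.lf (nat_lit 0) (nat_lit 8226225672) (nat_lit 1140) (nat_lit 446280958) (nat_lit 1216) (nat_lit 3589070438) (nat_lit 278) (nat_lit 5) (nat_lit 293) (nat_lit 5) (nat_lit 294) (nat_lit 5) (nat_lit 365) (nat_lit 359) (nat_lit 296)) (XT.nd (nat_lit 78) (nat_lit 0) (nat_lit 0) (XT.lf (nat_lit 0) (nat_lit 10181930460) (nat_lit 1140) (nat_lit 2249705624) (nat_lit 1216) (nat_lit 129160548) (nat_lit 279) (nat_lit 5) (nat_lit 294) (nat_lit 5) (nat_lit 295) (nat_lit 5) (nat_lit 366) (nat_lit 359) (nat_lit 295)) (XT.lf (nat_lit 76) (nat_lit 8788199976) (nat_lit 0) (nat_lit 3575880865) (nat_lit 1216) (nat_lit 507052718) (nat_lit 280) (nat_lit 5) (nat_lit 279) (nat_lit 5) (nat_lit 295) (nat_lit 5) (nat_lit 367) (nat_lit 359) (nat_lit 294)))))) (XT.nd (nat_lit 468) (nat_lit 3648) (nat_lit 0) (XT.nd (nat_lit 234)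 (nat_lit 1368) (nat_lit 0) (XT.nd (nat_lit 78) (nat_lit 1140) (nat_lit 0) (XT.lf (nat_lit 0) (nat_lit 1533311387) (nat_lit 1216) (nat_lit 5930430523) (nat_lit 1292) (nat_lit 5729737313) (nat_lit 264) (nat_lit 5) (nat_lit 280) (nat_lit 5) (nat_lit 281) (nat_lit 5) (nat_lit 368) (nat_lit 359) (nat_lit 293)) (XT.nd (nat_lit 78) (nat_lit 1216) (nat_lit 0) (XT.lf (nat_lit 0) (nat_lit 3774031161) (nat_lit 1216) (nat_lit 7783425603) (nat_lit 76) (nat_lit 1971084336) (nat_lit 265) (nat_lit 5) (nat_lit 281) (nat_lit 5) (nat_lit 266) (nat_lit 5) (nat_lit 369) (nat_lit 359) (nat_lit 292)) (XT.lf (nat_lit 0) (nat_lit 4219105460) (nat_lit 1216) (nat_lit 2042516390) (nat_lit 1292) (nat_lit 7614702756) (nat_lit 249) (nat_lit 5) (nat_lit 265) (nat_lit 5) (nat_lit 266) (nat_lit 5) (nat_lit 370) (nat_lit 359) (nat_lit 291)))) (XT.nd (nat_lit 78) (nat_lit 684) (nat_lit 0) (XT.lf (nat_lit 0) (nat_lit 2683125305)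 (nat_lit 684) (nat_lit 6332604724) (nat_lit 760) (nat_lit 5221516056) (nat_lit 240) (nat_lit 5) (nat_lit 249) (nat_lit 5) (nat_lit 250) (nat_lit 5) (nat_lit 371) (nat_lit 359) (nat_lit 290)) (XT.nd (nat_lit 78) (nat_lit 76) (nat_lit 0) (XT.lf (nat_lit 0) (nat_lit 1157253965) (nat_lit 608) (nat_lit 10878367818) (nat_lit 684) (nat_lit 2576761831) (nat_lit 232) (nat_lit 5) (nat_lit 240) (nat_lit 5) (nat_lit 241) (nat_lit 5) (nat_lit 372) (nat_lit 359) (nat_lit 289)) (XT.lf (nat_lit 0) (nat_lit 342152348) (nat_lit 684) (nat_lit 361289309) (nat_lit 76) (nat_lit 14298415128) (nat_lit 231) (nat_lit 5) (nat_lit 240) (nat_lit 5) (nat_lit 232) (nat_lit 5) (nat_lit 373) (nat_lit 359) (nat_lit 288))))) (XT.nd (nat_lit 234) (nat_lit 1976) (nat_lit 0) (XT.nd (nat_lit 78) (nat_lit 1064) (nat_lit 0) (XT.lf (nat_lit 0) (nat_lit 3545972687) (nat_lit 684) (nat_lit 1913691447) (nat_lit 76) (nat_lit 9944617401) (nat_lit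 223) (nat_lit 5) (nat_lit 232) (nat_lit 5) (nat_lit 224) (nat_lit 5) (nat_lit 374) (nat_lit 359) (nat_lit 287)) (XT.nd (nat_lit 78) (nat_lit 532) (nat_lit 0) (XT.lf (nat_lit 0) (nat_lit 7057215689) (nat_lit 608) (nat_lit 3460439078) (nat_lit 76) (nat_lit 5304766138) (nat_lit 216) (nat_lit 5) (nat_lit 224) (nat_lit 5) (nat_lit 217) (nat_lit 5) (nat_lit 375) (nat_lit 359) (nat_lit 286)) (XT.lf (nat_lit 0) (nat_lit 10897120248) (nat_lit 608) (nat_lit 5001018491) (nat_lit 76) (nat_lit 358745364) (nat_lit 209) (nat_lit 5) (nat_lit 217) (nat_lit 5) (nat_lit 210) (nat_lit 5) (nat_lit 376) (nat_lit 359) (nat_lit 285)))) (XT.nd (nat_lit 156) (nat_lit 912) (nat_lit 0) (XT.nd (nat_lit 78) (nat_lit 608) (nat_lit 0) (XT.lf (nat_lit 0) (nat_lit 10123919907) (nat_lit 456) (nat_lit 5012149416) (nat_lit 532) (nat_lit 1570799032) (nat_lit 203) (nat_lit 5) (nat_lit 209) (nat_lit 5) (nat_lit 210) (nat_lit 5) (nat_lit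 377) (nat_lit 359) (nat_lit 284)) (XT.lf (nat_lit 0) (nat_lit 2531375633) (nat_lit 608) (nat_lit 8189006050) (nat_lit 76) (nat_lit 6453162215) (nat_lit 195) (nat_lit 5) (nat_lit 203) (nat_lit 5) (nat_lit 196) (nat_lit 5) (nat_lit 378) (nat_lit 359) (nat_lit 283))) (XT.nd (nat_lit 78) (nat_lit 456) (nat_lit 0) (XT.lf (nat_lit 0) (nat_lit 6979192394) (nat_lit 532) (nat_lit 9808945716) (nat_lit 76) (nat_lit 869766188) (nat_lit 189) (nat_lit 5) (nat_lit 196) (nat_lit 5) (nat_lit 190) (nat_lit 5) (nat_lit 379) (nat_lit 359) (nat_lit 282)) (XT.lf (nat_lit 0) (nat_lit 6682598341) (nat_lit 456) (nat_lit 5195082610) (nat_lit 532) (nat_lit 6281961201) (nat_lit 183) (nat_lit 5) (nat_lit 189) (nat_lit 5) (nat_lit 190) (nat_lit 5) (nat_lit 380) (nat_lit 359) (nat_lit 281))))))) (XT.nd (nat_lit 936) (nat_lit 3116) (nat_lit 0) (XT.nd (nat_lit 468) (nat_lit 2128) (nat_lit 0) (XT.nd (nat_lit 234) (nat_lit 836)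 (nat_lit 0) (XT.nd (nat_lit 78) (nat_lit 912) (nat_lit 0) (XT.lf (nat_lit 0) (nat_lit 5525444884) (nat_lit 456) (nat_lit 11689534595) (nat_lit 532) (nat_lit 1465678339) (nat_lit 177) (nat_lit 5) (nat_lit 183) (nat_lit 5) (nat_lit 184) (nat_lit 5) (nat_lit 381) (nat_lit 359) (nat_lit 280)) (XT.nd (nat_lit 78) (nat_lit 380) (nat_lit 0) (XT.lf (nat_lit 0) (nat_lit 3713675257) (nat_lit 532) (nat_lit 14870881924) (nat_lit 76) (nat_lit 636368177) (nat_lit 170) (nat_lit 5) (nat_lit 177) (nat_lit 5) (nat_lit 171) (nat_lit 5) (nat_lit 382) (nat_lit 359) (nat_lit 279)) (XT.lf (nat_lit 0) (nat_lit 3114083212) (nat_lit 380) (nat_lit 6265964323) (nat_lit 456) (nat_lit 10399979078) (nat_lit 165) (nat_lit 5) (nat_lit 170) (nat_lit 5) (nat_lit 171) (nat_lit 5) (nat_lit 383) (nat_lit 359) (nat_lit 278)))) (XT.nd (nat_lit 78) (nat_lit 456) (nat_lit 0) (XT.lf (nat_lit 0) (nat_lit 1884088294) (nat_lit 380) (nat_lit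 13656741887) (nat_lit 456) (nat_lit 4819926275) (nat_lit 160) (nat_lit 5) (nat_lit 165) (nat_lit 5) (nat_lit 166) (nat_lit 5) (nat_lit 384) (nat_lit 359) (nat_lit 277)) (XT.nd (nat_lit 78) (nat_lit 0) (nat_lit 0) (XT.lf (nat_lit 0) (nat_lit 649085820) (nat_lit 380) (nat_lit 587448829) (nat_lit 456) (nat_lit 19727163807) (nat_lit 154) (nat_lit 5) (nat_lit 159) (nat_lit 5) (nat_lit 160) (nat_lit 5) (nat_lit 385) (nat_lit 359) (nat_lit 276)) (XT.lf (nat_lit 0) (nat_lit 7791156569) (nat_lit 456) (nat_lit 683509171) (nat_lit 76) (nat_lit 13111845042) (nat_lit 154) (nat_lit 5) (nat_lit 160) (nat_lit 5) (nat_lit 155) (nat_lit 5) (nat_lit 386) (nat_lit 359) (nat_lit 275))))) (XT.nd (nat_lit 234) (nat_lit 988) (nat_lit 0) (XT.nd (nat_lit 78) (nat_lit 760) (nat_lit 0) (XT.lf (nat_lit 0) (nat_lit 14903617052) (nat_lit 456) (nat_lit 1999585198) (nat_lit 76) (nat_lit 5330363514) (nat_lit 149) (nat_lit 5)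 (nat_lit 155) (nat_lit 5) (nat_lit 150) (nat_lit 5) (nat_lit 387) (nat_lit 359) (nat_lit 274)) (XT.nd (nat_lit 78) (nat_lit 456) (nat_lit 0) (XT.lf (nat_lit 0) (nat_lit 19564023640) (nat_lit 304) (nat_lit 3066011559) (nat_lit 380) (nat_lit 275193271) (nat_lit 145) (nat_lit 5) (nat_lit 149) (nat_lit 5) (nat_lit 150) (nat_lit 5) (nat_lit 388) (nat_lit 359) (nat_lit 273)) (XT.lf (nat_lit 0) (nat_lit 7286637919) (nat_lit 456) (nat_lit 4808411719) (nat_lit 76) (nat_lit 11504567066) (nat_lit 139) (nat_lit 5) (nat_lit 145) (nat_lit 5) (nat_lit 140) (nat_lit 5) (nat_lit 389) (nat_lit 359) (nat_lit 272)))) (XT.nd (nat_lit 78) (nat_lit 684) (nat_lit 0) (XT.lf (nat_lit 0) (nat_lit 15464269273) (nat_lit 380) (nat_lit 6286802266) (nat_lit 76) (nat_lit 2570273484) (nat_lit 135) (nat_lit 5) (nat_lit 140) (nat_lit 5) (nat_lit 136) (nat_lit 5) (nat_lit 390) (nat_lit 359) (nat_lit 271)) (XT.nd (nat_lit 78) (nat_lit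 380) (nat_lit 0) (XT.lf (nat_lit 0) (nat_lit 17226135263) (nat_lit 304) (nat_lit 7141798816) (nat_lit 380) (nat_lit 701715329) (nat_lit 131) (nat_lit 5) (nat_lit 135) (nat_lit 5) (nat_lit 136) (nat_lit 5) (nat_lit 391) (nat_lit 359) (nat_lit 270)) (XT.lf (nat_lit 0) (nat_lit 7992746382) (nat_lit 380) (nat_lit 9521499289) (nat_lit 76) (nat_lit 8330318036) (nat_lit 126) (nat_lit 5) (nat_lit 131) (nat_lit 5) (nat_lit 127) (nat_lit 5) (nat_lit 392) (nat_lit 359) (nat_lit 269)))))) (XT.nd (nat_lit 468) (nat_lit 1444) (nat_lit 0) (XT.nd (nat_lit 234) (nat_lit 760) (nat_lit 0) (XT.nd (nat_lit 78) (nat_lit 608) (nat_lit 0) (XT.lf (nat_lit 0) (nat_lit 15397483274) (nat_lit 304) (nat_lit 1992288644) (nat_lit 380) (nat_lit 9259776478) (nat_lit 122) (nat_lit 5) (nat_lit 126) (nat_lit 5) (nat_lit 127) (nat_lit 5) (nat_lit 393) (nat_lit 359) (nat_lit 268)) (XT.nd (nat_lit 78) (nat_lit 304) (nat_lit 0) (XT.lf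 (nat_lit 0) (nat_lit 125938152) (nat_lit 304) (nat_lit 13102350607) (nat_lit 76) (nat_lit 14255782910) (nat_lit 118) (nat_lit 5) (nat_lit 122) (nat_lit 5) (nat_lit 119) (nat_lit 5) (nat_lit 394) (nat_lit 359) (nat_lit 267)) (XT.lf (nat_lit 0) (nat_lit 10068939519) (nat_lit 380) (nat_lit 15089543194) (nat_lit 76) (nat_lit 3190706004) (nat_lit 114) (nat_lit 5) (nat_lit 119) (nat_lit 5) (nat_lit 115) (nat_lit 5) (nat_lit 395) (nat_lit 359) (nat_lit 266)))) (XT.nd (nat_lit 78) (nat_lit 532) (nat_lit 0) (XT.lf (nat_lit 0) (nat_lit 12032054635) (nat_lit 228) (nat_lit 8844534995) (nat_lit 304) (nat_lit 8369950135) (nat_lit 111) (nat_lit 5) (nat_lit 114) (nat_lit 5) (nat_lit 115) (nat_lit 5) (nat_lit 396) (nat_lit 359) (nat_lit 265)) (XT.nd (nat_lit 78) (nat_lit 228) (nat_lit 0) (XT.lf (nat_lit 0) (nat_lit 2321703458) (nat_lit 304) (nat_lit 19459994590) (nat_lit 76) (nat_lit 8396709089) (nat_lit 107)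 (nat_lit 5) (nat_lit 111) (nat_lit 5) (nat_lit 108) (nat_lit 5) (nat_lit 397) (nat_lit 359) (nat_lit 264)) (XT.lf (nat_lit 0) (nat_lit 9233726083) (nat_lit 228) (nat_lit 4482721225) (nat_lit 304) (nat_lit 17427688854) (nat_lit 104) (nat_lit 5) (nat_lit 107) (nat_lit 5) (nat_lit 108) (nat_lit 5) (nat_lit 398) (nat_lit 359) (nat_lit 263))))) (XT.nd (nat_lit 234) (nat_lit 684) (nat_lit 0) (XT.nd (nat_lit 78) (nat_lit 532) (nat_lit 0) (XT.lf (nat_lit 0) (nat_lit 7604837301) (nat_lit 228) (nat_lit 18466482717) (nat_lit 304) (nat_lit 6075122474) (nat_lit 101) (nat_lit 5) (nat_lit 104) (nat_lit 5) (nat_lit 105) (nat_lit 5) (nat_lit 399) (nat_lit 359) (nat_lit 262)) (XT.nd (nat_lit 78) (nat_lit 228) (nat_lit 0) (XT.lf (nat_lit 0) (nat_lit 5845748709) (nat_lit 228) (nat_lit 198331976) (nat_lit 304) (nat_lit 27143708265) (nat_lit 97) (nat_lit 5) (nat_lit 100) (nat_lit 5) (nat_lit 101) (nat_lit 5) (nat_lit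 400) (nat_lit 359) (nat_lit 261)) (XT.lf (nat_lit 0) (nat_lit 3793528272) (nat_lit 228) (nat_lit 15309596541) (nat_lit 304) (nat_lit 15162490008) (nat_lit 94) (nat_lit 5) (nat_lit 97) (nat_lit 5) (nat_lit 98) (nat_lit 5) (nat_lit 401) (nat_lit 359) (nat_lit 260)))) (XT.nd (nat_lit 156) (nat_lit 456) (nat_lit 0) (XT.nd (nat_lit 78) (nat_lit 76) (nat_lit 0) (XT.lf (nat_lit 0) (nat_lit 1634724218) (nat_lit 152) (nat_lit 31502276471) (nat_lit 228) (nat_lit 2250677097) (nat_lit 92) (nat_lit 5) (nat_lit 94) (nat_lit 5) (nat_lit 95) (nat_lit 5) (nat_lit 402) (nat_lit 359) (nat_lit 259)) (XT.lf (nat_lit 0) (nat_lit 11542433727) (nat_lit 228) (nat_lit 864180547) (nat_lit 76) (nat_lit 24142280763) (nat_lit 91) (nat_lit 5) (nat_lit 94) (nat_lit 5) (nat_lit 92) (nat_lit 5) (nat_lit 403) (nat_lit 359) (nat_lit 258))) (XT.nd (nat_lit 78) (nat_lit 228) (nat_lit 0) (XT.lf (nat_lit 0) (nat_lit 26371332763) (nat_lit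 304) (nat_lit 3543327652) (nat_lit 76) (nat_lit 7841065738) (nat_lit 88) (nat_lit 5) (nat_lit 92) (nat_lit 5) (nat_lit 89) (nat_lit 5) (nat_lit 404) (nat_lit 359) (nat_lit 257)) (XT.lf (nat_lit 0) (nat_lit 3299063177) (nat_lit 228) (nat_lit 6518201465) (nat_lit 76) (nat_lit 29191677015) (nat_lit 85) (nat_lit 5) (nat_lit 88) (nat_lit 5) (nat_lit 86) (nat_lit 5) (nat_lit 405) (nat_lit 359) (nat_lit 256))))))))
noncomputable def xc82 : XT := (XT.nd (nat_lit 1950) (nat_lit 380) (nat_lit 0) (XT.nd (nat_lit 936) (nat_lit 1596) (nat_lit 0) (XT.nd (nat_lit 468) (nat_lit 912) (nat_lit 0) (XT.nd (nat_lit 234) (nat_lit 532) (nat_lit 0) (XT.nd (nat_lit 78) (nat_lit 380) (nat_lit 0) (XT.lf (nat_lit 0) (nat_lit 18912995338) (nat_lit 304) (nat_lit 9890391763) (nat_lit 76) (nat_lit 11505098544) (nat_lit 82) (nat_lit 5) (nat_lit 86) (nat_lit 5) (nat_lit 83) (nat_lit 5) (nat_lit 406) (nat_lit 359) (nat_lit 255))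 (XT.nd (nat_lit 78) (nat_lit 228) (nat_lit 0) (XT.lf (nat_lit 0) (nat_lit 28092075655) (nat_lit 152) (nat_lit 7639194688) (nat_lit 228) (nat_lit 5929028714) (nat_lit 80) (nat_lit 5) (nat_lit 82) (nat_lit 5) (nat_lit 83) (nat_lit 5) (nat_lit 407) (nat_lit 359) (nat_lit 254)) (XT.lf (nat_lit 0) (nat_lit 10588852999) (nat_lit 228) (nat_lit 17732830392) (nat_lit 76) (nat_lit 14740668932) (nat_lit 77) (nat_lit 5) (nat_lit 80) (nat_lit 5) (nat_lit 78) (nat_lit 5) (nat_lit 408) (nat_lit 359) (nat_lit 253)))) (XT.nd (nat_lit 78) (nat_lit 380) (nat_lit 0) (XT.lf (nat_lit 0) (nat_lit 22198183153) (nat_lit 152) (nat_lit 6031872272) (nat_lit 228) (nat_lit 16290091708) (nat_lit 75) (nat_lit 5) (nat_lit 77) (nat_lit 5) (nat_lit 78) (nat_lit 5) (nat_lit 409) (nat_lit 359) (nat_lit 252)) (XT.nd (nat_lit 78) (nat_lit 152) (nat_lit 0) (XT.lf (nat_lit 0) (nat_lit 1211949595) (nat_lit 228) (nat_lit 27423274677)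 (nat_lit 76) (nat_lit 17399711004) (nat_lit 72) (nat_lit 5) (nat_lit 75) (nat_lit 5) (nat_lit 73) (nat_lit 5) (nat_lit 410) (nat_lit 359) (nat_lit 251)) (XT.lf (nat_lit 0) (nat_lit 14473418307) (nat_lit 152) (nat_lit 5201909585) (nat_lit 228) (nat_lit 27932603375) (nat_lit 70) (nat_lit 5) (nat_lit 72) (nat_lit 5) (nat_lit 73) (nat_lit 5) (nat_lit 411) (nat_lit 359) (nat_lit 250))))) (XT.nd (nat_lit 234) (nat_lit 532) (nat_lit 0) (XT.nd (nat_lit 78) (nat_lit 228) (nat_lit 0) (XT.lf (nat_lit 0) (nat_lit 9767238899) (nat_lit 152) (nat_lit 29848360223) (nat_lit 228) (nat_lit 9627367404) (nat_lit 68) (nat_lit 5) (nat_lit 70) (nat_lit 5) (nat_lit 71) (nat_lit 5) (nat_lit 412) (nat_lit 359) (nat_lit 249)) (XT.nd (nat_lit 78) (nat_lit 0) (nat_lit 0) (XT.lf (nat_lit 0) (nat_lit 4475631370) (nat_lit 152) (nat_lit 5358775446) (nat_lit 228) (nat_lit 41109727196) (nat_lit 65) (nat_lit 5) (nat_lit 67) (nat_lit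 5) (nat_lit 68) (nat_lit 5) (nat_lit 413) (nat_lit 359) (nat_lit 248)) (XT.lf (nat_lit 0) (nat_lit 30666820906) (nat_lit 228) (nat_lit 1585786859) (nat_lit 76) (nat_lit 20456993745) (nat_lit 65) (nat_lit 5) (nat_lit 68) (nat_lit 5) (nat_lit 66) (nat_lit 5) (nat_lit 414) (nat_lit 359) (nat_lit 247)))) (XT.nd (nat_lit 78) (nat_lit 380) (nat_lit 0) (XT.lf (nat_lit 0) (nat_lit 46372596866) (nat_lit 152) (nat_lit 6657394011) (nat_lit 228) (nat_lit 1518678451) (nat_lit 63) (nat_lit 5) (nat_lit 65) (nat_lit 5) (nat_lit 66) (nat_lit 5) (nat_lit 415) (nat_lit 359) (nat_lit 246)) (XT.nd (nat_lit 78) (nat_lit 152) (nat_lit 0) (XT.lf (nat_lit 0) (nat_lit 20239814624) (nat_lit 228) (nat_lit 15793490501) (nat_lit 76) (nat_lit 20422637395) (nat_lit 60) (nat_lit 5) (nat_lit 63) (nat_lit 5) (nat_lit 61) (nat_lit 5) (nat_lit 416) (nat_lit 359) (nat_lit 245)) (XT.lf (nat_lit 0) (nat_lit 34223554685) (nat_lit 152)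 (nat_lit 9302488238) (nat_lit 228) (nat_lit 14917949662) (nat_lit 58) (nat_lit 5) (nat_lit 60) (nat_lit 5) (nat_lit 61) (nat_lit 5) (nat_lit 417) (nat_lit 359) (nat_lit 244)))))) (XT.nd (nat_lit 468) (nat_lit 836) (nat_lit 0) (XT.nd (nat_lit 234) (nat_lit 380) (nat_lit 0) (XT.nd (nat_lit 78) (nat_lit 228) (nat_lit 0) (XT.lf (nat_lit 0) (nat_lit 7898566336) (nat_lit 152) (nat_lit 33722159742) (nat_lit 76) (nat_lit 18890611563) (nat_lit 56) (nat_lit 5) (nat_lit 58) (nat_lit 5) (nat_lit 57) (nat_lit 5) (nat_lit 418) (nat_lit 359) (nat_lit 243)) (XT.nd (nat_lit 78) (nat_lit 76) (nat_lit 0) (XT.lf (nat_lit 0) (nat_lit 18272495450) (nat_lit 152) (nat_lit 13789290325) (nat_lit 228) (nat_lit 30600401765) (nat_lit 54) (nat_lit 5) (nat_lit 56) (nat_lit 5) (nat_lit 57) (nat_lit 5) (nat_lit 419) (nat_lit 359) (nat_lit 242)) (XT.lf (nat_lit 0) (nat_lit 8660952967) (nat_lit 76) (nat_lit 49344825543) (nat_lit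 152) (nat_lit 6897623791) (nat_lit 53) (nat_lit 5) (nat_lit 54) (nat_lit 5) (nat_lit 55) (nat_lit 4) (nat_lit 420) (nat_lit 359) (nat_lit 241)))) (XT.nd (nat_lit 78) (nat_lit 304) (nat_lit 0) (XT.lf (nat_lit 0) (nat_lit 18230514462) (nat_lit 152) (nat_lit 2285212094) (nat_lit 76) (nat_lit 46718025613) (nat_lit 52) (nat_lit 5) (nat_lit 54) (nat_lit 5) (nat_lit 53) (nat_lit 5) (nat_lit 421) (nat_lit 359) (nat_lit 240)) (XT.nd (nat_lit 78) (nat_lit 152) (nat_lit 0) (XT.lf (nat_lit 0) (nat_lit 45096648529) (nat_lit 228) (nat_lit 14398392450) (nat_lit 76) (nat_lit 10164803132) (nat_lit 50) (nat_lit 5) (nat_lit 53) (nat_lit 5) (nat_lit 51) (nat_lit 4) (nat_lit 422) (nat_lit 359) (nat_lit 239)) (XT.lf (nat_lit 0) (nat_lit 1730443461) (nat_lit 152) (nat_lit 28039865527) (nat_lit 76) (nat_lit 42417024259) (nat_lit 48) (nat_lit 5) (nat_lit 50) (nat_lit 5) (nat_lit 49) (nat_lit 5) (nat_lit 423) (nat_lit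 359) (nat_lit 238))))) (XT.nd (nat_lit 234) (nat_lit 380) (nat_lit 0) (XT.nd (nat_lit 78) (nat_lit 304) (nat_lit 0) (XT.lf (nat_lit 0) (nat_lit 29299472951) (nat_lit 228) (nat_lit 43408380517) (nat_lit 76) (nat_lit 2111986553) (nat_lit 46) (nat_lit 5) (nat_lit 49) (nat_lit 5) (nat_lit 47) (nat_lit 4) (nat_lit 424) (nat_lit 359) (nat_lit 237)) (XT.nd (nat_lit 78) (nat_lit 228) (nat_lit 0) (XT.lf (nat_lit 0) (nat_lit 16855902825) (nat_lit 76) (nat_lit 42136699611) (nat_lit 152) (nat_lit 18569000788) (nat_lit 45) (nat_lit 5) (nat_lit 46) (nat_lit 5) (nat_lit 47) (nat_lit 4) (nat_lit 425) (nat_lit 359) (nat_lit 236)) (XT.lf (nat_lit 0) (nat_lit 510074933) (nat_lit 152) (nat_lit 9477979122) (nat_lit 228) (nat_lit 70436155545) (nat_lit 42) (nat_lit 5) (nat_lit 44) (nat_lit 5) (nat_lit 45) (nat_lit 5) (nat_lit 426) (nat_lit 359) (nat_lit 235)))) (XT.nd (nat_lit 156) (nat_lit 304) (nat_lit 0) (XT.nd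 (nat_lit 78) (nat_lit 76) (nat_lit 0) (XT.lf (nat_lit 0) (nat_lit 40454106386) (nat_lit 228) (nat_lit 17803235767) (nat_lit 76) (nat_lit 25141133672) (nat_lit 42) (nat_lit 5) (nat_lit 45) (nat_lit 5) (nat_lit 43) (nat_lit 4) (nat_lit 427) (nat_lit 359) (nat_lit 234)) (XT.lf (nat_lit 0) (nat_lit 48244576150) (nat_lit 76) (nat_lit 24750673790) (nat_lit 152) (nat_lit 13509652220) (nat_lit 41) (nat_lit 5) (nat_lit 42) (nat_lit 5) (nat_lit 43) (nat_lit 4) (nat_lit 428) (nat_lit 359) (nat_lit 233))) (XT.nd (nat_lit 78) (nat_lit 76) (nat_lit 0) (XT.lf (nat_lit 0) (nat_lit 17616080687) (nat_lit 228) (nat_lit 61274288975) (nat_lit 76) (nat_lit 10854501091) (nat_lit 38) (nat_lit 5) (nat_lit 41) (nat_lit 5) (nat_lit 39) (nat_lit 4) (nat_lit 429) (nat_lit 359) (nat_lit 232)) (XT.lf (nat_lit 0) (nat_lit 5913993010) (nat_lit 76) (nat_lit 44804409297) (nat_lit 152) (nat_lit 42403432029) (nat_lit 37) (nat_lit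 5) (nat_lit 38) (nat_lit 5) (nat_lit 39) (nat_lit 4) (nat_lit 430) (nat_lit 359) (nat_lit 231))))))) (XT.nd (nat_lit 48204) (nat_lit 0) (nat_lit 11932) (XT.nd (nat_lit 47736) (nat_lit 0) (nat_lit 18468) (XT.nd (nat_lit 312) (nat_lit 152) (nat_lit 0) (XT.nd (nat_lit 78) (nat_lit 228) (nat_lit 0) (XT.lf (nat_lit 0) (nat_lit 77728658275) (nat_lit 76) (nat_lit 8370850967) (nat_lit 152) (nat_lit 10549427163) (nat_lit 37) (nat_lit 5) (nat_lit 38) (nat_lit 5) (nat_lit 39) (nat_lit 4) (nat_lit 431) (nat_lit 359) (nat_lit 230)) (XT.nd (nat_lit 78) (nat_lit 76) (nat_lit 0) (XT.lf (nat_lit 0) (nat_lit 23253314778) (nat_lit 152) (nat_lit 47030624975) (nat_lit 76) (nat_lit 30037765744) (nat_lit 35) (nat_lit 5) (nat_lit 37) (nat_lit 5) (nat_lit 36) (nat_lit 4) (nat_lit 432) (nat_lit 359) (nat_lit 229)) (XT.lf (nat_lit 0) (nat_lit 25630618787) (nat_lit 76) (nat_lit 33420308428) (nat_lit 152) (nat_lit 45108365322)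 (nat_lit 34) (nat_lit 5) (nat_lit 35) (nat_lit 5) (nat_lit 36) (nat_lit 4) (nat_lit 433) (nat_lit 359) (nat_lit 228)))) (XT.nd (nat_lit 47268) (nat_lit 0) (nat_lit 18392) (XT.lf (nat_lit 0) (nat_lit 25366331036) (nat_lit 152) (nat_lit 40018455219) (nat_lit 76) (nat_lit 46963794925) (nat_lit 32) (nat_lit 5) (nat_lit 34) (nat_lit 5) (nat_lit 33) (nat_lit 4) (nat_lit 435) (nat_lit 359) (nat_lit 226)) (XT.nd (nat_lit 78) (nat_lit 0) (nat_lit 0) (XT.lf (nat_lit 0) (nat_lit 460850455) (nat_lit 0) (nat_lit 460850455) (nat_lit 1140) (nat_lit 4663700199) (nat_lit 274) (nat_lit 5) (nat_lit 274) (nat_lit 3) (nat_lit 289) (nat_lit 3) (nat_lit 360) (nat_lit 360) (nat_lit 300)) (XT.lf (nat_lit 0) (nat_lit 2864681899) (nat_lit 1140) (nat_lit 1264574970) (nat_lit 1216) (nat_lit 7291252012) (nat_lit 274) (nat_lit 5) (nat_lit 289) (nat_lit 3) (nat_lit 290) (nat_lit 5) (nat_lit 361) (nat_lit 360) (nat_lit 299)))))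 (XT.nd (nat_lit 234) (nat_lit 0) (nat_lit 152) (XT.nd (nat_lit 78) (nat_lit 0) (nat_lit 76) (XT.lf (nat_lit 0) (nat_lit 4010001434) (nat_lit 1140) (nat_lit 3432627306) (nat_lit 1216) (nat_lit 4237902559) (nat_lit 275) (nat_lit 5) (nat_lit 290) (nat_lit 5) (nat_lit 291) (nat_lit 5) (nat_lit 362) (nat_lit 360) (nat_lit 298)) (XT.nd (nat_lit 78) (nat_lit 0) (nat_lit 0) (XT.lf (nat_lit 0) (nat_lit 5284104062) (nat_lit 1140) (nat_lit 5602602711) (nat_lit 1216) (nat_lit 1064721300) (nat_lit 276) (nat_lit 5) (nat_lit 291) (nat_lit 5) (nat_lit 292) (nat_lit 5) (nat_lit 363) (nat_lit 360) (nat_lit 297)) (XT.lf (nat_lit 76) (nat_lit 4434467281) (nat_lit 0) (nat_lit 2288520930) (nat_lit 1216) (nat_lit 5509867038) (nat_lit 277) (nat_lit 5) (nat_lit 276) (nat_lit 5) (nat_lit 292) (nat_lit 5) (nat_lit 364) (nat_lit 360) (nat_lit 296)))) (XT.nd (nat_lit 78) (nat_lit 0) (nat_lit 76) (XT.lf (nat_lit 76) (nat_lit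 2513921612) (nat_lit 0) (nat_lit 5817095342) (nat_lit 1216) (nat_lit 4194437826) (nat_lit 278) (nat_lit 5) (nat_lit 277) (nat_lit 5) (nat_lit 293) (nat_lit 5) (nat_lit 365) (nat_lit 360) (nat_lit 295)) (XT.nd (nat_lit 78) (nat_lit 0) (nat_lit 0) (XT.lf (nat_lit 76) (nat_lit 596761218) (nat_lit 0) (nat_lit 9516076231) (nat_lit 1216) (nat_lit 2717061324) (nat_lit 279) (nat_lit 5) (nat_lit 278) (nat_lit 5) (nat_lit 294) (nat_lit 5) (nat_lit 366) (nat_lit 360) (nat_lit 294)) (XT.lf (nat_lit 76) (nat_lit 11851521883) (nat_lit 0) (nat_lit 247598899) (nat_lit 1216) (nat_lit 1046998456) (nat_lit 279) (nat_lit 5) (nat_lit 278) (nat_lit 5) (nat_lit 294) (nat_lit 5) (nat_lit 367) (nat_lit 360) (nat_lit 293)))))) (XT.nd (nat_lit 468) (nat_lit 3268) (nat_lit 0) (XT.nd (nat_lit 234) (nat_lit 2356) (nat_lit 0) (XT.nd (nat_lit 78) (nat_lit 0) (nat_lit 76) (XT.lf (nat_lit 0) (nat_lit 840546303) (nat_lit 1216)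 (nat_lit 3215103087) (nat_lit 1292) (nat_lit 9417878846) (nat_lit 263) (nat_lit 5) (nat_lit 279) (nat_lit 5) (nat_lit 280) (nat_lit 5) (nat_lit 368) (nat_lit 360) (nat_lit 292)) (XT.nd (nat_lit 78) (nat_lit 0) (nat_lit 76) (XT.lf (nat_lit 0) (nat_lit 2915008382) (nat_lit 1216) (nat_lit 5148418521) (nat_lit 1292) (nat_lit 5750157566) (nat_lit 264) (nat_lit 5) (nat_lit 280) (nat_lit 5) (nat_lit 281) (nat_lit 5) (nat_lit 369) (nat_lit 360) (nat_lit 291)) (XT.lf (nat_lit 0) (nat_lit 5213716280) (nat_lit 1216) (nat_lit 7085018848) (nat_lit 76) (nat_lit 1868305640) (nat_lit 265) (nat_lit 5) (nat_lit 281) (nat_lit 5) (nat_lit 266) (nat_lit 5) (nat_lit 370) (nat_lit 360) (nat_lit 290)))) (XT.nd (nat_lit 78) (nat_lit 1292) (nat_lit 0) (XT.lf (nat_lit 0) (nat_lit 5486463561) (nat_lit 1216) (nat_lit 2289807086) (nat_lit 1292) (nat_lit 6757444225) (nat_lit 249) (nat_lit 5) (nat_lit 265) (nat_lit 5) (nat_lit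 266) (nat_lit 5) (nat_lit 371) (nat_lit 360) (nat_lit 289)) (XT.nd (nat_lit 78) (nat_lit 608) (nat_lit 0) (XT.lf (nat_lit 0) (nat_lit 3880140058) (nat_lit 684) (nat_lit 6739614549) (nat_lit 760) (nat_lit 4294395752) (nat_lit 240) (nat_lit 5) (nat_lit 249) (nat_lit 5) (nat_lit 250) (nat_lit 5) (nat_lit 372) (nat_lit 360) (nat_lit 288)) (XT.lf (nat_lit 0) (nat_lit 2282308372) (nat_lit 608) (nat_lit 11462847564) (nat_lit 684) (nat_lit 1564270563) (nat_lit 232) (nat_lit 5) (nat_lit 240) (nat_lit 5) (nat_lit 241) (nat_lit 5) (nat_lit 373) (nat_lit 360) (nat_lit 287))))) (XT.nd (nat_lit 234) (nat_lit 2052) (nat_lit 0) (XT.nd (nat_lit 78) (nat_lit 532) (nat_lit 0) (XT.lf (nat_lit 0) (nat_lit 671654380) (nat_lit 608) (nat_lit 759831378) (nat_lit 684) (nat_lit 14287979291) (nat_lit 223) (nat_lit 5) (nat_lit 231) (nat_lit 5) (nat_lit 232) (nat_lit 5) (nat_lit 374) (nat_lit 360) (nat_lit 286)) (XT.nd (nat_lit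 78) (nat_lit 532) (nat_lit 0) (XT.lf (nat_lit 0) (nat_lit 4747821620) (nat_lit 684) (nat_lit 970022378) (nat_lit 76) (nat_lit 10425612436) (nat_lit 223) (nat_lit 5) (nat_lit 232) (nat_lit 5) (nat_lit 224) (nat_lit 5) (nat_lit 375) (nat_lit 360) (nat_lit 285)) (XT.lf (nat_lit 0) (nat_lit 8395774786) (nat_lit 608) (nat_lit 2594279604) (nat_lit 76) (nat_lit 5593628356) (nat_lit 216) (nat_lit 5) (nat_lit 224) (nat_lit 5) (nat_lit 217) (nat_lit 5) (nat_lit 376) (nat_lit 360) (nat_lit 284)))) (XT.nd (nat_lit 156) (nat_lit 1064) (nat_lit 0) (XT.nd (nat_lit 78) (nat_lit 456) (nat_lit 0) (XT.lf (nat_lit 0) (nat_lit 12391025165) (nat_lit 608) (nat_lit 4213533189) (nat_lit 76) (nat_lit 436423959) (nat_lit 209) (nat_lit 5) (nat_lit 217) (nat_lit 5) (nat_lit 210) (nat_lit 5) (nat_lit 377) (nat_lit 360) (nat_lit 283)) (XT.lf (nat_lit 0) (nat_lit 11637911362) (nat_lit 456) (nat_lit 5168505073) (nat_lit 532)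 (nat_lit 708127572) (nat_lit 203) (nat_lit 5) (nat_lit 209) (nat_lit 5) (nat_lit 210) (nat_lit 5) (nat_lit 378) (nat_lit 360) (nat_lit 282))) (XT.nd (nat_lit 78) (nat_lit 456) (nat_lit 0) (XT.lf (nat_lit 0) (nat_lit 3547471180) (nat_lit 608) (nat_lit 7575609428) (nat_lit 76) (nat_lit 6882212928) (nat_lit 195) (nat_lit 5) (nat_lit 203) (nat_lit 5) (nat_lit 196) (nat_lit 5) (nat_lit 379) (nat_lit 360) (nat_lit 281)) (XT.lf (nat_lit 0) (nat_lit 8186185841) (nat_lit 532) (nat_lit 9281249063) (nat_lit 76) (nat_lit 1047393354) (nat_lit 189) (nat_lit 5) (nat_lit 196) (nat_lit 5) (nat_lit 190) (nat_lit 5) (nat_lit 380) (nat_lit 360) (nat_lit 280))))))))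
noncomputable def xc83 : XT := (XT.nd (nat_lit 1950) (nat_lit 3800) (nat_lit 0) (XT.nd (nat_lit 936) (nat_lit 3268) (nat_lit 0) (XT.nd (nat_lit 468) (nat_lit 1748) (nat_lit 0) (XT.nd (nat_lit 234) (nat_lit 1216) (nat_lit 0) (XT.nd (nat_lit 78) (nat_lit 988) (nat_lit 0) (XT.lf (nat_lit 0) (nat_lit 8005687306) (nat_lit 456) (nat_lit 5292559245) (nat_lit 532) (nat_lit 5744357984) (nat_lit 183) (nat_lit 5) (nat_lit 189) (nat_lit 5) (nat_lit 190) (nat_lit 5) (nat_lit 381) (nat_lit 360) (nat_lit 279)) (XT.nd (nat_lit 78) (nat_lit 532) (nat_lit 0) (XT.lf (nat_lit 0) (nat_lit 6785115206) (nat_lit 456) (nat_lit 12088867664) (nat_lit 532) (nat_lit 716551371) (nat_lit 177) (nat_lit 5) (nat_lit 183) (nat_lit 5) (nat_lit 184) (nat_lit 5) (nat_lit 382) (nat_lit 360) (nat_lit 278)) (XT.lf (nat_lit 0) (nat_lit 4678519200) (nat_lit 532) (nat_lit 14621781608) (nat_lit 76) (nat_lit 858102914) (nat_lit 170) (nat_lit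 5) (nat_lit 177) (nat_lit 5) (nat_lit 171) (nat_lit 5) (nat_lit 383) (nat_lit 360) (nat_lit 277)))) (XT.nd (nat_lit 78) (nat_lit 836) (nat_lit 0) (XT.lf (nat_lit 0) (nat_lit 4233977832) (nat_lit 380) (nat_lit 6366397783) (nat_lit 456) (nat_lit 10145928655) (nat_lit 165) (nat_lit 5) (nat_lit 170) (nat_lit 5) (nat_lit 171) (nat_lit 5) (nat_lit 384) (nat_lit 360) (nat_lit 276)) (XT.nd (nat_lit 78) (nat_lit 456) (nat_lit 0) (XT.lf (nat_lit 0) (nat_lit 2934929614) (nat_lit 380) (nat_lit 14109634892) (nat_lit 456) (nat_lit 4312253842) (nat_lit 160) (nat_lit 5) (nat_lit 165) (nat_lit 5) (nat_lit 166) (nat_lit 5) (nat_lit 385) (nat_lit 360) (nat_lit 275)) (XT.lf (nat_lit 0) (nat_lit 1625110835) (nat_lit 380) (nat_lit 381425033) (nat_lit 456) (nat_lit 19983940329) (nat_lit 154) (nat_lit 5) (nat_lit 159) (nat_lit 5) (nat_lit 160) (nat_lit 5) (nat_lit 386) (nat_lit 360) (nat_lit 274))))) (XT.nd (nat_lit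 234) (nat_lit 988) (nat_lit 0) (XT.nd (nat_lit 78) (nat_lit 380) (nat_lit 0) (XT.lf (nat_lit 0) (nat_lit 203151135) (nat_lit 380) (nat_lit 8656122987) (nat_lit 456) (nat_lit 13786051170) (nat_lit 149) (nat_lit 5) (nat_lit 154) (nat_lit 5) (nat_lit 155) (nat_lit 5) (nat_lit 387) (nat_lit 360) (nat_lit 273)) (XT.nd (nat_lit 78) (nat_lit 380) (nat_lit 0) (XT.lf (nat_lit 0) (nat_lit 16304030686) (nat_lit 456) (nat_lit 1191523850) (nat_lit 76) (nat_lit 5829885641) (nat_lit 149) (nat_lit 5) (nat_lit 155) (nat_lit 5) (nat_lit 150) (nat_lit 5) (nat_lit 388) (nat_lit 360) (nat_lit 272)) (XT.lf (nat_lit 0) (nat_lit 355594872) (nat_lit 380) (nat_lit 2610624305) (nat_lit 76) (nat_lit 21065050944) (nat_lit 144) (nat_lit 5) (nat_lit 149) (nat_lit 5) (nat_lit 145) (nat_lit 5) (nat_lit 389) (nat_lit 360) (nat_lit 271)))) (XT.nd (nat_lit 78) (nat_lit 608) (nat_lit 0) (XT.lf (nat_lit 0) (nat_lit 8270236207) (nat_lit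 456) (nat_lit 4163411587) (nat_lit 76) (nat_lit 12327242399) (nat_lit 139) (nat_lit 5) (nat_lit 145) (nat_lit 5) (nat_lit 140) (nat_lit 5) (nat_lit 390) (nat_lit 360) (nat_lit 270)) (XT.nd (nat_lit 78) (nat_lit 304) (nat_lit 0) (XT.lf (nat_lit 0) (nat_lit 16838045948) (nat_lit 380) (nat_lit 5725555994) (nat_lit 76) (nat_lit 2955670242) (nat_lit 135) (nat_lit 5) (nat_lit 140) (nat_lit 5) (nat_lit 136) (nat_lit 5) (nat_lit 391) (nat_lit 360) (nat_lit 269)) (XT.lf (nat_lit 0) (nat_lit 18937929904) (nat_lit 304) (nat_lit 7228541253) (nat_lit 380) (nat_lit 139139184) (nat_lit 131) (nat_lit 5) (nat_lit 135) (nat_lit 5) (nat_lit 136) (nat_lit 5) (nat_lit 392) (nat_lit 360) (nat_lit 268)))))) (XT.nd (nat_lit 468) (nat_lit 1444) (nat_lit 0) (XT.nd (nat_lit 234) (nat_lit 836) (nat_lit 0) (XT.nd (nat_lit 78) (nat_lit 608) (nat_lit 0) (XT.lf (nat_lit 0) (nat_lit 8961138248) (nat_lit 380) (nat_lit 9145542589)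 (nat_lit 76) (nat_lit 9012939933) (nat_lit 126) (nat_lit 5) (nat_lit 131) (nat_lit 5) (nat_lit 127) (nat_lit 5) (nat_lit 393) (nat_lit 360) (nat_lit 267)) (XT.nd (nat_lit 78) (nat_lit 304) (nat_lit 0) (XT.lf (nat_lit 0) (nat_lit 16994965785) (nat_lit 304) (nat_lit 1813921203) (nat_lit 380) (nat_lit 9156546713) (nat_lit 122) (nat_lit 5) (nat_lit 126) (nat_lit 5) (nat_lit 127) (nat_lit 5) (nat_lit 394) (nat_lit 360) (nat_lit 266)) (XT.lf (nat_lit 0) (nat_lit 671473323) (nat_lit 304) (nat_lit 12929234616) (nat_lit 76) (nat_lit 15241294633) (nat_lit 118) (nat_lit 5) (nat_lit 122) (nat_lit 5) (nat_lit 119) (nat_lit 5) (nat_lit 395) (nat_lit 360) (nat_lit 265)))) (XT.nd (nat_lit 78) (nat_lit 532) (nat_lit 0) (XT.lf (nat_lit 0) (nat_lit 11096402300) (nat_lit 380) (nat_lit 15026520470) (nat_lit 76) (nat_lit 3627913925) (nat_lit 114) (nat_lit 5) (nat_lit 119) (nat_lit 5) (nat_lit 115) (nat_lit 5) (nat_lit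 396) (nat_lit 360) (nat_lit 264)) (XT.nd (nat_lit 78) (nat_lit 304) (nat_lit 0) (XT.lf (nat_lit 0) (nat_lit 13427723781) (nat_lit 228) (nat_lit 8999391053) (nat_lit 304) (nat_lit 8266464395) (nat_lit 111) (nat_lit 5) (nat_lit 114) (nat_lit 5) (nat_lit 115) (nat_lit 5) (nat_lit 397) (nat_lit 360) (nat_lit 263)) (XT.lf (nat_lit 0) (nat_lit 2935477452) (nat_lit 304) (nat_lit 19639538444) (nat_lit 76) (nat_lit 9097300812) (nat_lit 107) (nat_lit 5) (nat_lit 111) (nat_lit 5) (nat_lit 108) (nat_lit 5) (nat_lit 398) (nat_lit 360) (nat_lit 262))))) (XT.nd (nat_lit 234) (nat_lit 684) (nat_lit 0) (XT.nd (nat_lit 78) (nat_lit 532) (nat_lit 0) (XT.lf (nat_lit 0) (nat_lit 10466124010) (nat_lit 228) (nat_lit 4417543569) (nat_lit 304) (nat_lit 17803157148) (nat_lit 104) (nat_lit 5) (nat_lit 107) (nat_lit 5) (nat_lit 108) (nat_lit 5) (nat_lit 399) (nat_lit 360) (nat_lit 261)) (XT.nd (nat_lit 78) (nat_lit 304)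 (nat_lit 0) (XT.lf (nat_lit 0) (nat_lit 8745099234) (nat_lit 228) (nat_lit 19098215387) (nat_lit 304) (nat_lit 5896324465) (nat_lit 101) (nat_lit 5) (nat_lit 104) (nat_lit 5) (nat_lit 105) (nat_lit 5) (nat_lit 400) (nat_lit 360) (nat_lit 260)) (XT.lf (nat_lit 0) (nat_lit 6804859599) (nat_lit 304) (nat_lit 27948674603) (nat_lit 76) (nat_lit 79819751) (nat_lit 97) (nat_lit 5) (nat_lit 101) (nat_lit 5) (nat_lit 98) (nat_lit 5) (nat_lit 401) (nat_lit 360) (nat_lit 259)))) (XT.nd (nat_lit 156) (nat_lit 304) (nat_lit 0) (XT.nd (nat_lit 78) (nat_lit 152) (nat_lit 0) (XT.lf (nat_lit 0) (nat_lit 4719929253) (nat_lit 228) (nat_lit 15784078118) (nat_lit 304) (nat_lit 15461452406) (nat_lit 94) (nat_lit 5) (nat_lit 97) (nat_lit 5) (nat_lit 98) (nat_lit 5) (nat_lit 402) (nat_lit 360) (nat_lit 258)) (XT.lf (nat_lit 0) (nat_lit 2442400516) (nat_lit 152) (nat_lit 32785593693) (nat_lit 228) (nat_lit 1915982214)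 (nat_lit 92) (nat_lit 5) (nat_lit 94) (nat_lit 5) (nat_lit 95) (nat_lit 5) (nat_lit 403) (nat_lit 360) (nat_lit 257))) (XT.nd (nat_lit 78) (nat_lit 228) (nat_lit 0) (XT.lf (nat_lit 0) (nat_lit 12537176075) (nat_lit 228) (nat_lit 207650237) (nat_lit 76) (nat_lit 25618928501) (nat_lit 91) (nat_lit 5) (nat_lit 94) (nat_lit 5) (nat_lit 92) (nat_lit 5) (nat_lit 404) (nat_lit 360) (nat_lit 256)) (XT.lf (nat_lit 0) (nat_lit 28096814327) (nat_lit 304) (nat_lit 3031278335) (nat_lit 76) (nat_lit 8503158679) (nat_lit 88) (nat_lit 5) (nat_lit 92) (nat_lit 5) (nat_lit 89) (nat_lit 5) (nat_lit 405) (nat_lit 360) (nat_lit 255))))))) (XT.nd (nat_lit 936) (nat_lit 1672) (nat_lit 0) (XT.nd (nat_lit 468) (nat_lit 912) (nat_lit 0) (XT.nd (nat_lit 234) (nat_lit 608) (nat_lit 0) (XT.nd (nat_lit 78) (nat_lit 380) (nat_lit 0) (XT.lf (nat_lit 0) (nat_lit 3861940459) (nat_lit 228) (nat_lit 6166682971) (nat_lit 76) (nat_lit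 30918777959) (nat_lit 85) (nat_lit 5) (nat_lit 88) (nat_lit 5) (nat_lit 86) (nat_lit 5) (nat_lit 406) (nat_lit 360) (nat_lit 254)) (XT.nd (nat_lit 78) (nat_lit 152) (nat_lit 0) (XT.lf (nat_lit 0) (nat_lit 20246567109) (nat_lit 304) (nat_lit 9717916308) (nat_lit 76) (nat_lit 12347741585) (nat_lit 82) (nat_lit 5) (nat_lit 86) (nat_lit 5) (nat_lit 83) (nat_lit 5) (nat_lit 407) (nat_lit 360) (nat_lit 253)) (XT.lf (nat_lit 0) (nat_lit 30144555201) (nat_lit 152) (nat_lit 7748955964) (nat_lit 228) (nat_lit 5838487511) (nat_lit 80) (nat_lit 5) (nat_lit 82) (nat_lit 5) (nat_lit 83) (nat_lit 5) (nat_lit 408) (nat_lit 360) (nat_lit 252)))) (XT.nd (nat_lit 78) (nat_lit 380) (nat_lit 0) (XT.lf (nat_lit 0) (nat_lit 11488375840) (nat_lit 228) (nat_lit 17974310987) (nat_lit 76) (nat_lit 15741639084) (nat_lit 77) (nat_lit 5) (nat_lit 80) (nat_lit 5) (nat_lit 78) (nat_lit 5) (nat_lit 409) (nat_lit 360) (nat_lit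 251)) (XT.nd (nat_lit 78) (nat_lit 228) (nat_lit 0) (XT.lf (nat_lit 0) (nat_lit 23934759827) (nat_lit 152) (nat_lit 6065279606) (nat_lit 228) (nat_lit 16735320980) (nat_lit 75) (nat_lit 5) (nat_lit 77) (nat_lit 5) (nat_lit 78) (nat_lit 5) (nat_lit 410) (nat_lit 360) (nat_lit 250)) (XT.lf (nat_lit 0) (nat_lit 1625841260) (nat_lit 228) (nat_lit 28170685700) (nat_lit 76) (nat_lit 18529519602) (nat_lit 72) (nat_lit 5) (nat_lit 75) (nat_lit 5) (nat_lit 73) (nat_lit 5) (nat_lit 411) (nat_lit 360) (nat_lit 249))))) (XT.nd (nat_lit 234) (nat_lit 380) (nat_lit 0) (XT.nd (nat_lit 78) (nat_lit 380) (nat_lit 0) (XT.lf (nat_lit 0) (nat_lit 15802962186) (nat_lit 152) (nat_lit 5198426774) (nat_lit 228) (nat_lit 28976635122) (nat_lit 70) (nat_lit 5) (nat_lit 72) (nat_lit 5) (nat_lit 73) (nat_lit 5) (nat_lit 412) (nat_lit 360) (nat_lit 248)) (XT.nd (nat_lit 78) (nat_lit 228) (nat_lit 0) (XT.lf (nat_lit 0) (nat_lit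 10851653926) (nat_lit 152) (nat_lit 31078862732) (nat_lit 228) (nat_lit 9764540823) (nat_lit 68) (nat_lit 5) (nat_lit 70) (nat_lit 5) (nat_lit 71) (nat_lit 5) (nat_lit 413) (nat_lit 360) (nat_lit 247)) (XT.lf (nat_lit 0) (nat_lit 5284935587) (nat_lit 152) (nat_lit 5368228037) (nat_lit 228) (nat_lit 42828335255) (nat_lit 65) (nat_lit 5) (nat_lit 67) (nat_lit 5) (nat_lit 68) (nat_lit 5) (nat_lit 414) (nat_lit 360) (nat_lit 246)))) (XT.nd (nat_lit 78) (nat_lit 380) (nat_lit 0) (XT.lf (nat_lit 0) (nat_lit 32513991660) (nat_lit 228) (nat_lit 1100428817) (nat_lit 76) (nat_lit 21721216942) (nat_lit 65) (nat_lit 5) (nat_lit 68) (nat_lit 5) (nat_lit 66) (nat_lit 5) (nat_lit 415) (nat_lit 360) (nat_lit 245)) (XT.nd (nat_lit 78) (nat_lit 228) (nat_lit 0) (XT.lf (nat_lit 0) (nat_lit 49239688590) (nat_lit 152) (nat_lit 6745959418) (nat_lit 228) (nat_lit 1281302177) (nat_lit 63) (nat_lit 5) (nat_lit 65) (nat_lit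 5) (nat_lit 66) (nat_lit 5) (nat_lit 416) (nat_lit 360) (nat_lit 244)) (XT.lf (nat_lit 0) (nat_lit 21551867950) (nat_lit 228) (nat_lit 16037817914) (nat_lit 76) (nat_lit 21680026124) (nat_lit 60) (nat_lit 5) (nat_lit 63) (nat_lit 5) (nat_lit 61) (nat_lit 5) (nat_lit 417) (nat_lit 360) (nat_lit 243)))))) (XT.nd (nat_lit 468) (nat_lit 912) (nat_lit 0) (XT.nd (nat_lit 234) (nat_lit 304) (nat_lit 0) (XT.nd (nat_lit 78) (nat_lit 304) (nat_lit 0) (XT.lf (nat_lit 0) (nat_lit 36464447266) (nat_lit 152) (nat_lit 9528763646) (nat_lit 228) (nat_lit 15364230774) (nat_lit 58) (nat_lit 5) (nat_lit 60) (nat_lit 5) (nat_lit 61) (nat_lit 5) (nat_lit 418) (nat_lit 360) (nat_lit 242)) (XT.nd (nat_lit 78) (nat_lit 152) (nat_lit 0) (XT.lf (nat_lit 0) (nat_lit 8580539491) (nat_lit 152) (nat_lit 34881732048) (nat_lit 76) (nat_lit 20065998937) (nat_lit 56) (nat_lit 5) (nat_lit 58) (nat_lit 5) (nat_lit 57) (nat_lit 5)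 (nat_lit 419) (nat_lit 360) (nat_lit 241)) (XT.lf (nat_lit 0) (nat_lit 19697562865) (nat_lit 152) (nat_lit 14245604535) (nat_lit 228) (nat_lit 31843759125) (nat_lit 54) (nat_lit 5) (nat_lit 56) (nat_lit 5) (nat_lit 57) (nat_lit 5) (nat_lit 420) (nat_lit 360) (nat_lit 240)))) (XT.nd (nat_lit 78) (nat_lit 228) (nat_lit 0) (XT.lf (nat_lit 0) (nat_lit 9596736373) (nat_lit 76) (nat_lit 51581338447) (nat_lit 152) (nat_lit 6962316784) (nat_lit 53) (nat_lit 5) (nat_lit 54) (nat_lit 5) (nat_lit 55) (nat_lit 4) (nat_lit 421) (nat_lit 360) (nat_lit 239)) (XT.nd (nat_lit 78) (nat_lit 152) (nat_lit 0) (XT.lf (nat_lit 0) (nat_lit 19403678962) (nat_lit 152) (nat_lit 1915450575) (nat_lit 76) (nat_lit 49268442037) (nat_lit 52) (nat_lit 5) (nat_lit 54) (nat_lit 5) (nat_lit 53) (nat_lit 5) (nat_lit 422) (nat_lit 360) (nat_lit 238)) (XT.lf (nat_lit 0) (nat_lit 47607260727) (nat_lit 228) (nat_lit 14642615874) (nat_lit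 76) (nat_lit 10885268189) (nat_lit 50) (nat_lit 5) (nat_lit 53) (nat_lit 5) (nat_lit 51) (nat_lit 4) (nat_lit 423) (nat_lit 360) (nat_lit 237))))) (XT.nd (nat_lit 234) (nat_lit 532) (nat_lit 0) (XT.nd (nat_lit 78) (nat_lit 228) (nat_lit 0) (XT.lf (nat_lit 0) (nat_lit 2067479813) (nat_lit 152) (nat_lit 28974795850) (nat_lit 76) (nat_lit 44746892053) (nat_lit 48) (nat_lit 5) (nat_lit 50) (nat_lit 5) (nat_lit 49) (nat_lit 5) (nat_lit 424) (nat_lit 360) (nat_lit 236)) (XT.nd (nat_lit 78) (nat_lit 76) (nat_lit 0) (XT.lf (nat_lit 0) (nat_lit 31009418184) (nat_lit 228) (nat_lit 45119846163) (nat_lit 76) (nat_lit 2424202559) (nat_lit 46) (nat_lit 5) (nat_lit 49) (nat_lit 5) (nat_lit 47) (nat_lit 4) (nat_lit 425) (nat_lit 360) (nat_lit 235)) (XT.lf (nat_lit 0) (nat_lit 18144495540) (nat_lit 76) (nat_lit 44035328568) (nat_lit 152) (nat_lit 19252716323) (nat_lit 45) (nat_lit 5) (nat_lit 46) (nat_lit 5)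 (nat_lit 47) (nat_lit 4) (nat_lit 426) (nat_lit 360) (nat_lit 234)))) (XT.nd (nat_lit 156) (nat_lit 304) (nat_lit 0) (XT.nd (nat_lit 78) (nat_lit 0) (nat_lit 0) (XT.lf (nat_lit 0) (nat_lit 973250656) (nat_lit 152) (nat_lit 9746945514) (nat_lit 228) (nat_lit 73718227666) (nat_lit 42) (nat_lit 5) (nat_lit 44) (nat_lit 5) (nat_lit 45) (nat_lit 5) (nat_lit 427) (nat_lit 360) (nat_lit 233)) (XT.lf (nat_lit 0) (nat_lit 42700344419) (nat_lit 228) (nat_lit 18271780142) (nat_lit 76) (nat_lit 26589555681) (nat_lit 42) (nat_lit 5) (nat_lit 45) (nat_lit 5) (nat_lit 43) (nat_lit 4) (nat_lit 428) (nat_lit 360) (nat_lit 232))) (XT.nd (nat_lit 78) (nat_lit 228) (nat_lit 0) (XT.lf (nat_lit 0) (nat_lit 51066336792) (nat_lit 76) (nat_lit 25795500615) (nat_lit 152) (nat_lit 13961792358) (nat_lit 41) (nat_lit 5) (nat_lit 42) (nat_lit 5) (nat_lit 43) (nat_lit 4) (nat_lit 429) (nat_lit 360) (nat_lit 231)) (XT.lf (nat_lit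 0) (nat_lit 18711128506) (nat_lit 228) (nat_lit 63931403708) (nat_lit 76) (nat_lit 11583142969) (nat_lit 38) (nat_lit 5) (nat_lit 41) (nat_lit 5) (nat_lit 39) (nat_lit 4) (nat_lit 430) (nat_lit 360) (nat_lit 230))))))))
noncomputable def xc84 : XT := (XT.nd (nat_lit 49218) (nat_lit 0) (nat_lit 4104) (XT.nd (nat_lit 48282) (nat_lit 0) (nat_lit 12236) (XT.nd (nat_lit 47814) (nat_lit 0) (nat_lit 17328) (XT.nd (nat_lit 312) (nat_lit 76) (nat_lit 0) (XT.nd (nat_lit 78) (nat_lit 152) (nat_lit 0) (XT.lf (nat_lit 0) (nat_lit 6604637277) (nat_lit 76) (nat_lit 46857523294) (nat_lit 152) (nat_lit 44309519105) (nat_lit 37) (nat_lit 5) (nat_lit 38) (nat_lit 5) (nat_lit 39) (nat_lit 4) (nat_lit 431) (nat_lit 360) (nat_lit 229)) (XT.nd (nat_lit 78) (nat_lit 152) (nat_lit 0) (XT.lf (nat_lit 0) (nat_lit 81991228919) (nat_lit 76) (nat_lit 8611196879) (nat_lit 152) (nat_lit 10873008497) (nat_lit 37) (nat_lit 5)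 (nat_lit 38) (nat_lit 5) (nat_lit 39) (nat_lit 4) (nat_lit 432) (nat_lit 360) (nat_lit 228)) (XT.lf (nat_lit 0) (nat_lit 24611606581) (nat_lit 152) (nat_lit 49008782602) (nat_lit 76) (nat_lit 31711522917) (nat_lit 35) (nat_lit 5) (nat_lit 37) (nat_lit 5) (nat_lit 36) (nat_lit 4) (nat_lit 433) (nat_lit 360) (nat_lit 227)))) (XT.nd (nat_lit 47346) (nat_lit 0) (nat_lit 18240) (XT.lf (nat_lit 0) (nat_lit 102212556435) (nat_lit 152) (nat_lit 5252120187) (nat_lit 0) (nat_lit 6111245164) (nat_lit 34) (nat_lit 5) (nat_lit 36) (nat_lit 4) (nat_lit 34) (nat_lit 4) (nat_lit 435) (nat_lit 360) (nat_lit 225)) (XT.nd (nat_lit 78) (nat_lit 0) (nat_lit 0) (XT.lf (nat_lit 0) (nat_lit 928694323) (nat_lit 0) (nat_lit 928694323) (nat_lit 1140) (nat_lit 3980291697) (nat_lit 274) (nat_lit 5) (nat_lit 274) (nat_lit 3) (nat_lit 289) (nat_lit 3) (nat_lit 361) (nat_lit 361) (nat_lit 298)) (XT.lf (nat_lit 0) (nat_lit 4694253112)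 (nat_lit 1140) (nat_lit 421007776) (nat_lit 1216) (nat_lit 6825106673) (nat_lit 274) (nat_lit 5) (nat_lit 289) (nat_lit 3) (nat_lit 290) (nat_lit 5) (nat_lit 362) (nat_lit 361) (nat_lit 297))))) (XT.nd (nat_lit 234) (nat_lit 988) (nat_lit 0) (XT.nd (nat_lit 78) (nat_lit 0) (nat_lit 76) (XT.lf (nat_lit 0) (nat_lit 5817950904) (nat_lit 1140) (nat_lit 2667418829) (nat_lit 1216) (nat_lit 3730415457) (nat_lit 275) (nat_lit 5) (nat_lit 290) (nat_lit 5) (nat_lit 291) (nat_lit 5) (nat_lit 363) (nat_lit 361) (nat_lit 296)) (XT.nd (nat_lit 78) (nat_lit 0) (nat_lit 0) (XT.lf (nat_lit 0) (nat_lit 7081908056) (nat_lit 1140) (nat_lit 4919982010) (nat_lit 1216) (nat_lit 500578407) (nat_lit 276) (nat_lit 5) (nat_lit 291) (nat_lit 5) (nat_lit 292) (nat_lit 5) (nat_lit 364) (nat_lit 361) (nat_lit 295)) (XT.lf (nat_lit 76) (nat_lit 5591344422) (nat_lit 0) (nat_lit 2937352747) (nat_lit 1216) (nat_lit 4271215923)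 (nat_lit 277) (nat_lit 5) (nat_lit 276) (nat_lit 5) (nat_lit 292) (nat_lit 5) (nat_lit 365) (nat_lit 361) (nat_lit 294)))) (XT.nd (nat_lit 78) (nat_lit 1140) (nat_lit 0) (XT.lf (nat_lit 76) (nat_lit 3596262159) (nat_lit 0) (nat_lit 6555189601) (nat_lit 1216) (nat_lit 2957684828) (nat_lit 278) (nat_lit 5) (nat_lit 277) (nat_lit 5) (nat_lit 293) (nat_lit 5) (nat_lit 366) (nat_lit 361) (nat_lit 293)) (XT.nd (nat_lit 78) (nat_lit 1216) (nat_lit 0) (XT.lf (nat_lit 76) (nat_lit 1601367701) (nat_lit 0) (nat_lit 10359419614) (nat_lit 1216) (nat_lit 1469885336) (nat_lit 279) (nat_lit 5) (nat_lit 278) (nat_lit 5) (nat_lit 294) (nat_lit 5) (nat_lit 367) (nat_lit 361) (nat_lit 292)) (XT.lf (nat_lit 0) (nat_lit 213571654) (nat_lit 1216) (nat_lit 394288222) (nat_lit 1292) (nat_lit 13156720545) (nat_lit 262) (nat_lit 5) (nat_lit 278) (nat_lit 5) (nat_lit 279) (nat_lit 5) (nat_lit 368) (nat_lit 361) (nat_lit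 291)))))) (XT.nd (nat_lit 468) (nat_lit 2812) (nat_lit 0) (XT.nd (nat_lit 234) (nat_lit 2356) (nat_lit 0) (XT.nd (nat_lit 78) (nat_lit 0) (nat_lit 76) (XT.lf (nat_lit 0) (nat_lit 2118457984) (nat_lit 1216) (nat_lit 2408185342) (nat_lit 1292) (nat_lit 9583086912) (nat_lit 263) (nat_lit 5) (nat_lit 279) (nat_lit 5) (nat_lit 280) (nat_lit 5) (nat_lit 369) (nat_lit 361) (nat_lit 290)) (XT.nd (nat_lit 78) (nat_lit 0) (nat_lit 76) (XT.lf (nat_lit 0) (nat_lit 4244460775) (nat_lit 1216) (nat_lit 4427577744) (nat_lit 1292) (nat_lit 5796335182) (nat_lit 264) (nat_lit 5) (nat_lit 280) (nat_lit 5) (nat_lit 281) (nat_lit 5) (nat_lit 370) (nat_lit 361) (nat_lit 289)) (XT.lf (nat_lit 0) (nat_lit 6609081061) (nat_lit 1216) (nat_lit 6452804454) (nat_lit 76) (nat_lit 1779106036) (nat_lit 265) (nat_lit 5) (nat_lit 281) (nat_lit 5) (nat_lit 266) (nat_lit 5) (nat_lit 371) (nat_lit 361) (nat_lit 288)))) (XT.nd (nat_lit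 78) (nat_lit 1292) (nat_lit 0) (XT.lf (nat_lit 0) (nat_lit 6718975246) (nat_lit 1216) (nat_lit 2535966264) (nat_lit 1292) (nat_lit 5972419684) (nat_lit 249) (nat_lit 5) (nat_lit 265) (nat_lit 5) (nat_lit 266) (nat_lit 5) (nat_lit 372) (nat_lit 361) (nat_lit 287)) (XT.nd (nat_lit 78) (nat_lit 608) (nat_lit 0) (XT.lf (nat_lit 0) (nat_lit 5038191041) (nat_lit 684) (nat_lit 7158572227) (nat_lit 760) (nat_lit 3431386644) (nat_lit 240) (nat_lit 5) (nat_lit 249) (nat_lit 5) (nat_lit 250) (nat_lit 5) (nat_lit 373) (nat_lit 361) (nat_lit 286)) (XT.lf (nat_lit 0) (nat_lit 3364398129) (nat_lit 608) (nat_lit 12072780288) (nat_lit 684) (nat_lit 607264719) (nat_lit 232) (nat_lit 5) (nat_lit 240) (nat_lit 5) (nat_lit 241) (nat_lit 5) (nat_lit 374) (nat_lit 361) (nat_lit 285))))) (XT.nd (nat_lit 234) (nat_lit 1596) (nat_lit 0) (XT.nd (nat_lit 78) (nat_lit 532) (nat_lit 0) (XT.lf (nat_lit 0) (nat_lit 1665380445)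 (nat_lit 608) (nat_lit 813593385) (nat_lit 684) (nat_lit 13996898802) (nat_lit 223) (nat_lit 5) (nat_lit 231) (nat_lit 5) (nat_lit 232) (nat_lit 5) (nat_lit 375) (nat_lit 361) (nat_lit 284)) (XT.nd (nat_lit 78) (nat_lit 532) (nat_lit 0) (XT.lf (nat_lit 0) (nat_lit 5914510025) (nat_lit 684) (nat_lit 75799106) (nat_lit 76) (nat_lit 10932166677) (nat_lit 223) (nat_lit 5) (nat_lit 232) (nat_lit 5) (nat_lit 224) (nat_lit 5) (nat_lit 376) (nat_lit 361) (nat_lit 283)) (XT.lf (nat_lit 0) (nat_lit 9709620951) (nat_lit 608) (nat_lit 1781425396) (nat_lit 76) (nat_lit 5894737357) (nat_lit 216) (nat_lit 5) (nat_lit 224) (nat_lit 5) (nat_lit 217) (nat_lit 5) (nat_lit 377) (nat_lit 361) (nat_lit 282)))) (XT.nd (nat_lit 78) (nat_lit 1064) (nat_lit 0) (XT.lf (nat_lit 0) (nat_lit 13871391756) (nat_lit 608) (nat_lit 3483133906) (nat_lit 76) (nat_lit 512432300) (nat_lit 209) (nat_lit 5) (nat_lit 217) (nat_lit 5)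 (nat_lit 210) (nat_lit 5) (nat_lit 378) (nat_lit 361) (nat_lit 281)) (XT.nd (nat_lit 78) (nat_lit 532) (nat_lit 0) (XT.lf (nat_lit 0) (nat_lit 108022681) (nat_lit 532) (nat_lit 5232327656) (nat_lit 76) (nat_lit 13024793621) (nat_lit 202) (nat_lit 5) (nat_lit 209) (nat_lit 5) (nat_lit 203) (nat_lit 5) (nat_lit 379) (nat_lit 361) (nat_lit 280)) (XT.lf (nat_lit 0) (nat_lit 4531671738) (nat_lit 608) (nat_lit 7026637587) (nat_lit 76) (nat_lit 7322824800) (nat_lit 195) (nat_lit 5) (nat_lit 203) (nat_lit 5) (nat_lit 196) (nat_lit 5) (nat_lit 380) (nat_lit 361) (nat_lit 279))))))) (XT.nd (nat_lit 936) (nat_lit 3572) (nat_lit 0) (XT.nd (nat_lit 468) (nat_lit 1900) (nat_lit 0) (XT.nd (nat_lit 234) (nat_lit 1292) (nat_lit 0) (XT.nd (nat_lit 78) (nat_lit 912) (nat_lit 0) (XT.lf (nat_lit 0) (nat_lit 9373757108) (nat_lit 532) (nat_lit 8821824949) (nat_lit 76) (nat_lit 1221430919) (nat_lit 189) (nat_lit 5)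 (nat_lit 196) (nat_lit 5) (nat_lit 190) (nat_lit 5) (nat_lit 381) (nat_lit 361) (nat_lit 278)) (XT.nd (nat_lit 78) (nat_lit 456) (nat_lit 0) (XT.lf (nat_lit 0) (nat_lit 9302986681) (nat_lit 456) (nat_lit 5409996736) (nat_lit 532) (nat_lit 5259057719) (nat_lit 183) (nat_lit 5) (nat_lit 189) (nat_lit 5) (nat_lit 190) (nat_lit 5) (nat_lit 382) (nat_lit 361) (nat_lit 277)) (XT.lf (nat_lit 0) (nat_lit 8016342012) (nat_lit 456) (nat_lit 12525380289) (nat_lit 532) (nat_lit 6428022) (nat_lit 177) (nat_lit 5) (nat_lit 183) (nat_lit 5) (nat_lit 184) (nat_lit 5) (nat_lit 383) (nat_lit 361) (nat_lit 276)))) (XT.nd (nat_lit 78) (nat_lit 760) (nat_lit 0) (XT.lf (nat_lit 0) (nat_lit 5619166411) (nat_lit 532) (nat_lit 14452512945) (nat_lit 76) (nat_lit 1073267769) (nat_lit 170) (nat_lit 5) (nat_lit 177) (nat_lit 5) (nat_lit 171) (nat_lit 5) (nat_lit 384) (nat_lit 361) (nat_lit 275)) (XT.nd (nat_lit 78) (nat_lit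 380) (nat_lit 0) (XT.lf (nat_lit 0) (nat_lit 5320225893) (nat_lit 380) (nat_lit 6491643063) (nat_lit 456) (nat_lit 9951139485) (nat_lit 165) (nat_lit 5) (nat_lit 170) (nat_lit 5) (nat_lit 171) (nat_lit 5) (nat_lit 385) (nat_lit 361) (nat_lit 274)) (XT.lf (nat_lit 0) (nat_lit 3949373968) (nat_lit 380) (nat_lit 14606550570) (nat_lit 456) (nat_lit 3848801912) (nat_lit 160) (nat_lit 5) (nat_lit 165) (nat_lit 5) (nat_lit 166) (nat_lit 5) (nat_lit 386) (nat_lit 361) (nat_lit 273))))) (XT.nd (nat_lit 234) (nat_lit 1064) (nat_lit 0) (XT.nd (nat_lit 78) (nat_lit 380) (nat_lit 0) (XT.lf (nat_lit 0) (nat_lit 2562212838) (nat_lit 380) (nat_lit 186984958) (nat_lit 456) (nat_lit 20321385266) (nat_lit 154) (nat_lit 5) (nat_lit 159) (nat_lit 5) (nat_lit 160) (nat_lit 5) (nat_lit 387) (nat_lit 361) (nat_lit 272)) (XT.nd (nat_lit 78) (nat_lit 0) (nat_lit 0) (XT.lf (nat_lit 0) (nat_lit 1061489279) (nat_lit 380)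 (nat_lit 8862604196) (nat_lit 456) (nat_lit 13834702517) (nat_lit 149) (nat_lit 5) (nat_lit 154) (nat_lit 5) (nat_lit 155) (nat_lit 5) (nat_lit 388) (nat_lit 361) (nat_lit 271)) (XT.lf (nat_lit 0) (nat_lit 17713547668) (nat_lit 456) (nat_lit 427480444) (nat_lit 76) (nat_lit 6332721376) (nat_lit 149) (nat_lit 5) (nat_lit 155) (nat_lit 5) (nat_lit 150) (nat_lit 5) (nat_lit 389) (nat_lit 361) (nat_lit 270)))) (XT.nd (nat_lit 78) (nat_lit 684) (nat_lit 0) (XT.lf (nat_lit 0) (nat_lit 952884180) (nat_lit 380) (nat_lit 1929488242) (nat_lit 76) (nat_lit 22332952724) (nat_lit 144) (nat_lit 5) (nat_lit 149) (nat_lit 5) (nat_lit 145) (nat_lit 5) (nat_lit 390) (nat_lit 361) (nat_lit 269)) (XT.nd (nat_lit 78) (nat_lit 304) (nat_lit 0) (XT.lf (nat_lit 0) (nat_lit 9245440890) (nat_lit 456) (nat_lit 3568479475) (nat_lit 76) (nat_lit 13168046224) (nat_lit 139) (nat_lit 5) (nat_lit 145) (nat_lit 5) (nat_lit 140)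 (nat_lit 5) (nat_lit 391) (nat_lit 361) (nat_lit 268)) (XT.lf (nat_lit 0) (nat_lit 18224676782) (nat_lit 380) (nat_lit 5217651131) (nat_lit 76) (nat_lit 3336454283) (nat_lit 135) (nat_lit 5) (nat_lit 140) (nat_lit 5) (nat_lit 136) (nat_lit 5) (nat_lit 392) (nat_lit 361) (nat_lit 267)))))) (XT.nd (nat_lit 468) (nat_lit 1748) (nat_lit 0) (XT.nd (nat_lit 234) (nat_lit 836) (nat_lit 0) (XT.nd (nat_lit 78) (nat_lit 608) (nat_lit 0) (XT.lf (nat_lit 0) (nat_lit 388273426) (nat_lit 380) (nat_lit 6952560933) (nat_lit 76) (nat_lit 20264049748) (nat_lit 130) (nat_lit 5) (nat_lit 135) (nat_lit 5) (nat_lit 131) (nat_lit 5) (nat_lit 393) (nat_lit 361) (nat_lit 266)) (XT.nd (nat_lit 78) (nat_lit 304) (nat_lit 0) (XT.lf (nat_lit 0) (nat_lit 9925072300) (nat_lit 380) (nat_lit 8830001883) (nat_lit 76) (nat_lit 9704952912) (nat_lit 126) (nat_lit 5) (nat_lit 131) (nat_lit 5) (nat_lit 127) (nat_lit 5) (nat_lit 394)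 (nat_lit 361) (nat_lit 265)) (XT.lf (nat_lit 0) (nat_lit 18595379243) (nat_lit 304) (nat_lit 1652479509) (nat_lit 380) (nat_lit 9100797098) (nat_lit 122) (nat_lit 5) (nat_lit 126) (nat_lit 5) (nat_lit 127) (nat_lit 5) (nat_lit 395) (nat_lit 361) (nat_lit 264)))) (XT.nd (nat_lit 78) (nat_lit 532) (nat_lit 0) (XT.lf (nat_lit 0) (nat_lit 1194151990) (nat_lit 304) (nat_lit 12824464127) (nat_lit 76) (nat_lit 16250726781) (nat_lit 118) (nat_lit 5) (nat_lit 122) (nat_lit 5) (nat_lit 119) (nat_lit 5) (nat_lit 396) (nat_lit 361) (nat_lit 263)) (XT.nd (nat_lit 78) (nat_lit 228) (nat_lit 0) (XT.lf (nat_lit 0) (nat_lit 12126520197) (nat_lit 380) (nat_lit 15036349999) (nat_lit 76) (nat_lit 4061166874) (nat_lit 114) (nat_lit 5) (nat_lit 119) (nat_lit 5) (nat_lit 115) (nat_lit 5) (nat_lit 397) (nat_lit 361) (nat_lit 262)) (XT.lf (nat_lit 0) (nat_lit 14819351615) (nat_lit 228) (nat_lit 9188706918) (nat_lit 304)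 (nat_lit 8206333422) (nat_lit 111) (nat_lit 5) (nat_lit 114) (nat_lit 5) (nat_lit 115) (nat_lit 5) (nat_lit 398) (nat_lit 361) (nat_lit 261))))) (XT.nd (nat_lit 234) (nat_lit 988) (nat_lit 0) (XT.nd (nat_lit 78) (nat_lit 456) (nat_lit 0) (XT.lf (nat_lit 0) (nat_lit 3533669756) (nat_lit 304) (nat_lit 19901827497) (nat_lit 76) (nat_lit 9806820064) (nat_lit 107) (nat_lit 5) (nat_lit 111) (nat_lit 5) (nat_lit 108) (nat_lit 5) (nat_lit 399) (nat_lit 361) (nat_lit 260)) (XT.nd (nat_lit 78) (nat_lit 228) (nat_lit 0) (XT.lf (nat_lit 0) (nat_lit 11688488371) (nat_lit 228) (nat_lit 4376004677) (nat_lit 304) (nat_lit 18243504440) (nat_lit 104) (nat_lit 5) (nat_lit 107) (nat_lit 5) (nat_lit 108) (nat_lit 5) (nat_lit 400) (nat_lit 361) (nat_lit 259)) (XT.lf (nat_lit 0) (nat_lit 9871714801) (nat_lit 228) (nat_lit 19788644101) (nat_lit 304) (nat_lit 5753449865) (nat_lit 101) (nat_lit 5) (nat_lit 104) (nat_lit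 5) (nat_lit 105) (nat_lit 5) (nat_lit 401) (nat_lit 361) (nat_lit 258)))) (XT.nd (nat_lit 156) (nat_lit 456) (nat_lit 0) (XT.nd (nat_lit 78) (nat_lit 228) (nat_lit 0) (XT.lf (nat_lit 0) (nat_lit 7562859217) (nat_lit 304) (nat_lit 28658157460) (nat_lit 76) (nat_lit 341411326) (nat_lit 97) (nat_lit 5) (nat_lit 101) (nat_lit 5) (nat_lit 98) (nat_lit 5) (nat_lit 402) (nat_lit 361) (nat_lit 257)) (XT.lf (nat_lit 0) (nat_lit 5624156615) (nat_lit 228) (nat_lit 16309338033) (nat_lit 304) (nat_lit 15818051464) (nat_lit 94) (nat_lit 5) (nat_lit 97) (nat_lit 5) (nat_lit 98) (nat_lit 5) (nat_lit 403) (nat_lit 361) (nat_lit 256))) (XT.nd (nat_lit 78) (nat_lit 304) (nat_lit 0) (XT.lf (nat_lit 0) (nat_lit 3222969599) (nat_lit 152) (nat_lit 34160205258) (nat_lit 228) (nat_lit 1606131675) (nat_lit 92) (nat_lit 5) (nat_lit 94) (nat_lit 5) (nat_lit 95) (nat_lit 5) (nat_lit 404) (nat_lit 361) (nat_lit 255)) (XT.lf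 (nat_lit 0) (nat_lit 424943637) (nat_lit 228) (nat_lit 13121970311) (nat_lit 304) (nat_lit 26723491117) (nat_lit 88) (nat_lit 5) (nat_lit 91) (nat_lit 5) (nat_lit 92) (nat_lit 5) (nat_lit 405) (nat_lit 361) (nat_lit 254))))))))
noncomputable def xc85 : XT := (XT.nd (nat_lit 1950) (nat_lit 304) (nat_lit 0) (XT.nd (nat_lit 936) (nat_lit 1672) (nat_lit 0) (XT.nd (nat_lit 468) (nat_lit 912) (nat_lit 0) (XT.nd (nat_lit 234) (nat_lit 532) (nat_lit 0) (XT.nd (nat_lit 78) (nat_lit 456) (nat_lit 0) (XT.lf (nat_lit 0) (nat_lit 29870738875) (nat_lit 304) (nat_lit 2557703296) (nat_lit 76) (nat_lit 9173250539) (nat_lit 88) (nat_lit 5) (nat_lit 92) (nat_lit 5) (nat_lit 89) (nat_lit 5) (nat_lit 406) (nat_lit 361) (nat_lit 253)) (XT.nd (nat_lit 78) (nat_lit 228) (nat_lit 0) (XT.lf (nat_lit 0) (nat_lit 4415966392) (nat_lit 228) (nat_lit 5860569439) (nat_lit 76) (nat_lit 32707362747) (nat_lit 85) (nat_lit 5) (nat_lit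 88) (nat_lit 5) (nat_lit 86) (nat_lit 5) (nat_lit 407) (nat_lit 361) (nat_lit 252)) (XT.lf (nat_lit 0) (nat_lit 21610752157) (nat_lit 304) (nat_lit 9598827958) (nat_lit 76) (nat_lit 13207657566) (nat_lit 82) (nat_lit 5) (nat_lit 86) (nat_lit 5) (nat_lit 83) (nat_lit 5) (nat_lit 408) (nat_lit 361) (nat_lit 251)))) (XT.nd (nat_lit 78) (nat_lit 380) (nat_lit 0) (XT.lf (nat_lit 0) (nat_lit 32239425378) (nat_lit 152) (nat_lit 7889511737) (nat_lit 228) (nat_lit 5779398155) (nat_lit 80) (nat_lit 5) (nat_lit 82) (nat_lit 5) (nat_lit 83) (nat_lit 5) (nat_lit 409) (nat_lit 361) (nat_lit 250)) (XT.nd (nat_lit 78) (nat_lit 152) (nat_lit 0) (XT.lf (nat_lit 0) (nat_lit 12398468276) (nat_lit 228) (nat_lit 18287846559) (nat_lit 76) (nat_lit 16768119410) (nat_lit 77) (nat_lit 5) (nat_lit 80) (nat_lit 5) (nat_lit 78) (nat_lit 5) (nat_lit 410) (nat_lit 361) (nat_lit 249)) (XT.lf (nat_lit 0) (nat_lit 25699903729)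 (nat_lit 152) (nat_lit 6125290726) (nat_lit 228) (nat_lit 17237143434) (nat_lit 75) (nat_lit 5) (nat_lit 77) (nat_lit 5) (nat_lit 78) (nat_lit 5) (nat_lit 411) (nat_lit 361) (nat_lit 248))))) (XT.nd (nat_lit 234) (nat_lit 380) (nat_lit 0) (XT.nd (nat_lit 78) (nat_lit 304) (nat_lit 0) (XT.lf (nat_lit 0) (nat_lit 2027581563) (nat_lit 228) (nat_lit 29013457889) (nat_lit 76) (nat_lit 19691662746) (nat_lit 72) (nat_lit 5) (nat_lit 75) (nat_lit 5) (nat_lit 73) (nat_lit 5) (nat_lit 412) (nat_lit 361) (nat_lit 247)) (XT.nd (nat_lit 78) (nat_lit 152) (nat_lit 0) (XT.lf (nat_lit 0) (nat_lit 17142654934) (nat_lit 152) (nat_lit 5219274833) (nat_lit 228) (nat_lit 30105649717) (nat_lit 70) (nat_lit 5) (nat_lit 72) (nat_lit 5) (nat_lit 73) (nat_lit 5) (nat_lit 413) (nat_lit 361) (nat_lit 246)) (XT.lf (nat_lit 0) (nat_lit 11934874338) (nat_lit 152) (nat_lit 32395240786) (nat_lit 228) (nat_lit 9940572898) (nat_lit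 68) (nat_lit 5) (nat_lit 70) (nat_lit 5) (nat_lit 71) (nat_lit 5) (nat_lit 414) (nat_lit 361) (nat_lit 245)))) (XT.nd (nat_lit 78) (nat_lit 152) (nat_lit 0) (XT.lf (nat_lit 0) (nat_lit 6080268668) (nat_lit 152) (nat_lit 5402184852) (nat_lit 228) (nat_lit 44664193469) (nat_lit 65) (nat_lit 5) (nat_lit 67) (nat_lit 5) (nat_lit 68) (nat_lit 5) (nat_lit 415) (nat_lit 361) (nat_lit 244)) (XT.nd (nat_lit 78) (nat_lit 152) (nat_lit 0) (XT.lf (nat_lit 0) (nat_lit 34424344040) (nat_lit 228) (nat_lit 643298434) (nat_lit 76) (nat_lit 23026210678) (nat_lit 65) (nat_lit 5) (nat_lit 68) (nat_lit 5) (nat_lit 66) (nat_lit 5) (nat_lit 416) (nat_lit 361) (nat_lit 243)) (XT.lf (nat_lit 0) (nat_lit 52199144113) (nat_lit 152) (nat_lit 6861666193) (nat_lit 228) (nat_lit 1061185701) (nat_lit 63) (nat_lit 5) (nat_lit 65) (nat_lit 5) (nat_lit 66) (nat_lit 5) (nat_lit 417) (nat_lit 361) (nat_lit 242)))))) (XT.nd (nat_lit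 468) (nat_lit 836) (nat_lit 0) (XT.nd (nat_lit 234) (nat_lit 304) (nat_lit 0) (XT.nd (nat_lit 78) (nat_lit 304) (nat_lit 0) (XT.lf (nat_lit 0) (nat_lit 22901626967) (nat_lit 228) (nat_lit 16345062903) (nat_lit 76) (nat_lit 22978319365) (nat_lit 60) (nat_lit 5) (nat_lit 63) (nat_lit 5) (nat_lit 61) (nat_lit 5) (nat_lit 418) (nat_lit 361) (nat_lit 241)) (XT.nd (nat_lit 78) (nat_lit 152) (nat_lit 0) (XT.lf (nat_lit 0) (nat_lit 38768136610) (nat_lit 152) (nat_lit 9788558741) (nat_lit 228) (nat_lit 15860681432) (nat_lit 58) (nat_lit 5) (nat_lit 60) (nat_lit 5) (nat_lit 61) (nat_lit 5) (nat_lit 419) (nat_lit 361) (nat_lit 240)) (XT.lf (nat_lit 0) (nat_lit 9269924595) (nat_lit 152) (nat_lit 36148235266) (nat_lit 76) (nat_lit 21278692803) (nat_lit 56) (nat_lit 5) (nat_lit 58) (nat_lit 5) (nat_lit 57) (nat_lit 5) (nat_lit 420) (nat_lit 361) (nat_lit 239)))) (XT.nd (nat_lit 78) (nat_lit 152) (nat_lit 0)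 (XT.lf (nat_lit 0) (nat_lit 21146334561) (nat_lit 152) (nat_lit 14746410561) (nat_lit 228) (nat_lit 33175935537) (nat_lit 54) (nat_lit 5) (nat_lit 56) (nat_lit 5) (nat_lit 57) (nat_lit 5) (nat_lit 421) (nat_lit 361) (nat_lit 238)) (XT.nd (nat_lit 78) (nat_lit 76) (nat_lit 0) (XT.lf (nat_lit 0) (nat_lit 10532569343) (nat_lit 76) (nat_lit 53951127933) (nat_lit 152) (nat_lit 7056293668) (nat_lit 53) (nat_lit 5) (nat_lit 54) (nat_lit 5) (nat_lit 55) (nat_lit 4) (nat_lit 422) (nat_lit 361) (nat_lit 237)) (XT.lf (nat_lit 0) (nat_lit 20611176995) (nat_lit 152) (nat_lit 1572200768) (nat_lit 76) (nat_lit 51926435697) (nat_lit 52) (nat_lit 5) (nat_lit 54) (nat_lit 5) (nat_lit 53) (nat_lit 5) (nat_lit 423) (nat_lit 361) (nat_lit 236))))) (XT.nd (nat_lit 234) (nat_lit 380) (nat_lit 0) (XT.nd (nat_lit 78) (nat_lit 304) (nat_lit 0) (XT.lf (nat_lit 0) (nat_lit 50219623557) (nat_lit 228) (nat_lit 14943276192)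 (nat_lit 76) (nat_lit 11622025838) (nat_lit 50) (nat_lit 5) (nat_lit 53) (nat_lit 5) (nat_lit 51) (nat_lit 4) (nat_lit 424) (nat_lit 361) (nat_lit 235)) (XT.nd (nat_lit 78) (nat_lit 152) (nat_lit 0) (XT.lf (nat_lit 0) (nat_lit 2398077549) (nat_lit 152) (nat_lit 29999895776) (nat_lit 76) (nat_lit 47173820857) (nat_lit 48) (nat_lit 5) (nat_lit 50) (nat_lit 5) (nat_lit 49) (nat_lit 5) (nat_lit 425) (nat_lit 361) (nat_lit 234)) (XT.lf (nat_lit 0) (nat_lit 32782085542) (nat_lit 228) (nat_lit 46959554226) (nat_lit 76) (nat_lit 2732820106) (nat_lit 46) (nat_lit 5) (nat_lit 49) (nat_lit 5) (nat_lit 47) (nat_lit 4) (nat_lit 426) (nat_lit 361) (nat_lit 233)))) (XT.nd (nat_lit 156) (nat_lit 76) (nat_lit 0) (XT.nd (nat_lit 78) (nat_lit 228) (nat_lit 0) (XT.lf (nat_lit 0) (nat_lit 19456071858) (nat_lit 76) (nat_lit 46048245995) (nat_lit 152) (nat_lit 19993370728) (nat_lit 45) (nat_lit 5) (nat_lit 46) (nat_lit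 5) (nat_lit 47) (nat_lit 4) (nat_lit 427) (nat_lit 361) (nat_lit 232)) (XT.lf (nat_lit 0) (nat_lit 1418894573) (nat_lit 152) (nat_lit 10048412913) (nat_lit 228) (nat_lit 77186691741) (nat_lit 42) (nat_lit 5) (nat_lit 44) (nat_lit 5) (nat_lit 45) (nat_lit 5) (nat_lit 428) (nat_lit 361) (nat_lit 231))) (XT.nd (nat_lit 78) (nat_lit 76) (nat_lit 0) (XT.lf (nat_lit 0) (nat_lit 45038112400) (nat_lit 228) (nat_lit 18802949727) (nat_lit 76) (nat_lit 28092607457) (nat_lit 42) (nat_lit 5) (nat_lit 45) (nat_lit 5) (nat_lit 43) (nat_lit 4) (nat_lit 429) (nat_lit 361) (nat_lit 230)) (XT.lf (nat_lit 0) (nat_lit 53991111078) (nat_lit 76) (nat_lit 26910484838) (nat_lit 152) (nat_lit 14457303769) (nat_lit 41) (nat_lit 5) (nat_lit 42) (nat_lit 5) (nat_lit 43) (nat_lit 4) (nat_lit 430) (nat_lit 361) (nat_lit 229))))))) (XT.nd (nat_lit 48516) (nat_lit 0) (nat_lit 10564) (XT.nd (nat_lit 48048) (nat_lit 0) (nat_lit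 17100) (XT.nd (nat_lit 47814) (nat_lit 0) (nat_lit 18012) (XT.nd (nat_lit 78) (nat_lit 76) (nat_lit 0) (XT.lf (nat_lit 0) (nat_lit 19841010359) (nat_lit 228) (nat_lit 66759175965) (nat_lit 76) (nat_lit 12330932158) (nat_lit 38) (nat_lit 5) (nat_lit 41) (nat_lit 5) (nat_lit 39) (nat_lit 4) (nat_lit 431) (nat_lit 361) (nat_lit 228)) (XT.nd (nat_lit 47658) (nat_lit 0) (nat_lit 18012) (XT.lf (nat_lit 0) (nat_lit 7293095550) (nat_lit 76) (nat_lit 49030688377) (nat_lit 152) (nat_lit 46330814085) (nat_lit 37) (nat_lit 5) (nat_lit 38) (nat_lit 5) (nat_lit 39) (nat_lit 4) (nat_lit 432) (nat_lit 361) (nat_lit 227)) (XT.lf (nat_lit 0) (nat_lit 1378576970) (nat_lit 0) (nat_lit 1378576970) (nat_lit 1140) (nat_lit 3347928947) (nat_lit 274) (nat_lit 5) (nat_lit 274) (nat_lit 3) (nat_lit 289) (nat_lit 3) (nat_lit 362) (nat_lit 362) (nat_lit 296)))) (XT.nd (nat_lit 78) (nat_lit 0) (nat_lit 76) (XT.lf (nat_lit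 76) (nat_lit 388003837) (nat_lit 0) (nat_lit 6074249136) (nat_lit 1216) (nat_lit 6028611310) (nat_lit 275) (nat_lit 5) (nat_lit 274) (nat_lit 5) (nat_lit 290) (nat_lit 5) (nat_lit 363) (nat_lit 362) (nat_lit 295)) (XT.nd (nat_lit 78) (nat_lit 0) (nat_lit 0) (XT.lf (nat_lit 0) (nat_lit 7566852439) (nat_lit 1140) (nat_lit 1951048417) (nat_lit 1216) (nat_lit 3264435342) (nat_lit 275) (nat_lit 5) (nat_lit 290) (nat_lit 5) (nat_lit 291) (nat_lit 5) (nat_lit 364) (nat_lit 362) (nat_lit 294)) (XT.lf (nat_lit 76) (nat_lit 8792302078) (nat_lit 0) (nat_lit 35057688) (nat_lit 1216) (nat_lit 4258017028) (nat_lit 276) (nat_lit 5) (nat_lit 275) (nat_lit 5) (nat_lit 291) (nat_lit 5) (nat_lit 365) (nat_lit 362) (nat_lit 293))))) (XT.nd (nat_lit 234) (nat_lit 1064) (nat_lit 0) (XT.nd (nat_lit 78) (nat_lit 0) (nat_lit 76) (XT.lf (nat_lit 76) (nat_lit 6719123686) (nat_lit 0) (nat_lit 3568942172) (nat_lit 1216)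 (nat_lit 3111403053) (nat_lit 277) (nat_lit 5) (nat_lit 276) (nat_lit 5) (nat_lit 292) (nat_lit 5) (nat_lit 366) (nat_lit 362) (nat_lit 292)) (XT.nd (nat_lit 78) (nat_lit 0) (nat_lit 76) (XT.lf (nat_lit 76) (nat_lit 4643779999) (nat_lit 0) (nat_lit 7288608484) (nat_lit 1216) (nat_lit 1793573704) (nat_lit 278) (nat_lit 5) (nat_lit 277) (nat_lit 5) (nat_lit 293) (nat_lit 5) (nat_lit 367) (nat_lit 362) (nat_lit 291)) (XT.lf (nat_lit 76) (nat_lit 2565579779) (nat_lit 0) (nat_lit 11210759821) (nat_lit 1216) (nat_lit 288931480) (nat_lit 279) (nat_lit 5) (nat_lit 278) (nat_lit 5) (nat_lit 294) (nat_lit 5) (nat_lit 368) (nat_lit 362) (nat_lit 290)))) (XT.nd (nat_lit 78) (nat_lit 0) (nat_lit 76) (XT.lf (nat_lit 76) (nat_lit 460721389) (nat_lit 0) (nat_lit 939356937) (nat_lit 1292) (nat_lit 13017077342) (nat_lit 263) (nat_lit 5) (nat_lit 262) (nat_lit 5) (nat_lit 279) (nat_lit 5) (nat_lit 369) (nat_lit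 362) (nat_lit 289)) (XT.nd (nat_lit 78) (nat_lit 0) (nat_lit 76) (XT.lf (nat_lit 0) (nat_lit 3345364434) (nat_lit 1216) (nat_lit 1650886764) (nat_lit 1292) (nat_lit 9784975156) (nat_lit 263) (nat_lit 5) (nat_lit 279) (nat_lit 5) (nat_lit 280) (nat_lit 5) (nat_lit 370) (nat_lit 362) (nat_lit 288)) (XT.lf (nat_lit 0) (nat_lit 5530336397) (nat_lit 1216) (nat_lit 3761644428) (nat_lit 1292) (nat_lit 5867258280) (nat_lit 264) (nat_lit 5) (nat_lit 280) (nat_lit 5) (nat_lit 281) (nat_lit 5) (nat_lit 371) (nat_lit 362) (nat_lit 287)))))) (XT.nd (nat_lit 468) (nat_lit 3040) (nat_lit 0) (XT.nd (nat_lit 234) (nat_lit 1824) (nat_lit 0) (XT.nd (nat_lit 78) (nat_lit 1900) (nat_lit 0) (XT.lf (nat_lit 0) (nat_lit 7968722386) (nat_lit 1216) (nat_lit 5880691536) (nat_lit 76) (nat_lit 1702424252) (nat_lit 265) (nat_lit 5) (nat_lit 281) (nat_lit 5) (nat_lit 266) (nat_lit 5) (nat_lit 372) (nat_lit 362) (nat_lit 286))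 (XT.nd (nat_lit 78) (nat_lit 684) (nat_lit 0) (XT.lf (nat_lit 0) (nat_lit 7924029229) (nat_lit 1216) (nat_lit 2782192081) (nat_lit 1292) (nat_lit 5252540213) (nat_lit 249) (nat_lit 5) (nat_lit 265) (nat_lit 5) (nat_lit 266) (nat_lit 5) (nat_lit 373) (nat_lit 362) (nat_lit 285)) (XT.lf (nat_lit 0) (nat_lit 6164516902) (nat_lit 684) (nat_lit 7590856350) (nat_lit 760) (nat_lit 2625424099) (nat_lit 240) (nat_lit 5) (nat_lit 249) (nat_lit 5) (nat_lit 250) (nat_lit 5) (nat_lit 374) (nat_lit 362) (nat_lit 284)))) (XT.nd (nat_lit 78) (nat_lit 1140) (nat_lit 0) (XT.lf (nat_lit 0) (nat_lit 295466176) (nat_lit 684) (nat_lit 12411339424) (nat_lit 76) (nat_lit 4112149490) (nat_lit 231) (nat_lit 5) (nat_lit 240) (nat_lit 5) (nat_lit 232) (nat_lit 5) (nat_lit 375) (nat_lit 362) (nat_lit 283)) (XT.nd (nat_lit 78) (nat_lit 532) (nat_lit 0) (XT.lf (nat_lit 0) (nat_lit 2619527786) (nat_lit 608) (nat_lit 868577306)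 (nat_lit 684) (nat_lit 13784744238) (nat_lit 223) (nat_lit 5) (nat_lit 231) (nat_lit 5) (nat_lit 232) (nat_lit 5) (nat_lit 376) (nat_lit 362) (nat_lit 282)) (XT.lf (nat_lit 0) (nat_lit 790923518) (nat_lit 532) (nat_lit 6269814915) (nat_lit 608) (nat_lit 10682097071) (nat_lit 216) (nat_lit 5) (nat_lit 223) (nat_lit 5) (nat_lit 224) (nat_lit 5) (nat_lit 377) (nat_lit 362) (nat_lit 281))))) (XT.nd (nat_lit 234) (nat_lit 1976) (nat_lit 0) (XT.nd (nat_lit 78) (nat_lit 1064) (nat_lit 0) (XT.lf (nat_lit 0) (nat_lit 11006038439) (nat_lit 608) (nat_lit 1015559534) (nat_lit 76) (nat_lit 6208909674) (nat_lit 216) (nat_lit 5) (nat_lit 224) (nat_lit 5) (nat_lit 217) (nat_lit 5) (nat_lit 378) (nat_lit 362) (nat_lit 280)) (XT.nd (nat_lit 78) (nat_lit 532) (nat_lit 0) (XT.lf (nat_lit 0) (nat_lit 15345746226) (nat_lit 608) (nat_lit 2803706980) (nat_lit 76) (nat_lit 587203252) (nat_lit 209) (nat_lit 5) (nat_lit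 217) (nat_lit 5) (nat_lit 210) (nat_lit 5) (nat_lit 379) (nat_lit 362) (nat_lit 279)) (XT.lf (nat_lit 0) (nat_lit 872650669) (nat_lit 532) (nat_lit 4649509281) (nat_lit 76) (nat_lit 13738255563) (nat_lit 202) (nat_lit 5) (nat_lit 209) (nat_lit 5) (nat_lit 203) (nat_lit 5) (nat_lit 380) (nat_lit 362) (nat_lit 278)))) (XT.nd (nat_lit 156) (nat_lit 988) (nat_lit 0) (XT.nd (nat_lit 78) (nat_lit 456) (nat_lit 0) (XT.lf (nat_lit 0) (nat_lit 5490071197) (nat_lit 608) (nat_lit 6536470770) (nat_lit 76) (nat_lit 7776495497) (nat_lit 195) (nat_lit 5) (nat_lit 203) (nat_lit 5) (nat_lit 196) (nat_lit 5) (nat_lit 381) (nat_lit 362) (nat_lit 277)) (XT.lf (nat_lit 0) (nat_lit 10548351516) (nat_lit 532) (nat_lit 8425286658) (nat_lit 76) (nat_lit 1392858834) (nat_lit 189) (nat_lit 5) (nat_lit 196) (nat_lit 5) (nat_lit 190) (nat_lit 5) (nat_lit 382) (nat_lit 362) (nat_lit 276))) (XT.nd (nat_lit 78) (nat_lit 532)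 (nat_lit 0) (XT.lf (nat_lit 0) (nat_lit 10581755071) (nat_lit 456) (nat_lit 5546990476) (nat_lit 532) (nat_lit 4821313857) (nat_lit 183) (nat_lit 5) (nat_lit 189) (nat_lit 5) (nat_lit 190) (nat_lit 5) (nat_lit 383) (nat_lit 362) (nat_lit 275)) (XT.lf (nat_lit 0) (nat_lit 656778859) (nat_lit 532) (nat_lit 12335920117) (nat_lit 76) (nat_lit 8562792107) (nat_lit 176) (nat_lit 5) (nat_lit 183) (nat_lit 5) (nat_lit 177) (nat_lit 5) (nat_lit 384) (nat_lit 362) (nat_lit 274))))))))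
noncomputable def xc86 : XT := (XT.nd (nat_lit 1950) (nat_lit 3344) (nat_lit 0) (XT.nd (nat_lit 936) (nat_lit 3040) (nat_lit 0) (XT.nd (nat_lit 468) (nat_lit 1748) (nat_lit 0) (XT.nd (nat_lit 234) (nat_lit 1140) (nat_lit 0) (XT.nd (nat_lit 78) (nat_lit 760) (nat_lit 0) (XT.lf (nat_lit 0) (nat_lit 6541141740) (nat_lit 532) (nat_lit 14358487578) (nat_lit 76) (nat_lit 1283175791) (nat_lit 170) (nat_lit 5) (nat_lit 177) (nat_lit 5) (nat_lit 171) (nat_lit 5) (nat_lit 385) (nat_lit 362) (nat_lit 273)) (XT.nd (nat_lit 78) (nat_lit 380) (nat_lit 0) (XT.lf (nat_lit 0) (nat_lit 6379479064) (nat_lit 380) (nat_lit 6641100854) (nat_lit 456) (nat_lit 9811884121) (nat_lit 165) (nat_lit 5) (nat_lit 170) (nat_lit 5) (nat_lit 171) (nat_lit 5) (nat_lit 386) (nat_lit 362) (nat_lit 272)) (XT.lf (nat_lit 0) (nat_lit 4933870216) (nat_lit 380) (nat_lit 15147702527) (nat_lit 456) (nat_lit 3425310377) (nat_lit 160) (nat_lit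 5) (nat_lit 165) (nat_lit 5) (nat_lit 166) (nat_lit 5) (nat_lit 387) (nat_lit 362) (nat_lit 271)))) (XT.nd (nat_lit 78) (nat_lit 684) (nat_lit 0) (XT.lf (nat_lit 0) (nat_lit 3466601450) (nat_lit 380) (nat_lit 2673139) (nat_lit 456) (nat_lit 20737225885) (nat_lit 154) (nat_lit 5) (nat_lit 159) (nat_lit 5) (nat_lit 160) (nat_lit 5) (nat_lit 388) (nat_lit 362) (nat_lit 270)) (XT.nd (nat_lit 78) (nat_lit 304) (nat_lit 0) (XT.lf (nat_lit 0) (nat_lit 1883888538) (nat_lit 380) (nat_lit 9100451013) (nat_lit 456) (nat_lit 13945348108) (nat_lit 149) (nat_lit 5) (nat_lit 154) (nat_lit 5) (nat_lit 155) (nat_lit 5) (nat_lit 389) (nat_lit 362) (nat_lit 269)) (XT.lf (nat_lit 0) (nat_lit 304127408) (nat_lit 304) (nat_lit 18837082732) (nat_lit 380) (nat_lit 6539846423) (nat_lit 145) (nat_lit 5) (nat_lit 149) (nat_lit 5) (nat_lit 150) (nat_lit 5) (nat_lit 390) (nat_lit 362) (nat_lit 268))))) (XT.nd (nat_lit 234)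 (nat_lit 988) (nat_lit 0) (XT.nd (nat_lit 78) (nat_lit 684) (nat_lit 0) (XT.lf (nat_lit 0) (nat_lit 1526160648) (nat_lit 380) (nat_lit 1289756506) (nat_lit 76) (nat_lit 23644293542) (nat_lit 144) (nat_lit 5) (nat_lit 149) (nat_lit 5) (nat_lit 145) (nat_lit 5) (nat_lit 391) (nat_lit 362) (nat_lit 267)) (XT.nd (nat_lit 78) (nat_lit 304) (nat_lit 0) (XT.lf (nat_lit 0) (nat_lit 10217184928) (nat_lit 456) (nat_lit 3018465633) (nat_lit 76) (nat_lit 14030023778) (nat_lit 139) (nat_lit 5) (nat_lit 145) (nat_lit 5) (nat_lit 140) (nat_lit 5) (nat_lit 392) (nat_lit 362) (nat_lit 266)) (XT.lf (nat_lit 0) (nat_lit 19629995462) (nat_lit 380) (nat_lit 4758186601) (nat_lit 76) (nat_lit 3714615346) (nat_lit 135) (nat_lit 5) (nat_lit 140) (nat_lit 5) (nat_lit 136) (nat_lit 5) (nat_lit 393) (nat_lit 362) (nat_lit 265)))) (XT.nd (nat_lit 78) (nat_lit 608) (nat_lit 0) (XT.lf (nat_lit 0) (nat_lit 889790234) (nat_lit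 380) (nat_lit 6590801986) (nat_lit 76) (nat_lit 21489979284) (nat_lit 130) (nat_lit 5) (nat_lit 135) (nat_lit 5) (nat_lit 131) (nat_lit 5) (nat_lit 394) (nat_lit 362) (nat_lit 264)) (XT.nd (nat_lit 78) (nat_lit 304) (nat_lit 0) (XT.lf (nat_lit 0) (nat_lit 10889241687) (nat_lit 380) (nat_lit 8570533418) (nat_lit 76) (nat_lit 10409126619) (nat_lit 126) (nat_lit 5) (nat_lit 131) (nat_lit 5) (nat_lit 127) (nat_lit 5) (nat_lit 395) (nat_lit 362) (nat_lit 263)) (XT.lf (nat_lit 0) (nat_lit 20206023640) (nat_lit 304) (nat_lit 1506407110) (nat_lit 380) (nat_lit 9090007519) (nat_lit 122) (nat_lit 5) (nat_lit 126) (nat_lit 5) (nat_lit 127) (nat_lit 5) (nat_lit 396) (nat_lit 362) (nat_lit 262)))))) (XT.nd (nat_lit 468) (nat_lit 1444) (nat_lit 0) (XT.nd (nat_lit 234) (nat_lit 760) (nat_lit 0) (XT.nd (nat_lit 78) (nat_lit 532) (nat_lit 0) (XT.lf (nat_lit 0) (nat_lit 1697492243) (nat_lit 304) (nat_lit 12784297565)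 (nat_lit 76) (nat_lit 17287632659) (nat_lit 118) (nat_lit 5) (nat_lit 122) (nat_lit 5) (nat_lit 119) (nat_lit 5) (nat_lit 397) (nat_lit 362) (nat_lit 261)) (XT.nd (nat_lit 78) (nat_lit 228) (nat_lit 0) (XT.lf (nat_lit 0) (nat_lit 13163955305) (nat_lit 380) (nat_lit 15115608322) (nat_lit 76) (nat_lit 4492667170) (nat_lit 114) (nat_lit 5) (nat_lit 119) (nat_lit 5) (nat_lit 115) (nat_lit 5) (nat_lit 398) (nat_lit 362) (nat_lit 260)) (XT.lf (nat_lit 0) (nat_lit 16213599600) (nat_lit 228) (nat_lit 9411721685) (nat_lit 304) (nat_lit 8187213185) (nat_lit 111) (nat_lit 5) (nat_lit 114) (nat_lit 5) (nat_lit 115) (nat_lit 5) (nat_lit 399) (nat_lit 362) (nat_lit 259)))) (XT.nd (nat_lit 78) (nat_lit 456) (nat_lit 0) (XT.lf (nat_lit 0) (nat_lit 4119803068) (nat_lit 304) (nat_lit 20244140759) (nat_lit 76) (nat_lit 10528139944) (nat_lit 107) (nat_lit 5) (nat_lit 111) (nat_lit 5) (nat_lit 108) (nat_lit 5) (nat_lit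 400) (nat_lit 362) (nat_lit 258)) (XT.nd (nat_lit 78) (nat_lit 228) (nat_lit 0) (XT.lf (nat_lit 0) (nat_lit 12906979148) (nat_lit 228) (nat_lit 4356785799) (nat_lit 304) (nat_lit 18747688219) (nat_lit 104) (nat_lit 5) (nat_lit 107) (nat_lit 5) (nat_lit 108) (nat_lit 5) (nat_lit 401) (nat_lit 362) (nat_lit 257)) (XT.lf (nat_lit 0) (nat_lit 10990570932) (nat_lit 228) (nat_lit 20538183285) (nat_lit 304) (nat_lit 5644123879) (nat_lit 101) (nat_lit 5) (nat_lit 104) (nat_lit 5) (nat_lit 105) (nat_lit 5) (nat_lit 402) (nat_lit 362) (nat_lit 256))))) (XT.nd (nat_lit 234) (nat_lit 760) (nat_lit 0) (XT.nd (nat_lit 78) (nat_lit 380) (nat_lit 0) (XT.lf (nat_lit 0) (nat_lit 8319919762) (nat_lit 304) (nat_lit 29467073612) (nat_lit 76) (nat_lit 592133219) (nat_lit 97) (nat_lit 5) (nat_lit 101) (nat_lit 5) (nat_lit 98) (nat_lit 5) (nat_lit 403) (nat_lit 362) (nat_lit 255)) (XT.nd (nat_lit 78) (nat_lit 152) (nat_lit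 0) (XT.lf (nat_lit 0) (nat_lit 6511469569) (nat_lit 228) (nat_lit 16885399954) (nat_lit 304) (nat_lit 16231200239) (nat_lit 94) (nat_lit 5) (nat_lit 97) (nat_lit 5) (nat_lit 98) (nat_lit 5) (nat_lit 404) (nat_lit 362) (nat_lit 254)) (XT.lf (nat_lit 0) (nat_lit 3981350785) (nat_lit 152) (nat_lit 35628153734) (nat_lit 228) (nat_lit 1318502069) (nat_lit 92) (nat_lit 5) (nat_lit 94) (nat_lit 5) (nat_lit 95) (nat_lit 5) (nat_lit 405) (nat_lit 362) (nat_lit 253)))) (XT.nd (nat_lit 156) (nat_lit 456) (nat_lit 0) (XT.nd (nat_lit 78) (nat_lit 0) (nat_lit 0) (XT.lf (nat_lit 0) (nat_lit 1033325210) (nat_lit 228) (nat_lit 13540155882) (nat_lit 304) (nat_lit 27699921218) (nat_lit 88) (nat_lit 5) (nat_lit 91) (nat_lit 5) (nat_lit 92) (nat_lit 5) (nat_lit 406) (nat_lit 362) (nat_lit 252)) (XT.lf (nat_lit 0) (nat_lit 31699045735) (nat_lit 304) (nat_lit 2118569000) (nat_lit 76) (nat_lit 9854075357) (nat_lit 88)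 (nat_lit 5) (nat_lit 92) (nat_lit 5) (nat_lit 89) (nat_lit 5) (nat_lit 407) (nat_lit 362) (nat_lit 251))) (XT.nd (nat_lit 78) (nat_lit 228) (nat_lit 0) (XT.lf (nat_lit 0) (nat_lit 4964137872) (nat_lit 228) (nat_lit 5596275752) (nat_lit 76) (nat_lit 34562817859) (nat_lit 85) (nat_lit 5) (nat_lit 88) (nat_lit 5) (nat_lit 86) (nat_lit 5) (nat_lit 408) (nat_lit 362) (nat_lit 250)) (XT.lf (nat_lit 0) (nat_lit 23010434157) (nat_lit 304) (nat_lit 9530030883) (nat_lit 76) (nat_lit 14088021308) (nat_lit 82) (nat_lit 5) (nat_lit 86) (nat_lit 5) (nat_lit 83) (nat_lit 5) (nat_lit 409) (nat_lit 362) (nat_lit 249))))))) (XT.nd (nat_lit 936) (nat_lit 1368) (nat_lit 0) (XT.nd (nat_lit 468) (nat_lit 912) (nat_lit 0) (XT.nd (nat_lit 234) (nat_lit 532) (nat_lit 0) (XT.nd (nat_lit 78) (nat_lit 380) (nat_lit 0) (XT.lf (nat_lit 0) (nat_lit 34384405641) (nat_lit 152) (nat_lit 8060048978) (nat_lit 228) (nat_lit 5749988261)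 (nat_lit 80) (nat_lit 5) (nat_lit 82) (nat_lit 5) (nat_lit 83) (nat_lit 5) (nat_lit 410) (nat_lit 362) (nat_lit 248)) (XT.nd (nat_lit 78) (nat_lit 152) (nat_lit 0) (XT.lf (nat_lit 0) (nat_lit 13322857579) (nat_lit 228) (nat_lit 18671463398) (nat_lit 76) (nat_lit 17823666761) (nat_lit 77) (nat_lit 5) (nat_lit 80) (nat_lit 5) (nat_lit 78) (nat_lit 5) (nat_lit 411) (nat_lit 362) (nat_lit 247)) (XT.lf (nat_lit 0) (nat_lit 27500459831) (nat_lit 152) (nat_lit 6210917746) (nat_lit 228) (nat_lit 17795196891) (nat_lit 75) (nat_lit 5) (nat_lit 77) (nat_lit 5) (nat_lit 78) (nat_lit 5) (nat_lit 412) (nat_lit 362) (nat_lit 246)))) (XT.nd (nat_lit 78) (nat_lit 304) (nat_lit 0) (XT.lf (nat_lit 0) (nat_lit 2419616641) (nat_lit 228) (nat_lit 29950967885) (nat_lit 76) (nat_lit 20890002948) (nat_lit 72) (nat_lit 5) (nat_lit 75) (nat_lit 5) (nat_lit 73) (nat_lit 5) (nat_lit 413) (nat_lit 362) (nat_lit 245)) (XT.nd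 (nat_lit 78) (nat_lit 152) (nat_lit 0) (XT.lf (nat_lit 0) (nat_lit 18498240868) (nat_lit 152) (nat_lit 5263392062) (nat_lit 228) (nat_lit 31320848609) (nat_lit 70) (nat_lit 5) (nat_lit 72) (nat_lit 5) (nat_lit 73) (nat_lit 5) (nat_lit 414) (nat_lit 362) (nat_lit 244)) (XT.lf (nat_lit 0) (nat_lit 13021992400) (nat_lit 152) (nat_lit 33799524293) (nat_lit 228) (nat_lit 10154431505) (nat_lit 68) (nat_lit 5) (nat_lit 70) (nat_lit 5) (nat_lit 71) (nat_lit 5) (nat_lit 415) (nat_lit 362) (nat_lit 243))))) (XT.nd (nat_lit 234) (nat_lit 532) (nat_lit 0) (XT.nd (nat_lit 78) (nat_lit 152) (nat_lit 0) (XT.lf (nat_lit 0) (nat_lit 6865993033) (nat_lit 152) (nat_lit 5459636874) (nat_lit 228) (nat_lit 46620252531) (nat_lit 65) (nat_lit 5) (nat_lit 67) (nat_lit 5) (nat_lit 68) (nat_lit 5) (nat_lit 416) (nat_lit 362) (nat_lit 242)) (XT.nd (nat_lit 78) (nat_lit 152) (nat_lit 0) (XT.lf (nat_lit 0) (nat_lit 36403749719)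 (nat_lit 228) (nat_lit 210926555) (nat_lit 76) (nat_lit 24376099795) (nat_lit 65) (nat_lit 5) (nat_lit 68) (nat_lit 5) (nat_lit 66) (nat_lit 5) (nat_lit 417) (nat_lit 362) (nat_lit 241)) (XT.lf (nat_lit 0) (nat_lit 55260322266) (nat_lit 152) (nat_lit 7003759756) (nat_lit 228) (nat_lit 856483911) (nat_lit 63) (nat_lit 5) (nat_lit 65) (nat_lit 5) (nat_lit 66) (nat_lit 5) (nat_lit 418) (nat_lit 362) (nat_lit 240)))) (XT.nd (nat_lit 78) (nat_lit 304) (nat_lit 0) (XT.lf (nat_lit 0) (nat_lit 24293570555) (nat_lit 228) (nat_lit 16713657629) (nat_lit 76) (nat_lit 24321604436) (nat_lit 60) (nat_lit 5) (nat_lit 63) (nat_lit 5) (nat_lit 61) (nat_lit 5) (nat_lit 419) (nat_lit 362) (nat_lit 239)) (XT.nd (nat_lit 78) (nat_lit 152) (nat_lit 0) (XT.lf (nat_lit 0) (nat_lit 41142341156) (nat_lit 152) (nat_lit 10081485012) (nat_lit 228) (nat_lit 16407220373) (nat_lit 58) (nat_lit 5) (nat_lit 60) (nat_lit 5) (nat_lit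 61) (nat_lit 5) (nat_lit 420) (nat_lit 362) (nat_lit 238)) (XT.lf (nat_lit 0) (nat_lit 9969573324) (nat_lit 152) (nat_lit 37522464821) (nat_lit 76) (nat_lit 22532553900) (nat_lit 56) (nat_lit 5) (nat_lit 58) (nat_lit 5) (nat_lit 57) (nat_lit 5) (nat_lit 421) (nat_lit 362) (nat_lit 237)))))) (XT.nd (nat_lit 468) (nat_lit 608) (nat_lit 0) (XT.nd (nat_lit 234) (nat_lit 456) (nat_lit 0) (XT.nd (nat_lit 78) (nat_lit 152) (nat_lit 0) (XT.lf (nat_lit 0) (nat_lit 22624416416) (nat_lit 152) (nat_lit 15291917755) (nat_lit 228) (nat_lit 34598894179) (nat_lit 54) (nat_lit 5) (nat_lit 56) (nat_lit 5) (nat_lit 57) (nat_lit 5) (nat_lit 422) (nat_lit 362) (nat_lit 236)) (XT.nd (nat_lit 78) (nat_lit 76) (nat_lit 0) (XT.lf (nat_lit 0) (nat_lit 11472799762) (nat_lit 76) (nat_lit 56458863526) (nat_lit 152) (nat_lit 7178596828) (nat_lit 53) (nat_lit 5) (nat_lit 54) (nat_lit 5) (nat_lit 55) (nat_lit 4) (nat_lit 423)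 (nat_lit 362) (nat_lit 235)) (XT.lf (nat_lit 0) (nat_lit 21856986714) (nat_lit 152) (nat_lit 1252604607) (nat_lit 76) (nat_lit 54699239621) (nat_lit 52) (nat_lit 5) (nat_lit 54) (nat_lit 5) (nat_lit 53) (nat_lit 5) (nat_lit 424) (nat_lit 362) (nat_lit 234)))) (XT.nd (nat_lit 78) (nat_lit 304) (nat_lit 0) (XT.lf (nat_lit 0) (nat_lit 52941035386) (nat_lit 228) (nat_lit 15299083562) (nat_lit 76) (nat_lit 12377725081) (nat_lit 50) (nat_lit 5) (nat_lit 53) (nat_lit 5) (nat_lit 51) (nat_lit 4) (nat_lit 425) (nat_lit 362) (nat_lit 233)) (XT.nd (nat_lit 78) (nat_lit 152) (nat_lit 0) (XT.lf (nat_lit 0) (nat_lit 2724080062) (nat_lit 152) (nat_lit 31115636717) (nat_lit 76) (nat_lit 49704470359) (nat_lit 48) (nat_lit 5) (nat_lit 50) (nat_lit 5) (nat_lit 49) (nat_lit 5) (nat_lit 426) (nat_lit 362) (nat_lit 232)) (XT.lf (nat_lit 0) (nat_lit 34622728548) (nat_lit 228) (nat_lit 48929949855) (nat_lit 76) (nat_lit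 3039445165) (nat_lit 46) (nat_lit 5) (nat_lit 49) (nat_lit 5) (nat_lit 47) (nat_lit 4) (nat_lit 427) (nat_lit 362) (nat_lit 231))))) (XT.nd (nat_lit 234) (nat_lit 304) (nat_lit 0) (XT.nd (nat_lit 78) (nat_lit 228) (nat_lit 0) (XT.lf (nat_lit 0) (nat_lit 20795634219) (nat_lit 76) (nat_lit 48179366684) (nat_lit 152) (nat_lit 20791695581) (nat_lit 45) (nat_lit 5) (nat_lit 46) (nat_lit 5) (nat_lit 47) (nat_lit 4) (nat_lit 428) (nat_lit 362) (nat_lit 230)) (XT.nd (nat_lit 78) (nat_lit 0) (nat_lit 0) (XT.lf (nat_lit 0) (nat_lit 1849913120) (nat_lit 152) (nat_lit 10382235031) (nat_lit 228) (nat_lit 80848795210) (nat_lit 42) (nat_lit 5) (nat_lit 44) (nat_lit 5) (nat_lit 45) (nat_lit 5) (nat_lit 429) (nat_lit 362) (nat_lit 229)) (XT.lf (nat_lit 0) (nat_lit 47473918937) (nat_lit 228) (nat_lit 19396231524) (nat_lit 76) (nat_lit 29654674557) (nat_lit 42) (nat_lit 5) (nat_lit 45) (nat_lit 5) (nat_lit 43)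 (nat_lit 4) (nat_lit 430) (nat_lit 362) (nat_lit 228)))) (XT.nd (nat_lit 47814) (nat_lit 0) (nat_lit 17936) (XT.nd (nat_lit 78) (nat_lit 228) (nat_lit 0) (XT.lf (nat_lit 0) (nat_lit 57027589486) (nat_lit 76) (nat_lit 28097468664) (nat_lit 152) (nat_lit 14996424552) (nat_lit 41) (nat_lit 5) (nat_lit 42) (nat_lit 5) (nat_lit 43) (nat_lit 4) (nat_lit 431) (nat_lit 362) (nat_lit 227)) (XT.lf (nat_lit 0) (nat_lit 21009319769) (nat_lit 228) (nat_lit 69762624171) (nat_lit 76) (nat_lit 13100432997) (nat_lit 38) (nat_lit 5) (nat_lit 41) (nat_lit 5) (nat_lit 39) (nat_lit 4) (nat_lit 432) (nat_lit 362) (nat_lit 226))) (XT.nd (nat_lit 78) (nat_lit 0) (nat_lit 0) (XT.lf (nat_lit 0) (nat_lit 1813444986) (nat_lit 0) (nat_lit 1813444986) (nat_lit 1140) (nat_lit 2761241644) (nat_lit 274) (nat_lit 5) (nat_lit 274) (nat_lit 3) (nat_lit 289) (nat_lit 3) (nat_lit 363) (nat_lit 363) (nat_lit 294)) (XT.lf (nat_lit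 76) (nat_lit 1168274621) (nat_lit 0) (nat_lit 7011758674) (nat_lit 1216) (nat_lit 4893059760) (nat_lit 275) (nat_lit 5) (nat_lit 274) (nat_lit 5) (nat_lit 290) (nat_lit 5) (nat_lit 364) (nat_lit 363) (nat_lit 293))))))))
noncomputable def xc87 : XT := (XT.nd (nat_lit 1950) (nat_lit 6232) (nat_lit 0) (XT.nd (nat_lit 936) (nat_lit 5852) (nat_lit 0) (XT.nd (nat_lit 468) (nat_lit 2356) (nat_lit 0) (XT.nd (nat_lit 234) (nat_lit 988) (nat_lit 0) (XT.nd (nat_lit 78) (nat_lit 0) (nat_lit 0) (XT.lf (nat_lit 0) (nat_lit 9267647659) (nat_lit 1140) (nat_lit 1277860381) (nat_lit 1216) (nat_lit 2835819568) (nat_lit 275) (nat_lit 5) (nat_lit 290) (nat_lit 5) (nat_lit 291) (nat_lit 5) (nat_lit 365) (nat_lit 363) (nat_lit 292)) (XT.nd (nat_lit 78) (nat_lit 0) (nat_lit 76) (XT.lf (nat_lit 76) (nat_lit 9980564519) (nat_lit 0) (nat_lit 554838357) (nat_lit 1216) (nat_lit 3165812199) (nat_lit 276) (nat_lit 5) (nat_lit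 275) (nat_lit 5) (nat_lit 291) (nat_lit 5) (nat_lit 366) (nat_lit 363) (nat_lit 291)) (XT.lf (nat_lit 76) (nat_lit 7824433198) (nat_lit 0) (nat_lit 4187046230) (nat_lit 1216) (nat_lit 2021282805) (nat_lit 277) (nat_lit 5) (nat_lit 276) (nat_lit 5) (nat_lit 292) (nat_lit 5) (nat_lit 367) (nat_lit 363) (nat_lit 290)))) (XT.nd (nat_lit 78) (nat_lit 1140) (nat_lit 0) (XT.lf (nat_lit 76) (nat_lit 5663002769) (nat_lit 0) (nat_lit 8020983946) (nat_lit 1216) (nat_lit 693233917) (nat_lit 278) (nat_lit 5) (nat_lit 277) (nat_lit 5) (nat_lit 293) (nat_lit 5) (nat_lit 368) (nat_lit 363) (nat_lit 289)) (XT.nd (nat_lit 78) (nat_lit 0) (nat_lit 0) (XT.lf (nat_lit 0) (nat_lit 818160375) (nat_lit 1216) (nat_lit 11247251337) (nat_lit 1292) (nat_lit 2669380970) (nat_lit 262) (nat_lit 5) (nat_lit 278) (nat_lit 5) (nat_lit 279) (nat_lit 5) (nat_lit 369) (nat_lit 363) (nat_lit 288)) (XT.lf (nat_lit 76) (nat_lit 1284631369)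 (nat_lit 0) (nat_lit 1255643108) (nat_lit 1292) (nat_lit 12565289504) (nat_lit 263) (nat_lit 5) (nat_lit 262) (nat_lit 5) (nat_lit 279) (nat_lit 5) (nat_lit 370) (nat_lit 363) (nat_lit 287))))) (XT.nd (nat_lit 234) (nat_lit 2432) (nat_lit 0) (XT.nd (nat_lit 78) (nat_lit 0) (nat_lit 76) (XT.lf (nat_lit 0) (nat_lit 4529397782) (nat_lit 1216) (nat_lit 937324214) (nat_lit 1292) (nat_lit 10022735387) (nat_lit 263) (nat_lit 5) (nat_lit 279) (nat_lit 5) (nat_lit 280) (nat_lit 5) (nat_lit 371) (nat_lit 363) (nat_lit 286)) (XT.nd (nat_lit 78) (nat_lit 0) (nat_lit 76) (XT.lf (nat_lit 0) (nat_lit 6780687760) (nat_lit 1216) (nat_lit 3144908326) (nat_lit 1292) (nat_lit 5962078190) (nat_lit 264) (nat_lit 5) (nat_lit 280) (nat_lit 5) (nat_lit 281) (nat_lit 5) (nat_lit 372) (nat_lit 363) (nat_lit 285)) (XT.lf (nat_lit 0) (nat_lit 9300661700) (nat_lit 1216) (nat_lit 5363158638) (nat_lit 76) (nat_lit 1637307745)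 (nat_lit 265) (nat_lit 5) (nat_lit 281) (nat_lit 5) (nat_lit 266) (nat_lit 5) (nat_lit 373) (nat_lit 363) (nat_lit 284)))) (XT.nd (nat_lit 78) (nat_lit 1368) (nat_lit 0) (XT.lf (nat_lit 0) (nat_lit 9108534746) (nat_lit 1216) (nat_lit 3029625952) (nat_lit 1292) (nat_lit 4591357287) (nat_lit 249) (nat_lit 5) (nat_lit 265) (nat_lit 5) (nat_lit 266) (nat_lit 5) (nat_lit 374) (nat_lit 363) (nat_lit 283)) (XT.nd (nat_lit 78) (nat_lit 684) (nat_lit 0) (XT.lf (nat_lit 0) (nat_lit 7265864116) (nat_lit 684) (nat_lit 8037841808) (nat_lit 760) (nat_lit 1870045075) (nat_lit 240) (nat_lit 5) (nat_lit 249) (nat_lit 5) (nat_lit 250) (nat_lit 5) (nat_lit 375) (nat_lit 363) (nat_lit 282)) (XT.lf (nat_lit 0) (nat_lit 1145297729) (nat_lit 684) (nat_lit 12218683208) (nat_lit 76) (nat_lit 4270621154) (nat_lit 231) (nat_lit 5) (nat_lit 240) (nat_lit 5) (nat_lit 232) (nat_lit 5) (nat_lit 376) (nat_lit 363) (nat_lit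 281)))))) (XT.nd (nat_lit 468) (nat_lit 3116) (nat_lit 0) (XT.nd (nat_lit 234) (nat_lit 1596) (nat_lit 0) (XT.nd (nat_lit 78) (nat_lit 532) (nat_lit 0) (XT.lf (nat_lit 0) (nat_lit 3540416483) (nat_lit 608) (nat_lit 924980550) (nat_lit 684) (nat_lit 13646771014) (nat_lit 223) (nat_lit 5) (nat_lit 231) (nat_lit 5) (nat_lit 232) (nat_lit 5) (nat_lit 377) (nat_lit 363) (nat_lit 280)) (XT.nd (nat_lit 78) (nat_lit 0) (nat_lit 0) (XT.lf (nat_lit 0) (nat_lit 1621486980) (nat_lit 532) (nat_lit 6564427324) (nat_lit 608) (nat_lit 10420672951) (nat_lit 216) (nat_lit 5) (nat_lit 223) (nat_lit 5) (nat_lit 224) (nat_lit 5) (nat_lit 378) (nat_lit 363) (nat_lit 279)) (XT.lf (nat_lit 0) (nat_lit 12291883618) (nat_lit 608) (nat_lit 290884329) (nat_lit 76) (nat_lit 6536983684) (nat_lit 216) (nat_lit 5) (nat_lit 224) (nat_lit 5) (nat_lit 217) (nat_lit 5) (nat_lit 379) (nat_lit 363) (nat_lit 278)))) (XT.nd (nat_lit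 78) (nat_lit 1064) (nat_lit 0) (XT.lf (nat_lit 0) (nat_lit 16821228442) (nat_lit 608) (nat_lit 2169666821) (nat_lit 76) (nat_lit 661143312) (nat_lit 209) (nat_lit 5) (nat_lit 217) (nat_lit 5) (nat_lit 210) (nat_lit 5) (nat_lit 380) (nat_lit 363) (nat_lit 277)) (XT.nd (nat_lit 78) (nat_lit 532) (nat_lit 0) (XT.lf (nat_lit 0) (nat_lit 1604924341) (nat_lit 532) (nat_lit 4116057528) (nat_lit 76) (nat_lit 14481605767) (nat_lit 202) (nat_lit 5) (nat_lit 209) (nat_lit 5) (nat_lit 203) (nat_lit 5) (nat_lit 381) (nat_lit 363) (nat_lit 276)) (XT.lf (nat_lit 0) (nat_lit 6428353325) (nat_lit 608) (nat_lit 6100030186) (nat_lit 76) (nat_lit 8244712070) (nat_lit 195) (nat_lit 5) (nat_lit 203) (nat_lit 5) (nat_lit 196) (nat_lit 5) (nat_lit 382) (nat_lit 363) (nat_lit 275))))) (XT.nd (nat_lit 234) (nat_lit 1672) (nat_lit 0) (XT.nd (nat_lit 78) (nat_lit 988) (nat_lit 0) (XT.lf (nat_lit 0) (nat_lit 11716047144)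 (nat_lit 532) (nat_lit 8086796308) (nat_lit 76) (nat_lit 1562598255) (nat_lit 189) (nat_lit 5) (nat_lit 196) (nat_lit 5) (nat_lit 190) (nat_lit 5) (nat_lit 383) (nat_lit 363) (nat_lit 274)) (XT.nd (nat_lit 78) (nat_lit 532) (nat_lit 0) (XT.lf (nat_lit 0) (nat_lit 11848819292) (nat_lit 456) (nat_lit 5703246034) (nat_lit 532) (nat_lit 4426826943) (nat_lit 183) (nat_lit 5) (nat_lit 189) (nat_lit 5) (nat_lit 190) (nat_lit 5) (nat_lit 384) (nat_lit 363) (nat_lit 273)) (XT.lf (nat_lit 0) (nat_lit 1291338054) (nat_lit 532) (nat_lit 12206762626) (nat_lit 76) (nat_lit 9116962052) (nat_lit 176) (nat_lit 5) (nat_lit 183) (nat_lit 5) (nat_lit 177) (nat_lit 5) (nat_lit 385) (nat_lit 363) (nat_lit 272)))) (XT.nd (nat_lit 156) (nat_lit 836) (nat_lit 0) (XT.nd (nat_lit 78) (nat_lit 380) (nat_lit 0) (XT.lf (nat_lit 0) (nat_lit 7449620150) (nat_lit 532) (nat_lit 14335685413) (nat_lit 76) (nat_lit 1489053069) (nat_lit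 170) (nat_lit 5) (nat_lit 177) (nat_lit 5) (nat_lit 171) (nat_lit 5) (nat_lit 386) (nat_lit 363) (nat_lit 271)) (XT.lf (nat_lit 0) (nat_lit 7417946784) (nat_lit 380) (nat_lit 6814312938) (nat_lit 456) (nat_lit 9724870765) (nat_lit 165) (nat_lit 5) (nat_lit 170) (nat_lit 5) (nat_lit 171) (nat_lit 5) (nat_lit 387) (nat_lit 363) (nat_lit 270))) (XT.nd (nat_lit 78) (nat_lit 456) (nat_lit 0) (XT.lf (nat_lit 0) (nat_lit 5894420914) (nat_lit 380) (nat_lit 15733499834) (nat_lit 456) (nat_lit 3037907750) (nat_lit 160) (nat_lit 5) (nat_lit 165) (nat_lit 5) (nat_lit 166) (nat_lit 5) (nat_lit 388) (nat_lit 363) (nat_lit 269)) (XT.lf (nat_lit 0) (nat_lit 4172850559) (nat_lit 456) (nat_lit 21058474141) (nat_lit 76) (nat_lit 169476584) (nat_lit 154) (nat_lit 5) (nat_lit 160) (nat_lit 5) (nat_lit 155) (nat_lit 5) (nat_lit 389) (nat_lit 363) (nat_lit 268))))))) (XT.nd (nat_lit 936) (nat_lit 2660) (nat_lit 0)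 (XT.nd (nat_lit 468) (nat_lit 1748) (nat_lit 0) (XT.nd (nat_lit 234) (nat_lit 1064) (nat_lit 0) (XT.nd (nat_lit 78) (nat_lit 380) (nat_lit 0) (XT.lf (nat_lit 0) (nat_lit 2675883233) (nat_lit 380) (nat_lit 9369275476) (nat_lit 456) (nat_lit 14115550176) (nat_lit 149) (nat_lit 5) (nat_lit 154) (nat_lit 5) (nat_lit 155) (nat_lit 5) (nat_lit 390) (nat_lit 363) (nat_lit 267)) (XT.nd (nat_lit 78) (nat_lit 76) (nat_lit 0) (XT.lf (nat_lit 0) (nat_lit 1010413108) (nat_lit 304) (nat_lit 19583445406) (nat_lit 380) (nat_lit 6356273629) (nat_lit 145) (nat_lit 5) (nat_lit 149) (nat_lit 5) (nat_lit 150) (nat_lit 5) (nat_lit 391) (nat_lit 363) (nat_lit 266)) (XT.lf (nat_lit 0) (nat_lit 2079232633) (nat_lit 380) (nat_lit 686483652) (nat_lit 76) (nat_lit 25003100675) (nat_lit 144) (nat_lit 5) (nat_lit 149) (nat_lit 5) (nat_lit 145) (nat_lit 5) (nat_lit 392) (nat_lit 363) (nat_lit 265)))) (XT.nd (nat_lit 78) (nat_lit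 684) (nat_lit 0) (XT.lf (nat_lit 0) (nat_lit 11190150291) (nat_lit 456) (nat_lit 2508674343) (nat_lit 76) (nat_lit 14916173713) (nat_lit 139) (nat_lit 5) (nat_lit 145) (nat_lit 5) (nat_lit 140) (nat_lit 5) (nat_lit 393) (nat_lit 363) (nat_lit 264)) (XT.nd (nat_lit 78) (nat_lit 380) (nat_lit 0) (XT.lf (nat_lit 0) (nat_lit 21059644750) (nat_lit 380) (nat_lit 4342719890) (nat_lit 76) (nat_lit 4092036225) (nat_lit 135) (nat_lit 5) (nat_lit 140) (nat_lit 5) (nat_lit 136) (nat_lit 5) (nat_lit 394) (nat_lit 363) (nat_lit 263)) (XT.lf (nat_lit 0) (nat_lit 1371561502) (nat_lit 380) (nat_lit 6276907170) (nat_lit 76) (nat_lit 22757427953) (nat_lit 130) (nat_lit 5) (nat_lit 135) (nat_lit 5) (nat_lit 131) (nat_lit 5) (nat_lit 395) (nat_lit 363) (nat_lit 262))))) (XT.nd (nat_lit 234) (nat_lit 836) (nat_lit 0) (XT.nd (nat_lit 78) (nat_lit 608) (nat_lit 0) (XT.lf (nat_lit 0) (nat_lit 11858117171) (nat_lit 380)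 (nat_lit 8363260943) (nat_lit 76) (nat_lit 11128155341) (nat_lit 126) (nat_lit 5) (nat_lit 131) (nat_lit 5) (nat_lit 127) (nat_lit 5) (nat_lit 396) (nat_lit 363) (nat_lit 261)) (XT.nd (nat_lit 78) (nat_lit 304) (nat_lit 0) (XT.lf (nat_lit 0) (nat_lit 21833898914) (nat_lit 304) (nat_lit 1374293111) (nat_lit 380) (nat_lit 9121986867) (nat_lit 122) (nat_lit 5) (nat_lit 126) (nat_lit 5) (nat_lit 127) (nat_lit 5) (nat_lit 397) (nat_lit 363) (nat_lit 260)) (XT.lf (nat_lit 0) (nat_lit 2184754750) (nat_lit 304) (nat_lit 12805471837) (nat_lit 76) (nat_lit 18355524078) (nat_lit 118) (nat_lit 5) (nat_lit 122) (nat_lit 5) (nat_lit 119) (nat_lit 5) (nat_lit 398) (nat_lit 363) (nat_lit 259)))) (XT.nd (nat_lit 78) (nat_lit 532) (nat_lit 0) (XT.lf (nat_lit 0) (nat_lit 14213181732) (nat_lit 380) (nat_lit 15261357737) (nat_lit 76) (nat_lit 4924504114) (nat_lit 114) (nat_lit 5) (nat_lit 119) (nat_lit 5) (nat_lit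 115) (nat_lit 5) (nat_lit 399) (nat_lit 363) (nat_lit 258)) (XT.nd (nat_lit 78) (nat_lit 304) (nat_lit 0) (XT.lf (nat_lit 0) (nat_lit 17616824164) (nat_lit 228) (nat_lit 9667867335) (nat_lit 304) (nat_lit 8207061908) (nat_lit 111) (nat_lit 5) (nat_lit 114) (nat_lit 5) (nat_lit 115) (nat_lit 5) (nat_lit 400) (nat_lit 363) (nat_lit 257)) (XT.lf (nat_lit 0) (nat_lit 4697176282) (nat_lit 304) (nat_lit 20664258806) (nat_lit 76) (nat_lit 11264051592) (nat_lit 107) (nat_lit 5) (nat_lit 111) (nat_lit 5) (nat_lit 108) (nat_lit 5) (nat_lit 401) (nat_lit 363) (nat_lit 256)))))) (XT.nd (nat_lit 468) (nat_lit 1216) (nat_lit 0) (XT.nd (nat_lit 234) (nat_lit 684) (nat_lit 0) (XT.nd (nat_lit 78) (nat_lit 532) (nat_lit 0) (XT.lf (nat_lit 0) (nat_lit 14127444985) (nat_lit 228) (nat_lit 4358734738) (nat_lit 304) (nat_lit 19315012364) (nat_lit 104) (nat_lit 5) (nat_lit 107) (nat_lit 5) (nat_lit 108) (nat_lit 5)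 (nat_lit 402) (nat_lit 363) (nat_lit 255)) (XT.nd (nat_lit 78) (nat_lit 304) (nat_lit 0) (XT.lf (nat_lit 0) (nat_lit 12107238155) (nat_lit 228) (nat_lit 21347502407) (nat_lit 304) (nat_lit 5566240749) (nat_lit 101) (nat_lit 5) (nat_lit 104) (nat_lit 5) (nat_lit 105) (nat_lit 5) (nat_lit 403) (nat_lit 363) (nat_lit 254)) (XT.lf (nat_lit 0) (nat_lit 9079605170) (nat_lit 304) (nat_lit 30374448407) (nat_lit 76) (nat_lit 833668521) (nat_lit 97) (nat_lit 5) (nat_lit 101) (nat_lit 5) (nat_lit 98) (nat_lit 5) (nat_lit 404) (nat_lit 363) (nat_lit 253)))) (XT.nd (nat_lit 78) (nat_lit 456) (nat_lit 0) (XT.lf (nat_lit 0) (nat_lit 7386798263) (nat_lit 228) (nat_lit 17512522577) (nat_lit 304) (nat_lit 16700126421) (nat_lit 94) (nat_lit 5) (nat_lit 97) (nat_lit 5) (nat_lit 98) (nat_lit 5) (nat_lit 405) (nat_lit 363) (nat_lit 252)) (XT.nd (nat_lit 78) (nat_lit 304) (nat_lit 0) (XT.lf (nat_lit 0) (nat_lit 4722125994)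 (nat_lit 152) (nat_lit 37191818304) (nat_lit 228) (nat_lit 1050698202) (nat_lit 92) (nat_lit 5) (nat_lit 94) (nat_lit 5) (nat_lit 95) (nat_lit 5) (nat_lit 406) (nat_lit 363) (nat_lit 251)) (XT.lf (nat_lit 0) (nat_lit 1617539671) (nat_lit 228) (nat_lit 14001369623) (nat_lit 304) (nat_lit 28758618454) (nat_lit 88) (nat_lit 5) (nat_lit 91) (nat_lit 5) (nat_lit 92) (nat_lit 5) (nat_lit 407) (nat_lit 363) (nat_lit 250))))) (XT.nd (nat_lit 234) (nat_lit 760) (nat_lit 0) (XT.nd (nat_lit 78) (nat_lit 456) (nat_lit 0) (XT.lf (nat_lit 0) (nat_lit 33587644204) (nat_lit 304) (nat_lit 1710194084) (nat_lit 76) (nat_lit 10548286872) (nat_lit 88) (nat_lit 5) (nat_lit 92) (nat_lit 5) (nat_lit 89) (nat_lit 5) (nat_lit 408) (nat_lit 363) (nat_lit 249)) (XT.nd (nat_lit 78) (nat_lit 228) (nat_lit 0) (XT.lf (nat_lit 0) (nat_lit 5509281872) (nat_lit 228) (nat_lit 5370581912) (nat_lit 76) (nat_lit 36490584126) (nat_lit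 85) (nat_lit 5) (nat_lit 88) (nat_lit 5) (nat_lit 86) (nat_lit 5) (nat_lit 409) (nat_lit 363) (nat_lit 248)) (XT.lf (nat_lit 0) (nat_lit 24450429237) (nat_lit 304) (nat_lit 9508810457) (nat_lit 76) (nat_lit 14991951501) (nat_lit 82) (nat_lit 5) (nat_lit 86) (nat_lit 5) (nat_lit 83) (nat_lit 5) (nat_lit 410) (nat_lit 363) (nat_lit 247)))) (XT.nd (nat_lit 156) (nat_lit 380) (nat_lit 0) (XT.nd (nat_lit 78) (nat_lit 228) (nat_lit 0) (XT.lf (nat_lit 0) (nat_lit 36587080793) (nat_lit 152) (nat_lit 8259932747) (nat_lit 228) (nat_lit 5748707809) (nat_lit 80) (nat_lit 5) (nat_lit 82) (nat_lit 5) (nat_lit 83) (nat_lit 5) (nat_lit 411) (nat_lit 363) (nat_lit 246)) (XT.lf (nat_lit 0) (nat_lit 14265159995) (nat_lit 228) (nat_lit 19123607553) (nat_lit 76) (nat_lit 18911803733) (nat_lit 77) (nat_lit 5) (nat_lit 80) (nat_lit 5) (nat_lit 78) (nat_lit 5) (nat_lit 412) (nat_lit 363) (nat_lit 245))) (XT.nd (nat_lit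 78) (nat_lit 228) (nat_lit 0) (XT.lf (nat_lit 0) (nat_lit 29343111772) (nat_lit 152) (nat_lit 6321338903) (nat_lit 228) (nat_lit 18409397811) (nat_lit 75) (nat_lit 5) (nat_lit 77) (nat_lit 5) (nat_lit 78) (nat_lit 5) (nat_lit 413) (nat_lit 363) (nat_lit 244)) (XT.lf (nat_lit 0) (nat_lit 2804231033) (nat_lit 228) (nat_lit 30983062403) (nat_lit 76) (nat_lit 22128387054) (nat_lit 72) (nat_lit 5) (nat_lit 75) (nat_lit 5) (nat_lit 73) (nat_lit 5) (nat_lit 414) (nat_lit 363) (nat_lit 243))))))))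
noncomputable def xc88 : XT := (XT.nd (nat_lit 49608) (nat_lit 0) (nat_lit 7448) (XT.nd (nat_lit 936) (nat_lit 684) (nat_lit 0) (XT.nd (nat_lit 468) (nat_lit 760) (nat_lit 0) (XT.nd (nat_lit 234) (nat_lit 380) (nat_lit 0) (XT.nd (nat_lit 78) (nat_lit 380) (nat_lit 0) (XT.lf (nat_lit 0) (nat_lit 19875264646) (nat_lit 152) (nat_lit 5329875487) (nat_lit 228) (nat_lit 32623776669) (nat_lit 70) (nat_lit 5) (nat_lit 72) (nat_lit 5) (nat_lit 73) (nat_lit 5) (nat_lit 415) (nat_lit 363) (nat_lit 242)) (XT.nd (nat_lit 78) (nat_lit 228) (nat_lit 0) (XT.lf (nat_lit 0) (nat_lit 14117876007) (nat_lit 152) (nat_lit 35294055127) (nat_lit 228) (nat_lit 10405309508) (nat_lit 68) (nat_lit 5) (nat_lit 70) (nat_lit 5) (nat_lit 71) (nat_lit 5) (nat_lit 416) (nat_lit 363) (nat_lit 241)) (XT.lf (nat_lit 0) (nat_lit 7646218699) (nat_lit 152) (nat_lit 5539732349) (nat_lit 228) (nat_lit 48699881384) (nat_lit 65) (nat_lit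 5) (nat_lit 67) (nat_lit 5) (nat_lit 68) (nat_lit 5) (nat_lit 417) (nat_lit 363) (nat_lit 240)))) (XT.nd (nat_lit 78) (nat_lit 228) (nat_lit 0) (XT.lf (nat_lit 0) (nat_lit 203853607) (nat_lit 152) (nat_lit 38256227724) (nat_lit 228) (nat_lit 25573127372) (nat_lit 63) (nat_lit 5) (nat_lit 65) (nat_lit 5) (nat_lit 66) (nat_lit 5) (nat_lit 418) (nat_lit 363) (nat_lit 239)) (XT.nd (nat_lit 78) (nat_lit 228) (nat_lit 0) (XT.lf (nat_lit 0) (nat_lit 58432609079) (nat_lit 152) (nat_lit 7171644118) (nat_lit 228) (nat_lit 665511214) (nat_lit 63) (nat_lit 5) (nat_lit 65) (nat_lit 5) (nat_lit 66) (nat_lit 5) (nat_lit 419) (nat_lit 363) (nat_lit 238)) (XT.lf (nat_lit 0) (nat_lit 25732160411) (nat_lit 228) (nat_lit 17142394099) (nat_lit 76) (nat_lit 25713983163) (nat_lit 60) (nat_lit 5) (nat_lit 63) (nat_lit 5) (nat_lit 61) (nat_lit 5) (nat_lit 420) (nat_lit 363) (nat_lit 237))))) (XT.nd (nat_lit 234) (nat_lit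 304) (nat_lit 0) (XT.nd (nat_lit 78) (nat_lit 304) (nat_lit 0) (XT.lf (nat_lit 0) (nat_lit 43594739588) (nat_lit 152) (nat_lit 10407326459) (nat_lit 228) (nat_lit 17004003043) (nat_lit 58) (nat_lit 5) (nat_lit 60) (nat_lit 5) (nat_lit 61) (nat_lit 5) (nat_lit 421) (nat_lit 363) (nat_lit 236)) (XT.nd (nat_lit 78) (nat_lit 152) (nat_lit 0) (XT.lf (nat_lit 0) (nat_lit 10682249268) (nat_lit 152) (nat_lit 39005679029) (nat_lit 76) (nat_lit 23831450490) (nat_lit 56) (nat_lit 5) (nat_lit 58) (nat_lit 5) (nat_lit 57) (nat_lit 5) (nat_lit 422) (nat_lit 363) (nat_lit 235)) (XT.lf (nat_lit 0) (nat_lit 24137283611) (nat_lit 152) (nat_lit 15882533295) (nat_lit 228) (nat_lit 36114926747) (nat_lit 54) (nat_lit 5) (nat_lit 56) (nat_lit 5) (nat_lit 57) (nat_lit 5) (nat_lit 423) (nat_lit 363) (nat_lit 234)))) (XT.nd (nat_lit 78) (nat_lit 228) (nat_lit 0) (XT.lf (nat_lit 0) (nat_lit 12421588913) (nat_lit 76) (nat_lit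 59109633637) (nat_lit 152) (nat_lit 7328445923) (nat_lit 53) (nat_lit 5) (nat_lit 54) (nat_lit 5) (nat_lit 55) (nat_lit 4) (nat_lit 424) (nat_lit 363) (nat_lit 233)) (XT.nd (nat_lit 78) (nat_lit 152) (nat_lit 0) (XT.lf (nat_lit 0) (nat_lit 23145074934) (nat_lit 152) (nat_lit 954050076) (nat_lit 76) (nat_lit 57594276105) (nat_lit 52) (nat_lit 5) (nat_lit 54) (nat_lit 5) (nat_lit 53) (nat_lit 5) (nat_lit 425) (nat_lit 363) (nat_lit 232)) (XT.lf (nat_lit 0) (nat_lit 55778953959) (nat_lit 228) (nat_lit 15709065912) (nat_lit 76) (nat_lit 13154976822) (nat_lit 50) (nat_lit 5) (nat_lit 53) (nat_lit 5) (nat_lit 51) (nat_lit 4) (nat_lit 426) (nat_lit 363) (nat_lit 231)))))) (XT.nd (nat_lit 48204) (nat_lit 0) (nat_lit 16720) (XT.nd (nat_lit 234) (nat_lit 304) (nat_lit 0) (XT.nd (nat_lit 78) (nat_lit 228) (nat_lit 0) (XT.lf (nat_lit 0) (nat_lit 3047221602) (nat_lit 152) (nat_lit 32322888986) (nat_lit 76)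 (nat_lit 52345665268) (nat_lit 48) (nat_lit 5) (nat_lit 50) (nat_lit 5) (nat_lit 49) (nat_lit 5) (nat_lit 427) (nat_lit 363) (nat_lit 230)) (XT.nd (nat_lit 78) (nat_lit 76) (nat_lit 0) (XT.lf (nat_lit 0) (nat_lit 36536666544) (nat_lit 228) (nat_lit 51033969270) (nat_lit 76) (nat_lit 3345597970) (nat_lit 46) (nat_lit 5) (nat_lit 49) (nat_lit 5) (nat_lit 47) (nat_lit 4) (nat_lit 428) (nat_lit 363) (nat_lit 229)) (XT.lf (nat_lit 0) (nat_lit 22168076943) (nat_lit 76) (nat_lit 50432968478) (nat_lit 152) (nat_lit 21648655705) (nat_lit 45) (nat_lit 5) (nat_lit 46) (nat_lit 5) (nat_lit 47) (nat_lit 4) (nat_lit 429) (nat_lit 363) (nat_lit 228)))) (XT.nd (nat_lit 78) (nat_lit 76) (nat_lit 0) (XT.lf (nat_lit 0) (nat_lit 2269006344) (nat_lit 152) (nat_lit 10748422947) (nat_lit 228) (nat_lit 84712340533) (nat_lit 42) (nat_lit 5) (nat_lit 44) (nat_lit 5) (nat_lit 45) (nat_lit 5) (nat_lit 430) (nat_lit 363)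 (nat_lit 227)) (XT.nd (nat_lit 78) (nat_lit 76) (nat_lit 0) (XT.lf (nat_lit 0) (nat_lit 50014418437) (nat_lit 228) (nat_lit 20051425695) (nat_lit 76) (nat_lit 31280208037) (nat_lit 42) (nat_lit 5) (nat_lit 45) (nat_lit 5) (nat_lit 43) (nat_lit 4) (nat_lit 431) (nat_lit 363) (nat_lit 226)) (XT.lf (nat_lit 0) (nat_lit 60184567921) (nat_lit 76) (nat_lit 29358541268) (nat_lit 152) (nat_lit 15579584187) (nat_lit 41) (nat_lit 5) (nat_lit 42) (nat_lit 5) (nat_lit 43) (nat_lit 4) (nat_lit 432) (nat_lit 363) (nat_lit 225))))) (XT.nd (nat_lit 234) (nat_lit 988) (nat_lit 0) (XT.nd (nat_lit 78) (nat_lit 0) (nat_lit 0) (XT.lf (nat_lit 0) (nat_lit 2236034847) (nat_lit 0) (nat_lit 2236034847) (nat_lit 1140) (nat_lit 2215327536) (nat_lit 274) (nat_lit 5) (nat_lit 274) (nat_lit 3) (nat_lit 289) (nat_lit 3) (nat_lit 364) (nat_lit 364) (nat_lit 292)) (XT.nd (nat_lit 78) (nat_lit 0) (nat_lit 76) (XT.lf (nat_lit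 76) (nat_lit 1916820408) (nat_lit 0) (nat_lit 7937219244) (nat_lit 1216) (nat_lit 3834327609) (nat_lit 275) (nat_lit 5) (nat_lit 274) (nat_lit 5) (nat_lit 290) (nat_lit 5) (nat_lit 365) (nat_lit 364) (nat_lit 291)) (XT.lf (nat_lit 0) (nat_lit 10930533532) (nat_lit 1140) (nat_lit 642669085) (nat_lit 1216) (nat_lit 2440796451) (nat_lit 275) (nat_lit 5) (nat_lit 290) (nat_lit 5) (nat_lit 291) (nat_lit 5) (nat_lit 366) (nat_lit 364) (nat_lit 290)))) (XT.nd (nat_lit 78) (nat_lit 1064) (nat_lit 0) (XT.lf (nat_lit 76) (nat_lit 11158637948) (nat_lit 0) (nat_lit 1052446746) (nat_lit 1216) (nat_lit 2140333484) (nat_lit 276) (nat_lit 5) (nat_lit 275) (nat_lit 5) (nat_lit 291) (nat_lit 5) (nat_lit 367) (nat_lit 364) (nat_lit 289)) (XT.nd (nat_lit 78) (nat_lit 1140) (nat_lit 0) (XT.lf (nat_lit 76) (nat_lit 8913481004) (nat_lit 0) (nat_lit 4795180356) (nat_lit 1216) (nat_lit 992469031) (nat_lit 277) (nat_lit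 5) (nat_lit 276) (nat_lit 5) (nat_lit 292) (nat_lit 5) (nat_lit 368) (nat_lit 364) (nat_lit 288)) (XT.lf (nat_lit 0) (nat_lit 344627458) (nat_lit 1216) (nat_lit 8407662618) (nat_lit 1292) (nat_lit 6311908218) (nat_lit 261) (nat_lit 5) (nat_lit 277) (nat_lit 5) (nat_lit 278) (nat_lit 5) (nat_lit 369) (nat_lit 364) (nat_lit 287))))))) (XT.nd (nat_lit 936) (nat_lit 5320) (nat_lit 0) (XT.nd (nat_lit 468) (nat_lit 3040) (nat_lit 0) (XT.nd (nat_lit 234) (nat_lit 988) (nat_lit 0) (XT.nd (nat_lit 78) (nat_lit 0) (nat_lit 0) (XT.lf (nat_lit 0) (nat_lit 1870967198) (nat_lit 1216) (nat_lit 11061760593) (nat_lit 1292) (nat_lit 2508120224) (nat_lit 262) (nat_lit 5) (nat_lit 278) (nat_lit 5) (nat_lit 279) (nat_lit 5) (nat_lit 370) (nat_lit 364) (nat_lit 286)) (XT.nd (nat_lit 78) (nat_lit 0) (nat_lit 76) (XT.lf (nat_lit 76) (nat_lit 2075279183) (nat_lit 0) (nat_lit 1562704922) (nat_lit 1292) (nat_lit 12193425450)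 (nat_lit 263) (nat_lit 5) (nat_lit 262) (nat_lit 5) (nat_lit 279) (nat_lit 5) (nat_lit 371) (nat_lit 364) (nat_lit 285)) (XT.lf (nat_lit 0) (nat_lit 5678103613) (nat_lit 1216) (nat_lit 262098009) (nat_lit 1292) (nat_lit 10295764649) (nat_lit 263) (nat_lit 5) (nat_lit 279) (nat_lit 5) (nat_lit 280) (nat_lit 5) (nat_lit 372) (nat_lit 364) (nat_lit 284)))) (XT.nd (nat_lit 78) (nat_lit 1140) (nat_lit 0) (XT.lf (nat_lit 0) (nat_lit 8003018786) (nat_lit 1216) (nat_lit 2572159797) (nat_lit 1292) (nat_lit 6080097743) (nat_lit 264) (nat_lit 5) (nat_lit 280) (nat_lit 5) (nat_lit 281) (nat_lit 5) (nat_lit 373) (nat_lit 364) (nat_lit 283)) (XT.nd (nat_lit 78) (nat_lit 1216) (nat_lit 0) (XT.lf (nat_lit 0) (nat_lit 10612409701) (nat_lit 1216) (nat_lit 4895200947) (nat_lit 76) (nat_lit 1582903092) (nat_lit 265) (nat_lit 5) (nat_lit 281) (nat_lit 5) (nat_lit 266) (nat_lit 5) (nat_lit 374) (nat_lit 364) (nat_lit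 282)) (XT.lf (nat_lit 0) (nat_lit 10278976500) (nat_lit 1216) (nat_lit 3279360552) (nat_lit 1292) (nat_lit 3983002306) (nat_lit 249) (nat_lit 5) (nat_lit 265) (nat_lit 5) (nat_lit 266) (nat_lit 5) (nat_lit 375) (nat_lit 364) (nat_lit 281))))) (XT.nd (nat_lit 234) (nat_lit 1064) (nat_lit 0) (XT.nd (nat_lit 78) (nat_lit 1292) (nat_lit 0) (XT.lf (nat_lit 0) (nat_lit 8348541783) (nat_lit 684) (nat_lit 8500906361) (nat_lit 760) (nat_lit 1159329434) (nat_lit 240) (nat_lit 5) (nat_lit 249) (nat_lit 5) (nat_lit 250) (nat_lit 5) (nat_lit 376) (nat_lit 364) (nat_lit 280)) (XT.nd (nat_lit 78) (nat_lit 608) (nat_lit 0) (XT.lf (nat_lit 0) (nat_lit 1959985058) (nat_lit 684) (nat_lit 12091999966) (nat_lit 76) (nat_lit 4441398642) (nat_lit 231) (nat_lit 5) (nat_lit 240) (nat_lit 5) (nat_lit 232) (nat_lit 5) (nat_lit 377) (nat_lit 364) (nat_lit 279)) (XT.lf (nat_lit 0) (nat_lit 4433911055) (nat_lit 608) (nat_lit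 982997721) (nat_lit 684) (nat_lit 13578805316) (nat_lit 223) (nat_lit 5) (nat_lit 231) (nat_lit 5) (nat_lit 232) (nat_lit 5) (nat_lit 378) (nat_lit 364) (nat_lit 278)))) (XT.nd (nat_lit 78) (nat_lit 532) (nat_lit 0) (XT.lf (nat_lit 0) (nat_lit 2420037325) (nat_lit 532) (nat_lit 6875525483) (nat_lit 608) (nat_lit 10220138368) (nat_lit 216) (nat_lit 5) (nat_lit 223) (nat_lit 5) (nat_lit 224) (nat_lit 5) (nat_lit 379) (nat_lit 364) (nat_lit 277)) (XT.nd (nat_lit 78) (nat_lit 0) (nat_lit 0) (XT.lf (nat_lit 0) (nat_lit 405849942) (nat_lit 532) (nat_lit 13171688551) (nat_lit 608) (nat_lit 6477873796) (nat_lit 209) (nat_lit 5) (nat_lit 216) (nat_lit 5) (nat_lit 217) (nat_lit 5) (nat_lit 380) (nat_lit 364) (nat_lit 276)) (XT.lf (nat_lit 0) (nat_lit 18304643519) (nat_lit 608) (nat_lit 1575904805) (nat_lit 76) (nat_lit 734635759) (nat_lit 209) (nat_lit 5) (nat_lit 217) (nat_lit 5) (nat_lit 210) (nat_lit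 5) (nat_lit 381) (nat_lit 364) (nat_lit 275)))))) (XT.nd (nat_lit 468) (nat_lit 2356) (nat_lit 0) (XT.nd (nat_lit 234) (nat_lit 1444) (nat_lit 0) (XT.nd (nat_lit 78) (nat_lit 988) (nat_lit 0) (XT.lf (nat_lit 0) (nat_lit 2309788370) (nat_lit 532) (nat_lit 3627141840) (nat_lit 76) (nat_lit 15256876463) (nat_lit 202) (nat_lit 5) (nat_lit 209) (nat_lit 5) (nat_lit 203) (nat_lit 5) (nat_lit 382) (nat_lit 364) (nat_lit 274)) (XT.nd (nat_lit 78) (nat_lit 456) (nat_lit 0) (XT.lf (nat_lit 0) (nat_lit 7351837720) (nat_lit 608) (nat_lit 5712728635) (nat_lit 76) (nat_lit 8728958374) (nat_lit 195) (nat_lit 5) (nat_lit 203) (nat_lit 5) (nat_lit 196) (nat_lit 5) (nat_lit 383) (nat_lit 364) (nat_lit 273)) (XT.lf (nat_lit 0) (nat_lit 12882600569) (nat_lit 532) (nat_lit 7802016229) (nat_lit 76) (nat_lit 1731518626) (nat_lit 189) (nat_lit 5) (nat_lit 196) (nat_lit 5) (nat_lit 190) (nat_lit 5) (nat_lit 384) (nat_lit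 364) (nat_lit 272)))) (XT.nd (nat_lit 78) (nat_lit 988) (nat_lit 0) (XT.lf (nat_lit 0) (nat_lit 13110626668) (nat_lit 456) (nat_lit 5878572539) (nat_lit 532) (nat_lit 4071703342) (nat_lit 183) (nat_lit 5) (nat_lit 189) (nat_lit 5) (nat_lit 190) (nat_lit 5) (nat_lit 385) (nat_lit 364) (nat_lit 271)) (XT.nd (nat_lit 78) (nat_lit 456) (nat_lit 0) (XT.lf (nat_lit 0) (nat_lit 1901682964) (nat_lit 532) (nat_lit 12140498946) (nat_lit 76) (nat_lit 9687123388) (nat_lit 176) (nat_lit 5) (nat_lit 183) (nat_lit 5) (nat_lit 177) (nat_lit 5) (nat_lit 386) (nat_lit 364) (nat_lit 270)) (XT.lf (nat_lit 0) (nat_lit 8349467436) (nat_lit 532) (nat_lit 14380608873) (nat_lit 76) (nat_lit 1692048569) (nat_lit 170) (nat_lit 5) (nat_lit 177) (nat_lit 5) (nat_lit 171) (nat_lit 5) (nat_lit 387) (nat_lit 364) (nat_lit 269))))) (XT.nd (nat_lit 234) (nat_lit 1140) (nat_lit 0) (XT.nd (nat_lit 78) (nat_lit 836) (nat_lit 0)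 (XT.lf (nat_lit 0) (nat_lit 8441446178) (nat_lit 380) (nat_lit 7010953339) (nat_lit 456) (nat_lit 9687207217) (nat_lit 165) (nat_lit 5) (nat_lit 170) (nat_lit 5) (nat_lit 171) (nat_lit 5) (nat_lit 388) (nat_lit 364) (nat_lit 268)) (XT.nd (nat_lit 78) (nat_lit 456) (nat_lit 0) (XT.lf (nat_lit 0) (nat_lit 6836631473) (nat_lit 380) (nat_lit 16364539615) (nat_lit 456) (nat_lit 2683074661) (nat_lit 160) (nat_lit 5) (nat_lit 165) (nat_lit 5) (nat_lit 166) (nat_lit 5) (nat_lit 389) (nat_lit 364) (nat_lit 267)) (XT.lf (nat_lit 0) (nat_lit 4862344988) (nat_lit 456) (nat_lit 21459794351) (nat_lit 76) (nat_lit 334166839) (nat_lit 154) (nat_lit 5) (nat_lit 160) (nat_lit 5) (nat_lit 155) (nat_lit 5) (nat_lit 390) (nat_lit 364) (nat_lit 266)))) (XT.nd (nat_lit 156) (nat_lit 456) (nat_lit 0) (XT.nd (nat_lit 78) (nat_lit 304) (nat_lit 0) (XT.lf (nat_lit 0) (nat_lit 3442602808) (nat_lit 380) (nat_lit 9668852094)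 (nat_lit 456) (nat_lit 14343263887) (nat_lit 149) (nat_lit 5) (nat_lit 154) (nat_lit 5) (nat_lit 155) (nat_lit 5) (nat_lit 391) (nat_lit 364) (nat_lit 265)) (XT.lf (nat_lit 0) (nat_lit 1687763086) (nat_lit 304) (nat_lit 20385301158) (nat_lit 380) (nat_lit 6210989700) (nat_lit 145) (nat_lit 5) (nat_lit 149) (nat_lit 5) (nat_lit 150) (nat_lit 5) (nat_lit 392) (nat_lit 364) (nat_lit 264))) (XT.nd (nat_lit 78) (nat_lit 380) (nat_lit 0) (XT.lf (nat_lit 0) (nat_lit 2615633225) (nat_lit 380) (nat_lit 115129214) (nat_lit 76) (nat_lit 26413430271) (nat_lit 144) (nat_lit 5) (nat_lit 149) (nat_lit 5) (nat_lit 145) (nat_lit 5) (nat_lit 393) (nat_lit 364) (nat_lit 263)) (XT.lf (nat_lit 0) (nat_lit 12168801676) (nat_lit 456) (nat_lit 2034820466) (nat_lit 76) (nat_lit 15829464255) (nat_lit 139) (nat_lit 5) (nat_lit 145) (nat_lit 5) (nat_lit 140) (nat_lit 5) (nat_lit 394) (nat_lit 364) (nat_lit 262))))))))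
noncomputable def xc89 : XT := (XT.nd (nat_lit 1950) (nat_lit 1596) (nat_lit 0) (XT.nd (nat_lit 936) (nat_lit 2356) (nat_lit 0) (XT.nd (nat_lit 468) (nat_lit 1520) (nat_lit 0) (XT.nd (nat_lit 234) (nat_lit 912) (nat_lit 0) (XT.nd (nat_lit 78) (nat_lit 684) (nat_lit 0) (XT.lf (nat_lit 0) (nat_lit 22519111809) (nat_lit 380) (nat_lit 3967224554) (nat_lit 76) (nat_lit 4470506619) (nat_lit 135) (nat_lit 5) (nat_lit 140) (nat_lit 5) (nat_lit 136) (nat_lit 5) (nat_lit 395) (nat_lit 364) (nat_lit 261)) (XT.nd (nat_lit 78) (nat_lit 304) (nat_lit 0) (XT.lf (nat_lit 0) (nat_lit 1836767020) (nat_lit 380) (nat_lit 6007138094) (nat_lit 76) (nat_lit 24070310420) (nat_lit 130) (nat_lit 5) (nat_lit 135) (nat_lit 5) (nat_lit 131) (nat_lit 5) (nat_lit 396) (nat_lit 364) (nat_lit 260)) (XT.lf (nat_lit 0) (nat_lit 12835978494) (nat_lit 380) (nat_lit 8204735422) (nat_lit 76) (nat_lit 11864674120) (nat_lit 126) (nat_lit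 5) (nat_lit 131) (nat_lit 5) (nat_lit 127) (nat_lit 5) (nat_lit 397) (nat_lit 364) (nat_lit 259)))) (XT.nd (nat_lit 78) (nat_lit 608) (nat_lit 0) (XT.lf (nat_lit 0) (nat_lit 23485751765) (nat_lit 304) (nat_lit 1254858693) (nat_lit 380) (nat_lit 9194847182) (nat_lit 122) (nat_lit 5) (nat_lit 126) (nat_lit 5) (nat_lit 127) (nat_lit 5) (nat_lit 398) (nat_lit 364) (nat_lit 258)) (XT.nd (nat_lit 78) (nat_lit 304) (nat_lit 0) (XT.lf (nat_lit 0) (nat_lit 2658970170) (nat_lit 304) (nat_lit 12885164380) (nat_lit 76) (nat_lit 19457889656) (nat_lit 118) (nat_lit 5) (nat_lit 122) (nat_lit 5) (nat_lit 119) (nat_lit 5) (nat_lit 399) (nat_lit 364) (nat_lit 257)) (XT.lf (nat_lit 0) (nat_lit 15278515341) (nat_lit 380) (nat_lit 15471109524) (nat_lit 76) (nat_lit 5358669080) (nat_lit 114) (nat_lit 5) (nat_lit 119) (nat_lit 5) (nat_lit 115) (nat_lit 5) (nat_lit 400) (nat_lit 364) (nat_lit 256))))) (XT.nd (nat_lit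 234) (nat_lit 760) (nat_lit 0) (XT.nd (nat_lit 78) (nat_lit 532) (nat_lit 0) (XT.lf (nat_lit 0) (nat_lit 19035120778) (nat_lit 228) (nat_lit 9956756906) (nat_lit 304) (nat_lit 8264116196) (nat_lit 111) (nat_lit 5) (nat_lit 114) (nat_lit 5) (nat_lit 115) (nat_lit 5) (nat_lit 401) (nat_lit 364) (nat_lit 255)) (XT.nd (nat_lit 78) (nat_lit 228) (nat_lit 0) (XT.lf (nat_lit 0) (nat_lit 5268890480) (nat_lit 304) (nat_lit 21160429578) (nat_lit 76) (nat_lit 12017281065) (nat_lit 107) (nat_lit 5) (nat_lit 111) (nat_lit 5) (nat_lit 108) (nat_lit 5) (nat_lit 402) (nat_lit 364) (nat_lit 254)) (XT.lf (nat_lit 0) (nat_lit 15355465197) (nat_lit 228) (nat_lit 4380852563) (nat_lit 304) (nat_lit 19945107413) (nat_lit 104) (nat_lit 5) (nat_lit 107) (nat_lit 5) (nat_lit 108) (nat_lit 5) (nat_lit 403) (nat_lit 364) (nat_lit 253)))) (XT.nd (nat_lit 78) (nat_lit 532) (nat_lit 0) (XT.lf (nat_lit 0) (nat_lit 13227011561)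 (nat_lit 228) (nat_lit 22217516946) (nat_lit 304) (nat_lit 5517941155) (nat_lit 101) (nat_lit 5) (nat_lit 104) (nat_lit 5) (nat_lit 105) (nat_lit 5) (nat_lit 404) (nat_lit 364) (nat_lit 252)) (XT.nd (nat_lit 78) (nat_lit 228) (nat_lit 0) (XT.lf (nat_lit 0) (nat_lit 9845321863) (nat_lit 304) (nat_lit 31379811294) (nat_lit 76) (nat_lit 1067577471) (nat_lit 97) (nat_lit 5) (nat_lit 101) (nat_lit 5) (nat_lit 98) (nat_lit 5) (nat_lit 405) (nat_lit 364) (nat_lit 251)) (XT.lf (nat_lit 0) (nat_lit 8254782361) (nat_lit 228) (nat_lit 18191189636) (nat_lit 304) (nat_lit 17224353757) (nat_lit 94) (nat_lit 5) (nat_lit 97) (nat_lit 5) (nat_lit 98) (nat_lit 5) (nat_lit 406) (nat_lit 364) (nat_lit 250)))))) (XT.nd (nat_lit 468) (nat_lit 1292) (nat_lit 0) (XT.nd (nat_lit 234) (nat_lit 608) (nat_lit 0) (XT.nd (nat_lit 78) (nat_lit 304) (nat_lit 0) (XT.lf (nat_lit 0) (nat_lit 5449577118) (nat_lit 152) (nat_lit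 38853909793) (nat_lit 228) (nat_lit 800531098) (nat_lit 92) (nat_lit 5) (nat_lit 94) (nat_lit 5) (nat_lit 95) (nat_lit 5) (nat_lit 407) (nat_lit 364) (nat_lit 249)) (XT.nd (nat_lit 78) (nat_lit 0) (nat_lit 0) (XT.lf (nat_lit 0) (nat_lit 2181453571) (nat_lit 228) (nat_lit 14505706536) (nat_lit 304) (nat_lit 29900586724) (nat_lit 88) (nat_lit 5) (nat_lit 91) (nat_lit 5) (nat_lit 92) (nat_lit 5) (nat_lit 408) (nat_lit 364) (nat_lit 248)) (XT.lf (nat_lit 0) (nat_lit 35542442452) (nat_lit 304) (nat_lit 1329215474) (nat_lit 76) (nat_lit 11258474683) (nat_lit 88) (nat_lit 5) (nat_lit 92) (nat_lit 5) (nat_lit 89) (nat_lit 5) (nat_lit 409) (nat_lit 364) (nat_lit 247)))) (XT.nd (nat_lit 78) (nat_lit 380) (nat_lit 0) (XT.lf (nat_lit 0) (nat_lit 6054076675) (nat_lit 228) (nat_lit 5180600689) (nat_lit 76) (nat_lit 38496179431) (nat_lit 85) (nat_lit 5) (nat_lit 88) (nat_lit 5) (nat_lit 86) (nat_lit 5) (nat_lit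 410) (nat_lit 364) (nat_lit 246)) (XT.nd (nat_lit 78) (nat_lit 152) (nat_lit 0) (XT.lf (nat_lit 0) (nat_lit 25935511580) (nat_lit 304) (nat_lit 9532802480) (nat_lit 76) (nat_lit 15922527877) (nat_lit 82) (nat_lit 5) (nat_lit 86) (nat_lit 5) (nat_lit 83) (nat_lit 5) (nat_lit 411) (nat_lit 364) (nat_lit 245)) (XT.lf (nat_lit 0) (nat_lit 38854942651) (nat_lit 152) (nat_lit 8488694753) (nat_lit 228) (nat_lit 5774211349) (nat_lit 80) (nat_lit 5) (nat_lit 82) (nat_lit 5) (nat_lit 83) (nat_lit 5) (nat_lit 412) (nat_lit 364) (nat_lit 244))))) (XT.nd (nat_lit 234) (nat_lit 684) (nat_lit 0) (XT.nd (nat_lit 78) (nat_lit 380) (nat_lit 0) (XT.lf (nat_lit 0) (nat_lit 15228902835) (nat_lit 228) (nat_lit 19643117622) (nat_lit 76) (nat_lit 20036036670) (nat_lit 77) (nat_lit 5) (nat_lit 80) (nat_lit 5) (nat_lit 78) (nat_lit 5) (nat_lit 413) (nat_lit 364) (nat_lit 243)) (XT.nd (nat_lit 78) (nat_lit 228) (nat_lit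 0) (XT.lf (nat_lit 0) (nat_lit 31234420602) (nat_lit 152) (nat_lit 6455886818) (nat_lit 228) (nat_lit 19079927633) (nat_lit 75) (nat_lit 5) (nat_lit 77) (nat_lit 5) (nat_lit 78) (nat_lit 5) (nat_lit 414) (nat_lit 364) (nat_lit 242)) (XT.lf (nat_lit 0) (nat_lit 3183565995) (nat_lit 228) (nat_lit 32110035137) (nat_lit 76) (nat_lit 23410664872) (nat_lit 72) (nat_lit 5) (nat_lit 75) (nat_lit 5) (nat_lit 73) (nat_lit 5) (nat_lit 415) (nat_lit 364) (nat_lit 241)))) (XT.nd (nat_lit 156) (nat_lit 380) (nat_lit 0) (XT.nd (nat_lit 78) (nat_lit 152) (nat_lit 0) (XT.lf (nat_lit 0) (nat_lit 21279106549) (nat_lit 152) (nat_lit 5417969099) (nat_lit 228) (nat_lit 34016313012) (nat_lit 70) (nat_lit 5) (nat_lit 72) (nat_lit 5) (nat_lit 73) (nat_lit 5) (nat_lit 416) (nat_lit 364) (nat_lit 240)) (XT.lf (nat_lit 0) (nat_lit 15227201995) (nat_lit 152) (nat_lit 36881483161) (nat_lit 228) (nat_lit 10692610292) (nat_lit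 68) (nat_lit 5) (nat_lit 70) (nat_lit 5) (nat_lit 71) (nat_lit 5) (nat_lit 417) (nat_lit 364) (nat_lit 239))) (XT.nd (nat_lit 78) (nat_lit 152) (nat_lit 0) (XT.lf (nat_lit 0) (nat_lit 8424834410) (nat_lit 152) (nat_lit 5641765345) (nat_lit 228) (nat_lit 50906862959) (nat_lit 65) (nat_lit 5) (nat_lit 67) (nat_lit 5) (nat_lit 68) (nat_lit 5) (nat_lit 418) (nat_lit 364) (nat_lit 238)) (XT.lf (nat_lit 0) (nat_lit 603827906) (nat_lit 152) (nat_lit 39995416610) (nat_lit 228) (nat_lit 26629120033) (nat_lit 63) (nat_lit 5) (nat_lit 65) (nat_lit 5) (nat_lit 66) (nat_lit 5) (nat_lit 419) (nat_lit 364) (nat_lit 237))))))) (XT.nd (nat_lit 936) (nat_lit 0) (nat_lit 0) (XT.nd (nat_lit 468) (nat_lit 836) (nat_lit 0) (XT.nd (nat_lit 234) (nat_lit 380) (nat_lit 0) (XT.nd (nat_lit 78) (nat_lit 380) (nat_lit 0) (XT.lf (nat_lit 0) (nat_lit 61725460123) (nat_lit 152) (nat_lit 7364871562) (nat_lit 228) (nat_lit 486726101)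 (nat_lit 63) (nat_lit 5) (nat_lit 65) (nat_lit 5) (nat_lit 66) (nat_lit 5) (nat_lit 420) (nat_lit 364) (nat_lit 236)) (XT.nd (nat_lit 78) (nat_lit 152) (nat_lit 0) (XT.lf (nat_lit 0) (nat_lit 27221862606) (nat_lit 228) (nat_lit 17630401413) (nat_lit 76) (nat_lit 27159590263) (nat_lit 60) (nat_lit 5) (nat_lit 63) (nat_lit 5) (nat_lit 61) (nat_lit 5) (nat_lit 421) (nat_lit 364) (nat_lit 235)) (XT.lf (nat_lit 0) (nat_lit 46133008427) (nat_lit 152) (nat_lit 10766030374) (nat_lit 228) (nat_lit 17651411041) (nat_lit 58) (nat_lit 5) (nat_lit 60) (nat_lit 5) (nat_lit 61) (nat_lit 5) (nat_lit 422) (nat_lit 364) (nat_lit 234)))) (XT.nd (nat_lit 78) (nat_lit 228) (nat_lit 0) (XT.lf (nat_lit 0) (nat_lit 11410644976) (nat_lit 152) (nat_lit 40599582906) (nat_lit 76) (nat_lit 25179275981) (nat_lit 56) (nat_lit 5) (nat_lit 58) (nat_lit 5) (nat_lit 57) (nat_lit 5) (nat_lit 423) (nat_lit 364) (nat_lit 233)) (XT.nd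 (nat_lit 78) (nat_lit 76) (nat_lit 0) (XT.lf (nat_lit 0) (nat_lit 25690312303) (nat_lit 152) (nat_lit 16518854655) (nat_lit 228) (nat_lit 37726648467) (nat_lit 54) (nat_lit 5) (nat_lit 56) (nat_lit 5) (nat_lit 57) (nat_lit 5) (nat_lit 424) (nat_lit 364) (nat_lit 232)) (XT.lf (nat_lit 0) (nat_lit 13382939708) (nat_lit 76) (nat_lit 61908949274) (nat_lit 152) (nat_lit 7505225818) (nat_lit 53) (nat_lit 5) (nat_lit 54) (nat_lit 5) (nat_lit 55) (nat_lit 4) (nat_lit 425) (nat_lit 364) (nat_lit 231))))) (XT.nd (nat_lit 234) (nat_lit 456) (nat_lit 0) (XT.nd (nat_lit 78) (nat_lit 304) (nat_lit 0) (XT.lf (nat_lit 0) (nat_lit 24479416104) (nat_lit 152) (nat_lit 674147354) (nat_lit 76) (nat_lit 60619182203) (nat_lit 52) (nat_lit 5) (nat_lit 54) (nat_lit 5) (nat_lit 53) (nat_lit 5) (nat_lit 426) (nat_lit 364) (nat_lit 230)) (XT.nd (nat_lit 78) (nat_lit 152) (nat_lit 0) (XT.lf (nat_lit 0) (nat_lit 58741023475)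 (nat_lit 228) (nat_lit 16172549296) (nat_lit 76) (nat_lit 13956367829) (nat_lit 50) (nat_lit 5) (nat_lit 53) (nat_lit 5) (nat_lit 51) (nat_lit 4) (nat_lit 427) (nat_lit 364) (nat_lit 229)) (XT.lf (nat_lit 0) (nat_lit 3369140540) (nat_lit 152) (nat_lit 33622906844) (nat_lit 76) (nat_lit 55104419181) (nat_lit 48) (nat_lit 5) (nat_lit 50) (nat_lit 5) (nat_lit 49) (nat_lit 5) (nat_lit 428) (nat_lit 364) (nat_lit 228)))) (XT.nd (nat_lit 78) (nat_lit 304) (nat_lit 0) (XT.lf (nat_lit 0) (nat_lit 38529306283) (nat_lit 228) (nat_lit 53275030020) (nat_lit 76) (nat_lit 3652724170) (nat_lit 46) (nat_lit 5) (nat_lit 49) (nat_lit 5) (nat_lit 47) (nat_lit 4) (nat_lit 429) (nat_lit 364) (nat_lit 227)) (XT.nd (nat_lit 78) (nat_lit 228) (nat_lit 0) (XT.lf (nat_lit 0) (nat_lit 23578214135) (nat_lit 76) (nat_lit 52813694870) (nat_lit 152) (nat_lit 22565442544) (nat_lit 45) (nat_lit 5) (nat_lit 46) (nat_lit 5) (nat_lit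 47) (nat_lit 4) (nat_lit 430) (nat_lit 364) (nat_lit 226)) (XT.lf (nat_lit 0) (nat_lit 2678690282) (nat_lit 152) (nat_lit 11147137669) (nat_lit 228) (nat_lit 88785695030) (nat_lit 42) (nat_lit 5) (nat_lit 44) (nat_lit 5) (nat_lit 45) (nat_lit 5) (nat_lit 431) (nat_lit 364) (nat_lit 225)))))) (XT.nd (nat_lit 48282) (nat_lit 0) (nat_lit 15732) (XT.nd (nat_lit 48048) (nat_lit 0) (nat_lit 17708) (XT.nd (nat_lit 47892) (nat_lit 0) (nat_lit 17632) (XT.lf (nat_lit 0) (nat_lit 52666435098) (nat_lit 228) (nat_lit 20768629719) (nat_lit 76) (nat_lit 32973742024) (nat_lit 42) (nat_lit 5) (nat_lit 45) (nat_lit 5) (nat_lit 43) (nat_lit 4) (nat_lit 432) (nat_lit 364) (nat_lit 224)) (XT.nd (nat_lit 78) (nat_lit 0) (nat_lit 0) (XT.lf (nat_lit 0) (nat_lit 2648895648) (nat_lit 0) (nat_lit 2648895648) (nat_lit 1140) (nat_lit 1705707345) (nat_lit 274) (nat_lit 5) (nat_lit 274) (nat_lit 3) (nat_lit 289) (nat_lit 3)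 (nat_lit 365) (nat_lit 365) (nat_lit 290)) (XT.lf (nat_lit 76) (nat_lit 2638631547) (nat_lit 0) (nat_lit 8855506634) (nat_lit 1216) (nat_lit 2843835247) (nat_lit 275) (nat_lit 5) (nat_lit 274) (nat_lit 5) (nat_lit 290) (nat_lit 5) (nat_lit 366) (nat_lit 365) (nat_lit 289)))) (XT.nd (nat_lit 78) (nat_lit 0) (nat_lit 0) (XT.lf (nat_lit 0) (nat_lit 12565045234) (nat_lit 1140) (nat_lit 40712458) (nat_lit 1216) (nat_lit 2075930064) (nat_lit 275) (nat_lit 5) (nat_lit 290) (nat_lit 5) (nat_lit 291) (nat_lit 5) (nat_lit 367) (nat_lit 365) (nat_lit 288)) (XT.nd (nat_lit 78) (nat_lit 0) (nat_lit 76) (XT.lf (nat_lit 76) (nat_lit 12332483862) (nat_lit 0) (nat_lit 1531251824) (nat_lit 1216) (nat_lit 1173636485) (nat_lit 276) (nat_lit 5) (nat_lit 275) (nat_lit 5) (nat_lit 291) (nat_lit 5) (nat_lit 368) (nat_lit 365) (nat_lit 287)) (XT.lf (nat_lit 76) (nat_lit 9992103941) (nat_lit 0) (nat_lit 5396646234) (nat_lit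 1216) (nat_lit 17259908) (nat_lit 277) (nat_lit 5) (nat_lit 276) (nat_lit 5) (nat_lit 292) (nat_lit 5) (nat_lit 369) (nat_lit 365) (nat_lit 286))))) (XT.nd (nat_lit 234) (nat_lit 912) (nat_lit 0) (XT.nd (nat_lit 78) (nat_lit 0) (nat_lit 76) (XT.lf (nat_lit 0) (nat_lit 1321785549) (nat_lit 1216) (nat_lit 8161134946) (nat_lit 1292) (nat_lit 6305378164) (nat_lit 261) (nat_lit 5) (nat_lit 277) (nat_lit 5) (nat_lit 278) (nat_lit 5) (nat_lit 370) (nat_lit 365) (nat_lit 285)) (XT.nd (nat_lit 78) (nat_lit 0) (nat_lit 0) (XT.lf (nat_lit 0) (nat_lit 2882337603) (nat_lit 1216) (nat_lit 10936523625) (nat_lit 1292) (nat_lit 2366197624) (nat_lit 262) (nat_lit 5) (nat_lit 278) (nat_lit 5) (nat_lit 279) (nat_lit 5) (nat_lit 371) (nat_lit 365) (nat_lit 284)) (XT.lf (nat_lit 76) (nat_lit 2837924091) (nat_lit 0) (nat_lit 1862409019) (nat_lit 1292) (nat_lit 11895950663) (nat_lit 263) (nat_lit 5) (nat_lit 262) (nat_lit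 5) (nat_lit 279) (nat_lit 5) (nat_lit 372) (nat_lit 365) (nat_lit 283)))) (XT.nd (nat_lit 156) (nat_lit 1064) (nat_lit 0) (XT.nd (nat_lit 78) (nat_lit 0) (nat_lit 76) (XT.lf (nat_lit 76) (nat_lit 387314090) (nat_lit 0) (nat_lit 6414912988) (nat_lit 1292) (nat_lit 10220061658) (nat_lit 264) (nat_lit 5) (nat_lit 263) (nat_lit 5) (nat_lit 280) (nat_lit 5) (nat_lit 373) (nat_lit 365) (nat_lit 282)) (XT.lf (nat_lit 0) (nat_lit 9204345814) (nat_lit 1216) (nat_lit 2038641759) (nat_lit 1292) (nat_lit 6220760810) (nat_lit 264) (nat_lit 5) (nat_lit 280) (nat_lit 5) (nat_lit 281) (nat_lit 5) (nat_lit 374) (nat_lit 365) (nat_lit 281))) (XT.nd (nat_lit 78) (nat_lit 1216) (nat_lit 0) (XT.lf (nat_lit 0) (nat_lit 11911025574) (nat_lit 1216) (nat_lit 4472282425) (nat_lit 76) (nat_lit 1538447304) (nat_lit 265) (nat_lit 5) (nat_lit 281) (nat_lit 5) (nat_lit 266) (nat_lit 5) (nat_lit 375) (nat_lit 365) (nat_lit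 280)) (XT.lf (nat_lit 0) (nat_lit 11441465022) (nat_lit 1216) (nat_lit 3532447222) (nat_lit 1292) (nat_lit 3422131700) (nat_lit 249) (nat_lit 5) (nat_lit 265) (nat_lit 5) (nat_lit 266) (nat_lit 5) (nat_lit 376) (nat_lit 365) (nat_lit 279))))))))
noncomputable def xc90 : XT := (XT.nd (nat_lit 1950) (nat_lit 4636) (nat_lit 0) (XT.nd (nat_lit 936) (nat_lit 4256) (nat_lit 0) (XT.nd (nat_lit 468) (nat_lit 2964) (nat_lit 0) (XT.nd (nat_lit 234) (nat_lit 1064) (nat_lit 0) (XT.nd (nat_lit 78) (nat_lit 1292) (nat_lit 0) (XT.lf (nat_lit 0) (nat_lit 9418471784) (nat_lit 684) (nat_lit 8981436906) (nat_lit 760) (nat_lit 487846568) (nat_lit 240) (nat_lit 5) (nat_lit 249) (nat_lit 5) (nat_lit 250) (nat_lit 5) (nat_lit 377) (nat_lit 365) (nat_lit 278)) (XT.nd (nat_lit 78) (nat_lit 608) (nat_lit 0) (XT.lf (nat_lit 0) (nat_lit 2744988795) (nat_lit 684) (nat_lit 12027559236) (nat_lit 76) (nat_lit 4624689826) (nat_lit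 231) (nat_lit 5) (nat_lit 240) (nat_lit 5) (nat_lit 232) (nat_lit 5) (nat_lit 378) (nat_lit 365) (nat_lit 277)) (XT.lf (nat_lit 0) (nat_lit 5305469418) (nat_lit 608) (nat_lit 1042821660) (nat_lit 684) (nat_lit 13577197510) (nat_lit 223) (nat_lit 5) (nat_lit 231) (nat_lit 5) (nat_lit 232) (nat_lit 5) (nat_lit 379) (nat_lit 365) (nat_lit 276)))) (XT.nd (nat_lit 78) (nat_lit 532) (nat_lit 0) (XT.lf (nat_lit 0) (nat_lit 3191811070) (nat_lit 532) (nat_lit 7203770503) (nat_lit 608) (nat_lit 10076661630) (nat_lit 216) (nat_lit 5) (nat_lit 223) (nat_lit 5) (nat_lit 224) (nat_lit 5) (nat_lit 380) (nat_lit 365) (nat_lit 275)) (XT.nd (nat_lit 78) (nat_lit 0) (nat_lit 0) (XT.lf (nat_lit 0) (nat_lit 1076806490) (nat_lit 532) (nat_lit 13790996767) (nat_lit 608) (nat_lit 6171861048) (nat_lit 209) (nat_lit 5) (nat_lit 216) (nat_lit 5) (nat_lit 217) (nat_lit 5) (nat_lit 381) (nat_lit 365) (nat_lit 274)) (XT.lf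 (nat_lit 0) (nat_lit 19802509396) (nat_lit 608) (nat_lit 1017742804) (nat_lit 76) (nat_lit 808043539) (nat_lit 209) (nat_lit 5) (nat_lit 217) (nat_lit 5) (nat_lit 210) (nat_lit 5) (nat_lit 382) (nat_lit 365) (nat_lit 273))))) (XT.nd (nat_lit 234) (nat_lit 1444) (nat_lit 0) (XT.nd (nat_lit 78) (nat_lit 988) (nat_lit 0) (XT.lf (nat_lit 0) (nat_lit 2991824557) (nat_lit 532) (nat_lit 3178368714) (nat_lit 76) (nat_lit 16066151496) (nat_lit 202) (nat_lit 5) (nat_lit 209) (nat_lit 5) (nat_lit 203) (nat_lit 5) (nat_lit 383) (nat_lit 365) (nat_lit 272)) (XT.nd (nat_lit 78) (nat_lit 456) (nat_lit 0) (XT.lf (nat_lit 0) (nat_lit 8265521877) (nat_lit 608) (nat_lit 5370425784) (nat_lit 76) (nat_lit 9230722121) (nat_lit 195) (nat_lit 5) (nat_lit 203) (nat_lit 5) (nat_lit 196) (nat_lit 5) (nat_lit 384) (nat_lit 365) (nat_lit 271)) (XT.lf (nat_lit 0) (nat_lit 14053488936) (nat_lit 532) (nat_lit 7567064982) (nat_lit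 76) (nat_lit 1900444179) (nat_lit 189) (nat_lit 5) (nat_lit 196) (nat_lit 5) (nat_lit 190) (nat_lit 5) (nat_lit 385) (nat_lit 365) (nat_lit 270)))) (XT.nd (nat_lit 78) (nat_lit 988) (nat_lit 0) (XT.lf (nat_lit 0) (nat_lit 14373293068) (nat_lit 456) (nat_lit 6072876861) (nat_lit 532) (nat_lit 3752417807) (nat_lit 183) (nat_lit 5) (nat_lit 189) (nat_lit 5) (nat_lit 190) (nat_lit 5) (nat_lit 386) (nat_lit 365) (nat_lit 269)) (XT.nd (nat_lit 78) (nat_lit 456) (nat_lit 0) (XT.lf (nat_lit 0) (nat_lit 2491803853) (nat_lit 532) (nat_lit 12133826105) (nat_lit 76) (nat_lit 10275165029) (nat_lit 176) (nat_lit 5) (nat_lit 183) (nat_lit 5) (nat_lit 177) (nat_lit 5) (nat_lit 387) (nat_lit 365) (nat_lit 268)) (XT.lf (nat_lit 0) (nat_lit 9245277569) (nat_lit 532) (nat_lit 14490241756) (nat_lit 76) (nat_lit 1893243149) (nat_lit 170) (nat_lit 5) (nat_lit 177) (nat_lit 5) (nat_lit 171) (nat_lit 5) (nat_lit 388)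 (nat_lit 365) (nat_lit 267)))))) (XT.nd (nat_lit 468) (nat_lit 1900) (nat_lit 0) (XT.nd (nat_lit 234) (nat_lit 1140) (nat_lit 0) (XT.nd (nat_lit 78) (nat_lit 836) (nat_lit 0) (XT.lf (nat_lit 0) (nat_lit 9455447789) (nat_lit 380) (nat_lit 7230820510) (nat_lit 456) (nat_lit 9696368406) (nat_lit 165) (nat_lit 5) (nat_lit 170) (nat_lit 5) (nat_lit 171) (nat_lit 5) (nat_lit 389) (nat_lit 365) (nat_lit 266)) (XT.nd (nat_lit 78) (nat_lit 456) (nat_lit 0) (XT.lf (nat_lit 0) (nat_lit 7765755121) (nat_lit 380) (nat_lit 17041600872) (nat_lit 456) (nat_lit 2357610728) (nat_lit 160) (nat_lit 5) (nat_lit 165) (nat_lit 5) (nat_lit 166) (nat_lit 5) (nat_lit 390) (nat_lit 365) (nat_lit 265)) (XT.lf (nat_lit 0) (nat_lit 5541609087) (nat_lit 456) (nat_lit 21941760489) (nat_lit 76) (nat_lit 492568084) (nat_lit 154) (nat_lit 5) (nat_lit 160) (nat_lit 5) (nat_lit 155) (nat_lit 5) (nat_lit 391) (nat_lit 365) (nat_lit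 264)))) (XT.nd (nat_lit 78) (nat_lit 760) (nat_lit 0) (XT.lf (nat_lit 0) (nat_lit 4188814955) (nat_lit 380) (nat_lit 9999109071) (nat_lit 456) (nat_lit 14626809124) (nat_lit 149) (nat_lit 5) (nat_lit 154) (nat_lit 5) (nat_lit 155) (nat_lit 5) (nat_lit 392) (nat_lit 365) (nat_lit 263)) (XT.nd (nat_lit 78) (nat_lit 456) (nat_lit 0) (XT.lf (nat_lit 0) (nat_lit 2340703915) (nat_lit 304) (nat_lit 21243734906) (nat_lit 380) (nat_lit 6101496002) (nat_lit 145) (nat_lit 5) (nat_lit 149) (nat_lit 5) (nat_lit 150) (nat_lit 5) (nat_lit 393) (nat_lit 365) (nat_lit 262)) (XT.lf (nat_lit 0) (nat_lit 437010333) (nat_lit 380) (nat_lit 2705840248) (nat_lit 456) (nat_lit 27446575312) (nat_lit 139) (nat_lit 5) (nat_lit 144) (nat_lit 5) (nat_lit 145) (nat_lit 5) (nat_lit 394) (nat_lit 365) (nat_lit 261))))) (XT.nd (nat_lit 234) (nat_lit 1216) (nat_lit 0) (XT.nd (nat_lit 78) (nat_lit 684) (nat_lit 0) (XT.lf (nat_lit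 0) (nat_lit 13157417605) (nat_lit 456) (nat_lit 1592989976) (nat_lit 76) (nat_lit 16772848448) (nat_lit 139) (nat_lit 5) (nat_lit 145) (nat_lit 5) (nat_lit 140) (nat_lit 5) (nat_lit 395) (nat_lit 365) (nat_lit 260)) (XT.nd (nat_lit 78) (nat_lit 380) (nat_lit 0) (XT.lf (nat_lit 0) (nat_lit 24013761114) (nat_lit 380) (nat_lit 3628051695) (nat_lit 76) (nat_lit 4851735880) (nat_lit 135) (nat_lit 5) (nat_lit 140) (nat_lit 5) (nat_lit 136) (nat_lit 5) (nat_lit 396) (nat_lit 365) (nat_lit 259)) (XT.lf (nat_lit 0) (nat_lit 2288358155) (nat_lit 380) (nat_lit 5778139502) (nat_lit 76) (nat_lit 25432566140) (nat_lit 130) (nat_lit 5) (nat_lit 135) (nat_lit 5) (nat_lit 131) (nat_lit 5) (nat_lit 397) (nat_lit 365) (nat_lit 258)))) (XT.nd (nat_lit 156) (nat_lit 608) (nat_lit 0) (XT.nd (nat_lit 78) (nat_lit 304) (nat_lit 0) (XT.lf (nat_lit 0) (nat_lit 13826943373) (nat_lit 380) (nat_lit 8091898662) (nat_lit 76)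 (nat_lit 12621273823) (nat_lit 126) (nat_lit 5) (nat_lit 131) (nat_lit 5) (nat_lit 127) (nat_lit 5) (nat_lit 398) (nat_lit 365) (nat_lit 257)) (XT.lf (nat_lit 0) (nat_lit 25168119087) (nat_lit 304) (nat_lit 1146944872) (nat_lit 380) (nat_lit 9306980445) (nat_lit 122) (nat_lit 5) (nat_lit 126) (nat_lit 5) (nat_lit 127) (nat_lit 5) (nat_lit 399) (nat_lit 365) (nat_lit 256))) (XT.nd (nat_lit 78) (nat_lit 304) (nat_lit 0) (XT.lf (nat_lit 0) (nat_lit 3122964195) (nat_lit 304) (nat_lit 13020959063) (nat_lit 76) (nat_lit 20598212144) (nat_lit 118) (nat_lit 5) (nat_lit 122) (nat_lit 5) (nat_lit 119) (nat_lit 5) (nat_lit 400) (nat_lit 365) (nat_lit 255)) (XT.lf (nat_lit 0) (nat_lit 16364141356) (nat_lit 380) (nat_lit 15742790987) (nat_lit 76) (nat_lit 5797069436) (nat_lit 114) (nat_lit 5) (nat_lit 119) (nat_lit 5) (nat_lit 115) (nat_lit 5) (nat_lit 401) (nat_lit 365) (nat_lit 254))))))) (XT.nd (nat_lit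 936) (nat_lit 2052) (nat_lit 0) (XT.nd (nat_lit 468) (nat_lit 1064) (nat_lit 0) (XT.nd (nat_lit 234) (nat_lit 760) (nat_lit 0) (XT.nd (nat_lit 78) (nat_lit 532) (nat_lit 0) (XT.lf (nat_lit 0) (nat_lit 20474364713) (nat_lit 228) (nat_lit 10278174075) (nat_lit 304) (nat_lit 8356869573) (nat_lit 111) (nat_lit 5) (nat_lit 114) (nat_lit 5) (nat_lit 115) (nat_lit 5) (nat_lit 402) (nat_lit 365) (nat_lit 253)) (XT.nd (nat_lit 78) (nat_lit 228) (nat_lit 0) (XT.lf (nat_lit 0) (nat_lit 5837872768) (nat_lit 304) (nat_lit 21731337978) (nat_lit 76) (nat_lit 12790505112) (nat_lit 107) (nat_lit 5) (nat_lit 111) (nat_lit 5) (nat_lit 108) (nat_lit 5) (nat_lit 403) (nat_lit 365) (nat_lit 252)) (XT.lf (nat_lit 0) (nat_lit 16596388536) (nat_lit 228) (nat_lit 4422281666) (nat_lit 304) (nat_lit 20637913287) (nat_lit 104) (nat_lit 5) (nat_lit 107) (nat_lit 5) (nat_lit 108) (nat_lit 5) (nat_lit 404) (nat_lit 365) (nat_lit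 251)))) (XT.nd (nat_lit 78) (nat_lit 532) (nat_lit 0) (XT.lf (nat_lit 0) (nat_lit 14354948531) (nat_lit 228) (nat_lit 23149380928) (nat_lit 304) (nat_lit 5497591835) (nat_lit 101) (nat_lit 5) (nat_lit 104) (nat_lit 5) (nat_lit 105) (nat_lit 5) (nat_lit 405) (nat_lit 365) (nat_lit 250)) (XT.nd (nat_lit 78) (nat_lit 228) (nat_lit 0) (XT.lf (nat_lit 0) (nat_lit 10620342092) (nat_lit 304) (nat_lit 32483169628) (nat_lit 76) (nat_lit 1295310562) (nat_lit 97) (nat_lit 5) (nat_lit 101) (nat_lit 5) (nat_lit 98) (nat_lit 5) (nat_lit 406) (nat_lit 365) (nat_lit 249)) (XT.lf (nat_lit 0) (nat_lit 9119806455) (nat_lit 228) (nat_lit 18922101435) (nat_lit 304) (nat_lit 17803685745) (nat_lit 94) (nat_lit 5) (nat_lit 97) (nat_lit 5) (nat_lit 98) (nat_lit 5) (nat_lit 407) (nat_lit 365) (nat_lit 248))))) (XT.nd (nat_lit 234) (nat_lit 608) (nat_lit 0) (XT.nd (nat_lit 78) (nat_lit 304) (nat_lit 0) (XT.lf (nat_lit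 0) (nat_lit 6167720215) (nat_lit 152) (nat_lit 40617467482) (nat_lit 228) (nat_lit 565998003) (nat_lit 92) (nat_lit 5) (nat_lit 94) (nat_lit 5) (nat_lit 95) (nat_lit 5) (nat_lit 408) (nat_lit 365) (nat_lit 247)) (XT.nd (nat_lit 78) (nat_lit 0) (nat_lit 0) (XT.lf (nat_lit 0) (nat_lit 2728654972) (nat_lit 228) (nat_lit 15053457560) (nat_lit 304) (nat_lit 31127169209) (nat_lit 88) (nat_lit 5) (nat_lit 91) (nat_lit 5) (nat_lit 92) (nat_lit 5) (nat_lit 409) (nat_lit 365) (nat_lit 246)) (XT.lf (nat_lit 0) (nat_lit 37569375040) (nat_lit 304) (nat_lit 972557595) (nat_lit 76) (nat_lit 11987179339) (nat_lit 88) (nat_lit 5) (nat_lit 92) (nat_lit 5) (nat_lit 89) (nat_lit 5) (nat_lit 410) (nat_lit 365) (nat_lit 245)))) (XT.nd (nat_lit 78) (nat_lit 380) (nat_lit 0) (XT.lf (nat_lit 0) (nat_lit 6601071402) (nat_lit 228) (nat_lit 5023748347) (nat_lit 76) (nat_lit 40585220691) (nat_lit 85) (nat_lit 5) (nat_lit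 88) (nat_lit 5) (nat_lit 86) (nat_lit 5) (nat_lit 411) (nat_lit 365) (nat_lit 244)) (XT.nd (nat_lit 78) (nat_lit 152) (nat_lit 0) (XT.lf (nat_lit 0) (nat_lit 27470437619) (nat_lit 304) (nat_lit 9599965508) (nat_lit 76) (nat_lit 16882807378) (nat_lit 82) (nat_lit 5) (nat_lit 86) (nat_lit 5) (nat_lit 83) (nat_lit 5) (nat_lit 412) (nat_lit 365) (nat_lit 243)) (XT.lf (nat_lit 0) (nat_lit 41195429302) (nat_lit 152) (nat_lit 8746023250) (nat_lit 228) (nat_lit 5825342006) (nat_lit 80) (nat_lit 5) (nat_lit 82) (nat_lit 5) (nat_lit 83) (nat_lit 5) (nat_lit 413) (nat_lit 365) (nat_lit 242)))))) (XT.nd (nat_lit 468) (nat_lit 912) (nat_lit 0) (XT.nd (nat_lit 234) (nat_lit 532) (nat_lit 0) (XT.nd (nat_lit 78) (nat_lit 380) (nat_lit 0) (XT.lf (nat_lit 0) (nat_lit 16217545112) (nat_lit 228) (nat_lit 20229200661) (nat_lit 76) (nat_lit 21199872745) (nat_lit 77) (nat_lit 5) (nat_lit 80) (nat_lit 5) (nat_lit 78)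 (nat_lit 5) (nat_lit 414) (nat_lit 365) (nat_lit 241)) (XT.nd (nat_lit 78) (nat_lit 228) (nat_lit 0) (XT.lf (nat_lit 0) (nat_lit 33180861126) (nat_lit 152) (nat_lit 6614038048) (nat_lit 228) (nat_lit 19807221006) (nat_lit 75) (nat_lit 5) (nat_lit 77) (nat_lit 5) (nat_lit 78) (nat_lit 5) (nat_lit 415) (nat_lit 365) (nat_lit 240)) (XT.lf (nat_lit 0) (nat_lit 3559636278) (nat_lit 228) (nat_lit 33332606838) (nat_lit 76) (nat_lit 24740706928) (nat_lit 72) (nat_lit 5) (nat_lit 75) (nat_lit 5) (nat_lit 73) (nat_lit 5) (nat_lit 416) (nat_lit 365) (nat_lit 239)))) (XT.nd (nat_lit 78) (nat_lit 380) (nat_lit 0) (XT.lf (nat_lit 0) (nat_lit 22715015319) (nat_lit 152) (nat_lit 5527053348) (nat_lit 228) (nat_lit 35500663818) (nat_lit 70) (nat_lit 5) (nat_lit 72) (nat_lit 5) (nat_lit 73) (nat_lit 5) (nat_lit 417) (nat_lit 365) (nat_lit 238)) (XT.nd (nat_lit 78) (nat_lit 228) (nat_lit 0) (XT.lf (nat_lit 0) (nat_lit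 16354486981) (nat_lit 152) (nat_lit 38564763921) (nat_lit 228) (nat_lit 11015934965) (nat_lit 68) (nat_lit 5) (nat_lit 70) (nat_lit 5) (nat_lit 71) (nat_lit 5) (nat_lit 418) (nat_lit 365) (nat_lit 237)) (XT.lf (nat_lit 0) (nat_lit 9205536244) (nat_lit 152) (nat_lit 5765165520) (nat_lit 228) (nat_lit 53245392054) (nat_lit 65) (nat_lit 5) (nat_lit 67) (nat_lit 5) (nat_lit 68) (nat_lit 5) (nat_lit 419) (nat_lit 365) (nat_lit 236))))) (XT.nd (nat_lit 234) (nat_lit 532) (nat_lit 0) (XT.nd (nat_lit 78) (nat_lit 228) (nat_lit 0) (XT.lf (nat_lit 0) (nat_lit 987562720) (nat_lit 152) (nat_lit 41837706715) (nat_lit 228) (nat_lit 27758613488) (nat_lit 63) (nat_lit 5) (nat_lit 65) (nat_lit 5) (nat_lit 66) (nat_lit 5) (nat_lit 420) (nat_lit 365) (nat_lit 235)) (XT.nd (nat_lit 78) (nat_lit 228) (nat_lit 0) (XT.lf (nat_lit 0) (nat_lit 65148441147) (nat_lit 152) (nat_lit 7583133497) (nat_lit 228) (nat_lit 318717123)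 (nat_lit 63) (nat_lit 5) (nat_lit 65) (nat_lit 5) (nat_lit 66) (nat_lit 5) (nat_lit 421) (nat_lit 365) (nat_lit 234)) (XT.lf (nat_lit 0) (nat_lit 28767168141) (nat_lit 228) (nat_lit 18177125664) (nat_lit 76) (nat_lit 28662610992) (nat_lit 60) (nat_lit 5) (nat_lit 63) (nat_lit 5) (nat_lit 61) (nat_lit 5) (nat_lit 422) (nat_lit 365) (nat_lit 233)))) (XT.nd (nat_lit 156) (nat_lit 228) (nat_lit 0) (XT.nd (nat_lit 78) (nat_lit 152) (nat_lit 0) (XT.lf (nat_lit 0) (nat_lit 48764857813) (nat_lit 152) (nat_lit 11157699324) (nat_lit 228) (nat_lit 18350043132) (nat_lit 58) (nat_lit 5) (nat_lit 60) (nat_lit 5) (nat_lit 61) (nat_lit 5) (nat_lit 423) (nat_lit 365) (nat_lit 232)) (XT.lf (nat_lit 0) (nat_lit 12157397855) (nat_lit 152) (nat_lit 42306314818) (nat_lit 76) (nat_lit 26579965827) (nat_lit 56) (nat_lit 5) (nat_lit 58) (nat_lit 5) (nat_lit 57) (nat_lit 5) (nat_lit 424) (nat_lit 365) (nat_lit 231)))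 (XT.nd (nat_lit 78) (nat_lit 76) (nat_lit 0) (XT.lf (nat_lit 0) (nat_lit 27288809335) (nat_lit 152) (nat_lit 17201663325) (nat_lit 228) (nat_lit 39436994842) (nat_lit 54) (nat_lit 5) (nat_lit 56) (nat_lit 5) (nat_lit 57) (nat_lit 5) (nat_lit 425) (nat_lit 365) (nat_lit 230)) (XT.lf (nat_lit 0) (nat_lit 14360722837) (nat_lit 76) (nat_lit 64862749531) (nat_lit 152) (nat_lit 7708475861) (nat_lit 53) (nat_lit 5) (nat_lit 54) (nat_lit 5) (nat_lit 55) (nat_lit 4) (nat_lit 426) (nat_lit 365) (nat_lit 229))))))))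
noncomputable def xc91 : XT := (XT.nd (nat_lit 49842) (nat_lit 0) (nat_lit 3800) (XT.nd (nat_lit 48828) (nat_lit 0) (nat_lit 12160) (XT.nd (nat_lit 48360) (nat_lit 0) (nat_lit 16568) (XT.nd (nat_lit 234) (nat_lit 456) (nat_lit 0) (XT.nd (nat_lit 78) (nat_lit 304) (nat_lit 0) (XT.lf (nat_lit 0) (nat_lit 25864010423) (nat_lit 152) (nat_lit 410707125) (nat_lit 76) (nat_lit 63781835002) (nat_lit 52) (nat_lit 5) (nat_lit 54) (nat_lit 5) (nat_lit 53) (nat_lit 5) (nat_lit 427) (nat_lit 365) (nat_lit 228)) (XT.nd (nat_lit 78) (nat_lit 152) (nat_lit 0) (XT.lf (nat_lit 0) (nat_lit 61835101241) (nat_lit 228) (nat_lit 16689140560) (nat_lit 76) (nat_lit 14784473900) (nat_lit 50) (nat_lit 5) (nat_lit 53) (nat_lit 5) (nat_lit 51) (nat_lit 4) (nat_lit 428) (nat_lit 365) (nat_lit 227)) (XT.lf (nat_lit 0) (nat_lit 3691391542) (nat_lit 152) (nat_lit 35017316049) (nat_lit 76) (nat_lit 57987958190) (nat_lit 48) (nat_lit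 5) (nat_lit 50) (nat_lit 5) (nat_lit 49) (nat_lit 5) (nat_lit 429) (nat_lit 365) (nat_lit 226)))) (XT.nd (nat_lit 78) (nat_lit 304) (nat_lit 0) (XT.lf (nat_lit 0) (nat_lit 40606162900) (nat_lit 228) (nat_lit 55657023958) (nat_lit 76) (nat_lit 3962205096) (nat_lit 46) (nat_lit 5) (nat_lit 49) (nat_lit 5) (nat_lit 47) (nat_lit 4) (nat_lit 430) (nat_lit 365) (nat_lit 225)) (XT.nd (nat_lit 78) (nat_lit 228) (nat_lit 0) (XT.lf (nat_lit 0) (nat_lit 25030805881) (nat_lit 76) (nat_lit 55326559176) (nat_lit 152) (nat_lit 23543468915) (nat_lit 45) (nat_lit 5) (nat_lit 46) (nat_lit 5) (nat_lit 47) (nat_lit 4) (nat_lit 431) (nat_lit 365) (nat_lit 224)) (XT.lf (nat_lit 0) (nat_lit 3081317424) (nat_lit 152) (nat_lit 11578683735) (nat_lit 228) (nat_lit 93077802885) (nat_lit 42) (nat_lit 5) (nat_lit 44) (nat_lit 5) (nat_lit 45) (nat_lit 5) (nat_lit 432) (nat_lit 365) (nat_lit 223))))) (XT.nd (nat_lit 234) (nat_lit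 1064) (nat_lit 0) (XT.nd (nat_lit 78) (nat_lit 0) (nat_lit 0) (XT.lf (nat_lit 0) (nat_lit 3054409871) (nat_lit 0) (nat_lit 3054409871) (nat_lit 1140) (nat_lit 1228283807) (nat_lit 274) (nat_lit 5) (nat_lit 274) (nat_lit 3) (nat_lit 289) (nat_lit 3) (nat_lit 366) (nat_lit 366) (nat_lit 288)) (XT.nd (nat_lit 78) (nat_lit 0) (nat_lit 76) (XT.lf (nat_lit 76) (nat_lit 3338336475) (nat_lit 0) (nat_lit 9771231106) (nat_lit 1216) (nat_lit 1913728829) (nat_lit 275) (nat_lit 5) (nat_lit 274) (nat_lit 5) (nat_lit 290) (nat_lit 5) (nat_lit 367) (nat_lit 366) (nat_lit 287)) (XT.lf (nat_lit 76) (nat_lit 542985925) (nat_lit 0) (nat_lit 13642365573) (nat_lit 1216) (nat_lit 1200321870) (nat_lit 276) (nat_lit 5) (nat_lit 275) (nat_lit 5) (nat_lit 291) (nat_lit 5) (nat_lit 368) (nat_lit 366) (nat_lit 286)))) (XT.nd (nat_lit 78) (nat_lit 1140) (nat_lit 0) (XT.lf (nat_lit 76) (nat_lit 13507760224) (nat_lit 0) (nat_lit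 1994374724) (nat_lit 1216) (nat_lit 258428356) (nat_lit 276) (nat_lit 5) (nat_lit 275) (nat_lit 5) (nat_lit 291) (nat_lit 5) (nat_lit 369) (nat_lit 366) (nat_lit 285)) (XT.nd (nat_lit 78) (nat_lit 0) (nat_lit 76) (XT.lf (nat_lit 0) (nat_lit 893645161) (nat_lit 1216) (nat_lit 5091888106) (nat_lit 1292) (nat_lit 10163143210) (nat_lit 260) (nat_lit 5) (nat_lit 276) (nat_lit 5) (nat_lit 277) (nat_lit 5) (nat_lit 370) (nat_lit 366) (nat_lit 284)) (XT.lf (nat_lit 0) (nat_lit 2258556657) (nat_lit 1216) (nat_lit 7964283935) (nat_lit 1292) (nat_lit 6328469780) (nat_lit 261) (nat_lit 5) (nat_lit 277) (nat_lit 5) (nat_lit 278) (nat_lit 5) (nat_lit 371) (nat_lit 366) (nat_lit 283)))))) (XT.nd (nat_lit 468) (nat_lit 3572) (nat_lit 0) (XT.nd (nat_lit 234) (nat_lit 988) (nat_lit 0) (XT.nd (nat_lit 78) (nat_lit 0) (nat_lit 0) (XT.lf (nat_lit 0) (nat_lit 3858946134) (nat_lit 1216) (nat_lit 10868089036) (nat_lit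 1292) (nat_lit 2242032575) (nat_lit 262) (nat_lit 5) (nat_lit 278) (nat_lit 5) (nat_lit 279) (nat_lit 5) (nat_lit 372) (nat_lit 366) (nat_lit 282)) (XT.nd (nat_lit 78) (nat_lit 0) (nat_lit 76) (XT.lf (nat_lit 76) (nat_lit 3577444738) (nat_lit 0) (nat_lit 2156498950) (nat_lit 1292) (nat_lit 11667939980) (nat_lit 263) (nat_lit 5) (nat_lit 262) (nat_lit 5) (nat_lit 279) (nat_lit 5) (nat_lit 373) (nat_lit 366) (nat_lit 281)) (XT.lf (nat_lit 76) (nat_lit 1012570115) (nat_lit 0) (nat_lit 6894318297) (nat_lit 1292) (nat_lit 9943333998) (nat_lit 264) (nat_lit 5) (nat_lit 263) (nat_lit 5) (nat_lit 280) (nat_lit 5) (nat_lit 374) (nat_lit 366) (nat_lit 280)))) (XT.nd (nat_lit 78) (nat_lit 1140) (nat_lit 0) (XT.lf (nat_lit 0) (nat_lit 10391253435) (nat_lit 1216) (nat_lit 1540006022) (nat_lit 1292) (nat_lit 6383643004) (nat_lit 264) (nat_lit 5) (nat_lit 280) (nat_lit 5) (nat_lit 281) (nat_lit 5) (nat_lit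 375) (nat_lit 366) (nat_lit 279)) (XT.nd (nat_lit 78) (nat_lit 1216) (nat_lit 0) (XT.lf (nat_lit 0) (nat_lit 13203171309) (nat_lit 1216) (nat_lit 4090292402) (nat_lit 76) (nat_lit 1503259969) (nat_lit 265) (nat_lit 5) (nat_lit 281) (nat_lit 5) (nat_lit 266) (nat_lit 5) (nat_lit 376) (nat_lit 366) (nat_lit 278)) (XT.lf (nat_lit 0) (nat_lit 12601782897) (nat_lit 1216) (nat_lit 3789902819) (nat_lit 1292) (nat_lit 2903877086) (nat_lit 249) (nat_lit 5) (nat_lit 265) (nat_lit 5) (nat_lit 266) (nat_lit 5) (nat_lit 377) (nat_lit 366) (nat_lit 277))))) (XT.nd (nat_lit 234) (nat_lit 1596) (nat_lit 0) (XT.nd (nat_lit 78) (nat_lit 1216) (nat_lit 0) (XT.lf (nat_lit 0) (nat_lit 146477957) (nat_lit 760) (nat_lit 9332878390) (nat_lit 76) (nat_lit 10333277652) (nat_lit 239) (nat_lit 5) (nat_lit 249) (nat_lit 5) (nat_lit 240) (nat_lit 5) (nat_lit 378) (nat_lit 366) (nat_lit 276)) (XT.nd (nat_lit 78) (nat_lit 608)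 (nat_lit 0) (XT.lf (nat_lit 0) (nat_lit 3505371553) (nat_lit 684) (nat_lit 12022097535) (nat_lit 76) (nat_lit 4820750850) (nat_lit 231) (nat_lit 5) (nat_lit 240) (nat_lit 5) (nat_lit 232) (nat_lit 5) (nat_lit 379) (nat_lit 366) (nat_lit 275)) (XT.lf (nat_lit 0) (nat_lit 6160187615) (nat_lit 608) (nat_lit 1104644424) (nat_lit 684) (nat_lit 13638780222) (nat_lit 223) (nat_lit 5) (nat_lit 231) (nat_lit 5) (nat_lit 232) (nat_lit 5) (nat_lit 380) (nat_lit 366) (nat_lit 274)))) (XT.nd (nat_lit 156) (nat_lit 532) (nat_lit 0) (XT.nd (nat_lit 78) (nat_lit 532) (nat_lit 0) (XT.lf (nat_lit 0) (nat_lit 3941670902) (nat_lit 532) (nat_lit 7549871723) (nat_lit 608) (nat_lit 9986858743) (nat_lit 216) (nat_lit 5) (nat_lit 223) (nat_lit 5) (nat_lit 224) (nat_lit 5) (nat_lit 381) (nat_lit 366) (nat_lit 273)) (XT.lf (nat_lit 0) (nat_lit 1720818289) (nat_lit 532) (nat_lit 14444921923) (nat_lit 608) (nat_lit 5909110392)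 (nat_lit 209) (nat_lit 5) (nat_lit 216) (nat_lit 5) (nat_lit 217) (nat_lit 5) (nat_lit 382) (nat_lit 366) (nat_lit 272))) (XT.nd (nat_lit 78) (nat_lit 532) (nat_lit 0) (XT.lf (nat_lit 0) (nat_lit 21321100808) (nat_lit 608) (nat_lit 490890950) (nat_lit 76) (nat_lit 881711922) (nat_lit 209) (nat_lit 5) (nat_lit 217) (nat_lit 5) (nat_lit 210) (nat_lit 5) (nat_lit 383) (nat_lit 366) (nat_lit 271)) (XT.lf (nat_lit 0) (nat_lit 3655290405) (nat_lit 532) (nat_lit 2765740468) (nat_lit 76) (nat_lit 16911573546) (nat_lit 202) (nat_lit 5) (nat_lit 209) (nat_lit 5) (nat_lit 203) (nat_lit 5) (nat_lit 384) (nat_lit 366) (nat_lit 270))))))) (XT.nd (nat_lit 936) (nat_lit 3572) (nat_lit 0) (XT.nd (nat_lit 468) (nat_lit 1976) (nat_lit 0) (XT.nd (nat_lit 234) (nat_lit 1368) (nat_lit 0) (XT.nd (nat_lit 78) (nat_lit 912) (nat_lit 0) (XT.lf (nat_lit 0) (nat_lit 9174119759) (nat_lit 608) (nat_lit 5069387633) (nat_lit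 76) (nat_lit 9751501609) (nat_lit 195) (nat_lit 5) (nat_lit 203) (nat_lit 5) (nat_lit 196) (nat_lit 5) (nat_lit 385) (nat_lit 366) (nat_lit 269)) (XT.nd (nat_lit 78) (nat_lit 456) (nat_lit 0) (XT.lf (nat_lit 0) (nat_lit 15233948723) (nat_lit 532) (nat_lit 7378477588) (nat_lit 76) (nat_lit 2070159922) (nat_lit 189) (nat_lit 5) (nat_lit 196) (nat_lit 5) (nat_lit 190) (nat_lit 5) (nat_lit 386) (nat_lit 366) (nat_lit 268)) (XT.lf (nat_lit 0) (nat_lit 15642647124) (nat_lit 456) (nat_lit 6286158523) (nat_lit 532) (nat_lit 3465779558) (nat_lit 183) (nat_lit 5) (nat_lit 189) (nat_lit 5) (nat_lit 190) (nat_lit 5) (nat_lit 387) (nat_lit 366) (nat_lit 267)))) (XT.nd (nat_lit 78) (nat_lit 836) (nat_lit 0) (XT.lf (nat_lit 0) (nat_lit 3065406962) (nat_lit 532) (nat_lit 12183875426) (nat_lit 76) (nat_lit 10882969061) (nat_lit 176) (nat_lit 5) (nat_lit 183) (nat_lit 5) (nat_lit 177) (nat_lit 5) (nat_lit 388)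 (nat_lit 366) (nat_lit 266)) (XT.nd (nat_lit 78) (nat_lit 380) (nat_lit 0) (XT.lf (nat_lit 0) (nat_lit 10141406990) (nat_lit 532) (nat_lit 14662012293) (nat_lit 76) (nat_lit 2093657824) (nat_lit 170) (nat_lit 5) (nat_lit 177) (nat_lit 5) (nat_lit 171) (nat_lit 5) (nat_lit 389) (nat_lit 366) (nat_lit 265)) (XT.lf (nat_lit 0) (nat_lit 10465117504) (nat_lit 380) (nat_lit 7473830474) (nat_lit 456) (nat_lit 9750167170) (nat_lit 165) (nat_lit 5) (nat_lit 170) (nat_lit 5) (nat_lit 171) (nat_lit 5) (nat_lit 390) (nat_lit 366) (nat_lit 264))))) (XT.nd (nat_lit 234) (nat_lit 760) (nat_lit 0) (XT.nd (nat_lit 78) (nat_lit 836) (nat_lit 0) (XT.lf (nat_lit 0) (nat_lit 8686734102) (nat_lit 380) (nat_lit 17765639443) (nat_lit 456) (nat_lit 2058604493) (nat_lit 160) (nat_lit 5) (nat_lit 165) (nat_lit 5) (nat_lit 166) (nat_lit 5) (nat_lit 391) (nat_lit 366) (nat_lit 263)) (XT.nd (nat_lit 78) (nat_lit 380) (nat_lit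 0) (XT.lf (nat_lit 0) (nat_lit 6214287590) (nat_lit 456) (nat_lit 22502772705) (nat_lit 76) (nat_lit 645716129) (nat_lit 154) (nat_lit 5) (nat_lit 160) (nat_lit 5) (nat_lit 155) (nat_lit 5) (nat_lit 392) (nat_lit 366) (nat_lit 262)) (XT.lf (nat_lit 0) (nat_lit 4918965007) (nat_lit 380) (nat_lit 10360120644) (nat_lit 456) (nat_lit 14964845311) (nat_lit 149) (nat_lit 5) (nat_lit 154) (nat_lit 5) (nat_lit 155) (nat_lit 5) (nat_lit 393) (nat_lit 366) (nat_lit 261)))) (XT.nd (nat_lit 78) (nat_lit 456) (nat_lit 0) (XT.lf (nat_lit 0) (nat_lit 2973433146) (nat_lit 304) (nat_lit 22160042913) (nat_lit 380) (nat_lit 6025579252) (nat_lit 145) (nat_lit 5) (nat_lit 149) (nat_lit 5) (nat_lit 150) (nat_lit 5) (nat_lit 394) (nat_lit 366) (nat_lit 260)) (XT.nd (nat_lit 78) (nat_lit 0) (nat_lit 0) (XT.lf (nat_lit 0) (nat_lit 967071163) (nat_lit 380) (nat_lit 2693575777) (nat_lit 456) (nat_lit 28447355002) (nat_lit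 139) (nat_lit 5) (nat_lit 144) (nat_lit 5) (nat_lit 145) (nat_lit 5) (nat_lit 395) (nat_lit 366) (nat_lit 259)) (XT.lf (nat_lit 0) (nat_lit 14160119185) (nat_lit 456) (nat_lit 1179604089) (nat_lit 76) (nat_lit 17749278608) (nat_lit 139) (nat_lit 5) (nat_lit 145) (nat_lit 5) (nat_lit 140) (nat_lit 5) (nat_lit 396) (nat_lit 366) (nat_lit 258)))))) (XT.nd (nat_lit 468) (nat_lit 1672) (nat_lit 0) (XT.nd (nat_lit 234) (nat_lit 912) (nat_lit 0) (XT.nd (nat_lit 78) (nat_lit 684) (nat_lit 0) (XT.lf (nat_lit 0) (nat_lit 25548865238) (nat_lit 380) (nat_lit 3321895017) (nat_lit 76) (nat_lit 5237364787) (nat_lit 135) (nat_lit 5) (nat_lit 140) (nat_lit 5) (nat_lit 136) (nat_lit 5) (nat_lit 397) (nat_lit 366) (nat_lit 257)) (XT.nd (nat_lit 78) (nat_lit 304) (nat_lit 0) (XT.lf (nat_lit 0) (nat_lit 2729082442) (nat_lit 380) (nat_lit 5586905437) (nat_lit 76) (nat_lit 26848176487) (nat_lit 130) (nat_lit 5) (nat_lit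 135) (nat_lit 5) (nat_lit 131) (nat_lit 5) (nat_lit 398) (nat_lit 366) (nat_lit 256)) (XT.lf (nat_lit 0) (nat_lit 14834994355) (nat_lit 380) (nat_lit 8022050484) (nat_lit 76) (nat_lit 13400515290) (nat_lit 126) (nat_lit 5) (nat_lit 131) (nat_lit 5) (nat_lit 127) (nat_lit 5) (nat_lit 399) (nat_lit 366) (nat_lit 255)))) (XT.nd (nat_lit 78) (nat_lit 608) (nat_lit 0) (XT.lf (nat_lit 0) (nat_lit 26887368337) (nat_lit 304) (nat_lit 1049501407) (nat_lit 380) (nat_lit 9457037770) (nat_lit 122) (nat_lit 5) (nat_lit 126) (nat_lit 5) (nat_lit 127) (nat_lit 5) (nat_lit 400) (nat_lit 366) (nat_lit 254)) (XT.nd (nat_lit 78) (nat_lit 304) (nat_lit 0) (XT.lf (nat_lit 0) (nat_lit 3579380447) (nat_lit 304) (nat_lit 13210815600) (nat_lit 76) (nat_lit 21779984886) (nat_lit 118) (nat_lit 5) (nat_lit 122) (nat_lit 5) (nat_lit 119) (nat_lit 5) (nat_lit 401) (nat_lit 366) (nat_lit 253)) (XT.lf (nat_lit 0) (nat_lit 17474140031)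 (nat_lit 380) (nat_lit 16074716011) (nat_lit 76) (nat_lit 6241541413) (nat_lit 114) (nat_lit 5) (nat_lit 119) (nat_lit 5) (nat_lit 115) (nat_lit 5) (nat_lit 402) (nat_lit 366) (nat_lit 252))))) (XT.nd (nat_lit 234) (nat_lit 912) (nat_lit 0) (XT.nd (nat_lit 78) (nat_lit 532) (nat_lit 0) (XT.lf (nat_lit 0) (nat_lit 21940248840) (nat_lit 228) (nat_lit 10632064025) (nat_lit 304) (nat_lit 8484053248) (nat_lit 111) (nat_lit 5) (nat_lit 114) (nat_lit 5) (nat_lit 115) (nat_lit 5) (nat_lit 403) (nat_lit 366) (nat_lit 251)) (XT.nd (nat_lit 78) (nat_lit 228) (nat_lit 0) (XT.lf (nat_lit 0) (nat_lit 6406898164) (nat_lit 304) (nat_lit 22376078956) (nat_lit 76) (nat_lit 13586365963) (nat_lit 107) (nat_lit 5) (nat_lit 111) (nat_lit 5) (nat_lit 108) (nat_lit 5) (nat_lit 404) (nat_lit 366) (nat_lit 250)) (XT.lf (nat_lit 0) (nat_lit 17855369033) (nat_lit 228) (nat_lit 4482295045) (nat_lit 304) (nat_lit 21393664284)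 (nat_lit 104) (nat_lit 5) (nat_lit 107) (nat_lit 5) (nat_lit 108) (nat_lit 5) (nat_lit 405) (nat_lit 366) (nat_lit 249)))) (XT.nd (nat_lit 156) (nat_lit 380) (nat_lit 0) (XT.nd (nat_lit 78) (nat_lit 304) (nat_lit 0) (XT.lf (nat_lit 0) (nat_lit 15495903570) (nat_lit 228) (nat_lit 24144480935) (nat_lit 304) (nat_lit 5503767230) (nat_lit 101) (nat_lit 5) (nat_lit 104) (nat_lit 5) (nat_lit 105) (nat_lit 5) (nat_lit 406) (nat_lit 366) (nat_lit 248)) (XT.lf (nat_lit 0) (nat_lit 11407825533) (nat_lit 304) (nat_lit 33684985951) (nat_lit 76) (nat_lit 1518220505) (nat_lit 97) (nat_lit 5) (nat_lit 101) (nat_lit 5) (nat_lit 98) (nat_lit 5) (nat_lit 407) (nat_lit 366) (nat_lit 247))) (XT.nd (nat_lit 78) (nat_lit 152) (nat_lit 0) (XT.lf (nat_lit 0) (nat_lit 9986032583) (nat_lit 228) (nat_lit 19706167792) (nat_lit 304) (nat_lit 18438191392) (nat_lit 94) (nat_lit 5) (nat_lit 97) (nat_lit 5) (nat_lit 98) (nat_lit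 5) (nat_lit 408) (nat_lit 366) (nat_lit 246)) (XT.lf (nat_lit 0) (nat_lit 6880336829) (nat_lit 152) (nat_lit 42485857590) (nat_lit 228) (nat_lit 345264207) (nat_lit 92) (nat_lit 5) (nat_lit 94) (nat_lit 5) (nat_lit 95) (nat_lit 5) (nat_lit 409) (nat_lit 366) (nat_lit 245))))))))
noncomputable def xc92 : XT := (XT.nd (nat_lit 49920) (nat_lit 0) (nat_lit 8284) (XT.nd (nat_lit 936) (nat_lit 1368) (nat_lit 0) (XT.nd (nat_lit 468) (nat_lit 1064) (nat_lit 0) (XT.nd (nat_lit 234) (nat_lit 608) (nat_lit 0) (XT.nd (nat_lit 78) (nat_lit 228) (nat_lit 0) (XT.lf (nat_lit 0) (nat_lit 3262483388) (nat_lit 228) (nat_lit 15645101593) (nat_lit 304) (nat_lit 32440038462) (nat_lit 88) (nat_lit 5) (nat_lit 91) (nat_lit 5) (nat_lit 92) (nat_lit 5) (nat_lit 410) (nat_lit 366) (nat_lit 244)) (XT.nd (nat_lit 78) (nat_lit 228) (nat_lit 0) (XT.lf (nat_lit 0) (nat_lit 39674429249) (nat_lit 304) (nat_lit 637404385) (nat_lit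 76) (nat_lit 12736906489) (nat_lit 88) (nat_lit 5) (nat_lit 92) (nat_lit 5) (nat_lit 89) (nat_lit 5) (nat_lit 411) (nat_lit 366) (nat_lit 243)) (XT.lf (nat_lit 0) (nat_lit 7152704013) (nat_lit 228) (nat_lit 4897718190) (nat_lit 76) (nat_lit 42763445253) (nat_lit 85) (nat_lit 5) (nat_lit 88) (nat_lit 5) (nat_lit 86) (nat_lit 5) (nat_lit 412) (nat_lit 366) (nat_lit 242)))) (XT.nd (nat_lit 78) (nat_lit 380) (nat_lit 0) (XT.lf (nat_lit 0) (nat_lit 29059968987) (nat_lit 304) (nat_lit 9708555985) (nat_lit 76) (nat_lit 17875839454) (nat_lit 82) (nat_lit 5) (nat_lit 86) (nat_lit 5) (nat_lit 83) (nat_lit 5) (nat_lit 413) (nat_lit 366) (nat_lit 241)) (XT.nd (nat_lit 78) (nat_lit 228) (nat_lit 0) (XT.lf (nat_lit 0) (nat_lit 43615962235) (nat_lit 152) (nat_lit 9031754126) (nat_lit 228) (nat_lit 5901117125) (nat_lit 80) (nat_lit 5) (nat_lit 82) (nat_lit 5) (nat_lit 83) (nat_lit 5) (nat_lit 414) (nat_lit 366)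 (nat_lit 240)) (XT.lf (nat_lit 0) (nat_lit 17234496866) (nat_lit 228) (nat_lit 20881410951) (nat_lit 76) (nat_lit 22406836216) (nat_lit 77) (nat_lit 5) (nat_lit 80) (nat_lit 5) (nat_lit 78) (nat_lit 5) (nat_lit 415) (nat_lit 366) (nat_lit 239))))) (XT.nd (nat_lit 234) (nat_lit 532) (nat_lit 0) (XT.nd (nat_lit 78) (nat_lit 380) (nat_lit 0) (XT.lf (nat_lit 0) (nat_lit 35188856104) (nat_lit 152) (nat_lit 6795403795) (nat_lit 228) (nat_lit 20591955744) (nat_lit 75) (nat_lit 5) (nat_lit 77) (nat_lit 5) (nat_lit 78) (nat_lit 5) (nat_lit 416) (nat_lit 366) (nat_lit 238)) (XT.nd (nat_lit 78) (nat_lit 152) (nat_lit 0) (XT.lf (nat_lit 0) (nat_lit 3934345513) (nat_lit 228) (nat_lit 34651908331) (nat_lit 76) (nat_lit 26122421470) (nat_lit 72) (nat_lit 5) (nat_lit 75) (nat_lit 5) (nat_lit 73) (nat_lit 5) (nat_lit 417) (nat_lit 366) (nat_lit 237)) (XT.lf (nat_lit 0) (nat_lit 24188138823) (nat_lit 152) (nat_lit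 5656635761) (nat_lit 228) (nat_lit 37079357015) (nat_lit 70) (nat_lit 5) (nat_lit 72) (nat_lit 5) (nat_lit 73) (nat_lit 5) (nat_lit 418) (nat_lit 366) (nat_lit 236)))) (XT.nd (nat_lit 78) (nat_lit 380) (nat_lit 0) (XT.lf (nat_lit 0) (nat_lit 17504115990) (nat_lit 152) (nat_lit 40347157764) (nat_lit 228) (nat_lit 11375071085) (nat_lit 68) (nat_lit 5) (nat_lit 70) (nat_lit 5) (nat_lit 71) (nat_lit 5) (nat_lit 419) (nat_lit 366) (nat_lit 235)) (XT.nd (nat_lit 78) (nat_lit 152) (nat_lit 0) (XT.lf (nat_lit 0) (nat_lit 9991853976) (nat_lit 152) (nat_lit 5909489018) (nat_lit 228) (nat_lit 55720075213) (nat_lit 65) (nat_lit 5) (nat_lit 67) (nat_lit 5) (nat_lit 68) (nat_lit 5) (nat_lit 420) (nat_lit 366) (nat_lit 234)) (XT.lf (nat_lit 0) (nat_lit 1357615159) (nat_lit 152) (nat_lit 43786752390) (nat_lit 228) (nat_lit 28963358180) (nat_lit 63) (nat_lit 5) (nat_lit 65) (nat_lit 5) (nat_lit 66) (nat_lit 5)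 (nat_lit 421) (nat_lit 366) (nat_lit 233)))))) (XT.nd (nat_lit 468) (nat_lit 608) (nat_lit 0) (XT.nd (nat_lit 234) (nat_lit 380) (nat_lit 0) (XT.nd (nat_lit 78) (nat_lit 380) (nat_lit 0) (XT.lf (nat_lit 0) (nat_lit 68711267302) (nat_lit 152) (nat_lit 7826252400) (nat_lit 228) (nat_lit 160190138) (nat_lit 63) (nat_lit 5) (nat_lit 65) (nat_lit 5) (nat_lit 66) (nat_lit 5) (nat_lit 422) (nat_lit 366) (nat_lit 232)) (XT.nd (nat_lit 78) (nat_lit 152) (nat_lit 0) (XT.lf (nat_lit 0) (nat_lit 30372612628) (nat_lit 228) (nat_lit 18782312269) (nat_lit 76) (nat_lit 30227298201) (nat_lit 60) (nat_lit 5) (nat_lit 63) (nat_lit 5) (nat_lit 61) (nat_lit 5) (nat_lit 423) (nat_lit 366) (nat_lit 231)) (XT.lf (nat_lit 0) (nat_lit 51498065751) (nat_lit 152) (nat_lit 11582584228) (nat_lit 228) (nat_lit 19100707682) (nat_lit 58) (nat_lit 5) (nat_lit 60) (nat_lit 5) (nat_lit 61) (nat_lit 5) (nat_lit 424) (nat_lit 366)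 (nat_lit 230)))) (XT.nd (nat_lit 78) (nat_lit 228) (nat_lit 0) (XT.lf (nat_lit 0) (nat_lit 12925105055) (nat_lit 152) (nat_lit 44128435789) (nat_lit 76) (nat_lit 28037513820) (nat_lit 56) (nat_lit 5) (nat_lit 58) (nat_lit 5) (nat_lit 57) (nat_lit 5) (nat_lit 425) (nat_lit 366) (nat_lit 229)) (XT.nd (nat_lit 78) (nat_lit 76) (nat_lit 0) (XT.lf (nat_lit 0) (nat_lit 28938040202) (nat_lit 152) (nat_lit 17931919677) (nat_lit 228) (nat_lit 41249220051) (nat_lit 54) (nat_lit 5) (nat_lit 56) (nat_lit 5) (nat_lit 57) (nat_lit 5) (nat_lit 426) (nat_lit 366) (nat_lit 228)) (XT.lf (nat_lit 0) (nat_lit 15358701060) (nat_lit 76) (nat_lit 67977408816) (nat_lit 152) (nat_lit 7937880382) (nat_lit 53) (nat_lit 5) (nat_lit 54) (nat_lit 5) (nat_lit 55) (nat_lit 4) (nat_lit 427) (nat_lit 366) (nat_lit 227))))) (XT.nd (nat_lit 234) (nat_lit 228) (nat_lit 0) (XT.nd (nat_lit 78) (nat_lit 304) (nat_lit 0) (XT.lf (nat_lit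 0) (nat_lit 27302901205) (nat_lit 152) (nat_lit 161720851) (nat_lit 76) (nat_lit 67090376811) (nat_lit 52) (nat_lit 5) (nat_lit 54) (nat_lit 5) (nat_lit 53) (nat_lit 5) (nat_lit 428) (nat_lit 366) (nat_lit 226)) (XT.nd (nat_lit 78) (nat_lit 152) (nat_lit 0) (XT.lf (nat_lit 0) (nat_lit 65069284051) (nat_lit 228) (nat_lit 17258712145) (nat_lit 76) (nat_lit 15641872360) (nat_lit 50) (nat_lit 5) (nat_lit 53) (nat_lit 5) (nat_lit 51) (nat_lit 4) (nat_lit 429) (nat_lit 366) (nat_lit 225)) (XT.lf (nat_lit 0) (nat_lit 4015456787) (nat_lit 152) (nat_lit 36508103723) (nat_lit 76) (nat_lit 61003744353) (nat_lit 48) (nat_lit 5) (nat_lit 50) (nat_lit 5) (nat_lit 49) (nat_lit 5) (nat_lit 430) (nat_lit 366) (nat_lit 224)))) (XT.nd (nat_lit 48126) (nat_lit 0) (nat_lit 17404) (XT.nd (nat_lit 78) (nat_lit 76) (nat_lit 0) (XT.lf (nat_lit 0) (nat_lit 42772880389) (nat_lit 228) (nat_lit 58184312741) (nat_lit 76)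 (nat_lit 4275367249) (nat_lit 46) (nat_lit 5) (nat_lit 49) (nat_lit 5) (nat_lit 47) (nat_lit 4) (nat_lit 431) (nat_lit 366) (nat_lit 223)) (XT.lf (nat_lit 0) (nat_lit 26530582945) (nat_lit 76) (nat_lit 57976950231) (nat_lit 152) (nat_lit 24584365030) (nat_lit 45) (nat_lit 5) (nat_lit 46) (nat_lit 5) (nat_lit 47) (nat_lit 4) (nat_lit 432) (nat_lit 366) (nat_lit 222))) (XT.nd (nat_lit 78) (nat_lit 0) (nat_lit 0) (XT.lf (nat_lit 0) (nat_lit 3454812396) (nat_lit 0) (nat_lit 3454812396) (nat_lit 1140) (nat_lit 779304433) (nat_lit 274) (nat_lit 5) (nat_lit 274) (nat_lit 3) (nat_lit 289) (nat_lit 3) (nat_lit 367) (nat_lit 367) (nat_lit 286)) (XT.lf (nat_lit 76) (nat_lit 4020240465) (nat_lit 0) (nat_lit 10688771473) (nat_lit 1216) (nat_lit 1036809212) (nat_lit 275) (nat_lit 5) (nat_lit 274) (nat_lit 5) (nat_lit 290) (nat_lit 5) (nat_lit 368) (nat_lit 367) (nat_lit 285))))))) (XT.nd (nat_lit 936) (nat_lit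 5852) (nat_lit 0) (XT.nd (nat_lit 468) (nat_lit 2128) (nat_lit 0) (XT.nd (nat_lit 234) (nat_lit 0) (nat_lit 152) (XT.nd (nat_lit 78) (nat_lit 1216) (nat_lit 0) (XT.lf (nat_lit 76) (nat_lit 1102184906) (nat_lit 0) (nat_lit 14692636527) (nat_lit 1216) (nat_lit 332823722) (nat_lit 276) (nat_lit 5) (nat_lit 275) (nat_lit 5) (nat_lit 291) (nat_lit 5) (nat_lit 369) (nat_lit 367) (nat_lit 284)) (XT.nd (nat_lit 78) (nat_lit 0) (nat_lit 76) (XT.lf (nat_lit 0) (nat_lit 600054853) (nat_lit 1216) (nat_lit 1838600824) (nat_lit 1292) (nat_lit 14083747990) (nat_lit 259) (nat_lit 5) (nat_lit 275) (nat_lit 5) (nat_lit 276) (nat_lit 5) (nat_lit 370) (nat_lit 367) (nat_lit 283)) (XT.lf (nat_lit 0) (nat_lit 1765007167) (nat_lit 1216) (nat_lit 4809032048) (nat_lit 1292) (nat_lit 10357001393) (nat_lit 260) (nat_lit 5) (nat_lit 276) (nat_lit 5) (nat_lit 277) (nat_lit 5) (nat_lit 371) (nat_lit 367) (nat_lit 282))))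 (XT.nd (nat_lit 78) (nat_lit 0) (nat_lit 76) (XT.lf (nat_lit 0) (nat_lit 3161218576) (nat_lit 1216) (nat_lit 7813828964) (nat_lit 1292) (nat_lit 6379879852) (nat_lit 261) (nat_lit 5) (nat_lit 277) (nat_lit 5) (nat_lit 278) (nat_lit 5) (nat_lit 372) (nat_lit 367) (nat_lit 281)) (XT.nd (nat_lit 78) (nat_lit 0) (nat_lit 0) (XT.lf (nat_lit 0) (nat_lit 4806987908) (nat_lit 1216) (nat_lit 10853433833) (nat_lit 1292) (nat_lit 2134202294) (nat_lit 262) (nat_lit 5) (nat_lit 278) (nat_lit 5) (nat_lit 279) (nat_lit 5) (nat_lit 373) (nat_lit 367) (nat_lit 280)) (XT.lf (nat_lit 76) (nat_lit 4298379962) (nat_lit 0) (nat_lit 2446609140) (nat_lit 1292) (nat_lit 11505025671) (nat_lit 263) (nat_lit 5) (nat_lit 262) (nat_lit 5) (nat_lit 279) (nat_lit 5) (nat_lit 374) (nat_lit 367) (nat_lit 279))))) (XT.nd (nat_lit 234) (nat_lit 2432) (nat_lit 0) (XT.nd (nat_lit 78) (nat_lit 0) (nat_lit 76) (XT.lf (nat_lit 76) (nat_lit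 1612759002) (nat_lit 0) (nat_lit 7382943200) (nat_lit 1292) (nat_lit 9726005693) (nat_lit 264) (nat_lit 5) (nat_lit 263) (nat_lit 5) (nat_lit 280) (nat_lit 5) (nat_lit 375) (nat_lit 367) (nat_lit 278)) (XT.nd (nat_lit 78) (nat_lit 0) (nat_lit 76) (XT.lf (nat_lit 0) (nat_lit 11569945657) (nat_lit 1216) (nat_lit 1072273602) (nat_lit 1292) (nat_lit 6568443434) (nat_lit 264) (nat_lit 5) (nat_lit 280) (nat_lit 5) (nat_lit 281) (nat_lit 5) (nat_lit 376) (nat_lit 367) (nat_lit 277)) (XT.lf (nat_lit 0) (nat_lit 14495161581) (nat_lit 1216) (nat_lit 3745506210) (nat_lit 76) (nat_lit 1476736166) (nat_lit 265) (nat_lit 5) (nat_lit 281) (nat_lit 5) (nat_lit 266) (nat_lit 5) (nat_lit 377) (nat_lit 367) (nat_lit 276)))) (XT.nd (nat_lit 78) (nat_lit 1368) (nat_lit 0) (XT.lf (nat_lit 0) (nat_lit 13765427256) (nat_lit 1216) (nat_lit 4052716087) (nat_lit 1292) (nat_lit 2423800012) (nat_lit 249) (nat_lit 5) (nat_lit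 265) (nat_lit 5) (nat_lit 266) (nat_lit 5) (nat_lit 378) (nat_lit 367) (nat_lit 275)) (XT.nd (nat_lit 78) (nat_lit 608) (nat_lit 0) (XT.lf (nat_lit 0) (nat_lit 742211132) (nat_lit 760) (nat_lit 9250819087) (nat_lit 76) (nat_lit 10792406239) (nat_lit 239) (nat_lit 5) (nat_lit 249) (nat_lit 5) (nat_lit 240) (nat_lit 5) (nat_lit 379) (nat_lit 367) (nat_lit 274)) (XT.lf (nat_lit 0) (nat_lit 4245840420) (nat_lit 684) (nat_lit 12072780949) (nat_lit 76) (nat_lit 5029885021) (nat_lit 231) (nat_lit 5) (nat_lit 240) (nat_lit 5) (nat_lit 232) (nat_lit 5) (nat_lit 380) (nat_lit 367) (nat_lit 273)))))) (XT.nd (nat_lit 468) (nat_lit 3116) (nat_lit 0) (XT.nd (nat_lit 234) (nat_lit 1064) (nat_lit 0) (XT.nd (nat_lit 78) (nat_lit 1064) (nat_lit 0) (XT.lf (nat_lit 0) (nat_lit 7002840738) (nat_lit 608) (nat_lit 1168658216) (nat_lit 684) (nat_lit 13760830650) (nat_lit 223) (nat_lit 5) (nat_lit 231) (nat_lit 5) (nat_lit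 232) (nat_lit 5) (nat_lit 381) (nat_lit 367) (nat_lit 272)) (XT.nd (nat_lit 78) (nat_lit 532) (nat_lit 0) (XT.lf (nat_lit 0) (nat_lit 4674146082) (nat_lit 532) (nat_lit 7914587708) (nat_lit 608) (nat_lit 9947756357) (nat_lit 216) (nat_lit 5) (nat_lit 223) (nat_lit 5) (nat_lit 224) (nat_lit 5) (nat_lit 382) (nat_lit 367) (nat_lit 271)) (XT.lf (nat_lit 0) (nat_lit 2342162128) (nat_lit 532) (nat_lit 15134855383) (nat_lit 608) (nat_lit 5686340327) (nat_lit 209) (nat_lit 5) (nat_lit 216) (nat_lit 5) (nat_lit 217) (nat_lit 5) (nat_lit 383) (nat_lit 367) (nat_lit 270)))) (XT.nd (nat_lit 78) (nat_lit 608) (nat_lit 0) (XT.lf (nat_lit 0) (nat_lit 8761773) (nat_lit 456) (nat_lit 22857812485) (nat_lit 532) (nat_lit 947293397) (nat_lit 203) (nat_lit 5) (nat_lit 209) (nat_lit 5) (nat_lit 210) (nat_lit 5) (nat_lit 384) (nat_lit 367) (nat_lit 269)) (XT.nd (nat_lit 78) (nat_lit 532) (nat_lit 0) (XT.lf (nat_lit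 0) (nat_lit 4304154354) (nat_lit 532) (nat_lit 2385617802) (nat_lit 76) (nat_lit 17795351294) (nat_lit 202) (nat_lit 5) (nat_lit 209) (nat_lit 5) (nat_lit 203) (nat_lit 5) (nat_lit 385) (nat_lit 367) (nat_lit 268)) (XT.lf (nat_lit 0) (nat_lit 10082097209) (nat_lit 608) (nat_lit 4806249812) (nat_lit 76) (nat_lit 10292812183) (nat_lit 195) (nat_lit 5) (nat_lit 203) (nat_lit 5) (nat_lit 196) (nat_lit 5) (nat_lit 386) (nat_lit 367) (nat_lit 267))))) (XT.nd (nat_lit 234) (nat_lit 1672) (nat_lit 0) (XT.nd (nat_lit 78) (nat_lit 988) (nat_lit 0) (XT.lf (nat_lit 0) (nat_lit 16429011548) (nat_lit 532) (nat_lit 7233169593) (nat_lit 76) (nat_lit 2241417156) (nat_lit 189) (nat_lit 5) (nat_lit 196) (nat_lit 5) (nat_lit 190) (nat_lit 5) (nat_lit 387) (nat_lit 367) (nat_lit 266)) (XT.nd (nat_lit 78) (nat_lit 532) (nat_lit 0) (XT.lf (nat_lit 0) (nat_lit 16924271002) (nat_lit 456) (nat_lit 6518505287) (nat_lit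 532) (nat_lit 3208901515) (nat_lit 183) (nat_lit 5) (nat_lit 189) (nat_lit 5) (nat_lit 190) (nat_lit 5) (nat_lit 388) (nat_lit 367) (nat_lit 265)) (XT.lf (nat_lit 0) (nat_lit 3625945262) (nat_lit 532) (nat_lit 12288178508) (nat_lit 76) (nat_lit 11512419809) (nat_lit 176) (nat_lit 5) (nat_lit 183) (nat_lit 5) (nat_lit 177) (nat_lit 5) (nat_lit 389) (nat_lit 367) (nat_lit 264)))) (XT.nd (nat_lit 156) (nat_lit 836) (nat_lit 0) (XT.nd (nat_lit 78) (nat_lit 380) (nat_lit 0) (XT.lf (nat_lit 0) (nat_lit 11042006177) (nat_lit 532) (nat_lit 14893760026) (nat_lit 76) (nat_lit 2294261367) (nat_lit 170) (nat_lit 5) (nat_lit 177) (nat_lit 5) (nat_lit 171) (nat_lit 5) (nat_lit 390) (nat_lit 367) (nat_lit 263)) (XT.lf (nat_lit 0) (nat_lit 11475355081) (nat_lit 380) (nat_lit 7740010831) (nat_lit 456) (nat_lit 9846727994) (nat_lit 165) (nat_lit 5) (nat_lit 170) (nat_lit 5) (nat_lit 171) (nat_lit 5) (nat_lit 391)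 (nat_lit 367) (nat_lit 262))) (XT.nd (nat_lit 78) (nat_lit 456) (nat_lit 0) (XT.lf (nat_lit 0) (nat_lit 9604237450) (nat_lit 380) (nat_lit 18537784025) (nat_lit 456) (nat_lit 1783406126) (nat_lit 160) (nat_lit 5) (nat_lit 165) (nat_lit 5) (nat_lit 166) (nat_lit 5) (nat_lit 392) (nat_lit 367) (nat_lit 261)) (XT.lf (nat_lit 0) (nat_lit 6883821062) (nat_lit 456) (nat_lit 23141674778) (nat_lit 76) (nat_lit 794573038) (nat_lit 154) (nat_lit 5) (nat_lit 160) (nat_lit 5) (nat_lit 155) (nat_lit 5) (nat_lit 393) (nat_lit 367) (nat_lit 260))))))))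
noncomputable def xc93 : XT := (XT.nd (nat_lit 1950) (nat_lit 1976) (nat_lit 0) (XT.nd (nat_lit 936) (nat_lit 2660) (nat_lit 0) (XT.nd (nat_lit 468) (nat_lit 1748) (nat_lit 0) (XT.nd (nat_lit 234) (nat_lit 684) (nat_lit 0) (XT.nd (nat_lit 78) (nat_lit 760) (nat_lit 0) (XT.lf (nat_lit 0) (nat_lit 5637211945) (nat_lit 380) (nat_lit 10752100480) (nat_lit 456) (nat_lit 15356349009) (nat_lit 149) (nat_lit 5) (nat_lit 154) (nat_lit 5) (nat_lit 155) (nat_lit 5) (nat_lit 394) (nat_lit 367) (nat_lit 259)) (XT.nd (nat_lit 78) (nat_lit 456) (nat_lit 0) (XT.lf (nat_lit 0) (nat_lit 3589854495) (nat_lit 304) (nat_lit 23135728742) (nat_lit 380) (nat_lit 5981287648) (nat_lit 145) (nat_lit 5) (nat_lit 149) (nat_lit 5) (nat_lit 150) (nat_lit 5) (nat_lit 395) (nat_lit 367) (nat_lit 258)) (XT.lf (nat_lit 0) (nat_lit 1476386457) (nat_lit 380) (nat_lit 2694416486) (nat_lit 456) (nat_lit 29532716787) (nat_lit 139)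 (nat_lit 5) (nat_lit 144) (nat_lit 5) (nat_lit 145) (nat_lit 5) (nat_lit 396) (nat_lit 367) (nat_lit 257)))) (XT.nd (nat_lit 78) (nat_lit 684) (nat_lit 0) (XT.lf (nat_lit 0) (nat_lit 15180896753) (nat_lit 456) (nat_lit 791386664) (nat_lit 76) (nat_lit 18761720078) (nat_lit 139) (nat_lit 5) (nat_lit 145) (nat_lit 5) (nat_lit 140) (nat_lit 5) (nat_lit 397) (nat_lit 367) (nat_lit 256)) (XT.nd (nat_lit 78) (nat_lit 380) (nat_lit 0) (XT.lf (nat_lit 0) (nat_lit 27129633732) (nat_lit 380) (nat_lit 3045759145) (nat_lit 76) (nat_lit 5628976439) (nat_lit 135) (nat_lit 5) (nat_lit 140) (nat_lit 5) (nat_lit 136) (nat_lit 5) (nat_lit 398) (nat_lit 367) (nat_lit 255)) (XT.lf (nat_lit 0) (nat_lit 3161506069) (nat_lit 380) (nat_lit 5430748631) (nat_lit 76) (nat_lit 28321181266) (nat_lit 130) (nat_lit 5) (nat_lit 135) (nat_lit 5) (nat_lit 131) (nat_lit 5) (nat_lit 399) (nat_lit 367) (nat_lit 254))))) (XT.nd (nat_lit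 234) (nat_lit 836) (nat_lit 0) (XT.nd (nat_lit 78) (nat_lit 608) (nat_lit 0) (XT.lf (nat_lit 0) (nat_lit 15864003767) (nat_lit 380) (nat_lit 7992819119) (nat_lit 76) (nat_lit 14204942665) (nat_lit 126) (nat_lit 5) (nat_lit 131) (nat_lit 5) (nat_lit 127) (nat_lit 5) (nat_lit 400) (nat_lit 367) (nat_lit 253)) (XT.nd (nat_lit 78) (nat_lit 304) (nat_lit 0) (XT.lf (nat_lit 0) (nat_lit 28649735208) (nat_lit 304) (nat_lit 961576741) (nat_lit 380) (nat_lit 9643910795) (nat_lit 122) (nat_lit 5) (nat_lit 126) (nat_lit 5) (nat_lit 127) (nat_lit 5) (nat_lit 401) (nat_lit 367) (nat_lit 252)) (XT.lf (nat_lit 0) (nat_lit 4030701435) (nat_lit 304) (nat_lit 13453042170) (nat_lit 76) (nat_lit 23006727564) (nat_lit 118) (nat_lit 5) (nat_lit 122) (nat_lit 5) (nat_lit 119) (nat_lit 5) (nat_lit 402) (nat_lit 367) (nat_lit 251)))) (XT.nd (nat_lit 78) (nat_lit 532) (nat_lit 0) (XT.lf (nat_lit 0) (nat_lit 18612510622)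 (nat_lit 380) (nat_lit 16465558818) (nat_lit 76) (nat_lit 6693862026) (nat_lit 114) (nat_lit 5) (nat_lit 119) (nat_lit 5) (nat_lit 115) (nat_lit 5) (nat_lit 403) (nat_lit 367) (nat_lit 250)) (XT.nd (nat_lit 78) (nat_lit 304) (nat_lit 0) (XT.lf (nat_lit 0) (nat_lit 23438318781) (nat_lit 228) (nat_lit 11018525500) (nat_lit 304) (nat_lit 8644618900) (nat_lit 111) (nat_lit 5) (nat_lit 114) (nat_lit 5) (nat_lit 115) (nat_lit 5) (nat_lit 404) (nat_lit 367) (nat_lit 249)) (XT.lf (nat_lit 0) (nat_lit 6978609746) (nat_lit 304) (nat_lit 23094133769) (nat_lit 76) (nat_lit 14407485255) (nat_lit 107) (nat_lit 5) (nat_lit 111) (nat_lit 5) (nat_lit 108) (nat_lit 5) (nat_lit 405) (nat_lit 367) (nat_lit 248)))))) (XT.nd (nat_lit 468) (nat_lit 1216) (nat_lit 0) (XT.nd (nat_lit 234) (nat_lit 684) (nat_lit 0) (XT.nd (nat_lit 78) (nat_lit 532) (nat_lit 0) (XT.lf (nat_lit 0) (nat_lit 19137399226) (nat_lit 228) (nat_lit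 4560286710) (nat_lit 304) (nat_lit 22212876144) (nat_lit 104) (nat_lit 5) (nat_lit 107) (nat_lit 5) (nat_lit 108) (nat_lit 5) (nat_lit 406) (nat_lit 367) (nat_lit 247)) (XT.nd (nat_lit 78) (nat_lit 304) (nat_lit 0) (XT.lf (nat_lit 0) (nat_lit 16654560529) (nat_lit 228) (nat_lit 25204431477) (nat_lit 304) (nat_lit 5535232963) (nat_lit 101) (nat_lit 5) (nat_lit 104) (nat_lit 5) (nat_lit 105) (nat_lit 5) (nat_lit 407) (nat_lit 367) (nat_lit 246)) (XT.lf (nat_lit 0) (nat_lit 12210839337) (nat_lit 304) (nat_lit 34986158461) (nat_lit 76) (nat_lit 1737573176) (nat_lit 97) (nat_lit 5) (nat_lit 101) (nat_lit 5) (nat_lit 98) (nat_lit 5) (nat_lit 408) (nat_lit 367) (nat_lit 245)))) (XT.nd (nat_lit 78) (nat_lit 456) (nat_lit 0) (XT.lf (nat_lit 0) (nat_lit 10857430181) (nat_lit 228) (nat_lit 20544502291) (nat_lit 304) (nat_lit 19128192899) (nat_lit 94) (nat_lit 5) (nat_lit 97) (nat_lit 5) (nat_lit 98) (nat_lit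 5) (nat_lit 409) (nat_lit 367) (nat_lit 244)) (XT.nd (nat_lit 78) (nat_lit 304) (nat_lit 0) (XT.lf (nat_lit 0) (nat_lit 7591002744) (nat_lit 152) (nat_lit 44462773357) (nat_lit 228) (nat_lit 136646514) (nat_lit 92) (nat_lit 5) (nat_lit 94) (nat_lit 5) (nat_lit 95) (nat_lit 5) (nat_lit 410) (nat_lit 367) (nat_lit 243)) (XT.lf (nat_lit 0) (nat_lit 3786057141) (nat_lit 228) (nat_lit 16281298763) (nat_lit 304) (nat_lit 33841188497) (nat_lit 88) (nat_lit 5) (nat_lit 91) (nat_lit 5) (nat_lit 92) (nat_lit 5) (nat_lit 411) (nat_lit 367) (nat_lit 242))))) (XT.nd (nat_lit 234) (nat_lit 760) (nat_lit 0) (XT.nd (nat_lit 78) (nat_lit 456) (nat_lit 0) (XT.lf (nat_lit 0) (nat_lit 41863670399) (nat_lit 304) (nat_lit 321173842) (nat_lit 76) (nat_lit 13510140189) (nat_lit 88) (nat_lit 5) (nat_lit 92) (nat_lit 5) (nat_lit 89) (nat_lit 5) (nat_lit 412) (nat_lit 367) (nat_lit 241)) (XT.nd (nat_lit 78) (nat_lit 228)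 (nat_lit 0) (XT.lf (nat_lit 0) (nat_lit 7711317936) (nat_lit 228) (nat_lit 4800456639) (nat_lit 76) (nat_lit 45036731827) (nat_lit 85) (nat_lit 5) (nat_lit 88) (nat_lit 5) (nat_lit 86) (nat_lit 5) (nat_lit 413) (nat_lit 367) (nat_lit 240)) (XT.lf (nat_lit 0) (nat_lit 30708894409) (nat_lit 304) (nat_lit 9857105964) (nat_lit 76) (nat_lit 18904680595) (nat_lit 82) (nat_lit 5) (nat_lit 86) (nat_lit 5) (nat_lit 83) (nat_lit 5) (nat_lit 414) (nat_lit 367) (nat_lit 239)))) (XT.nd (nat_lit 156) (nat_lit 380) (nat_lit 0) (XT.nd (nat_lit 78) (nat_lit 228) (nat_lit 0) (XT.lf (nat_lit 0) (nat_lit 46123981633) (nat_lit 152) (nat_lit 9345863114) (nat_lit 228) (nat_lit 6000715401) (nat_lit 80) (nat_lit 5) (nat_lit 82) (nat_lit 5) (nat_lit 83) (nat_lit 5) (nat_lit 415) (nat_lit 367) (nat_lit 238)) (XT.lf (nat_lit 0) (nat_lit 18283137354) (nat_lit 228) (nat_lit 21599631391) (nat_lit 76) (nat_lit 23660483998)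 (nat_lit 77) (nat_lit 5) (nat_lit 80) (nat_lit 5) (nat_lit 78) (nat_lit 5) (nat_lit 416) (nat_lit 367) (nat_lit 237))) (XT.nd (nat_lit 78) (nat_lit 228) (nat_lit 0) (XT.lf (nat_lit 0) (nat_lit 37264808589) (nat_lit 152) (nat_lit 6999721689) (nat_lit 228) (nat_lit 21435044404) (nat_lit 75) (nat_lit 5) (nat_lit 77) (nat_lit 5) (nat_lit 78) (nat_lit 5) (nat_lit 417) (nat_lit 367) (nat_lit 236)) (XT.lf (nat_lit 0) (nat_lit 4309500359) (nat_lit 228) (nat_lit 36069466243) (nat_lit 76) (nat_lit 27559770838) (nat_lit 72) (nat_lit 5) (nat_lit 75) (nat_lit 5) (nat_lit 73) (nat_lit 5) (nat_lit 418) (nat_lit 367) (nat_lit 235))))))) (XT.nd (nat_lit 936) (nat_lit 304) (nat_lit 0) (XT.nd (nat_lit 468) (nat_lit 760) (nat_lit 0) (XT.nd (nat_lit 234) (nat_lit 380) (nat_lit 0) (XT.nd (nat_lit 78) (nat_lit 380) (nat_lit 0) (XT.lf (nat_lit 0) (nat_lit 25703552782) (nat_lit 152) (nat_lit 5806342601) (nat_lit 228)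 (nat_lit 38755238703) (nat_lit 70) (nat_lit 5) (nat_lit 72) (nat_lit 5) (nat_lit 73) (nat_lit 5) (nat_lit 419) (nat_lit 367) (nat_lit 234)) (XT.nd (nat_lit 78) (nat_lit 228) (nat_lit 0) (XT.lf (nat_lit 0) (nat_lit 18680369099) (nat_lit 152) (nat_lit 42232230526) (nat_lit 228) (nat_lit 11769982800) (nat_lit 68) (nat_lit 5) (nat_lit 70) (nat_lit 5) (nat_lit 71) (nat_lit 5) (nat_lit 420) (nat_lit 367) (nat_lit 233)) (XT.lf (nat_lit 0) (nat_lit 10787175400) (nat_lit 152) (nat_lit 6074410382) (nat_lit 228) (nat_lit 58335932541) (nat_lit 65) (nat_lit 5) (nat_lit 67) (nat_lit 5) (nat_lit 68) (nat_lit 5) (nat_lit 421) (nat_lit 367) (nat_lit 232)))) (XT.nd (nat_lit 78) (nat_lit 228) (nat_lit 0) (XT.lf (nat_lit 0) (nat_lit 1716356963) (nat_lit 152) (nat_lit 45846530227) (nat_lit 228) (nat_lit 30245371002) (nat_lit 63) (nat_lit 5) (nat_lit 65) (nat_lit 5) (nat_lit 66) (nat_lit 5) (nat_lit 422) (nat_lit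 367) (nat_lit 231)) (XT.nd (nat_lit 78) (nat_lit 228) (nat_lit 0) (XT.lf (nat_lit 0) (nat_lit 72423841187) (nat_lit 152) (nat_lit 8094174750) (nat_lit 228) (nat_lit 9956705) (nat_lit 63) (nat_lit 5) (nat_lit 65) (nat_lit 5) (nat_lit 66) (nat_lit 5) (nat_lit 423) (nat_lit 367) (nat_lit 230)) (XT.lf (nat_lit 0) (nat_lit 32042795260) (nat_lit 228) (nat_lit 19445990533) (nat_lit 76) (nat_lit 31857988879) (nat_lit 60) (nat_lit 5) (nat_lit 63) (nat_lit 5) (nat_lit 61) (nat_lit 5) (nat_lit 424) (nat_lit 367) (nat_lit 229))))) (XT.nd (nat_lit 234) (nat_lit 304) (nat_lit 0) (XT.nd (nat_lit 78) (nat_lit 304) (nat_lit 0) (XT.lf (nat_lit 0) (nat_lit 54340511032) (nat_lit 152) (nat_lit 12041078462) (nat_lit 228) (nat_lit 19904416438) (nat_lit 58) (nat_lit 5) (nat_lit 60) (nat_lit 5) (nat_lit 61) (nat_lit 5) (nat_lit 425) (nat_lit 367) (nat_lit 228)) (XT.nd (nat_lit 78) (nat_lit 152) (nat_lit 0) (XT.lf (nat_lit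 0) (nat_lit 13716337456) (nat_lit 152) (nat_lit 46068921280) (nat_lit 76) (nat_lit 29555987880) (nat_lit 56) (nat_lit 5) (nat_lit 58) (nat_lit 5) (nat_lit 57) (nat_lit 5) (nat_lit 426) (nat_lit 367) (nat_lit 227)) (XT.lf (nat_lit 0) (nat_lit 30643255500) (nat_lit 152) (nat_lit 18710758913) (nat_lit 228) (nat_lit 43166896897) (nat_lit 54) (nat_lit 5) (nat_lit 56) (nat_lit 5) (nat_lit 57) (nat_lit 5) (nat_lit 427) (nat_lit 367) (nat_lit 226)))) (XT.nd (nat_lit 78) (nat_lit 228) (nat_lit 0) (XT.lf (nat_lit 0) (nat_lit 16380551833) (nat_lit 76) (nat_lit 71259745750) (nat_lit 152) (nat_lit 8193260322) (nat_lit 53) (nat_lit 5) (nat_lit 54) (nat_lit 5) (nat_lit 55) (nat_lit 4) (nat_lit 428) (nat_lit 367) (nat_lit 225)) (XT.nd (nat_lit 78) (nat_lit 0) (nat_lit 0) (XT.lf (nat_lit 0) (nat_lit 76142993) (nat_lit 152) (nat_lit 28724780567) (nat_lit 228) (nat_lit 70477829315) (nat_lit 50) (nat_lit 5) (nat_lit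 52) (nat_lit 5) (nat_lit 53) (nat_lit 5) (nat_lit 429) (nat_lit 367) (nat_lit 224)) (XT.lf (nat_lit 0) (nat_lit 68451934419) (nat_lit 228) (nat_lit 17881388847) (nat_lit 76) (nat_lit 16531153974) (nat_lit 50) (nat_lit 5) (nat_lit 53) (nat_lit 5) (nat_lit 51) (nat_lit 4) (nat_lit 430) (nat_lit 367) (nat_lit 223)))))) (XT.nd (nat_lit 48516) (nat_lit 0) (nat_lit 16264) (XT.nd (nat_lit 48282) (nat_lit 0) (nat_lit 16188) (XT.nd (nat_lit 78) (nat_lit 152) (nat_lit 0) (XT.lf (nat_lit 0) (nat_lit 4342756311) (nat_lit 152) (nat_lit 38097610379) (nat_lit 76) (nat_lit 64159499147) (nat_lit 48) (nat_lit 5) (nat_lit 50) (nat_lit 5) (nat_lit 49) (nat_lit 5) (nat_lit 431) (nat_lit 367) (nat_lit 222)) (XT.nd (nat_lit 48126) (nat_lit 0) (nat_lit 17328) (XT.lf (nat_lit 0) (nat_lit 45035251706) (nat_lit 228) (nat_lit 60861725733) (nat_lit 76) (nat_lit 4593491075) (nat_lit 46) (nat_lit 5) (nat_lit 49) (nat_lit 5)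 (nat_lit 47) (nat_lit 4) (nat_lit 432) (nat_lit 367) (nat_lit 221)) (XT.lf (nat_lit 0) (nat_lit 3852207921) (nat_lit 0) (nat_lit 3852207921) (nat_lit 1140) (nat_lit 355327646) (nat_lit 274) (nat_lit 5) (nat_lit 274) (nat_lit 3) (nat_lit 289) (nat_lit 3) (nat_lit 368) (nat_lit 368) (nat_lit 284)))) (XT.nd (nat_lit 78) (nat_lit 1140) (nat_lit 0) (XT.lf (nat_lit 76) (nat_lit 4688361029) (nat_lit 0) (nat_lit 11612306476) (nat_lit 1216) (nat_lit 206467307) (nat_lit 275) (nat_lit 5) (nat_lit 274) (nat_lit 5) (nat_lit 290) (nat_lit 5) (nat_lit 369) (nat_lit 368) (nat_lit 283)) (XT.nd (nat_lit 78) (nat_lit 0) (nat_lit 0) (XT.lf (nat_lit 0) (nat_lit 482220711) (nat_lit 1216) (nat_lit 15274103487) (nat_lit 1292) (nat_lit 1152788704) (nat_lit 259) (nat_lit 5) (nat_lit 275) (nat_lit 5) (nat_lit 276) (nat_lit 5) (nat_lit 370) (nat_lit 368) (nat_lit 282)) (XT.lf (nat_lit 0) (nat_lit 1415644550) (nat_lit 1216)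 (nat_lit 1455035147) (nat_lit 1292) (nat_lit 14454020069) (nat_lit 259) (nat_lit 5) (nat_lit 275) (nat_lit 5) (nat_lit 276) (nat_lit 5) (nat_lit 371) (nat_lit 368) (nat_lit 281))))) (XT.nd (nat_lit 234) (nat_lit 0) (nat_lit 152) (XT.nd (nat_lit 78) (nat_lit 0) (nat_lit 76) (XT.lf (nat_lit 0) (nat_lit 2603080426) (nat_lit 1216) (nat_lit 4562000237) (nat_lit 1292) (nat_lit 10589773025) (nat_lit 260) (nat_lit 5) (nat_lit 276) (nat_lit 5) (nat_lit 277) (nat_lit 5) (nat_lit 372) (nat_lit 368) (nat_lit 280)) (XT.nd (nat_lit 78) (nat_lit 0) (nat_lit 76) (XT.lf (nat_lit 0) (nat_lit 4035591602) (nat_lit 1216) (nat_lit 7706861303) (nat_lit 1292) (nat_lit 6458498862) (nat_lit 261) (nat_lit 5) (nat_lit 277) (nat_lit 5) (nat_lit 278) (nat_lit 5) (nat_lit 373) (nat_lit 368) (nat_lit 279)) (XT.lf (nat_lit 0) (nat_lit 5732230245) (nat_lit 1216) (nat_lit 10889928967) (nat_lit 1292) (nat_lit 2041427683) (nat_lit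 262) (nat_lit 5) (nat_lit 278) (nat_lit 5) (nat_lit 279) (nat_lit 5) (nat_lit 374) (nat_lit 368) (nat_lit 278)))) (XT.nd (nat_lit 156) (nat_lit 0) (nat_lit 152) (XT.nd (nat_lit 78) (nat_lit 0) (nat_lit 76) (XT.lf (nat_lit 76) (nat_lit 5004966068) (nat_lit 0) (nat_lit 2734277685) (nat_lit 1292) (nat_lit 11403350598) (nat_lit 263) (nat_lit 5) (nat_lit 262) (nat_lit 5) (nat_lit 279) (nat_lit 5) (nat_lit 375) (nat_lit 368) (nat_lit 277)) (XT.lf (nat_lit 76) (nat_lit 2191864418) (nat_lit 0) (nat_lit 7882620055) (nat_lit 1292) (nat_lit 9564237947) (nat_lit 264) (nat_lit 5) (nat_lit 263) (nat_lit 5) (nat_lit 280) (nat_lit 5) (nat_lit 376) (nat_lit 368) (nat_lit 276))) (XT.nd (nat_lit 78) (nat_lit 0) (nat_lit 76) (XT.lf (nat_lit 0) (nat_lit 12746292873) (nat_lit 1216) (nat_lit 631798646) (nat_lit 1292) (nat_lit 6774977425) (nat_lit 264) (nat_lit 5) (nat_lit 280) (nat_lit 5) (nat_lit 281) (nat_lit 5)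 (nat_lit 377) (nat_lit 368) (nat_lit 275)) (XT.lf (nat_lit 0) (nat_lit 15793009643) (nat_lit 1216) (nat_lit 3434549492) (nat_lit 76) (nat_lit 1458340047) (nat_lit 265) (nat_lit 5) (nat_lit 281) (nat_lit 5) (nat_lit 266) (nat_lit 5) (nat_lit 378) (nat_lit 368) (nat_lit 274))))))))
noncomputable def xc94 : XT := (XT.nd (nat_lit 1950) (nat_lit 4864) (nat_lit 0) (XT.nd (nat_lit 936) (nat_lit 4408) (nat_lit 0) (XT.nd (nat_lit 468) (nat_lit 2508) (nat_lit 0) (XT.nd (nat_lit 234) (nat_lit 1672) (nat_lit 0) (XT.nd (nat_lit 78) (nat_lit 1368) (nat_lit 0) (XT.lf (nat_lit 0) (nat_lit 14937648926) (nat_lit 1216) (nat_lit 4321853594) (nat_lit 1292) (nat_lit 1977850849) (nat_lit 249) (nat_lit 5) (nat_lit 265) (nat_lit 5) (nat_lit 266) (nat_lit 5) (nat_lit 379) (nat_lit 368) (nat_lit 273)) (XT.nd (nat_lit 78) (nat_lit 608) (nat_lit 0) (XT.lf (nat_lit 0) (nat_lit 1313026248) (nat_lit 760) (nat_lit 9215670043)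 (nat_lit 76) (nat_lit 11279840341) (nat_lit 239) (nat_lit 5) (nat_lit 249) (nat_lit 5) (nat_lit 240) (nat_lit 5) (nat_lit 380) (nat_lit 368) (nat_lit 272)) (XT.lf (nat_lit 0) (nat_lit 4970785764) (nat_lit 684) (nat_lit 12177171504) (nat_lit 76) (nat_lit 5252441973) (nat_lit 231) (nat_lit 5) (nat_lit 240) (nat_lit 5) (nat_lit 232) (nat_lit 5) (nat_lit 381) (nat_lit 368) (nat_lit 271)))) (XT.nd (nat_lit 78) (nat_lit 1064) (nat_lit 0) (XT.lf (nat_lit 0) (nat_lit 7837920409) (nat_lit 608) (nat_lit 1235056269) (nat_lit 684) (nat_lit 13941036733) (nat_lit 223) (nat_lit 5) (nat_lit 231) (nat_lit 5) (nat_lit 232) (nat_lit 5) (nat_lit 382) (nat_lit 368) (nat_lit 270)) (XT.nd (nat_lit 78) (nat_lit 532) (nat_lit 0) (XT.lf (nat_lit 0) (nat_lit 5393469382) (nat_lit 532) (nat_lit 8298727433) (nat_lit 608) (nat_lit 9956758394) (nat_lit 216) (nat_lit 5) (nat_lit 223) (nat_lit 5) (nat_lit 224) (nat_lit 5) (nat_lit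 383) (nat_lit 368) (nat_lit 269)) (XT.lf (nat_lit 0) (nat_lit 2944805767) (nat_lit 532) (nat_lit 15862289638) (nat_lit 608) (nat_lit 5500611460) (nat_lit 209) (nat_lit 5) (nat_lit 216) (nat_lit 5) (nat_lit 217) (nat_lit 5) (nat_lit 384) (nat_lit 368) (nat_lit 268))))) (XT.nd (nat_lit 234) (nat_lit 1444) (nat_lit 0) (XT.nd (nat_lit 78) (nat_lit 608) (nat_lit 0) (XT.lf (nat_lit 0) (nat_lit 493966709) (nat_lit 456) (nat_lit 23955366376) (nat_lit 532) (nat_lit 541919285) (nat_lit 203) (nat_lit 5) (nat_lit 209) (nat_lit 5) (nat_lit 210) (nat_lit 5) (nat_lit 385) (nat_lit 368) (nat_lit 267)) (XT.nd (nat_lit 78) (nat_lit 532) (nat_lit 0) (XT.lf (nat_lit 0) (nat_lit 4942127993) (nat_lit 532) (nat_lit 2034685822) (nat_lit 76) (nat_lit 18719766542) (nat_lit 202) (nat_lit 5) (nat_lit 209) (nat_lit 5) (nat_lit 203) (nat_lit 5) (nat_lit 386) (nat_lit 368) (nat_lit 266)) (XT.lf (nat_lit 0) (nat_lit 10993704530)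 (nat_lit 608) (nat_lit 4577984341) (nat_lit 76) (nat_lit 10856192469) (nat_lit 195) (nat_lit 5) (nat_lit 203) (nat_lit 5) (nat_lit 196) (nat_lit 5) (nat_lit 387) (nat_lit 368) (nat_lit 265)))) (XT.nd (nat_lit 78) (nat_lit 988) (nat_lit 0) (XT.lf (nat_lit 0) (nat_lit 17643537308) (nat_lit 532) (nat_lit 7128404602) (nat_lit 76) (nat_lit 2414938570) (nat_lit 189) (nat_lit 5) (nat_lit 196) (nat_lit 5) (nat_lit 190) (nat_lit 5) (nat_lit 388) (nat_lit 368) (nat_lit 264)) (XT.nd (nat_lit 78) (nat_lit 532) (nat_lit 0) (XT.lf (nat_lit 0) (nat_lit 18223538087) (nat_lit 456) (nat_lit 6770089361) (nat_lit 532) (nat_lit 2979172423) (nat_lit 183) (nat_lit 5) (nat_lit 189) (nat_lit 5) (nat_lit 190) (nat_lit 5) (nat_lit 389) (nat_lit 368) (nat_lit 263)) (XT.lf (nat_lit 0) (nat_lit 4176646563) (nat_lit 532) (nat_lit 12444636695) (nat_lit 76) (nat_lit 12165412495) (nat_lit 176) (nat_lit 5) (nat_lit 183) (nat_lit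 5) (nat_lit 177) (nat_lit 5) (nat_lit 390) (nat_lit 368) (nat_lit 262)))))) (XT.nd (nat_lit 468) (nat_lit 2052) (nat_lit 0) (XT.nd (nat_lit 234) (nat_lit 1140) (nat_lit 0) (XT.nd (nat_lit 78) (nat_lit 760) (nat_lit 0) (XT.lf (nat_lit 0) (nat_lit 11951048741) (nat_lit 532) (nat_lit 15183706185) (nat_lit 76) (nat_lit 2495977293) (nat_lit 170) (nat_lit 5) (nat_lit 177) (nat_lit 5) (nat_lit 171) (nat_lit 5) (nat_lit 391) (nat_lit 368) (nat_lit 261)) (XT.nd (nat_lit 78) (nat_lit 380) (nat_lit 0) (XT.lf (nat_lit 0) (nat_lit 12490829594) (nat_lit 380) (nat_lit 8029495575) (nat_lit 456) (nat_lit 9984463456) (nat_lit 165) (nat_lit 5) (nat_lit 170) (nat_lit 5) (nat_lit 171) (nat_lit 5) (nat_lit 392) (nat_lit 368) (nat_lit 260)) (XT.lf (nat_lit 0) (nat_lit 10522695712) (nat_lit 380) (nat_lit 19359333190) (nat_lit 456) (nat_lit 1529602654) (nat_lit 160) (nat_lit 5) (nat_lit 165) (nat_lit 5) (nat_lit 166)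 (nat_lit 5) (nat_lit 393) (nat_lit 368) (nat_lit 259)))) (XT.nd (nat_lit 78) (nat_lit 684) (nat_lit 0) (XT.lf (nat_lit 0) (nat_lit 7553471609) (nat_lit 456) (nat_lit 23857727623) (nat_lit 76) (nat_lit 940035116) (nat_lit 154) (nat_lit 5) (nat_lit 160) (nat_lit 5) (nat_lit 155) (nat_lit 5) (nat_lit 394) (nat_lit 368) (nat_lit 258)) (XT.nd (nat_lit 78) (nat_lit 304) (nat_lit 0) (XT.lf (nat_lit 0) (nat_lit 6347461375) (nat_lit 380) (nat_lit 11175396030) (nat_lit 456) (nat_lit 15800594064) (nat_lit 149) (nat_lit 5) (nat_lit 154) (nat_lit 5) (nat_lit 155) (nat_lit 5) (nat_lit 395) (nat_lit 368) (nat_lit 257)) (XT.lf (nat_lit 0) (nat_lit 4193609979) (nat_lit 304) (nat_lit 24172500380) (nat_lit 380) (nat_lit 5966909339) (nat_lit 145) (nat_lit 5) (nat_lit 149) (nat_lit 5) (nat_lit 150) (nat_lit 5) (nat_lit 396) (nat_lit 368) (nat_lit 256))))) (XT.nd (nat_lit 234) (nat_lit 1292) (nat_lit 0) (XT.nd (nat_lit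 78) (nat_lit 304) (nat_lit 0) (XT.lf (nat_lit 0) (nat_lit 1968311662) (nat_lit 380) (nat_lit 2707742227) (nat_lit 456) (nat_lit 30703678282) (nat_lit 139) (nat_lit 5) (nat_lit 144) (nat_lit 5) (nat_lit 145) (nat_lit 5) (nat_lit 397) (nat_lit 368) (nat_lit 255)) (XT.nd (nat_lit 78) (nat_lit 304) (nat_lit 0) (XT.lf (nat_lit 0) (nat_lit 16223634660) (nat_lit 456) (nat_lit 425334564) (nat_lit 76) (nat_lit 19813164395) (nat_lit 139) (nat_lit 5) (nat_lit 145) (nat_lit 5) (nat_lit 140) (nat_lit 5) (nat_lit 398) (nat_lit 368) (nat_lit 254)) (XT.lf (nat_lit 0) (nat_lit 28761240346) (nat_lit 380) (nat_lit 2796930891) (nat_lit 76) (nat_lit 6028106361) (nat_lit 135) (nat_lit 5) (nat_lit 140) (nat_lit 5) (nat_lit 136) (nat_lit 5) (nat_lit 399) (nat_lit 368) (nat_lit 253)))) (XT.nd (nat_lit 156) (nat_lit 608) (nat_lit 0) (XT.nd (nat_lit 78) (nat_lit 304) (nat_lit 0) (XT.lf (nat_lit 0) (nat_lit 3588034438)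 (nat_lit 380) (nat_lit 5307272841) (nat_lit 76) (nat_lit 29855694710) (nat_lit 130) (nat_lit 5) (nat_lit 135) (nat_lit 5) (nat_lit 131) (nat_lit 5) (nat_lit 400) (nat_lit 368) (nat_lit 252)) (XT.lf (nat_lit 0) (nat_lit 16917756966) (nat_lit 380) (nat_lit 8002134553) (nat_lit 76) (nat_lit 15037096021) (nat_lit 126) (nat_lit 5) (nat_lit 131) (nat_lit 5) (nat_lit 127) (nat_lit 5) (nat_lit 401) (nat_lit 368) (nat_lit 251))) (XT.nd (nat_lit 78) (nat_lit 304) (nat_lit 0) (XT.lf (nat_lit 0) (nat_lit 30461358888) (nat_lit 304) (nat_lit 882308879) (nat_lit 380) (nat_lit 9866715076) (nat_lit 122) (nat_lit 5) (nat_lit 126) (nat_lit 5) (nat_lit 127) (nat_lit 5) (nat_lit 402) (nat_lit 368) (nat_lit 250)) (XT.lf (nat_lit 0) (nat_lit 4479267769) (nat_lit 304) (nat_lit 13746270960) (nat_lit 76) (nat_lit 24282001297) (nat_lit 118) (nat_lit 5) (nat_lit 122) (nat_lit 5) (nat_lit 119) (nat_lit 5) (nat_lit 403) (nat_lit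 368) (nat_lit 249))))))) (XT.nd (nat_lit 936) (nat_lit 2128) (nat_lit 0) (XT.nd (nat_lit 468) (nat_lit 1140) (nat_lit 0) (XT.nd (nat_lit 234) (nat_lit 760) (nat_lit 0) (XT.nd (nat_lit 78) (nat_lit 532) (nat_lit 0) (XT.lf (nat_lit 0) (nat_lit 19783193831) (nat_lit 380) (nat_lit 16914330643) (nat_lit 76) (nat_lit 7155760154) (nat_lit 114) (nat_lit 5) (nat_lit 119) (nat_lit 5) (nat_lit 115) (nat_lit 5) (nat_lit 404) (nat_lit 368) (nat_lit 248)) (XT.nd (nat_lit 78) (nat_lit 304) (nat_lit 0) (XT.lf (nat_lit 0) (nat_lit 24974005693) (nat_lit 228) (nat_lit 11437803950) (nat_lit 304) (nat_lit 8837723306) (nat_lit 111) (nat_lit 5) (nat_lit 114) (nat_lit 5) (nat_lit 115) (nat_lit 5) (nat_lit 405) (nat_lit 368) (nat_lit 247)) (XT.lf (nat_lit 0) (nat_lit 7555537217) (nat_lit 304) (nat_lit 23885349179) (nat_lit 76) (nat_lit 15256477199) (nat_lit 107) (nat_lit 5) (nat_lit 111) (nat_lit 5) (nat_lit 108) (nat_lit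 5) (nat_lit 406) (nat_lit 368) (nat_lit 246)))) (XT.nd (nat_lit 78) (nat_lit 532) (nat_lit 0) (XT.lf (nat_lit 0) (nat_lit 20447341062) (nat_lit 228) (nat_lit 4655763098) (nat_lit 304) (nat_lit 23096335050) (nat_lit 104) (nat_lit 5) (nat_lit 107) (nat_lit 5) (nat_lit 108) (nat_lit 5) (nat_lit 407) (nat_lit 368) (nat_lit 245)) (XT.nd (nat_lit 78) (nat_lit 304) (nat_lit 0) (XT.lf (nat_lit 0) (nat_lit 17835462505) (nat_lit 228) (nat_lit 26331071640) (nat_lit 304) (nat_lit 5590931003) (nat_lit 101) (nat_lit 5) (nat_lit 104) (nat_lit 5) (nat_lit 105) (nat_lit 5) (nat_lit 408) (nat_lit 368) (nat_lit 244)) (XT.lf (nat_lit 0) (nat_lit 13032376793) (nat_lit 304) (nat_lit 36388004445) (nat_lit 76) (nat_lit 1954557636) (nat_lit 97) (nat_lit 5) (nat_lit 101) (nat_lit 5) (nat_lit 98) (nat_lit 5) (nat_lit 409) (nat_lit 368) (nat_lit 243))))) (XT.nd (nat_lit 234) (nat_lit 456) (nat_lit 0) (XT.nd (nat_lit 78)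 (nat_lit 456) (nat_lit 0) (XT.lf (nat_lit 0) (nat_lit 11737803703) (nat_lit 228) (nat_lit 21438417755) (nat_lit 304) (nat_lit 19874255094) (nat_lit 94) (nat_lit 5) (nat_lit 97) (nat_lit 5) (nat_lit 98) (nat_lit 5) (nat_lit 410) (nat_lit 368) (nat_lit 242)) (XT.nd (nat_lit 78) (nat_lit 228) (nat_lit 0) (XT.lf (nat_lit 0) (nat_lit 60203627) (nat_lit 228) (nat_lit 46491425073) (nat_lit 76) (nat_lit 8242302833) (nat_lit 91) (nat_lit 5) (nat_lit 94) (nat_lit 5) (nat_lit 92) (nat_lit 5) (nat_lit 411) (nat_lit 368) (nat_lit 241)) (XT.lf (nat_lit 0) (nat_lit 4302298397) (nat_lit 228) (nat_lit 16962884872) (nat_lit 304) (nat_lit 35332928748) (nat_lit 88) (nat_lit 5) (nat_lit 91) (nat_lit 5) (nat_lit 92) (nat_lit 5) (nat_lit 412) (nat_lit 368) (nat_lit 240)))) (XT.nd (nat_lit 78) (nat_lit 456) (nat_lit 0) (XT.lf (nat_lit 0) (nat_lit 44143266335) (nat_lit 304) (nat_lit 21494881) (nat_lit 76) (nat_lit 14309355475)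 (nat_lit 88) (nat_lit 5) (nat_lit 92) (nat_lit 5) (nat_lit 89) (nat_lit 5) (nat_lit 413) (nat_lit 368) (nat_lit 239)) (XT.nd (nat_lit 78) (nat_lit 228) (nat_lit 0) (XT.lf (nat_lit 0) (nat_lit 8279177458) (nat_lit 228) (nat_lit 4730141639) (nat_lit 76) (nat_lit 47411121081) (nat_lit 85) (nat_lit 5) (nat_lit 88) (nat_lit 5) (nat_lit 86) (nat_lit 5) (nat_lit 414) (nat_lit 368) (nat_lit 238)) (XT.lf (nat_lit 0) (nat_lit 32422050669) (nat_lit 304) (nat_lit 10044403148) (nat_lit 76) (nat_lit 19972408200) (nat_lit 82) (nat_lit 5) (nat_lit 86) (nat_lit 5) (nat_lit 83) (nat_lit 5) (nat_lit 415) (nat_lit 368) (nat_lit 237)))))) (XT.nd (nat_lit 468) (nat_lit 1064) (nat_lit 0) (XT.nd (nat_lit 234) (nat_lit 532) (nat_lit 0) (XT.nd (nat_lit 78) (nat_lit 380) (nat_lit 0) (XT.lf (nat_lit 0) (nat_lit 48726980067) (nat_lit 152) (nat_lit 9688459019) (nat_lit 228) (nat_lit 6123465385) (nat_lit 80) (nat_lit 5) (nat_lit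 82) (nat_lit 5) (nat_lit 83) (nat_lit 5) (nat_lit 416) (nat_lit 368) (nat_lit 236)) (XT.nd (nat_lit 78) (nat_lit 152) (nat_lit 0) (XT.lf (nat_lit 0) (nat_lit 19366832221) (nat_lit 228) (nat_lit 22384057307) (nat_lit 76) (nat_lit 24964420644) (nat_lit 77) (nat_lit 5) (nat_lit 80) (nat_lit 5) (nat_lit 78) (nat_lit 5) (nat_lit 417) (nat_lit 368) (nat_lit 235)) (XT.lf (nat_lit 0) (nat_lit 39415132628) (nat_lit 152) (nat_lit 7226848549) (nat_lit 228) (nat_lit 22337627348) (nat_lit 75) (nat_lit 5) (nat_lit 77) (nat_lit 5) (nat_lit 78) (nat_lit 5) (nat_lit 418) (nat_lit 368) (nat_lit 234)))) (XT.nd (nat_lit 78) (nat_lit 304) (nat_lit 0) (XT.lf (nat_lit 0) (nat_lit 4686823514) (nat_lit 228) (nat_lit 37587191251) (nat_lit 76) (nat_lit 29056787312) (nat_lit 72) (nat_lit 5) (nat_lit 75) (nat_lit 5) (nat_lit 73) (nat_lit 5) (nat_lit 419) (nat_lit 368) (nat_lit 233)) (XT.nd (nat_lit 78) (nat_lit 152) (nat_lit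 0) (XT.lf (nat_lit 0) (nat_lit 27266287806) (nat_lit 152) (nat_lit 5975911479) (nat_lit 228) (nat_lit 40531471239) (nat_lit 70) (nat_lit 5) (nat_lit 72) (nat_lit 5) (nat_lit 73) (nat_lit 5) (nat_lit 420) (nat_lit 368) (nat_lit 232)) (XT.lf (nat_lit 0) (nat_lit 19887446338) (nat_lit 152) (nat_lit 44223855542) (nat_lit 228) (nat_lit 12200802267) (nat_lit 68) (nat_lit 5) (nat_lit 70) (nat_lit 5) (nat_lit 71) (nat_lit 5) (nat_lit 421) (nat_lit 368) (nat_lit 231))))) (XT.nd (nat_lit 234) (nat_lit 608) (nat_lit 0) (XT.nd (nat_lit 78) (nat_lit 228) (nat_lit 0) (XT.lf (nat_lit 0) (nat_lit 11594768841) (nat_lit 152) (nat_lit 6259715403) (nat_lit 228) (nat_lit 61098401337) (nat_lit 65) (nat_lit 5) (nat_lit 67) (nat_lit 5) (nat_lit 68) (nat_lit 5) (nat_lit 422) (nat_lit 368) (nat_lit 230)) (XT.nd (nat_lit 78) (nat_lit 76) (nat_lit 0) (XT.lf (nat_lit 0) (nat_lit 2065994353) (nat_lit 152) (nat_lit 48021342196)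 (nat_lit 228) (nat_lit 31606931990) (nat_lit 63) (nat_lit 5) (nat_lit 65) (nat_lit 5) (nat_lit 66) (nat_lit 5) (nat_lit 423) (nat_lit 368) (nat_lit 229)) (XT.lf (nat_lit 0) (nat_lit 130479669) (nat_lit 228) (nat_lit 8255167618) (nat_lit 76) (nat_lit 76164492696) (nat_lit 62) (nat_lit 5) (nat_lit 65) (nat_lit 5) (nat_lit 63) (nat_lit 5) (nat_lit 424) (nat_lit 368) (nat_lit 228)))) (XT.nd (nat_lit 156) (nat_lit 304) (nat_lit 0) (XT.nd (nat_lit 78) (nat_lit 152) (nat_lit 0) (XT.lf (nat_lit 0) (nat_lit 33782397155) (nat_lit 228) (nat_lit 20168460264) (nat_lit 76) (nat_lit 33559120312) (nat_lit 60) (nat_lit 5) (nat_lit 63) (nat_lit 5) (nat_lit 61) (nat_lit 5) (nat_lit 425) (nat_lit 368) (nat_lit 227)) (XT.lf (nat_lit 0) (nat_lit 57300205058) (nat_lit 152) (nat_lit 12533712905) (nat_lit 228) (nat_lit 20762379548) (nat_lit 58) (nat_lit 5) (nat_lit 60) (nat_lit 5) (nat_lit 61) (nat_lit 5) (nat_lit 426)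 (nat_lit 368) (nat_lit 226))) (XT.nd (nat_lit 78) (nat_lit 152) (nat_lit 0) (XT.lf (nat_lit 0) (nat_lit 14533652877) (nat_lit 152) (nat_lit 48131155281) (nat_lit 76) (nat_lit 31139545432) (nat_lit 56) (nat_lit 5) (nat_lit 58) (nat_lit 5) (nat_lit 57) (nat_lit 5) (nat_lit 427) (nat_lit 368) (nat_lit 225)) (XT.lf (nat_lit 0) (nat_lit 32409716042) (nat_lit 152) (nat_lit 19539488017) (nat_lit 228) (nat_lit 45193918244) (nat_lit 54) (nat_lit 5) (nat_lit 56) (nat_lit 5) (nat_lit 57) (nat_lit 5) (nat_lit 428) (nat_lit 368) (nat_lit 224))))))))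
noncomputable def xc95 : XT := (XT.nd (nat_lit 50154) (nat_lit 0) (nat_lit 2660) (XT.nd (nat_lit 49140) (nat_lit 0) (nat_lit 10108) (XT.nd (nat_lit 48672) (nat_lit 0) (nat_lit 15884) (XT.nd (nat_lit 48438) (nat_lit 0) (nat_lit 15732) (XT.nd (nat_lit 78) (nat_lit 228) (nat_lit 0) (XT.lf (nat_lit 0) (nat_lit 17429888468) (nat_lit 76) (nat_lit 74717033711) (nat_lit 152) (nat_lit 8474565896) (nat_lit 53) (nat_lit 5) (nat_lit 54) (nat_lit 5) (nat_lit 55) (nat_lit 4) (nat_lit 429) (nat_lit 368) (nat_lit 223)) (XT.nd (nat_lit 78) (nat_lit 0) (nat_lit 0) (XT.lf (nat_lit 0) (nat_lit 306099238) (nat_lit 152) (nat_lit 30056904122) (nat_lit 228) (nat_lit 73876017428) (nat_lit 50) (nat_lit 5) (nat_lit 52) (nat_lit 5) (nat_lit 53) (nat_lit 5) (nat_lit 430) (nat_lit 368) (nat_lit 222)) (XT.lf (nat_lit 0) (nat_lit 71991706801) (nat_lit 228) (nat_lit 18557536380) (nat_lit 76) (nat_lit 17454934344) (nat_lit 50)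 (nat_lit 5) (nat_lit 53) (nat_lit 5) (nat_lit 51) (nat_lit 4) (nat_lit 431) (nat_lit 368) (nat_lit 221)))) (XT.nd (nat_lit 78) (nat_lit 0) (nat_lit 76) (XT.lf (nat_lit 0) (nat_lit 45894627) (nat_lit 1292) (nat_lit 4202228865) (nat_lit 1292) (nat_lit 4202228865) (nat_lit 257) (nat_lit 3) (nat_lit 274) (nat_lit 3) (nat_lit 274) (nat_lit 5) (nat_lit 369) (nat_lit 369) (nat_lit 282)) (XT.nd (nat_lit 78) (nat_lit 0) (nat_lit 76) (XT.lf (nat_lit 0) (nat_lit 571990996) (nat_lit 1216) (nat_lit 11968076746) (nat_lit 1292) (nat_lit 4768693312) (nat_lit 258) (nat_lit 5) (nat_lit 274) (nat_lit 5) (nat_lit 275) (nat_lit 5) (nat_lit 370) (nat_lit 369) (nat_lit 281)) (XT.lf (nat_lit 0) (nat_lit 1254509798) (nat_lit 1216) (nat_lit 15584955595) (nat_lit 1292) (nat_lit 892413549) (nat_lit 259) (nat_lit 5) (nat_lit 275) (nat_lit 5) (nat_lit 276) (nat_lit 5) (nat_lit 371) (nat_lit 369) (nat_lit 280))))) (XT.nd (nat_lit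 234) (nat_lit 0) (nat_lit 228) (XT.nd (nat_lit 78) (nat_lit 0) (nat_lit 76) (XT.lf (nat_lit 0) (nat_lit 2198977302) (nat_lit 1216) (nat_lit 1096498270) (nat_lit 1292) (nat_lit 14873850034) (nat_lit 259) (nat_lit 5) (nat_lit 275) (nat_lit 5) (nat_lit 276) (nat_lit 5) (nat_lit 372) (nat_lit 369) (nat_lit 279)) (XT.nd (nat_lit 78) (nat_lit 0) (nat_lit 76) (XT.lf (nat_lit 0) (nat_lit 3413345922) (nat_lit 1216) (nat_lit 4347938423) (nat_lit 1292) (nat_lit 10860687130) (nat_lit 260) (nat_lit 5) (nat_lit 276) (nat_lit 5) (nat_lit 277) (nat_lit 5) (nat_lit 373) (nat_lit 369) (nat_lit 278)) (XT.lf (nat_lit 0) (nat_lit 4887087369) (nat_lit 1216) (nat_lit 7640812885) (nat_lit 1292) (nat_lit 6563396611) (nat_lit 261) (nat_lit 5) (nat_lit 277) (nat_lit 5) (nat_lit 278) (nat_lit 5) (nat_lit 374) (nat_lit 369) (nat_lit 277)))) (XT.nd (nat_lit 78) (nat_lit 0) (nat_lit 0) (XT.lf (nat_lit 0) (nat_lit 6640059844)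 (nat_lit 1216) (nat_lit 10975308357) (nat_lit 1292) (nat_lit 1962560540) (nat_lit 262) (nat_lit 5) (nat_lit 278) (nat_lit 5) (nat_lit 279) (nat_lit 5) (nat_lit 375) (nat_lit 369) (nat_lit 276)) (XT.nd (nat_lit 78) (nat_lit 0) (nat_lit 76) (XT.lf (nat_lit 76) (nat_lit 5701170933) (nat_lit 0) (nat_lit 3020958090) (nat_lit 1292) (nat_lit 11359525968) (nat_lit 263) (nat_lit 5) (nat_lit 262) (nat_lit 5) (nat_lit 279) (nat_lit 5) (nat_lit 376) (nat_lit 369) (nat_lit 275)) (XT.lf (nat_lit 76) (nat_lit 2753582324) (nat_lit 0) (nat_lit 8395145339) (nat_lit 1292) (nat_lit 9454633035) (nat_lit 264) (nat_lit 5) (nat_lit 263) (nat_lit 5) (nat_lit 280) (nat_lit 5) (nat_lit 377) (nat_lit 369) (nat_lit 274)))))) (XT.nd (nat_lit 468) (nat_lit 3040) (nat_lit 0) (XT.nd (nat_lit 234) (nat_lit 1976) (nat_lit 0) (XT.nd (nat_lit 78) (nat_lit 1140) (nat_lit 0) (XT.lf (nat_lit 0) (nat_lit 13925875029) (nat_lit 1216)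 (nat_lit 215235621) (nat_lit 1292) (nat_lit 7003170123) (nat_lit 264) (nat_lit 5) (nat_lit 280) (nat_lit 5) (nat_lit 281) (nat_lit 5) (nat_lit 378) (nat_lit 369) (nat_lit 273)) (XT.nd (nat_lit 78) (nat_lit 1216) (nat_lit 0) (XT.lf (nat_lit 0) (nat_lit 17102469634) (nat_lit 1216) (nat_lit 3154365830) (nat_lit 76) (nat_lit 1447599066) (nat_lit 265) (nat_lit 5) (nat_lit 281) (nat_lit 5) (nat_lit 266) (nat_lit 5) (nat_lit 379) (nat_lit 369) (nat_lit 272)) (XT.lf (nat_lit 0) (nat_lit 16123488568) (nat_lit 1216) (nat_lit 4598265279) (nat_lit 1292) (nat_lit 1562331451) (nat_lit 249) (nat_lit 5) (nat_lit 265) (nat_lit 5) (nat_lit 266) (nat_lit 5) (nat_lit 380) (nat_lit 369) (nat_lit 271)))) (XT.nd (nat_lit 78) (nat_lit 1216) (nat_lit 0) (XT.lf (nat_lit 0) (nat_lit 1862763329) (nat_lit 760) (nat_lit 9225034045) (nat_lit 76) (nat_lit 11796497928) (nat_lit 239) (nat_lit 5) (nat_lit 249) (nat_lit 5) (nat_lit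 240) (nat_lit 5) (nat_lit 381) (nat_lit 369) (nat_lit 270)) (XT.nd (nat_lit 78) (nat_lit 608) (nat_lit 0) (XT.lf (nat_lit 0) (nat_lit 5684316729) (nat_lit 684) (nat_lit 12333196979) (nat_lit 76) (nat_lit 5488817089) (nat_lit 231) (nat_lit 5) (nat_lit 240) (nat_lit 5) (nat_lit 232) (nat_lit 5) (nat_lit 382) (nat_lit 369) (nat_lit 269)) (XT.lf (nat_lit 0) (nat_lit 8669669160) (nat_lit 608) (nat_lit 1304033702) (nat_lit 684) (nat_lit 14177466847) (nat_lit 223) (nat_lit 5) (nat_lit 231) (nat_lit 5) (nat_lit 232) (nat_lit 5) (nat_lit 383) (nat_lit 369) (nat_lit 268))))) (XT.nd (nat_lit 234) (nat_lit 1520) (nat_lit 0) (XT.nd (nat_lit 78) (nat_lit 988) (nat_lit 0) (XT.lf (nat_lit 0) (nat_lit 6103610875) (nat_lit 532) (nat_lit 8703151640) (nat_lit 608) (nat_lit 10011616014) (nat_lit 216) (nat_lit 5) (nat_lit 223) (nat_lit 5) (nat_lit 224) (nat_lit 5) (nat_lit 384) (nat_lit 369) (nat_lit 267)) (XT.nd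 (nat_lit 78) (nat_lit 456) (nat_lit 0) (XT.lf (nat_lit 0) (nat_lit 3532441097) (nat_lit 532) (nat_lit 16628820434) (nat_lit 608) (nat_lit 5349296562) (nat_lit 209) (nat_lit 5) (nat_lit 216) (nat_lit 5) (nat_lit 217) (nat_lit 5) (nat_lit 385) (nat_lit 369) (nat_lit 266)) (XT.lf (nat_lit 0) (nat_lit 958362865) (nat_lit 456) (nat_lit 25112012941) (nat_lit 532) (nat_lit 158367828) (nat_lit 203) (nat_lit 5) (nat_lit 209) (nat_lit 5) (nat_lit 210) (nat_lit 5) (nat_lit 386) (nat_lit 369) (nat_lit 265)))) (XT.nd (nat_lit 156) (nat_lit 912) (nat_lit 0) (XT.nd (nat_lit 78) (nat_lit 532) (nat_lit 0) (XT.lf (nat_lit 0) (nat_lit 5572695546) (nat_lit 532) (nat_lit 1709923179) (nat_lit 76) (nat_lit 19687181340) (nat_lit 202) (nat_lit 5) (nat_lit 209) (nat_lit 5) (nat_lit 203) (nat_lit 5) (nat_lit 387) (nat_lit 369) (nat_lit 264)) (XT.lf (nat_lit 0) (nat_lit 11913006501) (nat_lit 608) (nat_lit 4381869535) (nat_lit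 76) (nat_lit 11443210416) (nat_lit 195) (nat_lit 5) (nat_lit 203) (nat_lit 5) (nat_lit 196) (nat_lit 5) (nat_lit 388) (nat_lit 369) (nat_lit 263))) (XT.nd (nat_lit 78) (nat_lit 456) (nat_lit 0) (XT.lf (nat_lit 0) (nat_lit 18882244951) (nat_lit 532) (nat_lit 7061764996) (nat_lit 76) (nat_lit 2591422963) (nat_lit 189) (nat_lit 5) (nat_lit 196) (nat_lit 5) (nat_lit 190) (nat_lit 5) (nat_lit 389) (nat_lit 369) (nat_lit 262)) (XT.lf (nat_lit 0) (nat_lit 19545647903) (nat_lit 456) (nat_lit 7041164178) (nat_lit 532) (nat_lit 2774231572) (nat_lit 183) (nat_lit 5) (nat_lit 189) (nat_lit 5) (nat_lit 190) (nat_lit 5) (nat_lit 390) (nat_lit 369) (nat_lit 261))))))) (XT.nd (nat_lit 936) (nat_lit 3116) (nat_lit 0) (XT.nd (nat_lit 468) (nat_lit 1748) (nat_lit 0) (XT.nd (nat_lit 234) (nat_lit 1216) (nat_lit 0) (XT.nd (nat_lit 78) (nat_lit 836) (nat_lit 0) (XT.lf (nat_lit 0) (nat_lit 4720539243) (nat_lit 532)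 (nat_lit 12651493710) (nat_lit 76) (nat_lit 12843861529) (nat_lit 176) (nat_lit 5) (nat_lit 183) (nat_lit 5) (nat_lit 177) (nat_lit 5) (nat_lit 391) (nat_lit 369) (nat_lit 260)) (XT.nd (nat_lit 78) (nat_lit 380) (nat_lit 0) (XT.lf (nat_lit 0) (nat_lit 12872358327) (nat_lit 532) (nat_lit 15530427238) (nat_lit 76) (nat_lit 2699690315) (nat_lit 170) (nat_lit 5) (nat_lit 177) (nat_lit 5) (nat_lit 171) (nat_lit 5) (nat_lit 392) (nat_lit 369) (nat_lit 259)) (XT.lf (nat_lit 0) (nat_lit 13516012125) (nat_lit 380) (nat_lit 8342520651) (nat_lit 456) (nat_lit 10162053125) (nat_lit 165) (nat_lit 5) (nat_lit 170) (nat_lit 5) (nat_lit 171) (nat_lit 5) (nat_lit 393) (nat_lit 369) (nat_lit 258)))) (XT.nd (nat_lit 78) (nat_lit 836) (nat_lit 0) (XT.lf (nat_lit 0) (nat_lit 11446332890) (nat_lit 380) (nat_lit 20231753331) (nat_lit 456) (nat_lit 1294995459) (nat_lit 160) (nat_lit 5) (nat_lit 165) (nat_lit 5) (nat_lit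 166) (nat_lit 5) (nat_lit 394) (nat_lit 369) (nat_lit 257)) (XT.nd (nat_lit 78) (nat_lit 380) (nat_lit 0) (XT.lf (nat_lit 0) (nat_lit 8226346545) (nat_lit 456) (nat_lit 24650585981) (nat_lit 76) (nat_lit 1082940206) (nat_lit 154) (nat_lit 5) (nat_lit 160) (nat_lit 5) (nat_lit 155) (nat_lit 5) (nat_lit 395) (nat_lit 369) (nat_lit 256)) (XT.lf (nat_lit 0) (nat_lit 7053395743) (nat_lit 380) (nat_lit 11630483769) (nat_lit 456) (nat_lit 16297134065) (nat_lit 149) (nat_lit 5) (nat_lit 154) (nat_lit 5) (nat_lit 155) (nat_lit 5) (nat_lit 396) (nat_lit 369) (nat_lit 255))))) (XT.nd (nat_lit 234) (nat_lit 988) (nat_lit 0) (XT.nd (nat_lit 78) (nat_lit 456) (nat_lit 0) (XT.lf (nat_lit 0) (nat_lit 4788109307) (nat_lit 304) (nat_lit 25272268438) (nat_lit 380) (nat_lit 5980953046) (nat_lit 145) (nat_lit 5) (nat_lit 149) (nat_lit 5) (nat_lit 150) (nat_lit 5) (nat_lit 397) (nat_lit 369) (nat_lit 254)) (XT.nd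 (nat_lit 78) (nat_lit 0) (nat_lit 0) (XT.lf (nat_lit 0) (nat_lit 2445961606) (nat_lit 380) (nat_lit 2733020419) (nat_lit 456) (nat_lit 31961606555) (nat_lit 139) (nat_lit 5) (nat_lit 144) (nat_lit 5) (nat_lit 145) (nat_lit 5) (nat_lit 398) (nat_lit 369) (nat_lit 253)) (XT.lf (nat_lit 0) (nat_lit 17292134370) (nat_lit 456) (nat_lit 78690696) (nat_lit 76) (nat_lit 20906641946) (nat_lit 139) (nat_lit 5) (nat_lit 145) (nat_lit 5) (nat_lit 140) (nat_lit 5) (nat_lit 399) (nat_lit 369) (nat_lit 252)))) (XT.nd (nat_lit 78) (nat_lit 684) (nat_lit 0) (XT.lf (nat_lit 0) (nat_lit 30448848782) (nat_lit 380) (nat_lit 2572953207) (nat_lit 76) (nat_lit 6436251906) (nat_lit 135) (nat_lit 5) (nat_lit 140) (nat_lit 5) (nat_lit 136) (nat_lit 5) (nat_lit 400) (nat_lit 369) (nat_lit 251)) (XT.nd (nat_lit 78) (nat_lit 304) (nat_lit 0) (XT.lf (nat_lit 0) (nat_lit 4010931004) (nat_lit 380) (nat_lit 5214347846) (nat_lit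 76) (nat_lit 31455921060) (nat_lit 130) (nat_lit 5) (nat_lit 135) (nat_lit 5) (nat_lit 131) (nat_lit 5) (nat_lit 401) (nat_lit 369) (nat_lit 250)) (XT.lf (nat_lit 0) (nat_lit 17999974076) (nat_lit 380) (nat_lit 8048204525) (nat_lit 76) (nat_lit 15899523360) (nat_lit 126) (nat_lit 5) (nat_lit 131) (nat_lit 5) (nat_lit 127) (nat_lit 5) (nat_lit 402) (nat_lit 369) (nat_lit 249)))))) (XT.nd (nat_lit 468) (nat_lit 1444) (nat_lit 0) (XT.nd (nat_lit 234) (nat_lit 760) (nat_lit 0) (XT.nd (nat_lit 78) (nat_lit 608) (nat_lit 0) (XT.lf (nat_lit 0) (nat_lit 32328315195) (nat_lit 304) (nat_lit 810917113) (nat_lit 380) (nat_lit 10124775311) (nat_lit 122) (nat_lit 5) (nat_lit 126) (nat_lit 5) (nat_lit 127) (nat_lit 5) (nat_lit 403) (nat_lit 369) (nat_lit 248)) (XT.nd (nat_lit 78) (nat_lit 304) (nat_lit 0) (XT.lf (nat_lit 0) (nat_lit 4927295794) (nat_lit 304) (nat_lit 14089436372) (nat_lit 76) (nat_lit 25609423226)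 (nat_lit 118) (nat_lit 5) (nat_lit 122) (nat_lit 5) (nat_lit 119) (nat_lit 5) (nat_lit 404) (nat_lit 369) (nat_lit 247)) (XT.lf (nat_lit 0) (nat_lit 20990092913) (nat_lit 380) (nat_lit 17420359088) (nat_lit 76) (nat_lit 7628926871) (nat_lit 114) (nat_lit 5) (nat_lit 119) (nat_lit 5) (nat_lit 115) (nat_lit 5) (nat_lit 405) (nat_lit 369) (nat_lit 246)))) (XT.nd (nat_lit 78) (nat_lit 532) (nat_lit 0) (XT.lf (nat_lit 0) (nat_lit 26552656974) (nat_lit 228) (nat_lit 11890285690) (nat_lit 304) (nat_lit 9062714651) (nat_lit 111) (nat_lit 5) (nat_lit 114) (nat_lit 5) (nat_lit 115) (nat_lit 5) (nat_lit 406) (nat_lit 369) (nat_lit 245)) (XT.nd (nat_lit 78) (nat_lit 228) (nat_lit 0) (XT.lf (nat_lit 0) (nat_lit 8140114062) (nat_lit 304) (nat_lit 24749919332) (nat_lit 76) (nat_lit 16135961088) (nat_lit 107) (nat_lit 5) (nat_lit 111) (nat_lit 5) (nat_lit 108) (nat_lit 5) (nat_lit 407) (nat_lit 369) (nat_lit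 244)) (XT.lf (nat_lit 0) (nat_lit 21789954713) (nat_lit 228) (nat_lit 4768335428) (nat_lit 304) (nat_lit 24045088399) (nat_lit 104) (nat_lit 5) (nat_lit 107) (nat_lit 5) (nat_lit 108) (nat_lit 5) (nat_lit 408) (nat_lit 369) (nat_lit 243))))) (XT.nd (nat_lit 234) (nat_lit 684) (nat_lit 0) (XT.nd (nat_lit 78) (nat_lit 532) (nat_lit 0) (XT.lf (nat_lit 0) (nat_lit 19043039667) (nat_lit 228) (nat_lit 27526462945) (nat_lit 304) (nat_lit 5669966344) (nat_lit 101) (nat_lit 5) (nat_lit 104) (nat_lit 5) (nat_lit 105) (nat_lit 5) (nat_lit 409) (nat_lit 369) (nat_lit 242)) (XT.nd (nat_lit 78) (nat_lit 228) (nat_lit 0) (XT.lf (nat_lit 0) (nat_lit 13875374762) (nat_lit 304) (nat_lit 37892246445) (nat_lit 76) (nat_lit 2170295315) (nat_lit 97) (nat_lit 5) (nat_lit 101) (nat_lit 5) (nat_lit 98) (nat_lit 5) (nat_lit 410) (nat_lit 369) (nat_lit 241)) (XT.lf (nat_lit 0) (nat_lit 12630818162) (nat_lit 228) (nat_lit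 22389422859) (nat_lit 304) (nat_lit 20677176511) (nat_lit 94) (nat_lit 5) (nat_lit 97) (nat_lit 5) (nat_lit 98) (nat_lit 5) (nat_lit 411) (nat_lit 369) (nat_lit 240)))) (XT.nd (nat_lit 156) (nat_lit 228) (nat_lit 0) (XT.nd (nat_lit 78) (nat_lit 228) (nat_lit 0) (XT.lf (nat_lit 0) (nat_lit 245420320) (nat_lit 228) (nat_lit 48510702372) (nat_lit 76) (nat_lit 8772014635) (nat_lit 91) (nat_lit 5) (nat_lit 94) (nat_lit 5) (nat_lit 92) (nat_lit 5) (nat_lit 412) (nat_lit 369) (nat_lit 239)) (XT.lf (nat_lit 0) (nat_lit 4813956082) (nat_lit 228) (nat_lit 17690866912) (nat_lit 304) (nat_lit 36917879790) (nat_lit 88) (nat_lit 5) (nat_lit 91) (nat_lit 5) (nat_lit 92) (nat_lit 5) (nat_lit 413) (nat_lit 369) (nat_lit 238))) (XT.nd (nat_lit 78) (nat_lit 76) (nat_lit 0) (XT.lf (nat_lit 0) (nat_lit 269064143) (nat_lit 152) (nat_lit 46253033474) (nat_lit 228) (nat_lit 14870552568) (nat_lit 86) (nat_lit 5) (nat_lit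 88) (nat_lit 5) (nat_lit 89) (nat_lit 5) (nat_lit 414) (nat_lit 369) (nat_lit 237)) (XT.lf (nat_lit 0) (nat_lit 8858482023) (nat_lit 228) (nat_lit 4685163159) (nat_lit 76) (nat_lit 49892836013) (nat_lit 85) (nat_lit 5) (nat_lit 88) (nat_lit 5) (nat_lit 86) (nat_lit 5) (nat_lit 415) (nat_lit 369) (nat_lit 236))))))))
noncomputable def xc96 : XT := (XT.nd (nat_lit 50154) (nat_lit 0) (nat_lit 6080) (XT.nd (nat_lit 936) (nat_lit 608) (nat_lit 0) (XT.nd (nat_lit 468) (nat_lit 912) (nat_lit 0) (XT.nd (nat_lit 234) (nat_lit 532) (nat_lit 0) (XT.nd (nat_lit 78) (nat_lit 380) (nat_lit 0) (XT.lf (nat_lit 0) (nat_lit 34204342807) (nat_lit 304) (nat_lit 10269473088) (nat_lit 76) (nat_lit 21082133895) (nat_lit 82) (nat_lit 5) (nat_lit 86) (nat_lit 5) (nat_lit 83) (nat_lit 5) (nat_lit 416) (nat_lit 369) (nat_lit 235)) (XT.nd (nat_lit 78) (nat_lit 228) (nat_lit 0) (XT.lf (nat_lit 0) (nat_lit 51432534832) (nat_lit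 152) (nat_lit 10059777889) (nat_lit 228) (nat_lit 6268835219) (nat_lit 80) (nat_lit 5) (nat_lit 82) (nat_lit 5) (nat_lit 83) (nat_lit 5) (nat_lit 417) (nat_lit 369) (nat_lit 234)) (XT.lf (nat_lit 0) (nat_lit 20488949796) (nat_lit 228) (nat_lit 23235182483) (nat_lit 76) (nat_lit 26322312829) (nat_lit 77) (nat_lit 5) (nat_lit 80) (nat_lit 5) (nat_lit 78) (nat_lit 5) (nat_lit 418) (nat_lit 369) (nat_lit 233)))) (XT.nd (nat_lit 78) (nat_lit 380) (nat_lit 0) (XT.lf (nat_lit 0) (nat_lit 41646282556) (nat_lit 152) (nat_lit 7476754039) (nat_lit 228) (nat_lit 23301067195) (nat_lit 75) (nat_lit 5) (nat_lit 77) (nat_lit 5) (nat_lit 78) (nat_lit 5) (nat_lit 419) (nat_lit 369) (nat_lit 232)) (XT.nd (nat_lit 78) (nat_lit 152) (nat_lit 0) (XT.lf (nat_lit 0) (nat_lit 5067965721) (nat_lit 228) (nat_lit 39207368679) (nat_lit 76) (nat_lit 30617588520) (nat_lit 72) (nat_lit 5) (nat_lit 75) (nat_lit 5) (nat_lit 73)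 (nat_lit 5) (nat_lit 420) (nat_lit 369) (nat_lit 231)) (XT.lf (nat_lit 0) (nat_lit 28881354928) (nat_lit 152) (nat_lit 6165184829) (nat_lit 228) (nat_lit 42411532874) (nat_lit 70) (nat_lit 5) (nat_lit 72) (nat_lit 5) (nat_lit 73) (nat_lit 5) (nat_lit 421) (nat_lit 369) (nat_lit 230))))) (XT.nd (nat_lit 234) (nat_lit 380) (nat_lit 0) (XT.nd (nat_lit 78) (nat_lit 380) (nat_lit 0) (XT.lf (nat_lit 0) (nat_lit 21129491022) (nat_lit 152) (nat_lit 46326217018) (nat_lit 228) (nat_lit 12667822269) (nat_lit 68) (nat_lit 5) (nat_lit 70) (nat_lit 5) (nat_lit 71) (nat_lit 5) (nat_lit 422) (nat_lit 369) (nat_lit 229)) (XT.nd (nat_lit 78) (nat_lit 152) (nat_lit 0) (XT.lf (nat_lit 0) (nat_lit 12417804037) (nat_lit 152) (nat_lit 6465294826) (nat_lit 228) (nat_lit 64013341512) (nat_lit 65) (nat_lit 5) (nat_lit 67) (nat_lit 5) (nat_lit 68) (nat_lit 5) (nat_lit 423) (nat_lit 369) (nat_lit 228)) (XT.lf (nat_lit 0)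 (nat_lit 2408586173) (nat_lit 152) (nat_lit 50315820152) (nat_lit 228) (nat_lit 33050582388) (nat_lit 63) (nat_lit 5) (nat_lit 65) (nat_lit 5) (nat_lit 66) (nat_lit 5) (nat_lit 424) (nat_lit 369) (nat_lit 227)))) (XT.nd (nat_lit 78) (nat_lit 304) (nat_lit 0) (XT.lf (nat_lit 0) (nat_lit 264650096) (nat_lit 228) (nat_lit 8437477096) (nat_lit 76) (nat_lit 80071679148) (nat_lit 62) (nat_lit 5) (nat_lit 65) (nat_lit 5) (nat_lit 63) (nat_lit 5) (nat_lit 425) (nat_lit 369) (nat_lit 226)) (XT.nd (nat_lit 78) (nat_lit 152) (nat_lit 0) (XT.lf (nat_lit 0) (nat_lit 35596199219) (nat_lit 228) (nat_lit 20950280288) (nat_lit 76) (nat_lit 35335245933) (nat_lit 60) (nat_lit 5) (nat_lit 63) (nat_lit 5) (nat_lit 61) (nat_lit 5) (nat_lit 426) (nat_lit 369) (nat_lit 225)) (XT.lf (nat_lit 0) (nat_lit 60385322771) (nat_lit 152) (nat_lit 13061151856) (nat_lit 228) (nat_lit 21676001735) (nat_lit 58) (nat_lit 5) (nat_lit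 60) (nat_lit 5) (nat_lit 61) (nat_lit 5) (nat_lit 427) (nat_lit 369) (nat_lit 224)))))) (XT.nd (nat_lit 48750) (nat_lit 0) (nat_lit 15884) (XT.nd (nat_lit 234) (nat_lit 228) (nat_lit 0) (XT.nd (nat_lit 78) (nat_lit 228) (nat_lit 0) (XT.lf (nat_lit 0) (nat_lit 15379608580) (nat_lit 152) (nat_lit 50318926594) (nat_lit 76) (nat_lit 32792448471) (nat_lit 56) (nat_lit 5) (nat_lit 58) (nat_lit 5) (nat_lit 57) (nat_lit 5) (nat_lit 428) (nat_lit 369) (nat_lit 223)) (XT.nd (nat_lit 78) (nat_lit 76) (nat_lit 0) (XT.lf (nat_lit 0) (nat_lit 34242716826) (nat_lit 152) (nat_lit 20419583650) (nat_lit 228) (nat_lit 47334499871) (nat_lit 54) (nat_lit 5) (nat_lit 56) (nat_lit 5) (nat_lit 57) (nat_lit 5) (nat_lit 429) (nat_lit 369) (nat_lit 222)) (XT.lf (nat_lit 0) (nat_lit 18510279982) (nat_lit 76) (nat_lit 78357012992) (nat_lit 152) (nat_lit 8781870208) (nat_lit 53) (nat_lit 5) (nat_lit 54) (nat_lit 5) (nat_lit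 55) (nat_lit 4) (nat_lit 430) (nat_lit 369) (nat_lit 221)))) (XT.nd (nat_lit 48360) (nat_lit 0) (nat_lit 15732) (XT.lf (nat_lit 0) (nat_lit 526528096) (nat_lit 152) (nat_lit 31465313524) (nat_lit 228) (nat_lit 77455801652) (nat_lit 50) (nat_lit 5) (nat_lit 52) (nat_lit 5) (nat_lit 53) (nat_lit 5) (nat_lit 431) (nat_lit 369) (nat_lit 220)) (XT.nd (nat_lit 78) (nat_lit 0) (nat_lit 76) (XT.lf (nat_lit 0) (nat_lit 421620875) (nat_lit 1292) (nat_lit 4219962011) (nat_lit 1292) (nat_lit 4219962011) (nat_lit 257) (nat_lit 3) (nat_lit 274) (nat_lit 3) (nat_lit 274) (nat_lit 5) (nat_lit 370) (nat_lit 370) (nat_lit 280)) (XT.lf (nat_lit 0) (nat_lit 1312201704) (nat_lit 1216) (nat_lit 12167794142) (nat_lit 1292) (nat_lit 4672622294) (nat_lit 258) (nat_lit 5) (nat_lit 274) (nat_lit 5) (nat_lit 275) (nat_lit 5) (nat_lit 371) (nat_lit 370) (nat_lit 279))))) (XT.nd (nat_lit 234) (nat_lit 0) (nat_lit 152) (XT.nd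 (nat_lit 78) (nat_lit 0) (nat_lit 0) (XT.lf (nat_lit 0) (nat_lit 1995854836) (nat_lit 1216) (nat_lit 15953452295) (nat_lit 1292) (nat_lit 648585619) (nat_lit 259) (nat_lit 5) (nat_lit 275) (nat_lit 5) (nat_lit 276) (nat_lit 5) (nat_lit 372) (nat_lit 370) (nat_lit 278)) (XT.nd (nat_lit 78) (nat_lit 0) (nat_lit 76) (XT.lf (nat_lit 0) (nat_lit 2955230499) (nat_lit 1216) (nat_lit 760131678) (nat_lit 1292) (nat_lit 15342829576) (nat_lit 259) (nat_lit 5) (nat_lit 275) (nat_lit 5) (nat_lit 276) (nat_lit 5) (nat_lit 373) (nat_lit 370) (nat_lit 277)) (XT.lf (nat_lit 0) (nat_lit 4200894374) (nat_lit 1216) (nat_lit 4164281534) (nat_lit 1292) (nat_lit 11169186750) (nat_lit 260) (nat_lit 5) (nat_lit 276) (nat_lit 5) (nat_lit 277) (nat_lit 5) (nat_lit 374) (nat_lit 370) (nat_lit 276)))) (XT.nd (nat_lit 78) (nat_lit 0) (nat_lit 76) (XT.lf (nat_lit 0) (nat_lit 5720753472) (nat_lit 1216) (nat_lit 7613428149)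 (nat_lit 1292) (nat_lit 6693809350) (nat_lit 261) (nat_lit 5) (nat_lit 277) (nat_lit 5) (nat_lit 278) (nat_lit 5) (nat_lit 375) (nat_lit 370) (nat_lit 275)) (XT.nd (nat_lit 78) (nat_lit 0) (nat_lit 0) (XT.lf (nat_lit 0) (nat_lit 7535525954) (nat_lit 1216) (nat_lit 11107641068) (nat_lit 1292) (nat_lit 1896571990) (nat_lit 262) (nat_lit 5) (nat_lit 278) (nat_lit 5) (nat_lit 279) (nat_lit 5) (nat_lit 376) (nat_lit 370) (nat_lit 274)) (XT.lf (nat_lit 76) (nat_lit 6390725226) (nat_lit 0) (nat_lit 3308030049) (nat_lit 1292) (nat_lit 11370593278) (nat_lit 263) (nat_lit 5) (nat_lit 262) (nat_lit 5) (nat_lit 279) (nat_lit 5) (nat_lit 377) (nat_lit 370) (nat_lit 273))))))) (XT.nd (nat_lit 936) (nat_lit 4940) (nat_lit 0) (XT.nd (nat_lit 468) (nat_lit 2736) (nat_lit 0) (XT.nd (nat_lit 234) (nat_lit 2432) (nat_lit 0) (XT.nd (nat_lit 78) (nat_lit 0) (nat_lit 76) (XT.lf (nat_lit 76) (nat_lit 3301351858) (nat_lit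 0) (nat_lit 8922289709) (nat_lit 1292) (nat_lit 9394197514) (nat_lit 264) (nat_lit 5) (nat_lit 263) (nat_lit 5) (nat_lit 280) (nat_lit 5) (nat_lit 378) (nat_lit 370) (nat_lit 272)) (XT.nd (nat_lit 78) (nat_lit 0) (nat_lit 76) (XT.lf (nat_lit 76) (nat_lit 184082656) (nat_lit 0) (nat_lit 14931708258) (nat_lit 1292) (nat_lit 7070737779) (nat_lit 265) (nat_lit 5) (nat_lit 264) (nat_lit 5) (nat_lit 281) (nat_lit 5) (nat_lit 379) (nat_lit 370) (nat_lit 271)) (XT.lf (nat_lit 0) (nat_lit 18429075663) (nat_lit 1216) (nat_lit 2902187399) (nat_lit 76) (nat_lit 1444098762) (nat_lit 265) (nat_lit 5) (nat_lit 281) (nat_lit 5) (nat_lit 266) (nat_lit 5) (nat_lit 380) (nat_lit 370) (nat_lit 270)))) (XT.nd (nat_lit 78) (nat_lit 1368) (nat_lit 0) (XT.lf (nat_lit 0) (nat_lit 17327810112) (nat_lit 1216) (nat_lit 4882889659) (nat_lit 1292) (nat_lit 1173861230) (nat_lit 249) (nat_lit 5) (nat_lit 265) (nat_lit 5) (nat_lit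 266) (nat_lit 5) (nat_lit 381) (nat_lit 370) (nat_lit 269)) (XT.nd (nat_lit 78) (nat_lit 608) (nat_lit 0) (XT.lf (nat_lit 0) (nat_lit 2394981558) (nat_lit 760) (nat_lit 9276834954) (nat_lit 76) (nat_lit 12343389101) (nat_lit 239) (nat_lit 5) (nat_lit 249) (nat_lit 5) (nat_lit 240) (nat_lit 5) (nat_lit 382) (nat_lit 370) (nat_lit 268)) (XT.lf (nat_lit 0) (nat_lit 6390293723) (nat_lit 684) (nat_lit 12539123858) (nat_lit 76) (nat_lit 5739451156) (nat_lit 231) (nat_lit 5) (nat_lit 240) (nat_lit 5) (nat_lit 232) (nat_lit 5) (nat_lit 383) (nat_lit 370) (nat_lit 267))))) (XT.nd (nat_lit 234) (nat_lit 1064) (nat_lit 0) (XT.nd (nat_lit 78) (nat_lit 1064) (nat_lit 0) (XT.lf (nat_lit 0) (nat_lit 9502112010) (nat_lit 608) (nat_lit 1375788330) (nat_lit 684) (nat_lit 14468542708) (nat_lit 223) (nat_lit 5) (nat_lit 231) (nat_lit 5) (nat_lit 232) (nat_lit 5) (nat_lit 384) (nat_lit 370) (nat_lit 266)) (XT.nd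 (nat_lit 78) (nat_lit 532) (nat_lit 0) (XT.lf (nat_lit 0) (nat_lit 6808308900) (nat_lit 532) (nat_lit 9128774379) (nat_lit 608) (nat_lit 10110400624) (nat_lit 216) (nat_lit 5) (nat_lit 223) (nat_lit 5) (nat_lit 224) (nat_lit 5) (nat_lit 385) (nat_lit 370) (nat_lit 265)) (XT.lf (nat_lit 0) (nat_lit 4108514436) (nat_lit 532) (nat_lit 17436149269) (nat_lit 608) (nat_lit 5230053479) (nat_lit 209) (nat_lit 5) (nat_lit 216) (nat_lit 5) (nat_lit 217) (nat_lit 5) (nat_lit 386) (nat_lit 370) (nat_lit 264)))) (XT.nd (nat_lit 78) (nat_lit 532) (nat_lit 0) (XT.lf (nat_lit 0) (nat_lit 202159721) (nat_lit 532) (nat_lit 26126113806) (nat_lit 76) (nat_lit 1200898755) (nat_lit 202) (nat_lit 5) (nat_lit 209) (nat_lit 5) (nat_lit 203) (nat_lit 5) (nat_lit 387) (nat_lit 370) (nat_lit 263)) (XT.nd (nat_lit 78) (nat_lit 532) (nat_lit 0) (XT.lf (nat_lit 0) (nat_lit 6199140894) (nat_lit 532) (nat_lit 1408574046) (nat_lit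 76) (nat_lit 20700045141) (nat_lit 202) (nat_lit 5) (nat_lit 209) (nat_lit 5) (nat_lit 203) (nat_lit 5) (nat_lit 388) (nat_lit 370) (nat_lit 262)) (XT.lf (nat_lit 0) (nat_lit 12843910109) (nat_lit 608) (nat_lit 4215462763) (nat_lit 76) (nat_lit 12055469189) (nat_lit 195) (nat_lit 5) (nat_lit 203) (nat_lit 5) (nat_lit 196) (nat_lit 5) (nat_lit 389) (nat_lit 370) (nat_lit 261)))))) (XT.nd (nat_lit 468) (nat_lit 2280) (nat_lit 0) (XT.nd (nat_lit 234) (nat_lit 1216) (nat_lit 0) (XT.nd (nat_lit 78) (nat_lit 988) (nat_lit 0) (XT.lf (nat_lit 0) (nat_lit 20149741124) (nat_lit 532) (nat_lit 7031125503) (nat_lit 76) (nat_lit 2771549636) (nat_lit 189) (nat_lit 5) (nat_lit 196) (nat_lit 5) (nat_lit 190) (nat_lit 5) (nat_lit 390) (nat_lit 370) (nat_lit 260)) (XT.nd (nat_lit 78) (nat_lit 532) (nat_lit 0) (XT.lf (nat_lit 0) (nat_lit 20895658562) (nat_lit 456) (nat_lit 7332061705) (nat_lit 532) (nat_lit 2591945897)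 (nat_lit 183) (nat_lit 5) (nat_lit 189) (nat_lit 5) (nat_lit 190) (nat_lit 5) (nat_lit 391) (nat_lit 370) (nat_lit 259)) (XT.lf (nat_lit 0) (nat_lit 5260475821) (nat_lit 532) (nat_lit 12907311190) (nat_lit 76) (nat_lit 13549708491) (nat_lit 176) (nat_lit 5) (nat_lit 183) (nat_lit 5) (nat_lit 177) (nat_lit 5) (nat_lit 392) (nat_lit 370) (nat_lit 258)))) (XT.nd (nat_lit 78) (nat_lit 760) (nat_lit 0) (XT.lf (nat_lit 0) (nat_lit 13809633520) (nat_lit 532) (nat_lit 15932831361) (nat_lit 76) (nat_lit 2906252298) (nat_lit 170) (nat_lit 5) (nat_lit 177) (nat_lit 5) (nat_lit 171) (nat_lit 5) (nat_lit 393) (nat_lit 370) (nat_lit 257)) (XT.nd (nat_lit 78) (nat_lit 380) (nat_lit 0) (XT.lf (nat_lit 0) (nat_lit 14555205974) (nat_lit 380) (nat_lit 8679420195) (nat_lit 456) (nat_lit 10378424712) (nat_lit 165) (nat_lit 5) (nat_lit 170) (nat_lit 5) (nat_lit 171) (nat_lit 5) (nat_lit 394) (nat_lit 370) (nat_lit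 256)) (XT.lf (nat_lit 0) (nat_lit 12379195923) (nat_lit 380) (nat_lit 21156677488) (nat_lit 456) (nat_lit 1077579855) (nat_lit 160) (nat_lit 5) (nat_lit 165) (nat_lit 5) (nat_lit 166) (nat_lit 5) (nat_lit 395) (nat_lit 370) (nat_lit 255))))) (XT.nd (nat_lit 234) (nat_lit 1140) (nat_lit 0) (XT.nd (nat_lit 78) (nat_lit 684) (nat_lit 0) (XT.lf (nat_lit 0) (nat_lit 8905420203) (nat_lit 456) (nat_lit 25520278072) (nat_lit 76) (nat_lit 1224074368) (nat_lit 154) (nat_lit 5) (nat_lit 160) (nat_lit 5) (nat_lit 155) (nat_lit 5) (nat_lit 396) (nat_lit 370) (nat_lit 254)) (XT.nd (nat_lit 78) (nat_lit 304) (nat_lit 0) (XT.lf (nat_lit 0) (nat_lit 7758502083) (nat_lit 380) (nat_lit 12117965269) (nat_lit 456) (nat_lit 16845786958) (nat_lit 149) (nat_lit 5) (nat_lit 154) (nat_lit 5) (nat_lit 155) (nat_lit 5) (nat_lit 397) (nat_lit 370) (nat_lit 253)) (XT.lf (nat_lit 0) (nat_lit 5376556795) (nat_lit 304) (nat_lit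 26437145387) (nat_lit 380) (nat_lit 6022130620) (nat_lit 145) (nat_lit 5) (nat_lit 149) (nat_lit 5) (nat_lit 150) (nat_lit 5) (nat_lit 398) (nat_lit 370) (nat_lit 252)))) (XT.nd (nat_lit 156) (nat_lit 380) (nat_lit 0) (XT.nd (nat_lit 78) (nat_lit 304) (nat_lit 0) (XT.lf (nat_lit 0) (nat_lit 2912236431) (nat_lit 380) (nat_lit 2769799405) (nat_lit 456) (nat_lit 33308207843) (nat_lit 139) (nat_lit 5) (nat_lit 144) (nat_lit 5) (nat_lit 145) (nat_lit 5) (nat_lit 399) (nat_lit 370) (nat_lit 251)) (XT.lf (nat_lit 0) (nat_lit 256077519) (nat_lit 304) (nat_lit 18136520133) (nat_lit 380) (nat_lit 21791618261) (nat_lit 135) (nat_lit 5) (nat_lit 139) (nat_lit 5) (nat_lit 140) (nat_lit 5) (nat_lit 400) (nat_lit 370) (nat_lit 250))) (XT.nd (nat_lit 78) (nat_lit 380) (nat_lit 0) (XT.lf (nat_lit 0) (nat_lit 32197637179) (nat_lit 380) (nat_lit 2371601567) (nat_lit 76) (nat_lit 6854881034) (nat_lit 135) (nat_lit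 5) (nat_lit 140) (nat_lit 5) (nat_lit 136) (nat_lit 5) (nat_lit 401) (nat_lit 370) (nat_lit 249)) (XT.lf (nat_lit 0) (nat_lit 4432334556) (nat_lit 380) (nat_lit 5150086883) (nat_lit 76) (nat_lit 33126169825) (nat_lit 130) (nat_lit 5) (nat_lit 135) (nat_lit 5) (nat_lit 131) (nat_lit 5) (nat_lit 402) (nat_lit 370) (nat_lit 248))))))))
noncomputable def xc97 : XT := (XT.nd (nat_lit 1950) (nat_lit 532) (nat_lit 0) (XT.nd (nat_lit 936) (nat_lit 2128) (nat_lit 0) (XT.nd (nat_lit 468) (nat_lit 1444) (nat_lit 0) (XT.nd (nat_lit 234) (nat_lit 836) (nat_lit 0) (XT.nd (nat_lit 78) (nat_lit 608) (nat_lit 0) (XT.lf (nat_lit 0) (nat_lit 19114330386) (nat_lit 380) (nat_lit 8129492978) (nat_lit 76) (nat_lit 16794792079) (nat_lit 126) (nat_lit 5) (nat_lit 131) (nat_lit 5) (nat_lit 127) (nat_lit 5) (nat_lit 403) (nat_lit 370) (nat_lit 247)) (XT.nd (nat_lit 78) (nat_lit 304) (nat_lit 0) (XT.lf (nat_lit 0) (nat_lit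 34256647837) (nat_lit 304) (nat_lit 746694524) (nat_lit 380) (nat_lit 10417612246) (nat_lit 122) (nat_lit 5) (nat_lit 126) (nat_lit 5) (nat_lit 127) (nat_lit 5) (nat_lit 404) (nat_lit 370) (nat_lit 246)) (XT.lf (nat_lit 0) (nat_lit 5376893814) (nat_lit 304) (nat_lit 14481755687) (nat_lit 76) (nat_lit 26992680658) (nat_lit 118) (nat_lit 5) (nat_lit 122) (nat_lit 5) (nat_lit 119) (nat_lit 5) (nat_lit 405) (nat_lit 370) (nat_lit 245)))) (XT.nd (nat_lit 78) (nat_lit 532) (nat_lit 0) (XT.lf (nat_lit 0) (nat_lit 22237093604) (nat_lit 380) (nat_lit 17983269934) (nat_lit 76) (nat_lit 8115025106) (nat_lit 114) (nat_lit 5) (nat_lit 119) (nat_lit 5) (nat_lit 115) (nat_lit 5) (nat_lit 406) (nat_lit 370) (nat_lit 244)) (XT.nd (nat_lit 78) (nat_lit 304) (nat_lit 0) (XT.lf (nat_lit 0) (nat_lit 28179565103) (nat_lit 228) (nat_lit 12376492983) (nat_lit 304) (nat_lit 9319120387) (nat_lit 111) (nat_lit 5) (nat_lit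 114) (nat_lit 5) (nat_lit 115) (nat_lit 5) (nat_lit 407) (nat_lit 370) (nat_lit 243)) (XT.lf (nat_lit 0) (nat_lit 8734693447) (nat_lit 304) (nat_lit 25688370124) (nat_lit 76) (nat_lit 17048573227) (nat_lit 107) (nat_lit 5) (nat_lit 111) (nat_lit 5) (nat_lit 108) (nat_lit 5) (nat_lit 408) (nat_lit 370) (nat_lit 242))))) (XT.nd (nat_lit 234) (nat_lit 684) (nat_lit 0) (XT.nd (nat_lit 78) (nat_lit 532) (nat_lit 0) (XT.lf (nat_lit 0) (nat_lit 23169925553) (nat_lit 228) (nat_lit 4897712902) (nat_lit 304) (nat_lit 25060437239) (nat_lit 104) (nat_lit 5) (nat_lit 107) (nat_lit 5) (nat_lit 108) (nat_lit 5) (nat_lit 409) (nat_lit 370) (nat_lit 241)) (XT.nd (nat_lit 78) (nat_lit 304) (nat_lit 0) (XT.lf (nat_lit 0) (nat_lit 20281635221) (nat_lit 228) (nat_lit 28792888335) (nat_lit 304) (nat_lit 5771595083) (nat_lit 101) (nat_lit 5) (nat_lit 104) (nat_lit 5) (nat_lit 105) (nat_lit 5) (nat_lit 410) (nat_lit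 370) (nat_lit 240)) (XT.lf (nat_lit 0) (nat_lit 14742730012) (nat_lit 304) (nat_lit 39501000970) (nat_lit 76) (nat_lit 2385848445) (nat_lit 97) (nat_lit 5) (nat_lit 101) (nat_lit 5) (nat_lit 98) (nat_lit 5) (nat_lit 411) (nat_lit 370) (nat_lit 239)))) (XT.nd (nat_lit 78) (nat_lit 456) (nat_lit 0) (XT.lf (nat_lit 0) (nat_lit 13540022811) (nat_lit 228) (nat_lit 23399219822) (nat_lit 304) (nat_lit 21537981969) (nat_lit 94) (nat_lit 5) (nat_lit 97) (nat_lit 5) (nat_lit 98) (nat_lit 5) (nat_lit 412) (nat_lit 370) (nat_lit 238)) (XT.nd (nat_lit 78) (nat_lit 228) (nat_lit 0) (XT.lf (nat_lit 0) (nat_lit 422958013) (nat_lit 228) (nat_lit 50659326874) (nat_lit 76) (nat_lit 9317279004) (nat_lit 91) (nat_lit 5) (nat_lit 94) (nat_lit 5) (nat_lit 92) (nat_lit 5) (nat_lit 413) (nat_lit 370) (nat_lit 237)) (XT.lf (nat_lit 0) (nat_lit 5323626916) (nat_lit 228) (nat_lit 18466419596) (nat_lit 304) (nat_lit 38598970700)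 (nat_lit 88) (nat_lit 5) (nat_lit 91) (nat_lit 5) (nat_lit 92) (nat_lit 5) (nat_lit 414) (nat_lit 370) (nat_lit 236)))))) (XT.nd (nat_lit 468) (nat_lit 1140) (nat_lit 0) (XT.nd (nat_lit 234) (nat_lit 532) (nat_lit 0) (XT.nd (nat_lit 78) (nat_lit 304) (nat_lit 0) (XT.lf (nat_lit 0) (nat_lit 547445195) (nat_lit 152) (nat_lit 48456665907) (nat_lit 228) (nat_lit 15453474106) (nat_lit 86) (nat_lit 5) (nat_lit 88) (nat_lit 5) (nat_lit 89) (nat_lit 5) (nat_lit 415) (nat_lit 370) (nat_lit 235)) (XT.nd (nat_lit 78) (nat_lit 228) (nat_lit 0) (XT.lf (nat_lit 0) (nat_lit 9451379541) (nat_lit 228) (nat_lit 4664105615) (nat_lit 76) (nat_lit 52488302192) (nat_lit 85) (nat_lit 5) (nat_lit 88) (nat_lit 5) (nat_lit 86) (nat_lit 5) (nat_lit 416) (nat_lit 370) (nat_lit 234)) (XT.lf (nat_lit 0) (nat_lit 36060763671) (nat_lit 304) (nat_lit 10531563326) (nat_lit 76) (nat_lit 22237016358) (nat_lit 82) (nat_lit 5) (nat_lit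 86) (nat_lit 5) (nat_lit 83) (nat_lit 5) (nat_lit 417) (nat_lit 370) (nat_lit 233)))) (XT.nd (nat_lit 78) (nat_lit 380) (nat_lit 0) (XT.lf (nat_lit 0) (nat_lit 54248339135) (nat_lit 152) (nat_lit 10460178047) (nat_lit 228) (nat_lit 6436423525) (nat_lit 80) (nat_lit 5) (nat_lit 82) (nat_lit 5) (nat_lit 83) (nat_lit 5) (nat_lit 418) (nat_lit 370) (nat_lit 232)) (XT.nd (nat_lit 78) (nat_lit 152) (nat_lit 0) (XT.lf (nat_lit 0) (nat_lit 21652876618) (nat_lit 228) (nat_lit 24153787240) (nat_lit 76) (nat_lit 27737903439) (nat_lit 77) (nat_lit 5) (nat_lit 80) (nat_lit 5) (nat_lit 78) (nat_lit 5) (nat_lit 419) (nat_lit 370) (nat_lit 231)) (XT.lf (nat_lit 0) (nat_lit 43964781080) (nat_lit 152) (nat_lit 7749515152) (nat_lit 228) (nat_lit 24326944573) (nat_lit 75) (nat_lit 5) (nat_lit 77) (nat_lit 5) (nat_lit 78) (nat_lit 5) (nat_lit 420) (nat_lit 370) (nat_lit 230))))) (XT.nd (nat_lit 234) (nat_lit 608)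 (nat_lit 0) (XT.nd (nat_lit 78) (nat_lit 304) (nat_lit 0) (XT.lf (nat_lit 0) (nat_lit 5454516869) (nat_lit 228) (nat_lit 40932651276) (nat_lit 76) (nat_lit 32246392521) (nat_lit 72) (nat_lit 5) (nat_lit 75) (nat_lit 5) (nat_lit 73) (nat_lit 5) (nat_lit 421) (nat_lit 370) (nat_lit 229)) (XT.nd (nat_lit 78) (nat_lit 152) (nat_lit 0) (XT.lf (nat_lit 0) (nat_lit 30553769822) (nat_lit 152) (nat_lit 6374104185) (nat_lit 228) (nat_lit 44399218881) (nat_lit 70) (nat_lit 5) (nat_lit 72) (nat_lit 5) (nat_lit 73) (nat_lit 5) (nat_lit 422) (nat_lit 370) (nat_lit 228)) (XT.lf (nat_lit 0) (nat_lit 22410611711) (nat_lit 152) (nat_lit 48543814670) (nat_lit 228) (nat_lit 13171489925) (nat_lit 68) (nat_lit 5) (nat_lit 70) (nat_lit 5) (nat_lit 71) (nat_lit 5) (nat_lit 423) (nat_lit 370) (nat_lit 227)))) (XT.nd (nat_lit 156) (nat_lit 228) (nat_lit 0) (XT.nd (nat_lit 78) (nat_lit 152) (nat_lit 0) (XT.lf (nat_lit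 0) (nat_lit 13259371567) (nat_lit 152) (nat_lit 6691138844) (nat_lit 228) (nat_lit 67087042699) (nat_lit 65) (nat_lit 5) (nat_lit 67) (nat_lit 5) (nat_lit 68) (nat_lit 5) (nat_lit 424) (nat_lit 370) (nat_lit 226)) (XT.lf (nat_lit 0) (nat_lit 2746060472) (nat_lit 152) (nat_lit 52734931654) (nat_lit 228) (nat_lit 34579124024) (nat_lit 63) (nat_lit 5) (nat_lit 65) (nat_lit 5) (nat_lit 66) (nat_lit 5) (nat_lit 425) (nat_lit 370) (nat_lit 225))) (XT.nd (nat_lit 78) (nat_lit 152) (nat_lit 0) (XT.lf (nat_lit 0) (nat_lit 393661688) (nat_lit 228) (nat_lit 8650327003) (nat_lit 76) (nat_lit 84165024391) (nat_lit 62) (nat_lit 5) (nat_lit 65) (nat_lit 5) (nat_lit 63) (nat_lit 5) (nat_lit 426) (nat_lit 370) (nat_lit 224)) (XT.lf (nat_lit 0) (nat_lit 37489099616) (nat_lit 228) (nat_lit 21792258712) (nat_lit 76) (nat_lit 37191050955) (nat_lit 60) (nat_lit 5) (nat_lit 63) (nat_lit 5) (nat_lit 61) (nat_lit 5)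 (nat_lit 427) (nat_lit 370) (nat_lit 223))))))) (XT.nd (nat_lit 49296) (nat_lit 0) (nat_lit 10336) (XT.nd (nat_lit 48828) (nat_lit 0) (nat_lit 15656) (XT.nd (nat_lit 234) (nat_lit 76) (nat_lit 0) (XT.nd (nat_lit 78) (nat_lit 304) (nat_lit 0) (XT.lf (nat_lit 0) (nat_lit 63604232864) (nat_lit 152) (nat_lit 13624189771) (nat_lit 228) (nat_lit 22646879562) (nat_lit 58) (nat_lit 5) (nat_lit 60) (nat_lit 5) (nat_lit 61) (nat_lit 5) (nat_lit 428) (nat_lit 370) (nat_lit 222)) (XT.nd (nat_lit 78) (nat_lit 152) (nat_lit 0) (XT.lf (nat_lit 0) (nat_lit 16256773189) (nat_lit 152) (nat_lit 52636427163) (nat_lit 76) (nat_lit 34519078393) (nat_lit 56) (nat_lit 5) (nat_lit 58) (nat_lit 5) (nat_lit 57) (nat_lit 5) (nat_lit 429) (nat_lit 370) (nat_lit 221)) (XT.lf (nat_lit 0) (nat_lit 36147610020) (nat_lit 152) (nat_lit 21352690934) (nat_lit 228) (nat_lit 49593184698) (nat_lit 54) (nat_lit 5) (nat_lit 56) (nat_lit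 5) (nat_lit 57) (nat_lit 5) (nat_lit 430) (nat_lit 370) (nat_lit 220)))) (XT.nd (nat_lit 48438) (nat_lit 0) (nat_lit 15504) (XT.lf (nat_lit 0) (nat_lit 19625269801) (nat_lit 76) (nat_lit 82187904544) (nat_lit 152) (nat_lit 9115363733) (nat_lit 53) (nat_lit 5) (nat_lit 54) (nat_lit 5) (nat_lit 55) (nat_lit 4) (nat_lit 431) (nat_lit 370) (nat_lit 219)) (XT.nd (nat_lit 78) (nat_lit 0) (nat_lit 76) (XT.lf (nat_lit 0) (nat_lit 781415313) (nat_lit 1292) (nat_lit 4256467326) (nat_lit 1292) (nat_lit 4256467326) (nat_lit 257) (nat_lit 3) (nat_lit 274) (nat_lit 3) (nat_lit 274) (nat_lit 5) (nat_lit 371) (nat_lit 371) (nat_lit 278)) (XT.lf (nat_lit 0) (nat_lit 2023264087) (nat_lit 1216) (nat_lit 12414563494) (nat_lit 1292) (nat_lit 4602846893) (nat_lit 258) (nat_lit 5) (nat_lit 274) (nat_lit 5) (nat_lit 275) (nat_lit 5) (nat_lit 372) (nat_lit 371) (nat_lit 277))))) (XT.nd (nat_lit 234) (nat_lit 0) (nat_lit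 152) (XT.nd (nat_lit 78) (nat_lit 0) (nat_lit 0) (XT.lf (nat_lit 0) (nat_lit 2711175512) (nat_lit 1216) (nat_lit 16378561572) (nat_lit 1292) (nat_lit 419383509) (nat_lit 259) (nat_lit 5) (nat_lit 275) (nat_lit 5) (nat_lit 276) (nat_lit 5) (nat_lit 373) (nat_lit 371) (nat_lit 276)) (XT.nd (nat_lit 78) (nat_lit 0) (nat_lit 76) (XT.lf (nat_lit 0) (nat_lit 3689209104) (nat_lit 1216) (nat_lit 443316036) (nat_lit 1292) (nat_lit 15860798302) (nat_lit 259) (nat_lit 5) (nat_lit 275) (nat_lit 5) (nat_lit 276) (nat_lit 5) (nat_lit 374) (nat_lit 371) (nat_lit 275)) (XT.lf (nat_lit 0) (nat_lit 4970468486) (nat_lit 1216) (nat_lit 4008727982) (nat_lit 1292) (nat_lit 11514916168) (nat_lit 260) (nat_lit 5) (nat_lit 276) (nat_lit 5) (nat_lit 277) (nat_lit 5) (nat_lit 375) (nat_lit 371) (nat_lit 274)))) (XT.nd (nat_lit 78) (nat_lit 0) (nat_lit 76) (XT.lf (nat_lit 0) (nat_lit 6541314261) (nat_lit 1216) (nat_lit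 7622738666) (nat_lit 1292) (nat_lit 6849128305) (nat_lit 261) (nat_lit 5) (nat_lit 277) (nat_lit 5) (nat_lit 278) (nat_lit 5) (nat_lit 376) (nat_lit 371) (nat_lit 273)) (XT.nd (nat_lit 78) (nat_lit 0) (nat_lit 0) (XT.lf (nat_lit 0) (nat_lit 8423379910) (nat_lit 1216) (nat_lit 11285306381) (nat_lit 1292) (nat_lit 1842542016) (nat_lit 262) (nat_lit 5) (nat_lit 278) (nat_lit 5) (nat_lit 279) (nat_lit 5) (nat_lit 377) (nat_lit 371) (nat_lit 272)) (XT.lf (nat_lit 76) (nat_lit 7077151053) (nat_lit 0) (nat_lit 3596809378) (nat_lit 1292) (nat_lit 11433990073) (nat_lit 263) (nat_lit 5) (nat_lit 262) (nat_lit 5) (nat_lit 279) (nat_lit 5) (nat_lit 378) (nat_lit 371) (nat_lit 271)))))) (XT.nd (nat_lit 468) (nat_lit 3192) (nat_lit 0) (XT.nd (nat_lit 234) (nat_lit 2432) (nat_lit 0) (XT.nd (nat_lit 78) (nat_lit 0) (nat_lit 76) (XT.lf (nat_lit 76) (nat_lit 3838383549) (nat_lit 0) (nat_lit 9465807463) (nat_lit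 1292) (nat_lit 9380309047) (nat_lit 264) (nat_lit 5) (nat_lit 263) (nat_lit 5) (nat_lit 280) (nat_lit 5) (nat_lit 379) (nat_lit 371) (nat_lit 270)) (XT.nd (nat_lit 78) (nat_lit 0) (nat_lit 76) (XT.lf (nat_lit 76) (nat_lit 569321121) (nat_lit 0) (nat_lit 15751998836) (nat_lit 1292) (nat_lit 6960900170) (nat_lit 265) (nat_lit 5) (nat_lit 264) (nat_lit 5) (nat_lit 281) (nat_lit 5) (nat_lit 380) (nat_lit 371) (nat_lit 269)) (XT.lf (nat_lit 0) (nat_lit 19778178016) (nat_lit 1216) (nat_lit 2675508358) (nat_lit 76) (nat_lit 1447478070) (nat_lit 265) (nat_lit 5) (nat_lit 281) (nat_lit 5) (nat_lit 266) (nat_lit 5) (nat_lit 381) (nat_lit 371) (nat_lit 268)))) (XT.nd (nat_lit 78) (nat_lit 1368) (nat_lit 0) (XT.lf (nat_lit 0) (nat_lit 18555331788) (nat_lit 1216) (nat_lit 5176658736) (nat_lit 1292) (nat_lit 809346315) (nat_lit 249) (nat_lit 5) (nat_lit 265) (nat_lit 5) (nat_lit 266) (nat_lit 5) (nat_lit 382)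 (nat_lit 371) (nat_lit 267)) (XT.nd (nat_lit 78) (nat_lit 608) (nat_lit 0) (XT.lf (nat_lit 0) (nat_lit 2912989195) (nat_lit 760) (nat_lit 9369292762) (nat_lit 76) (nat_lit 12921616403) (nat_lit 239) (nat_lit 5) (nat_lit 249) (nat_lit 5) (nat_lit 240) (nat_lit 5) (nat_lit 383) (nat_lit 371) (nat_lit 266)) (XT.lf (nat_lit 0) (nat_lit 7092358212) (nat_lit 684) (nat_lit 12793533139) (nat_lit 76) (nat_lit 6004830256) (nat_lit 231) (nat_lit 5) (nat_lit 240) (nat_lit 5) (nat_lit 232) (nat_lit 5) (nat_lit 384) (nat_lit 371) (nat_lit 265))))) (XT.nd (nat_lit 234) (nat_lit 1520) (nat_lit 0) (XT.nd (nat_lit 78) (nat_lit 1064) (nat_lit 0) (XT.lf (nat_lit 0) (nat_lit 10339085540) (nat_lit 608) (nat_lit 1450521459) (nat_lit 684) (nat_lit 14813015212) (nat_lit 223) (nat_lit 5) (nat_lit 231) (nat_lit 5) (nat_lit 232) (nat_lit 5) (nat_lit 385) (nat_lit 371) (nat_lit 264)) (XT.nd (nat_lit 78) (nat_lit 532) (nat_lit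 0) (XT.lf (nat_lit 0) (nat_lit 7511098478) (nat_lit 532) (nat_lit 9576564715) (nat_lit 608) (nat_lit 10251479666) (nat_lit 216) (nat_lit 5) (nat_lit 223) (nat_lit 5) (nat_lit 224) (nat_lit 5) (nat_lit 386) (nat_lit 371) (nat_lit 263)) (XT.lf (nat_lit 0) (nat_lit 4676254247) (nat_lit 532) (nat_lit 18286086268) (nat_lit 608) (nat_lit 5140800679) (nat_lit 209) (nat_lit 5) (nat_lit 216) (nat_lit 5) (nat_lit 217) (nat_lit 5) (nat_lit 387) (nat_lit 371) (nat_lit 262)))) (XT.nd (nat_lit 156) (nat_lit 988) (nat_lit 0) (XT.nd (nat_lit 78) (nat_lit 0) (nat_lit 0) (XT.lf (nat_lit 0) (nat_lit 543515869) (nat_lit 532) (nat_lit 27063995409) (nat_lit 76) (nat_lit 1288091059) (nat_lit 202) (nat_lit 5) (nat_lit 209) (nat_lit 5) (nat_lit 203) (nat_lit 5) (nat_lit 388) (nat_lit 371) (nat_lit 261)) (XT.lf (nat_lit 0) (nat_lit 6824572378) (nat_lit 532) (nat_lit 1128122665) (nat_lit 76) (nat_lit 21760902033) (nat_lit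 202) (nat_lit 5) (nat_lit 209) (nat_lit 5) (nat_lit 203) (nat_lit 5) (nat_lit 389) (nat_lit 371) (nat_lit 260))) (XT.nd (nat_lit 78) (nat_lit 456) (nat_lit 0) (XT.lf (nat_lit 0) (nat_lit 13790190225) (nat_lit 608) (nat_lit 4076575812) (nat_lit 76) (nat_lit 12694612946) (nat_lit 195) (nat_lit 5) (nat_lit 203) (nat_lit 5) (nat_lit 196) (nat_lit 5) (nat_lit 390) (nat_lit 371) (nat_lit 259)) (XT.lf (nat_lit 0) (nat_lit 21450546933) (nat_lit 532) (nat_lit 7034629404) (nat_lit 76) (nat_lit 2955982468) (nat_lit 189) (nat_lit 5) (nat_lit 196) (nat_lit 5) (nat_lit 190) (nat_lit 5) (nat_lit 391) (nat_lit 371) (nat_lit 258))))))))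
noncomputable def xc98 : XT := (XT.nd (nat_lit 1950) (nat_lit 2432) (nat_lit 0) (XT.nd (nat_lit 936) (nat_lit 3344) (nat_lit 0) (XT.nd (nat_lit 468) (nat_lit 1824) (nat_lit 0) (XT.nd (nat_lit 234) (nat_lit 1216) (nat_lit 0) (XT.nd (nat_lit 78) (nat_lit 988) (nat_lit 0) (XT.lf (nat_lit 0) (nat_lit 22278517013) (nat_lit 456) (nat_lit 7643190250) (nat_lit 532) (nat_lit 2430389220) (nat_lit 183) (nat_lit 5) (nat_lit 189) (nat_lit 5) (nat_lit 190) (nat_lit 5) (nat_lit 392) (nat_lit 371) (nat_lit 257)) (XT.nd (nat_lit 78) (nat_lit 456) (nat_lit 0) (XT.lf (nat_lit 0) (nat_lit 5799154593) (nat_lit 532) (nat_lit 13210946857) (nat_lit 76) (nat_lit 14284929866) (nat_lit 176) (nat_lit 5) (nat_lit 183) (nat_lit 5) (nat_lit 177) (nat_lit 5) (nat_lit 393) (nat_lit 371) (nat_lit 256)) (XT.lf (nat_lit 0) (nat_lit 14766471003) (nat_lit 532) (nat_lit 16390137565) (nat_lit 76) (nat_lit 3116487785) (nat_lit 170)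 (nat_lit 5) (nat_lit 177) (nat_lit 5) (nat_lit 171) (nat_lit 5) (nat_lit 394) (nat_lit 371) (nat_lit 255)))) (XT.nd (nat_lit 78) (nat_lit 836) (nat_lit 0) (XT.lf (nat_lit 0) (nat_lit 15612574657) (nat_lit 380) (nat_lit 9040623415) (nat_lit 456) (nat_lit 10632737268) (nat_lit 165) (nat_lit 5) (nat_lit 170) (nat_lit 5) (nat_lit 171) (nat_lit 5) (nat_lit 395) (nat_lit 371) (nat_lit 254)) (XT.nd (nat_lit 78) (nat_lit 456) (nat_lit 0) (XT.lf (nat_lit 0) (nat_lit 13325181922) (nat_lit 380) (nat_lit 22135905006) (nat_lit 456) (nat_lit 875526533) (nat_lit 160) (nat_lit 5) (nat_lit 165) (nat_lit 5) (nat_lit 166) (nat_lit 5) (nat_lit 396) (nat_lit 371) (nat_lit 253)) (XT.lf (nat_lit 0) (nat_lit 9593554098) (nat_lit 456) (nat_lit 26467187931) (nat_lit 76) (nat_lit 1364177997) (nat_lit 154) (nat_lit 5) (nat_lit 160) (nat_lit 5) (nat_lit 155) (nat_lit 5) (nat_lit 397) (nat_lit 371) (nat_lit 252))))) (XT.nd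 (nat_lit 234) (nat_lit 684) (nat_lit 0) (XT.nd (nat_lit 78) (nat_lit 760) (nat_lit 0) (XT.lf (nat_lit 0) (nat_lit 8466097530) (nat_lit 380) (nat_lit 12638564043) (nat_lit 456) (nat_lit 17446621602) (nat_lit 149) (nat_lit 5) (nat_lit 154) (nat_lit 5) (nat_lit 155) (nat_lit 5) (nat_lit 398) (nat_lit 371) (nat_lit 251)) (XT.nd (nat_lit 78) (nat_lit 456) (nat_lit 0) (XT.lf (nat_lit 0) (nat_lit 5961976038) (nat_lit 304) (nat_lit 27669445766) (nat_lit 380) (nat_lit 6089341390) (nat_lit 145) (nat_lit 5) (nat_lit 149) (nat_lit 5) (nat_lit 150) (nat_lit 5) (nat_lit 399) (nat_lit 371) (nat_lit 250)) (XT.lf (nat_lit 0) (nat_lit 3369845299) (nat_lit 380) (nat_lit 2817702495) (nat_lit 456) (nat_lit 34745519333) (nat_lit 139) (nat_lit 5) (nat_lit 144) (nat_lit 5) (nat_lit 145) (nat_lit 5) (nat_lit 400) (nat_lit 371) (nat_lit 249)))) (XT.nd (nat_lit 78) (nat_lit 380) (nat_lit 0) (XT.lf (nat_lit 0) (nat_lit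 577586298) (nat_lit 304) (nat_lit 18949304833) (nat_lit 380) (nat_lit 22660051450) (nat_lit 135) (nat_lit 5) (nat_lit 139) (nat_lit 5) (nat_lit 140) (nat_lit 5) (nat_lit 401) (nat_lit 371) (nat_lit 248)) (XT.nd (nat_lit 78) (nat_lit 380) (nat_lit 0) (XT.lf (nat_lit 0) (nat_lit 34012821495) (nat_lit 380) (nat_lit 2190862553) (nat_lit 76) (nat_lit 7285440535) (nat_lit 135) (nat_lit 5) (nat_lit 140) (nat_lit 5) (nat_lit 136) (nat_lit 5) (nat_lit 402) (nat_lit 371) (nat_lit 247)) (XT.lf (nat_lit 0) (nat_lit 4854275095) (nat_lit 380) (nat_lit 5112826279) (nat_lit 76) (nat_lit 34870870799) (nat_lit 130) (nat_lit 5) (nat_lit 135) (nat_lit 5) (nat_lit 131) (nat_lit 5) (nat_lit 403) (nat_lit 371) (nat_lit 246)))))) (XT.nd (nat_lit 468) (nat_lit 1596) (nat_lit 0) (XT.nd (nat_lit 234) (nat_lit 836) (nat_lit 0) (XT.nd (nat_lit 78) (nat_lit 608) (nat_lit 0) (XT.lf (nat_lit 0) (nat_lit 20264475574) (nat_lit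 380) (nat_lit 8244700713) (nat_lit 76) (nat_lit 17725499983) (nat_lit 126) (nat_lit 5) (nat_lit 131) (nat_lit 5) (nat_lit 127) (nat_lit 5) (nat_lit 404) (nat_lit 371) (nat_lit 245)) (XT.nd (nat_lit 78) (nat_lit 304) (nat_lit 0) (XT.lf (nat_lit 0) (nat_lit 36252398035) (nat_lit 304) (nat_lit 689001183) (nat_lit 380) (nat_lit 10744931106) (nat_lit 122) (nat_lit 5) (nat_lit 126) (nat_lit 5) (nat_lit 127) (nat_lit 5) (nat_lit 405) (nat_lit 371) (nat_lit 244)) (XT.lf (nat_lit 0) (nat_lit 5830077035) (nat_lit 304) (nat_lit 14922711949) (nat_lit 76) (nat_lit 28435544869) (nat_lit 118) (nat_lit 5) (nat_lit 122) (nat_lit 5) (nat_lit 119) (nat_lit 5) (nat_lit 406) (nat_lit 371) (nat_lit 243)))) (XT.nd (nat_lit 78) (nat_lit 532) (nat_lit 0) (XT.lf (nat_lit 0) (nat_lit 23528083019) (nat_lit 380) (nat_lit 18602971201) (nat_lit 76) (nat_lit 8615698711) (nat_lit 114) (nat_lit 5) (nat_lit 119) (nat_lit 5) (nat_lit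 115) (nat_lit 5) (nat_lit 407) (nat_lit 371) (nat_lit 242)) (XT.nd (nat_lit 78) (nat_lit 304) (nat_lit 0) (XT.lf (nat_lit 0) (nat_lit 29859994860) (nat_lit 228) (nat_lit 12897079999) (nat_lit 304) (nat_lit 9606636501) (nat_lit 111) (nat_lit 5) (nat_lit 114) (nat_lit 5) (nat_lit 115) (nat_lit 5) (nat_lit 408) (nat_lit 371) (nat_lit 241)) (XT.lf (nat_lit 0) (nat_lit 9341562979) (nat_lit 304) (nat_lit 26701545842) (nat_lit 76) (nat_lit 17996978382) (nat_lit 107) (nat_lit 5) (nat_lit 111) (nat_lit 5) (nat_lit 108) (nat_lit 5) (nat_lit 409) (nat_lit 371) (nat_lit 240))))) (XT.nd (nat_lit 234) (nat_lit 836) (nat_lit 0) (XT.nd (nat_lit 78) (nat_lit 532) (nat_lit 0) (XT.lf (nat_lit 0) (nat_lit 24591889500) (nat_lit 228) (nat_lit 5043696690) (nat_lit 304) (nat_lit 26143930229) (nat_lit 104) (nat_lit 5) (nat_lit 107) (nat_lit 5) (nat_lit 108) (nat_lit 5) (nat_lit 410) (nat_lit 371) (nat_lit 239)) (XT.nd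 (nat_lit 78) (nat_lit 304) (nat_lit 0) (XT.lf (nat_lit 0) (nat_lit 21555529744) (nat_lit 228) (nat_lit 30132852247) (nat_lit 304) (nat_lit 5895213769) (nat_lit 101) (nat_lit 5) (nat_lit 104) (nat_lit 5) (nat_lit 105) (nat_lit 5) (nat_lit 411) (nat_lit 371) (nat_lit 238)) (XT.lf (nat_lit 0) (nat_lit 15637314595) (nat_lit 304) (nat_lit 41216769570) (nat_lit 76) (nat_lit 2602227820) (nat_lit 97) (nat_lit 5) (nat_lit 101) (nat_lit 5) (nat_lit 98) (nat_lit 5) (nat_lit 412) (nat_lit 371) (nat_lit 237)))) (XT.nd (nat_lit 156) (nat_lit 380) (nat_lit 0) (XT.nd (nat_lit 78) (nat_lit 228) (nat_lit 0) (XT.lf (nat_lit 0) (nat_lit 14468873150) (nat_lit 228) (nat_lit 24469703099) (nat_lit 304) (nat_lit 22457916562) (nat_lit 94) (nat_lit 5) (nat_lit 97) (nat_lit 5) (nat_lit 98) (nat_lit 5) (nat_lit 413) (nat_lit 371) (nat_lit 236)) (XT.lf (nat_lit 0) (nat_lit 594007661) (nat_lit 228) (nat_lit 52941127125) (nat_lit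 76) (nat_lit 9879890017) (nat_lit 91) (nat_lit 5) (nat_lit 94) (nat_lit 5) (nat_lit 92) (nat_lit 5) (nat_lit 414) (nat_lit 371) (nat_lit 235))) (XT.nd (nat_lit 78) (nat_lit 152) (nat_lit 0) (XT.lf (nat_lit 0) (nat_lit 5833774728) (nat_lit 228) (nat_lit 19290882834) (nat_lit 304) (nat_lit 40379437983) (nat_lit 88) (nat_lit 5) (nat_lit 91) (nat_lit 5) (nat_lit 92) (nat_lit 5) (nat_lit 415) (nat_lit 371) (nat_lit 234)) (XT.lf (nat_lit 0) (nat_lit 815114820) (nat_lit 152) (nat_lit 50780615537) (nat_lit 228) (nat_lit 16080473352) (nat_lit 86) (nat_lit 5) (nat_lit 88) (nat_lit 5) (nat_lit 89) (nat_lit 5) (nat_lit 416) (nat_lit 371) (nat_lit 233))))))) (XT.nd (nat_lit 936) (nat_lit 456) (nat_lit 0) (XT.nd (nat_lit 468) (nat_lit 912) (nat_lit 0) (XT.nd (nat_lit 234) (nat_lit 608) (nat_lit 0) (XT.nd (nat_lit 78) (nat_lit 380) (nat_lit 0) (XT.lf (nat_lit 0) (nat_lit 10059978828) (nat_lit 228) (nat_lit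 4665732027) (nat_lit 76) (nat_lit 55204167986) (nat_lit 85) (nat_lit 5) (nat_lit 88) (nat_lit 5) (nat_lit 86) (nat_lit 5) (nat_lit 417) (nat_lit 371) (nat_lit 232)) (XT.nd (nat_lit 78) (nat_lit 152) (nat_lit 0) (XT.lf (nat_lit 0) (nat_lit 37996412941) (nat_lit 304) (nat_lit 10830129322) (nat_lit 76) (nat_lit 23440273768) (nat_lit 82) (nat_lit 5) (nat_lit 86) (nat_lit 5) (nat_lit 83) (nat_lit 5) (nat_lit 418) (nat_lit 371) (nat_lit 231)) (XT.lf (nat_lit 0) (nat_lit 57182232338) (nat_lit 152) (nat_lit 10890135942) (nat_lit 228) (nat_lit 6625951317) (nat_lit 80) (nat_lit 5) (nat_lit 82) (nat_lit 5) (nat_lit 83) (nat_lit 5) (nat_lit 419) (nat_lit 371) (nat_lit 230)))) (XT.nd (nat_lit 78) (nat_lit 380) (nat_lit 0) (XT.lf (nat_lit 0) (nat_lit 22862032314) (nat_lit 228) (nat_lit 25140928423) (nat_lit 76) (nat_lit 29215025339) (nat_lit 77) (nat_lit 5) (nat_lit 80) (nat_lit 5) (nat_lit 78) (nat_lit 5)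 (nat_lit 420) (nat_lit 371) (nat_lit 229)) (XT.nd (nat_lit 78) (nat_lit 228) (nat_lit 0) (XT.lf (nat_lit 0) (nat_lit 46377246344) (nat_lit 152) (nat_lit 8045311465) (nat_lit 228) (nat_lit 25417055083) (nat_lit 75) (nat_lit 5) (nat_lit 77) (nat_lit 5) (nat_lit 78) (nat_lit 5) (nat_lit 421) (nat_lit 371) (nat_lit 228)) (XT.lf (nat_lit 0) (nat_lit 5848016284) (nat_lit 228) (nat_lit 42766054057) (nat_lit 76) (nat_lit 33947532622) (nat_lit 72) (nat_lit 5) (nat_lit 75) (nat_lit 5) (nat_lit 73) (nat_lit 5) (nat_lit 422) (nat_lit 371) (nat_lit 227))))) (XT.nd (nat_lit 234) (nat_lit 380) (nat_lit 0) (XT.nd (nat_lit 78) (nat_lit 380) (nat_lit 0) (XT.lf (nat_lit 0) (nat_lit 32288575908) (nat_lit 152) (nat_lit 6602705189) (nat_lit 228) (nat_lit 46498644100) (nat_lit 70) (nat_lit 5) (nat_lit 72) (nat_lit 5) (nat_lit 73) (nat_lit 5) (nat_lit 423) (nat_lit 371) (nat_lit 226)) (XT.nd (nat_lit 78) (nat_lit 228)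 (nat_lit 0) (XT.lf (nat_lit 0) (nat_lit 23734902966) (nat_lit 152) (nat_lit 50881469623) (nat_lit 228) (nat_lit 13712401422) (nat_lit 68) (nat_lit 5) (nat_lit 70) (nat_lit 5) (nat_lit 71) (nat_lit 5) (nat_lit 424) (nat_lit 371) (nat_lit 225)) (XT.lf (nat_lit 0) (nat_lit 14122500987) (nat_lit 152) (nat_lit 6937332319) (nat_lit 228) (nat_lit 70326233030) (nat_lit 65) (nat_lit 5) (nat_lit 67) (nat_lit 5) (nat_lit 68) (nat_lit 5) (nat_lit 425) (nat_lit 371) (nat_lit 224)))) (XT.nd (nat_lit 78) (nat_lit 228) (nat_lit 0) (XT.lf (nat_lit 0) (nat_lit 3080229700) (nat_lit 152) (nat_lit 55283987076) (nat_lit 228) (nat_lit 36195619922) (nat_lit 63) (nat_lit 5) (nat_lit 65) (nat_lit 5) (nat_lit 66) (nat_lit 5) (nat_lit 426) (nat_lit 371) (nat_lit 223)) (XT.nd (nat_lit 78) (nat_lit 152) (nat_lit 0) (XT.lf (nat_lit 0) (nat_lit 518359818) (nat_lit 228) (nat_lit 8893252471) (nat_lit 76) (nat_lit 88454691743)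 (nat_lit 62) (nat_lit 5) (nat_lit 65) (nat_lit 5) (nat_lit 63) (nat_lit 5) (nat_lit 427) (nat_lit 371) (nat_lit 222)) (XT.lf (nat_lit 0) (nat_lit 39466130957) (nat_lit 228) (nat_lit 22695444807) (nat_lit 76) (nat_lit 39131367879) (nat_lit 60) (nat_lit 5) (nat_lit 63) (nat_lit 5) (nat_lit 61) (nat_lit 5) (nat_lit 428) (nat_lit 371) (nat_lit 221)))))) (XT.nd (nat_lit 48906) (nat_lit 0) (nat_lit 15580) (XT.nd (nat_lit 48672) (nat_lit 0) (nat_lit 15428) (XT.nd (nat_lit 78) (nat_lit 304) (nat_lit 0) (XT.lf (nat_lit 0) (nat_lit 66965527459) (nat_lit 152) (nat_lit 14223748758) (nat_lit 228) (nat_lit 23676799723) (nat_lit 58) (nat_lit 5) (nat_lit 60) (nat_lit 5) (nat_lit 61) (nat_lit 5) (nat_lit 429) (nat_lit 371) (nat_lit 220)) (XT.nd (nat_lit 78) (nat_lit 152) (nat_lit 0) (XT.lf (nat_lit 0) (nat_lit 17167738090) (nat_lit 152) (nat_lit 55088252367) (nat_lit 76) (nat_lit 36323950678) (nat_lit 56) (nat_lit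 5) (nat_lit 58) (nat_lit 5) (nat_lit 57) (nat_lit 5) (nat_lit 430) (nat_lit 371) (nat_lit 219)) (XT.lf (nat_lit 0) (nat_lit 38129827122) (nat_lit 152) (nat_lit 22340623078) (nat_lit 228) (nat_lit 51974848316) (nat_lit 54) (nat_lit 5) (nat_lit 56) (nat_lit 5) (nat_lit 57) (nat_lit 5) (nat_lit 431) (nat_lit 371) (nat_lit 218)))) (XT.nd (nat_lit 78) (nat_lit 0) (nat_lit 76) (XT.lf (nat_lit 0) (nat_lit 1127709111) (nat_lit 1292) (nat_lit 4311020591) (nat_lit 1292) (nat_lit 4311020591) (nat_lit 257) (nat_lit 3) (nat_lit 274) (nat_lit 3) (nat_lit 274) (nat_lit 5) (nat_lit 372) (nat_lit 372) (nat_lit 276)) (XT.nd (nat_lit 78) (nat_lit 0) (nat_lit 76) (XT.lf (nat_lit 0) (nat_lit 2709871553) (nat_lit 1216) (nat_lit 12707291347) (nat_lit 1292) (nat_lit 4557790584) (nat_lit 258) (nat_lit 5) (nat_lit 274) (nat_lit 5) (nat_lit 275) (nat_lit 5) (nat_lit 373) (nat_lit 372) (nat_lit 275)) (XT.lf (nat_lit 0)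 (nat_lit 3405036269) (nat_lit 1216) (nat_lit 16859563720) (nat_lit 1292) (nat_lit 203045301) (nat_lit 259) (nat_lit 5) (nat_lit 275) (nat_lit 5) (nat_lit 276) (nat_lit 5) (nat_lit 374) (nat_lit 372) (nat_lit 274))))) (XT.nd (nat_lit 234) (nat_lit 0) (nat_lit 228) (XT.nd (nat_lit 78) (nat_lit 0) (nat_lit 76) (XT.lf (nat_lit 0) (nat_lit 4405385732) (nat_lit 1216) (nat_lit 143647618) (nat_lit 1292) (nat_lit 16427831186) (nat_lit 259) (nat_lit 5) (nat_lit 275) (nat_lit 5) (nat_lit 276) (nat_lit 5) (nat_lit 375) (nat_lit 372) (nat_lit 273)) (XT.nd (nat_lit 78) (nat_lit 0) (nat_lit 76) (XT.lf (nat_lit 0) (nat_lit 5726501564) (nat_lit 1216) (nat_lit 3879216419) (nat_lit 1292) (nat_lit 11897709669) (nat_lit 260) (nat_lit 5) (nat_lit 276) (nat_lit 5) (nat_lit 277) (nat_lit 5) (nat_lit 376) (nat_lit 372) (nat_lit 272)) (XT.lf (nat_lit 0) (nat_lit 7353208197) (nat_lit 1216) (nat_lit 7667040326) (nat_lit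 1292) (nat_lit 7028889471) (nat_lit 261) (nat_lit 5) (nat_lit 277) (nat_lit 5) (nat_lit 278) (nat_lit 5) (nat_lit 377) (nat_lit 372) (nat_lit 271)))) (XT.nd (nat_lit 156) (nat_lit 0) (nat_lit 76) (XT.nd (nat_lit 78) (nat_lit 0) (nat_lit 0) (XT.lf (nat_lit 0) (nat_lit 9308111407) (nat_lit 1216) (nat_lit 11506971481) (nat_lit 1292) (nat_lit 1799650002) (nat_lit 262) (nat_lit 5) (nat_lit 278) (nat_lit 5) (nat_lit 279) (nat_lit 5) (nat_lit 378) (nat_lit 372) (nat_lit 270)) (XT.lf (nat_lit 76) (nat_lit 7763788258) (nat_lit 0) (nat_lit 3888557174) (nat_lit 1292) (nat_lit 11547519173) (nat_lit 263) (nat_lit 5) (nat_lit 262) (nat_lit 5) (nat_lit 279) (nat_lit 5) (nat_lit 379) (nat_lit 372) (nat_lit 269))) (XT.nd (nat_lit 78) (nat_lit 0) (nat_lit 76) (XT.lf (nat_lit 76) (nat_lit 4367685128) (nat_lit 0) (nat_lit 10027445471) (nat_lit 1292) (nat_lit 9410686546) (nat_lit 264) (nat_lit 5) (nat_lit 263) (nat_lit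 5) (nat_lit 280) (nat_lit 5) (nat_lit 380) (nat_lit 372) (nat_lit 268)) (XT.lf (nat_lit 76) (nat_lit 938861401) (nat_lit 0) (nat_lit 16606451535) (nat_lit 1292) (nat_lit 6888650850) (nat_lit 265) (nat_lit 5) (nat_lit 264) (nat_lit 5) (nat_lit 281) (nat_lit 5) (nat_lit 381) (nat_lit 372) (nat_lit 267))))))))
noncomputable def xc99 : XT := (XT.nd (nat_lit 1950) (nat_lit 5016) (nat_lit 0) (XT.nd (nat_lit 936) (nat_lit 4636) (nat_lit 0) (XT.nd (nat_lit 468) (nat_lit 2508) (nat_lit 0) (XT.nd (nat_lit 234) (nat_lit 1748) (nat_lit 0) (XT.nd (nat_lit 78) (nat_lit 1976) (nat_lit 0) (XT.lf (nat_lit 0) (nat_lit 21154976775) (nat_lit 1216) (nat_lit 2472060727) (nat_lit 76) (nat_lit 1457425098) (nat_lit 265) (nat_lit 5) (nat_lit 281) (nat_lit 5) (nat_lit 266) (nat_lit 5) (nat_lit 382) (nat_lit 372) (nat_lit 266)) (XT.nd (nat_lit 78) (nat_lit 760) (nat_lit 0) (XT.lf (nat_lit 0) (nat_lit 19810654995) (nat_lit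 1216) (nat_lit 5480502643) (nat_lit 1292) (nat_lit 465951521) (nat_lit 249) (nat_lit 5) (nat_lit 265) (nat_lit 5) (nat_lit 266) (nat_lit 5) (nat_lit 383) (nat_lit 372) (nat_lit 265)) (XT.lf (nat_lit 0) (nat_lit 3419870909) (nat_lit 760) (nat_lit 9500901219) (nat_lit 76) (nat_lit 13532375542) (nat_lit 239) (nat_lit 5) (nat_lit 249) (nat_lit 5) (nat_lit 240) (nat_lit 5) (nat_lit 384) (nat_lit 372) (nat_lit 264)))) (XT.nd (nat_lit 78) (nat_lit 1140) (nat_lit 0) (XT.lf (nat_lit 0) (nat_lit 7793960071) (nat_lit 684) (nat_lit 13095298765) (nat_lit 76) (nat_lit 6285485866) (nat_lit 231) (nat_lit 5) (nat_lit 240) (nat_lit 5) (nat_lit 232) (nat_lit 5) (nat_lit 385) (nat_lit 372) (nat_lit 263)) (XT.nd (nat_lit 78) (nat_lit 532) (nat_lit 0) (XT.lf (nat_lit 0) (nat_lit 11184264696) (nat_lit 608) (nat_lit 1528438654) (nat_lit 684) (nat_lit 15209942951) (nat_lit 223) (nat_lit 5) (nat_lit 231) (nat_lit 5) (nat_lit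 232) (nat_lit 5) (nat_lit 386) (nat_lit 372) (nat_lit 262)) (XT.lf (nat_lit 0) (nat_lit 8215337423) (nat_lit 532) (nat_lit 10047548612) (nat_lit 608) (nat_lit 10433494929) (nat_lit 216) (nat_lit 5) (nat_lit 223) (nat_lit 5) (nat_lit 224) (nat_lit 5) (nat_lit 387) (nat_lit 372) (nat_lit 261))))) (XT.nd (nat_lit 234) (nat_lit 1444) (nat_lit 0) (XT.nd (nat_lit 78) (nat_lit 532) (nat_lit 0) (XT.lf (nat_lit 0) (nat_lit 5238696520) (nat_lit 532) (nat_lit 19180553425) (nat_lit 608) (nat_lit 5079695157) (nat_lit 209) (nat_lit 5) (nat_lit 216) (nat_lit 5) (nat_lit 217) (nat_lit 5) (nat_lit 388) (nat_lit 372) (nat_lit 260)) (XT.nd (nat_lit 78) (nat_lit 0) (nat_lit 0) (XT.lf (nat_lit 0) (nat_lit 871143510) (nat_lit 532) (nat_lit 28083023672) (nat_lit 76) (nat_lit 1377119074) (nat_lit 202) (nat_lit 5) (nat_lit 209) (nat_lit 5) (nat_lit 203) (nat_lit 5) (nat_lit 389) (nat_lit 372) (nat_lit 259)) (XT.lf (nat_lit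 0) (nat_lit 7451945614) (nat_lit 532) (nat_lit 866270219) (nat_lit 76) (nat_lit 22872398051) (nat_lit 202) (nat_lit 5) (nat_lit 209) (nat_lit 5) (nat_lit 203) (nat_lit 5) (nat_lit 390) (nat_lit 372) (nat_lit 258)))) (XT.nd (nat_lit 78) (nat_lit 912) (nat_lit 0) (XT.lf (nat_lit 0) (nat_lit 14755513442) (nat_lit 608) (nat_lit 3963252594) (nat_lit 76) (nat_lit 13362332525) (nat_lit 195) (nat_lit 5) (nat_lit 203) (nat_lit 5) (nat_lit 196) (nat_lit 5) (nat_lit 391) (nat_lit 372) (nat_lit 257)) (XT.nd (nat_lit 78) (nat_lit 456) (nat_lit 0) (XT.lf (nat_lit 0) (nat_lit 22789123035) (nat_lit 532) (nat_lit 7070667111) (nat_lit 76) (nat_lit 3145373747) (nat_lit 189) (nat_lit 5) (nat_lit 196) (nat_lit 5) (nat_lit 190) (nat_lit 5) (nat_lit 392) (nat_lit 372) (nat_lit 256)) (XT.lf (nat_lit 0) (nat_lit 23699087329) (nat_lit 456) (nat_lit 7975032718) (nat_lit 532) (nat_lit 2287823446) (nat_lit 183) (nat_lit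 5) (nat_lit 189) (nat_lit 5) (nat_lit 190) (nat_lit 5) (nat_lit 393) (nat_lit 372) (nat_lit 255)))))) (XT.nd (nat_lit 468) (nat_lit 2052) (nat_lit 0) (XT.nd (nat_lit 234) (nat_lit 1216) (nat_lit 0) (XT.nd (nat_lit 78) (nat_lit 836) (nat_lit 0) (XT.lf (nat_lit 0) (nat_lit 6339139516) (nat_lit 532) (nat_lit 13561535115) (nat_lit 76) (nat_lit 15051544569) (nat_lit 176) (nat_lit 5) (nat_lit 183) (nat_lit 5) (nat_lit 177) (nat_lit 5) (nat_lit 394) (nat_lit 372) (nat_lit 254)) (XT.nd (nat_lit 78) (nat_lit 380) (nat_lit 0) (XT.lf (nat_lit 0) (nat_lit 15746387122) (nat_lit 532) (nat_lit 16901857265) (nat_lit 76) (nat_lit 3331199134) (nat_lit 170) (nat_lit 5) (nat_lit 177) (nat_lit 5) (nat_lit 171) (nat_lit 5) (nat_lit 395) (nat_lit 372) (nat_lit 253)) (XT.lf (nat_lit 0) (nat_lit 16692167911) (nat_lit 380) (nat_lit 9426652056) (nat_lit 456) (nat_lit 10924366259) (nat_lit 165) (nat_lit 5) (nat_lit 170)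 (nat_lit 5) (nat_lit 171) (nat_lit 5) (nat_lit 396) (nat_lit 372) (nat_lit 252)))) (XT.nd (nat_lit 78) (nat_lit 836) (nat_lit 0) (XT.lf (nat_lit 0) (nat_lit 14288063425) (nat_lit 380) (nat_lit 23171401973) (nat_lit 456) (nat_lit 687164706) (nat_lit 160) (nat_lit 5) (nat_lit 165) (nat_lit 5) (nat_lit 166) (nat_lit 5) (nat_lit 397) (nat_lit 372) (nat_lit 251)) (XT.nd (nat_lit 78) (nat_lit 380) (nat_lit 0) (XT.lf (nat_lit 0) (nat_lit 10293515600) (nat_lit 456) (nat_lit 27492040258) (nat_lit 76) (nat_lit 1503951441) (nat_lit 154) (nat_lit 5) (nat_lit 160) (nat_lit 5) (nat_lit 155) (nat_lit 5) (nat_lit 398) (nat_lit 372) (nat_lit 250)) (XT.lf (nat_lit 0) (nat_lit 9179352831) (nat_lit 380) (nat_lit 13193123094) (nat_lit 456) (nat_lit 18099946148) (nat_lit 149) (nat_lit 5) (nat_lit 154) (nat_lit 5) (nat_lit 155) (nat_lit 5) (nat_lit 399) (nat_lit 372) (nat_lit 249))))) (XT.nd (nat_lit 234) (nat_lit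 988) (nat_lit 0) (XT.nd (nat_lit 78) (nat_lit 760) (nat_lit 0) (XT.lf (nat_lit 0) (nat_lit 6547232575) (nat_lit 304) (nat_lit 28971687314) (nat_lit 380) (nat_lit 6181658108) (nat_lit 145) (nat_lit 5) (nat_lit 149) (nat_lit 5) (nat_lit 150) (nat_lit 5) (nat_lit 400) (nat_lit 372) (nat_lit 248)) (XT.nd (nat_lit 78) (nat_lit 304) (nat_lit 0) (XT.lf (nat_lit 0) (nat_lit 3821328083) (nat_lit 380) (nat_lit 2876422648) (nat_lit 456) (nat_lit 36275902871) (nat_lit 139) (nat_lit 5) (nat_lit 144) (nat_lit 5) (nat_lit 145) (nat_lit 5) (nat_lit 401) (nat_lit 372) (nat_lit 247)) (XT.lf (nat_lit 0) (nat_lit 886470060) (nat_lit 304) (nat_lit 19811471838) (nat_lit 380) (nat_lit 23592466518) (nat_lit 135) (nat_lit 5) (nat_lit 139) (nat_lit 5) (nat_lit 140) (nat_lit 5) (nat_lit 402) (nat_lit 372) (nat_lit 246)))) (XT.nd (nat_lit 156) (nat_lit 608) (nat_lit 0) (XT.nd (nat_lit 78) (nat_lit 380) (nat_lit 0) (XT.lf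 (nat_lit 0) (nat_lit 35899677950) (nat_lit 380) (nat_lit 2028914440) (nat_lit 76) (nat_lit 7729363763) (nat_lit 135) (nat_lit 5) (nat_lit 140) (nat_lit 5) (nat_lit 136) (nat_lit 5) (nat_lit 403) (nat_lit 372) (nat_lit 245)) (XT.lf (nat_lit 0) (nat_lit 5278688451) (nat_lit 380) (nat_lit 5101107096) (nat_lit 76) (nat_lit 36694588927) (nat_lit 130) (nat_lit 5) (nat_lit 135) (nat_lit 5) (nat_lit 131) (nat_lit 5) (nat_lit 404) (nat_lit 372) (nat_lit 244))) (XT.nd (nat_lit 78) (nat_lit 304) (nat_lit 0) (XT.lf (nat_lit 0) (nat_lit 21454051887) (nat_lit 380) (nat_lit 8392748071) (nat_lit 76) (nat_lit 18694285912) (nat_lit 126) (nat_lit 5) (nat_lit 131) (nat_lit 5) (nat_lit 127) (nat_lit 5) (nat_lit 405) (nat_lit 372) (nat_lit 243)) (XT.lf (nat_lit 0) (nat_lit 38321632728) (nat_lit 304) (nat_lit 637257984) (nat_lit 380) (nat_lit 11106611447) (nat_lit 122) (nat_lit 5) (nat_lit 126) (nat_lit 5) (nat_lit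 127) (nat_lit 5) (nat_lit 406) (nat_lit 372) (nat_lit 242))))))) (XT.nd (nat_lit 936) (nat_lit 2204) (nat_lit 0) (XT.nd (nat_lit 468) (nat_lit 1216) (nat_lit 0) (XT.nd (nat_lit 234) (nat_lit 760) (nat_lit 0) (XT.nd (nat_lit 78) (nat_lit 532) (nat_lit 0) (XT.lf (nat_lit 0) (nat_lit 6288781368) (nat_lit 304) (nat_lit 15412038909) (nat_lit 76) (nat_lit 29941884631) (nat_lit 118) (nat_lit 5) (nat_lit 122) (nat_lit 5) (nat_lit 119) (nat_lit 5) (nat_lit 407) (nat_lit 372) (nat_lit 241)) (XT.nd (nat_lit 78) (nat_lit 228) (nat_lit 0) (XT.lf (nat_lit 0) (nat_lit 24866967656) (nat_lit 380) (nat_lit 19279639280) (nat_lit 76) (nat_lit 9132581016) (nat_lit 114) (nat_lit 5) (nat_lit 119) (nat_lit 5) (nat_lit 115) (nat_lit 5) (nat_lit 408) (nat_lit 372) (nat_lit 240)) (XT.lf (nat_lit 0) (nat_lit 31599209117) (nat_lit 228) (nat_lit 13452829569) (nat_lit 304) (nat_lit 9925118071) (nat_lit 111) (nat_lit 5) (nat_lit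 114) (nat_lit 5) (nat_lit 115) (nat_lit 5) (nat_lit 409) (nat_lit 372) (nat_lit 239)))) (XT.nd (nat_lit 78) (nat_lit 456) (nat_lit 0) (XT.lf (nat_lit 0) (nat_lit 9962958461) (nat_lit 304) (nat_lit 27790597929) (nat_lit 76) (nat_lit 18983880811) (nat_lit 107) (nat_lit 5) (nat_lit 111) (nat_lit 5) (nat_lit 108) (nat_lit 5) (nat_lit 410) (nat_lit 372) (nat_lit 238)) (XT.nd (nat_lit 78) (nat_lit 228) (nat_lit 0) (XT.lf (nat_lit 0) (nat_lit 26060456917) (nat_lit 228) (nat_lit 5206174625) (nat_lit 304) (nat_lit 27297359057) (nat_lit 104) (nat_lit 5) (nat_lit 107) (nat_lit 5) (nat_lit 108) (nat_lit 5) (nat_lit 411) (nat_lit 372) (nat_lit 237)) (XT.lf (nat_lit 0) (nat_lit 22868964066) (nat_lit 228) (nat_lit 31549081703) (nat_lit 304) (nat_lit 6040349906) (nat_lit 101) (nat_lit 5) (nat_lit 104) (nat_lit 5) (nat_lit 105) (nat_lit 5) (nat_lit 412) (nat_lit 372) (nat_lit 236))))) (XT.nd (nat_lit 234) (nat_lit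 456) (nat_lit 0) (XT.nd (nat_lit 78) (nat_lit 456) (nat_lit 0) (XT.lf (nat_lit 0) (nat_lit 16561990378) (nat_lit 304) (nat_lit 43042432131) (nat_lit 76) (nat_lit 2820399938) (nat_lit 97) (nat_lit 5) (nat_lit 101) (nat_lit 5) (nat_lit 98) (nat_lit 5) (nat_lit 413) (nat_lit 372) (nat_lit 235)) (XT.nd (nat_lit 78) (nat_lit 228) (nat_lit 0) (XT.lf (nat_lit 0) (nat_lit 15420751454) (nat_lit 228) (nat_lit 25602959034) (nat_lit 304) (nat_lit 23438440957) (nat_lit 94) (nat_lit 5) (nat_lit 97) (nat_lit 5) (nat_lit 98) (nat_lit 5) (nat_lit 414) (nat_lit 372) (nat_lit 234)) (XT.lf (nat_lit 0) (nat_lit 759673348) (nat_lit 228) (nat_lit 55360368432) (nat_lit 76) (nat_lit 10461636957) (nat_lit 91) (nat_lit 5) (nat_lit 94) (nat_lit 5) (nat_lit 92) (nat_lit 5) (nat_lit 415) (nat_lit 372) (nat_lit 233)))) (XT.nd (nat_lit 78) (nat_lit 228) (nat_lit 0) (XT.lf (nat_lit 0) (nat_lit 6346748242) (nat_lit 228) (nat_lit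 20165760089) (nat_lit 304) (nat_lit 42262825981) (nat_lit 88) (nat_lit 5) (nat_lit 91) (nat_lit 5) (nat_lit 92) (nat_lit 5) (nat_lit 416) (nat_lit 372) (nat_lit 232)) (XT.nd (nat_lit 78) (nat_lit 76) (nat_lit 0) (XT.lf (nat_lit 0) (nat_lit 1073827355) (nat_lit 152) (nat_lit 53229955915) (nat_lit 228) (nat_lit 16752365991) (nat_lit 86) (nat_lit 5) (nat_lit 88) (nat_lit 5) (nat_lit 89) (nat_lit 5) (nat_lit 417) (nat_lit 372) (nat_lit 231)) (XT.lf (nat_lit 0) (nat_lit 10686361271) (nat_lit 228) (nat_lit 4688969768) (nat_lit 76) (nat_lit 58047324851) (nat_lit 85) (nat_lit 5) (nat_lit 88) (nat_lit 5) (nat_lit 86) (nat_lit 5) (nat_lit 418) (nat_lit 372) (nat_lit 230)))))) (XT.nd (nat_lit 468) (nat_lit 1064) (nat_lit 0) (XT.nd (nat_lit 234) (nat_lit 532) (nat_lit 0) (XT.nd (nat_lit 78) (nat_lit 380) (nat_lit 0) (XT.lf (nat_lit 0) (nat_lit 40016515754) (nat_lit 304) (nat_lit 11164822029) (nat_lit 76)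 (nat_lit 24695195930) (nat_lit 82) (nat_lit 5) (nat_lit 86) (nat_lit 5) (nat_lit 83) (nat_lit 5) (nat_lit 419) (nat_lit 372) (nat_lit 229)) (XT.nd (nat_lit 78) (nat_lit 228) (nat_lit 0) (XT.lf (nat_lit 0) (nat_lit 60242229439) (nat_lit 152) (nat_lit 11350242732) (nat_lit 228) (nat_lit 6837254884) (nat_lit 80) (nat_lit 5) (nat_lit 82) (nat_lit 5) (nat_lit 83) (nat_lit 5) (nat_lit 420) (nat_lit 372) (nat_lit 228)) (XT.lf (nat_lit 0) (nat_lit 24119883922) (nat_lit 228) (nat_lit 26197931145) (nat_lit 76) (nat_lit 30757614909) (nat_lit 77) (nat_lit 5) (nat_lit 80) (nat_lit 5) (nat_lit 78) (nat_lit 5) (nat_lit 421) (nat_lit 372) (nat_lit 227)))) (XT.nd (nat_lit 78) (nat_lit 380) (nat_lit 0) (XT.lf (nat_lit 0) (nat_lit 48890418148) (nat_lit 152) (nat_lit 8364421079) (nat_lit 228) (nat_lit 26573407413) (nat_lit 75) (nat_lit 5) (nat_lit 77) (nat_lit 5) (nat_lit 78) (nat_lit 5) (nat_lit 422) (nat_lit 372)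 (nat_lit 226)) (XT.nd (nat_lit 78) (nat_lit 152) (nat_lit 0) (XT.lf (nat_lit 0) (nat_lit 6249962288) (nat_lit 228) (nat_lit 44710951060) (nat_lit 76) (nat_lit 35725472042) (nat_lit 72) (nat_lit 5) (nat_lit 75) (nat_lit 5) (nat_lit 73) (nat_lit 5) (nat_lit 423) (nat_lit 372) (nat_lit 225)) (XT.lf (nat_lit 0) (nat_lit 34090866468) (nat_lit 152) (nat_lit 6851113279) (nat_lit 228) (nat_lit 48714246849) (nat_lit 70) (nat_lit 5) (nat_lit 72) (nat_lit 5) (nat_lit 73) (nat_lit 5) (nat_lit 424) (nat_lit 372) (nat_lit 224))))) (XT.nd (nat_lit 234) (nat_lit 532) (nat_lit 0) (XT.nd (nat_lit 78) (nat_lit 380) (nat_lit 0) (XT.lf (nat_lit 0) (nat_lit 25106465047) (nat_lit 152) (nat_lit 53344331512) (nat_lit 228) (nat_lit 14291297684) (nat_lit 68) (nat_lit 5) (nat_lit 70) (nat_lit 5) (nat_lit 71) (nat_lit 5) (nat_lit 425) (nat_lit 372) (nat_lit 223)) (XT.nd (nat_lit 78) (nat_lit 152) (nat_lit 0) (XT.lf (nat_lit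 0) (nat_lit 15010177820) (nat_lit 152) (nat_lit 7204050665) (nat_lit 228) (nat_lit 73738089531) (nat_lit 65) (nat_lit 5) (nat_lit 67) (nat_lit 5) (nat_lit 68) (nat_lit 5) (nat_lit 426) (nat_lit 372) (nat_lit 222)) (XT.lf (nat_lit 0) (nat_lit 3412804636) (nat_lit 152) (nat_lit 57968647962) (nat_lit 228) (nat_lit 37903396108) (nat_lit 63) (nat_lit 5) (nat_lit 65) (nat_lit 5) (nat_lit 66) (nat_lit 5) (nat_lit 427) (nat_lit 372) (nat_lit 221)))) (XT.nd (nat_lit 156) (nat_lit 304) (nat_lit 0) (XT.nd (nat_lit 78) (nat_lit 152) (nat_lit 0) (XT.lf (nat_lit 0) (nat_lit 639529550) (nat_lit 228) (nat_lit 9165950575) (nat_lit 76) (nat_lit 92951273162) (nat_lit 62) (nat_lit 5) (nat_lit 65) (nat_lit 5) (nat_lit 63) (nat_lit 5) (nat_lit 428) (nat_lit 372) (nat_lit 220)) (XT.lf (nat_lit 0) (nat_lit 41532477286) (nat_lit 228) (nat_lit 23661122408) (nat_lit 76) (nat_lit 41161191943) (nat_lit 60) (nat_lit 5) (nat_lit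 63) (nat_lit 5) (nat_lit 61) (nat_lit 5) (nat_lit 429) (nat_lit 372) (nat_lit 219))) (XT.nd (nat_lit 78) (nat_lit 152) (nat_lit 0) (XT.lf (nat_lit 0) (nat_lit 70478051408) (nat_lit 152) (nat_lit 14860876785) (nat_lit 228) (nat_lit 24767738287) (nat_lit 58) (nat_lit 5) (nat_lit 60) (nat_lit 5) (nat_lit 61) (nat_lit 5) (nat_lit 430) (nat_lit 372) (nat_lit 218)) (XT.lf (nat_lit 0) (nat_lit 18115128387) (nat_lit 152) (nat_lit 57679403167) (nat_lit 76) (nat_lit 38211729496) (nat_lit 56) (nat_lit 5) (nat_lit 58) (nat_lit 5) (nat_lit 57) (nat_lit 5) (nat_lit 431) (nat_lit 372) (nat_lit 217))))))))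
noncomputable def xc100 : XT := (XT.nd (nat_lit 1872) (nat_lit 6840) (nat_lit 0) (XT.nd (nat_lit 936) (nat_lit 6004) (nat_lit 0) (XT.nd (nat_lit 468) (nat_lit 608) (nat_lit 0) (XT.nd (nat_lit 234) (nat_lit 0) (nat_lit 152) (XT.nd (nat_lit 78) (nat_lit 0) (nat_lit 76) (XT.lf (nat_lit 0) (nat_lit 1462754914) (nat_lit 1292) (nat_lit 4383015973) (nat_lit 1292) (nat_lit 4383015973) (nat_lit 257) (nat_lit 3) (nat_lit 274) (nat_lit 3) (nat_lit 274) (nat_lit 5) (nat_lit 373) (nat_lit 373) (nat_lit 274)) (XT.nd (nat_lit 78) (nat_lit 0) (nat_lit 0) (XT.lf (nat_lit 0) (nat_lit 3376380333) (nat_lit 1216) (nat_lit 13045149954) (nat_lit 1292) (nat_lit 4536066822) (nat_lit 258) (nat_lit 5) (nat_lit 274) (nat_lit 5) (nat_lit 275) (nat_lit 5) (nat_lit 374) (nat_lit 373) (nat_lit 273)) (XT.lf (nat_lit 76) (nat_lit 4079616539) (nat_lit 0) (nat_lit 2087969) (nat_lit 1292) (nat_lit 17393965228) (nat_lit 259) (nat_lit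 5) (nat_lit 258) (nat_lit 5) (nat_lit 275) (nat_lit 5) (nat_lit 375) (nat_lit 373) (nat_lit 272)))) (XT.nd (nat_lit 78) (nat_lit 0) (nat_lit 76) (XT.lf (nat_lit 76) (nat_lit 143890954) (nat_lit 0) (nat_lit 4965429474) (nat_lit 1292) (nat_lit 16901719918) (nat_lit 260) (nat_lit 5) (nat_lit 259) (nat_lit 5) (nat_lit 276) (nat_lit 5) (nat_lit 376) (nat_lit 373) (nat_lit 271)) (XT.nd (nat_lit 78) (nat_lit 0) (nat_lit 76) (XT.lf (nat_lit 0) (nat_lit 6473152859) (nat_lit 1216) (nat_lit 3773904712) (nat_lit 1292) (nat_lit 12317581721) (nat_lit 260) (nat_lit 5) (nat_lit 276) (nat_lit 5) (nat_lit 277) (nat_lit 5) (nat_lit 377) (nat_lit 373) (nat_lit 270)) (XT.lf (nat_lit 0) (nat_lit 8160622096) (nat_lit 1216) (nat_lit 7744872819) (nat_lit 1292) (nat_lit 7232764558) (nat_lit 261) (nat_lit 5) (nat_lit 277) (nat_lit 5) (nat_lit 278) (nat_lit 5) (nat_lit 378) (nat_lit 373) (nat_lit 269))))) (XT.nd (nat_lit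 234) (nat_lit 988) (nat_lit 0) (XT.nd (nat_lit 78) (nat_lit 0) (nat_lit 0) (XT.lf (nat_lit 0) (nat_lit 10193981831) (nat_lit 1216) (nat_lit 11771571558) (nat_lit 1292) (nat_lit 1767166185) (nat_lit 262) (nat_lit 5) (nat_lit 278) (nat_lit 5) (nat_lit 279) (nat_lit 5) (nat_lit 379) (nat_lit 373) (nat_lit 268)) (XT.nd (nat_lit 78) (nat_lit 0) (nat_lit 76) (XT.lf (nat_lit 76) (nat_lit 8453818625) (nat_lit 0) (nat_lit 4184488276) (nat_lit 1292) (nat_lit 11709321070) (nat_lit 263) (nat_lit 5) (nat_lit 262) (nat_lit 5) (nat_lit 279) (nat_lit 5) (nat_lit 380) (nat_lit 373) (nat_lit 267)) (XT.lf (nat_lit 76) (nat_lit 4892085168) (nat_lit 0) (nat_lit 10608951654) (nat_lit 1292) (nat_lit 9483363320) (nat_lit 264) (nat_lit 5) (nat_lit 263) (nat_lit 5) (nat_lit 280) (nat_lit 5) (nat_lit 381) (nat_lit 373) (nat_lit 266)))) (XT.nd (nat_lit 78) (nat_lit 1140) (nat_lit 0) (XT.lf (nat_lit 76) (nat_lit 1295168846)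 (nat_lit 0) (nat_lit 17497411534) (nat_lit 1292) (nat_lit 6851864047) (nat_lit 265) (nat_lit 5) (nat_lit 264) (nat_lit 5) (nat_lit 281) (nat_lit 5) (nat_lit 382) (nat_lit 373) (nat_lit 265)) (XT.nd (nat_lit 78) (nat_lit 1216) (nat_lit 0) (XT.lf (nat_lit 0) (nat_lit 22564553150) (nat_lit 1216) (nat_lit 2289792518) (nat_lit 76) (nat_lit 1473673336) (nat_lit 265) (nat_lit 5) (nat_lit 281) (nat_lit 5) (nat_lit 266) (nat_lit 5) (nat_lit 383) (nat_lit 373) (nat_lit 264)) (XT.lf (nat_lit 0) (nat_lit 21098291252) (nat_lit 1216) (nat_lit 5795354052) (nat_lit 1292) (nat_lit 141074848) (nat_lit 249) (nat_lit 5) (nat_lit 265) (nat_lit 5) (nat_lit 266) (nat_lit 5) (nat_lit 384) (nat_lit 373) (nat_lit 263)))))) (XT.nd (nat_lit 468) (nat_lit 2432) (nat_lit 0) (XT.nd (nat_lit 234) (nat_lit 1596) (nat_lit 0) (XT.nd (nat_lit 78) (nat_lit 1216) (nat_lit 0) (XT.lf (nat_lit 0) (nat_lit 3918512757) (nat_lit 760) (nat_lit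 9670407794) (nat_lit 76) (nat_lit 14176956514) (nat_lit 239) (nat_lit 5) (nat_lit 249) (nat_lit 5) (nat_lit 240) (nat_lit 5) (nat_lit 385) (nat_lit 373) (nat_lit 262)) (XT.nd (nat_lit 78) (nat_lit 608) (nat_lit 0) (XT.lf (nat_lit 0) (nat_lit 8498382744) (nat_lit 684) (nat_lit 13443568437) (nat_lit 76) (nat_lit 6581995169) (nat_lit 231) (nat_lit 5) (nat_lit 240) (nat_lit 5) (nat_lit 232) (nat_lit 5) (nat_lit 386) (nat_lit 373) (nat_lit 261)) (XT.lf (nat_lit 0) (nat_lit 12041187572) (nat_lit 608) (nat_lit 1609750494) (nat_lit 684) (nat_lit 15658673186) (nat_lit 223) (nat_lit 5) (nat_lit 231) (nat_lit 5) (nat_lit 232) (nat_lit 5) (nat_lit 387) (nat_lit 373) (nat_lit 260)))) (XT.nd (nat_lit 78) (nat_lit 1064) (nat_lit 0) (XT.lf (nat_lit 0) (nat_lit 8924230390) (nat_lit 532) (nat_lit 10542810996) (nat_lit 608) (nat_lit 10655343172) (nat_lit 216) (nat_lit 5) (nat_lit 223) (nat_lit 5) (nat_lit 224)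 (nat_lit 5) (nat_lit 388) (nat_lit 373) (nat_lit 259)) (XT.nd (nat_lit 78) (nat_lit 532) (nat_lit 0) (XT.lf (nat_lit 0) (nat_lit 5798708045) (nat_lit 532) (nat_lit 20121588211) (nat_lit 608) (nat_lit 5045112518) (nat_lit 209) (nat_lit 5) (nat_lit 216) (nat_lit 5) (nat_lit 217) (nat_lit 5) (nat_lit 389) (nat_lit 373) (nat_lit 258)) (XT.lf (nat_lit 0) (nat_lit 1187219368) (nat_lit 532) (nat_lit 29184071447) (nat_lit 76) (nat_lit 1468309233) (nat_lit 202) (nat_lit 5) (nat_lit 209) (nat_lit 5) (nat_lit 203) (nat_lit 5) (nat_lit 390) (nat_lit 373) (nat_lit 257))))) (XT.nd (nat_lit 234) (nat_lit 1444) (nat_lit 0) (XT.nd (nat_lit 78) (nat_lit 988) (nat_lit 0) (XT.lf (nat_lit 0) (nat_lit 8084084497) (nat_lit 532) (nat_lit 620913817) (nat_lit 76) (nat_lit 24037288625) (nat_lit 202) (nat_lit 5) (nat_lit 209) (nat_lit 5) (nat_lit 203) (nat_lit 5) (nat_lit 391) (nat_lit 373) (nat_lit 256)) (XT.nd (nat_lit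 78) (nat_lit 456) (nat_lit 0) (XT.lf (nat_lit 0) (nat_lit 15743460275) (nat_lit 608) (nat_lit 3873749003) (nat_lit 76) (nat_lit 14060371085) (nat_lit 195) (nat_lit 5) (nat_lit 203) (nat_lit 5) (nat_lit 196) (nat_lit 5) (nat_lit 392) (nat_lit 373) (nat_lit 255)) (XT.lf (nat_lit 0) (nat_lit 24169893251) (nat_lit 532) (nat_lit 7137856916) (nat_lit 76) (nat_lit 3340367745) (nat_lit 189) (nat_lit 5) (nat_lit 196) (nat_lit 5) (nat_lit 190) (nat_lit 5) (nat_lit 393) (nat_lit 373) (nat_lit 254)))) (XT.nd (nat_lit 78) (nat_lit 988) (nat_lit 0) (XT.lf (nat_lit 0) (nat_lit 25162177265) (nat_lit 456) (nat_lit 8328145312) (nat_lit 532) (nat_lit 2162681525) (nat_lit 183) (nat_lit 5) (nat_lit 189) (nat_lit 5) (nat_lit 190) (nat_lit 5) (nat_lit 394) (nat_lit 373) (nat_lit 253)) (XT.nd (nat_lit 78) (nat_lit 456) (nat_lit 0) (XT.lf (nat_lit 0) (nat_lit 6882878526) (nat_lit 532) (nat_lit 13958469843) (nat_lit 76)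 (nat_lit 15851621307) (nat_lit 176) (nat_lit 5) (nat_lit 183) (nat_lit 5) (nat_lit 177) (nat_lit 5) (nat_lit 395) (nat_lit 373) (nat_lit 252)) (XT.lf (nat_lit 0) (nat_lit 16752838060) (nat_lit 532) (nat_lit 17467778084) (nat_lit 76) (nat_lit 3551171298) (nat_lit 170) (nat_lit 5) (nat_lit 177) (nat_lit 5) (nat_lit 171) (nat_lit 5) (nat_lit 396) (nat_lit 373) (nat_lit 251))))))) (XT.nd (nat_lit 936) (nat_lit 2888) (nat_lit 0) (XT.nd (nat_lit 468) (nat_lit 1596) (nat_lit 0) (XT.nd (nat_lit 234) (nat_lit 1140) (nat_lit 0) (XT.nd (nat_lit 78) (nat_lit 836) (nat_lit 0) (XT.lf (nat_lit 0) (nat_lit 17797945940) (nat_lit 380) (nat_lit 9838118418) (nat_lit 456) (nat_lit 11252890356) (nat_lit 165) (nat_lit 5) (nat_lit 170) (nat_lit 5) (nat_lit 171) (nat_lit 5) (nat_lit 397) (nat_lit 373) (nat_lit 250)) (XT.nd (nat_lit 78) (nat_lit 456) (nat_lit 0) (XT.lf (nat_lit 0) (nat_lit 15271511862) (nat_lit 380) (nat_lit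 24265302427) (nat_lit 456) (nat_lit 510966793) (nat_lit 160) (nat_lit 5) (nat_lit 165) (nat_lit 5) (nat_lit 166) (nat_lit 5) (nat_lit 398) (nat_lit 373) (nat_lit 249)) (XT.lf (nat_lit 0) (nat_lit 11007995276) (nat_lit 456) (nat_lit 28595887560) (nat_lit 76) (nat_lit 1644060165) (nat_lit 154) (nat_lit 5) (nat_lit 160) (nat_lit 5) (nat_lit 155) (nat_lit 5) (nat_lit 399) (nat_lit 373) (nat_lit 248)))) (XT.nd (nat_lit 78) (nat_lit 760) (nat_lit 0) (XT.lf (nat_lit 0) (nat_lit 9901314055) (nat_lit 380) (nat_lit 13782603147) (nat_lit 456) (nat_lit 18806298073) (nat_lit 149) (nat_lit 5) (nat_lit 154) (nat_lit 5) (nat_lit 155) (nat_lit 5) (nat_lit 400) (nat_lit 373) (nat_lit 247)) (XT.nd (nat_lit 78) (nat_lit 456) (nat_lit 0) (XT.lf (nat_lit 0) (nat_lit 7135054735) (nat_lit 304) (nat_lit 30346593003) (nat_lit 380) (nat_lit 6298314391) (nat_lit 145) (nat_lit 5) (nat_lit 149) (nat_lit 5) (nat_lit 150) (nat_lit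 5) (nat_lit 401) (nat_lit 373) (nat_lit 246)) (XT.lf (nat_lit 0) (nat_lit 4269075230) (nat_lit 380) (nat_lit 2945717730) (nat_lit 456) (nat_lit 37902040484) (nat_lit 139) (nat_lit 5) (nat_lit 144) (nat_lit 5) (nat_lit 145) (nat_lit 5) (nat_lit 402) (nat_lit 373) (nat_lit 245))))) (XT.nd (nat_lit 234) (nat_lit 912) (nat_lit 0) (XT.nd (nat_lit 78) (nat_lit 380) (nat_lit 0) (XT.lf (nat_lit 0) (nat_lit 1184765850) (nat_lit 304) (nat_lit 20724677415) (nat_lit 380) (nat_lit 24590151064) (nat_lit 135) (nat_lit 5) (nat_lit 139) (nat_lit 5) (nat_lit 140) (nat_lit 5) (nat_lit 403) (nat_lit 373) (nat_lit 244)) (XT.nd (nat_lit 78) (nat_lit 380) (nat_lit 0) (XT.lf (nat_lit 0) (nat_lit 37863564686) (nat_lit 380) (nat_lit 1884109603) (nat_lit 76) (nat_lit 8188077938) (nat_lit 135) (nat_lit 5) (nat_lit 140) (nat_lit 5) (nat_lit 136) (nat_lit 5) (nat_lit 404) (nat_lit 373) (nat_lit 243)) (XT.lf (nat_lit 0) (nat_lit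 5707429769) (nat_lit 380) (nat_lit 5113658599) (nat_lit 76) (nat_lit 38602039087) (nat_lit 130) (nat_lit 5) (nat_lit 135) (nat_lit 5) (nat_lit 131) (nat_lit 5) (nat_lit 405) (nat_lit 373) (nat_lit 242)))) (XT.nd (nat_lit 78) (nat_lit 608) (nat_lit 0) (XT.lf (nat_lit 0) (nat_lit 22686711428) (nat_lit 380) (nat_lit 8572759463) (nat_lit 76) (nat_lit 19703840053) (nat_lit 126) (nat_lit 5) (nat_lit 131) (nat_lit 5) (nat_lit 127) (nat_lit 5) (nat_lit 406) (nat_lit 373) (nat_lit 241)) (XT.nd (nat_lit 78) (nat_lit 304) (nat_lit 0) (XT.lf (nat_lit 0) (nat_lit 40470471544) (nat_lit 304) (nat_lit 590941057) (nat_lit 380) (nat_lit 11502698288) (nat_lit 122) (nat_lit 5) (nat_lit 126) (nat_lit 5) (nat_lit 127) (nat_lit 5) (nat_lit 407) (nat_lit 373) (nat_lit 240)) (XT.lf (nat_lit 0) (nat_lit 6754876202) (nat_lit 304) (nat_lit 15949707850) (nat_lit 76) (nat_lit 31515679561) (nat_lit 118) (nat_lit 5) (nat_lit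 122) (nat_lit 5) (nat_lit 119) (nat_lit 5) (nat_lit 408) (nat_lit 373) (nat_lit 239)))))) (XT.nd (nat_lit 468) (nat_lit 1292) (nat_lit 0) (XT.nd (nat_lit 234) (nat_lit 760) (nat_lit 0) (XT.nd (nat_lit 78) (nat_lit 532) (nat_lit 0) (XT.lf (nat_lit 0) (nat_lit 26257690629) (nat_lit 380) (nat_lit 20013706976) (nat_lit 76) (nat_lit 9667302918) (nat_lit 114) (nat_lit 5) (nat_lit 119) (nat_lit 5) (nat_lit 115) (nat_lit 5) (nat_lit 409) (nat_lit 373) (nat_lit 238)) (XT.nd (nat_lit 78) (nat_lit 304) (nat_lit 0) (XT.lf (nat_lit 0) (nat_lit 33402493394) (nat_lit 228) (nat_lit 14044650703) (nat_lit 304) (nat_lit 10274571023) (nat_lit 111) (nat_lit 5) (nat_lit 114) (nat_lit 5) (nat_lit 115) (nat_lit 5) (nat_lit 410) (nat_lit 373) (nat_lit 237)) (XT.lf (nat_lit 0) (nat_lit 10601076753) (nat_lit 304) (nat_lit 28956975712) (nat_lit 76) (nat_lit 20012034951) (nat_lit 107) (nat_lit 5) (nat_lit 111) (nat_lit 5)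 (nat_lit 108) (nat_lit 5) (nat_lit 411) (nat_lit 373) (nat_lit 236)))) (XT.nd (nat_lit 78) (nat_lit 532) (nat_lit 0) (XT.lf (nat_lit 0) (nat_lit 27580235266) (nat_lit 228) (nat_lit 5385116553) (nat_lit 304) (nat_lit 28522755187) (nat_lit 104) (nat_lit 5) (nat_lit 107) (nat_lit 5) (nat_lit 108) (nat_lit 5) (nat_lit 412) (nat_lit 373) (nat_lit 235)) (XT.nd (nat_lit 78) (nat_lit 304) (nat_lit 0) (XT.lf (nat_lit 0) (nat_lit 24226160871) (nat_lit 228) (nat_lit 33044528390) (nat_lit 304) (nat_lit 6206653522) (nat_lit 101) (nat_lit 5) (nat_lit 104) (nat_lit 5) (nat_lit 105) (nat_lit 5) (nat_lit 413) (nat_lit 373) (nat_lit 234)) (XT.lf (nat_lit 0) (nat_lit 17519622824) (nat_lit 304) (nat_lit 44981242248) (nat_lit 76) (nat_lit 3041293611) (nat_lit 97) (nat_lit 5) (nat_lit 101) (nat_lit 5) (nat_lit 98) (nat_lit 5) (nat_lit 414) (nat_lit 373) (nat_lit 233))))) (XT.nd (nat_lit 234) (nat_lit 608) (nat_lit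 0) (XT.nd (nat_lit 78) (nat_lit 456) (nat_lit 0) (XT.lf (nat_lit 0) (nat_lit 16398985985) (nat_lit 228) (nat_lit 26801266424) (nat_lit 304) (nat_lit 24481227917) (nat_lit 94) (nat_lit 5) (nat_lit 97) (nat_lit 5) (nat_lit 98) (nat_lit 5) (nat_lit 415) (nat_lit 373) (nat_lit 232)) (XT.nd (nat_lit 78) (nat_lit 228) (nat_lit 0) (XT.lf (nat_lit 0) (nat_lit 920981555) (nat_lit 228) (nat_lit 57921751887) (nat_lit 76) (nat_lit 11064312853) (nat_lit 91) (nat_lit 5) (nat_lit 94) (nat_lit 5) (nat_lit 92) (nat_lit 5) (nat_lit 416) (nat_lit 373) (nat_lit 231)) (XT.lf (nat_lit 0) (nat_lit 6864797470) (nat_lit 228) (nat_lit 21092717584) (nat_lit 304) (nat_lit 44252988685) (nat_lit 88) (nat_lit 5) (nat_lit 91) (nat_lit 5) (nat_lit 92) (nat_lit 5) (nat_lit 417) (nat_lit 373) (nat_lit 230)))) (XT.nd (nat_lit 156) (nat_lit 380) (nat_lit 0) (XT.nd (nat_lit 78) (nat_lit 76) (nat_lit 0) (XT.lf (nat_lit 0) (nat_lit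 1325211959) (nat_lit 152) (nat_lit 55810101875) (nat_lit 228) (nat_lit 17470137553) (nat_lit 86) (nat_lit 5) (nat_lit 88) (nat_lit 5) (nat_lit 89) (nat_lit 5) (nat_lit 418) (nat_lit 373) (nat_lit 229)) (XT.lf (nat_lit 0) (nat_lit 11332591807) (nat_lit 228) (nat_lit 4732897748) (nat_lit 76) (nat_lit 61024927798) (nat_lit 85) (nat_lit 5) (nat_lit 88) (nat_lit 5) (nat_lit 86) (nat_lit 5) (nat_lit 419) (nat_lit 373) (nat_lit 228))) (XT.nd (nat_lit 78) (nat_lit 152) (nat_lit 0) (XT.lf (nat_lit 0) (nat_lit 42126441011) (nat_lit 304) (nat_lit 11535476955) (nat_lit 76) (nat_lit 26005156156) (nat_lit 82) (nat_lit 5) (nat_lit 86) (nat_lit 5) (nat_lit 83) (nat_lit 5) (nat_lit 420) (nat_lit 373) (nat_lit 227)) (XT.lf (nat_lit 0) (nat_lit 63436549967) (nat_lit 152) (nat_lit 11841201574) (nat_lit 228) (nat_lit 7070279534) (nat_lit 80) (nat_lit 5) (nat_lit 82) (nat_lit 5) (nat_lit 83) (nat_lit 5) (nat_lit 421)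 (nat_lit 373) (nat_lit 226))))))))
noncomputable def xc101 : XT := (XT.nd (nat_lit 50544) (nat_lit 0) (nat_lit 3496) (XT.nd (nat_lit 49530) (nat_lit 0) (nat_lit 12540) (XT.nd (nat_lit 468) (nat_lit 532) (nat_lit 0) (XT.nd (nat_lit 234) (nat_lit 532) (nat_lit 0) (XT.nd (nat_lit 78) (nat_lit 380) (nat_lit 0) (XT.lf (nat_lit 0) (nat_lit 25429959743) (nat_lit 228) (nat_lit 27326382170) (nat_lit 76) (nat_lit 32369725408) (nat_lit 77) (nat_lit 5) (nat_lit 80) (nat_lit 5) (nat_lit 78) (nat_lit 5) (nat_lit 422) (nat_lit 373) (nat_lit 225)) (XT.nd (nat_lit 78) (nat_lit 228) (nat_lit 0) (XT.lf (nat_lit 0) (nat_lit 51511183488) (nat_lit 152) (nat_lit 8707217227) (nat_lit 228) (nat_lit 27798222523) (nat_lit 75) (nat_lit 5) (nat_lit 77) (nat_lit 5) (nat_lit 78) (nat_lit 5) (nat_lit 423) (nat_lit 373) (nat_lit 224)) (XT.lf (nat_lit 0) (nat_lit 6661821119) (nat_lit 228) (nat_lit 46771073942) (nat_lit 76) (nat_lit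 37584818470) (nat_lit 72) (nat_lit 5) (nat_lit 75) (nat_lit 5) (nat_lit 73) (nat_lit 5) (nat_lit 424) (nat_lit 373) (nat_lit 223)))) (XT.nd (nat_lit 78) (nat_lit 380) (nat_lit 0) (XT.lf (nat_lit 0) (nat_lit 35965805949) (nat_lit 152) (nat_lit 7119539991) (nat_lit 228) (nat_lit 51050794153) (nat_lit 70) (nat_lit 5) (nat_lit 72) (nat_lit 5) (nat_lit 73) (nat_lit 5) (nat_lit 425) (nat_lit 373) (nat_lit 222)) (XT.nd (nat_lit 78) (nat_lit 228) (nat_lit 0) (XT.lf (nat_lit 0) (nat_lit 26529422706) (nat_lit 152) (nat_lit 55937886779) (nat_lit 228) (nat_lit 14909060927) (nat_lit 68) (nat_lit 5) (nat_lit 70) (nat_lit 5) (nat_lit 71) (nat_lit 5) (nat_lit 426) (nat_lit 373) (nat_lit 221)) (XT.lf (nat_lit 0) (nat_lit 15925359531) (nat_lit 152) (nat_lit 7491556354) (nat_lit 228) (nat_lit 77330250107) (nat_lit 65) (nat_lit 5) (nat_lit 67) (nat_lit 5) (nat_lit 68) (nat_lit 5) (nat_lit 427) (nat_lit 373) (nat_lit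 220))))) (XT.nd (nat_lit 234) (nat_lit 152) (nat_lit 0) (XT.nd (nat_lit 78) (nat_lit 228) (nat_lit 0) (XT.lf (nat_lit 0) (nat_lit 3745407181) (nat_lit 152) (nat_lit 60794936626) (nat_lit 228) (nat_lit 39706044544) (nat_lit 63) (nat_lit 5) (nat_lit 65) (nat_lit 5) (nat_lit 66) (nat_lit 5) (nat_lit 428) (nat_lit 373) (nat_lit 219)) (XT.nd (nat_lit 78) (nat_lit 152) (nat_lit 0) (XT.lf (nat_lit 0) (nat_lit 757902165) (nat_lit 228) (nat_lit 9468271216) (nat_lit 76) (nat_lit 97665818073) (nat_lit 62) (nat_lit 5) (nat_lit 65) (nat_lit 5) (nat_lit 63) (nat_lit 5) (nat_lit 429) (nat_lit 373) (nat_lit 218)) (XT.lf (nat_lit 0) (nat_lit 43693490975) (nat_lit 228) (nat_lit 24690804706) (nat_lit 76) (nat_lit 43285696593) (nat_lit 60) (nat_lit 5) (nat_lit 63) (nat_lit 5) (nat_lit 61) (nat_lit 5) (nat_lit 430) (nat_lit 373) (nat_lit 217)))) (XT.nd (nat_lit 48672) (nat_lit 0) (nat_lit 15124) (XT.lf (nat_lit 0)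 (nat_lit 74150931371) (nat_lit 152) (nat_lit 15536746555) (nat_lit 228) (nat_lit 25921860872) (nat_lit 58) (nat_lit 5) (nat_lit 60) (nat_lit 5) (nat_lit 61) (nat_lit 5) (nat_lit 431) (nat_lit 373) (nat_lit 216)) (XT.nd (nat_lit 78) (nat_lit 0) (nat_lit 76) (XT.lf (nat_lit 0) (nat_lit 1788645810) (nat_lit 1292) (nat_lit 4471957568) (nat_lit 1292) (nat_lit 4471957568) (nat_lit 257) (nat_lit 3) (nat_lit 274) (nat_lit 3) (nat_lit 274) (nat_lit 5) (nat_lit 374) (nat_lit 374) (nat_lit 272)) (XT.lf (nat_lit 0) (nat_lit 4026845792) (nat_lit 1216) (nat_lit 13427560775) (nat_lit 1292) (nat_lit 4536463550) (nat_lit 258) (nat_lit 5) (nat_lit 274) (nat_lit 5) (nat_lit 275) (nat_lit 5) (nat_lit 375) (nat_lit 374) (nat_lit 271)))))) (XT.nd (nat_lit 468) (nat_lit 2660) (nat_lit 0) (XT.nd (nat_lit 234) (nat_lit 0) (nat_lit 228) (XT.nd (nat_lit 78) (nat_lit 0) (nat_lit 76) (XT.lf (nat_lit 76) (nat_lit 4545708941)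 (nat_lit 0) (nat_lit 201311266) (nat_lit 1292) (nat_lit 17788446144) (nat_lit 259) (nat_lit 5) (nat_lit 258) (nat_lit 5) (nat_lit 275) (nat_lit 5) (nat_lit 376) (nat_lit 374) (nat_lit 270)) (XT.nd (nat_lit 78) (nat_lit 0) (nat_lit 76) (XT.lf (nat_lit 76) (nat_lit 421128829) (nat_lit 0) (nat_lit 5383697654) (nat_lit 1292) (nat_lit 17293421864) (nat_lit 260) (nat_lit 5) (nat_lit 259) (nat_lit 5) (nat_lit 276) (nat_lit 5) (nat_lit 377) (nat_lit 374) (nat_lit 269)) (XT.lf (nat_lit 0) (nat_lit 7214339950) (nat_lit 1216) (nat_lit 3691150942) (nat_lit 1292) (nat_lit 12774718466) (nat_lit 260) (nat_lit 5) (nat_lit 276) (nat_lit 5) (nat_lit 277) (nat_lit 5) (nat_lit 378) (nat_lit 374) (nat_lit 268)))) (XT.nd (nat_lit 78) (nat_lit 0) (nat_lit 76) (XT.lf (nat_lit 0) (nat_lit 8967522580) (nat_lit 1216) (nat_lit 7855001246) (nat_lit 1292) (nat_lit 7460553001) (nat_lit 261) (nat_lit 5) (nat_lit 277) (nat_lit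 5) (nat_lit 278) (nat_lit 5) (nat_lit 379) (nat_lit 374) (nat_lit 267)) (XT.nd (nat_lit 78) (nat_lit 0) (nat_lit 0) (XT.lf (nat_lit 0) (nat_lit 11085054939) (nat_lit 1216) (nat_lit 12078292088) (nat_lit 1292) (nat_lit 1744443935) (nat_lit 262) (nat_lit 5) (nat_lit 278) (nat_lit 5) (nat_lit 279) (nat_lit 5) (nat_lit 380) (nat_lit 374) (nat_lit 266)) (XT.lf (nat_lit 76) (nat_lit 9150288200) (nat_lit 0) (nat_lit 4485779124) (nat_lit 1292) (nat_lit 11917849199) (nat_lit 263) (nat_lit 5) (nat_lit 262) (nat_lit 5) (nat_lit 279) (nat_lit 5) (nat_lit 381) (nat_lit 374) (nat_lit 265))))) (XT.nd (nat_lit 234) (nat_lit 3040) (nat_lit 0) (XT.nd (nat_lit 78) (nat_lit 0) (nat_lit 76) (XT.lf (nat_lit 76) (nat_lit 5414254763) (nat_lit 0) (nat_lit 11212083055) (nat_lit 1292) (nat_lit 9596662956) (nat_lit 264) (nat_lit 5) (nat_lit 263) (nat_lit 5) (nat_lit 280) (nat_lit 5) (nat_lit 382) (nat_lit 374) (nat_lit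 264)) (XT.nd (nat_lit 78) (nat_lit 0) (nat_lit 76) (XT.lf (nat_lit 76) (nat_lit 1640529897) (nat_lit 0) (nat_lit 18427282040) (nat_lit 1292) (nat_lit 6848680065) (nat_lit 265) (nat_lit 5) (nat_lit 264) (nat_lit 5) (nat_lit 281) (nat_lit 5) (nat_lit 383) (nat_lit 374) (nat_lit 263)) (XT.lf (nat_lit 0) (nat_lit 24011898754) (nat_lit 1216) (nat_lit 2126847907) (nat_lit 76) (nat_lit 1495998258) (nat_lit 265) (nat_lit 5) (nat_lit 281) (nat_lit 5) (nat_lit 266) (nat_lit 5) (nat_lit 384) (nat_lit 374) (nat_lit 262)))) (XT.nd (nat_lit 156) (nat_lit 1216) (nat_lit 0) (XT.nd (nat_lit 78) (nat_lit 684) (nat_lit 0) (XT.lf (nat_lit 0) (nat_lit 164403759) (nat_lit 1292) (nat_lit 5956088476) (nat_lit 76) (nat_lit 22256623539) (nat_lit 248) (nat_lit 5) (nat_lit 265) (nat_lit 5) (nat_lit 249) (nat_lit 5) (nat_lit 385) (nat_lit 374) (nat_lit 261)) (XT.lf (nat_lit 0) (nat_lit 4411625064) (nat_lit 760) (nat_lit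 9876795770) (nat_lit 76) (nat_lit 14856745105) (nat_lit 239) (nat_lit 5) (nat_lit 249) (nat_lit 5) (nat_lit 240) (nat_lit 5) (nat_lit 386) (nat_lit 374) (nat_lit 260))) (XT.nd (nat_lit 78) (nat_lit 608) (nat_lit 0) (XT.lf (nat_lit 0) (nat_lit 9208766435) (nat_lit 684) (nat_lit 13837746617) (nat_lit 76) (nat_lit 6894981556) (nat_lit 231) (nat_lit 5) (nat_lit 240) (nat_lit 5) (nat_lit 232) (nat_lit 5) (nat_lit 387) (nat_lit 374) (nat_lit 259)) (XT.lf (nat_lit 0) (nat_lit 12913278371) (nat_lit 608) (nat_lit 1694673308) (nat_lit 684) (nat_lit 16158825065) (nat_lit 223) (nat_lit 5) (nat_lit 231) (nat_lit 5) (nat_lit 232) (nat_lit 5) (nat_lit 388) (nat_lit 374) (nat_lit 258))))))) (XT.nd (nat_lit 936) (nat_lit 3800) (nat_lit 0) (XT.nd (nat_lit 468) (nat_lit 2660) (nat_lit 0) (XT.nd (nat_lit 234) (nat_lit 988) (nat_lit 0) (XT.nd (nat_lit 78) (nat_lit 1064) (nat_lit 0) (XT.lf (nat_lit 0) (nat_lit 9640851066)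 (nat_lit 532) (nat_lit 11063497989) (nat_lit 608) (nat_lit 10916158853) (nat_lit 216) (nat_lit 5) (nat_lit 223) (nat_lit 5) (nat_lit 224) (nat_lit 5) (nat_lit 389) (nat_lit 374) (nat_lit 257)) (XT.nd (nat_lit 78) (nat_lit 532) (nat_lit 0) (XT.lf (nat_lit 0) (nat_lit 6359007799) (nat_lit 532) (nat_lit 21111347545) (nat_lit 608) (nat_lit 5035629009) (nat_lit 209) (nat_lit 5) (nat_lit 216) (nat_lit 5) (nat_lit 217) (nat_lit 5) (nat_lit 390) (nat_lit 374) (nat_lit 256)) (XT.lf (nat_lit 0) (nat_lit 1493762815) (nat_lit 532) (nat_lit 30368351293) (nat_lit 76) (nat_lit 1561982478) (nat_lit 202) (nat_lit 5) (nat_lit 209) (nat_lit 5) (nat_lit 203) (nat_lit 5) (nat_lit 391) (nat_lit 374) (nat_lit 255)))) (XT.nd (nat_lit 78) (nat_lit 988) (nat_lit 0) (XT.lf (nat_lit 0) (nat_lit 8723700606) (nat_lit 532) (nat_lit 390127387) (nat_lit 76) (nat_lit 25258446183) (nat_lit 202) (nat_lit 5) (nat_lit 209) (nat_lit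 5) (nat_lit 203) (nat_lit 5) (nat_lit 392) (nat_lit 374) (nat_lit 254)) (XT.nd (nat_lit 78) (nat_lit 456) (nat_lit 0) (XT.lf (nat_lit 0) (nat_lit 16757545907) (nat_lit 608) (nat_lit 3806514711) (nat_lit 76) (nat_lit 14790529715) (nat_lit 195) (nat_lit 5) (nat_lit 203) (nat_lit 5) (nat_lit 196) (nat_lit 5) (nat_lit 393) (nat_lit 374) (nat_lit 253)) (XT.lf (nat_lit 0) (nat_lit 25597266883) (nat_lit 532) (nat_lit 7235027722) (nat_lit 76) (nat_lit 3541604101) (nat_lit 189) (nat_lit 5) (nat_lit 196) (nat_lit 5) (nat_lit 190) (nat_lit 5) (nat_lit 394) (nat_lit 374) (nat_lit 252))))) (XT.nd (nat_lit 234) (nat_lit 1216) (nat_lit 0) (XT.nd (nat_lit 78) (nat_lit 988) (nat_lit 0) (XT.lf (nat_lit 0) (nat_lit 26672563288) (nat_lit 456) (nat_lit 8703156621) (nat_lit 532) (nat_lit 2053552025) (nat_lit 183) (nat_lit 5) (nat_lit 189) (nat_lit 5) (nat_lit 190) (nat_lit 5) (nat_lit 395) (nat_lit 374) (nat_lit 251))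 (XT.nd (nat_lit 78) (nat_lit 456) (nat_lit 0) (XT.lf (nat_lit 0) (nat_lit 7432720443) (nat_lit 532) (nat_lit 14401389228) (nat_lit 76) (nat_lit 16687285828) (nat_lit 176) (nat_lit 5) (nat_lit 183) (nat_lit 5) (nat_lit 177) (nat_lit 5) (nat_lit 396) (nat_lit 374) (nat_lit 250)) (XT.lf (nat_lit 0) (nat_lit 17789238767) (nat_lit 532) (nat_lit 18087949715) (nat_lit 76) (nat_lit 3777176310) (nat_lit 170) (nat_lit 5) (nat_lit 177) (nat_lit 5) (nat_lit 171) (nat_lit 5) (nat_lit 397) (nat_lit 374) (nat_lit 249)))) (XT.nd (nat_lit 78) (nat_lit 836) (nat_lit 0) (XT.lf (nat_lit 0) (nat_lit 18933802088) (nat_lit 380) (nat_lit 10275723894) (nat_lit 456) (nat_lit 11618079803) (nat_lit 165) (nat_lit 5) (nat_lit 170) (nat_lit 5) (nat_lit 171) (nat_lit 5) (nat_lit 398) (nat_lit 374) (nat_lit 248)) (XT.nd (nat_lit 78) (nat_lit 456) (nat_lit 0) (XT.lf (nat_lit 0) (nat_lit 16279119443) (nat_lit 380) (nat_lit 25419910274)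 (nat_lit 456) (nat_lit 345534499) (nat_lit 160) (nat_lit 5) (nat_lit 165) (nat_lit 5) (nat_lit 166) (nat_lit 5) (nat_lit 399) (nat_lit 374) (nat_lit 247)) (XT.lf (nat_lit 0) (nat_lit 11739623065) (nat_lit 456) (nat_lit 29780099433) (nat_lit 76) (nat_lit 1785139501) (nat_lit 154) (nat_lit 5) (nat_lit 160) (nat_lit 5) (nat_lit 155) (nat_lit 5) (nat_lit 400) (nat_lit 374) (nat_lit 246)))))) (XT.nd (nat_lit 468) (nat_lit 1976) (nat_lit 0) (XT.nd (nat_lit 234) (nat_lit 684) (nat_lit 0) (XT.nd (nat_lit 78) (nat_lit 760) (nat_lit 0) (XT.lf (nat_lit 0) (nat_lit 10634922689) (nat_lit 380) (nat_lit 14408081512) (nat_lit 456) (nat_lit 19566435759) (nat_lit 149) (nat_lit 5) (nat_lit 154) (nat_lit 5) (nat_lit 155) (nat_lit 5) (nat_lit 401) (nat_lit 374) (nat_lit 245)) (XT.nd (nat_lit 78) (nat_lit 456) (nat_lit 0) (XT.lf (nat_lit 0) (nat_lit 7728052851) (nat_lit 304) (nat_lit 31797093922) (nat_lit 380) (nat_lit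 6438693492) (nat_lit 145) (nat_lit 5) (nat_lit 149) (nat_lit 5) (nat_lit 150) (nat_lit 5) (nat_lit 402) (nat_lit 374) (nat_lit 244)) (XT.lf (nat_lit 0) (nat_lit 4715345992) (nat_lit 380) (nat_lit 3025406292) (nat_lit 456) (nat_lit 39626931595) (nat_lit 139) (nat_lit 5) (nat_lit 144) (nat_lit 5) (nat_lit 145) (nat_lit 5) (nat_lit 403) (nat_lit 374) (nat_lit 243)))) (XT.nd (nat_lit 78) (nat_lit 380) (nat_lit 0) (XT.lf (nat_lit 0) (nat_lit 1474364494) (nat_lit 304) (nat_lit 21690736215) (nat_lit 380) (nat_lit 25654634780) (nat_lit 135) (nat_lit 5) (nat_lit 139) (nat_lit 5) (nat_lit 140) (nat_lit 5) (nat_lit 404) (nat_lit 374) (nat_lit 242)) (XT.nd (nat_lit 78) (nat_lit 380) (nat_lit 0) (XT.lf (nat_lit 0) (nat_lit 39909942774) (nat_lit 380) (nat_lit 1754958568) (nat_lit 76) (nat_lit 8663011075) (nat_lit 135) (nat_lit 5) (nat_lit 140) (nat_lit 5) (nat_lit 136) (nat_lit 5) (nat_lit 405) (nat_lit 374)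 (nat_lit 241)) (XT.lf (nat_lit 0) (nat_lit 6142285969) (nat_lit 380) (nat_lit 5149383386) (nat_lit 76) (nat_lit 40598100873) (nat_lit 130) (nat_lit 5) (nat_lit 135) (nat_lit 5) (nat_lit 131) (nat_lit 5) (nat_lit 406) (nat_lit 374) (nat_lit 240))))) (XT.nd (nat_lit 234) (nat_lit 1064) (nat_lit 0) (XT.nd (nat_lit 78) (nat_lit 608) (nat_lit 0) (XT.lf (nat_lit 0) (nat_lit 23966132665) (nat_lit 380) (nat_lit 8784049580) (nat_lit 76) (nat_lit 20756914002) (nat_lit 126) (nat_lit 5) (nat_lit 131) (nat_lit 5) (nat_lit 127) (nat_lit 5) (nat_lit 407) (nat_lit 374) (nat_lit 239)) (XT.nd (nat_lit 78) (nat_lit 304) (nat_lit 0) (XT.lf (nat_lit 0) (nat_lit 42705112745) (nat_lit 304) (nat_lit 549576702) (nat_lit 380) (nat_lit 11933394443) (nat_lit 122) (nat_lit 5) (nat_lit 126) (nat_lit 5) (nat_lit 127) (nat_lit 5) (nat_lit 408) (nat_lit 374) (nat_lit 238)) (XT.lf (nat_lit 0) (nat_lit 7230176262) (nat_lit 304)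 (nat_lit 16535916141) (nat_lit 76) (nat_lit 33161033333) (nat_lit 118) (nat_lit 5) (nat_lit 122) (nat_lit 5) (nat_lit 119) (nat_lit 5) (nat_lit 409) (nat_lit 374) (nat_lit 237)))) (XT.nd (nat_lit 156) (nat_lit 532) (nat_lit 0) (XT.nd (nat_lit 78) (nat_lit 228) (nat_lit 0) (XT.lf (nat_lit 0) (nat_lit 27704248257) (nat_lit 380) (nat_lit 20805853305) (nat_lit 76) (nat_lit 10221500583) (nat_lit 114) (nat_lit 5) (nat_lit 119) (nat_lit 5) (nat_lit 115) (nat_lit 5) (nat_lit 410) (nat_lit 374) (nat_lit 236)) (XT.lf (nat_lit 0) (nat_lit 35275179354) (nat_lit 228) (nat_lit 14673576803) (nat_lit 304) (nat_lit 10655144969) (nat_lit 111) (nat_lit 5) (nat_lit 114) (nat_lit 5) (nat_lit 115) (nat_lit 5) (nat_lit 411) (nat_lit 374) (nat_lit 235))) (XT.nd (nat_lit 78) (nat_lit 228) (nat_lit 0) (XT.lf (nat_lit 0) (nat_lit 11258087843) (nat_lit 304) (nat_lit 30202418952) (nat_lit 76) (nat_lit 21084255836) (nat_lit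 107) (nat_lit 5) (nat_lit 111) (nat_lit 5) (nat_lit 108) (nat_lit 5) (nat_lit 412) (nat_lit 374) (nat_lit 234)) (XT.lf (nat_lit 0) (nat_lit 29155850660) (nat_lit 228) (nat_lit 5580570292) (nat_lit 304) (nat_lit 29822387893) (nat_lit 104) (nat_lit 5) (nat_lit 107) (nat_lit 5) (nat_lit 108) (nat_lit 5) (nat_lit 413) (nat_lit 374) (nat_lit 233))))))))
noncomputable def xc102 : XT := (XT.nd (nat_lit 50700) (nat_lit 0) (nat_lit 5168) (XT.nd (nat_lit 936) (nat_lit 760) (nat_lit 0) (XT.nd (nat_lit 468) (nat_lit 1064) (nat_lit 0) (XT.nd (nat_lit 234) (nat_lit 608) (nat_lit 0) (XT.nd (nat_lit 78) (nat_lit 532) (nat_lit 0) (XT.lf (nat_lit 0) (nat_lit 25631345198) (nat_lit 228) (nat_lit 34622371682) (nat_lit 304) (nat_lit 6393889710) (nat_lit 101) (nat_lit 5) (nat_lit 104) (nat_lit 5) (nat_lit 105) (nat_lit 5) (nat_lit 414) (nat_lit 374) (nat_lit 232)) (XT.nd (nat_lit 78) (nat_lit 228) (nat_lit 0) (XT.lf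 (nat_lit 0) (nat_lit 18513094149) (nat_lit 304) (nat_lit 47036824552) (nat_lit 76) (nat_lit 3265806070) (nat_lit 97) (nat_lit 5) (nat_lit 101) (nat_lit 5) (nat_lit 98) (nat_lit 5) (nat_lit 415) (nat_lit 374) (nat_lit 231)) (XT.lf (nat_lit 0) (nat_lit 17406869034) (nat_lit 228) (nat_lit 28067097944) (nat_lit 304) (nat_lit 25588159982) (nat_lit 94) (nat_lit 5) (nat_lit 97) (nat_lit 5) (nat_lit 98) (nat_lit 5) (nat_lit 416) (nat_lit 374) (nat_lit 230)))) (XT.nd (nat_lit 78) (nat_lit 380) (nat_lit 0) (XT.lf (nat_lit 0) (nat_lit 1078889625) (nat_lit 228) (nat_lit 60630415477) (nat_lit 76) (nat_lit 11689722644) (nat_lit 91) (nat_lit 5) (nat_lit 94) (nat_lit 5) (nat_lit 92) (nat_lit 5) (nat_lit 417) (nat_lit 374) (nat_lit 229)) (XT.nd (nat_lit 78) (nat_lit 152) (nat_lit 0) (XT.lf (nat_lit 0) (nat_lit 7390088877) (nat_lit 228) (nat_lit 22073584294) (nat_lit 304) (nat_lit 46354092908) (nat_lit 88) (nat_lit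 5) (nat_lit 91) (nat_lit 5) (nat_lit 92) (nat_lit 5) (nat_lit 418) (nat_lit 374) (nat_lit 228)) (XT.lf (nat_lit 0) (nat_lit 1570786151) (nat_lit 152) (nat_lit 58526818455) (nat_lit 228) (nat_lit 18234939906) (nat_lit 86) (nat_lit 5) (nat_lit 88) (nat_lit 5) (nat_lit 89) (nat_lit 5) (nat_lit 419) (nat_lit 374) (nat_lit 227))))) (XT.nd (nat_lit 234) (nat_lit 608) (nat_lit 0) (XT.nd (nat_lit 78) (nat_lit 380) (nat_lit 0) (XT.lf (nat_lit 0) (nat_lit 12000729309) (nat_lit 228) (nat_lit 4796734918) (nat_lit 76) (nat_lit 64144416096) (nat_lit 85) (nat_lit 5) (nat_lit 88) (nat_lit 5) (nat_lit 86) (nat_lit 5) (nat_lit 420) (nat_lit 374) (nat_lit 226)) (XT.nd (nat_lit 78) (nat_lit 152) (nat_lit 0) (XT.lf (nat_lit 0) (nat_lit 44331719496) (nat_lit 304) (nat_lit 11942104611) (nat_lit 76) (nat_lit 27373622971) (nat_lit 82) (nat_lit 5) (nat_lit 86) (nat_lit 5) (nat_lit 83) (nat_lit 5) (nat_lit 421) (nat_lit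 374) (nat_lit 225)) (XT.lf (nat_lit 0) (nat_lit 66773646450) (nat_lit 152) (nat_lit 12363825558) (nat_lit 228) (nat_lit 7325074151) (nat_lit 80) (nat_lit 5) (nat_lit 82) (nat_lit 5) (nat_lit 83) (nat_lit 5) (nat_lit 422) (nat_lit 374) (nat_lit 224)))) (XT.nd (nat_lit 78) (nat_lit 380) (nat_lit 0) (XT.lf (nat_lit 0) (nat_lit 26795862832) (nat_lit 228) (nat_lit 28528124831) (nat_lit 76) (nat_lit 34055540252) (nat_lit 77) (nat_lit 5) (nat_lit 80) (nat_lit 5) (nat_lit 78) (nat_lit 5) (nat_lit 423) (nat_lit 374) (nat_lit 223)) (XT.nd (nat_lit 78) (nat_lit 228) (nat_lit 0) (XT.lf (nat_lit 0) (nat_lit 54246601558) (nat_lit 152) (nat_lit 9074165475) (nat_lit 228) (nat_lit 29093933866) (nat_lit 75) (nat_lit 5) (nat_lit 77) (nat_lit 5) (nat_lit 78) (nat_lit 5) (nat_lit 424) (nat_lit 374) (nat_lit 222)) (XT.lf (nat_lit 0) (nat_lit 7085035273) (nat_lit 228) (nat_lit 48950512292) (nat_lit 76) (nat_lit 39530338599)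 (nat_lit 72) (nat_lit 5) (nat_lit 75) (nat_lit 5) (nat_lit 73) (nat_lit 5) (nat_lit 425) (nat_lit 374) (nat_lit 221)))))) (XT.nd (nat_lit 49218) (nat_lit 0) (nat_lit 14896) (XT.nd (nat_lit 234) (nat_lit 228) (nat_lit 0) (XT.nd (nat_lit 78) (nat_lit 380) (nat_lit 0) (XT.lf (nat_lit 0) (nat_lit 37918650584) (nat_lit 152) (nat_lit 7408279846) (nat_lit 228) (nat_lit 53513388247) (nat_lit 70) (nat_lit 5) (nat_lit 72) (nat_lit 5) (nat_lit 73) (nat_lit 5) (nat_lit 426) (nat_lit 374) (nat_lit 220)) (XT.nd (nat_lit 78) (nat_lit 228) (nat_lit 0) (XT.lf (nat_lit 0) (nat_lit 28007943190) (nat_lit 152) (nat_lit 58667968139) (nat_lit 228) (nat_lit 15566712031) (nat_lit 68) (nat_lit 5) (nat_lit 70) (nat_lit 5) (nat_lit 71) (nat_lit 5) (nat_lit 427) (nat_lit 374) (nat_lit 219)) (XT.lf (nat_lit 0) (nat_lit 16870990610) (nat_lit 152) (nat_lit 7800195992) (nat_lit 228) (nat_lit 81110827102) (nat_lit 65) (nat_lit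 5) (nat_lit 67) (nat_lit 5) (nat_lit 68) (nat_lit 5) (nat_lit 428) (nat_lit 374) (nat_lit 218)))) (XT.nd (nat_lit 78) (nat_lit 76) (nat_lit 0) (XT.lf (nat_lit 0) (nat_lit 4079582133) (nat_lit 152) (nat_lit 63769246963) (nat_lit 228) (nat_lit 41607427161) (nat_lit 63) (nat_lit 5) (nat_lit 65) (nat_lit 5) (nat_lit 66) (nat_lit 5) (nat_lit 429) (nat_lit 374) (nat_lit 217)) (XT.nd (nat_lit 48828) (nat_lit 0) (nat_lit 14820) (XT.lf (nat_lit 0) (nat_lit 874161117) (nat_lit 228) (nat_lit 9800209141) (nat_lit 76) (nat_lit 102609862948) (nat_lit 62) (nat_lit 5) (nat_lit 65) (nat_lit 5) (nat_lit 63) (nat_lit 5) (nat_lit 430) (nat_lit 374) (nat_lit 216)) (XT.lf (nat_lit 0) (nat_lit 2107332658) (nat_lit 1292) (nat_lit 4577451860) (nat_lit 1292) (nat_lit 4577451860) (nat_lit 257) (nat_lit 3) (nat_lit 274) (nat_lit 3) (nat_lit 274) (nat_lit 5) (nat_lit 375) (nat_lit 375) (nat_lit 270))))) (XT.nd (nat_lit 234)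 (nat_lit 0) (nat_lit 152) (XT.nd (nat_lit 78) (nat_lit 0) (nat_lit 0) (XT.lf (nat_lit 0) (nat_lit 4665055603) (nat_lit 1216) (nat_lit 13854179923) (nat_lit 1292) (nat_lit 4557929255) (nat_lit 258) (nat_lit 5) (nat_lit 274) (nat_lit 5) (nat_lit 275) (nat_lit 5) (nat_lit 376) (nat_lit 375) (nat_lit 269)) (XT.nd (nat_lit 78) (nat_lit 0) (nat_lit 76) (XT.lf (nat_lit 76) (nat_lit 5010737314) (nat_lit 0) (nat_lit 391983540) (nat_lit 1292) (nat_lit 18246832311) (nat_lit 259) (nat_lit 5) (nat_lit 258) (nat_lit 5) (nat_lit 275) (nat_lit 5) (nat_lit 377) (nat_lit 375) (nat_lit 268)) (XT.lf (nat_lit 76) (nat_lit 687122528) (nat_lit 0) (nat_lit 5807074561) (nat_lit 1292) (nat_lit 17746860259) (nat_lit 260) (nat_lit 5) (nat_lit 259) (nat_lit 5) (nat_lit 276) (nat_lit 5) (nat_lit 378) (nat_lit 375) (nat_lit 267)))) (XT.nd (nat_lit 156) (nat_lit 0) (nat_lit 152) (XT.nd (nat_lit 78) (nat_lit 0) (nat_lit 76)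 (XT.lf (nat_lit 0) (nat_lit 7953768465) (nat_lit 1216) (nat_lit 3629496240) (nat_lit 1292) (nat_lit 13269470407) (nat_lit 260) (nat_lit 5) (nat_lit 276) (nat_lit 5) (nat_lit 277) (nat_lit 5) (nat_lit 379) (nat_lit 375) (nat_lit 266)) (XT.lf (nat_lit 0) (nat_lit 9777684993) (nat_lit 1216) (nat_lit 7996399641) (nat_lit 1292) (nat_lit 7712174951) (nat_lit 261) (nat_lit 5) (nat_lit 277) (nat_lit 5) (nat_lit 278) (nat_lit 5) (nat_lit 380) (nat_lit 375) (nat_lit 265))) (XT.nd (nat_lit 78) (nat_lit 0) (nat_lit 0) (XT.lf (nat_lit 0) (nat_lit 11985225162) (nat_lit 1216) (nat_lit 12426553135) (nat_lit 1292) (nat_lit 1730912789) (nat_lit 262) (nat_lit 5) (nat_lit 278) (nat_lit 5) (nat_lit 279) (nat_lit 5) (nat_lit 381) (nat_lit 375) (nat_lit 264)) (XT.lf (nat_lit 76) (nat_lit 9856127909) (nat_lit 0) (nat_lit 4793575050) (nat_lit 1292) (nat_lit 12171847850) (nat_lit 263) (nat_lit 5) (nat_lit 262) (nat_lit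 5) (nat_lit 279) (nat_lit 5) (nat_lit 382) (nat_lit 375) (nat_lit 263))))))) (XT.nd (nat_lit 936) (nat_lit 4940) (nat_lit 0) (XT.nd (nat_lit 468) (nat_lit 2736) (nat_lit 0) (XT.nd (nat_lit 234) (nat_lit 2432) (nat_lit 0) (XT.nd (nat_lit 78) (nat_lit 0) (nat_lit 76) (XT.lf (nat_lit 76) (nat_lit 5936727444) (nat_lit 0) (nat_lit 11838613574) (nat_lit 1292) (nat_lit 9749177710) (nat_lit 264) (nat_lit 5) (nat_lit 263) (nat_lit 5) (nat_lit 280) (nat_lit 5) (nat_lit 383) (nat_lit 375) (nat_lit 262)) (XT.nd (nat_lit 78) (nat_lit 0) (nat_lit 76) (XT.lf (nat_lit 76) (nat_lit 1977071229) (nat_lit 0) (nat_lit 19398532698) (nat_lit 1292) (nat_lit 6877483969) (nat_lit 265) (nat_lit 5) (nat_lit 264) (nat_lit 5) (nat_lit 281) (nat_lit 5) (nat_lit 384) (nat_lit 375) (nat_lit 261)) (XT.lf (nat_lit 0) (nat_lit 25501943077) (nat_lit 1216) (nat_lit 1981549272) (nat_lit 76) (nat_lit 1524214275) (nat_lit 265) (nat_lit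 5) (nat_lit 281) (nat_lit 5) (nat_lit 266) (nat_lit 5) (nat_lit 385) (nat_lit 375) (nat_lit 260)))) (XT.nd (nat_lit 78) (nat_lit 1292) (nat_lit 0) (XT.lf (nat_lit 0) (nat_lit 453478213) (nat_lit 1292) (nat_lit 6003790435) (nat_lit 76) (nat_lit 23330192164) (nat_lit 248) (nat_lit 5) (nat_lit 265) (nat_lit 5) (nat_lit 249) (nat_lit 5) (nat_lit 386) (nat_lit 375) (nat_lit 259)) (XT.nd (nat_lit 78) (nat_lit 608) (nat_lit 0) (XT.lf (nat_lit 0) (nat_lit 4901763386) (nat_lit 760) (nat_lit 10119268289) (nat_lit 76) (nat_lit 15573224778) (nat_lit 239) (nat_lit 5) (nat_lit 249) (nat_lit 5) (nat_lit 240) (nat_lit 5) (nat_lit 387) (nat_lit 375) (nat_lit 258)) (XT.lf (nat_lit 0) (nat_lit 9928129521) (nat_lit 684) (nat_lit 14277479534) (nat_lit 76) (nat_lit 7225115332) (nat_lit 231) (nat_lit 5) (nat_lit 240) (nat_lit 5) (nat_lit 232) (nat_lit 5) (nat_lit 388) (nat_lit 375) (nat_lit 257))))) (XT.nd (nat_lit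 234) (nat_lit 1064) (nat_lit 0) (XT.nd (nat_lit 78) (nat_lit 1064) (nat_lit 0) (XT.lf (nat_lit 0) (nat_lit 13803868748) (nat_lit 608) (nat_lit 1783429912) (nat_lit 684) (nat_lit 16710274907) (nat_lit 223) (nat_lit 5) (nat_lit 231) (nat_lit 5) (nat_lit 232) (nat_lit 5) (nat_lit 389) (nat_lit 375) (nat_lit 256)) (XT.nd (nat_lit 78) (nat_lit 532) (nat_lit 0) (XT.lf (nat_lit 0) (nat_lit 10368162697) (nat_lit 532) (nat_lit 11610819322) (nat_lit 608) (nat_lit 11215298789) (nat_lit 216) (nat_lit 5) (nat_lit 223) (nat_lit 5) (nat_lit 224) (nat_lit 5) (nat_lit 390) (nat_lit 375) (nat_lit 255)) (XT.lf (nat_lit 0) (nat_lit 6922186627) (nat_lit 532) (nat_lit 22152112131) (nat_lit 608) (nat_lit 5050005348) (nat_lit 209) (nat_lit 5) (nat_lit 216) (nat_lit 5) (nat_lit 217) (nat_lit 5) (nat_lit 391) (nat_lit 375) (nat_lit 254)))) (XT.nd (nat_lit 78) (nat_lit 532) (nat_lit 0) (XT.lf (nat_lit 0) (nat_lit 1792652750)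 (nat_lit 532) (nat_lit 31637404933) (nat_lit 76) (nat_lit 1658456008) (nat_lit 202) (nat_lit 5) (nat_lit 209) (nat_lit 5) (nat_lit 203) (nat_lit 5) (nat_lit 392) (nat_lit 375) (nat_lit 253)) (XT.nd (nat_lit 78) (nat_lit 532) (nat_lit 0) (XT.lf (nat_lit 0) (nat_lit 9373411155) (nat_lit 532) (nat_lit 172144305) (nat_lit 76) (nat_lit 26538867927) (nat_lit 202) (nat_lit 5) (nat_lit 209) (nat_lit 5) (nat_lit 203) (nat_lit 5) (nat_lit 393) (nat_lit 375) (nat_lit 252)) (XT.lf (nat_lit 0) (nat_lit 17801239636) (nat_lit 608) (nat_lit 3760176735) (nat_lit 76) (nat_lit 15554673050) (nat_lit 195) (nat_lit 5) (nat_lit 203) (nat_lit 5) (nat_lit 196) (nat_lit 5) (nat_lit 394) (nat_lit 375) (nat_lit 251)))))) (XT.nd (nat_lit 468) (nat_lit 2280) (nat_lit 0) (XT.nd (nat_lit 234) (nat_lit 1216) (nat_lit 0) (XT.nd (nat_lit 78) (nat_lit 988) (nat_lit 0) (XT.lf (nat_lit 0) (nat_lit 27075659905) (nat_lit 532) (nat_lit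 7361203561) (nat_lit 76) (nat_lit 3749721012) (nat_lit 189) (nat_lit 5) (nat_lit 196) (nat_lit 5) (nat_lit 190) (nat_lit 5) (nat_lit 395) (nat_lit 375) (nat_lit 250)) (XT.nd (nat_lit 78) (nat_lit 532) (nat_lit 0) (XT.lf (nat_lit 0) (nat_lit 28235014274) (nat_lit 456) (nat_lit 9100767100) (nat_lit 532) (nat_lit 1959165158) (nat_lit 183) (nat_lit 5) (nat_lit 189) (nat_lit 5) (nat_lit 190) (nat_lit 5) (nat_lit 396) (nat_lit 375) (nat_lit 249)) (XT.lf (nat_lit 0) (nat_lit 7990930607) (nat_lit 532) (nat_lit 14890162447) (nat_lit 76) (nat_lit 17560728083) (nat_lit 176) (nat_lit 5) (nat_lit 183) (nat_lit 5) (nat_lit 177) (nat_lit 5) (nat_lit 397) (nat_lit 375) (nat_lit 248)))) (XT.nd (nat_lit 78) (nat_lit 760) (nat_lit 0) (XT.lf (nat_lit 0) (nat_lit 18858980800) (nat_lit 532) (nat_lit 18762671669) (nat_lit 76) (nat_lit 4009977481) (nat_lit 170) (nat_lit 5) (nat_lit 177) (nat_lit 5) (nat_lit 171) (nat_lit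 5) (nat_lit 398) (nat_lit 375) (nat_lit 247)) (XT.nd (nat_lit 78) (nat_lit 380) (nat_lit 0) (XT.lf (nat_lit 0) (nat_lit 20103584121) (nat_lit 380) (nat_lit 10740257985) (nat_lit 456) (nat_lit 12019886223) (nat_lit 165) (nat_lit 5) (nat_lit 170) (nat_lit 5) (nat_lit 171) (nat_lit 5) (nat_lit 399) (nat_lit 375) (nat_lit 246)) (XT.lf (nat_lit 0) (nat_lit 17314419621) (nat_lit 380) (nat_lit 26637701911) (nat_lit 456) (nat_lit 189586160) (nat_lit 160) (nat_lit 5) (nat_lit 165) (nat_lit 5) (nat_lit 166) (nat_lit 5) (nat_lit 400) (nat_lit 375) (nat_lit 245))))) (XT.nd (nat_lit 234) (nat_lit 1140) (nat_lit 0) (XT.nd (nat_lit 78) (nat_lit 684) (nat_lit 0) (XT.lf (nat_lit 0) (nat_lit 12490983378) (nat_lit 456) (nat_lit 31046353833) (nat_lit 76) (nat_lit 1927799042) (nat_lit 154) (nat_lit 5) (nat_lit 160) (nat_lit 5) (nat_lit 155) (nat_lit 5) (nat_lit 401) (nat_lit 375) (nat_lit 244)) (XT.nd (nat_lit 78)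 (nat_lit 304) (nat_lit 0) (XT.lf (nat_lit 0) (nat_lit 11383034295) (nat_lit 380) (nat_lit 15070751535) (nat_lit 456) (nat_lit 20381331499) (nat_lit 149) (nat_lit 5) (nat_lit 154) (nat_lit 5) (nat_lit 155) (nat_lit 5) (nat_lit 402) (nat_lit 375) (nat_lit 243)) (XT.lf (nat_lit 0) (nat_lit 8328737017) (nat_lit 304) (nat_lit 33326332990) (nat_lit 380) (nat_lit 6602318308) (nat_lit 145) (nat_lit 5) (nat_lit 149) (nat_lit 5) (nat_lit 150) (nat_lit 5) (nat_lit 403) (nat_lit 375) (nat_lit 242)))) (XT.nd (nat_lit 156) (nat_lit 380) (nat_lit 0) (XT.nd (nat_lit 78) (nat_lit 304) (nat_lit 0) (XT.lf (nat_lit 0) (nat_lit 5162285174) (nat_lit 380) (nat_lit 3115363840) (nat_lit 456) (nat_lit 41453891859) (nat_lit 139) (nat_lit 5) (nat_lit 144) (nat_lit 5) (nat_lit 145) (nat_lit 5) (nat_lit 404) (nat_lit 375) (nat_lit 241)) (XT.lf (nat_lit 0) (nat_lit 1757026348) (nat_lit 304) (nat_lit 22711622169) (nat_lit 380)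 (nat_lit 26787685035) (nat_lit 135) (nat_lit 5) (nat_lit 139) (nat_lit 5) (nat_lit 140) (nat_lit 5) (nat_lit 405) (nat_lit 375) (nat_lit 240))) (XT.nd (nat_lit 78) (nat_lit 380) (nat_lit 0) (XT.lf (nat_lit 0) (nat_lit 42044396697) (nat_lit 380) (nat_lit 1640115552) (nat_lit 76) (nat_lit 9155598581) (nat_lit 135) (nat_lit 5) (nat_lit 140) (nat_lit 5) (nat_lit 136) (nat_lit 5) (nat_lit 406) (nat_lit 375) (nat_lit 239)) (XT.lf (nat_lit 0) (nat_lit 6584987308) (nat_lit 380) (nat_lit 5207344036) (nat_lit 76) (nat_lit 42687833428) (nat_lit 130) (nat_lit 5) (nat_lit 135) (nat_lit 5) (nat_lit 131) (nat_lit 5) (nat_lit 407) (nat_lit 375) (nat_lit 238))))))))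
noncomputable def xc103 : XT := (XT.nd (nat_lit 50778) (nat_lit 0) (nat_lit 6916) (XT.nd (nat_lit 936) (nat_lit 1900) (nat_lit 0) (XT.nd (nat_lit 468) (nat_lit 1444) (nat_lit 0) (XT.nd (nat_lit 234) (nat_lit 836) (nat_lit 0) (XT.nd (nat_lit 78) (nat_lit 608) (nat_lit 0) (XT.lf (nat_lit 0) (nat_lit 25296036274) (nat_lit 380) (nat_lit 9026111146) (nat_lit 76) (nat_lit 21856330628) (nat_lit 126) (nat_lit 5) (nat_lit 131) (nat_lit 5) (nat_lit 127) (nat_lit 5) (nat_lit 408) (nat_lit 375) (nat_lit 237)) (XT.nd (nat_lit 78) (nat_lit 304) (nat_lit 0) (XT.lf (nat_lit 0) (nat_lit 45031858290) (nat_lit 304) (nat_lit 512736801) (nat_lit 380) (nat_lit 12399053953) (nat_lit 122) (nat_lit 5) (nat_lit 126) (nat_lit 5) (nat_lit 127) (nat_lit 5) (nat_lit 409) (nat_lit 375) (nat_lit 236)) (XT.lf (nat_lit 0) (nat_lit 7716452649) (nat_lit 304) (nat_lit 17171077388) (nat_lit 76) (nat_lit 34882186854) (nat_lit 118)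 (nat_lit 5) (nat_lit 122) (nat_lit 5) (nat_lit 119) (nat_lit 5) (nat_lit 410) (nat_lit 375) (nat_lit 235)))) (XT.nd (nat_lit 78) (nat_lit 532) (nat_lit 0) (XT.lf (nat_lit 0) (nat_lit 29210706110) (nat_lit 380) (nat_lit 21656994933) (nat_lit 76) (nat_lit 10796822795) (nat_lit 114) (nat_lit 5) (nat_lit 119) (nat_lit 5) (nat_lit 115) (nat_lit 5) (nat_lit 411) (nat_lit 375) (nat_lit 234)) (XT.nd (nat_lit 78) (nat_lit 304) (nat_lit 0) (XT.lf (nat_lit 0) (nat_lit 37222667382) (nat_lit 228) (nat_lit 15340764546) (nat_lit 304) (nat_lit 11067127066) (nat_lit 111) (nat_lit 5) (nat_lit 114) (nat_lit 5) (nat_lit 115) (nat_lit 5) (nat_lit 412) (nat_lit 375) (nat_lit 233)) (XT.lf (nat_lit 0) (nat_lit 11936146204) (nat_lit 304) (nat_lit 31528952103) (nat_lit 76) (nat_lit 22203429297) (nat_lit 107) (nat_lit 5) (nat_lit 111) (nat_lit 5) (nat_lit 108) (nat_lit 5) (nat_lit 413) (nat_lit 375) (nat_lit 232))))) (XT.nd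 (nat_lit 234) (nat_lit 684) (nat_lit 0) (XT.nd (nat_lit 78) (nat_lit 532) (nat_lit 0) (XT.lf (nat_lit 0) (nat_lit 30791968482) (nat_lit 228) (nat_lit 5792658137) (nat_lit 304) (nat_lit 31198763474) (nat_lit 104) (nat_lit 5) (nat_lit 107) (nat_lit 5) (nat_lit 108) (nat_lit 5) (nat_lit 414) (nat_lit 375) (nat_lit 231)) (XT.nd (nat_lit 78) (nat_lit 304) (nat_lit 0) (XT.lf (nat_lit 0) (nat_lit 27088763963) (nat_lit 228) (nat_lit 36286022576) (nat_lit 304) (nat_lit 6601932051) (nat_lit 101) (nat_lit 5) (nat_lit 104) (nat_lit 5) (nat_lit 105) (nat_lit 5) (nat_lit 415) (nat_lit 375) (nat_lit 230)) (XT.lf (nat_lit 0) (nat_lit 19545315916) (nat_lit 304) (nat_lit 49213173889) (nat_lit 76) (nat_lit 3494808644) (nat_lit 97) (nat_lit 5) (nat_lit 101) (nat_lit 5) (nat_lit 98) (nat_lit 5) (nat_lit 416) (nat_lit 375) (nat_lit 229)))) (XT.nd (nat_lit 78) (nat_lit 456) (nat_lit 0) (XT.lf (nat_lit 0) (nat_lit 18447673936)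 (nat_lit 228) (nat_lit 29403122408) (nat_lit 304) (nat_lit 26761328226) (nat_lit 94) (nat_lit 5) (nat_lit 97) (nat_lit 5) (nat_lit 98) (nat_lit 5) (nat_lit 417) (nat_lit 375) (nat_lit 228)) (XT.nd (nat_lit 78) (nat_lit 228) (nat_lit 0) (XT.lf (nat_lit 0) (nat_lit 1234293509) (nat_lit 228) (nat_lit 63491937153) (nat_lit 76) (nat_lit 12339690997) (nat_lit 91) (nat_lit 5) (nat_lit 94) (nat_lit 5) (nat_lit 92) (nat_lit 5) (nat_lit 418) (nat_lit 375) (nat_lit 227)) (XT.lf (nat_lit 0) (nat_lit 7924719429) (nat_lit 228) (nat_lit 23110352697) (nat_lit 304) (nat_lit 48570622758) (nat_lit 88) (nat_lit 5) (nat_lit 91) (nat_lit 5) (nat_lit 92) (nat_lit 5) (nat_lit 419) (nat_lit 375) (nat_lit 226)))))) (XT.nd (nat_lit 468) (nat_lit 912) (nat_lit 0) (XT.nd (nat_lit 234) (nat_lit 532) (nat_lit 0) (XT.nd (nat_lit 78) (nat_lit 304) (nat_lit 0) (XT.lf (nat_lit 0) (nat_lit 1811968173) (nat_lit 152) (nat_lit 61386231021)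 (nat_lit 228) (nat_lit 19048088694) (nat_lit 86) (nat_lit 5) (nat_lit 88) (nat_lit 5) (nat_lit 89) (nat_lit 5) (nat_lit 420) (nat_lit 375) (nat_lit 225)) (XT.nd (nat_lit 78) (nat_lit 228) (nat_lit 0) (XT.lf (nat_lit 0) (nat_lit 12692836443) (nat_lit 228) (nat_lit 4879829971) (nat_lit 76) (nat_lit 67413534323) (nat_lit 85) (nat_lit 5) (nat_lit 88) (nat_lit 5) (nat_lit 86) (nat_lit 5) (nat_lit 421) (nat_lit 375) (nat_lit 224)) (XT.lf (nat_lit 0) (nat_lit 46638061875) (nat_lit 304) (nat_lit 12384882231) (nat_lit 76) (nat_lit 28804171699) (nat_lit 82) (nat_lit 5) (nat_lit 86) (nat_lit 5) (nat_lit 83) (nat_lit 5) (nat_lit 422) (nat_lit 375) (nat_lit 223)))) (XT.nd (nat_lit 78) (nat_lit 380) (nat_lit 0) (XT.lf (nat_lit 0) (nat_lit 70262232614) (nat_lit 152) (nat_lit 12919036251) (nat_lit 228) (nat_lit 7601786489) (nat_lit 80) (nat_lit 5) (nat_lit 82) (nat_lit 5) (nat_lit 83) (nat_lit 5) (nat_lit 423)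 (nat_lit 375) (nat_lit 222)) (XT.nd (nat_lit 78) (nat_lit 152) (nat_lit 0) (XT.lf (nat_lit 0) (nat_lit 28221284184) (nat_lit 228) (nat_lit 29805255384) (nat_lit 76) (nat_lit 35819386266) (nat_lit 77) (nat_lit 5) (nat_lit 80) (nat_lit 5) (nat_lit 78) (nat_lit 5) (nat_lit 424) (nat_lit 375) (nat_lit 221)) (XT.lf (nat_lit 0) (nat_lit 57103928367) (nat_lit 152) (nat_lit 9465821492) (nat_lit 228) (nat_lit 30463188579) (nat_lit 75) (nat_lit 5) (nat_lit 77) (nat_lit 5) (nat_lit 78) (nat_lit 5) (nat_lit 425) (nat_lit 375) (nat_lit 220))))) (XT.nd (nat_lit 234) (nat_lit 380) (nat_lit 0) (XT.nd (nat_lit 78) (nat_lit 304) (nat_lit 0) (XT.lf (nat_lit 0) (nat_lit 7521031344) (nat_lit 228) (nat_lit 51253715596) (nat_lit 76) (nat_lit 41566972723) (nat_lit 72) (nat_lit 5) (nat_lit 75) (nat_lit 5) (nat_lit 73) (nat_lit 5) (nat_lit 426) (nat_lit 375) (nat_lit 219)) (XT.nd (nat_lit 78) (nat_lit 152) (nat_lit 0)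 (XT.lf (nat_lit 0) (nat_lit 39954768454) (nat_lit 152) (nat_lit 7717707765) (nat_lit 228) (nat_lit 56107474336) (nat_lit 70) (nat_lit 5) (nat_lit 72) (nat_lit 5) (nat_lit 73) (nat_lit 5) (nat_lit 427) (nat_lit 375) (nat_lit 218)) (XT.lf (nat_lit 0) (nat_lit 29546253591) (nat_lit 152) (nat_lit 61540765205) (nat_lit 228) (nat_lit 16265408683) (nat_lit 68) (nat_lit 5) (nat_lit 70) (nat_lit 5) (nat_lit 71) (nat_lit 5) (nat_lit 428) (nat_lit 375) (nat_lit 217)))) (XT.nd (nat_lit 48984) (nat_lit 0) (nat_lit 14744) (XT.nd (nat_lit 78) (nat_lit 152) (nat_lit 0) (XT.lf (nat_lit 0) (nat_lit 17850016877) (nat_lit 152) (nat_lit 8130397918) (nat_lit 228) (nat_lit 85088422415) (nat_lit 65) (nat_lit 5) (nat_lit 67) (nat_lit 5) (nat_lit 68) (nat_lit 5) (nat_lit 429) (nat_lit 375) (nat_lit 216)) (XT.lf (nat_lit 0) (nat_lit 4416808036) (nat_lit 152) (nat_lit 66898356481) (nat_lit 228) (nat_lit 43611680959) (nat_lit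 63) (nat_lit 5) (nat_lit 65) (nat_lit 5) (nat_lit 66) (nat_lit 5) (nat_lit 430) (nat_lit 375) (nat_lit 215))) (XT.nd (nat_lit 78) (nat_lit 0) (nat_lit 76) (XT.lf (nat_lit 0) (nat_lit 2420639932) (nat_lit 1292) (nat_lit 4699201019) (nat_lit 1292) (nat_lit 4699201019) (nat_lit 257) (nat_lit 3) (nat_lit 274) (nat_lit 3) (nat_lit 274) (nat_lit 5) (nat_lit 376) (nat_lit 376) (nat_lit 268)) (XT.lf (nat_lit 0) (nat_lit 5294560104) (nat_lit 1216) (nat_lit 14324885391) (nat_lit 1292) (nat_lit 4599560437) (nat_lit 258) (nat_lit 5) (nat_lit 274) (nat_lit 5) (nat_lit 275) (nat_lit 5) (nat_lit 377) (nat_lit 376) (nat_lit 267))))))) (XT.nd (nat_lit 936) (nat_lit 5852) (nat_lit 0) (XT.nd (nat_lit 468) (nat_lit 2052) (nat_lit 0) (XT.nd (nat_lit 234) (nat_lit 0) (nat_lit 228) (XT.nd (nat_lit 78) (nat_lit 0) (nat_lit 76) (XT.lf (nat_lit 76) (nat_lit 5476914022) (nat_lit 0) (nat_lit 575398328) (nat_lit 1292) (nat_lit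 18768211441) (nat_lit 259) (nat_lit 5) (nat_lit 258) (nat_lit 5) (nat_lit 275) (nat_lit 5) (nat_lit 378) (nat_lit 376) (nat_lit 266)) (XT.nd (nat_lit 78) (nat_lit 0) (nat_lit 76) (XT.lf (nat_lit 76) (nat_lit 943643967) (nat_lit 0) (nat_lit 6237285000) (nat_lit 1292) (nat_lit 18261203093) (nat_lit 260) (nat_lit 5) (nat_lit 259) (nat_lit 5) (nat_lit 276) (nat_lit 5) (nat_lit 379) (nat_lit 376) (nat_lit 265)) (XT.lf (nat_lit 0) (nat_lit 8694959399) (nat_lit 1216) (nat_lit 3587649283) (nat_lit 1292) (nat_lit 13802346210) (nat_lit 260) (nat_lit 5) (nat_lit 276) (nat_lit 5) (nat_lit 277) (nat_lit 5) (nat_lit 380) (nat_lit 376) (nat_lit 264)))) (XT.nd (nat_lit 78) (nat_lit 0) (nat_lit 76) (XT.lf (nat_lit 0) (nat_lit 10594720068) (nat_lit 1216) (nat_lit 8168236251) (nat_lit 1292) (nat_lit 7987665150) (nat_lit 261) (nat_lit 5) (nat_lit 277) (nat_lit 5) (nat_lit 278) (nat_lit 5) (nat_lit 381) (nat_lit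 376) (nat_lit 263)) (XT.nd (nat_lit 78) (nat_lit 0) (nat_lit 0) (XT.lf (nat_lit 0) (nat_lit 12898243768) (nat_lit 1216) (nat_lit 12815995479) (nat_lit 1292) (nat_lit 1726072178) (nat_lit 262) (nat_lit 5) (nat_lit 278) (nat_lit 5) (nat_lit 279) (nat_lit 5) (nat_lit 382) (nat_lit 376) (nat_lit 262)) (XT.lf (nat_lit 76) (nat_lit 10574172672) (nat_lit 0) (nat_lit 5108997086) (nat_lit 1292) (nat_lit 12470332479) (nat_lit 263) (nat_lit 5) (nat_lit 262) (nat_lit 5) (nat_lit 279) (nat_lit 5) (nat_lit 383) (nat_lit 376) (nat_lit 261))))) (XT.nd (nat_lit 234) (nat_lit 2432) (nat_lit 0) (XT.nd (nat_lit 78) (nat_lit 0) (nat_lit 76) (XT.lf (nat_lit 76) (nat_lit 6461917506) (nat_lit 0) (nat_lit 12490341410) (nat_lit 1292) (nat_lit 9939749163) (nat_lit 264) (nat_lit 5) (nat_lit 263) (nat_lit 5) (nat_lit 280) (nat_lit 5) (nat_lit 384) (nat_lit 376) (nat_lit 260)) (XT.nd (nat_lit 78) (nat_lit 0) (nat_lit 76)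 (XT.lf (nat_lit 76) (nat_lit 2306777250) (nat_lit 0) (nat_lit 20413707911) (nat_lit 1292) (nat_lit 6936886423) (nat_lit 265) (nat_lit 5) (nat_lit 264) (nat_lit 5) (nat_lit 281) (nat_lit 5) (nat_lit 385) (nat_lit 376) (nat_lit 259)) (XT.lf (nat_lit 0) (nat_lit 27039579355) (nat_lit 1216) (nat_lit 1852380903) (nat_lit 76) (nat_lit 1558172023) (nat_lit 265) (nat_lit 5) (nat_lit 281) (nat_lit 5) (nat_lit 266) (nat_lit 5) (nat_lit 386) (nat_lit 376) (nat_lit 258)))) (XT.nd (nat_lit 78) (nat_lit 1292) (nat_lit 0) (XT.lf (nat_lit 0) (nat_lit 730895223) (nat_lit 1292) (nat_lit 6077129649) (nat_lit 76) (nat_lit 24461089480) (nat_lit 248) (nat_lit 5) (nat_lit 265) (nat_lit 5) (nat_lit 249) (nat_lit 5) (nat_lit 387) (nat_lit 376) (nat_lit 257)) (XT.nd (nat_lit 78) (nat_lit 608) (nat_lit 0) (XT.lf (nat_lit 0) (nat_lit 5391347764) (nat_lit 760) (nat_lit 10397234181) (nat_lit 76) (nat_lit 16327978913) (nat_lit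 239) (nat_lit 5) (nat_lit 249) (nat_lit 5) (nat_lit 240) (nat_lit 5) (nat_lit 388) (nat_lit 376) (nat_lit 256)) (XT.lf (nat_lit 0) (nat_lit 10659388391) (nat_lit 684) (nat_lit 14762642024) (nat_lit 76) (nat_lit 7573114589) (nat_lit 231) (nat_lit 5) (nat_lit 240) (nat_lit 5) (nat_lit 232) (nat_lit 5) (nat_lit 389) (nat_lit 376) (nat_lit 255)))))) (XT.nd (nat_lit 468) (nat_lit 3116) (nat_lit 0) (XT.nd (nat_lit 234) (nat_lit 1064) (nat_lit 0) (XT.nd (nat_lit 78) (nat_lit 1064) (nat_lit 0) (XT.lf (nat_lit 0) (nat_lit 14716217703) (nat_lit 608) (nat_lit 1876250331) (nat_lit 684) (nat_lit 17313143382) (nat_lit 223) (nat_lit 5) (nat_lit 231) (nat_lit 5) (nat_lit 232) (nat_lit 5) (nat_lit 390) (nat_lit 376) (nat_lit 254)) (XT.nd (nat_lit 78) (nat_lit 532) (nat_lit 0) (XT.lf (nat_lit 0) (nat_lit 11109037114) (nat_lit 532) (nat_lit 12186050931) (nat_lit 608) (nat_lit 11552328575) (nat_lit 216) (nat_lit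 5) (nat_lit 223) (nat_lit 5) (nat_lit 224) (nat_lit 5) (nat_lit 391) (nat_lit 376) (nat_lit 253)) (XT.lf (nat_lit 0) (nat_lit 7490725380) (nat_lit 532) (nat_lit 23246291169) (nat_lit 608) (nat_lit 5087172180) (nat_lit 209) (nat_lit 5) (nat_lit 216) (nat_lit 5) (nat_lit 217) (nat_lit 5) (nat_lit 392) (nat_lit 376) (nat_lit 252)))) (XT.nd (nat_lit 78) (nat_lit 532) (nat_lit 0) (XT.lf (nat_lit 0) (nat_lit 2085643025) (nat_lit 532) (nat_lit 32993094749) (nat_lit 76) (nat_lit 1758044936) (nat_lit 202) (nat_lit 5) (nat_lit 209) (nat_lit 5) (nat_lit 203) (nat_lit 5) (nat_lit 393) (nat_lit 376) (nat_lit 251)) (XT.nd (nat_lit 78) (nat_lit 0) (nat_lit 0) (XT.lf (nat_lit 0) (nat_lit 35348183) (nat_lit 532) (nat_lit 10000747257) (nat_lit 608) (nat_lit 27846675431) (nat_lit 195) (nat_lit 5) (nat_lit 202) (nat_lit 5) (nat_lit 203) (nat_lit 5) (nat_lit 394) (nat_lit 376) (nat_lit 250)) (XT.lf (nat_lit 0) (nat_lit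 18877983190) (nat_lit 608) (nat_lit 3733524609) (nat_lit 76) (nat_lit 16354734910) (nat_lit 195) (nat_lit 5) (nat_lit 203) (nat_lit 5) (nat_lit 196) (nat_lit 5) (nat_lit 395) (nat_lit 376) (nat_lit 249))))) (XT.nd (nat_lit 234) (nat_lit 1672) (nat_lit 0) (XT.nd (nat_lit 78) (nat_lit 988) (nat_lit 0) (XT.lf (nat_lit 0) (nat_lit 28609515171) (nat_lit 532) (nat_lit 7515589773) (nat_lit 76) (nat_lit 3965358270) (nat_lit 189) (nat_lit 5) (nat_lit 196) (nat_lit 5) (nat_lit 190) (nat_lit 5) (nat_lit 396) (nat_lit 376) (nat_lit 248)) (XT.nd (nat_lit 78) (nat_lit 532) (nat_lit 0) (XT.lf (nat_lit 0) (nat_lit 29854314032) (nat_lit 456) (nat_lit 9521748899) (nat_lit 532) (nat_lit 1878380134) (nat_lit 183) (nat_lit 5) (nat_lit 189) (nat_lit 5) (nat_lit 190) (nat_lit 5) (nat_lit 397) (nat_lit 376) (nat_lit 247)) (XT.lf (nat_lit 0) (nat_lit 8559705383) (nat_lit 532) (nat_lit 15424878060) (nat_lit 76) (nat_lit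 18474209353) (nat_lit 176) (nat_lit 5) (nat_lit 183) (nat_lit 5) (nat_lit 177) (nat_lit 5) (nat_lit 398) (nat_lit 376) (nat_lit 246)))) (XT.nd (nat_lit 156) (nat_lit 836) (nat_lit 0) (XT.nd (nat_lit 78) (nat_lit 380) (nat_lit 0) (XT.lf (nat_lit 0) (nat_lit 19965449200) (nat_lit 532) (nat_lit 19492482775) (nat_lit 76) (nat_lit 4250333367) (nat_lit 170) (nat_lit 5) (nat_lit 177) (nat_lit 5) (nat_lit 171) (nat_lit 5) (nat_lit 399) (nat_lit 376) (nat_lit 245)) (XT.lf (nat_lit 0) (nat_lit 21311114283) (nat_lit 380) (nat_lit 11232597773) (nat_lit 456) (nat_lit 12458433759) (nat_lit 165) (nat_lit 5) (nat_lit 170) (nat_lit 5) (nat_lit 171) (nat_lit 5) (nat_lit 400) (nat_lit 376) (nat_lit 244))) (XT.nd (nat_lit 78) (nat_lit 456) (nat_lit 0) (XT.lf (nat_lit 0) (nat_lit 18380906323) (nat_lit 380) (nat_lit 27921329523) (nat_lit 456) (nat_lit 41945228) (nat_lit 160) (nat_lit 5) (nat_lit 165) (nat_lit 5) (nat_lit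 166) (nat_lit 5) (nat_lit 401) (nat_lit 376) (nat_lit 243)) (XT.lf (nat_lit 0) (nat_lit 13264629291) (nat_lit 456) (nat_lit 32396630191) (nat_lit 76) (nat_lit 2072626695) (nat_lit 154) (nat_lit 5) (nat_lit 160) (nat_lit 5) (nat_lit 155) (nat_lit 5) (nat_lit 402) (nat_lit 376) (nat_lit 242))))))))
noncomputable def xc104 : XT := (XT.nd (nat_lit 1872) (nat_lit 760) (nat_lit 0) (XT.nd (nat_lit 936) (nat_lit 2432) (nat_lit 0) (XT.nd (nat_lit 468) (nat_lit 1748) (nat_lit 0) (XT.nd (nat_lit 234) (nat_lit 684) (nat_lit 0) (XT.nd (nat_lit 78) (nat_lit 760) (nat_lit 0) (XT.lf (nat_lit 0) (nat_lit 12148435869) (nat_lit 380) (nat_lit 15771922625) (nat_lit 456) (nat_lit 21252165831) (nat_lit 149) (nat_lit 5) (nat_lit 154) (nat_lit 5) (nat_lit 155) (nat_lit 5) (nat_lit 403) (nat_lit 376) (nat_lit 241)) (XT.nd (nat_lit 78) (nat_lit 456) (nat_lit 0) (XT.lf (nat_lit 0) (nat_lit 8939533526) (nat_lit 304) (nat_lit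 34937669477) (nat_lit 380) (nat_lit 6788842516) (nat_lit 145) (nat_lit 5) (nat_lit 149) (nat_lit 5) (nat_lit 150) (nat_lit 5) (nat_lit 404) (nat_lit 376) (nat_lit 240)) (XT.lf (nat_lit 0) (nat_lit 5611938555) (nat_lit 380) (nat_lit 3215519546) (nat_lit 456) (nat_lit 43386553513) (nat_lit 139) (nat_lit 5) (nat_lit 144) (nat_lit 5) (nat_lit 145) (nat_lit 5) (nat_lit 405) (nat_lit 376) (nat_lit 239)))) (XT.nd (nat_lit 78) (nat_lit 380) (nat_lit 0) (XT.lf (nat_lit 0) (nat_lit 2034395697) (nat_lit 304) (nat_lit 23789470073) (nat_lit 380) (nat_lit 27991303768) (nat_lit 135) (nat_lit 5) (nat_lit 139) (nat_lit 5) (nat_lit 140) (nat_lit 5) (nat_lit 406) (nat_lit 376) (nat_lit 238)) (XT.nd (nat_lit 78) (nat_lit 380) (nat_lit 0) (XT.lf (nat_lit 0) (nat_lit 44272654431) (nat_lit 380) (nat_lit 1538365371) (nat_lit 76) (nat_lit 9667289578) (nat_lit 135) (nat_lit 5) (nat_lit 140) (nat_lit 5) (nat_lit 136) (nat_lit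 5) (nat_lit 407) (nat_lit 376) (nat_lit 237)) (XT.lf (nat_lit 0) (nat_lit 7037218116) (nat_lit 380) (nat_lit 5286751129) (nat_lit 76) (nat_lit 44876490416) (nat_lit 130) (nat_lit 5) (nat_lit 135) (nat_lit 5) (nat_lit 131) (nat_lit 5) (nat_lit 408) (nat_lit 376) (nat_lit 236))))) (XT.nd (nat_lit 234) (nat_lit 836) (nat_lit 0) (XT.nd (nat_lit 78) (nat_lit 608) (nat_lit 0) (XT.lf (nat_lit 0) (nat_lit 26680200424) (nat_lit 380) (nat_lit 9298604085) (nat_lit 76) (nat_lit 23004993805) (nat_lit 126) (nat_lit 5) (nat_lit 131) (nat_lit 5) (nat_lit 127) (nat_lit 5) (nat_lit 409) (nat_lit 376) (nat_lit 235)) (XT.nd (nat_lit 78) (nat_lit 304) (nat_lit 0) (XT.lf (nat_lit 0) (nat_lit 47457138196) (nat_lit 304) (nat_lit 480034651) (nat_lit 380) (nat_lit 12900176526) (nat_lit 122) (nat_lit 5) (nat_lit 126) (nat_lit 5) (nat_lit 127) (nat_lit 5) (nat_lit 410) (nat_lit 376) (nat_lit 234)) (XT.lf (nat_lit 0) (nat_lit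 8215443149) (nat_lit 304) (nat_lit 17855813064) (nat_lit 76) (nat_lit 36683531438) (nat_lit 118) (nat_lit 5) (nat_lit 122) (nat_lit 5) (nat_lit 119) (nat_lit 5) (nat_lit 411) (nat_lit 376) (nat_lit 233)))) (XT.nd (nat_lit 78) (nat_lit 532) (nat_lit 0) (XT.lf (nat_lit 0) (nat_lit 30781214604) (nat_lit 380) (nat_lit 22568279113) (nat_lit 76) (nat_lit 11394938023) (nat_lit 114) (nat_lit 5) (nat_lit 119) (nat_lit 5) (nat_lit 115) (nat_lit 5) (nat_lit 412) (nat_lit 376) (nat_lit 232)) (XT.nd (nat_lit 78) (nat_lit 304) (nat_lit 0) (XT.lf (nat_lit 0) (nat_lit 39250448426) (nat_lit 228) (nat_lit 16047493388) (nat_lit 304) (nat_lit 11510936796) (nat_lit 111) (nat_lit 5) (nat_lit 114) (nat_lit 5) (nat_lit 115) (nat_lit 5) (nat_lit 413) (nat_lit 376) (nat_lit 231)) (XT.lf (nat_lit 0) (nat_lit 12637401559) (nat_lit 304) (nat_lit 32938880166) (nat_lit 76) (nat_lit 23372522003) (nat_lit 107) (nat_lit 5) (nat_lit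 111) (nat_lit 5) (nat_lit 108) (nat_lit 5) (nat_lit 414) (nat_lit 376) (nat_lit 230)))))) (XT.nd (nat_lit 468) (nat_lit 988) (nat_lit 0) (XT.nd (nat_lit 234) (nat_lit 684) (nat_lit 0) (XT.nd (nat_lit 78) (nat_lit 532) (nat_lit 0) (XT.lf (nat_lit 0) (nat_lit 32493313200) (nat_lit 228) (nat_lit 6021573883) (nat_lit 304) (nat_lit 32654625627) (nat_lit 104) (nat_lit 5) (nat_lit 107) (nat_lit 5) (nat_lit 108) (nat_lit 5) (nat_lit 415) (nat_lit 376) (nat_lit 229)) (XT.nd (nat_lit 78) (nat_lit 304) (nat_lit 0) (XT.lf (nat_lit 0) (nat_lit 28602704659) (nat_lit 228) (nat_lit 38039128522) (nat_lit 304) (nat_lit 6830756868) (nat_lit 101) (nat_lit 5) (nat_lit 104) (nat_lit 5) (nat_lit 105) (nat_lit 5) (nat_lit 416) (nat_lit 376) (nat_lit 228)) (XT.lf (nat_lit 0) (nat_lit 20619241177) (nat_lit 304) (nat_lit 51514656266) (nat_lit 76) (nat_lit 3729152043) (nat_lit 97) (nat_lit 5) (nat_lit 101) (nat_lit 5) (nat_lit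 98) (nat_lit 5) (nat_lit 417) (nat_lit 376) (nat_lit 227)))) (XT.nd (nat_lit 78) (nat_lit 456) (nat_lit 0) (XT.lf (nat_lit 0) (nat_lit 19524671194) (nat_lit 228) (nat_lit 30812207841) (nat_lit 304) (nat_lit 28003032047) (nat_lit 94) (nat_lit 5) (nat_lit 97) (nat_lit 5) (nat_lit 98) (nat_lit 5) (nat_lit 418) (nat_lit 376) (nat_lit 226)) (XT.nd (nat_lit 78) (nat_lit 228) (nat_lit 0) (XT.lf (nat_lit 0) (nat_lit 1388034855) (nat_lit 228) (nat_lit 66512339818) (nat_lit 76) (nat_lit 13016069851) (nat_lit 91) (nat_lit 5) (nat_lit 94) (nat_lit 5) (nat_lit 92) (nat_lit 5) (nat_lit 419) (nat_lit 376) (nat_lit 225)) (XT.lf (nat_lit 0) (nat_lit 8470729647) (nat_lit 228) (nat_lit 24205180254) (nat_lit 304) (nat_lit 50907385375) (nat_lit 88) (nat_lit 5) (nat_lit 91) (nat_lit 5) (nat_lit 92) (nat_lit 5) (nat_lit 420) (nat_lit 376) (nat_lit 224))))) (XT.nd (nat_lit 234) (nat_lit 532) (nat_lit 0) (XT.nd (nat_lit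 78) (nat_lit 304) (nat_lit 0) (XT.lf (nat_lit 0) (nat_lit 2050088319) (nat_lit 152) (nat_lit 64394836580) (nat_lit 228) (nat_lit 19911061647) (nat_lit 86) (nat_lit 5) (nat_lit 88) (nat_lit 5) (nat_lit 89) (nat_lit 5) (nat_lit 421) (nat_lit 376) (nat_lit 223)) (XT.nd (nat_lit 78) (nat_lit 228) (nat_lit 0) (XT.lf (nat_lit 0) (nat_lit 13410989076) (nat_lit 228) (nat_lit 4981652133) (nat_lit 76) (nat_lit 70840353826) (nat_lit 85) (nat_lit 5) (nat_lit 88) (nat_lit 5) (nat_lit 86) (nat_lit 5) (nat_lit 422) (nat_lit 376) (nat_lit 222)) (XT.lf (nat_lit 0) (nat_lit 49051376672) (nat_lit 304) (nat_lit 12864146649) (nat_lit 76) (nat_lit 30300496003) (nat_lit 82) (nat_lit 5) (nat_lit 86) (nat_lit 5) (nat_lit 83) (nat_lit 5) (nat_lit 423) (nat_lit 376) (nat_lit 221)))) (XT.nd (nat_lit 78) (nat_lit 380) (nat_lit 0) (XT.lf (nat_lit 0) (nat_lit 73911311448) (nat_lit 152) (nat_lit 13507862816) (nat_lit 228) (nat_lit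 7900659152) (nat_lit 80) (nat_lit 5) (nat_lit 82) (nat_lit 5) (nat_lit 83) (nat_lit 5) (nat_lit 424) (nat_lit 376) (nat_lit 220)) (XT.nd (nat_lit 78) (nat_lit 152) (nat_lit 0) (XT.lf (nat_lit 0) (nat_lit 29710015705) (nat_lit 228) (nat_lit 31160120703) (nat_lit 76) (nat_lit 37665746964) (nat_lit 77) (nat_lit 5) (nat_lit 80) (nat_lit 5) (nat_lit 78) (nat_lit 5) (nat_lit 425) (nat_lit 376) (nat_lit 219)) (XT.lf (nat_lit 0) (nat_lit 60090641095) (nat_lit 152) (nat_lit 9882829340) (nat_lit 228) (nat_lit 31908849614) (nat_lit 75) (nat_lit 5) (nat_lit 77) (nat_lit 5) (nat_lit 78) (nat_lit 5) (nat_lit 426) (nat_lit 376) (nat_lit 218))))))) (XT.nd (nat_lit 49842) (nat_lit 0) (nat_lit 9424) (XT.nd (nat_lit 49374) (nat_lit 0) (nat_lit 14668) (XT.nd (nat_lit 234) (nat_lit 228) (nat_lit 0) (XT.nd (nat_lit 78) (nat_lit 304) (nat_lit 0) (XT.lf (nat_lit 0) (nat_lit 7971227407) (nat_lit 228) (nat_lit 53685496785)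 (nat_lit 76) (nat_lit 43699849426) (nat_lit 72) (nat_lit 5) (nat_lit 75) (nat_lit 5) (nat_lit 73) (nat_lit 5) (nat_lit 427) (nat_lit 376) (nat_lit 217)) (XT.nd (nat_lit 78) (nat_lit 152) (nat_lit 0) (XT.lf (nat_lit 0) (nat_lit 42079659113) (nat_lit 152) (nat_lit 8048276988) (nat_lit 228) (nat_lit 58838849574) (nat_lit 70) (nat_lit 5) (nat_lit 72) (nat_lit 5) (nat_lit 73) (nat_lit 5) (nat_lit 428) (nat_lit 376) (nat_lit 216)) (XT.lf (nat_lit 0) (nat_lit 31148657646) (nat_lit 152) (nat_lit 64562836263) (nat_lit 228) (nat_lit 17006444243) (nat_lit 68) (nat_lit 5) (nat_lit 70) (nat_lit 5) (nat_lit 71) (nat_lit 5) (nat_lit 429) (nat_lit 376) (nat_lit 215)))) (XT.nd (nat_lit 48984) (nat_lit 0) (nat_lit 14592) (XT.lf (nat_lit 0) (nat_lit 18865399114) (nat_lit 152) (nat_lit 8482670310) (nat_lit 228) (nat_lit 89272144179) (nat_lit 65) (nat_lit 5) (nat_lit 67) (nat_lit 5) (nat_lit 68) (nat_lit 5) (nat_lit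 430) (nat_lit 376) (nat_lit 214)) (XT.nd (nat_lit 78) (nat_lit 0) (nat_lit 76) (XT.lf (nat_lit 0) (nat_lit 2730280221) (nat_lit 1292) (nat_lit 4836996958) (nat_lit 1292) (nat_lit 4836996958) (nat_lit 257) (nat_lit 3) (nat_lit 274) (nat_lit 3) (nat_lit 274) (nat_lit 5) (nat_lit 377) (nat_lit 377) (nat_lit 266)) (XT.lf (nat_lit 0) (nat_lit 5918700100) (nat_lit 1216) (nat_lit 14839765916) (nat_lit 1292) (nat_lit 4660590358) (nat_lit 258) (nat_lit 5) (nat_lit 274) (nat_lit 5) (nat_lit 275) (nat_lit 5) (nat_lit 378) (nat_lit 377) (nat_lit 265))))) (XT.nd (nat_lit 234) (nat_lit 0) (nat_lit 228) (XT.nd (nat_lit 78) (nat_lit 0) (nat_lit 76) (XT.lf (nat_lit 76) (nat_lit 5946351417) (nat_lit 0) (nat_lit 752753832) (nat_lit 1292) (nat_lit 19352007513) (nat_lit 259) (nat_lit 5) (nat_lit 258) (nat_lit 5) (nat_lit 275) (nat_lit 5) (nat_lit 379) (nat_lit 377) (nat_lit 264)) (XT.nd (nat_lit 78) (nat_lit 0) (nat_lit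 76) (XT.lf (nat_lit 76) (nat_lit 1192336653) (nat_lit 0) (nat_lit 6676003410) (nat_lit 1292) (nat_lit 18835941089) (nat_lit 260) (nat_lit 5) (nat_lit 259) (nat_lit 5) (nat_lit 276) (nat_lit 5) (nat_lit 380) (nat_lit 377) (nat_lit 263)) (XT.lf (nat_lit 0) (nat_lit 9441274271) (nat_lit 1216) (nat_lit 3564472320) (nat_lit 1292) (nat_lit 14374007541) (nat_lit 260) (nat_lit 5) (nat_lit 276) (nat_lit 5) (nat_lit 277) (nat_lit 5) (nat_lit 381) (nat_lit 377) (nat_lit 262)))) (XT.nd (nat_lit 78) (nat_lit 0) (nat_lit 76) (XT.lf (nat_lit 0) (nat_lit 11422098542) (nat_lit 1216) (nat_lit 8369860424) (nat_lit 1292) (nat_lit 8287167638) (nat_lit 261) (nat_lit 5) (nat_lit 277) (nat_lit 5) (nat_lit 278) (nat_lit 5) (nat_lit 382) (nat_lit 377) (nat_lit 261)) (XT.nd (nat_lit 78) (nat_lit 0) (nat_lit 0) (XT.lf (nat_lit 0) (nat_lit 13827743120) (nat_lit 1216) (nat_lit 13246468438) (nat_lit 1292) (nat_lit 1729485763)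 (nat_lit 262) (nat_lit 5) (nat_lit 278) (nat_lit 5) (nat_lit 279) (nat_lit 5) (nat_lit 383) (nat_lit 377) (nat_lit 260)) (XT.lf (nat_lit 76) (nat_lit 11307179145) (nat_lit 0) (nat_lit 5433148331) (nat_lit 1292) (nat_lit 12812572220) (nat_lit 263) (nat_lit 5) (nat_lit 262) (nat_lit 5) (nat_lit 279) (nat_lit 5) (nat_lit 384) (nat_lit 377) (nat_lit 259)))))) (XT.nd (nat_lit 468) (nat_lit 3192) (nat_lit 0) (XT.nd (nat_lit 234) (nat_lit 2432) (nat_lit 0) (XT.nd (nat_lit 78) (nat_lit 0) (nat_lit 76) (XT.lf (nat_lit 76) (nat_lit 6992136909) (nat_lit 0) (nat_lit 13169096265) (nat_lit 1292) (nat_lit 10167450969) (nat_lit 264) (nat_lit 5) (nat_lit 263) (nat_lit 5) (nat_lit 280) (nat_lit 5) (nat_lit 385) (nat_lit 377) (nat_lit 258)) (XT.nd (nat_lit 78) (nat_lit 0) (nat_lit 76) (XT.lf (nat_lit 76) (nat_lit 2631506099) (nat_lit 0) (nat_lit 21475435100) (nat_lit 1292) (nat_lit 7025706485) (nat_lit 265) (nat_lit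 5) (nat_lit 264) (nat_lit 5) (nat_lit 281) (nat_lit 5) (nat_lit 386) (nat_lit 377) (nat_lit 257)) (XT.lf (nat_lit 0) (nat_lit 28629689048) (nat_lit 1216) (nat_lit 1737974249) (nat_lit 76) (nat_lit 1597755937) (nat_lit 265) (nat_lit 5) (nat_lit 281) (nat_lit 5) (nat_lit 266) (nat_lit 5) (nat_lit 387) (nat_lit 377) (nat_lit 256)))) (XT.nd (nat_lit 78) (nat_lit 1292) (nat_lit 0) (XT.lf (nat_lit 0) (nat_lit 998499483) (nat_lit 1292) (nat_lit 6175226215) (nat_lit 76) (nat_lit 25651842555) (nat_lit 248) (nat_lit 5) (nat_lit 265) (nat_lit 5) (nat_lit 249) (nat_lit 5) (nat_lit 388) (nat_lit 377) (nat_lit 255)) (XT.nd (nat_lit 78) (nat_lit 608) (nat_lit 0) (XT.lf (nat_lit 0) (nat_lit 5882680420) (nat_lit 760) (nat_lit 10710295416) (nat_lit 76) (nat_lit 17122693411) (nat_lit 239) (nat_lit 5) (nat_lit 249) (nat_lit 5) (nat_lit 240) (nat_lit 5) (nat_lit 389) (nat_lit 377) (nat_lit 254)) (XT.lf (nat_lit 0)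 (nat_lit 11405375855) (nat_lit 684) (nat_lit 15293326065) (nat_lit 76) (nat_lit 7939746273) (nat_lit 231) (nat_lit 5) (nat_lit 240) (nat_lit 5) (nat_lit 232) (nat_lit 5) (nat_lit 390) (nat_lit 377) (nat_lit 253))))) (XT.nd (nat_lit 234) (nat_lit 1520) (nat_lit 0) (XT.nd (nat_lit 78) (nat_lit 1064) (nat_lit 0) (XT.lf (nat_lit 0) (nat_lit 15653530192) (nat_lit 608) (nat_lit 1973372529) (nat_lit 684) (nat_lit 17967784432) (nat_lit 223) (nat_lit 5) (nat_lit 231) (nat_lit 5) (nat_lit 232) (nat_lit 5) (nat_lit 391) (nat_lit 377) (nat_lit 252)) (XT.nd (nat_lit 78) (nat_lit 532) (nat_lit 0) (XT.lf (nat_lit 0) (nat_lit 11866272447) (nat_lit 532) (nat_lit 12790537734) (nat_lit 608) (nat_lit 11927010625) (nat_lit 216) (nat_lit 5) (nat_lit 223) (nat_lit 5) (nat_lit 224) (nat_lit 5) (nat_lit 392) (nat_lit 377) (nat_lit 251)) (XT.lf (nat_lit 0) (nat_lit 8067011691) (nat_lit 532) (nat_lit 24396427435) (nat_lit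 608) (nat_lit 5146217017) (nat_lit 209) (nat_lit 5) (nat_lit 216) (nat_lit 5) (nat_lit 217) (nat_lit 5) (nat_lit 393) (nat_lit 377) (nat_lit 250)))) (XT.nd (nat_lit 156) (nat_lit 456) (nat_lit 0) (XT.nd (nat_lit 78) (nat_lit 532) (nat_lit 0) (XT.lf (nat_lit 0) (nat_lit 2374376547) (nat_lit 532) (nat_lit 34437597169) (nat_lit 76) (nat_lit 1861063852) (nat_lit 202) (nat_lit 5) (nat_lit 209) (nat_lit 5) (nat_lit 203) (nat_lit 5) (nat_lit 394) (nat_lit 377) (nat_lit 249)) (XT.lf (nat_lit 0) (nat_lit 236387260) (nat_lit 532) (nat_lit 10479096446) (nat_lit 608) (nat_lit 29056049884) (nat_lit 195) (nat_lit 5) (nat_lit 202) (nat_lit 5) (nat_lit 203) (nat_lit 5) (nat_lit 395) (nat_lit 377) (nat_lit 248))) (XT.nd (nat_lit 78) (nat_lit 456) (nat_lit 0) (XT.lf (nat_lit 0) (nat_lit 19991208039) (nat_lit 608) (nat_lit 3725497018) (nat_lit 76) (nat_lit 17192723998) (nat_lit 195) (nat_lit 5) (nat_lit 203) (nat_lit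 5) (nat_lit 196) (nat_lit 5) (nat_lit 396) (nat_lit 377) (nat_lit 247)) (XT.lf (nat_lit 0) (nat_lit 30203321786) (nat_lit 532) (nat_lit 7697560676) (nat_lit 76) (nat_lit 4189160159) (nat_lit 189) (nat_lit 5) (nat_lit 196) (nat_lit 5) (nat_lit 190) (nat_lit 5) (nat_lit 397) (nat_lit 377) (nat_lit 246))))))))
noncomputable def xc105 : XT := (XT.nd (nat_lit 1950) (nat_lit 1368) (nat_lit 0) (XT.nd (nat_lit 936) (nat_lit 3344) (nat_lit 0) (XT.nd (nat_lit 468) (nat_lit 1824) (nat_lit 0) (XT.nd (nat_lit 234) (nat_lit 1216) (nat_lit 0) (XT.nd (nat_lit 78) (nat_lit 988) (nat_lit 0) (XT.lf (nat_lit 0) (nat_lit 31535282835) (nat_lit 456) (nat_lit 9966946044) (nat_lit 532) (nat_lit 1810173715) (nat_lit 183) (nat_lit 5) (nat_lit 189) (nat_lit 5) (nat_lit 190) (nat_lit 5) (nat_lit 398) (nat_lit 377) (nat_lit 245)) (XT.nd (nat_lit 78) (nat_lit 456) (nat_lit 0) (XT.lf (nat_lit 0) (nat_lit 9141185660) (nat_lit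 532) (nat_lit 16005833972) (nat_lit 76) (nat_lit 19430069358) (nat_lit 176) (nat_lit 5) (nat_lit 183) (nat_lit 5) (nat_lit 177) (nat_lit 5) (nat_lit 399) (nat_lit 377) (nat_lit 244)) (XT.lf (nat_lit 0) (nat_lit 21112038540) (nat_lit 532) (nat_lit 20278152285) (nat_lit 76) (nat_lit 4499001520) (nat_lit 170) (nat_lit 5) (nat_lit 177) (nat_lit 5) (nat_lit 171) (nat_lit 5) (nat_lit 400) (nat_lit 377) (nat_lit 243)))) (XT.nd (nat_lit 78) (nat_lit 836) (nat_lit 0) (XT.lf (nat_lit 0) (nat_lit 22560208279) (nat_lit 380) (nat_lit 11753707834) (nat_lit 456) (nat_lit 12934011433) (nat_lit 165) (nat_lit 5) (nat_lit 170) (nat_lit 5) (nat_lit 171) (nat_lit 5) (nat_lit 401) (nat_lit 377) (nat_lit 242)) (XT.nd (nat_lit 78) (nat_lit 380) (nat_lit 0) (XT.lf (nat_lit 0) (nat_lit 96548690) (nat_lit 456) (nat_lit 29176101394) (nat_lit 76) (nat_lit 19384528422) (nat_lit 159) (nat_lit 5) (nat_lit 165) (nat_lit 5) (nat_lit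 160) (nat_lit 5) (nat_lit 402) (nat_lit 377) (nat_lit 241)) (XT.lf (nat_lit 0) (nat_lit 14063095898) (nat_lit 456) (nat_lit 33833204254) (nat_lit 76) (nat_lit 2220192452) (nat_lit 154) (nat_lit 5) (nat_lit 160) (nat_lit 5) (nat_lit 155) (nat_lit 5) (nat_lit 403) (nat_lit 377) (nat_lit 240))))) (XT.nd (nat_lit 234) (nat_lit 684) (nat_lit 0) (XT.nd (nat_lit 78) (nat_lit 760) (nat_lit 0) (XT.lf (nat_lit 0) (nat_lit 12933862071) (nat_lit 380) (nat_lit 16513020808) (nat_lit 456) (nat_lit 22180323109) (nat_lit 149) (nat_lit 5) (nat_lit 154) (nat_lit 5) (nat_lit 155) (nat_lit 5) (nat_lit 404) (nat_lit 377) (nat_lit 239)) (XT.nd (nat_lit 78) (nat_lit 456) (nat_lit 0) (XT.lf (nat_lit 0) (nat_lit 9562800142) (nat_lit 304) (nat_lit 36634684322) (nat_lit 380) (nat_lit 6998042729) (nat_lit 145) (nat_lit 5) (nat_lit 149) (nat_lit 5) (nat_lit 150) (nat_lit 5) (nat_lit 405) (nat_lit 377) (nat_lit 238)) (XT.lf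 (nat_lit 0) (nat_lit 6066267113) (nat_lit 380) (nat_lit 3325853358) (nat_lit 456) (nat_lit 45428867185) (nat_lit 139) (nat_lit 5) (nat_lit 144) (nat_lit 5) (nat_lit 145) (nat_lit 5) (nat_lit 406) (nat_lit 377) (nat_lit 237)))) (XT.nd (nat_lit 78) (nat_lit 380) (nat_lit 0) (XT.lf (nat_lit 0) (nat_lit 2308013923) (nat_lit 304) (nat_lit 24926577859) (nat_lit 380) (nat_lit 29267725628) (nat_lit 135) (nat_lit 5) (nat_lit 139) (nat_lit 5) (nat_lit 140) (nat_lit 5) (nat_lit 407) (nat_lit 377) (nat_lit 236)) (XT.nd (nat_lit 78) (nat_lit 380) (nat_lit 0) (XT.lf (nat_lit 0) (nat_lit 46600607242) (nat_lit 380) (nat_lit 1448611569) (nat_lit 76) (nat_lit 10199552985) (nat_lit 135) (nat_lit 5) (nat_lit 140) (nat_lit 5) (nat_lit 136) (nat_lit 5) (nat_lit 408) (nat_lit 377) (nat_lit 235)) (XT.lf (nat_lit 0) (nat_lit 7500626816) (nat_lit 380) (nat_lit 5386952533) (nat_lit 76) (nat_lit 47169535179) (nat_lit 130)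 (nat_lit 5) (nat_lit 135) (nat_lit 5) (nat_lit 131) (nat_lit 5) (nat_lit 409) (nat_lit 377) (nat_lit 234)))))) (XT.nd (nat_lit 468) (nat_lit 1596) (nat_lit 0) (XT.nd (nat_lit 234) (nat_lit 836) (nat_lit 0) (XT.nd (nat_lit 78) (nat_lit 608) (nat_lit 0) (XT.lf (nat_lit 0) (nat_lit 28122475603) (nat_lit 380) (nat_lit 9601345972) (nat_lit 76) (nat_lit 24205898049) (nat_lit 126) (nat_lit 5) (nat_lit 131) (nat_lit 5) (nat_lit 127) (nat_lit 5) (nat_lit 410) (nat_lit 377) (nat_lit 233)) (XT.nd (nat_lit 78) (nat_lit 304) (nat_lit 0) (XT.lf (nat_lit 0) (nat_lit 49987534327) (nat_lit 304) (nat_lit 451121200) (nat_lit 380) (nat_lit 13437402926) (nat_lit 122) (nat_lit 5) (nat_lit 126) (nat_lit 5) (nat_lit 127) (nat_lit 5) (nat_lit 411) (nat_lit 377) (nat_lit 232)) (XT.lf (nat_lit 0) (nat_lit 8728861898) (nat_lit 304) (nat_lit 18590945491) (nat_lit 76) (nat_lit 38569622062) (nat_lit 118) (nat_lit 5) (nat_lit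 122) (nat_lit 5) (nat_lit 119) (nat_lit 5) (nat_lit 412) (nat_lit 377) (nat_lit 231)))) (XT.nd (nat_lit 78) (nat_lit 532) (nat_lit 0) (XT.lf (nat_lit 0) (nat_lit 32420024258) (nat_lit 380) (nat_lit 23541078042) (nat_lit 76) (nat_lit 12017541241) (nat_lit 114) (nat_lit 5) (nat_lit 119) (nat_lit 5) (nat_lit 115) (nat_lit 5) (nat_lit 413) (nat_lit 377) (nat_lit 230)) (XT.nd (nat_lit 78) (nat_lit 304) (nat_lit 0) (XT.lf (nat_lit 0) (nat_lit 41364125200) (nat_lit 228) (nat_lit 16795165667) (nat_lit 304) (nat_lit 11987121620) (nat_lit 111) (nat_lit 5) (nat_lit 114) (nat_lit 5) (nat_lit 115) (nat_lit 5) (nat_lit 414) (nat_lit 377) (nat_lit 229)) (XT.lf (nat_lit 0) (nat_lit 13364009093) (nat_lit 304) (nat_lit 34434786040) (nat_lit 76) (nat_lit 24594591407) (nat_lit 107) (nat_lit 5) (nat_lit 111) (nat_lit 5) (nat_lit 108) (nat_lit 5) (nat_lit 415) (nat_lit 377) (nat_lit 228))))) (XT.nd (nat_lit 234) (nat_lit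 836) (nat_lit 0) (XT.nd (nat_lit 78) (nat_lit 532) (nat_lit 0) (XT.lf (nat_lit 0) (nat_lit 34264687516) (nat_lit 228) (nat_lit 6267580323) (nat_lit 304) (nat_lit 34192956889) (nat_lit 104) (nat_lit 5) (nat_lit 107) (nat_lit 5) (nat_lit 108) (nat_lit 5) (nat_lit 416) (nat_lit 377) (nat_lit 227)) (XT.nd (nat_lit 78) (nat_lit 304) (nat_lit 0) (XT.lf (nat_lit 0) (nat_lit 30177513360) (nat_lit 228) (nat_lit 39885579113) (nat_lit 304) (nat_lit 7080438216) (nat_lit 101) (nat_lit 5) (nat_lit 104) (nat_lit 5) (nat_lit 105) (nat_lit 5) (nat_lit 417) (nat_lit 377) (nat_lit 226)) (XT.lf (nat_lit 0) (nat_lit 21737876220) (nat_lit 304) (nat_lit 53946011466) (nat_lit 76) (nat_lit 3969671293) (nat_lit 97) (nat_lit 5) (nat_lit 101) (nat_lit 5) (nat_lit 98) (nat_lit 5) (nat_lit 418) (nat_lit 377) (nat_lit 225)))) (XT.nd (nat_lit 156) (nat_lit 380) (nat_lit 0) (XT.nd (nat_lit 78) (nat_lit 228) (nat_lit 0) (XT.lf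 (nat_lit 0) (nat_lit 20641143811) (nat_lit 228) (nat_lit 32297425320) (nat_lit 304) (nat_lit 29315779939) (nat_lit 94) (nat_lit 5) (nat_lit 97) (nat_lit 5) (nat_lit 98) (nat_lit 5) (nat_lit 419) (nat_lit 377) (nat_lit 224)) (XT.lf (nat_lit 0) (nat_lit 1540907500) (nat_lit 228) (nat_lit 69698098130) (nat_lit 76) (nat_lit 13720745729) (nat_lit 91) (nat_lit 5) (nat_lit 94) (nat_lit 5) (nat_lit 92) (nat_lit 5) (nat_lit 420) (nat_lit 377) (nat_lit 223))) (XT.nd (nat_lit 78) (nat_lit 152) (nat_lit 0) (XT.lf (nat_lit 0) (nat_lit 9030115787) (nat_lit 228) (nat_lit 25360391576) (nat_lit 304) (nat_lit 53369517889) (nat_lit 88) (nat_lit 5) (nat_lit 91) (nat_lit 5) (nat_lit 92) (nat_lit 5) (nat_lit 421) (nat_lit 377) (nat_lit 222)) (XT.lf (nat_lit 0) (nat_lit 2286399299) (nat_lit 152) (nat_lit 67559516284) (nat_lit 228) (nat_lit 20825497740) (nat_lit 86) (nat_lit 5) (nat_lit 88) (nat_lit 5) (nat_lit 89)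 (nat_lit 5) (nat_lit 422) (nat_lit 377) (nat_lit 221))))))) (XT.nd (nat_lit 49920) (nat_lit 0) (nat_lit 10716) (XT.nd (nat_lit 468) (nat_lit 304) (nat_lit 0) (XT.nd (nat_lit 234) (nat_lit 608) (nat_lit 0) (XT.nd (nat_lit 78) (nat_lit 380) (nat_lit 0) (XT.lf (nat_lit 0) (nat_lit 14157285296) (nat_lit 228) (nat_lit 5101782960) (nat_lit 76) (nat_lit 74433294680) (nat_lit 85) (nat_lit 5) (nat_lit 88) (nat_lit 5) (nat_lit 86) (nat_lit 5) (nat_lit 423) (nat_lit 377) (nat_lit 220)) (XT.nd (nat_lit 78) (nat_lit 152) (nat_lit 0) (XT.lf (nat_lit 0) (nat_lit 51577788321) (nat_lit 304) (nat_lit 13380388274) (nat_lit 76) (nat_lit 31866419414) (nat_lit 82) (nat_lit 5) (nat_lit 86) (nat_lit 5) (nat_lit 83) (nat_lit 5) (nat_lit 424) (nat_lit 377) (nat_lit 219)) (XT.lf (nat_lit 0) (nat_lit 77730203282) (nat_lit 152) (nat_lit 14131441674) (nat_lit 228) (nat_lit 8222026204) (nat_lit 80) (nat_lit 5) (nat_lit 82)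 (nat_lit 5) (nat_lit 83) (nat_lit 5) (nat_lit 425) (nat_lit 377) (nat_lit 218)))) (XT.nd (nat_lit 78) (nat_lit 380) (nat_lit 0) (XT.lf (nat_lit 0) (nat_lit 31265963031) (nat_lit 228) (nat_lit 32595317260) (nat_lit 76) (nat_lit 39599275931) (nat_lit 77) (nat_lit 5) (nat_lit 80) (nat_lit 5) (nat_lit 78) (nat_lit 5) (nat_lit 426) (nat_lit 377) (nat_lit 217)) (XT.nd (nat_lit 78) (nat_lit 228) (nat_lit 0) (XT.lf (nat_lit 0) (nat_lit 63214462319) (nat_lit 152) (nat_lit 10325920262) (nat_lit 228) (nat_lit 33433998766) (nat_lit 75) (nat_lit 5) (nat_lit 77) (nat_lit 5) (nat_lit 78) (nat_lit 5) (nat_lit 427) (nat_lit 377) (nat_lit 216)) (XT.lf (nat_lit 0) (nat_lit 8437040021) (nat_lit 228) (nat_lit 56251037302) (nat_lit 76) (nat_lit 45934300462) (nat_lit 72) (nat_lit 5) (nat_lit 75) (nat_lit 5) (nat_lit 73) (nat_lit 5) (nat_lit 428) (nat_lit 377) (nat_lit 215))))) (XT.nd (nat_lit 49218) (nat_lit 0) (nat_lit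 14440) (XT.nd (nat_lit 78) (nat_lit 152) (nat_lit 0) (XT.lf (nat_lit 0) (nat_lit 44298972896) (nat_lit 152) (nat_lit 8400517445) (nat_lit 228) (nat_lit 61713673251) (nat_lit 70) (nat_lit 5) (nat_lit 72) (nat_lit 5) (nat_lit 73) (nat_lit 5) (nat_lit 429) (nat_lit 377) (nat_lit 214)) (XT.nd (nat_lit 49062) (nat_lit 0) (nat_lit 14364) (XT.lf (nat_lit 0) (nat_lit 32819552093) (nat_lit 152) (nat_lit 67741121203) (nat_lit 228) (nat_lit 17791247294) (nat_lit 68) (nat_lit 5) (nat_lit 70) (nat_lit 5) (nat_lit 71) (nat_lit 5) (nat_lit 430) (nat_lit 377) (nat_lit 213)) (XT.lf (nat_lit 0) (nat_lit 3037867512) (nat_lit 1292) (nat_lit 4990716091) (nat_lit 1292) (nat_lit 4990716091) (nat_lit 257) (nat_lit 3) (nat_lit 274) (nat_lit 3) (nat_lit 274) (nat_lit 5) (nat_lit 378) (nat_lit 378) (nat_lit 264)))) (XT.nd (nat_lit 78) (nat_lit 0) (nat_lit 0) (XT.lf (nat_lit 0) (nat_lit 6540632376) (nat_lit 1216) (nat_lit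 15399111359) (nat_lit 1292) (nat_lit 4740378968) (nat_lit 258) (nat_lit 5) (nat_lit 274) (nat_lit 5) (nat_lit 275) (nat_lit 5) (nat_lit 379) (nat_lit 378) (nat_lit 263)) (XT.nd (nat_lit 78) (nat_lit 0) (nat_lit 76) (XT.lf (nat_lit 76) (nat_lit 6421076419) (nat_lit 0) (nat_lit 925163032) (nat_lit 1292) (nat_lit 19997962084) (nat_lit 259) (nat_lit 5) (nat_lit 258) (nat_lit 5) (nat_lit 275) (nat_lit 5) (nat_lit 380) (nat_lit 378) (nat_lit 262)) (XT.lf (nat_lit 76) (nat_lit 1434729439) (nat_lit 0) (nat_lit 7124864042) (nat_lit 1292) (nat_lit 19470869973) (nat_lit 260) (nat_lit 5) (nat_lit 259) (nat_lit 5) (nat_lit 276) (nat_lit 5) (nat_lit 381) (nat_lit 378) (nat_lit 261)))))) (XT.nd (nat_lit 468) (nat_lit 3876) (nat_lit 0) (XT.nd (nat_lit 234) (nat_lit 0) (nat_lit 152) (XT.nd (nat_lit 78) (nat_lit 0) (nat_lit 76) (XT.lf (nat_lit 0) (nat_lit 10195938350) (nat_lit 1216) (nat_lit 3558968565) (nat_lit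 1292) (nat_lit 14985264854) (nat_lit 260) (nat_lit 5) (nat_lit 276) (nat_lit 5) (nat_lit 277) (nat_lit 5) (nat_lit 382) (nat_lit 378) (nat_lit 260)) (XT.nd (nat_lit 78) (nat_lit 0) (nat_lit 76) (XT.lf (nat_lit 0) (nat_lit 12263173965) (nat_lit 1216) (nat_lit 8600790961) (nat_lit 1292) (nat_lit 8610931217) (nat_lit 261) (nat_lit 5) (nat_lit 277) (nat_lit 5) (nat_lit 278) (nat_lit 5) (nat_lit 383) (nat_lit 378) (nat_lit 259)) (XT.lf (nat_lit 0) (nat_lit 14777259222) (nat_lit 1216) (nat_lit 13718019239) (nat_lit 1292) (nat_lit 1740776356) (nat_lit 262) (nat_lit 5) (nat_lit 278) (nat_lit 5) (nat_lit 279) (nat_lit 5) (nat_lit 384) (nat_lit 378) (nat_lit 258)))) (XT.nd (nat_lit 78) (nat_lit 0) (nat_lit 76) (XT.lf (nat_lit 76) (nat_lit 12057842264) (nat_lit 0) (nat_lit 5767119935) (nat_lit 1292) (nat_lit 13198074407) (nat_lit 263) (nat_lit 5) (nat_lit 262) (nat_lit 5) (nat_lit 279) (nat_lit 5) (nat_lit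 385) (nat_lit 378) (nat_lit 257)) (XT.nd (nat_lit 78) (nat_lit 0) (nat_lit 76) (XT.lf (nat_lit 76) (nat_lit 7529610900) (nat_lit 0) (nat_lit 13876746347) (nat_lit 1292) (nat_lit 10431573492) (nat_lit 264) (nat_lit 5) (nat_lit 263) (nat_lit 5) (nat_lit 280) (nat_lit 5) (nat_lit 386) (nat_lit 378) (nat_lit 256)) (XT.lf (nat_lit 76) (nat_lit 2953004294) (nat_lit 0) (nat_lit 22586432972) (nat_lit 1292) (nat_lit 7142956201) (nat_lit 265) (nat_lit 5) (nat_lit 264) (nat_lit 5) (nat_lit 281) (nat_lit 5) (nat_lit 387) (nat_lit 378) (nat_lit 255))))) (XT.nd (nat_lit 234) (nat_lit 2280) (nat_lit 0) (XT.nd (nat_lit 78) (nat_lit 1976) (nat_lit 0) (XT.lf (nat_lit 0) (nat_lit 30277165088) (nat_lit 1216) (nat_lit 1637094550) (nat_lit 76) (nat_lit 1642882114) (nat_lit 265) (nat_lit 5) (nat_lit 281) (nat_lit 5) (nat_lit 266) (nat_lit 5) (nat_lit 388) (nat_lit 378) (nat_lit 254)) (XT.nd (nat_lit 78) (nat_lit 684)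 (nat_lit 0) (XT.lf (nat_lit 0) (nat_lit 1258002235) (nat_lit 1292) (nat_lit 6297357216) (nat_lit 76) (nat_lit 26905136362) (nat_lit 248) (nat_lit 5) (nat_lit 265) (nat_lit 5) (nat_lit 249) (nat_lit 5) (nat_lit 389) (nat_lit 378) (nat_lit 253)) (XT.lf (nat_lit 0) (nat_lit 6377962077) (nat_lit 760) (nat_lit 11058236061) (nat_lit 76) (nat_lit 17959159648) (nat_lit 239) (nat_lit 5) (nat_lit 249) (nat_lit 5) (nat_lit 240) (nat_lit 5) (nat_lit 390) (nat_lit 378) (nat_lit 252)))) (XT.nd (nat_lit 156) (nat_lit 1064) (nat_lit 0) (XT.nd (nat_lit 78) (nat_lit 608) (nat_lit 0) (XT.lf (nat_lit 0) (nat_lit 12168858294) (nat_lit 684) (nat_lit 15869830862) (nat_lit 76) (nat_lit 8325827423) (nat_lit 231) (nat_lit 5) (nat_lit 240) (nat_lit 5) (nat_lit 232) (nat_lit 5) (nat_lit 391) (nat_lit 378) (nat_lit 251)) (XT.lf (nat_lit 0) (nat_lit 16618974595) (nat_lit 608) (nat_lit 2075043134) (nat_lit 684) (nat_lit 18674775814)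 (nat_lit 223) (nat_lit 5) (nat_lit 231) (nat_lit 5) (nat_lit 232) (nat_lit 5) (nat_lit 392) (nat_lit 378) (nat_lit 250))) (XT.nd (nat_lit 78) (nat_lit 532) (nat_lit 0) (XT.lf (nat_lit 0) (nat_lit 12642609631) (nat_lit 532) (nat_lit 13425696600) (nat_lit 608) (nat_lit 12339293692) (nat_lit 216) (nat_lit 5) (nat_lit 223) (nat_lit 5) (nat_lit 224) (nat_lit 5) (nat_lit 393) (nat_lit 378) (nat_lit 249)) (XT.lf (nat_lit 0) (nat_lit 8653355512) (nat_lit 532) (nat_lit 25605202736) (nat_lit 608) (nat_lit 5226372518) (nat_lit 209) (nat_lit 5) (nat_lit 216) (nat_lit 5) (nat_lit 217) (nat_lit 5) (nat_lit 394) (nat_lit 378) (nat_lit 248))))))))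
noncomputable def xc106 : XT := (XT.nd (nat_lit 1950) (nat_lit 2052) (nat_lit 0) (XT.nd (nat_lit 936) (nat_lit 3648) (nat_lit 0) (XT.nd (nat_lit 468) (nat_lit 2356) (nat_lit 0) (XT.nd (nat_lit 234) (nat_lit 1444) (nat_lit 0) (XT.nd (nat_lit 78) (nat_lit 532) (nat_lit 0) (XT.lf (nat_lit 0) (nat_lit 2660398206) (nat_lit 532) (nat_lit 35973397828) (nat_lit 76) (nat_lit 1967828310) (nat_lit 202) (nat_lit 5) (nat_lit 209) (nat_lit 5) (nat_lit 203) (nat_lit 5) (nat_lit 395) (nat_lit 378) (nat_lit 247)) (XT.nd (nat_lit 78) (nat_lit 0) (nat_lit 0) (XT.lf (nat_lit 0) (nat_lit 428951899) (nat_lit 532) (nat_lit 10983379456) (nat_lit 608) (nat_lit 30342902883) (nat_lit 195) (nat_lit 5) (nat_lit 202) (nat_lit 5) (nat_lit 203) (nat_lit 5) (nat_lit 396) (nat_lit 378) (nat_lit 246)) (XT.lf (nat_lit 0) (nat_lit 21144351833) (nat_lit 608) (nat_lit 3735169763) (nat_lit 76) (nat_lit 18070729669) (nat_lit 195) (nat_lit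 5) (nat_lit 203) (nat_lit 5) (nat_lit 196) (nat_lit 5) (nat_lit 397) (nat_lit 378) (nat_lit 245)))) (XT.nd (nat_lit 78) (nat_lit 988) (nat_lit 0) (XT.lf (nat_lit 0) (nat_lit 31861633778) (nat_lit 532) (nat_lit 7906648610) (nat_lit 76) (nat_lit 4421778235) (nat_lit 189) (nat_lit 5) (nat_lit 196) (nat_lit 5) (nat_lit 190) (nat_lit 5) (nat_lit 398) (nat_lit 378) (nat_lit 244)) (XT.nd (nat_lit 78) (nat_lit 532) (nat_lit 0) (XT.lf (nat_lit 0) (nat_lit 33282798089) (nat_lit 456) (nat_lit 10437274933) (nat_lit 532) (nat_lit 1753629860) (nat_lit 183) (nat_lit 5) (nat_lit 189) (nat_lit 5) (nat_lit 190) (nat_lit 5) (nat_lit 399) (nat_lit 378) (nat_lit 243)) (XT.lf (nat_lit 0) (nat_lit 9737469440) (nat_lit 532) (nat_lit 16633528854) (nat_lit 76) (nat_lit 20430733405) (nat_lit 176) (nat_lit 5) (nat_lit 183) (nat_lit 5) (nat_lit 177) (nat_lit 5) (nat_lit 400) (nat_lit 378) (nat_lit 242))))) (XT.nd (nat_lit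 234) (nat_lit 1064) (nat_lit 0) (XT.nd (nat_lit 78) (nat_lit 836) (nat_lit 0) (XT.lf (nat_lit 0) (nat_lit 22302168249) (nat_lit 532) (nat_lit 21120672482) (nat_lit 76) (nat_lit 4756742059) (nat_lit 170) (nat_lit 5) (nat_lit 177) (nat_lit 5) (nat_lit 171) (nat_lit 5) (nat_lit 401) (nat_lit 378) (nat_lit 241)) (XT.nd (nat_lit 78) (nat_lit 456) (nat_lit 0) (XT.lf (nat_lit 0) (nat_lit 23854693324) (nat_lit 380) (nat_lit 12304640547) (nat_lit 456) (nat_lit 13447066640) (nat_lit 165) (nat_lit 5) (nat_lit 170) (nat_lit 5) (nat_lit 171) (nat_lit 5) (nat_lit 402) (nat_lit 378) (nat_lit 240)) (XT.lf (nat_lit 0) (nat_lit 228116944) (nat_lit 456) (nat_lit 30467184259) (nat_lit 76) (nat_lit 20390904644) (nat_lit 159) (nat_lit 5) (nat_lit 165) (nat_lit 5) (nat_lit 160) (nat_lit 5) (nat_lit 403) (nat_lit 378) (nat_lit 239)))) (XT.nd (nat_lit 78) (nat_lit 684) (nat_lit 0) (XT.lf (nat_lit 0) (nat_lit 14888912953)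 (nat_lit 456) (nat_lit 35358644561) (nat_lit 76) (nat_lit 2371051891) (nat_lit 154) (nat_lit 5) (nat_lit 160) (nat_lit 5) (nat_lit 155) (nat_lit 5) (nat_lit 404) (nat_lit 378) (nat_lit 238)) (XT.nd (nat_lit 78) (nat_lit 304) (nat_lit 0) (XT.lf (nat_lit 0) (nat_lit 13742010421) (nat_lit 380) (nat_lit 17295589810) (nat_lit 456) (nat_lit 23167388231) (nat_lit 149) (nat_lit 5) (nat_lit 154) (nat_lit 5) (nat_lit 155) (nat_lit 5) (nat_lit 405) (nat_lit 378) (nat_lit 237)) (XT.lf (nat_lit 0) (nat_lit 10200840321) (nat_lit 304) (nat_lit 38421186223) (nat_lit 380) (nat_lit 7229811612) (nat_lit 145) (nat_lit 5) (nat_lit 149) (nat_lit 5) (nat_lit 150) (nat_lit 5) (nat_lit 406) (nat_lit 378) (nat_lit 236)))))) (XT.nd (nat_lit 468) (nat_lit 1900) (nat_lit 0) (XT.nd (nat_lit 234) (nat_lit 988) (nat_lit 0) (XT.nd (nat_lit 78) (nat_lit 304) (nat_lit 0) (XT.lf (nat_lit 0) (nat_lit 6527160178) (nat_lit 380) (nat_lit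 3446393496) (nat_lit 456) (nat_lit 47585105099) (nat_lit 139) (nat_lit 5) (nat_lit 144) (nat_lit 5) (nat_lit 145) (nat_lit 5) (nat_lit 407) (nat_lit 378) (nat_lit 235)) (XT.nd (nat_lit 78) (nat_lit 0) (nat_lit 0) (XT.lf (nat_lit 0) (nat_lit 2579331572) (nat_lit 304) (nat_lit 26125409502) (nat_lit 380) (nat_lit 30619417281) (nat_lit 135) (nat_lit 5) (nat_lit 139) (nat_lit 5) (nat_lit 140) (nat_lit 5) (nat_lit 408) (nat_lit 378) (nat_lit 234)) (XT.lf (nat_lit 0) (nat_lit 49034329296) (nat_lit 380) (nat_lit 1369865666) (nat_lit 76) (nat_lit 10753883403) (nat_lit 135) (nat_lit 5) (nat_lit 140) (nat_lit 5) (nat_lit 136) (nat_lit 5) (nat_lit 409) (nat_lit 378) (nat_lit 233)))) (XT.nd (nat_lit 78) (nat_lit 608) (nat_lit 0) (XT.lf (nat_lit 0) (nat_lit 7976835293) (nat_lit 380) (nat_lit 5507423831) (nat_lit 76) (nat_lit 49572656148) (nat_lit 130) (nat_lit 5) (nat_lit 135) (nat_lit 5) (nat_lit 131) (nat_lit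 5) (nat_lit 410) (nat_lit 378) (nat_lit 232)) (XT.nd (nat_lit 78) (nat_lit 304) (nat_lit 0) (XT.lf (nat_lit 0) (nat_lit 29626799073) (nat_lit 380) (nat_lit 9934303686) (nat_lit 76) (nat_lit 25462138124) (nat_lit 126) (nat_lit 5) (nat_lit 131) (nat_lit 5) (nat_lit 127) (nat_lit 5) (nat_lit 411) (nat_lit 378) (nat_lit 231)) (XT.lf (nat_lit 0) (nat_lit 52629803761) (nat_lit 304) (nat_lit 425681628) (nat_lit 380) (nat_lit 14011511235) (nat_lit 122) (nat_lit 5) (nat_lit 126) (nat_lit 5) (nat_lit 127) (nat_lit 5) (nat_lit 412) (nat_lit 378) (nat_lit 230))))) (XT.nd (nat_lit 234) (nat_lit 1064) (nat_lit 0) (XT.nd (nat_lit 78) (nat_lit 532) (nat_lit 0) (XT.lf (nat_lit 0) (nat_lit 9258408477) (nat_lit 304) (nat_lit 19377492107) (nat_lit 76) (nat_lit 40545190740) (nat_lit 118) (nat_lit 5) (nat_lit 122) (nat_lit 5) (nat_lit 119) (nat_lit 5) (nat_lit 413) (nat_lit 378) (nat_lit 229)) (XT.nd (nat_lit 78)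 (nat_lit 228) (nat_lit 0) (XT.lf (nat_lit 0) (nat_lit 34131500684) (nat_lit 380) (nat_lit 24576984528) (nat_lit 76) (nat_lit 12666360540) (nat_lit 114) (nat_lit 5) (nat_lit 119) (nat_lit 5) (nat_lit 115) (nat_lit 5) (nat_lit 414) (nat_lit 378) (nat_lit 228)) (XT.lf (nat_lit 0) (nat_lit 43569432915) (nat_lit 228) (nat_lit 17585307270) (nat_lit 304) (nat_lit 12496353423) (nat_lit 111) (nat_lit 5) (nat_lit 114) (nat_lit 5) (nat_lit 115) (nat_lit 5) (nat_lit 415) (nat_lit 378) (nat_lit 227)))) (XT.nd (nat_lit 156) (nat_lit 532) (nat_lit 0) (XT.nd (nat_lit 78) (nat_lit 228) (nat_lit 0) (XT.lf (nat_lit 0) (nat_lit 14118139213) (nat_lit 304) (nat_lit 36019529302) (nat_lit 76) (nat_lit 25872795628) (nat_lit 107) (nat_lit 5) (nat_lit 111) (nat_lit 5) (nat_lit 108) (nat_lit 5) (nat_lit 416) (nat_lit 378) (nat_lit 226)) (XT.lf (nat_lit 0) (nat_lit 36110990968) (nat_lit 228) (nat_lit 6531007180) (nat_lit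 304) (nat_lit 35816981134) (nat_lit 104) (nat_lit 5) (nat_lit 107) (nat_lit 5) (nat_lit 108) (nat_lit 5) (nat_lit 417) (nat_lit 378) (nat_lit 225))) (XT.nd (nat_lit 78) (nat_lit 304) (nat_lit 0) (XT.lf (nat_lit 0) (nat_lit 31817612128) (nat_lit 228) (nat_lit 41829512640) (nat_lit 304) (nat_lit 7351143578) (nat_lit 101) (nat_lit 5) (nat_lit 104) (nat_lit 5) (nat_lit 105) (nat_lit 5) (nat_lit 418) (nat_lit 378) (nat_lit 224)) (XT.lf (nat_lit 0) (nat_lit 22904292012) (nat_lit 304) (nat_lit 56512357289) (nat_lit 76) (nat_lit 4217190366) (nat_lit 97) (nat_lit 5) (nat_lit 101) (nat_lit 5) (nat_lit 98) (nat_lit 5) (nat_lit 419) (nat_lit 378) (nat_lit 223))))))) (XT.nd (nat_lit 49998) (nat_lit 0) (nat_lit 12236) (XT.nd (nat_lit 468) (nat_lit 912) (nat_lit 0) (XT.nd (nat_lit 234) (nat_lit 456) (nat_lit 0) (XT.nd (nat_lit 78) (nat_lit 456) (nat_lit 0) (XT.lf (nat_lit 0) (nat_lit 21800401960) (nat_lit 228)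 (nat_lit 33862053580) (nat_lit 304) (nat_lit 30702291194) (nat_lit 94) (nat_lit 5) (nat_lit 97) (nat_lit 5) (nat_lit 98) (nat_lit 5) (nat_lit 420) (nat_lit 378) (nat_lit 222)) (XT.nd (nat_lit 78) (nat_lit 228) (nat_lit 0) (XT.lf (nat_lit 0) (nat_lit 1693663444) (nat_lit 228) (nat_lit 73056147093) (nat_lit 76) (nat_lit 14455646856) (nat_lit 91) (nat_lit 5) (nat_lit 94) (nat_lit 5) (nat_lit 92) (nat_lit 5) (nat_lit 421) (nat_lit 378) (nat_lit 221)) (XT.lf (nat_lit 0) (nat_lit 9604841220) (nat_lit 228) (nat_lit 26578481278) (nat_lit 304) (nat_lit 55962495594) (nat_lit 88) (nat_lit 5) (nat_lit 91) (nat_lit 5) (nat_lit 92) (nat_lit 5) (nat_lit 422) (nat_lit 378) (nat_lit 220)))) (XT.nd (nat_lit 78) (nat_lit 304) (nat_lit 0) (XT.lf (nat_lit 0) (nat_lit 2522085763) (nat_lit 152) (nat_lit 70887549128) (nat_lit 228) (nat_lit 21793197126) (nat_lit 86) (nat_lit 5) (nat_lit 88) (nat_lit 5) (nat_lit 89) (nat_lit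 5) (nat_lit 423) (nat_lit 378) (nat_lit 219)) (XT.nd (nat_lit 78) (nat_lit 228) (nat_lit 0) (XT.lf (nat_lit 0) (nat_lit 14933854111) (nat_lit 228) (nat_lit 5239909043) (nat_lit 76) (nat_lit 78201148224) (nat_lit 85) (nat_lit 5) (nat_lit 88) (nat_lit 5) (nat_lit 86) (nat_lit 5) (nat_lit 424) (nat_lit 378) (nat_lit 218)) (XT.lf (nat_lit 0) (nat_lit 54223655347) (nat_lit 304) (nat_lit 13934246048) (nat_lit 76) (nat_lit 33505906925) (nat_lit 82) (nat_lit 5) (nat_lit 86) (nat_lit 5) (nat_lit 83) (nat_lit 5) (nat_lit 425) (nat_lit 378) (nat_lit 217))))) (XT.nd (nat_lit 234) (nat_lit 380) (nat_lit 0) (XT.nd (nat_lit 78) (nat_lit 380) (nat_lit 0) (XT.lf (nat_lit 0) (nat_lit 81728574000) (nat_lit 152) (nat_lit 14791016676) (nat_lit 228) (nat_lit 8566310365) (nat_lit 80) (nat_lit 5) (nat_lit 82) (nat_lit 5) (nat_lit 83) (nat_lit 5) (nat_lit 426) (nat_lit 378) (nat_lit 216)) (XT.nd (nat_lit 78) (nat_lit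 152) (nat_lit 0) (XT.lf (nat_lit 0) (nat_lit 32893158271) (nat_lit 228) (nat_lit 34113691306) (nat_lit 76) (nat_lit 41624810357) (nat_lit 77) (nat_lit 5) (nat_lit 80) (nat_lit 5) (nat_lit 78) (nat_lit 5) (nat_lit 427) (nat_lit 378) (nat_lit 215)) (XT.lf (nat_lit 0) (nat_lit 66483384228) (nat_lit 152) (nat_lit 10795911925) (nat_lit 228) (nat_lit 35041940584) (nat_lit 75) (nat_lit 5) (nat_lit 77) (nat_lit 5) (nat_lit 78) (nat_lit 5) (nat_lit 428) (nat_lit 378) (nat_lit 214)))) (XT.nd (nat_lit 78) (nat_lit 152) (nat_lit 0) (XT.lf (nat_lit 0) (nat_lit 8919890883) (nat_lit 228) (nat_lit 58955893637) (nat_lit 76) (nat_lit 48275875861) (nat_lit 72) (nat_lit 5) (nat_lit 75) (nat_lit 5) (nat_lit 73) (nat_lit 5) (nat_lit 429) (nat_lit 378) (nat_lit 213)) (XT.nd (nat_lit 49140) (nat_lit 0) (nat_lit 14212) (XT.lf (nat_lit 0) (nat_lit 46618530000) (nat_lit 152) (nat_lit 8775034571) (nat_lit 228) (nat_lit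 64738478182) (nat_lit 70) (nat_lit 5) (nat_lit 72) (nat_lit 5) (nat_lit 73) (nat_lit 5) (nat_lit 430) (nat_lit 378) (nat_lit 212)) (XT.lf (nat_lit 0) (nat_lit 3344929396) (nat_lit 1292) (nat_lit 5160314740) (nat_lit 1292) (nat_lit 5160314740) (nat_lit 257) (nat_lit 3) (nat_lit 274) (nat_lit 3) (nat_lit 274) (nat_lit 5) (nat_lit 379) (nat_lit 379) (nat_lit 262)))))) (XT.nd (nat_lit 468) (nat_lit 2052) (nat_lit 0) (XT.nd (nat_lit 234) (nat_lit 0) (nat_lit 152) (XT.nd (nat_lit 78) (nat_lit 0) (nat_lit 0) (XT.lf (nat_lit 0) (nat_lit 7163353129) (nat_lit 1216) (nat_lit 16003404476) (nat_lit 1292) (nat_lit 4838403896) (nat_lit 258) (nat_lit 5) (nat_lit 274) (nat_lit 5) (nat_lit 275) (nat_lit 5) (nat_lit 380) (nat_lit 379) (nat_lit 261)) (XT.nd (nat_lit 78) (nat_lit 0) (nat_lit 76) (XT.lf (nat_lit 76) (nat_lit 6903044011) (nat_lit 0) (nat_lit 1093662915) (nat_lit 1292) (nat_lit 20706117962) (nat_lit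 259) (nat_lit 5) (nat_lit 258) (nat_lit 5) (nat_lit 275) (nat_lit 5) (nat_lit 381) (nat_lit 379) (nat_lit 260)) (XT.lf (nat_lit 76) (nat_lit 1672249088) (nat_lit 0) (nat_lit 7585470476) (nat_lit 1292) (nat_lit 20166074995) (nat_lit 260) (nat_lit 5) (nat_lit 259) (nat_lit 5) (nat_lit 276) (nat_lit 5) (nat_lit 382) (nat_lit 379) (nat_lit 259)))) (XT.nd (nat_lit 78) (nat_lit 0) (nat_lit 76) (XT.lf (nat_lit 0) (nat_lit 10962062130) (nat_lit 1216) (nat_lit 3570270851) (nat_lit 1292) (nat_lit 15637074069) (nat_lit 260) (nat_lit 5) (nat_lit 276) (nat_lit 5) (nat_lit 277) (nat_lit 5) (nat_lit 383) (nat_lit 379) (nat_lit 258)) (XT.nd (nat_lit 78) (nat_lit 0) (nat_lit 76) (XT.lf (nat_lit 0) (nat_lit 13121203861) (nat_lit 1216) (nat_lit 8860705807) (nat_lit 1292) (nat_lit 8959305622) (nat_lit 261) (nat_lit 5) (nat_lit 277) (nat_lit 5) (nat_lit 278) (nat_lit 5) (nat_lit 384) (nat_lit 379) (nat_lit 257))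 (XT.lf (nat_lit 0) (nat_lit 15750252747) (nat_lit 1216) (nat_lit 14230883810) (nat_lit 1292) (nat_lit 1759621346) (nat_lit 262) (nat_lit 5) (nat_lit 278) (nat_lit 5) (nat_lit 279) (nat_lit 5) (nat_lit 385) (nat_lit 379) (nat_lit 256))))) (XT.nd (nat_lit 234) (nat_lit 2356) (nat_lit 0) (XT.nd (nat_lit 78) (nat_lit 0) (nat_lit 76) (XT.lf (nat_lit 76) (nat_lit 12828810715) (nat_lit 0) (nat_lit 6111996736) (nat_lit 1292) (nat_lit 13626570940) (nat_lit 263) (nat_lit 5) (nat_lit 262) (nat_lit 5) (nat_lit 279) (nat_lit 5) (nat_lit 386) (nat_lit 379) (nat_lit 255)) (XT.nd (nat_lit 78) (nat_lit 0) (nat_lit 76) (XT.lf (nat_lit 76) (nat_lit 8076492484) (nat_lit 0) (nat_lit 14615205224) (nat_lit 1292) (nat_lit 10731610194) (nat_lit 264) (nat_lit 5) (nat_lit 263) (nat_lit 5) (nat_lit 280) (nat_lit 5) (nat_lit 387) (nat_lit 379) (nat_lit 254)) (XT.lf (nat_lit 76) (nat_lit 3272920169) (nat_lit 0) (nat_lit 23749519806)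 (nat_lit 1292) (nat_lit 7287826815) (nat_lit 265) (nat_lit 5) (nat_lit 264) (nat_lit 5) (nat_lit 281) (nat_lit 5) (nat_lit 388) (nat_lit 379) (nat_lit 253)))) (XT.nd (nat_lit 156) (nat_lit 1292) (nat_lit 0) (XT.nd (nat_lit 78) (nat_lit 1292) (nat_lit 0) (XT.lf (nat_lit 0) (nat_lit 31986934079) (nat_lit 1216) (nat_lit 1548628723) (nat_lit 76) (nat_lit 1693496406) (nat_lit 265) (nat_lit 5) (nat_lit 281) (nat_lit 5) (nat_lit 266) (nat_lit 5) (nat_lit 389) (nat_lit 379) (nat_lit 252)) (XT.lf (nat_lit 0) (nat_lit 1510995569) (nat_lit 1292) (nat_lit 6442945885) (nat_lit 76) (nat_lit 28223818739) (nat_lit 248) (nat_lit 5) (nat_lit 265) (nat_lit 5) (nat_lit 249) (nat_lit 5) (nat_lit 390) (nat_lit 379) (nat_lit 251))) (XT.nd (nat_lit 78) (nat_lit 608) (nat_lit 0) (XT.lf (nat_lit 0) (nat_lit 6879307016) (nat_lit 760) (nat_lit 11441012602) (nat_lit 76) (nat_lit 18839277782) (nat_lit 239) (nat_lit 5) (nat_lit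 249) (nat_lit 5) (nat_lit 240) (nat_lit 5) (nat_lit 391) (nat_lit 379) (nat_lit 250)) (XT.lf (nat_lit 0) (nat_lit 12952551681) (nat_lit 684) (nat_lit 16492654372) (nat_lit 76) (nat_lit 8732226582) (nat_lit 231) (nat_lit 5) (nat_lit 240) (nat_lit 5) (nat_lit 232) (nat_lit 5) (nat_lit 392) (nat_lit 379) (nat_lit 249))))))))
noncomputable def xc107 : XT := (XT.nd (nat_lit 1950) (nat_lit 2660) (nat_lit 0) (XT.nd (nat_lit 936) (nat_lit 3952) (nat_lit 0) (XT.nd (nat_lit 468) (nat_lit 2736) (nat_lit 0) (XT.nd (nat_lit 234) (nat_lit 1064) (nat_lit 0) (XT.nd (nat_lit 78) (nat_lit 1064) (nat_lit 0) (XT.lf (nat_lit 0) (nat_lit 17615699193) (nat_lit 608) (nat_lit 2181518174) (nat_lit 684) (nat_lit 19434911122) (nat_lit 223) (nat_lit 5) (nat_lit 231) (nat_lit 5) (nat_lit 232) (nat_lit 5) (nat_lit 393) (nat_lit 379) (nat_lit 248)) (XT.nd (nat_lit 78) (nat_lit 532) (nat_lit 0) (XT.lf (nat_lit 0) (nat_lit 13440747878)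 (nat_lit 532) (nat_lit 14093019506) (nat_lit 608) (nat_lit 12789303760) (nat_lit 216) (nat_lit 5) (nat_lit 223) (nat_lit 5) (nat_lit 224) (nat_lit 5) (nat_lit 394) (nat_lit 379) (nat_lit 247)) (XT.lf (nat_lit 0) (nat_lit 9252003547) (nat_lit 532) (nat_lit 26875443761) (nat_lit 608) (nat_lit 5327006019) (nat_lit 209) (nat_lit 5) (nat_lit 216) (nat_lit 5) (nat_lit 217) (nat_lit 5) (nat_lit 395) (nat_lit 379) (nat_lit 246)))) (XT.nd (nat_lit 78) (nat_lit 532) (nat_lit 0) (XT.lf (nat_lit 0) (nat_lit 2945166715) (nat_lit 532) (nat_lit 37603288400) (nat_lit 76) (nat_lit 2078656247) (nat_lit 202) (nat_lit 5) (nat_lit 209) (nat_lit 5) (nat_lit 203) (nat_lit 5) (nat_lit 396) (nat_lit 379) (nat_lit 245)) (XT.nd (nat_lit 78) (nat_lit 0) (nat_lit 0) (XT.lf (nat_lit 0) (nat_lit 614340789) (nat_lit 532) (nat_lit 11514705514) (nat_lit 608) (nat_lit 31709526943) (nat_lit 195) (nat_lit 5) (nat_lit 202) (nat_lit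 5) (nat_lit 203) (nat_lit 5) (nat_lit 397) (nat_lit 379) (nat_lit 244)) (XT.lf (nat_lit 0) (nat_lit 22340874088) (nat_lit 608) (nat_lit 3761744936) (nat_lit 76) (nat_lit 18990927805) (nat_lit 195) (nat_lit 5) (nat_lit 203) (nat_lit 5) (nat_lit 196) (nat_lit 5) (nat_lit 398) (nat_lit 379) (nat_lit 243))))) (XT.nd (nat_lit 234) (nat_lit 1292) (nat_lit 0) (XT.nd (nat_lit 78) (nat_lit 988) (nat_lit 0) (XT.lf (nat_lit 0) (nat_lit 33589088167) (nat_lit 532) (nat_lit 8142534237) (nat_lit 76) (nat_lit 4663874011) (nat_lit 189) (nat_lit 5) (nat_lit 196) (nat_lit 5) (nat_lit 190) (nat_lit 5) (nat_lit 399) (nat_lit 379) (nat_lit 242)) (XT.nd (nat_lit 78) (nat_lit 532) (nat_lit 0) (XT.lf (nat_lit 0) (nat_lit 35101814286) (nat_lit 456) (nat_lit 10933725153) (nat_lit 532) (nat_lit 1707930364) (nat_lit 183) (nat_lit 5) (nat_lit 189) (nat_lit 5) (nat_lit 190) (nat_lit 5) (nat_lit 400) (nat_lit 379) (nat_lit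 241)) (XT.lf (nat_lit 0) (nat_lit 10350623635) (nat_lit 532) (nat_lit 17308654896) (nat_lit 76) (nat_lit 21478719579) (nat_lit 176) (nat_lit 5) (nat_lit 183) (nat_lit 5) (nat_lit 177) (nat_lit 5) (nat_lit 401) (nat_lit 379) (nat_lit 240)))) (XT.nd (nat_lit 78) (nat_lit 836) (nat_lit 0) (XT.lf (nat_lit 0) (nat_lit 23539297326) (nat_lit 532) (nat_lit 22021252666) (nat_lit 76) (nat_lit 5024321078) (nat_lit 170) (nat_lit 5) (nat_lit 177) (nat_lit 5) (nat_lit 171) (nat_lit 5) (nat_lit 402) (nat_lit 379) (nat_lit 239)) (XT.nd (nat_lit 78) (nat_lit 456) (nat_lit 0) (XT.lf (nat_lit 0) (nat_lit 25198425389) (nat_lit 380) (nat_lit 12886536812) (nat_lit 456) (nat_lit 13998199688) (nat_lit 165) (nat_lit 5) (nat_lit 170) (nat_lit 5) (nat_lit 171) (nat_lit 5) (nat_lit 403) (nat_lit 379) (nat_lit 238)) (XT.lf (nat_lit 0) (nat_lit 354480451) (nat_lit 456) (nat_lit 31838414488) (nat_lit 76) (nat_lit 21444145842)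 (nat_lit 159) (nat_lit 5) (nat_lit 165) (nat_lit 5) (nat_lit 160) (nat_lit 5) (nat_lit 404) (nat_lit 379) (nat_lit 237)))))) (XT.nd (nat_lit 468) (nat_lit 2128) (nat_lit 0) (XT.nd (nat_lit 234) (nat_lit 760) (nat_lit 0) (XT.nd (nat_lit 78) (nat_lit 684) (nat_lit 0) (XT.lf (nat_lit 0) (nat_lit 15744616887) (nat_lit 456) (nat_lit 36975810434) (nat_lit 76) (nat_lit 2525749443) (nat_lit 154) (nat_lit 5) (nat_lit 160) (nat_lit 5) (nat_lit 155) (nat_lit 5) (nat_lit 405) (nat_lit 379) (nat_lit 236)) (XT.nd (nat_lit 78) (nat_lit 304) (nat_lit 0) (XT.lf (nat_lit 0) (nat_lit 14575555609) (nat_lit 380) (nat_lit 18121292622) (nat_lit 456) (nat_lit 24215144461) (nat_lit 149) (nat_lit 5) (nat_lit 154) (nat_lit 5) (nat_lit 155) (nat_lit 5) (nat_lit 406) (nat_lit 379) (nat_lit 235)) (XT.lf (nat_lit 0) (nat_lit 10855916506) (nat_lit 304) (nat_lit 40301218490) (nat_lit 380) (nat_lit 7484151849) (nat_lit 145) (nat_lit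 5) (nat_lit 149) (nat_lit 5) (nat_lit 150) (nat_lit 5) (nat_lit 407) (nat_lit 379) (nat_lit 234)))) (XT.nd (nat_lit 78) (nat_lit 304) (nat_lit 0) (XT.lf (nat_lit 0) (nat_lit 6996447629) (nat_lit 380) (nat_lit 3577214277) (nat_lit 456) (nat_lit 49859865619) (nat_lit 139) (nat_lit 5) (nat_lit 144) (nat_lit 5) (nat_lit 145) (nat_lit 5) (nat_lit 408) (nat_lit 379) (nat_lit 233)) (XT.nd (nat_lit 78) (nat_lit 0) (nat_lit 0) (XT.lf (nat_lit 0) (nat_lit 2849719424) (nat_lit 304) (nat_lit 27388598571) (nat_lit 380) (nat_lit 32049077825) (nat_lit 135) (nat_lit 5) (nat_lit 139) (nat_lit 5) (nat_lit 140) (nat_lit 5) (nat_lit 409) (nat_lit 379) (nat_lit 232)) (XT.lf (nat_lit 0) (nat_lit 51580097181) (nat_lit 380) (nat_lit 1301237424) (nat_lit 76) (nat_lit 11331806842) (nat_lit 135) (nat_lit 5) (nat_lit 140) (nat_lit 5) (nat_lit 136) (nat_lit 5) (nat_lit 410) (nat_lit 379) (nat_lit 231))))) (XT.nd (nat_lit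 234) (nat_lit 1140) (nat_lit 0) (XT.nd (nat_lit 78) (nat_lit 608) (nat_lit 0) (XT.lf (nat_lit 0) (nat_lit 8467447704) (nat_lit 380) (nat_lit 5647759804) (nat_lit 76) (nat_lit 52091782570) (nat_lit 130) (nat_lit 5) (nat_lit 135) (nat_lit 5) (nat_lit 131) (nat_lit 5) (nat_lit 411) (nat_lit 379) (nat_lit 230)) (XT.nd (nat_lit 78) (nat_lit 304) (nat_lit 0) (XT.lf (nat_lit 0) (nat_lit 31197209039) (nat_lit 380) (nat_lit 10297586141) (nat_lit 76) (nat_lit 26776918657) (nat_lit 126) (nat_lit 5) (nat_lit 131) (nat_lit 5) (nat_lit 127) (nat_lit 5) (nat_lit 412) (nat_lit 379) (nat_lit 229)) (XT.lf (nat_lit 0) (nat_lit 55390901857) (nat_lit 304) (nat_lit 403432257) (nat_lit 380) (nat_lit 14623413928) (nat_lit 122) (nat_lit 5) (nat_lit 126) (nat_lit 5) (nat_lit 127) (nat_lit 5) (nat_lit 413) (nat_lit 379) (nat_lit 228)))) (XT.nd (nat_lit 156) (nat_lit 532) (nat_lit 0) (XT.nd (nat_lit 78) (nat_lit 304) (nat_lit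 0) (XT.lf (nat_lit 0) (nat_lit 9805776506) (nat_lit 304) (nat_lit 20216660899) (nat_lit 76) (nat_lit 42615160095) (nat_lit 118) (nat_lit 5) (nat_lit 122) (nat_lit 5) (nat_lit 119) (nat_lit 5) (nat_lit 414) (nat_lit 379) (nat_lit 227)) (XT.lf (nat_lit 0) (nat_lit 35920139405) (nat_lit 380) (nat_lit 25677808887) (nat_lit 76) (nat_lit 13343163589) (nat_lit 114) (nat_lit 5) (nat_lit 119) (nat_lit 5) (nat_lit 115) (nat_lit 5) (nat_lit 415) (nat_lit 379) (nat_lit 226))) (XT.nd (nat_lit 78) (nat_lit 304) (nat_lit 0) (XT.lf (nat_lit 0) (nat_lit 45872259621) (nat_lit 228) (nat_lit 18419568841) (nat_lit 304) (nat_lit 13039425717) (nat_lit 111) (nat_lit 5) (nat_lit 114) (nat_lit 5) (nat_lit 115) (nat_lit 5) (nat_lit 416) (nat_lit 379) (nat_lit 225)) (XT.lf (nat_lit 0) (nat_lit 14901986913) (nat_lit 304) (nat_lit 37696246320) (nat_lit 76) (nat_lit 27210403348) (nat_lit 107) (nat_lit 5) (nat_lit 111) (nat_lit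 5) (nat_lit 108) (nat_lit 5) (nat_lit 417) (nat_lit 379) (nat_lit 224))))))) (XT.nd (nat_lit 936) (nat_lit 228) (nat_lit 0) (XT.nd (nat_lit 468) (nat_lit 988) (nat_lit 0) (XT.nd (nat_lit 234) (nat_lit 684) (nat_lit 0) (XT.nd (nat_lit 78) (nat_lit 532) (nat_lit 0) (XT.lf (nat_lit 0) (nat_lit 38037238092) (nat_lit 228) (nat_lit 6812249459) (nat_lit 304) (nat_lit 37530167061) (nat_lit 104) (nat_lit 5) (nat_lit 107) (nat_lit 5) (nat_lit 108) (nat_lit 5) (nat_lit 418) (nat_lit 379) (nat_lit 223)) (XT.nd (nat_lit 78) (nat_lit 304) (nat_lit 0) (XT.lf (nat_lit 0) (nat_lit 33527515954) (nat_lit 228) (nat_lit 43875323484) (nat_lit 304) (nat_lit 7643130191) (nat_lit 101) (nat_lit 5) (nat_lit 104) (nat_lit 5) (nat_lit 105) (nat_lit 5) (nat_lit 419) (nat_lit 379) (nat_lit 222)) (XT.lf (nat_lit 0) (nat_lit 24121635394) (nat_lit 304) (nat_lit 59219195335) (nat_lit 76) (nat_lit 4472526536) (nat_lit 97) (nat_lit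 5) (nat_lit 101) (nat_lit 5) (nat_lit 98) (nat_lit 5) (nat_lit 420) (nat_lit 379) (nat_lit 221)))) (XT.nd (nat_lit 78) (nat_lit 456) (nat_lit 0) (XT.lf (nat_lit 0) (nat_lit 23005797078) (nat_lit 228) (nat_lit 35509584372) (nat_lit 304) (nat_lit 32165498505) (nat_lit 94) (nat_lit 5) (nat_lit 97) (nat_lit 5) (nat_lit 98) (nat_lit 5) (nat_lit 421) (nat_lit 379) (nat_lit 220)) (XT.nd (nat_lit 78) (nat_lit 228) (nat_lit 0) (XT.lf (nat_lit 0) (nat_lit 1847018334) (nat_lit 228) (nat_lit 76593892366) (nat_lit 76) (nat_lit 15222750144) (nat_lit 91) (nat_lit 5) (nat_lit 94) (nat_lit 5) (nat_lit 92) (nat_lit 5) (nat_lit 422) (nat_lit 379) (nat_lit 219)) (XT.lf (nat_lit 0) (nat_lit 10196847131) (nat_lit 228) (nat_lit 27862117471) (nat_lit 304) (nat_lit 58692141290) (nat_lit 88) (nat_lit 5) (nat_lit 91) (nat_lit 5) (nat_lit 92) (nat_lit 5) (nat_lit 423) (nat_lit 379) (nat_lit 218))))) (XT.nd (nat_lit 234)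 (nat_lit 532) (nat_lit 0) (XT.nd (nat_lit 78) (nat_lit 304) (nat_lit 0) (XT.lf (nat_lit 0) (nat_lit 2758273042) (nat_lit 152) (nat_lit 74386626838) (nat_lit 228) (nat_lit 22816121835) (nat_lit 86) (nat_lit 5) (nat_lit 88) (nat_lit 5) (nat_lit 89) (nat_lit 5) (nat_lit 424) (nat_lit 379) (nat_lit 217)) (XT.nd (nat_lit 78) (nat_lit 228) (nat_lit 0) (XT.lf (nat_lit 0) (nat_lit 15742863869) (nat_lit 228) (nat_lit 5395815547) (nat_lit 76) (nat_lit 82153100247) (nat_lit 85) (nat_lit 5) (nat_lit 88) (nat_lit 5) (nat_lit 86) (nat_lit 5) (nat_lit 425) (nat_lit 379) (nat_lit 216)) (XT.lf (nat_lit 0) (nat_lit 56995588782) (nat_lit 304) (nat_lit 14526503349) (nat_lit 76) (nat_lit 35223076684) (nat_lit 82) (nat_lit 5) (nat_lit 86) (nat_lit 5) (nat_lit 83) (nat_lit 5) (nat_lit 426) (nat_lit 379) (nat_lit 215)))) (XT.nd (nat_lit 78) (nat_lit 380) (nat_lit 0) (XT.lf (nat_lit 0) (nat_lit 85916463521) (nat_lit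 152) (nat_lit 15487939771) (nat_lit 228) (nat_lit 8934020760) (nat_lit 80) (nat_lit 5) (nat_lit 82) (nat_lit 5) (nat_lit 83) (nat_lit 5) (nat_lit 427) (nat_lit 379) (nat_lit 214)) (XT.nd (nat_lit 78) (nat_lit 152) (nat_lit 0) (XT.lf (nat_lit 0) (nat_lit 34595772728) (nat_lit 228) (nat_lit 35718340209) (nat_lit 76) (nat_lit 43747384778) (nat_lit 77) (nat_lit 5) (nat_lit 80) (nat_lit 5) (nat_lit 78) (nat_lit 5) (nat_lit 428) (nat_lit 379) (nat_lit 213)) (XT.lf (nat_lit 0) (nat_lit 69905692935) (nat_lit 152) (nat_lit 11293708111) (nat_lit 228) (nat_lit 36736207118) (nat_lit 75) (nat_lit 5) (nat_lit 77) (nat_lit 5) (nat_lit 78) (nat_lit 5) (nat_lit 429) (nat_lit 379) (nat_lit 212)))))) (XT.nd (nat_lit 49608) (nat_lit 0) (nat_lit 13376) (XT.nd (nat_lit 49374) (nat_lit 0) (nat_lit 14136) (XT.nd (nat_lit 49218) (nat_lit 0) (nat_lit 14060) (XT.lf (nat_lit 0) (nat_lit 9421213192) (nat_lit 228) (nat_lit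 61806005298) (nat_lit 76) (nat_lit 50730359337) (nat_lit 72) (nat_lit 5) (nat_lit 75) (nat_lit 5) (nat_lit 73) (nat_lit 5) (nat_lit 430) (nat_lit 379) (nat_lit 211)) (XT.nd (nat_lit 78) (nat_lit 0) (nat_lit 76) (XT.lf (nat_lit 0) (nat_lit 3652918278) (nat_lit 1292) (nat_lit 5345825120) (nat_lit 1292) (nat_lit 5345825120) (nat_lit 257) (nat_lit 3) (nat_lit 274) (nat_lit 3) (nat_lit 274) (nat_lit 5) (nat_lit 380) (nat_lit 380) (nat_lit 260)) (XT.lf (nat_lit 0) (nat_lit 7789719547) (nat_lit 1216) (nat_lit 16653313973) (nat_lit 1292) (nat_lit 4954252417) (nat_lit 258) (nat_lit 5) (nat_lit 274) (nat_lit 5) (nat_lit 275) (nat_lit 5) (nat_lit 381) (nat_lit 380) (nat_lit 259)))) (XT.nd (nat_lit 78) (nat_lit 0) (nat_lit 76) (XT.lf (nat_lit 76) (nat_lit 7394149744) (nat_lit 0) (nat_lit 1259222914) (nat_lit 1292) (nat_lit 21476805060) (nat_lit 259) (nat_lit 5) (nat_lit 258) (nat_lit 5) (nat_lit 275) (nat_lit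 5) (nat_lit 382) (nat_lit 380) (nat_lit 258)) (XT.nd (nat_lit 78) (nat_lit 0) (nat_lit 76) (XT.lf (nat_lit 76) (nat_lit 1906231771) (nat_lit 0) (nat_lit 8059404526) (nat_lit 1292) (nat_lit 20921917541) (nat_lit 260) (nat_lit 5) (nat_lit 259) (nat_lit 5) (nat_lit 276) (nat_lit 5) (nat_lit 383) (nat_lit 380) (nat_lit 257)) (XT.lf (nat_lit 0) (nat_lit 11742661256) (nat_lit 1216) (nat_lit 3597631431) (nat_lit 1292) (nat_lit 16330534097) (nat_lit 260) (nat_lit 5) (nat_lit 276) (nat_lit 5) (nat_lit 277) (nat_lit 5) (nat_lit 384) (nat_lit 380) (nat_lit 256))))) (XT.nd (nat_lit 234) (nat_lit 988) (nat_lit 0) (XT.nd (nat_lit 78) (nat_lit 0) (nat_lit 76) (XT.lf (nat_lit 0) (nat_lit 13999369449) (nat_lit 1216) (nat_lit 9149432977) (nat_lit 1292) (nat_lit 9332738335) (nat_lit 261) (nat_lit 5) (nat_lit 277) (nat_lit 5) (nat_lit 278) (nat_lit 5) (nat_lit 385) (nat_lit 380) (nat_lit 255)) (XT.nd (nat_lit 78)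 (nat_lit 0) (nat_lit 0) (XT.lf (nat_lit 0) (nat_lit 16750128708) (nat_lit 1216) (nat_lit 14785478893) (nat_lit 1292) (nat_lit 1785748601) (nat_lit 262) (nat_lit 5) (nat_lit 278) (nat_lit 5) (nat_lit 279) (nat_lit 5) (nat_lit 386) (nat_lit 380) (nat_lit 254)) (XT.lf (nat_lit 76) (nat_lit 13622701443) (nat_lit 0) (nat_lit 6468862608) (nat_lit 1292) (nat_lit 14098006346) (nat_lit 263) (nat_lit 5) (nat_lit 262) (nat_lit 5) (nat_lit 279) (nat_lit 5) (nat_lit 387) (nat_lit 380) (nat_lit 253)))) (XT.nd (nat_lit 156) (nat_lit 1140) (nat_lit 0) (XT.nd (nat_lit 78) (nat_lit 0) (nat_lit 76) (XT.lf (nat_lit 76) (nat_lit 8634875873) (nat_lit 0) (nat_lit 15386438555) (nat_lit 1292) (nat_lit 11067245603) (nat_lit 264) (nat_lit 5) (nat_lit 263) (nat_lit 5) (nat_lit 280) (nat_lit 5) (nat_lit 388) (nat_lit 380) (nat_lit 252)) (XT.lf (nat_lit 76) (nat_lit 3592816209) (nat_lit 0) (nat_lit 24967621815) (nat_lit 1292)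 (nat_lit 7459676481) (nat_lit 265) (nat_lit 5) (nat_lit 264) (nat_lit 5) (nat_lit 281) (nat_lit 5) (nat_lit 389) (nat_lit 380) (nat_lit 251))) (XT.nd (nat_lit 78) (nat_lit 1292) (nat_lit 0) (XT.lf (nat_lit 0) (nat_lit 33763977597) (nat_lit 1216) (nat_lit 1471574395) (nat_lit 76) (nat_lit 1749572755) (nat_lit 265) (nat_lit 5) (nat_lit 281) (nat_lit 5) (nat_lit 266) (nat_lit 5) (nat_lit 390) (nat_lit 380) (nat_lit 250)) (XT.lf (nat_lit 0) (nat_lit 1758965504) (nat_lit 1292) (nat_lit 6611551961) (nat_lit 76) (nat_lit 29610905875) (nat_lit 248) (nat_lit 5) (nat_lit 265) (nat_lit 5) (nat_lit 249) (nat_lit 5) (nat_lit 391) (nat_lit 380) (nat_lit 249))))))))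
noncomputable def xc108 : XT := (XT.nd (nat_lit 1950) (nat_lit 2812) (nat_lit 0) (XT.nd (nat_lit 936) (nat_lit 4256) (nat_lit 0) (XT.nd (nat_lit 468) (nat_lit 2432) (nat_lit 0) (XT.nd (nat_lit 234) (nat_lit 1596) (nat_lit 0) (XT.nd (nat_lit 78) (nat_lit 1216) (nat_lit 0) (XT.lf (nat_lit 0) (nat_lit 7388757024) (nat_lit 760) (nat_lit 11858745534) (nat_lit 76) (nat_lit 19765060402) (nat_lit 239) (nat_lit 5) (nat_lit 249) (nat_lit 5) (nat_lit 240) (nat_lit 5) (nat_lit 392) (nat_lit 380) (nat_lit 248)) (XT.nd (nat_lit 78) (nat_lit 608) (nat_lit 0) (XT.lf (nat_lit 0) (nat_lit 13759136610) (nat_lit 684) (nat_lit 17162486154) (nat_lit 76) (nat_lit 9159865384) (nat_lit 231) (nat_lit 5) (nat_lit 240) (nat_lit 5) (nat_lit 232) (nat_lit 5) (nat_lit 393) (nat_lit 380) (nat_lit 247)) (XT.lf (nat_lit 0) (nat_lit 18646847752) (nat_lit 608) (nat_lit 2293063818) (nat_lit 684) (nat_lit 20249193201) (nat_lit 223)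 (nat_lit 5) (nat_lit 231) (nat_lit 5) (nat_lit 232) (nat_lit 5) (nat_lit 394) (nat_lit 380) (nat_lit 246)))) (XT.nd (nat_lit 78) (nat_lit 1064) (nat_lit 0) (XT.lf (nat_lit 0) (nat_lit 14263359209) (nat_lit 532) (nat_lit 14794076899) (nat_lit 608) (nat_lit 13277336190) (nat_lit 216) (nat_lit 5) (nat_lit 223) (nat_lit 5) (nat_lit 224) (nat_lit 5) (nat_lit 395) (nat_lit 380) (nat_lit 245)) (XT.nd (nat_lit 78) (nat_lit 532) (nat_lit 0) (XT.lf (nat_lit 0) (nat_lit 9865152712) (nat_lit 532) (nat_lit 28210128319) (nat_lit 608) (nat_lit 5447610176) (nat_lit 209) (nat_lit 5) (nat_lit 216) (nat_lit 5) (nat_lit 217) (nat_lit 5) (nat_lit 396) (nat_lit 380) (nat_lit 244)) (XT.lf (nat_lit 0) (nat_lit 3230065504) (nat_lit 532) (nat_lit 39330365002) (nat_lit 76) (nat_lit 2193869351) (nat_lit 202) (nat_lit 5) (nat_lit 209) (nat_lit 5) (nat_lit 203) (nat_lit 5) (nat_lit 397) (nat_lit 380) (nat_lit 243))))) (XT.nd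 (nat_lit 234) (nat_lit 1444) (nat_lit 0) (XT.nd (nat_lit 78) (nat_lit 456) (nat_lit 0) (XT.lf (nat_lit 0) (nat_lit 793757415) (nat_lit 532) (nat_lit 12074256740) (nat_lit 608) (nat_lit 33158476230) (nat_lit 195) (nat_lit 5) (nat_lit 202) (nat_lit 5) (nat_lit 203) (nat_lit 5) (nat_lit 398) (nat_lit 380) (nat_lit 242)) (XT.nd (nat_lit 78) (nat_lit 456) (nat_lit 0) (XT.lf (nat_lit 0) (nat_lit 23584271229) (nat_lit 608) (nat_lit 3804541193) (nat_lit 76) (nat_lit 19955586805) (nat_lit 195) (nat_lit 5) (nat_lit 203) (nat_lit 5) (nat_lit 196) (nat_lit 5) (nat_lit 399) (nat_lit 380) (nat_lit 241)) (XT.lf (nat_lit 0) (nat_lit 35390422576) (nat_lit 532) (nat_lit 8405037999) (nat_lit 76) (nat_lit 4916121557) (nat_lit 189) (nat_lit 5) (nat_lit 196) (nat_lit 5) (nat_lit 190) (nat_lit 5) (nat_lit 400) (nat_lit 380) (nat_lit 240)))) (XT.nd (nat_lit 78) (nat_lit 988) (nat_lit 0) (XT.lf (nat_lit 0) (nat_lit 36997382363)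 (nat_lit 456) (nat_lit 11457360594) (nat_lit 532) (nat_lit 1672346394) (nat_lit 183) (nat_lit 5) (nat_lit 189) (nat_lit 5) (nat_lit 190) (nat_lit 5) (nat_lit 401) (nat_lit 380) (nat_lit 239)) (XT.nd (nat_lit 78) (nat_lit 456) (nat_lit 0) (XT.lf (nat_lit 0) (nat_lit 10982695154) (nat_lit 532) (nat_lit 18032091812) (nat_lit 76) (nat_lit 22576646038) (nat_lit 176) (nat_lit 5) (nat_lit 183) (nat_lit 5) (nat_lit 177) (nat_lit 5) (nat_lit 402) (nat_lit 380) (nat_lit 238)) (XT.lf (nat_lit 0) (nat_lit 24826938532) (nat_lit 532) (nat_lit 22981314446) (nat_lit 76) (nat_lit 5302513926) (nat_lit 170) (nat_lit 5) (nat_lit 177) (nat_lit 5) (nat_lit 171) (nat_lit 5) (nat_lit 403) (nat_lit 380) (nat_lit 237)))))) (XT.nd (nat_lit 468) (nat_lit 1900) (nat_lit 0) (XT.nd (nat_lit 234) (nat_lit 1140) (nat_lit 0) (XT.nd (nat_lit 78) (nat_lit 836) (nat_lit 0) (XT.lf (nat_lit 0) (nat_lit 26595305750) (nat_lit 380) (nat_lit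 13500627133) (nat_lit 456) (nat_lit 14588159300) (nat_lit 165) (nat_lit 5) (nat_lit 170) (nat_lit 5) (nat_lit 171) (nat_lit 5) (nat_lit 404) (nat_lit 380) (nat_lit 236)) (XT.nd (nat_lit 78) (nat_lit 380) (nat_lit 0) (XT.lf (nat_lit 0) (nat_lit 476474459) (nat_lit 456) (nat_lit 33292349739) (nat_lit 76) (nat_lit 22546916368) (nat_lit 159) (nat_lit 5) (nat_lit 165) (nat_lit 5) (nat_lit 160) (nat_lit 5) (nat_lit 405) (nat_lit 380) (nat_lit 235)) (XT.lf (nat_lit 0) (nat_lit 16632762277) (nat_lit 456) (nat_lit 38687851428) (nat_lit 76) (nat_lit 2684821458) (nat_lit 154) (nat_lit 5) (nat_lit 160) (nat_lit 5) (nat_lit 155) (nat_lit 5) (nat_lit 406) (nat_lit 380) (nat_lit 234)))) (XT.nd (nat_lit 78) (nat_lit 760) (nat_lit 0) (XT.lf (nat_lit 0) (nat_lit 15437163019) (nat_lit 380) (nat_lit 18991913553) (nat_lit 456) (nat_lit 25325572267) (nat_lit 149) (nat_lit 5) (nat_lit 154) (nat_lit 5) (nat_lit 155)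 (nat_lit 5) (nat_lit 407) (nat_lit 380) (nat_lit 233)) (XT.nd (nat_lit 78) (nat_lit 456) (nat_lit 0) (XT.lf (nat_lit 0) (nat_lit 11530262599) (nat_lit 304) (nat_lit 42279066677) (nat_lit 380) (nat_lit 7761170921) (nat_lit 145) (nat_lit 5) (nat_lit 149) (nat_lit 5) (nat_lit 150) (nat_lit 5) (nat_lit 408) (nat_lit 380) (nat_lit 232)) (XT.lf (nat_lit 0) (nat_lit 7475911228) (nat_lit 380) (nat_lit 3718434271) (nat_lit 456) (nat_lit 52258079094) (nat_lit 139) (nat_lit 5) (nat_lit 144) (nat_lit 5) (nat_lit 145) (nat_lit 5) (nat_lit 409) (nat_lit 380) (nat_lit 231))))) (XT.nd (nat_lit 234) (nat_lit 1216) (nat_lit 0) (XT.nd (nat_lit 78) (nat_lit 380) (nat_lit 0) (XT.lf (nat_lit 0) (nat_lit 3120478658) (nat_lit 304) (nat_lit 28718952394) (nat_lit 380) (nat_lit 33559640269) (nat_lit 135) (nat_lit 5) (nat_lit 139) (nat_lit 5) (nat_lit 140) (nat_lit 5) (nat_lit 410) (nat_lit 380) (nat_lit 230)) (XT.nd (nat_lit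 78) (nat_lit 380) (nat_lit 0) (XT.lf (nat_lit 0) (nat_lit 54244409452) (nat_lit 380) (nat_lit 1241926030) (nat_lit 76) (nat_lit 11934886318) (nat_lit 135) (nat_lit 5) (nat_lit 140) (nat_lit 5) (nat_lit 136) (nat_lit 5) (nat_lit 411) (nat_lit 380) (nat_lit 229)) (XT.lf (nat_lit 0) (nat_lit 8974058770) (nat_lit 380) (nat_lit 5807666870) (nat_lit 76) (nat_lit 54733100601) (nat_lit 130) (nat_lit 5) (nat_lit 135) (nat_lit 5) (nat_lit 131) (nat_lit 5) (nat_lit 412) (nat_lit 380) (nat_lit 228)))) (XT.nd (nat_lit 156) (nat_lit 608) (nat_lit 0) (XT.nd (nat_lit 78) (nat_lit 304) (nat_lit 0) (XT.lf (nat_lit 0) (nat_lit 32837858619) (nat_lit 380) (nat_lit 10691438029) (nat_lit 76) (nat_lit 28153563798) (nat_lit 126) (nat_lit 5) (nat_lit 131) (nat_lit 5) (nat_lit 127) (nat_lit 5) (nat_lit 413) (nat_lit 380) (nat_lit 227)) (XT.lf (nat_lit 0) (nat_lit 58278005142) (nat_lit 304) (nat_lit 384117745) (nat_lit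 380) (nat_lit 15274155719) (nat_lit 122) (nat_lit 5) (nat_lit 126) (nat_lit 5) (nat_lit 127) (nat_lit 5) (nat_lit 414) (nat_lit 380) (nat_lit 226))) (XT.nd (nat_lit 78) (nat_lit 304) (nat_lit 0) (XT.lf (nat_lit 0) (nat_lit 10372661798) (nat_lit 304) (nat_lit 21109846948) (nat_lit 76) (nat_lit 44784657165) (nat_lit 118) (nat_lit 5) (nat_lit 122) (nat_lit 5) (nat_lit 119) (nat_lit 5) (nat_lit 415) (nat_lit 380) (nat_lit 225)) (XT.lf (nat_lit 0) (nat_lit 37790580558) (nat_lit 380) (nat_lit 26845577002) (nat_lit 76) (nat_lit 14049763965) (nat_lit 114) (nat_lit 5) (nat_lit 119) (nat_lit 5) (nat_lit 115) (nat_lit 5) (nat_lit 416) (nat_lit 380) (nat_lit 224))))))) (XT.nd (nat_lit 936) (nat_lit 228) (nat_lit 0) (XT.nd (nat_lit 468) (nat_lit 1064) (nat_lit 0) (XT.nd (nat_lit 234) (nat_lit 760) (nat_lit 0) (XT.nd (nat_lit 78) (nat_lit 532) (nat_lit 0) (XT.lf (nat_lit 0) (nat_lit 48278666307) (nat_lit 228)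 (nat_lit 19299727518) (nat_lit 304) (nat_lit 13617251537) (nat_lit 111) (nat_lit 5) (nat_lit 114) (nat_lit 5) (nat_lit 115) (nat_lit 5) (nat_lit 417) (nat_lit 380) (nat_lit 223)) (XT.nd (nat_lit 78) (nat_lit 228) (nat_lit 0) (XT.lf (nat_lit 0) (nat_lit 15717780807) (nat_lit 304) (nat_lit 39468351655) (nat_lit 76) (nat_lit 28610803731) (nat_lit 107) (nat_lit 5) (nat_lit 111) (nat_lit 5) (nat_lit 108) (nat_lit 5) (nat_lit 418) (nat_lit 380) (nat_lit 222)) (XT.lf (nat_lit 0) (nat_lit 40048576254) (nat_lit 228) (nat_lit 7111766168) (nat_lit 304) (nat_lit 39336232666) (nat_lit 104) (nat_lit 5) (nat_lit 107) (nat_lit 5) (nat_lit 108) (nat_lit 5) (nat_lit 419) (nat_lit 380) (nat_lit 221)))) (XT.nd (nat_lit 78) (nat_lit 532) (nat_lit 0) (XT.lf (nat_lit 0) (nat_lit 35311849321) (nat_lit 228) (nat_lit 46027670349) (nat_lit 304) (nat_lit 7956741969) (nat_lit 101) (nat_lit 5) (nat_lit 104) (nat_lit 5) (nat_lit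 105) (nat_lit 5) (nat_lit 420) (nat_lit 380) (nat_lit 220)) (XT.nd (nat_lit 78) (nat_lit 228) (nat_lit 0) (XT.lf (nat_lit 0) (nat_lit 25393140094) (nat_lit 304) (nat_lit 62072418304) (nat_lit 76) (nat_lit 4736494497) (nat_lit 97) (nat_lit 5) (nat_lit 101) (nat_lit 5) (nat_lit 98) (nat_lit 5) (nat_lit 421) (nat_lit 380) (nat_lit 219)) (XT.lf (nat_lit 0) (nat_lit 24260735475) (nat_lit 228) (nat_lit 37243728546) (nat_lit 304) (nat_lit 33708551437) (nat_lit 94) (nat_lit 5) (nat_lit 97) (nat_lit 5) (nat_lit 98) (nat_lit 5) (nat_lit 422) (nat_lit 380) (nat_lit 218))))) (XT.nd (nat_lit 234) (nat_lit 456) (nat_lit 0) (XT.nd (nat_lit 78) (nat_lit 380) (nat_lit 0) (XT.lf (nat_lit 0) (nat_lit 2001656523) (nat_lit 228) (nat_lit 80319222286) (nat_lit 76) (nat_lit 16024088054) (nat_lit 91) (nat_lit 5) (nat_lit 94) (nat_lit 5) (nat_lit 92) (nat_lit 5) (nat_lit 423) (nat_lit 380) (nat_lit 217)) (XT.nd (nat_lit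 78) (nat_lit 152) (nat_lit 0) (XT.lf (nat_lit 0) (nat_lit 10808062594) (nat_lit 228) (nat_lit 29214145910) (nat_lit 304) (nat_lit 61564635807) (nat_lit 88) (nat_lit 5) (nat_lit 91) (nat_lit 5) (nat_lit 92) (nat_lit 5) (nat_lit 424) (nat_lit 380) (nat_lit 216)) (XT.lf (nat_lit 0) (nat_lit 2996035213) (nat_lit 152) (nat_lit 78064869975) (nat_lit 228) (nat_lit 23896397180) (nat_lit 86) (nat_lit 5) (nat_lit 88) (nat_lit 5) (nat_lit 89) (nat_lit 5) (nat_lit 425) (nat_lit 380) (nat_lit 215)))) (XT.nd (nat_lit 78) (nat_lit 380) (nat_lit 0) (XT.lf (nat_lit 0) (nat_lit 16586530466) (nat_lit 228) (nat_lit 5569380522) (nat_lit 76) (nat_lit 86298754908) (nat_lit 85) (nat_lit 5) (nat_lit 88) (nat_lit 5) (nat_lit 86) (nat_lit 5) (nat_lit 426) (nat_lit 380) (nat_lit 214)) (XT.nd (nat_lit 78) (nat_lit 152) (nat_lit 0) (XT.lf (nat_lit 0) (nat_lit 59900470867) (nat_lit 304) (nat_lit 15158084750) (nat_lit 76) (nat_lit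 37022211846) (nat_lit 82) (nat_lit 5) (nat_lit 86) (nat_lit 5) (nat_lit 83) (nat_lit 5) (nat_lit 427) (nat_lit 380) (nat_lit 213)) (XT.lf (nat_lit 0) (nat_lit 90304314652) (nat_lit 152) (nat_lit 16223672144) (nat_lit 228) (nat_lit 9325751165) (nat_lit 80) (nat_lit 5) (nat_lit 82) (nat_lit 5) (nat_lit 83) (nat_lit 5) (nat_lit 428) (nat_lit 380) (nat_lit 212)))))) (XT.nd (nat_lit 49764) (nat_lit 0) (nat_lit 12996) (XT.nd (nat_lit 49530) (nat_lit 0) (nat_lit 13756) (XT.nd (nat_lit 49374) (nat_lit 0) (nat_lit 13680) (XT.lf (nat_lit 0) (nat_lit 36378129658) (nat_lit 228) (nat_lit 37412614896) (nat_lit 76) (nat_lit 45972245087) (nat_lit 77) (nat_lit 5) (nat_lit 80) (nat_lit 5) (nat_lit 78) (nat_lit 5) (nat_lit 429) (nat_lit 380) (nat_lit 211)) (XT.nd (nat_lit 78) (nat_lit 0) (nat_lit 76) (XT.lf (nat_lit 0) (nat_lit 3963221707) (nat_lit 1292) (nat_lit 5547351880) (nat_lit 1292) (nat_lit 5547351880)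 (nat_lit 257) (nat_lit 3) (nat_lit 274) (nat_lit 3) (nat_lit 274) (nat_lit 5) (nat_lit 381) (nat_lit 381) (nat_lit 258)) (XT.lf (nat_lit 0) (nat_lit 8422469707) (nat_lit 1216) (nat_lit 17349688763) (nat_lit 1292) (nat_lit 5087614313) (nat_lit 258) (nat_lit 5) (nat_lit 274) (nat_lit 5) (nat_lit 275) (nat_lit 5) (nat_lit 382) (nat_lit 381) (nat_lit 257)))) (XT.nd (nat_lit 78) (nat_lit 0) (nat_lit 76) (XT.lf (nat_lit 76) (nat_lit 7896241388) (nat_lit 0) (nat_lit 1422752634) (nat_lit 1292) (nat_lit 22310628262) (nat_lit 259) (nat_lit 5) (nat_lit 258) (nat_lit 5) (nat_lit 275) (nat_lit 5) (nat_lit 383) (nat_lit 381) (nat_lit 256)) (XT.nd (nat_lit 78) (nat_lit 0) (nat_lit 76) (XT.lf (nat_lit 76) (nat_lit 2137933590) (nat_lit 0) (nat_lit 8548234641) (nat_lit 1292) (nat_lit 21739023664) (nat_lit 260) (nat_lit 5) (nat_lit 259) (nat_lit 5) (nat_lit 276) (nat_lit 5) (nat_lit 384) (nat_lit 381) (nat_lit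 255)) (XT.lf (nat_lit 0) (nat_lit 12540675062) (nat_lit 1216) (nat_lit 3640412809) (nat_lit 1292) (nat_lit 17066885133) (nat_lit 260) (nat_lit 5) (nat_lit 276) (nat_lit 5) (nat_lit 277) (nat_lit 5) (nat_lit 385) (nat_lit 381) (nat_lit 254))))) (XT.nd (nat_lit 234) (nat_lit 988) (nat_lit 0) (XT.nd (nat_lit 78) (nat_lit 0) (nat_lit 76) (XT.lf (nat_lit 0) (nat_lit 14900794062) (nat_lit 1216) (nat_lit 9466942612) (nat_lit 1292) (nat_lit 9731772015) (nat_lit 261) (nat_lit 5) (nat_lit 277) (nat_lit 5) (nat_lit 278) (nat_lit 5) (nat_lit 386) (nat_lit 381) (nat_lit 253)) (XT.nd (nat_lit 78) (nat_lit 0) (nat_lit 0) (XT.lf (nat_lit 0) (nat_lit 17780254937) (nat_lit 1216) (nat_lit 15382395370) (nat_lit 1292) (nat_lit 1818932800) (nat_lit 262) (nat_lit 5) (nat_lit 278) (nat_lit 5) (nat_lit 279) (nat_lit 5) (nat_lit 387) (nat_lit 381) (nat_lit 252)) (XT.lf (nat_lit 76) (nat_lit 14442113335) (nat_lit 0) (nat_lit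 6838805544) (nat_lit 1292) (nat_lit 14612527398) (nat_lit 263) (nat_lit 5) (nat_lit 262) (nat_lit 5) (nat_lit 279) (nat_lit 5) (nat_lit 388) (nat_lit 381) (nat_lit 251)))) (XT.nd (nat_lit 156) (nat_lit 1140) (nat_lit 0) (XT.nd (nat_lit 78) (nat_lit 0) (nat_lit 76) (XT.lf (nat_lit 76) (nat_lit 9206809023) (nat_lit 0) (nat_lit 16192470750) (nat_lit 1292) (nat_lit 11438344754) (nat_lit 264) (nat_lit 5) (nat_lit 263) (nat_lit 5) (nat_lit 280) (nat_lit 5) (nat_lit 389) (nat_lit 381) (nat_lit 250)) (XT.lf (nat_lit 76) (nat_lit 3914180405) (nat_lit 0) (nat_lit 26243781607) (nat_lit 1292) (nat_lit 7658019330) (nat_lit 265) (nat_lit 5) (nat_lit 264) (nat_lit 5) (nat_lit 281) (nat_lit 5) (nat_lit 390) (nat_lit 381) (nat_lit 249))) (XT.nd (nat_lit 78) (nat_lit 1292) (nat_lit 0) (XT.lf (nat_lit 0) (nat_lit 35613352725) (nat_lit 1216) (nat_lit 1405029973) (nat_lit 76) (nat_lit 1811111737) (nat_lit 265) (nat_lit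 5) (nat_lit 281) (nat_lit 5) (nat_lit 266) (nat_lit 5) (nat_lit 391) (nat_lit 381) (nat_lit 248)) (XT.lf (nat_lit 0) (nat_lit 2003303943) (nat_lit 1292) (nat_lit 6802863149) (nat_lit 76) (nat_lit 31069588310) (nat_lit 248) (nat_lit 5) (nat_lit 265) (nat_lit 5) (nat_lit 249) (nat_lit 5) (nat_lit 392) (nat_lit 381) (nat_lit 247))))))))
noncomputable def xc109 : XT := (XT.nd (nat_lit 1950) (nat_lit 2584) (nat_lit 0) (XT.nd (nat_lit 936) (nat_lit 4256) (nat_lit 0) (XT.nd (nat_lit 468) (nat_lit 2432) (nat_lit 0) (XT.nd (nat_lit 234) (nat_lit 1596) (nat_lit 0) (XT.nd (nat_lit 78) (nat_lit 1216) (nat_lit 0) (XT.lf (nat_lit 0) (nat_lit 7908294338) (nat_lit 760) (nat_lit 12311712110) (nat_lit 76) (nat_lit 20738636534) (nat_lit 239) (nat_lit 5) (nat_lit 249) (nat_lit 5) (nat_lit 240) (nat_lit 5) (nat_lit 393) (nat_lit 381) (nat_lit 246)) (XT.nd (nat_lit 78) (nat_lit 608) (nat_lit 0) (XT.lf (nat_lit 0)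 (nat_lit 14591272438) (nat_lit 684) (nat_lit 17880201449) (nat_lit 76) (nat_lit 9609720306) (nat_lit 231) (nat_lit 5) (nat_lit 240) (nat_lit 5) (nat_lit 232) (nat_lit 5) (nat_lit 394) (nat_lit 381) (nat_lit 245)) (XT.lf (nat_lit 0) (nat_lit 19715574356) (nat_lit 608) (nat_lit 2409957131) (nat_lit 684) (nat_lit 21118828846) (nat_lit 223) (nat_lit 5) (nat_lit 231) (nat_lit 5) (nat_lit 232) (nat_lit 5) (nat_lit 395) (nat_lit 381) (nat_lit 244)))) (XT.nd (nat_lit 78) (nat_lit 1064) (nat_lit 0) (XT.lf (nat_lit 0) (nat_lit 15113102169) (nat_lit 532) (nat_lit 15530521259) (nat_lit 608) (nat_lit 13803849023) (nat_lit 216) (nat_lit 5) (nat_lit 223) (nat_lit 5) (nat_lit 224) (nat_lit 5) (nat_lit 396) (nat_lit 381) (nat_lit 243)) (XT.nd (nat_lit 78) (nat_lit 532) (nat_lit 0) (XT.lf (nat_lit 0) (nat_lit 10494962718) (nat_lit 532) (nat_lit 29612391987) (nat_lit 608) (nat_lit 5587794635) (nat_lit 209) (nat_lit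 5) (nat_lit 216) (nat_lit 5) (nat_lit 217) (nat_lit 5) (nat_lit 397) (nat_lit 381) (nat_lit 242)) (XT.lf (nat_lit 0) (nat_lit 3516412728) (nat_lit 532) (nat_lit 41158028088) (nat_lit 76) (nat_lit 2313794375) (nat_lit 202) (nat_lit 5) (nat_lit 209) (nat_lit 5) (nat_lit 203) (nat_lit 5) (nat_lit 398) (nat_lit 381) (nat_lit 241))))) (XT.nd (nat_lit 234) (nat_lit 1444) (nat_lit 0) (XT.nd (nat_lit 78) (nat_lit 456) (nat_lit 0) (XT.lf (nat_lit 0) (nat_lit 968320194) (nat_lit 532) (nat_lit 12663290168) (nat_lit 608) (nat_lit 34692565973) (nat_lit 195) (nat_lit 5) (nat_lit 202) (nat_lit 5) (nat_lit 203) (nat_lit 5) (nat_lit 399) (nat_lit 381) (nat_lit 240)) (XT.nd (nat_lit 78) (nat_lit 456) (nat_lit 0) (XT.lf (nat_lit 0) (nat_lit 24878091082) (nat_lit 608) (nat_lit 3862985043) (nat_lit 76) (nat_lit 20967073728) (nat_lit 195) (nat_lit 5) (nat_lit 203) (nat_lit 5) (nat_lit 196) (nat_lit 5) (nat_lit 400)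 (nat_lit 381) (nat_lit 239)) (XT.lf (nat_lit 0) (nat_lit 37270492458) (nat_lit 532) (nat_lit 8694112619) (nat_lit 76) (nat_lit 5179210035) (nat_lit 189) (nat_lit 5) (nat_lit 196) (nat_lit 5) (nat_lit 190) (nat_lit 5) (nat_lit 401) (nat_lit 381) (nat_lit 238)))) (XT.nd (nat_lit 78) (nat_lit 988) (nat_lit 0) (XT.lf (nat_lit 0) (nat_lit 38974668590) (nat_lit 456) (nat_lit 12009320852) (nat_lit 532) (nat_lit 1646230843) (nat_lit 183) (nat_lit 5) (nat_lit 189) (nat_lit 5) (nat_lit 190) (nat_lit 5) (nat_lit 402) (nat_lit 381) (nat_lit 237)) (XT.nd (nat_lit 78) (nat_lit 456) (nat_lit 0) (XT.lf (nat_lit 0) (nat_lit 11635721375) (nat_lit 532) (nat_lit 18804902001) (nat_lit 76) (nat_lit 23727238413) (nat_lit 176) (nat_lit 5) (nat_lit 183) (nat_lit 5) (nat_lit 177) (nat_lit 5) (nat_lit 403) (nat_lit 381) (nat_lit 236)) (XT.lf (nat_lit 0) (nat_lit 26168672160) (nat_lit 532) (nat_lit 24002488239) (nat_lit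 76) (nat_lit 5592108370) (nat_lit 170) (nat_lit 5) (nat_lit 177) (nat_lit 5) (nat_lit 171) (nat_lit 5) (nat_lit 404) (nat_lit 381) (nat_lit 235)))))) (XT.nd (nat_lit 468) (nat_lit 1900) (nat_lit 0) (XT.nd (nat_lit 234) (nat_lit 1140) (nat_lit 0) (XT.nd (nat_lit 78) (nat_lit 836) (nat_lit 0) (XT.lf (nat_lit 0) (nat_lit 28049296971) (nat_lit 380) (nat_lit 14148233075) (nat_lit 456) (nat_lit 15217839037) (nat_lit 165) (nat_lit 5) (nat_lit 170) (nat_lit 5) (nat_lit 171) (nat_lit 5) (nat_lit 405) (nat_lit 381) (nat_lit 234)) (XT.nd (nat_lit 78) (nat_lit 380) (nat_lit 0) (XT.lf (nat_lit 0) (nat_lit 594874133) (nat_lit 456) (nat_lit 34831810334) (nat_lit 76) (nat_lit 23701983940) (nat_lit 159) (nat_lit 5) (nat_lit 165) (nat_lit 5) (nat_lit 160) (nat_lit 5) (nat_lit 406) (nat_lit 381) (nat_lit 233)) (XT.lf (nat_lit 0) (nat_lit 17555932858) (nat_lit 456) (nat_lit 40498208147) (nat_lit 76) (nat_lit 2848799077)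 (nat_lit 154) (nat_lit 5) (nat_lit 160) (nat_lit 5) (nat_lit 155) (nat_lit 5) (nat_lit 407) (nat_lit 381) (nat_lit 232)))) (XT.nd (nat_lit 78) (nat_lit 760) (nat_lit 0) (XT.lf (nat_lit 0) (nat_lit 16329501561) (nat_lit 380) (nat_lit 19909360750) (nat_lit 456) (nat_lit 26500849142) (nat_lit 149) (nat_lit 5) (nat_lit 154) (nat_lit 5) (nat_lit 155) (nat_lit 5) (nat_lit 408) (nat_lit 381) (nat_lit 231)) (XT.nd (nat_lit 78) (nat_lit 456) (nat_lit 0) (XT.lf (nat_lit 0) (nat_lit 12226095699) (nat_lit 304) (nat_lit 44359266960) (nat_lit 380) (nat_lit 8061076615) (nat_lit 145) (nat_lit 5) (nat_lit 149) (nat_lit 5) (nat_lit 150) (nat_lit 5) (nat_lit 409) (nat_lit 381) (nat_lit 230)) (XT.lf (nat_lit 0) (nat_lit 7967295195) (nat_lit 380) (nat_lit 3870214742) (nat_lit 456) (nat_lit 54785014972) (nat_lit 139) (nat_lit 5) (nat_lit 144) (nat_lit 5) (nat_lit 145) (nat_lit 5) (nat_lit 410) (nat_lit 381) (nat_lit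 229))))) (XT.nd (nat_lit 234) (nat_lit 1216) (nat_lit 0) (XT.nd (nat_lit 78) (nat_lit 380) (nat_lit 0) (XT.lf (nat_lit 0) (nat_lit 3392850223) (nat_lit 304) (nat_lit 30119456835) (nat_lit 380) (nat_lit 35154274031) (nat_lit 135) (nat_lit 5) (nat_lit 139) (nat_lit 5) (nat_lit 140) (nat_lit 5) (nat_lit 411) (nat_lit 381) (nat_lit 228)) (XT.nd (nat_lit 78) (nat_lit 380) (nat_lit 0) (XT.lf (nat_lit 0) (nat_lit 57034006261) (nat_lit 380) (nat_lit 1191212113) (nat_lit 76) (nat_lit 12564727353) (nat_lit 135) (nat_lit 5) (nat_lit 140) (nat_lit 5) (nat_lit 136) (nat_lit 5) (nat_lit 412) (nat_lit 381) (nat_lit 227)) (XT.lf (nat_lit 0) (nat_lit 9498261646) (nat_lit 380) (nat_lit 5986956404) (nat_lit 76) (nat_lit 57503069828) (nat_lit 130) (nat_lit 5) (nat_lit 135) (nat_lit 5) (nat_lit 131) (nat_lit 5) (nat_lit 413) (nat_lit 381) (nat_lit 226)))) (XT.nd (nat_lit 156) (nat_lit 608) (nat_lit 0) (XT.nd (nat_lit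 78) (nat_lit 304) (nat_lit 0) (XT.lf (nat_lit 0) (nat_lit 34553029670) (nat_lit 380) (nat_lit 11116234494) (nat_lit 76) (nat_lit 29595526983) (nat_lit 126) (nat_lit 5) (nat_lit 131) (nat_lit 5) (nat_lit 127) (nat_lit 5) (nat_lit 414) (nat_lit 381) (nat_lit 225)) (XT.lf (nat_lit 0) (nat_lit 61298534145) (nat_lit 304) (nat_lit 367508553) (nat_lit 380) (nat_lit 15964912117) (nat_lit 122) (nat_lit 5) (nat_lit 126) (nat_lit 5) (nat_lit 127) (nat_lit 5) (nat_lit 415) (nat_lit 381) (nat_lit 224))) (XT.nd (nat_lit 78) (nat_lit 304) (nat_lit 0) (XT.lf (nat_lit 0) (nat_lit 10960770142) (nat_lit 304) (nat_lit 22058630003) (nat_lit 76) (nat_lit 47059027496) (nat_lit 118) (nat_lit 5) (nat_lit 122) (nat_lit 5) (nat_lit 119) (nat_lit 5) (nat_lit 416) (nat_lit 381) (nat_lit 223)) (XT.lf (nat_lit 0) (nat_lit 39747623583) (nat_lit 380) (nat_lit 28082529477) (nat_lit 76) (nat_lit 14788027399) (nat_lit 114) (nat_lit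 5) (nat_lit 119) (nat_lit 5) (nat_lit 115) (nat_lit 5) (nat_lit 417) (nat_lit 381) (nat_lit 222))))))) (XT.nd (nat_lit 50310) (nat_lit 0) (nat_lit 12084) (XT.nd (nat_lit 468) (nat_lit 1064) (nat_lit 0) (XT.nd (nat_lit 234) (nat_lit 760) (nat_lit 0) (XT.nd (nat_lit 78) (nat_lit 532) (nat_lit 0) (XT.lf (nat_lit 0) (nat_lit 50794906839) (nat_lit 228) (nat_lit 20227689162) (nat_lit 304) (nat_lit 14230861990) (nat_lit 111) (nat_lit 5) (nat_lit 114) (nat_lit 5) (nat_lit 115) (nat_lit 5) (nat_lit 418) (nat_lit 381) (nat_lit 221)) (XT.nd (nat_lit 78) (nat_lit 228) (nat_lit 0) (XT.lf (nat_lit 0) (nat_lit 16567791886) (nat_lit 304) (nat_lit 41339540683) (nat_lit 76) (nat_lit 30077516448) (nat_lit 107) (nat_lit 5) (nat_lit 111) (nat_lit 5) (nat_lit 108) (nat_lit 5) (nat_lit 419) (nat_lit 381) (nat_lit 220)) (XT.lf (nat_lit 0) (nat_lit 42150303261) (nat_lit 228) (nat_lit 7430079406) (nat_lit 304) (nat_lit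 41239150651) (nat_lit 104) (nat_lit 5) (nat_lit 107) (nat_lit 5) (nat_lit 108) (nat_lit 5) (nat_lit 420) (nat_lit 381) (nat_lit 219)))) (XT.nd (nat_lit 78) (nat_lit 532) (nat_lit 0) (XT.lf (nat_lit 0) (nat_lit 37175362484) (nat_lit 228) (nat_lit 48291485333) (nat_lit 304) (nat_lit 8292406976) (nat_lit 101) (nat_lit 5) (nat_lit 104) (nat_lit 5) (nat_lit 105) (nat_lit 5) (nat_lit 421) (nat_lit 381) (nat_lit 218)) (XT.nd (nat_lit 78) (nat_lit 228) (nat_lit 0) (XT.lf (nat_lit 0) (nat_lit 26722137625) (nat_lit 304) (nat_lit 65078318768) (nat_lit 76) (nat_lit 5009910273) (nat_lit 97) (nat_lit 5) (nat_lit 101) (nat_lit 5) (nat_lit 98) (nat_lit 5) (nat_lit 422) (nat_lit 381) (nat_lit 217)) (XT.lf (nat_lit 0) (nat_lit 25568691563) (nat_lit 228) (nat_lit 39068422869) (nat_lit 304) (nat_lit 35334820737) (nat_lit 94) (nat_lit 5) (nat_lit 97) (nat_lit 5) (nat_lit 98) (nat_lit 5) (nat_lit 423) (nat_lit 381)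 (nat_lit 216))))) (XT.nd (nat_lit 234) (nat_lit 456) (nat_lit 0) (XT.nd (nat_lit 78) (nat_lit 380) (nat_lit 0) (XT.lf (nat_lit 0) (nat_lit 2158235741) (nat_lit 228) (nat_lit 84240521541) (nat_lit 76) (nat_lit 16861755407) (nat_lit 91) (nat_lit 5) (nat_lit 94) (nat_lit 5) (nat_lit 92) (nat_lit 5) (nat_lit 424) (nat_lit 381) (nat_lit 215)) (XT.nd (nat_lit 78) (nat_lit 152) (nat_lit 0) (XT.lf (nat_lit 0) (nat_lit 11440414119) (nat_lit 228) (nat_lit 30637594763) (nat_lit 304) (nat_lit 64586529686) (nat_lit 88) (nat_lit 5) (nat_lit 91) (nat_lit 5) (nat_lit 92) (nat_lit 5) (nat_lit 425) (nat_lit 381) (nat_lit 214)) (XT.lf (nat_lit 0) (nat_lit 3236402523) (nat_lit 152) (nat_lit 81930845260) (nat_lit 228) (nat_lit 25036313867) (nat_lit 86) (nat_lit 5) (nat_lit 88) (nat_lit 5) (nat_lit 89) (nat_lit 5) (nat_lit 426) (nat_lit 381) (nat_lit 213)))) (XT.nd (nat_lit 78) (nat_lit 380) (nat_lit 0) (XT.lf (nat_lit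 0) (nat_lit 17467125383) (nat_lit 228) (nat_lit 5760569908) (nat_lit 76) (nat_lit 90648159454) (nat_lit 85) (nat_lit 5) (nat_lit 88) (nat_lit 5) (nat_lit 86) (nat_lit 5) (nat_lit 427) (nat_lit 381) (nat_lit 212)) (XT.nd (nat_lit 78) (nat_lit 152) (nat_lit 0) (XT.lf (nat_lit 0) (nat_lit 62945474134) (nat_lit 304) (nat_lit 15830053599) (nat_lit 76) (nat_lit 38907772621) (nat_lit 82) (nat_lit 5) (nat_lit 86) (nat_lit 5) (nat_lit 83) (nat_lit 5) (nat_lit 428) (nat_lit 381) (nat_lit 211)) (XT.lf (nat_lit 0) (nat_lit 94903002452) (nat_lit 152) (nat_lit 16999785805) (nat_lit 228) (nat_lit 9742178738) (nat_lit 80) (nat_lit 5) (nat_lit 82) (nat_lit 5) (nat_lit 83) (nat_lit 5) (nat_lit 429) (nat_lit 381) (nat_lit 210)))))) (XT.nd (nat_lit 468) (nat_lit 1368) (nat_lit 0) (XT.nd (nat_lit 234) (nat_lit 0) (nat_lit 152) (XT.nd (nat_lit 78) (nat_lit 0) (nat_lit 76) (XT.lf (nat_lit 0) (nat_lit 4277171923) (nat_lit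 1292) (nat_lit 5765069137) (nat_lit 1292) (nat_lit 5765069137) (nat_lit 257) (nat_lit 3) (nat_lit 274) (nat_lit 3) (nat_lit 274) (nat_lit 5) (nat_lit 382) (nat_lit 382) (nat_lit 256)) (XT.nd (nat_lit 78) (nat_lit 0) (nat_lit 0) (XT.lf (nat_lit 0) (nat_lit 9064240977) (nat_lit 1216) (nat_lit 18093553330) (nat_lit 1292) (nat_lit 5238275550) (nat_lit 258) (nat_lit 5) (nat_lit 274) (nat_lit 5) (nat_lit 275) (nat_lit 5) (nat_lit 383) (nat_lit 382) (nat_lit 255)) (XT.lf (nat_lit 76) (nat_lit 8411129791) (nat_lit 0) (nat_lit 1585108928) (nat_lit 1292) (nat_lit 23208457134) (nat_lit 259) (nat_lit 5) (nat_lit 258) (nat_lit 5) (nat_lit 275) (nat_lit 5) (nat_lit 384) (nat_lit 382) (nat_lit 254)))) (XT.nd (nat_lit 78) (nat_lit 0) (nat_lit 76) (XT.lf (nat_lit 76) (nat_lit 2368540229) (nat_lit 0) (nat_lit 9053523823) (nat_lit 1292) (nat_lit 22618274391) (nat_lit 260) (nat_lit 5) (nat_lit 259) (nat_lit 5) (nat_lit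 276) (nat_lit 5) (nat_lit 385) (nat_lit 382) (nat_lit 253)) (XT.nd (nat_lit 78) (nat_lit 0) (nat_lit 76) (XT.lf (nat_lit 0) (nat_lit 13358983867) (nat_lit 1216) (nat_lit 3698079532) (nat_lit 1292) (nat_lit 17847507694) (nat_lit 260) (nat_lit 5) (nat_lit 276) (nat_lit 5) (nat_lit 277) (nat_lit 5) (nat_lit 386) (nat_lit 382) (nat_lit 252)) (XT.lf (nat_lit 0) (nat_lit 15828560424) (nat_lit 1216) (nat_lit 9813340071) (nat_lit 1292) (nat_lit 10157042487) (nat_lit 261) (nat_lit 5) (nat_lit 277) (nat_lit 5) (nat_lit 278) (nat_lit 5) (nat_lit 387) (nat_lit 382) (nat_lit 251))))) (XT.nd (nat_lit 234) (nat_lit 1748) (nat_lit 0) (XT.nd (nat_lit 78) (nat_lit 0) (nat_lit 0) (XT.lf (nat_lit 0) (nat_lit 18843979516) (nat_lit 1216) (nat_lit 16022392720) (nat_lit 1292) (nat_lit 1858992156) (nat_lit 262) (nat_lit 5) (nat_lit 278) (nat_lit 5) (nat_lit 279) (nat_lit 5) (nat_lit 388) (nat_lit 382) (nat_lit 250))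 (XT.nd (nat_lit 78) (nat_lit 0) (nat_lit 76) (XT.lf (nat_lit 76) (nat_lit 15289640152) (nat_lit 0) (nat_lit 7222922515) (nat_lit 1292) (nat_lit 15170474161) (nat_lit 263) (nat_lit 5) (nat_lit 262) (nat_lit 5) (nat_lit 279) (nat_lit 5) (nat_lit 389) (nat_lit 382) (nat_lit 249)) (XT.lf (nat_lit 76) (nat_lit 9794305354) (nat_lit 0) (nat_lit 17035391582) (nat_lit 1292) (nat_lit 11844943960) (nat_lit 264) (nat_lit 5) (nat_lit 263) (nat_lit 5) (nat_lit 280) (nat_lit 5) (nat_lit 390) (nat_lit 382) (nat_lit 248)))) (XT.nd (nat_lit 156) (nat_lit 1900) (nat_lit 0) (XT.nd (nat_lit 78) (nat_lit 0) (nat_lit 76) (XT.lf (nat_lit 76) (nat_lit 4238436713) (nat_lit 0) (nat_lit 27581166789) (nat_lit 1292) (nat_lit 7882515785) (nat_lit 265) (nat_lit 5) (nat_lit 264) (nat_lit 5) (nat_lit 281) (nat_lit 5) (nat_lit 391) (nat_lit 382) (nat_lit 247)) (XT.lf (nat_lit 0) (nat_lit 37540211969) (nat_lit 1216) (nat_lit 1348185651)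 (nat_lit 76) (nat_lit 1878139291) (nat_lit 265) (nat_lit 5) (nat_lit 281) (nat_lit 5) (nat_lit 266) (nat_lit 5) (nat_lit 392) (nat_lit 382) (nat_lit 246))) (XT.nd (nat_lit 78) (nat_lit 684) (nat_lit 0) (XT.lf (nat_lit 0) (nat_lit 2245319630) (nat_lit 1292) (nat_lit 7016687566) (nat_lit 76) (nat_lit 32603237469) (nat_lit 248) (nat_lit 5) (nat_lit 265) (nat_lit 5) (nat_lit 249) (nat_lit 5) (nat_lit 393) (nat_lit 382) (nat_lit 245)) (XT.lf (nat_lit 0) (nat_lit 8439853692) (nat_lit 760) (nat_lit 12800340164) (nat_lit 76) (nat_lit 21762255991) (nat_lit 239) (nat_lit 5) (nat_lit 249) (nat_lit 5) (nat_lit 240) (nat_lit 5) (nat_lit 394) (nat_lit 382) (nat_lit 244))))))))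
noncomputable def xc110 : XT := (XT.nd (nat_lit 1950) (nat_lit 2204) (nat_lit 0) (XT.nd (nat_lit 936) (nat_lit 4104) (nat_lit 0) (XT.nd (nat_lit 468) (nat_lit 2280) (nat_lit 0) (XT.nd (nat_lit 234) (nat_lit 1596) (nat_lit 0) (XT.nd (nat_lit 78) (nat_lit 1140) (nat_lit 0) (XT.lf (nat_lit 0) (nat_lit 15451610661) (nat_lit 684) (nat_lit 18646856407) (nat_lit 76) (nat_lit 10082824600) (nat_lit 231) (nat_lit 5) (nat_lit 240) (nat_lit 5) (nat_lit 232) (nat_lit 5) (nat_lit 395) (nat_lit 382) (nat_lit 243)) (XT.nd (nat_lit 78) (nat_lit 532) (nat_lit 0) (XT.lf (nat_lit 0) (nat_lit 20825057579) (nat_lit 608) (nat_lit 2532486845) (nat_lit 684) (nat_lit 22045224697) (nat_lit 223) (nat_lit 5) (nat_lit 231) (nat_lit 5) (nat_lit 232) (nat_lit 5) (nat_lit 396) (nat_lit 382) (nat_lit 242)) (XT.lf (nat_lit 0) (nat_lit 15992634828) (nat_lit 532) (nat_lit 16304090874) (nat_lit 608) (nat_lit 14369457369) (nat_lit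 216) (nat_lit 5) (nat_lit 223) (nat_lit 5) (nat_lit 224) (nat_lit 5) (nat_lit 397) (nat_lit 382) (nat_lit 241)))) (XT.nd (nat_lit 78) (nat_lit 1064) (nat_lit 0) (XT.lf (nat_lit 0) (nat_lit 11143567878) (nat_lit 532) (nat_lit 31085535171) (nat_lit 608) (nat_lit 5747278653) (nat_lit 209) (nat_lit 5) (nat_lit 216) (nat_lit 5) (nat_lit 217) (nat_lit 5) (nat_lit 398) (nat_lit 382) (nat_lit 240)) (XT.nd (nat_lit 78) (nat_lit 532) (nat_lit 0) (XT.lf (nat_lit 0) (nat_lit 3805470506) (nat_lit 532) (nat_lit 43089983766) (nat_lit 76) (nat_lit 2438764417) (nat_lit 202) (nat_lit 5) (nat_lit 209) (nat_lit 5) (nat_lit 203) (nat_lit 5) (nat_lit 399) (nat_lit 382) (nat_lit 239)) (XT.lf (nat_lit 0) (nat_lit 1139071721) (nat_lit 532) (nat_lit 13283140019) (nat_lit 608) (nat_lit 36314873122) (nat_lit 195) (nat_lit 5) (nat_lit 202) (nat_lit 5) (nat_lit 203) (nat_lit 5) (nat_lit 400) (nat_lit 382) (nat_lit 238)))))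 (XT.nd (nat_lit 234) (nat_lit 1368) (nat_lit 0) (XT.nd (nat_lit 78) (nat_lit 912) (nat_lit 0) (XT.lf (nat_lit 0) (nat_lit 26225946921) (nat_lit 608) (nat_lit 3936603039) (nat_lit 76) (nat_lit 22027860595) (nat_lit 195) (nat_lit 5) (nat_lit 203) (nat_lit 5) (nat_lit 196) (nat_lit 5) (nat_lit 401) (nat_lit 382) (nat_lit 237)) (XT.nd (nat_lit 78) (nat_lit 456) (nat_lit 0) (XT.lf (nat_lit 0) (nat_lit 39234288059) (nat_lit 532) (nat_lit 9009836591) (nat_lit 76) (nat_lit 5453846182) (nat_lit 189) (nat_lit 5) (nat_lit 196) (nat_lit 5) (nat_lit 190) (nat_lit 5) (nat_lit 402) (nat_lit 382) (nat_lit 236)) (XT.lf (nat_lit 0) (nat_lit 41038973094) (nat_lit 456) (nat_lit 12590822930) (nat_lit 532) (nat_lit 1629011438) (nat_lit 183) (nat_lit 5) (nat_lit 189) (nat_lit 5) (nat_lit 190) (nat_lit 5) (nat_lit 403) (nat_lit 382) (nat_lit 235)))) (XT.nd (nat_lit 78) (nat_lit 836) (nat_lit 0) (XT.lf (nat_lit 0) (nat_lit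 12311740064) (nat_lit 532) (nat_lit 19628326781) (nat_lit 76) (nat_lit 24933337361) (nat_lit 176) (nat_lit 5) (nat_lit 183) (nat_lit 5) (nat_lit 177) (nat_lit 5) (nat_lit 404) (nat_lit 382) (nat_lit 234)) (XT.nd (nat_lit 78) (nat_lit 380) (nat_lit 0) (XT.lf (nat_lit 0) (nat_lit 27568159467) (nat_lit 532) (nat_lit 25086610900) (nat_lit 76) (nat_lit 5893907664) (nat_lit 170) (nat_lit 5) (nat_lit 177) (nat_lit 5) (nat_lit 171) (nat_lit 5) (nat_lit 405) (nat_lit 382) (nat_lit 233)) (XT.lf (nat_lit 0) (nat_lit 29564438404) (nat_lit 380) (nat_lit 14830769069) (nat_lit 456) (nat_lit 15888274545) (nat_lit 165) (nat_lit 5) (nat_lit 170) (nat_lit 5) (nat_lit 171) (nat_lit 5) (nat_lit 406) (nat_lit 382) (nat_lit 232)))))) (XT.nd (nat_lit 468) (nat_lit 1824) (nat_lit 0) (XT.nd (nat_lit 234) (nat_lit 1064) (nat_lit 0) (XT.nd (nat_lit 78) (nat_lit 760) (nat_lit 0) (XT.lf (nat_lit 0) (nat_lit 710401015) (nat_lit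 456) (nat_lit 36459879861) (nat_lit 76) (nat_lit 24912227585) (nat_lit 159) (nat_lit 5) (nat_lit 165) (nat_lit 5) (nat_lit 160) (nat_lit 5) (nat_lit 407) (nat_lit 382) (nat_lit 231)) (XT.nd (nat_lit 78) (nat_lit 380) (nat_lit 0) (XT.lf (nat_lit 0) (nat_lit 18516752147) (nat_lit 456) (nat_lit 42410614379) (nat_lit 76) (nat_lit 3018210956) (nat_lit 154) (nat_lit 5) (nat_lit 160) (nat_lit 5) (nat_lit 155) (nat_lit 5) (nat_lit 408) (nat_lit 382) (nat_lit 230)) (XT.lf (nat_lit 0) (nat_lit 17255255904) (nat_lit 380) (nat_lit 20875669168) (nat_lit 456) (nat_lit 27743350340) (nat_lit 149) (nat_lit 5) (nat_lit 154) (nat_lit 5) (nat_lit 155) (nat_lit 5) (nat_lit 409) (nat_lit 382) (nat_lit 229)))) (XT.nd (nat_lit 78) (nat_lit 760) (nat_lit 0) (XT.lf (nat_lit 0) (nat_lit 12945627214) (nat_lit 304) (nat_lit 46546615297) (nat_lit 380) (nat_lit 8384173209) (nat_lit 145) (nat_lit 5) (nat_lit 149) (nat_lit 5)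 (nat_lit 150) (nat_lit 5) (nat_lit 410) (nat_lit 382) (nat_lit 228)) (XT.nd (nat_lit 78) (nat_lit 304) (nat_lit 0) (XT.lf (nat_lit 0) (nat_lit 8472316105) (nat_lit 380) (nat_lit 4032758366) (nat_lit 456) (nat_lit 57446290140) (nat_lit 139) (nat_lit 5) (nat_lit 144) (nat_lit 5) (nat_lit 145) (nat_lit 5) (nat_lit 411) (nat_lit 382) (nat_lit 227)) (XT.lf (nat_lit 0) (nat_lit 3668023465) (nat_lit 304) (nat_lit 31593281668) (nat_lit 380) (nat_lit 36836388412) (nat_lit 135) (nat_lit 5) (nat_lit 139) (nat_lit 5) (nat_lit 140) (nat_lit 5) (nat_lit 412) (nat_lit 382) (nat_lit 226))))) (XT.nd (nat_lit 234) (nat_lit 1140) (nat_lit 0) (XT.nd (nat_lit 78) (nat_lit 684) (nat_lit 0) (XT.lf (nat_lit 0) (nat_lit 59955889192) (nat_lit 380) (nat_lit 1148450525) (nat_lit 76) (nat_lit 13222983420) (nat_lit 135) (nat_lit 5) (nat_lit 140) (nat_lit 5) (nat_lit 136) (nat_lit 5) (nat_lit 413) (nat_lit 382) (nat_lit 225))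 (XT.nd (nat_lit 78) (nat_lit 304) (nat_lit 0) (XT.lf (nat_lit 0) (nat_lit 10041655398) (nat_lit 380) (nat_lit 6185538865) (nat_lit 76) (nat_lit 60408440279) (nat_lit 130) (nat_lit 5) (nat_lit 135) (nat_lit 5) (nat_lit 131) (nat_lit 5) (nat_lit 414) (nat_lit 382) (nat_lit 224)) (XT.lf (nat_lit 0) (nat_lit 36347146569) (nat_lit 380) (nat_lit 11572476661) (nat_lit 76) (nat_lit 31106400834) (nat_lit 126) (nat_lit 5) (nat_lit 131) (nat_lit 5) (nat_lit 127) (nat_lit 5) (nat_lit 415) (nat_lit 382) (nat_lit 223)))) (XT.nd (nat_lit 156) (nat_lit 532) (nat_lit 0) (XT.nd (nat_lit 78) (nat_lit 304) (nat_lit 0) (XT.lf (nat_lit 0) (nat_lit 64460176268) (nat_lit 304) (nat_lit 353398648) (nat_lit 380) (nat_lit 16696988663) (nat_lit 122) (nat_lit 5) (nat_lit 126) (nat_lit 5) (nat_lit 127) (nat_lit 5) (nat_lit 416) (nat_lit 382) (nat_lit 222)) (XT.lf (nat_lit 0) (nat_lit 11571824752) (nat_lit 304) (nat_lit 23064773028)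 (nat_lit 76) (nat_lit 49443849595) (nat_lit 118) (nat_lit 5) (nat_lit 122) (nat_lit 5) (nat_lit 119) (nat_lit 5) (nat_lit 417) (nat_lit 382) (nat_lit 221))) (XT.nd (nat_lit 78) (nat_lit 228) (nat_lit 0) (XT.lf (nat_lit 0) (nat_lit 41796241948) (nat_lit 380) (nat_lit 29391121823) (nat_lit 76) (nat_lit 15559877962) (nat_lit 114) (nat_lit 5) (nat_lit 119) (nat_lit 5) (nat_lit 115) (nat_lit 5) (nat_lit 418) (nat_lit 382) (nat_lit 220)) (XT.lf (nat_lit 0) (nat_lit 53427447842) (nat_lit 228) (nat_lit 21205491098) (nat_lit 304) (nat_lit 14881405431) (nat_lit 111) (nat_lit 5) (nat_lit 114) (nat_lit 5) (nat_lit 115) (nat_lit 5) (nat_lit 419) (nat_lit 382) (nat_lit 219))))))) (XT.nd (nat_lit 50388) (nat_lit 0) (nat_lit 10716) (XT.nd (nat_lit 468) (nat_lit 684) (nat_lit 0) (XT.nd (nat_lit 234) (nat_lit 760) (nat_lit 0) (XT.nd (nat_lit 78) (nat_lit 456) (nat_lit 0) (XT.lf (nat_lit 0) (nat_lit 17454342060)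 (nat_lit 304) (nat_lit 43313793405) (nat_lit 76) (nat_lit 31614201823) (nat_lit 107) (nat_lit 5) (nat_lit 111) (nat_lit 5) (nat_lit 108) (nat_lit 5) (nat_lit 420) (nat_lit 382) (nat_lit 218)) (XT.nd (nat_lit 78) (nat_lit 228) (nat_lit 0) (XT.lf (nat_lit 0) (nat_lit 44347884812) (nat_lit 228) (nat_lit 7767773790) (nat_lit 304) (nat_lit 43243154761) (nat_lit 104) (nat_lit 5) (nat_lit 107) (nat_lit 5) (nat_lit 108) (nat_lit 5) (nat_lit 421) (nat_lit 382) (nat_lit 217)) (XT.lf (nat_lit 0) (nat_lit 39122947568) (nat_lit 228) (nat_lit 50671983832) (nat_lit 304) (nat_lit 8650635405) (nat_lit 101) (nat_lit 5) (nat_lit 104) (nat_lit 5) (nat_lit 105) (nat_lit 5) (nat_lit 422) (nat_lit 382) (nat_lit 216)))) (XT.nd (nat_lit 78) (nat_lit 456) (nat_lit 0) (XT.lf (nat_lit 0) (nat_lit 28112068113) (nat_lit 304) (nat_lit 68243599377) (nat_lit 76) (nat_lit 5293594948) (nat_lit 97) (nat_lit 5) (nat_lit 101) (nat_lit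 5) (nat_lit 98) (nat_lit 5) (nat_lit 423) (nat_lit 382) (nat_lit 215)) (XT.nd (nat_lit 78) (nat_lit 228) (nat_lit 0) (XT.lf (nat_lit 0) (nat_lit 26933220757) (nat_lit 228) (nat_lit 40987837568) (nat_lit 304) (nat_lit 37047903478) (nat_lit 94) (nat_lit 5) (nat_lit 97) (nat_lit 5) (nat_lit 98) (nat_lit 5) (nat_lit 424) (nat_lit 382) (nat_lit 214)) (XT.lf (nat_lit 0) (nat_lit 2317391422) (nat_lit 228) (nat_lit 88366686522) (nat_lit 76) (nat_lit 17737916149) (nat_lit 91) (nat_lit 5) (nat_lit 94) (nat_lit 5) (nat_lit 92) (nat_lit 5) (nat_lit 425) (nat_lit 382) (nat_lit 213))))) (XT.nd (nat_lit 234) (nat_lit 228) (nat_lit 0) (XT.nd (nat_lit 78) (nat_lit 228) (nat_lit 0) (XT.lf (nat_lit 0) (nat_lit 12095834730) (nat_lit 228) (nat_lit 32135679994) (nat_lit 304) (nat_lit 67764756024) (nat_lit 88) (nat_lit 5) (nat_lit 91) (nat_lit 5) (nat_lit 92) (nat_lit 5) (nat_lit 426) (nat_lit 382) (nat_lit 212)) (XT.nd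 (nat_lit 78) (nat_lit 76) (nat_lit 0) (XT.lf (nat_lit 0) (nat_lit 3480368273) (nat_lit 152) (nat_lit 85993584155) (nat_lit 228) (nat_lit 26238330766) (nat_lit 86) (nat_lit 5) (nat_lit 88) (nat_lit 5) (nat_lit 89) (nat_lit 5) (nat_lit 427) (nat_lit 382) (nat_lit 211)) (XT.lf (nat_lit 0) (nat_lit 18386983596) (nat_lit 228) (nat_lit 5969433197) (nat_lit 76) (nat_lit 95211829831) (nat_lit 85) (nat_lit 5) (nat_lit 88) (nat_lit 5) (nat_lit 86) (nat_lit 5) (nat_lit 428) (nat_lit 382) (nat_lit 210)))) (XT.nd (nat_lit 49530) (nat_lit 0) (nat_lit 13300) (XT.lf (nat_lit 0) (nat_lit 66138080924) (nat_lit 304) (nat_lit 16543610348) (nat_lit 76) (nat_lit 40884408584) (nat_lit 82) (nat_lit 5) (nat_lit 86) (nat_lit 5) (nat_lit 83) (nat_lit 5) (nat_lit 429) (nat_lit 382) (nat_lit 209)) (XT.nd (nat_lit 78) (nat_lit 0) (nat_lit 76) (XT.lf (nat_lit 0) (nat_lit 4596054673) (nat_lit 1292) (nat_lit 5999217981) (nat_lit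 1292) (nat_lit 5999217981) (nat_lit 257) (nat_lit 3) (nat_lit 274) (nat_lit 3) (nat_lit 274) (nat_lit 5) (nat_lit 383) (nat_lit 383) (nat_lit 254)) (XT.lf (nat_lit 0) (nat_lit 9717587072) (nat_lit 1216) (nat_lit 18886104129) (nat_lit 1292) (nat_lit 5406112703) (nat_lit 258) (nat_lit 5) (nat_lit 274) (nat_lit 5) (nat_lit 275) (nat_lit 5) (nat_lit 384) (nat_lit 383) (nat_lit 253)))))) (XT.nd (nat_lit 468) (nat_lit 2660) (nat_lit 0) (XT.nd (nat_lit 234) (nat_lit 0) (nat_lit 228) (XT.nd (nat_lit 78) (nat_lit 0) (nat_lit 76) (XT.lf (nat_lit 76) (nat_lit 8940599054) (nat_lit 0) (nat_lit 1747102389) (nat_lit 1292) (nat_lit 24171417368) (nat_lit 259) (nat_lit 5) (nat_lit 258) (nat_lit 5) (nat_lit 275) (nat_lit 5) (nat_lit 385) (nat_lit 383) (nat_lit 252)) (XT.nd (nat_lit 78) (nat_lit 0) (nat_lit 76) (XT.lf (nat_lit 76) (nat_lit 2599175820) (nat_lit 0) (nat_lit 9576837157) (nat_lit 1292) (nat_lit 23560797673)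 (nat_lit 260) (nat_lit 5) (nat_lit 259) (nat_lit 5) (nat_lit 276) (nat_lit 5) (nat_lit 386) (nat_lit 383) (nat_lit 251)) (XT.lf (nat_lit 0) (nat_lit 14200425170) (nat_lit 1216) (nat_lit 3770190841) (nat_lit 1292) (nat_lit 18673922357) (nat_lit 260) (nat_lit 5) (nat_lit 276) (nat_lit 5) (nat_lit 277) (nat_lit 5) (nat_lit 387) (nat_lit 383) (nat_lit 250)))) (XT.nd (nat_lit 78) (nat_lit 0) (nat_lit 76) (XT.lf (nat_lit 0) (nat_lit 16785726910) (nat_lit 1216) (nat_lit 10188859979) (nat_lit 1292) (nat_lit 10609277262) (nat_lit 261) (nat_lit 5) (nat_lit 277) (nat_lit 5) (nat_lit 278) (nat_lit 5) (nat_lit 388) (nat_lit 383) (nat_lit 249)) (XT.nd (nat_lit 78) (nat_lit 0) (nat_lit 0) (XT.lf (nat_lit 0) (nat_lit 19944647273) (nat_lit 1216) (nat_lit 16706394515) (nat_lit 1292) (nat_lit 1905785497) (nat_lit 262) (nat_lit 5) (nat_lit 278) (nat_lit 5) (nat_lit 279) (nat_lit 5) (nat_lit 389) (nat_lit 383) (nat_lit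 248)) (XT.lf (nat_lit 76) (nat_lit 16167882841) (nat_lit 0) (nat_lit 7622324146) (nat_lit 1292) (nat_lit 15772372376) (nat_lit 263) (nat_lit 5) (nat_lit 262) (nat_lit 5) (nat_lit 279) (nat_lit 5) (nat_lit 390) (nat_lit 383) (nat_lit 247))))) (XT.nd (nat_lit 234) (nat_lit 3040) (nat_lit 0) (XT.nd (nat_lit 78) (nat_lit 0) (nat_lit 76) (XT.lf (nat_lit 76) (nat_lit 10399354752) (nat_lit 0) (nat_lit 17917362789) (nat_lit 1292) (nat_lit 12287242831) (nat_lit 264) (nat_lit 5) (nat_lit 263) (nat_lit 5) (nat_lit 280) (nat_lit 5) (nat_lit 391) (nat_lit 383) (nat_lit 246)) (XT.nd (nat_lit 78) (nat_lit 0) (nat_lit 76) (XT.lf (nat_lit 76) (nat_lit 4566954728) (nat_lit 0) (nat_lit 28983078735) (nat_lit 1292) (nat_lit 8132964012) (nat_lit 265) (nat_lit 5) (nat_lit 264) (nat_lit 5) (nat_lit 281) (nat_lit 5) (nat_lit 392) (nat_lit 383) (nat_lit 245)) (XT.lf (nat_lit 0) (nat_lit 39549822666) (nat_lit 1216) (nat_lit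 1300315278) (nat_lit 76) (nat_lit 1950705636) (nat_lit 265) (nat_lit 5) (nat_lit 281) (nat_lit 5) (nat_lit 266) (nat_lit 5) (nat_lit 393) (nat_lit 383) (nat_lit 244)))) (XT.nd (nat_lit 156) (nat_lit 1216) (nat_lit 0) (XT.nd (nat_lit 78) (nat_lit 684) (nat_lit 0) (XT.lf (nat_lit 0) (nat_lit 2486248187) (nat_lit 1292) (nat_lit 7252947124) (nat_lit 76) (nat_lit 34215412715) (nat_lit 248) (nat_lit 5) (nat_lit 265) (nat_lit 5) (nat_lit 249) (nat_lit 5) (nat_lit 394) (nat_lit 383) (nat_lit 243)) (XT.lf (nat_lit 0) (nat_lit 8985333576) (nat_lit 760) (nat_lit 13325202930) (nat_lit 76) (nat_lit 22838294078) (nat_lit 239) (nat_lit 5) (nat_lit 249) (nat_lit 5) (nat_lit 240) (nat_lit 5) (nat_lit 395) (nat_lit 383) (nat_lit 242))) (XT.nd (nat_lit 78) (nat_lit 608) (nat_lit 0) (XT.lf (nat_lit 0) (nat_lit 16342807612) (nat_lit 684) (nat_lit 19463684385) (nat_lit 76) (nat_lit 10580270392) (nat_lit 231) (nat_lit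 5) (nat_lit 240) (nat_lit 5) (nat_lit 232) (nat_lit 5) (nat_lit 396) (nat_lit 383) (nat_lit 241)) (XT.lf (nat_lit 0) (nat_lit 21978514091) (nat_lit 608) (nat_lit 2660954142) (nat_lit 684) (nat_lit 23029984261) (nat_lit 223) (nat_lit 5) (nat_lit 231) (nat_lit 5) (nat_lit 232) (nat_lit 5) (nat_lit 397) (nat_lit 383) (nat_lit 240))))))))
noncomputable def xc111 : XT := (XT.nd (nat_lit 1950) (nat_lit 1444) (nat_lit 0) (XT.nd (nat_lit 936) (nat_lit 3800) (nat_lit 0) (XT.nd (nat_lit 468) (nat_lit 2660) (nat_lit 0) (XT.nd (nat_lit 234) (nat_lit 988) (nat_lit 0) (XT.nd (nat_lit 78) (nat_lit 1064) (nat_lit 0) (XT.lf (nat_lit 0) (nat_lit 16904627159) (nat_lit 532) (nat_lit 17116613831) (nat_lit 608) (nat_lit 14974928782) (nat_lit 216) (nat_lit 5) (nat_lit 223) (nat_lit 5) (nat_lit 224) (nat_lit 5) (nat_lit 398) (nat_lit 383) (nat_lit 239)) (XT.nd (nat_lit 78) (nat_lit 532) (nat_lit 0) (XT.lf (nat_lit 0)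 (nat_lit 11813088245) (nat_lit 532) (nat_lit 32633030601) (nat_lit 608) (nat_lit 5925884569) (nat_lit 209) (nat_lit 5) (nat_lit 216) (nat_lit 5) (nat_lit 217) (nat_lit 5) (nat_lit 399) (nat_lit 383) (nat_lit 238)) (XT.lf (nat_lit 0) (nat_lit 4098453456) (nat_lit 532) (nat_lit 45130246467) (nat_lit 76) (nat_lit 2569120166) (nat_lit 202) (nat_lit 5) (nat_lit 209) (nat_lit 5) (nat_lit 203) (nat_lit 5) (nat_lit 400) (nat_lit 383) (nat_lit 237)))) (XT.nd (nat_lit 78) (nat_lit 456) (nat_lit 0) (XT.lf (nat_lit 0) (nat_lit 1306987228) (nat_lit 532) (nat_lit 13935220233) (nat_lit 608) (nat_lit 38028738183) (nat_lit 195) (nat_lit 5) (nat_lit 202) (nat_lit 5) (nat_lit 203) (nat_lit 5) (nat_lit 401) (nat_lit 383) (nat_lit 236)) (XT.nd (nat_lit 78) (nat_lit 456) (nat_lit 0) (XT.lf (nat_lit 0) (nat_lit 27631531146) (nat_lit 608) (nat_lit 4025014817) (nat_lit 76) (nat_lit 23140530887) (nat_lit 195) (nat_lit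 5) (nat_lit 203) (nat_lit 5) (nat_lit 196) (nat_lit 5) (nat_lit 402) (nat_lit 383) (nat_lit 235)) (XT.lf (nat_lit 0) (nat_lit 41286951194) (nat_lit 532) (nat_lit 9352408548) (nat_lit 76) (nat_lit 5740756764) (nat_lit 189) (nat_lit 5) (nat_lit 196) (nat_lit 5) (nat_lit 190) (nat_lit 5) (nat_lit 403) (nat_lit 383) (nat_lit 234))))) (XT.nd (nat_lit 234) (nat_lit 1216) (nat_lit 0) (XT.nd (nat_lit 78) (nat_lit 988) (nat_lit 0) (XT.lf (nat_lit 0) (nat_lit 43195748120) (nat_lit 456) (nat_lit 13203163202) (nat_lit 532) (nat_lit 1620184506) (nat_lit 183) (nat_lit 5) (nat_lit 189) (nat_lit 5) (nat_lit 190) (nat_lit 5) (nat_lit 404) (nat_lit 383) (nat_lit 233)) (XT.nd (nat_lit 78) (nat_lit 456) (nat_lit 0) (XT.lf (nat_lit 0) (nat_lit 13012798831) (nat_lit 532) (nat_lit 20503783647) (nat_lit 76) (nat_lit 26197906294) (nat_lit 176) (nat_lit 5) (nat_lit 183) (nat_lit 5) (nat_lit 177) (nat_lit 5) (nat_lit 405)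 (nat_lit 383) (nat_lit 232)) (XT.lf (nat_lit 0) (nat_lit 29029155829) (nat_lit 532) (nat_lit 26235724438) (nat_lit 76) (nat_lit 6208733547) (nat_lit 170) (nat_lit 5) (nat_lit 177) (nat_lit 5) (nat_lit 171) (nat_lit 5) (nat_lit 406) (nat_lit 383) (nat_lit 231)))) (XT.nd (nat_lit 78) (nat_lit 836) (nat_lit 0) (XT.lf (nat_lit 0) (nat_lit 31144861307) (nat_lit 380) (nat_lit 15549744566) (nat_lit 456) (nat_lit 16600641612) (nat_lit 165) (nat_lit 5) (nat_lit 170) (nat_lit 5) (nat_lit 171) (nat_lit 5) (nat_lit 407) (nat_lit 383) (nat_lit 230)) (XT.nd (nat_lit 78) (nat_lit 380) (nat_lit 0) (XT.lf (nat_lit 0) (nat_lit 823728934) (nat_lit 456) (nat_lit 38179906969) (nat_lit 76) (nat_lit 26180645720) (nat_lit 159) (nat_lit 5) (nat_lit 165) (nat_lit 5) (nat_lit 160) (nat_lit 5) (nat_lit 408) (nat_lit 383) (nat_lit 229)) (XT.lf (nat_lit 0) (nat_lit 19517893741) (nat_lit 456) (nat_lit 44429100495) (nat_lit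 76) (nat_lit 3193585834) (nat_lit 154) (nat_lit 5) (nat_lit 160) (nat_lit 5) (nat_lit 155) (nat_lit 5) (nat_lit 409) (nat_lit 383) (nat_lit 228)))))) (XT.nd (nat_lit 468) (nat_lit 1976) (nat_lit 0) (XT.nd (nat_lit 234) (nat_lit 684) (nat_lit 0) (XT.nd (nat_lit 78) (nat_lit 760) (nat_lit 0) (XT.lf (nat_lit 0) (nat_lit 18217138214) (nat_lit 380) (nat_lit 21893003992) (nat_lit 456) (nat_lit 29055650501) (nat_lit 149) (nat_lit 5) (nat_lit 154) (nat_lit 5) (nat_lit 155) (nat_lit 5) (nat_lit 410) (nat_lit 383) (nat_lit 227)) (XT.nd (nat_lit 78) (nat_lit 456) (nat_lit 0) (XT.lf (nat_lit 0) (nat_lit 13691073410) (nat_lit 304) (nat_lit 48846177343) (nat_lit 380) (nat_lit 8730858300) (nat_lit 145) (nat_lit 5) (nat_lit 149) (nat_lit 5) (nat_lit 150) (nat_lit 5) (nat_lit 411) (nat_lit 383) (nat_lit 226)) (XT.lf (nat_lit 0) (nat_lit 8992672183) (nat_lit 380) (nat_lit 4206308200) (nat_lit 456) (nat_lit 60247878497)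 (nat_lit 139) (nat_lit 5) (nat_lit 144) (nat_lit 5) (nat_lit 145) (nat_lit 5) (nat_lit 412) (nat_lit 383) (nat_lit 225)))) (XT.nd (nat_lit 78) (nat_lit 380) (nat_lit 0) (XT.lf (nat_lit 0) (nat_lit 3947144122) (nat_lit 304) (nat_lit 33143786561) (nat_lit 380) (nat_lit 38609637020) (nat_lit 135) (nat_lit 5) (nat_lit 139) (nat_lit 5) (nat_lit 140) (nat_lit 5) (nat_lit 413) (nat_lit 383) (nat_lit 224)) (XT.nd (nat_lit 78) (nat_lit 380) (nat_lit 0) (XT.lf (nat_lit 0) (nat_lit 63017341355) (nat_lit 380) (nat_lit 1113063806) (nat_lit 76) (nat_lit 13911361344) (nat_lit 135) (nat_lit 5) (nat_lit 140) (nat_lit 5) (nat_lit 136) (nat_lit 5) (nat_lit 414) (nat_lit 383) (nat_lit 223)) (XT.lf (nat_lit 0) (nat_lit 10605852153) (nat_lit 380) (nat_lit 6403418657) (nat_lit 76) (nat_lit 63456269965) (nat_lit 130) (nat_lit 5) (nat_lit 135) (nat_lit 5) (nat_lit 131) (nat_lit 5) (nat_lit 415) (nat_lit 383) (nat_lit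 222))))) (XT.nd (nat_lit 234) (nat_lit 1064) (nat_lit 0) (XT.nd (nat_lit 78) (nat_lit 608) (nat_lit 0) (XT.lf (nat_lit 0) (nat_lit 38224789988) (nat_lit 380) (nat_lit 12060787971) (nat_lit 76) (nat_lit 32689927227) (nat_lit 126) (nat_lit 5) (nat_lit 131) (nat_lit 5) (nat_lit 127) (nat_lit 5) (nat_lit 416) (nat_lit 383) (nat_lit 221)) (XT.nd (nat_lit 78) (nat_lit 304) (nat_lit 0) (XT.lf (nat_lit 0) (nat_lit 67770908815) (nat_lit 304) (nat_lit 341603426) (nat_lit 380) (nat_lit 17471820808) (nat_lit 122) (nat_lit 5) (nat_lit 126) (nat_lit 5) (nat_lit 127) (nat_lit 5) (nat_lit 417) (nat_lit 383) (nat_lit 220)) (XT.lf (nat_lit 0) (nat_lit 12207573453) (nat_lit 304) (nat_lit 24130221680) (nat_lit 76) (nat_lit 51944949762) (nat_lit 118) (nat_lit 5) (nat_lit 122) (nat_lit 5) (nat_lit 119) (nat_lit 5) (nat_lit 418) (nat_lit 383) (nat_lit 219)))) (XT.nd (nat_lit 156) (nat_lit 532) (nat_lit 0) (XT.nd (nat_lit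 78) (nat_lit 228) (nat_lit 0) (XT.lf (nat_lit 0) (nat_lit 43941597979) (nat_lit 380) (nat_lit 30774025645) (nat_lit 76) (nat_lit 16367304234) (nat_lit 114) (nat_lit 5) (nat_lit 119) (nat_lit 5) (nat_lit 115) (nat_lit 5) (nat_lit 419) (nat_lit 383) (nat_lit 218)) (XT.lf (nat_lit 0) (nat_lit 56182988633) (nat_lit 228) (nat_lit 22235305315) (nat_lit 304) (nat_lit 15570147214) (nat_lit 111) (nat_lit 5) (nat_lit 114) (nat_lit 5) (nat_lit 115) (nat_lit 5) (nat_lit 420) (nat_lit 383) (nat_lit 217))) (XT.nd (nat_lit 78) (nat_lit 228) (nat_lit 0) (XT.lf (nat_lit 0) (nat_lit 18379812523) (nat_lit 304) (nat_lit 45395379390) (nat_lit 76) (nat_lit 33224671145) (nat_lit 107) (nat_lit 5) (nat_lit 111) (nat_lit 5) (nat_lit 108) (nat_lit 5) (nat_lit 421) (nat_lit 383) (nat_lit 216)) (XT.lf (nat_lit 0) (nat_lit 46646971922) (nat_lit 228) (nat_lit 8125496187) (nat_lit 304) (nat_lit 45352747036) (nat_lit 104) (nat_lit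 5) (nat_lit 107) (nat_lit 5) (nat_lit 108) (nat_lit 5) (nat_lit 422) (nat_lit 383) (nat_lit 215))))))) (XT.nd (nat_lit 50466) (nat_lit 0) (nat_lit 8892) (XT.nd (nat_lit 468) (nat_lit 76) (nat_lit 0) (XT.nd (nat_lit 234) (nat_lit 608) (nat_lit 0) (XT.nd (nat_lit 78) (nat_lit 532) (nat_lit 0) (XT.lf (nat_lit 0) (nat_lit 41159654547) (nat_lit 228) (nat_lit 53174675297) (nat_lit 304) (nat_lit 9032018041) (nat_lit 101) (nat_lit 5) (nat_lit 104) (nat_lit 5) (nat_lit 105) (nat_lit 5) (nat_lit 423) (nat_lit 383) (nat_lit 214)) (XT.nd (nat_lit 78) (nat_lit 228) (nat_lit 0) (XT.lf (nat_lit 0) (nat_lit 29566491117) (nat_lit 304) (nat_lit 71575384488) (nat_lit 76) (nat_lit 5588378244) (nat_lit 97) (nat_lit 5) (nat_lit 101) (nat_lit 5) (nat_lit 98) (nat_lit 5) (nat_lit 424) (nat_lit 383) (nat_lit 213)) (XT.lf (nat_lit 0) (nat_lit 28357972150) (nat_lit 228) (nat_lit 43006384600) (nat_lit 304) (nat_lit 38851628996)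 (nat_lit 94) (nat_lit 5) (nat_lit 97) (nat_lit 5) (nat_lit 98) (nat_lit 5) (nat_lit 425) (nat_lit 383) (nat_lit 212)))) (XT.nd (nat_lit 78) (nat_lit 380) (nat_lit 0) (XT.lf (nat_lit 0) (nat_lit 2479740714) (nat_lit 228) (nat_lit 92707142303) (nat_lit 76) (nat_lit 18654810116) (nat_lit 91) (nat_lit 5) (nat_lit 94) (nat_lit 5) (nat_lit 92) (nat_lit 5) (nat_lit 426) (nat_lit 383) (nat_lit 211)) (XT.nd (nat_lit 78) (nat_lit 152) (nat_lit 0) (XT.lf (nat_lit 0) (nat_lit 12776272639) (nat_lit 228) (nat_lit 33711811380) (nat_lit 304) (nat_lit 71106644486) (nat_lit 88) (nat_lit 5) (nat_lit 91) (nat_lit 5) (nat_lit 92) (nat_lit 5) (nat_lit 427) (nat_lit 383) (nat_lit 210)) (XT.lf (nat_lit 0) (nat_lit 3728895188) (nat_lit 152) (nat_lit 90262602711) (nat_lit 228) (nat_lit 27505078329) (nat_lit 86) (nat_lit 5) (nat_lit 88) (nat_lit 5) (nat_lit 89) (nat_lit 5) (nat_lit 428) (nat_lit 383) (nat_lit 209)))))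 (XT.nd (nat_lit 49764) (nat_lit 0) (nat_lit 13148) (XT.nd (nat_lit 49608) (nat_lit 0) (nat_lit 13072) (XT.lf (nat_lit 0) (nat_lit 19348511410) (nat_lit 228) (nat_lit 6196099681) (nat_lit 76) (nat_lit 100000777245) (nat_lit 85) (nat_lit 5) (nat_lit 88) (nat_lit 5) (nat_lit 86) (nat_lit 5) (nat_lit 429) (nat_lit 383) (nat_lit 208)) (XT.nd (nat_lit 78) (nat_lit 0) (nat_lit 76) (XT.lf (nat_lit 0) (nat_lit 4921117411) (nat_lit 1292) (nat_lit 6250104400) (nat_lit 1292) (nat_lit 6250104400) (nat_lit 257) (nat_lit 3) (nat_lit 274) (nat_lit 3) (nat_lit 274) (nat_lit 5) (nat_lit 384) (nat_lit 384) (nat_lit 252)) (XT.lf (nat_lit 0) (nat_lit 10384993904) (nat_lit 1216) (nat_lit 19728706961) (nat_lit 1292) (nat_lit 5591088067) (nat_lit 258) (nat_lit 5) (nat_lit 274) (nat_lit 5) (nat_lit 275) (nat_lit 5) (nat_lit 385) (nat_lit 384) (nat_lit 251)))) (XT.nd (nat_lit 78) (nat_lit 0) (nat_lit 76) (XT.lf (nat_lit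 76) (nat_lit 9486416103) (nat_lit 0) (nat_lit 1909503328) (nat_lit 1292) (nat_lit 25200883817) (nat_lit 259) (nat_lit 5) (nat_lit 258) (nat_lit 5) (nat_lit 275) (nat_lit 5) (nat_lit 386) (nat_lit 384) (nat_lit 250)) (XT.nd (nat_lit 78) (nat_lit 0) (nat_lit 76) (XT.lf (nat_lit 76) (nat_lit 2830911101) (nat_lit 0) (nat_lit 10119748986) (nat_lit 1292) (nat_lit 24567961877) (nat_lit 260) (nat_lit 5) (nat_lit 259) (nat_lit 5) (nat_lit 276) (nat_lit 5) (nat_lit 387) (nat_lit 384) (nat_lit 249)) (XT.lf (nat_lit 0) (nat_lit 15067808886) (nat_lit 1216) (nat_lit 3856394107) (nat_lit 1292) (nat_lit 19547790156) (nat_lit 260) (nat_lit 5) (nat_lit 276) (nat_lit 5) (nat_lit 277) (nat_lit 5) (nat_lit 388) (nat_lit 384) (nat_lit 248)))))) (XT.nd (nat_lit 468) (nat_lit 4484) (nat_lit 0) (XT.nd (nat_lit 234) (nat_lit 0) (nat_lit 152) (XT.nd (nat_lit 78) (nat_lit 0) (nat_lit 76) (XT.lf (nat_lit 0) (nat_lit 17775342930)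 (nat_lit 1216) (nat_lit 10593861169) (nat_lit 1292) (nat_lit 11089294549) (nat_lit 261) (nat_lit 5) (nat_lit 277) (nat_lit 5) (nat_lit 278) (nat_lit 5) (nat_lit 389) (nat_lit 384) (nat_lit 247)) (XT.nd (nat_lit 78) (nat_lit 0) (nat_lit 0) (XT.lf (nat_lit 0) (nat_lit 21085615492) (nat_lit 1216) (nat_lit 17435484907) (nat_lit 1292) (nat_lit 1959209677) (nat_lit 262) (nat_lit 5) (nat_lit 278) (nat_lit 5) (nat_lit 279) (nat_lit 5) (nat_lit 390) (nat_lit 384) (nat_lit 246)) (XT.lf (nat_lit 76) (nat_lit 17079461274) (nat_lit 0) (nat_lit 8038139224) (nat_lit 1292) (nat_lit 16418927056) (nat_lit 263) (nat_lit 5) (nat_lit 262) (nat_lit 5) (nat_lit 279) (nat_lit 5) (nat_lit 391) (nat_lit 384) (nat_lit 245)))) (XT.nd (nat_lit 78) (nat_lit 0) (nat_lit 76) (XT.lf (nat_lit 76) (nat_lit 11023933946) (nat_lit 0) (nat_lit 18840624695) (nat_lit 1292) (nat_lit 12765597419) (nat_lit 264) (nat_lit 5) (nat_lit 263)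 (nat_lit 5) (nat_lit 280) (nat_lit 5) (nat_lit 392) (nat_lit 384) (nat_lit 244)) (XT.nd (nat_lit 78) (nat_lit 0) (nat_lit 76) (XT.lf (nat_lit 76) (nat_lit 4901058636) (nat_lit 0) (nat_lit 30452961566) (nat_lit 1292) (nat_lit 8409292428) (nat_lit 265) (nat_lit 5) (nat_lit 264) (nat_lit 5) (nat_lit 281) (nat_lit 5) (nat_lit 393) (nat_lit 384) (nat_lit 243)) (XT.lf (nat_lit 0) (nat_lit 41647585997) (nat_lit 1216) (nat_lit 1260768996) (nat_lit 76) (nat_lit 2028884347) (nat_lit 265) (nat_lit 5) (nat_lit 281) (nat_lit 5) (nat_lit 266) (nat_lit 5) (nat_lit 394) (nat_lit 384) (nat_lit 242))))) (XT.nd (nat_lit 234) (nat_lit 2204) (nat_lit 0) (XT.nd (nat_lit 78) (nat_lit 1292) (nat_lit 0) (XT.lf (nat_lit 0) (nat_lit 2727261345) (nat_lit 1292) (nat_lit 7511671741) (nat_lit 76) (nat_lit 35909868949) (nat_lit 248) (nat_lit 5) (nat_lit 265) (nat_lit 5) (nat_lit 249) (nat_lit 5) (nat_lit 395) (nat_lit 384)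 (nat_lit 241)) (XT.nd (nat_lit 78) (nat_lit 608) (nat_lit 0) (XT.lf (nat_lit 0) (nat_lit 9546606785) (nat_lit 760) (nat_lit 13887014784) (nat_lit 76) (nat_lit 23969256662) (nat_lit 239) (nat_lit 5) (nat_lit 249) (nat_lit 5) (nat_lit 240) (nat_lit 5) (nat_lit 396) (nat_lit 384) (nat_lit 240)) (XT.lf (nat_lit 0) (nat_lit 17267536580) (nat_lit 684) (nat_lit 20332093237) (nat_lit 76) (nat_lit 11103210952) (nat_lit 231) (nat_lit 5) (nat_lit 240) (nat_lit 5) (nat_lit 232) (nat_lit 5) (nat_lit 397) (nat_lit 384) (nat_lit 239)))) (XT.nd (nat_lit 156) (nat_lit 1064) (nat_lit 0) (XT.nd (nat_lit 78) (nat_lit 532) (nat_lit 0) (XT.lf (nat_lit 0) (nat_lit 23179211798) (nat_lit 608) (nat_lit 2795673463) (nat_lit 684) (nat_lit 24074905995) (nat_lit 223) (nat_lit 5) (nat_lit 231) (nat_lit 5) (nat_lit 232) (nat_lit 5) (nat_lit 398) (nat_lit 384) (nat_lit 238)) (XT.lf (nat_lit 0) (nat_lit 17851772885) (nat_lit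 532) (nat_lit 17970012245) (nat_lit 608) (nat_lit 15621179569) (nat_lit 216) (nat_lit 5) (nat_lit 223) (nat_lit 5) (nat_lit 224) (nat_lit 5) (nat_lit 399) (nat_lit 384) (nat_lit 237))) (XT.nd (nat_lit 78) (nat_lit 532) (nat_lit 0) (XT.lf (nat_lit 0) (nat_lit 12505640138) (nat_lit 532) (nat_lit 34258531265) (nat_lit 608) (nat_lit 6123532070) (nat_lit 209) (nat_lit 5) (nat_lit 216) (nat_lit 5) (nat_lit 217) (nat_lit 5) (nat_lit 400) (nat_lit 384) (nat_lit 236)) (XT.lf (nat_lit 0) (nat_lit 4396536606) (nat_lit 532) (nat_lit 47283142929) (nat_lit 76) (nat_lit 2705211119) (nat_lit 202) (nat_lit 5) (nat_lit 209) (nat_lit 5) (nat_lit 203) (nat_lit 5) (nat_lit 401) (nat_lit 384) (nat_lit 235))))))))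
noncomputable def xc112 : XT := (XT.nd (nat_lit 1872) (nat_lit 836) (nat_lit 0) (XT.nd (nat_lit 936) (nat_lit 3192) (nat_lit 0) (XT.nd (nat_lit 468) (nat_lit 2356) (nat_lit 0) (XT.nd (nat_lit 234) (nat_lit 1444) (nat_lit 0) (XT.nd (nat_lit 78) (nat_lit 456) (nat_lit 0) (XT.lf (nat_lit 0) (nat_lit 1472982323) (nat_lit 532) (nat_lit 14621027243) (nat_lit 608) (nat_lit 39837768204) (nat_lit 195) (nat_lit 5) (nat_lit 202) (nat_lit 5) (nat_lit 203) (nat_lit 5) (nat_lit 402) (nat_lit 384) (nat_lit 234)) (XT.nd (nat_lit 78) (nat_lit 456) (nat_lit 0) (XT.lf (nat_lit 0) (nat_lit 29098628683) (nat_lit 608) (nat_lit 4127926898) (nat_lit 76) (nat_lit 24307786241) (nat_lit 195) (nat_lit 5) (nat_lit 203) (nat_lit 5) (nat_lit 196) (nat_lit 5) (nat_lit 403) (nat_lit 384) (nat_lit 233)) (XT.lf (nat_lit 0) (nat_lit 43433791936) (nat_lit 532) (nat_lit 9722142470) (nat_lit 76) (nat_lit 6040690995) (nat_lit 189)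 (nat_lit 5) (nat_lit 196) (nat_lit 5) (nat_lit 190) (nat_lit 5) (nat_lit 404) (nat_lit 384) (nat_lit 232)))) (XT.nd (nat_lit 78) (nat_lit 988) (nat_lit 0) (XT.lf (nat_lit 0) (nat_lit 45450616134) (nat_lit 456) (nat_lit 13847719661) (nat_lit 532) (nat_lit 1619309375) (nat_lit 183) (nat_lit 5) (nat_lit 189) (nat_lit 5) (nat_lit 190) (nat_lit 5) (nat_lit 405) (nat_lit 384) (nat_lit 231)) (XT.nd (nat_lit 78) (nat_lit 456) (nat_lit 0) (XT.lf (nat_lit 0) (nat_lit 13740964182) (nat_lit 532) (nat_lit 21432864463) (nat_lit 76) (nat_lit 27524039310) (nat_lit 176) (nat_lit 5) (nat_lit 183) (nat_lit 5) (nat_lit 177) (nat_lit 5) (nat_lit 406) (nat_lit 384) (nat_lit 230)) (XT.lf (nat_lit 0) (nat_lit 30555523723) (nat_lit 532) (nat_lit 27452075733) (nat_lit 76) (nat_lit 6537429181) (nat_lit 170) (nat_lit 5) (nat_lit 177) (nat_lit 5) (nat_lit 171) (nat_lit 5) (nat_lit 407) (nat_lit 384) (nat_lit 229))))) (XT.nd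 (nat_lit 234) (nat_lit 1140) (nat_lit 0) (XT.nd (nat_lit 78) (nat_lit 836) (nat_lit 0) (XT.lf (nat_lit 0) (nat_lit 32794803676) (nat_lit 380) (nat_lit 16306766528) (nat_lit 456) (nat_lit 17356254954) (nat_lit 165) (nat_lit 5) (nat_lit 170) (nat_lit 5) (nat_lit 171) (nat_lit 5) (nat_lit 408) (nat_lit 384) (nat_lit 228)) (XT.nd (nat_lit 78) (nat_lit 380) (nat_lit 0) (XT.lf (nat_lit 0) (nat_lit 935489412) (nat_lit 456) (nat_lit 39995508318) (nat_lit 76) (nat_lit 27510364406) (nat_lit 159) (nat_lit 5) (nat_lit 165) (nat_lit 5) (nat_lit 160) (nat_lit 5) (nat_lit 409) (nat_lit 384) (nat_lit 227)) (XT.lf (nat_lit 0) (nat_lit 20562091365) (nat_lit 456) (nat_lit 46557998056) (nat_lit 76) (nat_lit 3375454994) (nat_lit 154) (nat_lit 5) (nat_lit 160) (nat_lit 5) (nat_lit 155) (nat_lit 5) (nat_lit 410) (nat_lit 384) (nat_lit 226)))) (XT.nd (nat_lit 78) (nat_lit 760) (nat_lit 0) (XT.lf (nat_lit 0) (nat_lit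 19217899447) (nat_lit 380) (nat_lit 22963664500) (nat_lit 456) (nat_lit 30440526128) (nat_lit 149) (nat_lit 5) (nat_lit 154) (nat_lit 5) (nat_lit 155) (nat_lit 5) (nat_lit 411) (nat_lit 384) (nat_lit 225)) (XT.nd (nat_lit 78) (nat_lit 456) (nat_lit 0) (XT.lf (nat_lit 0) (nat_lit 14464665479) (nat_lit 304) (nat_lit 51263299165) (nat_lit 380) (nat_lit 9101620199) (nat_lit 145) (nat_lit 5) (nat_lit 149) (nat_lit 5) (nat_lit 150) (nat_lit 5) (nat_lit 412) (nat_lit 384) (nat_lit 224)) (XT.lf (nat_lit 0) (nat_lit 9530052071) (nat_lit 380) (nat_lit 4391146889) (nat_lit 456) (nat_lit 63196121719) (nat_lit 139) (nat_lit 5) (nat_lit 144) (nat_lit 5) (nat_lit 145) (nat_lit 5) (nat_lit 413) (nat_lit 384) (nat_lit 223)))))) (XT.nd (nat_lit 468) (nat_lit 1596) (nat_lit 0) (XT.nd (nat_lit 234) (nat_lit 912) (nat_lit 0) (XT.nd (nat_lit 78) (nat_lit 380) (nat_lit 0) (XT.lf (nat_lit 0) (nat_lit 4231321722) (nat_lit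 304) (nat_lit 34774527643) (nat_lit 380) (nat_lit 40477923122) (nat_lit 135) (nat_lit 5) (nat_lit 139) (nat_lit 5) (nat_lit 140) (nat_lit 5) (nat_lit 414) (nat_lit 384) (nat_lit 222)) (XT.nd (nat_lit 78) (nat_lit 380) (nat_lit 0) (XT.lf (nat_lit 0) (nat_lit 66225947837) (nat_lit 380) (nat_lit 1084536275) (nat_lit 76) (nat_lit 14631626693) (nat_lit 135) (nat_lit 5) (nat_lit 140) (nat_lit 5) (nat_lit 136) (nat_lit 5) (nat_lit 415) (nat_lit 384) (nat_lit 221)) (XT.lf (nat_lit 0) (nat_lit 11192483977) (nat_lit 380) (nat_lit 6640689679) (nat_lit 76) (nat_lit 66653943030) (nat_lit 130) (nat_lit 5) (nat_lit 135) (nat_lit 5) (nat_lit 131) (nat_lit 5) (nat_lit 416) (nat_lit 384) (nat_lit 220)))) (XT.nd (nat_lit 78) (nat_lit 608) (nat_lit 0) (XT.lf (nat_lit 0) (nat_lit 40190710749) (nat_lit 380) (nat_lit 12581911249) (nat_lit 76) (nat_lit 34350007580) (nat_lit 126) (nat_lit 5) (nat_lit 131) (nat_lit 5)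 (nat_lit 127) (nat_lit 5) (nat_lit 417) (nat_lit 384) (nat_lit 219)) (XT.nd (nat_lit 78) (nat_lit 304) (nat_lit 0) (XT.lf (nat_lit 0) (nat_lit 71239022267) (nat_lit 304) (nat_lit 331957834) (nat_lit 380) (nat_lit 18290974399) (nat_lit 122) (nat_lit 5) (nat_lit 126) (nat_lit 5) (nat_lit 127) (nat_lit 5) (nat_lit 418) (nat_lit 384) (nat_lit 218)) (XT.lf (nat_lit 0) (nat_lit 12869795629) (nat_lit 304) (nat_lit 25257104647) (nat_lit 76) (nat_lit 54568417373) (nat_lit 118) (nat_lit 5) (nat_lit 122) (nat_lit 5) (nat_lit 119) (nat_lit 5) (nat_lit 419) (nat_lit 384) (nat_lit 217))))) (XT.nd (nat_lit 234) (nat_lit 760) (nat_lit 0) (XT.nd (nat_lit 78) (nat_lit 532) (nat_lit 0) (XT.lf (nat_lit 0) (nat_lit 46189057862) (nat_lit 380) (nat_lit 32234130764) (nat_lit 76) (nat_lit 17212365477) (nat_lit 114) (nat_lit 5) (nat_lit 119) (nat_lit 5) (nat_lit 115) (nat_lit 5) (nat_lit 420) (nat_lit 384) (nat_lit 216))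 (XT.nd (nat_lit 78) (nat_lit 304) (nat_lit 0) (XT.lf (nat_lit 0) (nat_lit 59068481285) (nat_lit 228) (nat_lit 23319442157) (nat_lit 304) (nat_lit 16298470004) (nat_lit 111) (nat_lit 5) (nat_lit 114) (nat_lit 5) (nat_lit 115) (nat_lit 5) (nat_lit 421) (nat_lit 384) (nat_lit 215)) (XT.lf (nat_lit 0) (nat_lit 19346652002) (nat_lit 304) (nat_lit 47588863839) (nat_lit 76) (nat_lit 34912897202) (nat_lit 107) (nat_lit 5) (nat_lit 111) (nat_lit 5) (nat_lit 108) (nat_lit 5) (nat_lit 422) (nat_lit 384) (nat_lit 214)))) (XT.nd (nat_lit 78) (nat_lit 532) (nat_lit 0) (XT.lf (nat_lit 0) (nat_lit 49053418359) (nat_lit 228) (nat_lit 8503955765) (nat_lit 304) (nat_lit 47572705963) (nat_lit 104) (nat_lit 5) (nat_lit 107) (nat_lit 5) (nat_lit 108) (nat_lit 5) (nat_lit 423) (nat_lit 384) (nat_lit 213)) (XT.nd (nat_lit 78) (nat_lit 304) (nat_lit 0) (XT.lf (nat_lit 0) (nat_lit 43290707206) (nat_lit 228) (nat_lit 55805374844)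 (nat_lit 304) (nat_lit 9437225171) (nat_lit 101) (nat_lit 5) (nat_lit 104) (nat_lit 5) (nat_lit 105) (nat_lit 5) (nat_lit 424) (nat_lit 384) (nat_lit 212)) (XT.lf (nat_lit 0) (nat_lit 31089096488) (nat_lit 304) (nat_lit 75081233208) (nat_lit 76) (nat_lit 5895101962) (nat_lit 97) (nat_lit 5) (nat_lit 101) (nat_lit 5) (nat_lit 98) (nat_lit 5) (nat_lit 425) (nat_lit 384) (nat_lit 211))))))) (XT.nd (nat_lit 50544) (nat_lit 0) (nat_lit 7828) (XT.nd (nat_lit 50076) (nat_lit 0) (nat_lit 13072) (XT.nd (nat_lit 234) (nat_lit 152) (nat_lit 0) (XT.nd (nat_lit 78) (nat_lit 456) (nat_lit 0) (XT.lf (nat_lit 0) (nat_lit 29846701011) (nat_lit 228) (nat_lit 45128726644) (nat_lit 304) (nat_lit 40750065633) (nat_lit 94) (nat_lit 5) (nat_lit 97) (nat_lit 5) (nat_lit 98) (nat_lit 5) (nat_lit 426) (nat_lit 384) (nat_lit 210)) (XT.nd (nat_lit 78) (nat_lit 228) (nat_lit 0) (XT.lf (nat_lit 0) (nat_lit 2645886228) (nat_lit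 228) (nat_lit 97271861281) (nat_lit 76) (nat_lit 19614759837) (nat_lit 91) (nat_lit 5) (nat_lit 94) (nat_lit 5) (nat_lit 92) (nat_lit 5) (nat_lit 427) (nat_lit 384) (nat_lit 209)) (XT.lf (nat_lit 0) (nat_lit 13483699579) (nat_lit 228) (nat_lit 35369599125) (nat_lit 304) (nat_lit 74619936493) (nat_lit 88) (nat_lit 5) (nat_lit 91) (nat_lit 5) (nat_lit 92) (nat_lit 5) (nat_lit 428) (nat_lit 384) (nat_lit 208)))) (XT.nd (nat_lit 49686) (nat_lit 0) (nat_lit 12996) (XT.lf (nat_lit 0) (nat_lit 3982921355) (nat_lit 152) (nat_lit 94747922732) (nat_lit 228) (nat_lit 28839362654) (nat_lit 86) (nat_lit 5) (nat_lit 88) (nat_lit 5) (nat_lit 89) (nat_lit 5) (nat_lit 429) (nat_lit 384) (nat_lit 207)) (XT.nd (nat_lit 78) (nat_lit 0) (nat_lit 76) (XT.lf (nat_lit 0) (nat_lit 5253576913) (nat_lit 1292) (nat_lit 6518097621) (nat_lit 1292) (nat_lit 6518097621) (nat_lit 257) (nat_lit 3) (nat_lit 274) (nat_lit 3) (nat_lit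 274) (nat_lit 5) (nat_lit 385) (nat_lit 385) (nat_lit 250)) (XT.lf (nat_lit 0) (nat_lit 11068894373) (nat_lit 1216) (nat_lit 20622895257) (nat_lit 1292) (nat_lit 5793245399) (nat_lit 258) (nat_lit 5) (nat_lit 274) (nat_lit 5) (nat_lit 275) (nat_lit 5) (nat_lit 386) (nat_lit 385) (nat_lit 249))))) (XT.nd (nat_lit 234) (nat_lit 0) (nat_lit 228) (XT.nd (nat_lit 78) (nat_lit 0) (nat_lit 76) (XT.lf (nat_lit 76) (nat_lit 10050339716) (nat_lit 0) (nat_lit 2073047264) (nat_lit 1292) (nat_lit 26298475020) (nat_lit 259) (nat_lit 5) (nat_lit 258) (nat_lit 5) (nat_lit 275) (nat_lit 5) (nat_lit 387) (nat_lit 385) (nat_lit 248)) (XT.nd (nat_lit 78) (nat_lit 0) (nat_lit 76) (XT.lf (nat_lit 76) (nat_lit 3064770932) (nat_lit 0) (nat_lit 10683849787) (nat_lit 1292) (nat_lit 25641370692) (nat_lit 260) (nat_lit 5) (nat_lit 259) (nat_lit 5) (nat_lit 276) (nat_lit 5) (nat_lit 388) (nat_lit 385) (nat_lit 247)) (XT.lf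 (nat_lit 0) (nat_lit 15963931718) (nat_lit 1216) (nat_lit 3956419005) (nat_lit 1292) (nat_lit 20470913615) (nat_lit 260) (nat_lit 5) (nat_lit 276) (nat_lit 5) (nat_lit 277) (nat_lit 5) (nat_lit 389) (nat_lit 385) (nat_lit 246)))) (XT.nd (nat_lit 78) (nat_lit 0) (nat_lit 76) (XT.lf (nat_lit 0) (nat_lit 18800463522) (nat_lit 1216) (nat_lit 11028822427) (nat_lit 1292) (nat_lit 11598002745) (nat_lit 261) (nat_lit 5) (nat_lit 277) (nat_lit 5) (nat_lit 278) (nat_lit 5) (nat_lit 390) (nat_lit 385) (nat_lit 245)) (XT.nd (nat_lit 78) (nat_lit 0) (nat_lit 0) (XT.lf (nat_lit 0) (nat_lit 22270268926) (nat_lit 1216) (nat_lit 18210906015) (nat_lit 1292) (nat_lit 2019197286) (nat_lit 262) (nat_lit 5) (nat_lit 278) (nat_lit 5) (nat_lit 279) (nat_lit 5) (nat_lit 391) (nat_lit 385) (nat_lit 244)) (XT.lf (nat_lit 76) (nat_lit 18027025532) (nat_lit 0) (nat_lit 8471519084) (nat_lit 1292) (nat_lit 17111017227) (nat_lit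 263) (nat_lit 5) (nat_lit 262) (nat_lit 5) (nat_lit 279) (nat_lit 5) (nat_lit 392) (nat_lit 385) (nat_lit 243)))))) (XT.nd (nat_lit 468) (nat_lit 3192) (nat_lit 0) (XT.nd (nat_lit 234) (nat_lit 2432) (nat_lit 0) (XT.nd (nat_lit 78) (nat_lit 0) (nat_lit 76) (XT.lf (nat_lit 76) (nat_lit 11670016317) (nat_lit 0) (nat_lit 19807502884) (nat_lit 1292) (nat_lit 13280514430) (nat_lit 264) (nat_lit 5) (nat_lit 263) (nat_lit 5) (nat_lit 280) (nat_lit 5) (nat_lit 393) (nat_lit 385) (nat_lit 242)) (XT.nd (nat_lit 78) (nat_lit 0) (nat_lit 76) (XT.lf (nat_lit 76) (nat_lit 5242035533) (nat_lit 0) (nat_lit 31994411363) (nat_lit 1292) (nat_lit 8711553164) (nat_lit 265) (nat_lit 5) (nat_lit 264) (nat_lit 5) (nat_lit 281) (nat_lit 5) (nat_lit 394) (nat_lit 385) (nat_lit 241)) (XT.lf (nat_lit 0) (nat_lit 43839055726) (nat_lit 1216) (nat_lit 1228966588) (nat_lit 76) (nat_lit 2112771584) (nat_lit 265) (nat_lit 5)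 (nat_lit 281) (nat_lit 5) (nat_lit 266) (nat_lit 5) (nat_lit 395) (nat_lit 385) (nat_lit 240)))) (XT.nd (nat_lit 78) (nat_lit 1292) (nat_lit 0) (XT.lf (nat_lit 0) (nat_lit 2969475431) (nat_lit 1292) (nat_lit 7792994339) (nat_lit 76) (nat_lit 37690564754) (nat_lit 248) (nat_lit 5) (nat_lit 265) (nat_lit 5) (nat_lit 249) (nat_lit 5) (nat_lit 396) (nat_lit 385) (nat_lit 239)) (XT.nd (nat_lit 78) (nat_lit 608) (nat_lit 0) (XT.lf (nat_lit 0) (nat_lit 10125530348) (nat_lit 760) (nat_lit 14486627844) (nat_lit 76) (nat_lit 25157785600) (nat_lit 239) (nat_lit 5) (nat_lit 249) (nat_lit 5) (nat_lit 240) (nat_lit 5) (nat_lit 397) (nat_lit 385) (nat_lit 238)) (XT.lf (nat_lit 0) (nat_lit 18228499430) (nat_lit 684) (nat_lit 21253663553) (nat_lit 76) (nat_lit 11652863145) (nat_lit 231) (nat_lit 5) (nat_lit 240) (nat_lit 5) (nat_lit 232) (nat_lit 5) (nat_lit 398) (nat_lit 385) (nat_lit 237))))) (XT.nd (nat_lit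 234) (nat_lit 1520) (nat_lit 0) (XT.nd (nat_lit 78) (nat_lit 1064) (nat_lit 0) (XT.lf (nat_lit 0) (nat_lit 24430482594) (nat_lit 608) (nat_lit 2936973339) (nat_lit 684) (nat_lit 25181982379) (nat_lit 223) (nat_lit 5) (nat_lit 231) (nat_lit 5) (nat_lit 232) (nat_lit 5) (nat_lit 399) (nat_lit 385) (nat_lit 236)) (XT.nd (nat_lit 78) (nat_lit 532) (nat_lit 0) (XT.lf (nat_lit 0) (nat_lit 18836800865) (nat_lit 532) (nat_lit 18866306710) (nat_lit 608) (nat_lit 16309271970) (nat_lit 216) (nat_lit 5) (nat_lit 223) (nat_lit 5) (nat_lit 224) (nat_lit 5) (nat_lit 400) (nat_lit 385) (nat_lit 235)) (XT.lf (nat_lit 0) (nat_lit 13223346164) (nat_lit 532) (nat_lit 35965878812) (nat_lit 608) (nat_lit 6340233184) (nat_lit 209) (nat_lit 5) (nat_lit 216) (nat_lit 5) (nat_lit 217) (nat_lit 5) (nat_lit 401) (nat_lit 385) (nat_lit 234)))) (XT.nd (nat_lit 156) (nat_lit 456) (nat_lit 0) (XT.nd (nat_lit 78) (nat_lit 532)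 (nat_lit 0) (XT.lf (nat_lit 0) (nat_lit 4700862735) (nat_lit 532) (nat_lit 49553317435) (nat_lit 76) (nat_lit 2847396796) (nat_lit 202) (nat_lit 5) (nat_lit 209) (nat_lit 5) (nat_lit 203) (nat_lit 5) (nat_lit 402) (nat_lit 385) (nat_lit 233)) (XT.lf (nat_lit 0) (nat_lit 1637920086) (nat_lit 532) (nat_lit 15342143003) (nat_lit 608) (nat_lit 41745840842) (nat_lit 195) (nat_lit 5) (nat_lit 202) (nat_lit 5) (nat_lit 203) (nat_lit 5) (nat_lit 403) (nat_lit 385) (nat_lit 232))) (XT.nd (nat_lit 78) (nat_lit 456) (nat_lit 0) (XT.lf (nat_lit 0) (nat_lit 30631130167) (nat_lit 608) (nat_lit 4245127179) (nat_lit 76) (nat_lit 25532453384) (nat_lit 195) (nat_lit 5) (nat_lit 203) (nat_lit 5) (nat_lit 196) (nat_lit 5) (nat_lit 404) (nat_lit 385) (nat_lit 231)) (XT.lf (nat_lit 0) (nat_lit 45680305280) (nat_lit 532) (nat_lit 10119463647) (nat_lit 76) (nat_lit 6354422953) (nat_lit 189) (nat_lit 5) (nat_lit 196)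 (nat_lit 5) (nat_lit 190) (nat_lit 5) (nat_lit 405) (nat_lit 385) (nat_lit 230))))))))
noncomputable def xc113 : XT := (XT.nd (nat_lit 51714) (nat_lit 0) (nat_lit 4788) (XT.nd (nat_lit 936) (nat_lit 2964) (nat_lit 0) (XT.nd (nat_lit 468) (nat_lit 1824) (nat_lit 0) (XT.nd (nat_lit 234) (nat_lit 1216) (nat_lit 0) (XT.nd (nat_lit 78) (nat_lit 988) (nat_lit 0) (XT.lf (nat_lit 0) (nat_lit 47809387856) (nat_lit 456) (nat_lit 14525954442) (nat_lit 532) (nat_lit 1626003318) (nat_lit 183) (nat_lit 5) (nat_lit 189) (nat_lit 5) (nat_lit 190) (nat_lit 5) (nat_lit 406) (nat_lit 385) (nat_lit 229)) (XT.nd (nat_lit 78) (nat_lit 456) (nat_lit 0) (XT.lf (nat_lit 0) (nat_lit 14498330222) (nat_lit 532) (nat_lit 22417334565) (nat_lit 76) (nat_lit 28914969349) (nat_lit 176) (nat_lit 5) (nat_lit 183) (nat_lit 5) (nat_lit 177) (nat_lit 5) (nat_lit 407) (nat_lit 385) (nat_lit 228)) (XT.lf (nat_lit 0) (nat_lit 32151245581)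 (nat_lit 532) (nat_lit 28738117227) (nat_lit 76) (nat_lit 6880862051) (nat_lit 170) (nat_lit 5) (nat_lit 177) (nat_lit 5) (nat_lit 171) (nat_lit 5) (nat_lit 408) (nat_lit 385) (nat_lit 227)))) (XT.nd (nat_lit 78) (nat_lit 836) (nat_lit 0) (XT.lf (nat_lit 0) (nat_lit 34518624862) (nat_lit 380) (nat_lit 17103542254) (nat_lit 456) (nat_lit 18156567711) (nat_lit 165) (nat_lit 5) (nat_lit 170) (nat_lit 5) (nat_lit 171) (nat_lit 5) (nat_lit 409) (nat_lit 385) (nat_lit 226)) (XT.nd (nat_lit 78) (nat_lit 380) (nat_lit 0) (XT.lf (nat_lit 0) (nat_lit 1046276609) (nat_lit 456) (nat_lit 41910572623) (nat_lit 76) (nat_lit 28904645800) (nat_lit 159) (nat_lit 5) (nat_lit 165) (nat_lit 5) (nat_lit 160) (nat_lit 5) (nat_lit 410) (nat_lit 385) (nat_lit 225)) (XT.lf (nat_lit 0) (nat_lit 21652148710) (nat_lit 456) (nat_lit 48801945611) (nat_lit 76) (nat_lit 3564354609) (nat_lit 154) (nat_lit 5) (nat_lit 160) (nat_lit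 5) (nat_lit 155) (nat_lit 5) (nat_lit 411) (nat_lit 385) (nat_lit 224))))) (XT.nd (nat_lit 234) (nat_lit 684) (nat_lit 0) (XT.nd (nat_lit 78) (nat_lit 760) (nat_lit 0) (XT.lf (nat_lit 0) (nat_lit 20260340290) (nat_lit 380) (nat_lit 24090088368) (nat_lit 456) (nat_lit 31900958876) (nat_lit 149) (nat_lit 5) (nat_lit 154) (nat_lit 5) (nat_lit 155) (nat_lit 5) (nat_lit 412) (nat_lit 385) (nat_lit 223)) (XT.nd (nat_lit 78) (nat_lit 456) (nat_lit 0) (XT.lf (nat_lit 0) (nat_lit 15268659206) (nat_lit 304) (nat_lit 53803618730) (nat_lit 380) (nat_lit 9497035888) (nat_lit 145) (nat_lit 5) (nat_lit 149) (nat_lit 5) (nat_lit 150) (nat_lit 5) (nat_lit 413) (nat_lit 385) (nat_lit 222)) (XT.lf (nat_lit 0) (nat_lit 10086143136) (nat_lit 380) (nat_lit 4587596096) (nat_lit 456) (nat_lit 66297741227) (nat_lit 139) (nat_lit 5) (nat_lit 144) (nat_lit 5) (nat_lit 145) (nat_lit 5) (nat_lit 414) (nat_lit 385) (nat_lit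 221)))) (XT.nd (nat_lit 78) (nat_lit 380) (nat_lit 0) (XT.lf (nat_lit 0) (nat_lit 4521636465) (nat_lit 304) (nat_lit 36489264686) (nat_lit 380) (nat_lit 42445405901) (nat_lit 135) (nat_lit 5) (nat_lit 139) (nat_lit 5) (nat_lit 140) (nat_lit 5) (nat_lit 415) (nat_lit 385) (nat_lit 220)) (XT.nd (nat_lit 78) (nat_lit 380) (nat_lit 0) (XT.lf (nat_lit 0) (nat_lit 69589616579) (nat_lit 380) (nat_lit 1062408692) (nat_lit 76) (nat_lit 15385609189) (nat_lit 135) (nat_lit 5) (nat_lit 140) (nat_lit 5) (nat_lit 136) (nat_lit 5) (nat_lit 416) (nat_lit 385) (nat_lit 219)) (XT.lf (nat_lit 0) (nat_lit 11803209505) (nat_lit 380) (nat_lit 6897531500) (nat_lit 76) (nat_lit 70009188541) (nat_lit 130) (nat_lit 5) (nat_lit 135) (nat_lit 5) (nat_lit 131) (nat_lit 5) (nat_lit 417) (nat_lit 385) (nat_lit 218)))))) (XT.nd (nat_lit 468) (nat_lit 1216) (nat_lit 0) (XT.nd (nat_lit 234) (nat_lit 836) (nat_lit 0) (XT.nd (nat_lit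 78) (nat_lit 608) (nat_lit 0) (XT.lf (nat_lit 0) (nat_lit 42249843803) (nat_lit 380) (nat_lit 13136706474) (nat_lit 76) (nat_lit 36090713393) (nat_lit 126) (nat_lit 5) (nat_lit 131) (nat_lit 5) (nat_lit 127) (nat_lit 5) (nat_lit 418) (nat_lit 385) (nat_lit 217)) (XT.nd (nat_lit 78) (nat_lit 304) (nat_lit 0) (XT.lf (nat_lit 0) (nat_lit 74873143913) (nat_lit 304) (nat_lit 324314670) (nat_lit 380) (nat_lit 19156146748) (nat_lit 122) (nat_lit 5) (nat_lit 126) (nat_lit 5) (nat_lit 127) (nat_lit 5) (nat_lit 419) (nat_lit 385) (nat_lit 216)) (XT.lf (nat_lit 0) (nat_lit 13560308997) (nat_lit 304) (nat_lit 26447734829) (nat_lit 76) (nat_lit 57320620667) (nat_lit 118) (nat_lit 5) (nat_lit 122) (nat_lit 5) (nat_lit 119) (nat_lit 5) (nat_lit 420) (nat_lit 385) (nat_lit 215)))) (XT.nd (nat_lit 78) (nat_lit 532) (nat_lit 0) (XT.lf (nat_lit 0) (nat_lit 48544206887) (nat_lit 380) (nat_lit 33774548266) (nat_lit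 76) (nat_lit 18097197839) (nat_lit 114) (nat_lit 5) (nat_lit 119) (nat_lit 5) (nat_lit 115) (nat_lit 5) (nat_lit 421) (nat_lit 385) (nat_lit 214)) (XT.nd (nat_lit 78) (nat_lit 304) (nat_lit 0) (XT.lf (nat_lit 0) (nat_lit 62091150900) (nat_lit 228) (nat_lit 24460354469) (nat_lit 304) (nat_lit 17067874620) (nat_lit 111) (nat_lit 5) (nat_lit 114) (nat_lit 5) (nat_lit 115) (nat_lit 5) (nat_lit 422) (nat_lit 385) (nat_lit 213)) (XT.lf (nat_lit 0) (nat_lit 20357384923) (nat_lit 304) (nat_lit 49899114721) (nat_lit 76) (nat_lit 36683025055) (nat_lit 107) (nat_lit 5) (nat_lit 111) (nat_lit 5) (nat_lit 108) (nat_lit 5) (nat_lit 423) (nat_lit 385) (nat_lit 212))))) (XT.nd (nat_lit 234) (nat_lit 456) (nat_lit 0) (XT.nd (nat_lit 78) (nat_lit 532) (nat_lit 0) (XT.lf (nat_lit 0) (nat_lit 51573298203) (nat_lit 228) (nat_lit 8903924319) (nat_lit 304) (nat_lit 49908095525) (nat_lit 104) (nat_lit 5) (nat_lit 107)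 (nat_lit 5) (nat_lit 108) (nat_lit 5) (nat_lit 424) (nat_lit 385) (nat_lit 211)) (XT.nd (nat_lit 78) (nat_lit 304) (nat_lit 0) (XT.lf (nat_lit 0) (nat_lit 45521519149) (nat_lit 228) (nat_lit 58570215723) (nat_lit 304) (nat_lit 9867005911) (nat_lit 101) (nat_lit 5) (nat_lit 104) (nat_lit 5) (nat_lit 105) (nat_lit 5) (nat_lit 425) (nat_lit 385) (nat_lit 210)) (XT.lf (nat_lit 0) (nat_lit 32683715316) (nat_lit 304) (nat_lit 78769153820) (nat_lit 76) (nat_lit 6214623324) (nat_lit 97) (nat_lit 5) (nat_lit 101) (nat_lit 5) (nat_lit 98) (nat_lit 5) (nat_lit 426) (nat_lit 385) (nat_lit 209)))) (XT.nd (nat_lit 49920) (nat_lit 0) (nat_lit 12616) (XT.nd (nat_lit 78) (nat_lit 228) (nat_lit 0) (XT.lf (nat_lit 0) (nat_lit 31403281189) (nat_lit 228) (nat_lit 47359786845) (nat_lit 304) (nat_lit 42747528268) (nat_lit 94) (nat_lit 5) (nat_lit 97) (nat_lit 5) (nat_lit 98) (nat_lit 5) (nat_lit 427) (nat_lit 385)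 (nat_lit 208)) (XT.lf (nat_lit 0) (nat_lit 2816419521) (nat_lit 228) (nat_lit 102071383474) (nat_lit 76) (nat_lit 20620177389) (nat_lit 91) (nat_lit 5) (nat_lit 94) (nat_lit 5) (nat_lit 92) (nat_lit 5) (nat_lit 428) (nat_lit 385) (nat_lit 207))) (XT.nd (nat_lit 78) (nat_lit 0) (nat_lit 76) (XT.lf (nat_lit 0) (nat_lit 5594626400) (nat_lit 1292) (nat_lit 6803628806) (nat_lit 1292) (nat_lit 6803628806) (nat_lit 257) (nat_lit 3) (nat_lit 274) (nat_lit 3) (nat_lit 274) (nat_lit 5) (nat_lit 386) (nat_lit 386) (nat_lit 248)) (XT.lf (nat_lit 0) (nat_lit 11771682198) (nat_lit 1216) (nat_lit 21570369225) (nat_lit 1292) (nat_lit 6012706243) (nat_lit 258) (nat_lit 5) (nat_lit 274) (nat_lit 5) (nat_lit 275) (nat_lit 5) (nat_lit 387) (nat_lit 386) (nat_lit 247))))))) (XT.nd (nat_lit 936) (nat_lit 5852) (nat_lit 0) (XT.nd (nat_lit 468) (nat_lit 2052) (nat_lit 0) (XT.nd (nat_lit 234) (nat_lit 0) (nat_lit 228)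 (XT.nd (nat_lit 78) (nat_lit 0) (nat_lit 76) (XT.lf (nat_lit 76) (nat_lit 10634129091) (nat_lit 0) (nat_lit 2238440008) (nat_lit 1292) (nat_lit 27466049122) (nat_lit 259) (nat_lit 5) (nat_lit 258) (nat_lit 5) (nat_lit 275) (nat_lit 5) (nat_lit 388) (nat_lit 386) (nat_lit 246)) (XT.nd (nat_lit 78) (nat_lit 0) (nat_lit 76) (XT.lf (nat_lit 76) (nat_lit 3301741249) (nat_lit 0) (nat_lit 11270752800) (nat_lit 1292) (nat_lit 26782859382) (nat_lit 260) (nat_lit 5) (nat_lit 259) (nat_lit 5) (nat_lit 276) (nat_lit 5) (nat_lit 389) (nat_lit 386) (nat_lit 245)) (XT.lf (nat_lit 0) (nat_lit 16891590788) (nat_lit 1216) (nat_lit 4070072330) (nat_lit 1292) (nat_lit 21445238390) (nat_lit 260) (nat_lit 5) (nat_lit 276) (nat_lit 5) (nat_lit 277) (nat_lit 5) (nat_lit 390) (nat_lit 386) (nat_lit 244)))) (XT.nd (nat_lit 78) (nat_lit 0) (nat_lit 76) (XT.lf (nat_lit 0) (nat_lit 19864163292) (nat_lit 1216) (nat_lit 11494339013)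 (nat_lit 1292) (nat_lit 12136400359) (nat_lit 261) (nat_lit 5) (nat_lit 277) (nat_lit 5) (nat_lit 278) (nat_lit 5) (nat_lit 391) (nat_lit 386) (nat_lit 243)) (XT.nd (nat_lit 78) (nat_lit 0) (nat_lit 0) (XT.lf (nat_lit 0) (nat_lit 23502034217) (nat_lit 1216) (nat_lit 19034056180) (nat_lit 1292) (nat_lit 2085714634) (nat_lit 262) (nat_lit 5) (nat_lit 278) (nat_lit 5) (nat_lit 279) (nat_lit 5) (nat_lit 392) (nat_lit 386) (nat_lit 242)) (XT.lf (nat_lit 76) (nat_lit 19013266780) (nat_lit 0) (nat_lit 8923641885) (nat_lit 1292) (nat_lit 17849691734) (nat_lit 263) (nat_lit 5) (nat_lit 262) (nat_lit 5) (nat_lit 279) (nat_lit 5) (nat_lit 393) (nat_lit 386) (nat_lit 241))))) (XT.nd (nat_lit 234) (nat_lit 2432) (nat_lit 0) (XT.nd (nat_lit 78) (nat_lit 0) (nat_lit 76) (XT.lf (nat_lit 76) (nat_lit 12339581237) (nat_lit 0) (nat_lit 20820414948) (nat_lit 1292) (nat_lit 13832646400) (nat_lit 264) (nat_lit 5)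 (nat_lit 263) (nat_lit 5) (nat_lit 280) (nat_lit 5) (nat_lit 394) (nat_lit 386) (nat_lit 240)) (XT.nd (nat_lit 78) (nat_lit 0) (nat_lit 76) (XT.lf (nat_lit 76) (nat_lit 5591143174) (nat_lit 0) (nat_lit 33611185644) (nat_lit 1292) (nat_lit 9039916413) (nat_lit 265) (nat_lit 5) (nat_lit 264) (nat_lit 5) (nat_lit 281) (nat_lit 5) (nat_lit 395) (nat_lit 386) (nat_lit 239)) (XT.lf (nat_lit 0) (nat_lit 46129956747) (nat_lit 1216) (nat_lit 1204391463) (nat_lit 76) (nat_lit 2202485464) (nat_lit 265) (nat_lit 5) (nat_lit 281) (nat_lit 5) (nat_lit 266) (nat_lit 5) (nat_lit 396) (nat_lit 386) (nat_lit 238)))) (XT.nd (nat_lit 78) (nat_lit 1292) (nat_lit 0) (XT.lf (nat_lit 0) (nat_lit 3213959197) (nat_lit 1292) (nat_lit 8097146561) (nat_lit 76) (nat_lit 39561671093) (nat_lit 248) (nat_lit 5) (nat_lit 265) (nat_lit 5) (nat_lit 249) (nat_lit 5) (nat_lit 397) (nat_lit 386) (nat_lit 237)) (XT.nd (nat_lit 78)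 (nat_lit 608) (nat_lit 0) (XT.lf (nat_lit 0) (nat_lit 10723954915) (nat_lit 760) (nat_lit 15125029368) (nat_lit 76) (nat_lit 26406664544) (nat_lit 239) (nat_lit 5) (nat_lit 249) (nat_lit 5) (nat_lit 240) (nat_lit 5) (nat_lit 398) (nat_lit 386) (nat_lit 236)) (XT.lf (nat_lit 0) (nat_lit 19228437799) (nat_lit 684) (nat_lit 22230147776) (nat_lit 76) (nat_lit 12230510064) (nat_lit 231) (nat_lit 5) (nat_lit 240) (nat_lit 5) (nat_lit 232) (nat_lit 5) (nat_lit 399) (nat_lit 386) (nat_lit 235)))))) (XT.nd (nat_lit 468) (nat_lit 3116) (nat_lit 0) (XT.nd (nat_lit 234) (nat_lit 1064) (nat_lit 0) (XT.nd (nat_lit 78) (nat_lit 1064) (nat_lit 0) (XT.lf (nat_lit 0) (nat_lit 25735734802) (nat_lit 608) (nat_lit 3085197247) (nat_lit 684) (nat_lit 26353399942) (nat_lit 223) (nat_lit 5) (nat_lit 231) (nat_lit 5) (nat_lit 232) (nat_lit 5) (nat_lit 400) (nat_lit 386) (nat_lit 234)) (XT.nd (nat_lit 78) (nat_lit 532)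 (nat_lit 0) (XT.lf (nat_lit 0) (nat_lit 19862486110) (nat_lit 532) (nat_lit 19807621004) (nat_lit 608) (nat_lit 17040412143) (nat_lit 216) (nat_lit 5) (nat_lit 223) (nat_lit 5) (nat_lit 224) (nat_lit 5) (nat_lit 401) (nat_lit 386) (nat_lit 233)) (XT.lf (nat_lit 0) (nat_lit 13968344782) (nat_lit 532) (nat_lit 37759112421) (nat_lit 608) (nat_lit 6576087936) (nat_lit 209) (nat_lit 5) (nat_lit 216) (nat_lit 5) (nat_lit 217) (nat_lit 5) (nat_lit 402) (nat_lit 386) (nat_lit 232)))) (XT.nd (nat_lit 78) (nat_lit 532) (nat_lit 0) (XT.lf (nat_lit 0) (nat_lit 5012549226) (nat_lit 532) (nat_lit 51945738282) (nat_lit 76) (nat_lit 2996047924) (nat_lit 202) (nat_lit 5) (nat_lit 209) (nat_lit 5) (nat_lit 203) (nat_lit 5) (nat_lit 403) (nat_lit 386) (nat_lit 231)) (XT.nd (nat_lit 78) (nat_lit 0) (nat_lit 0) (XT.lf (nat_lit 0) (nat_lit 1802617584) (nat_lit 532) (nat_lit 16100238269) (nat_lit 608) (nat_lit 43757109509)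 (nat_lit 195) (nat_lit 5) (nat_lit 202) (nat_lit 5) (nat_lit 203) (nat_lit 5) (nat_lit 404) (nat_lit 386) (nat_lit 230)) (XT.lf (nat_lit 0) (nat_lit 32233044996) (nat_lit 608) (nat_lit 4376480079) (nat_lit 76) (nat_lit 26817491320) (nat_lit 195) (nat_lit 5) (nat_lit 203) (nat_lit 5) (nat_lit 196) (nat_lit 5) (nat_lit 405) (nat_lit 386) (nat_lit 229))))) (XT.nd (nat_lit 234) (nat_lit 1672) (nat_lit 0) (XT.nd (nat_lit 78) (nat_lit 988) (nat_lit 0) (XT.lf (nat_lit 0) (nat_lit 48032187889) (nat_lit 532) (nat_lit 10544905359) (nat_lit 76) (nat_lit 6682753994) (nat_lit 189) (nat_lit 5) (nat_lit 196) (nat_lit 5) (nat_lit 190) (nat_lit 5) (nat_lit 406) (nat_lit 386) (nat_lit 228)) (XT.nd (nat_lit 78) (nat_lit 532) (nat_lit 0) (XT.lf (nat_lit 0) (nat_lit 50278080300) (nat_lit 456) (nat_lit 15239416607) (nat_lit 532) (nat_lit 1639937021) (nat_lit 183) (nat_lit 5) (nat_lit 189) (nat_lit 5) (nat_lit 190)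 (nat_lit 5) (nat_lit 407) (nat_lit 386) (nat_lit 227)) (XT.lf (nat_lit 0) (nat_lit 15287027080) (nat_lit 532) (nat_lit 23459132703) (nat_lit 76) (nat_lit 30374076614) (nat_lit 176) (nat_lit 5) (nat_lit 183) (nat_lit 5) (nat_lit 177) (nat_lit 5) (nat_lit 408) (nat_lit 386) (nat_lit 226)))) (XT.nd (nat_lit 156) (nat_lit 836) (nat_lit 0) (XT.nd (nat_lit 78) (nat_lit 380) (nat_lit 0) (XT.lf (nat_lit 0) (nat_lit 33820436587) (nat_lit 532) (nat_lit 30096508537) (nat_lit 76) (nat_lit 7239926843) (nat_lit 170) (nat_lit 5) (nat_lit 177) (nat_lit 5) (nat_lit 171) (nat_lit 5) (nat_lit 409) (nat_lit 386) (nat_lit 225)) (XT.lf (nat_lit 0) (nat_lit 36320820052) (nat_lit 380) (nat_lit 17941882541) (nat_lit 456) (nat_lit 19003171615) (nat_lit 165) (nat_lit 5) (nat_lit 170) (nat_lit 5) (nat_lit 171) (nat_lit 5) (nat_lit 410) (nat_lit 386) (nat_lit 224))) (XT.nd (nat_lit 78) (nat_lit 380) (nat_lit 0) (XT.lf (nat_lit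 0) (nat_lit 1156651869) (nat_lit 456) (nat_lit 43929265780) (nat_lit 76) (nat_lit 30366896843) (nat_lit 159) (nat_lit 5) (nat_lit 165) (nat_lit 5) (nat_lit 160) (nat_lit 5) (nat_lit 411) (nat_lit 386) (nat_lit 223)) (XT.lf (nat_lit 0) (nat_lit 22790949140) (nat_lit 456) (nat_lit 51165895638) (nat_lit 76) (nat_lit 3760828000) (nat_lit 154) (nat_lit 5) (nat_lit 160) (nat_lit 5) (nat_lit 155) (nat_lit 5) (nat_lit 412) (nat_lit 386) (nat_lit 222))))))))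
noncomputable def xc114 : XT := (XT.nd (nat_lit 51792) (nat_lit 0) (nat_lit 2432) (XT.nd (nat_lit 936) (nat_lit 988) (nat_lit 0) (XT.nd (nat_lit 468) (nat_lit 1748) (nat_lit 0) (XT.nd (nat_lit 234) (nat_lit 684) (nat_lit 0) (XT.nd (nat_lit 78) (nat_lit 760) (nat_lit 0) (XT.lf (nat_lit 0) (nat_lit 21347321813) (nat_lit 380) (nat_lit 25274856408) (nat_lit 456) (nat_lit 33440139646) (nat_lit 149) (nat_lit 5) (nat_lit 154) (nat_lit 5) (nat_lit 155) (nat_lit 5) (nat_lit 413) (nat_lit 386) (nat_lit 221)) (XT.nd (nat_lit 78) (nat_lit 456) (nat_lit 0) (XT.lf (nat_lit 0) (nat_lit 16105344277) (nat_lit 304) (nat_lit 56473078221) (nat_lit 380) (nat_lit 9917769478) (nat_lit 145) (nat_lit 5) (nat_lit 149) (nat_lit 5) (nat_lit 150) (nat_lit 5) (nat_lit 414) (nat_lit 386) (nat_lit 220)) (XT.lf (nat_lit 0) (nat_lit 10662639374) (nat_lit 380) (nat_lit 4796016140) (nat_lit 456) (nat_lit 69559851346) (nat_lit 139)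 (nat_lit 5) (nat_lit 144) (nat_lit 5) (nat_lit 145) (nat_lit 5) (nat_lit 415) (nat_lit 386) (nat_lit 219)))) (XT.nd (nat_lit 78) (nat_lit 380) (nat_lit 0) (XT.lf (nat_lit 0) (nat_lit 4819145641) (nat_lit 304) (nat_lit 38291968883) (nat_lit 380) (nat_lit 44516507600) (nat_lit 135) (nat_lit 5) (nat_lit 139) (nat_lit 5) (nat_lit 140) (nat_lit 5) (nat_lit 416) (nat_lit 386) (nat_lit 218)) (XT.nd (nat_lit 78) (nat_lit 380) (nat_lit 0) (XT.lf (nat_lit 0) (nat_lit 73116599767) (nat_lit 380) (nat_lit 1046273439) (nat_lit 76) (nat_lit 16175208163) (nat_lit 135) (nat_lit 5) (nat_lit 140) (nat_lit 5) (nat_lit 136) (nat_lit 5) (nat_lit 417) (nat_lit 386) (nat_lit 217)) (XT.lf (nat_lit 0) (nat_lit 12439720393) (nat_lit 380) (nat_lit 7174206114) (nat_lit 76) (nat_lit 73530099996) (nat_lit 130) (nat_lit 5) (nat_lit 135) (nat_lit 5) (nat_lit 131) (nat_lit 5) (nat_lit 418) (nat_lit 386) (nat_lit 216))))) (XT.nd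 (nat_lit 234) (nat_lit 836) (nat_lit 0) (XT.nd (nat_lit 78) (nat_lit 608) (nat_lit 0) (XT.lf (nat_lit 0) (nat_lit 44407322402) (nat_lit 380) (nat_lit 13726149203) (nat_lit 76) (nat_lit 37916297076) (nat_lit 126) (nat_lit 5) (nat_lit 131) (nat_lit 5) (nat_lit 127) (nat_lit 5) (nat_lit 419) (nat_lit 386) (nat_lit 215)) (XT.nd (nat_lit 78) (nat_lit 304) (nat_lit 0) (XT.lf (nat_lit 0) (nat_lit 78682261909) (nat_lit 304) (nat_lit 318543052) (nat_lit 380) (nat_lit 20069168261) (nat_lit 122) (nat_lit 5) (nat_lit 126) (nat_lit 5) (nat_lit 127) (nat_lit 5) (nat_lit 420) (nat_lit 386) (nat_lit 214)) (XT.lf (nat_lit 0) (nat_lit 14280976226) (nat_lit 304) (nat_lit 27704611321) (nat_lit 76) (nat_lit 60208223061) (nat_lit 118) (nat_lit 5) (nat_lit 122) (nat_lit 5) (nat_lit 119) (nat_lit 5) (nat_lit 421) (nat_lit 386) (nat_lit 213)))) (XT.nd (nat_lit 78) (nat_lit 532) (nat_lit 0) (XT.lf (nat_lit 0) (nat_lit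 51012864969) (nat_lit 380) (nat_lit 35398614421) (nat_lit 76) (nat_lit 19024020622) (nat_lit 114) (nat_lit 5) (nat_lit 119) (nat_lit 5) (nat_lit 115) (nat_lit 5) (nat_lit 422) (nat_lit 386) (nat_lit 212)) (XT.nd (nat_lit 78) (nat_lit 304) (nat_lit 0) (XT.lf (nat_lit 0) (nat_lit 65258516201) (nat_lit 228) (nat_lit 25660642220) (nat_lit 304) (nat_lit 17879981381) (nat_lit 111) (nat_lit 5) (nat_lit 114) (nat_lit 5) (nat_lit 115) (nat_lit 5) (nat_lit 423) (nat_lit 386) (nat_lit 211)) (XT.lf (nat_lit 0) (nat_lit 21414619538) (nat_lit 304) (nat_lit 52331310993) (nat_lit 76) (nat_lit 38539383104) (nat_lit 107) (nat_lit 5) (nat_lit 111) (nat_lit 5) (nat_lit 108) (nat_lit 5) (nat_lit 424) (nat_lit 386) (nat_lit 210)))))) (XT.nd (nat_lit 50310) (nat_lit 0) (nat_lit 12464) (XT.nd (nat_lit 234) (nat_lit 228) (nat_lit 0) (XT.nd (nat_lit 78) (nat_lit 532) (nat_lit 0) (XT.lf (nat_lit 0) (nat_lit 54212923590)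 (nat_lit 228) (nat_lit 9326236876) (nat_lit 304) (nat_lit 52364275144) (nat_lit 104) (nat_lit 5) (nat_lit 107) (nat_lit 5) (nat_lit 108) (nat_lit 5) (nat_lit 425) (nat_lit 386) (nat_lit 209)) (XT.nd (nat_lit 78) (nat_lit 304) (nat_lit 0) (XT.lf (nat_lit 0) (nat_lit 47857709920) (nat_lit 228) (nat_lit 61475662688) (nat_lit 304) (nat_lit 10322187936) (nat_lit 101) (nat_lit 5) (nat_lit 104) (nat_lit 5) (nat_lit 105) (nat_lit 5) (nat_lit 426) (nat_lit 386) (nat_lit 208)) (XT.lf (nat_lit 0) (nat_lit 34354331018) (nat_lit 304) (nat_lit 82647619631) (nat_lit 76) (nat_lit 6547818222) (nat_lit 97) (nat_lit 5) (nat_lit 101) (nat_lit 5) (nat_lit 98) (nat_lit 5) (nat_lit 427) (nat_lit 386) (nat_lit 207)))) (XT.nd (nat_lit 49920) (nat_lit 0) (nat_lit 12388) (XT.lf (nat_lit 0) (nat_lit 33031717474) (nat_lit 228) (nat_lit 49704759287) (nat_lit 304) (nat_lit 44848586634) (nat_lit 94) (nat_lit 5) (nat_lit 97)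 (nat_lit 5) (nat_lit 98) (nat_lit 5) (nat_lit 428) (nat_lit 386) (nat_lit 206)) (XT.nd (nat_lit 78) (nat_lit 0) (nat_lit 76) (XT.lf (nat_lit 0) (nat_lit 5945442201) (nat_lit 1292) (nat_lit 7107190114) (nat_lit 1292) (nat_lit 7107190114) (nat_lit 257) (nat_lit 3) (nat_lit 274) (nat_lit 3) (nat_lit 274) (nat_lit 5) (nat_lit 387) (nat_lit 387) (nat_lit 246)) (XT.lf (nat_lit 0) (nat_lit 12495724907) (nat_lit 1216) (nat_lit 22572995809) (nat_lit 1292) (nat_lit 6249666793) (nat_lit 258) (nat_lit 5) (nat_lit 274) (nat_lit 5) (nat_lit 275) (nat_lit 5) (nat_lit 388) (nat_lit 387) (nat_lit 245))))) (XT.nd (nat_lit 234) (nat_lit 0) (nat_lit 228) (XT.nd (nat_lit 78) (nat_lit 0) (nat_lit 76) (XT.lf (nat_lit 76) (nat_lit 11239551998) (nat_lit 0) (nat_lit 2406362354) (nat_lit 1292) (nat_lit 28705701103) (nat_lit 259) (nat_lit 5) (nat_lit 258) (nat_lit 5) (nat_lit 275) (nat_lit 5) (nat_lit 389) (nat_lit 387)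 (nat_lit 244)) (XT.nd (nat_lit 78) (nat_lit 0) (nat_lit 76) (XT.lf (nat_lit 76) (nat_lit 3542775495) (nat_lit 0) (nat_lit 11882100439) (nat_lit 1292) (nat_lit 27994492288) (nat_lit 260) (nat_lit 5) (nat_lit 259) (nat_lit 5) (nat_lit 276) (nat_lit 5) (nat_lit 390) (nat_lit 387) (nat_lit 243)) (XT.lf (nat_lit 0) (nat_lit 17853596616) (nat_lit 1216) (nat_lit 4197233429) (nat_lit 1292) (nat_lit 22472855496) (nat_lit 260) (nat_lit 5) (nat_lit 276) (nat_lit 5) (nat_lit 277) (nat_lit 5) (nat_lit 391) (nat_lit 387) (nat_lit 242)))) (XT.nd (nat_lit 156) (nat_lit 0) (nat_lit 76) (XT.nd (nat_lit 78) (nat_lit 0) (nat_lit 76) (XT.lf (nat_lit 0) (nat_lit 20969549774) (nat_lit 1216) (nat_lit 11991119877) (nat_lit 1292) (nat_lit 12705576366) (nat_lit 261) (nat_lit 5) (nat_lit 277) (nat_lit 5) (nat_lit 278) (nat_lit 5) (nat_lit 392) (nat_lit 387) (nat_lit 241)) (XT.lf (nat_lit 0) (nat_lit 24784393836) (nat_lit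 1216) (nat_lit 19906489025) (nat_lit 1292) (nat_lit 2158759987) (nat_lit 262) (nat_lit 5) (nat_lit 278) (nat_lit 5) (nat_lit 279) (nat_lit 5) (nat_lit 393) (nat_lit 387) (nat_lit 240))) (XT.nd (nat_lit 78) (nat_lit 0) (nat_lit 76) (XT.lf (nat_lit 76) (nat_lit 20040927826) (nat_lit 0) (nat_lit 9395716811) (nat_lit 1292) (nat_lit 18636166022) (nat_lit 263) (nat_lit 5) (nat_lit 262) (nat_lit 5) (nat_lit 279) (nat_lit 5) (nat_lit 394) (nat_lit 387) (nat_lit 239)) (XT.lf (nat_lit 76) (nat_lit 13034622978) (nat_lit 0) (nat_lit 21881877345) (nat_lit 1292) (nat_lit 14422787790) (nat_lit 264) (nat_lit 5) (nat_lit 263) (nat_lit 5) (nat_lit 280) (nat_lit 5) (nat_lit 395) (nat_lit 387) (nat_lit 238))))))) (XT.nd (nat_lit 936) (nat_lit 4788) (nat_lit 0) (XT.nd (nat_lit 468) (nat_lit 2584) (nat_lit 0) (XT.nd (nat_lit 234) (nat_lit 1900) (nat_lit 0) (XT.nd (nat_lit 78) (nat_lit 1216) (nat_lit 0) (XT.lf (nat_lit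 76) (nat_lit 5949617217) (nat_lit 0) (nat_lit 35307213147) (nat_lit 1292) (nat_lit 9394665604) (nat_lit 265) (nat_lit 5) (nat_lit 264) (nat_lit 5) (nat_lit 281) (nat_lit 5) (nat_lit 396) (nat_lit 387) (nat_lit 237)) (XT.nd (nat_lit 78) (nat_lit 1292) (nat_lit 0) (XT.lf (nat_lit 0) (nat_lit 48526203550) (nat_lit 1216) (nat_lit 1186585228) (nat_lit 76) (nat_lit 2298165566) (nat_lit 265) (nat_lit 5) (nat_lit 281) (nat_lit 5) (nat_lit 266) (nat_lit 5) (nat_lit 397) (nat_lit 387) (nat_lit 236)) (XT.lf (nat_lit 0) (nat_lit 3461741052) (nat_lit 1292) (nat_lit 8424455140) (nat_lit 76) (nat_lit 41527580590) (nat_lit 248) (nat_lit 5) (nat_lit 265) (nat_lit 5) (nat_lit 249) (nat_lit 5) (nat_lit 398) (nat_lit 387) (nat_lit 235)))) (XT.nd (nat_lit 78) (nat_lit 1216) (nat_lit 0) (XT.lf (nat_lit 0) (nat_lit 11343733658) (nat_lit 760) (nat_lit 15803339912) (nat_lit 76) (nat_lit 27718825131) (nat_lit 239) (nat_lit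 5) (nat_lit 249) (nat_lit 5) (nat_lit 240) (nat_lit 5) (nat_lit 399) (nat_lit 387) (nat_lit 234)) (XT.nd (nat_lit 78) (nat_lit 608) (nat_lit 0) (XT.lf (nat_lit 0) (nat_lit 20270143949) (nat_lit 684) (nat_lit 23263470173) (nat_lit 76) (nat_lit 12837503831) (nat_lit 231) (nat_lit 5) (nat_lit 240) (nat_lit 5) (nat_lit 232) (nat_lit 5) (nat_lit 400) (nat_lit 387) (nat_lit 233)) (XT.lf (nat_lit 0) (nat_lit 27098465377) (nat_lit 608) (nat_lit 3240704494) (nat_lit 684) (nat_lit 27591540184) (nat_lit 223) (nat_lit 5) (nat_lit 231) (nat_lit 5) (nat_lit 232) (nat_lit 5) (nat_lit 401) (nat_lit 387) (nat_lit 232))))) (XT.nd (nat_lit 234) (nat_lit 988) (nat_lit 0) (XT.nd (nat_lit 78) (nat_lit 1064) (nat_lit 0) (XT.lf (nat_lit 0) (nat_lit 20931660486) (nat_lit 532) (nat_lit 20796187052) (nat_lit 608) (nat_lit 17815948916) (nat_lit 216) (nat_lit 5) (nat_lit 223) (nat_lit 5) (nat_lit 224) (nat_lit 5) (nat_lit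 402) (nat_lit 387) (nat_lit 231)) (XT.nd (nat_lit 78) (nat_lit 532) (nat_lit 0) (XT.lf (nat_lit 0) (nat_lit 14742799491) (nat_lit 532) (nat_lit 39642478171) (nat_lit 608) (nat_lit 6831280626) (nat_lit 209) (nat_lit 5) (nat_lit 216) (nat_lit 5) (nat_lit 217) (nat_lit 5) (nat_lit 403) (nat_lit 387) (nat_lit 230)) (XT.lf (nat_lit 0) (nat_lit 5332694469) (nat_lit 532) (nat_lit 54465705445) (nat_lit 76) (nat_lit 3151547634) (nat_lit 202) (nat_lit 5) (nat_lit 209) (nat_lit 5) (nat_lit 203) (nat_lit 5) (nat_lit 404) (nat_lit 387) (nat_lit 229)))) (XT.nd (nat_lit 78) (nat_lit 456) (nat_lit 0) (XT.lf (nat_lit 0) (nat_lit 1967851859) (nat_lit 532) (nat_lit 16897076137) (nat_lit 608) (nat_lit 45876009541) (nat_lit 195) (nat_lit 5) (nat_lit 202) (nat_lit 5) (nat_lit 203) (nat_lit 5) (nat_lit 405) (nat_lit 387) (nat_lit 228)) (XT.nd (nat_lit 78) (nat_lit 456) (nat_lit 0) (XT.lf (nat_lit 0) (nat_lit 33908514317)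 (nat_lit 608) (nat_lit 4521922260) (nat_lit 76) (nat_lit 28165998781) (nat_lit 195) (nat_lit 5) (nat_lit 203) (nat_lit 5) (nat_lit 196) (nat_lit 5) (nat_lit 406) (nat_lit 387) (nat_lit 227)) (XT.lf (nat_lit 0) (nat_lit 50495354966) (nat_lit 532) (nat_lit 10999106210) (nat_lit 76) (nat_lit 7026515181) (nat_lit 189) (nat_lit 5) (nat_lit 196) (nat_lit 5) (nat_lit 190) (nat_lit 5) (nat_lit 407) (nat_lit 387) (nat_lit 226)))))) (XT.nd (nat_lit 468) (nat_lit 2128) (nat_lit 0) (XT.nd (nat_lit 234) (nat_lit 1216) (nat_lit 0) (XT.nd (nat_lit 78) (nat_lit 988) (nat_lit 0) (XT.lf (nat_lit 0) (nat_lit 52862934929) (nat_lit 456) (nat_lit 15989745208) (nat_lit 532) (nat_lit 1660830504) (nat_lit 183) (nat_lit 5) (nat_lit 189) (nat_lit 5) (nat_lit 190) (nat_lit 5) (nat_lit 408) (nat_lit 387) (nat_lit 225)) (XT.nd (nat_lit 78) (nat_lit 456) (nat_lit 0) (XT.lf (nat_lit 0) (nat_lit 16109229088) (nat_lit 532) (nat_lit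 24560371796) (nat_lit 76) (nat_lit 31904897267) (nat_lit 176) (nat_lit 5) (nat_lit 183) (nat_lit 5) (nat_lit 177) (nat_lit 5) (nat_lit 409) (nat_lit 387) (nat_lit 224)) (XT.lf (nat_lit 0) (nat_lit 35567357488) (nat_lit 532) (nat_lit 31530118952) (nat_lit 76) (nat_lit 7615548299) (nat_lit 170) (nat_lit 5) (nat_lit 177) (nat_lit 5) (nat_lit 171) (nat_lit 5) (nat_lit 410) (nat_lit 387) (nat_lit 223)))) (XT.nd (nat_lit 78) (nat_lit 836) (nat_lit 0) (XT.lf (nat_lit 0) (nat_lit 38206034702) (nat_lit 380) (nat_lit 18823705171) (nat_lit 456) (nat_lit 19897797787) (nat_lit 165) (nat_lit 5) (nat_lit 170) (nat_lit 5) (nat_lit 171) (nat_lit 5) (nat_lit 411) (nat_lit 387) (nat_lit 222)) (XT.nd (nat_lit 78) (nat_lit 380) (nat_lit 0) (XT.lf (nat_lit 0) (nat_lit 1267147890) (nat_lit 456) (nat_lit 46056037028) (nat_lit 76) (nat_lit 31900678195) (nat_lit 159) (nat_lit 5) (nat_lit 165) (nat_lit 5) (nat_lit 160)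 (nat_lit 5) (nat_lit 412) (nat_lit 387) (nat_lit 221)) (XT.lf (nat_lit 0) (nat_lit 23981465300) (nat_lit 456) (nat_lit 53655122616) (nat_lit 76) (nat_lit 3965427822) (nat_lit 154) (nat_lit 5) (nat_lit 160) (nat_lit 5) (nat_lit 155) (nat_lit 5) (nat_lit 413) (nat_lit 387) (nat_lit 220))))) (XT.nd (nat_lit 234) (nat_lit 988) (nat_lit 0) (XT.nd (nat_lit 78) (nat_lit 760) (nat_lit 0) (XT.lf (nat_lit 0) (nat_lit 22481775893) (nat_lit 380) (nat_lit 26520697752) (nat_lit 456) (nat_lit 35061473455) (nat_lit 149) (nat_lit 5) (nat_lit 154) (nat_lit 5) (nat_lit 155) (nat_lit 5) (nat_lit 414) (nat_lit 387) (nat_lit 219)) (XT.nd (nat_lit 78) (nat_lit 456) (nat_lit 0) (XT.lf (nat_lit 0) (nat_lit 16977053315) (nat_lit 304) (nat_lit 59277937171) (nat_lit 380) (nat_lit 10364571145) (nat_lit 145) (nat_lit 5) (nat_lit 149) (nat_lit 5) (nat_lit 150) (nat_lit 5) (nat_lit 415) (nat_lit 387) (nat_lit 218)) (XT.lf (nat_lit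 0) (nat_lit 11261248967) (nat_lit 380) (nat_lit 5016805826) (nat_lit 456) (nat_lit 72989973671) (nat_lit 139) (nat_lit 5) (nat_lit 144) (nat_lit 5) (nat_lit 145) (nat_lit 5) (nat_lit 416) (nat_lit 387) (nat_lit 217)))) (XT.nd (nat_lit 156) (nat_lit 684) (nat_lit 0) (XT.nd (nat_lit 78) (nat_lit 0) (nat_lit 0) (XT.lf (nat_lit 0) (nat_lit 5124889637) (nat_lit 304) (nat_lit 40186831239) (nat_lit 380) (nat_lit 46695921555) (nat_lit 135) (nat_lit 5) (nat_lit 139) (nat_lit 5) (nat_lit 140) (nat_lit 5) (nat_lit 417) (nat_lit 387) (nat_lit 216)) (XT.lf (nat_lit 0) (nat_lit 76815515795) (nat_lit 380) (nat_lit 1035770160) (nat_lit 76) (nat_lit 17002398063) (nat_lit 135) (nat_lit 5) (nat_lit 140) (nat_lit 5) (nat_lit 136) (nat_lit 5) (nat_lit 418) (nat_lit 387) (nat_lit 215))) (XT.nd (nat_lit 78) (nat_lit 304) (nat_lit 0) (XT.lf (nat_lit 0) (nat_lit 13103747602) (nat_lit 380) (nat_lit 7471055230) (nat_lit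 76) (nat_lit 77225155587) (nat_lit 130) (nat_lit 5) (nat_lit 135) (nat_lit 5) (nat_lit 131) (nat_lit 5) (nat_lit 419) (nat_lit 387) (nat_lit 214)) (XT.lf (nat_lit 0) (nat_lit 46668492522) (nat_lit 380) (nat_lit 14351329592) (nat_lit 76) (nat_lit 39831203098) (nat_lit 126) (nat_lit 5) (nat_lit 131) (nat_lit 5) (nat_lit 127) (nat_lit 5) (nat_lit 420) (nat_lit 387) (nat_lit 213))))))))
noncomputable def xc115 : XT := (XT.nd (nat_lit 51870) (nat_lit 0) (nat_lit 304) (XT.nd (nat_lit 50856) (nat_lit 0) (nat_lit 8512) (XT.nd (nat_lit 468) (nat_lit 532) (nat_lit 0) (XT.nd (nat_lit 234) (nat_lit 760) (nat_lit 0) (XT.nd (nat_lit 78) (nat_lit 608) (nat_lit 0) (XT.lf (nat_lit 0) (nat_lit 82675749880) (nat_lit 304) (nat_lit 314527028) (nat_lit 380) (nat_lit 21032004611) (nat_lit 122) (nat_lit 5) (nat_lit 126) (nat_lit 5) (nat_lit 127) (nat_lit 5) (nat_lit 421) (nat_lit 387) (nat_lit 212)) (XT.nd (nat_lit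 78) (nat_lit 304) (nat_lit 0) (XT.lf (nat_lit 0) (nat_lit 15033711458) (nat_lit 304) (nat_lit 29030422160) (nat_lit 76) (nat_lit 63238200074) (nat_lit 118) (nat_lit 5) (nat_lit 122) (nat_lit 5) (nat_lit 119) (nat_lit 5) (nat_lit 422) (nat_lit 387) (nat_lit 211)) (XT.lf (nat_lit 0) (nat_lit 53601102538) (nat_lit 380) (nat_lit 37109895475) (nat_lit 76) (nat_lit 19995142643) (nat_lit 114) (nat_lit 5) (nat_lit 119) (nat_lit 5) (nat_lit 115) (nat_lit 5) (nat_lit 423) (nat_lit 387) (nat_lit 210)))) (XT.nd (nat_lit 78) (nat_lit 532) (nat_lit 0) (XT.lf (nat_lit 0) (nat_lit 68578410497) (nat_lit 228) (nat_lit 26923057575) (nat_lit 304) (nat_lit 18736531951) (nat_lit 111) (nat_lit 5) (nat_lit 114) (nat_lit 5) (nat_lit 115) (nat_lit 5) (nat_lit 424) (nat_lit 387) (nat_lit 209)) (XT.nd (nat_lit 78) (nat_lit 228) (nat_lit 0) (XT.lf (nat_lit 0) (nat_lit 22521056066) (nat_lit 304) (nat_lit 54890951858) (nat_lit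 76) (nat_lit 40486494479) (nat_lit 107) (nat_lit 5) (nat_lit 111) (nat_lit 5) (nat_lit 108) (nat_lit 5) (nat_lit 425) (nat_lit 387) (nat_lit 208)) (XT.lf (nat_lit 0) (nat_lit 56978862720) (nat_lit 228) (nat_lit 9771792566) (nat_lit 304) (nat_lit 54946910526) (nat_lit 104) (nat_lit 5) (nat_lit 107) (nat_lit 5) (nat_lit 108) (nat_lit 5) (nat_lit 426) (nat_lit 387) (nat_lit 207))))) (XT.nd (nat_lit 50154) (nat_lit 0) (nat_lit 12236) (XT.nd (nat_lit 78) (nat_lit 304) (nat_lit 0) (XT.lf (nat_lit 0) (nat_lit 50305121325) (nat_lit 228) (nat_lit 64528526257) (nat_lit 304) (nat_lit 10803677585) (nat_lit 101) (nat_lit 5) (nat_lit 104) (nat_lit 5) (nat_lit 105) (nat_lit 5) (nat_lit 427) (nat_lit 387) (nat_lit 206)) (XT.nd (nat_lit 49998) (nat_lit 0) (nat_lit 12160) (XT.lf (nat_lit 0) (nat_lit 36105090594) (nat_lit 304) (nat_lit 86725586209) (nat_lit 76) (nat_lit 6895584399) (nat_lit 97) (nat_lit 5) (nat_lit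 101) (nat_lit 5) (nat_lit 98) (nat_lit 5) (nat_lit 428) (nat_lit 387) (nat_lit 205)) (XT.lf (nat_lit 0) (nat_lit 6307190032) (nat_lit 1292) (nat_lit 7429334081) (nat_lit 1292) (nat_lit 7429334081) (nat_lit 257) (nat_lit 3) (nat_lit 274) (nat_lit 3) (nat_lit 274) (nat_lit 5) (nat_lit 388) (nat_lit 388) (nat_lit 244)))) (XT.nd (nat_lit 78) (nat_lit 0) (nat_lit 0) (XT.lf (nat_lit 0) (nat_lit 13243376095) (nat_lit 1216) (nat_lit 23632809429) (nat_lit 1292) (nat_lit 6504395246) (nat_lit 258) (nat_lit 5) (nat_lit 274) (nat_lit 5) (nat_lit 275) (nat_lit 5) (nat_lit 389) (nat_lit 388) (nat_lit 243)) (XT.nd (nat_lit 78) (nat_lit 0) (nat_lit 76) (XT.lf (nat_lit 76) (nat_lit 11868392593) (nat_lit 0) (nat_lit 2577474436) (nat_lit 1292) (nat_lit 30019761237) (nat_lit 259) (nat_lit 5) (nat_lit 258) (nat_lit 5) (nat_lit 275) (nat_lit 5) (nat_lit 390) (nat_lit 388) (nat_lit 242)) (XT.lf (nat_lit 76) (nat_lit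 3788800604) (nat_lit 0) (nat_lit 12519570539) (nat_lit 1292) (nat_lit 29278561516) (nat_lit 260) (nat_lit 5) (nat_lit 259) (nat_lit 5) (nat_lit 276) (nat_lit 5) (nat_lit 391) (nat_lit 388) (nat_lit 241)))))) (XT.nd (nat_lit 468) (nat_lit 3876) (nat_lit 0) (XT.nd (nat_lit 234) (nat_lit 0) (nat_lit 152) (XT.nd (nat_lit 78) (nat_lit 0) (nat_lit 76) (XT.lf (nat_lit 0) (nat_lit 18852785552) (nat_lit 1216) (nat_lit 4337850186) (nat_lit 1292) (nat_lit 23556004110) (nat_lit 260) (nat_lit 5) (nat_lit 276) (nat_lit 5) (nat_lit 277) (nat_lit 5) (nat_lit 392) (nat_lit 388) (nat_lit 240)) (XT.nd (nat_lit 78) (nat_lit 0) (nat_lit 76) (XT.lf (nat_lit 0) (nat_lit 22119776303) (nat_lit 1216) (nat_lit 12519985544) (nat_lit 1292) (nat_lit 13306710956) (nat_lit 261) (nat_lit 5) (nat_lit 277) (nat_lit 5) (nat_lit 278) (nat_lit 5) (nat_lit 393) (nat_lit 388) (nat_lit 239)) (XT.lf (nat_lit 0) (nat_lit 26120899613)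 (nat_lit 1216) (nat_lit 20829913282) (nat_lit 1292) (nat_lit 2238362043) (nat_lit 262) (nat_lit 5) (nat_lit 278) (nat_lit 5) (nat_lit 279) (nat_lit 5) (nat_lit 394) (nat_lit 388) (nat_lit 238)))) (XT.nd (nat_lit 78) (nat_lit 0) (nat_lit 76) (XT.lf (nat_lit 76) (nat_lit 21112813407) (nat_lit 0) (nat_lit 9888988213) (nat_lit 1292) (nat_lit 19471819857) (nat_lit 263) (nat_lit 5) (nat_lit 262) (nat_lit 5) (nat_lit 279) (nat_lit 5) (nat_lit 395) (nat_lit 388) (nat_lit 237)) (XT.nd (nat_lit 78) (nat_lit 0) (nat_lit 76) (XT.lf (nat_lit 76) (nat_lit 13757159279) (nat_lit 0) (nat_lit 22994512392) (nat_lit 1292) (nat_lit 15051871914) (nat_lit 264) (nat_lit 5) (nat_lit 263) (nat_lit 5) (nat_lit 280) (nat_lit 5) (nat_lit 396) (nat_lit 388) (nat_lit 236)) (XT.lf (nat_lit 76) (nat_lit 6318678018) (nat_lit 0) (nat_lit 37086603936) (nat_lit 1292) (nat_lit 9776193325) (nat_lit 265) (nat_lit 5) (nat_lit 264) (nat_lit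 5) (nat_lit 281) (nat_lit 5) (nat_lit 397) (nat_lit 388) (nat_lit 235))))) (XT.nd (nat_lit 234) (nat_lit 2280) (nat_lit 0) (XT.nd (nat_lit 78) (nat_lit 1976) (nat_lit 0) (XT.lf (nat_lit 0) (nat_lit 51033918685) (nat_lit 1216) (nat_lit 1175142781) (nat_lit 76) (nat_lit 2399972556) (nat_lit 265) (nat_lit 5) (nat_lit 281) (nat_lit 5) (nat_lit 266) (nat_lit 5) (nat_lit 398) (nat_lit 388) (nat_lit 234)) (XT.nd (nat_lit 78) (nat_lit 684) (nat_lit 0) (XT.lf (nat_lit 0) (nat_lit 3713815765) (nat_lit 1292) (nat_lit 8775338897) (nat_lit 76) (nat_lit 43592917391) (nat_lit 248) (nat_lit 5) (nat_lit 265) (nat_lit 5) (nat_lit 249) (nat_lit 5) (nat_lit 399) (nat_lit 388) (nat_lit 233)) (XT.lf (nat_lit 0) (nat_lit 11986730770) (nat_lit 760) (nat_lit 16522812192) (nat_lit 76) (nat_lit 29097353562) (nat_lit 239) (nat_lit 5) (nat_lit 249) (nat_lit 5) (nat_lit 240) (nat_lit 5) (nat_lit 400) (nat_lit 388) (nat_lit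 232)))) (XT.nd (nat_lit 156) (nat_lit 1064) (nat_lit 0) (XT.nd (nat_lit 78) (nat_lit 608) (nat_lit 0) (XT.lf (nat_lit 0) (nat_lit 21356471338) (nat_lit 684) (nat_lit 24355727589) (nat_lit 76) (nat_lit 13475268604) (nat_lit 231) (nat_lit 5) (nat_lit 240) (nat_lit 5) (nat_lit 232) (nat_lit 5) (nat_lit 401) (nat_lit 388) (nat_lit 231)) (XT.lf (nat_lit 0) (nat_lit 28522271943) (nat_lit 608) (nat_lit 3403871132) (nat_lit 684) (nat_lit 28898981360) (nat_lit 223) (nat_lit 5) (nat_lit 231) (nat_lit 5) (nat_lit 232) (nat_lit 5) (nat_lit 402) (nat_lit 388) (nat_lit 230))) (XT.nd (nat_lit 78) (nat_lit 532) (nat_lit 0) (XT.lf (nat_lit 0) (nat_lit 22047223166) (nat_lit 532) (nat_lit 21834350143) (nat_lit 608) (nat_lit 18637373271) (nat_lit 216) (nat_lit 5) (nat_lit 223) (nat_lit 5) (nat_lit 224) (nat_lit 5) (nat_lit 403) (nat_lit 388) (nat_lit 229)) (XT.lf (nat_lit 0) (nat_lit 15548907691) (nat_lit 532) (nat_lit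 41620438932) (nat_lit 608) (nat_lit 7106076669) (nat_lit 209) (nat_lit 5) (nat_lit 216) (nat_lit 5) (nat_lit 217) (nat_lit 5) (nat_lit 404) (nat_lit 388) (nat_lit 228))))))) (XT.nd (nat_lit 936) (nat_lit 3344) (nat_lit 0) (XT.nd (nat_lit 468) (nat_lit 2356) (nat_lit 0) (XT.nd (nat_lit 234) (nat_lit 1444) (nat_lit 0) (XT.nd (nat_lit 78) (nat_lit 532) (nat_lit 0) (XT.lf (nat_lit 0) (nat_lit 5662383870) (nat_lit 532) (nat_lit 57118859424) (nat_lit 76) (nat_lit 3314292647) (nat_lit 202) (nat_lit 5) (nat_lit 209) (nat_lit 5) (nat_lit 203) (nat_lit 5) (nat_lit 405) (nat_lit 388) (nat_lit 227)) (XT.nd (nat_lit 78) (nat_lit 0) (nat_lit 0) (XT.lf (nat_lit 0) (nat_lit 2134365446) (nat_lit 532) (nat_lit 17734515845) (nat_lit 608) (nat_lit 48107265399) (nat_lit 195) (nat_lit 5) (nat_lit 202) (nat_lit 5) (nat_lit 203) (nat_lit 5) (nat_lit 406) (nat_lit 388) (nat_lit 226)) (XT.lf (nat_lit 0) (nat_lit 35661823998)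 (nat_lit 608) (nat_lit 4681458897) (nat_lit 76) (nat_lit 29581221981) (nat_lit 195) (nat_lit 5) (nat_lit 203) (nat_lit 5) (nat_lit 196) (nat_lit 5) (nat_lit 407) (nat_lit 388) (nat_lit 225)))) (XT.nd (nat_lit 78) (nat_lit 988) (nat_lit 0) (XT.lf (nat_lit 0) (nat_lit 53075957347) (nat_lit 532) (nat_lit 11482808080) (nat_lit 76) (nat_lit 7386569726) (nat_lit 189) (nat_lit 5) (nat_lit 196) (nat_lit 5) (nat_lit 190) (nat_lit 5) (nat_lit 408) (nat_lit 388) (nat_lit 224)) (XT.nd (nat_lit 78) (nat_lit 532) (nat_lit 0) (XT.lf (nat_lit 0) (nat_lit 55570435974) (nat_lit 456) (nat_lit 16778672623) (nat_lit 532) (nat_lit 1688449473) (nat_lit 183) (nat_lit 5) (nat_lit 189) (nat_lit 5) (nat_lit 190) (nat_lit 5) (nat_lit 409) (nat_lit 388) (nat_lit 223)) (XT.lf (nat_lit 0) (nat_lit 16967162791) (nat_lit 532) (nat_lit 25723340460) (nat_lit 76) (nat_lit 33511132446) (nat_lit 176) (nat_lit 5) (nat_lit 183) (nat_lit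 5) (nat_lit 177) (nat_lit 5) (nat_lit 410) (nat_lit 388) (nat_lit 222))))) (XT.nd (nat_lit 234) (nat_lit 1064) (nat_lit 0) (XT.nd (nat_lit 78) (nat_lit 836) (nat_lit 0) (XT.lf (nat_lit 0) (nat_lit 37396427469) (nat_lit 532) (nat_lit 33042030785) (nat_lit 76) (nat_lit 8008684094) (nat_lit 170) (nat_lit 5) (nat_lit 177) (nat_lit 5) (nat_lit 171) (nat_lit 5) (nat_lit 411) (nat_lit 388) (nat_lit 221)) (XT.nd (nat_lit 78) (nat_lit 456) (nat_lit 0) (XT.lf (nat_lit 0) (nat_lit 40179078975) (nat_lit 380) (nat_lit 19751038732) (nat_lit 456) (nat_lit 20842318144) (nat_lit 165) (nat_lit 5) (nat_lit 170) (nat_lit 5) (nat_lit 171) (nat_lit 5) (nat_lit 412) (nat_lit 388) (nat_lit 220)) (XT.lf (nat_lit 0) (nat_lit 1378272567) (nat_lit 456) (nat_lit 48295626145) (nat_lit 76) (nat_lit 33509713474) (nat_lit 159) (nat_lit 5) (nat_lit 165) (nat_lit 5) (nat_lit 160) (nat_lit 5) (nat_lit 413) (nat_lit 388) (nat_lit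 219)))) (XT.nd (nat_lit 78) (nat_lit 684) (nat_lit 0) (XT.lf (nat_lit 0) (nat_lit 25226768681) (nat_lit 456) (nat_lit 56275232212) (nat_lit 76) (nat_lit 4178718189) (nat_lit 154) (nat_lit 5) (nat_lit 160) (nat_lit 5) (nat_lit 155) (nat_lit 5) (nat_lit 414) (nat_lit 388) (nat_lit 218)) (XT.nd (nat_lit 78) (nat_lit 304) (nat_lit 0) (XT.lf (nat_lit 0) (nat_lit 23666715472) (nat_lit 380) (nat_lit 27830495472) (nat_lit 456) (nat_lit 36768585066) (nat_lit 149) (nat_lit 5) (nat_lit 154) (nat_lit 5) (nat_lit 155) (nat_lit 5) (nat_lit 415) (nat_lit 388) (nat_lit 217)) (XT.lf (nat_lit 0) (nat_lit 17886170674) (nat_lit 304) (nat_lit 62224786446) (nat_lit 380) (nat_lit 10838276521) (nat_lit 145) (nat_lit 5) (nat_lit 149) (nat_lit 5) (nat_lit 150) (nat_lit 5) (nat_lit 416) (nat_lit 388) (nat_lit 216)))))) (XT.nd (nat_lit 468) (nat_lit 1596) (nat_lit 0) (XT.nd (nat_lit 234) (nat_lit 988) (nat_lit 0) (XT.nd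 (nat_lit 78) (nat_lit 304) (nat_lit 0) (XT.lf (nat_lit 0) (nat_lit 11883701550) (nat_lit 380) (nat_lit 5250402470) (nat_lit 456) (nat_lit 76596052634) (nat_lit 139) (nat_lit 5) (nat_lit 144) (nat_lit 5) (nat_lit 145) (nat_lit 5) (nat_lit 417) (nat_lit 388) (nat_lit 215)) (XT.nd (nat_lit 78) (nat_lit 0) (nat_lit 0) (XT.lf (nat_lit 0) (nat_lit 5439897579) (nat_lit 304) (nat_lit 42178271587) (nat_lit 380) (nat_lit 48988621102) (nat_lit 135) (nat_lit 5) (nat_lit 139) (nat_lit 5) (nat_lit 140) (nat_lit 5) (nat_lit 418) (nat_lit 388) (nat_lit 214)) (XT.lf (nat_lit 0) (nat_lit 80695371892) (nat_lit 380) (nat_lit 1030581842) (nat_lit 76) (nat_lit 17869234059) (nat_lit 135) (nat_lit 5) (nat_lit 140) (nat_lit 5) (nat_lit 136) (nat_lit 5) (nat_lit 419) (nat_lit 388) (nat_lit 213)))) (XT.nd (nat_lit 78) (nat_lit 608) (nat_lit 0) (XT.lf (nat_lit 0) (nat_lit 13797067582) (nat_lit 380) (nat_lit 7788498068)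 (nat_lit 76) (nat_lit 81103239300) (nat_lit 130) (nat_lit 5) (nat_lit 135) (nat_lit 5) (nat_lit 131) (nat_lit 5) (nat_lit 420) (nat_lit 388) (nat_lit 212)) (XT.nd (nat_lit 78) (nat_lit 304) (nat_lit 0) (XT.lf (nat_lit 0) (nat_lit 49038927578) (nat_lit 380) (nat_lit 15013452016) (nat_lit 76) (nat_lit 41840079506) (nat_lit 126) (nat_lit 5) (nat_lit 131) (nat_lit 5) (nat_lit 127) (nat_lit 5) (nat_lit 421) (nat_lit 388) (nat_lit 211)) (XT.lf (nat_lit 0) (nat_lit 86863392137) (nat_lit 304) (nat_lit 312164331) (nat_lit 380) (nat_lit 22046759434) (nat_lit 122) (nat_lit 5) (nat_lit 126) (nat_lit 5) (nat_lit 127) (nat_lit 5) (nat_lit 422) (nat_lit 388) (nat_lit 210))))) (XT.nd (nat_lit 234) (nat_lit 760) (nat_lit 0) (XT.nd (nat_lit 78) (nat_lit 532) (nat_lit 0) (XT.lf (nat_lit 0) (nat_lit 15820486755) (nat_lit 304) (nat_lit 30428047824) (nat_lit 76) (nat_lit 66417856890) (nat_lit 118) (nat_lit 5) (nat_lit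 122) (nat_lit 5) (nat_lit 119) (nat_lit 5) (nat_lit 423) (nat_lit 388) (nat_lit 209)) (XT.nd (nat_lit 78) (nat_lit 228) (nat_lit 0) (XT.lf (nat_lit 0) (nat_lit 56315256821) (nat_lit 380) (nat_lit 38912193272) (nat_lit 76) (nat_lit 21012968700) (nat_lit 114) (nat_lit 5) (nat_lit 119) (nat_lit 5) (nat_lit 115) (nat_lit 5) (nat_lit 424) (nat_lit 388) (nat_lit 208)) (XT.lf (nat_lit 0) (nat_lit 72059003118) (nat_lit 228) (nat_lit 28250510449) (nat_lit 304) (nat_lit 19639391656) (nat_lit 111) (nat_lit 5) (nat_lit 114) (nat_lit 5) (nat_lit 115) (nat_lit 5) (nat_lit 425) (nat_lit 388) (nat_lit 207)))) (XT.nd (nat_lit 156) (nat_lit 228) (nat_lit 0) (XT.nd (nat_lit 78) (nat_lit 228) (nat_lit 0) (XT.lf (nat_lit 0) (nat_lit 23679494856) (nat_lit 304) (nat_lit 57583867084) (nat_lit 76) (nat_lit 42529088789) (nat_lit 107) (nat_lit 5) (nat_lit 111) (nat_lit 5) (nat_lit 108) (nat_lit 5) (nat_lit 426) (nat_lit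 388) (nat_lit 206)) (XT.lf (nat_lit 0) (nat_lit 59877958191) (nat_lit 228) (nat_lit 10241555751) (nat_lit 304) (nat_lit 57661985418) (nat_lit 104) (nat_lit 5) (nat_lit 107) (nat_lit 5) (nat_lit 108) (nat_lit 5) (nat_lit 427) (nat_lit 388) (nat_lit 205))) (XT.nd (nat_lit 50076) (nat_lit 0) (nat_lit 11856) (XT.lf (nat_lit 0) (nat_lit 52869833998) (nat_lit 228) (nat_lit 67735977908) (nat_lit 304) (nat_lit 11312460334) (nat_lit 101) (nat_lit 5) (nat_lit 104) (nat_lit 5) (nat_lit 105) (nat_lit 5) (nat_lit 428) (nat_lit 388) (nat_lit 204)) (XT.lf (nat_lit 0) (nat_lit 6681030912) (nat_lit 1292) (nat_lit 7770673311) (nat_lit 1292) (nat_lit 7770673311) (nat_lit 257) (nat_lit 3) (nat_lit 274) (nat_lit 3) (nat_lit 274) (nat_lit 5) (nat_lit 389) (nat_lit 389) (nat_lit 242))))))))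
noncomputable def xc116 : XT := (XT.nd (nat_lit 1872) (nat_lit 4408) (nat_lit 0) (XT.nd (nat_lit 936) (nat_lit 5624) (nat_lit 0) (XT.nd (nat_lit 468) (nat_lit 1444) (nat_lit 0) (XT.nd (nat_lit 234) (nat_lit 0) (nat_lit 152) (XT.nd (nat_lit 78) (nat_lit 0) (nat_lit 0) (XT.lf (nat_lit 0) (nat_lit 14016987025) (nat_lit 1216) (nat_lit 24752013465) (nat_lit 1292) (nat_lit 6777229624) (nat_lit 258) (nat_lit 5) (nat_lit 274) (nat_lit 5) (nat_lit 275) (nat_lit 5) (nat_lit 390) (nat_lit 389) (nat_lit 241)) (XT.nd (nat_lit 78) (nat_lit 0) (nat_lit 76) (XT.lf (nat_lit 76) (nat_lit 12522458930) (nat_lit 0) (nat_lit 2752419780) (nat_lit 1292) (nat_lit 31410794722) (nat_lit 259) (nat_lit 5) (nat_lit 258) (nat_lit 5) (nat_lit 275) (nat_lit 5) (nat_lit 391) (nat_lit 389) (nat_lit 240)) (XT.lf (nat_lit 76) (nat_lit 4040722570) (nat_lit 0) (nat_lit 13184882470) (nat_lit 1292) (nat_lit 30637586747) (nat_lit 260)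 (nat_lit 5) (nat_lit 259) (nat_lit 5) (nat_lit 276) (nat_lit 5) (nat_lit 392) (nat_lit 389) (nat_lit 239)))) (XT.nd (nat_lit 78) (nat_lit 0) (nat_lit 76) (XT.lf (nat_lit 0) (nat_lit 19892031728) (nat_lit 1216) (nat_lit 4491935517) (nat_lit 1292) (nat_lit 24697074918) (nat_lit 260) (nat_lit 5) (nat_lit 276) (nat_lit 5) (nat_lit 277) (nat_lit 5) (nat_lit 393) (nat_lit 389) (nat_lit 238)) (XT.nd (nat_lit 78) (nat_lit 0) (nat_lit 76) (XT.lf (nat_lit 0) (nat_lit 23318054498) (nat_lit 1216) (nat_lit 13081866610) (nat_lit 1292) (nat_lit 13941076682) (nat_lit 261) (nat_lit 5) (nat_lit 277) (nat_lit 5) (nat_lit 278) (nat_lit 5) (nat_lit 394) (nat_lit 389) (nat_lit 237)) (XT.lf (nat_lit 0) (nat_lit 27515185941) (nat_lit 1216) (nat_lit 21806193350) (nat_lit 1292) (nat_lit 2324578608) (nat_lit 262) (nat_lit 5) (nat_lit 278) (nat_lit 5) (nat_lit 279) (nat_lit 5) (nat_lit 395) (nat_lit 389) (nat_lit 236)))))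 (XT.nd (nat_lit 234) (nat_lit 1748) (nat_lit 0) (XT.nd (nat_lit 78) (nat_lit 0) (nat_lit 76) (XT.lf (nat_lit 76) (nat_lit 22231800282) (nat_lit 0) (nat_lit 10404739721) (nat_lit 1292) (nat_lit 20358195915) (nat_lit 263) (nat_lit 5) (nat_lit 262) (nat_lit 5) (nat_lit 279) (nat_lit 5) (nat_lit 396) (nat_lit 389) (nat_lit 235)) (XT.nd (nat_lit 78) (nat_lit 0) (nat_lit 76) (XT.lf (nat_lit 76) (nat_lit 14509239602) (nat_lit 0) (nat_lit 24161055408) (nat_lit 1292) (nat_lit 15720968670) (nat_lit 264) (nat_lit 5) (nat_lit 263) (nat_lit 5) (nat_lit 280) (nat_lit 5) (nat_lit 397) (nat_lit 389) (nat_lit 234)) (XT.lf (nat_lit 76) (nat_lit 6699537034) (nat_lit 0) (nat_lit 38953659877) (nat_lit 1292) (nat_lit 10184997949) (nat_lit 265) (nat_lit 5) (nat_lit 264) (nat_lit 5) (nat_lit 281) (nat_lit 5) (nat_lit 398) (nat_lit 389) (nat_lit 233)))) (XT.nd (nat_lit 78) (nat_lit 1976) (nat_lit 0) (XT.lf (nat_lit 0)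 (nat_lit 53659451316) (nat_lit 1216) (nat_lit 1169707894) (nat_lit 76) (nat_lit 2508087928) (nat_lit 265) (nat_lit 5) (nat_lit 281) (nat_lit 5) (nat_lit 266) (nat_lit 5) (nat_lit 399) (nat_lit 389) (nat_lit 232)) (XT.nd (nat_lit 78) (nat_lit 684) (nat_lit 0) (XT.lf (nat_lit 0) (nat_lit 3971150690) (nat_lit 1292) (nat_lit 9150306294) (nat_lit 76) (nat_lit 45762547633) (nat_lit 248) (nat_lit 5) (nat_lit 265) (nat_lit 5) (nat_lit 249) (nat_lit 5) (nat_lit 400) (nat_lit 389) (nat_lit 231)) (XT.lf (nat_lit 0) (nat_lit 12654829601) (nat_lit 760) (nat_lit 17284830611) (nat_lit 76) (nat_lit 30545497588) (nat_lit 239) (nat_lit 5) (nat_lit 249) (nat_lit 5) (nat_lit 240) (nat_lit 5) (nat_lit 401) (nat_lit 389) (nat_lit 230)))))) (XT.nd (nat_lit 468) (nat_lit 2280) (nat_lit 0) (XT.nd (nat_lit 234) (nat_lit 1596) (nat_lit 0) (XT.nd (nat_lit 78) (nat_lit 1140) (nat_lit 0) (XT.lf (nat_lit 0) (nat_lit 22490344965)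 (nat_lit 684) (nat_lit 25509190982) (nat_lit 76) (nat_lit 14145303763) (nat_lit 231) (nat_lit 5) (nat_lit 240) (nat_lit 5) (nat_lit 232) (nat_lit 5) (nat_lit 402) (nat_lit 389) (nat_lit 229)) (XT.nd (nat_lit 78) (nat_lit 532) (nat_lit 0) (XT.lf (nat_lit 0) (nat_lit 30010864721) (nat_lit 608) (nat_lit 3575090915) (nat_lit 684) (nat_lit 30278501101) (nat_lit 223) (nat_lit 5) (nat_lit 231) (nat_lit 5) (nat_lit 232) (nat_lit 5) (nat_lit 403) (nat_lit 389) (nat_lit 228)) (XT.lf (nat_lit 0) (nat_lit 23212150905) (nat_lit 532) (nat_lit 22924574442) (nat_lit 608) (nat_lit 19506318495) (nat_lit 216) (nat_lit 5) (nat_lit 223) (nat_lit 5) (nat_lit 224) (nat_lit 5) (nat_lit 404) (nat_lit 389) (nat_lit 227)))) (XT.nd (nat_lit 78) (nat_lit 1064) (nat_lit 0) (XT.lf (nat_lit 0) (nat_lit 16388909290) (nat_lit 532) (nat_lit 43697684781) (nat_lit 608) (nat_lit 7400819970) (nat_lit 209) (nat_lit 5) (nat_lit 216)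 (nat_lit 5) (nat_lit 217) (nat_lit 5) (nat_lit 405) (nat_lit 389) (nat_lit 226)) (XT.nd (nat_lit 78) (nat_lit 532) (nat_lit 0) (XT.lf (nat_lit 0) (nat_lit 6002695515) (nat_lit 532) (nat_lit 59911191245) (nat_lit 76) (nat_lit 3484694473) (nat_lit 202) (nat_lit 5) (nat_lit 209) (nat_lit 5) (nat_lit 203) (nat_lit 5) (nat_lit 406) (nat_lit 389) (nat_lit 225)) (XT.lf (nat_lit 0) (nat_lit 2302871468) (nat_lit 532) (nat_lit 18614516830) (nat_lit 608) (nat_lit 50455898855) (nat_lit 195) (nat_lit 5) (nat_lit 202) (nat_lit 5) (nat_lit 203) (nat_lit 5) (nat_lit 407) (nat_lit 389) (nat_lit 224))))) (XT.nd (nat_lit 234) (nat_lit 1368) (nat_lit 0) (XT.nd (nat_lit 78) (nat_lit 912) (nat_lit 0) (XT.lf (nat_lit 0) (nat_lit 37497417661) (nat_lit 608) (nat_lit 4855160435) (nat_lit 76) (nat_lit 31066562681) (nat_lit 195) (nat_lit 5) (nat_lit 203) (nat_lit 5) (nat_lit 196) (nat_lit 5) (nat_lit 408) (nat_lit 389)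 (nat_lit 223)) (XT.nd (nat_lit 78) (nat_lit 456) (nat_lit 0) (XT.lf (nat_lit 0) (nat_lit 55780398871) (nat_lit 532) (nat_lit 11996854661) (nat_lit 76) (nat_lit 7763815479) (nat_lit 189) (nat_lit 5) (nat_lit 196) (nat_lit 5) (nat_lit 190) (nat_lit 5) (nat_lit 409) (nat_lit 389) (nat_lit 222)) (XT.lf (nat_lit 0) (nat_lit 58407329019) (nat_lit 456) (nat_lit 17608028163) (nat_lit 532) (nat_lit 1722602055) (nat_lit 183) (nat_lit 5) (nat_lit 189) (nat_lit 5) (nat_lit 190) (nat_lit 5) (nat_lit 410) (nat_lit 389) (nat_lit 221)))) (XT.nd (nat_lit 78) (nat_lit 836) (nat_lit 0) (XT.lf (nat_lit 0) (nat_lit 17863114807) (nat_lit 532) (nat_lit 26950505284) (nat_lit 76) (nat_lit 35196657608) (nat_lit 176) (nat_lit 5) (nat_lit 183) (nat_lit 5) (nat_lit 177) (nat_lit 5) (nat_lit 411) (nat_lit 389) (nat_lit 220)) (XT.nd (nat_lit 78) (nat_lit 380) (nat_lit 0) (XT.lf (nat_lit 0) (nat_lit 39312237148) (nat_lit 532)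 (nat_lit 34635543557) (nat_lit 76) (nat_lit 8420327715) (nat_lit 170) (nat_lit 5) (nat_lit 177) (nat_lit 5) (nat_lit 171) (nat_lit 5) (nat_lit 412) (nat_lit 389) (nat_lit 219)) (XT.lf (nat_lit 0) (nat_lit 42244942256) (nat_lit 380) (nat_lit 20726026770) (nat_lit 456) (nat_lit 21838747401) (nat_lit 165) (nat_lit 5) (nat_lit 170) (nat_lit 5) (nat_lit 171) (nat_lit 5) (nat_lit 413) (nat_lit 389) (nat_lit 218))))))) (XT.nd (nat_lit 936) (nat_lit 532) (nat_lit 0) (XT.nd (nat_lit 468) (nat_lit 1596) (nat_lit 0) (XT.nd (nat_lit 234) (nat_lit 1064) (nat_lit 0) (XT.nd (nat_lit 78) (nat_lit 760) (nat_lit 0) (XT.lf (nat_lit 0) (nat_lit 1490512528) (nat_lit 456) (nat_lit 50653071638) (nat_lit 76) (nat_lit 35197898803) (nat_lit 159) (nat_lit 5) (nat_lit 165) (nat_lit 5) (nat_lit 160) (nat_lit 5) (nat_lit 414) (nat_lit 389) (nat_lit 217)) (XT.nd (nat_lit 78) (nat_lit 380) (nat_lit 0) (XT.lf (nat_lit 0) (nat_lit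 26530039193) (nat_lit 456) (nat_lit 59032171569) (nat_lit 76) (nat_lit 4401276753) (nat_lit 154) (nat_lit 5) (nat_lit 160) (nat_lit 5) (nat_lit 155) (nat_lit 5) (nat_lit 415) (nat_lit 389) (nat_lit 216)) (XT.lf (nat_lit 0) (nat_lit 24905244700) (nat_lit 380) (nat_lit 29207292656) (nat_lit 456) (nat_lit 38565325375) (nat_lit 149) (nat_lit 5) (nat_lit 154) (nat_lit 5) (nat_lit 155) (nat_lit 5) (nat_lit 416) (nat_lit 389) (nat_lit 215)))) (XT.nd (nat_lit 78) (nat_lit 760) (nat_lit 0) (XT.lf (nat_lit 0) (nat_lit 18835141061) (nat_lit 304) (nat_lit 65320563107) (nat_lit 380) (nat_lit 11339806510) (nat_lit 145) (nat_lit 5) (nat_lit 149) (nat_lit 5) (nat_lit 150) (nat_lit 5) (nat_lit 417) (nat_lit 389) (nat_lit 214)) (XT.nd (nat_lit 78) (nat_lit 304) (nat_lit 0) (XT.lf (nat_lit 0) (nat_lit 12531755231) (nat_lit 380) (nat_lit 5497282097) (nat_lit 456) (nat_lit 80386472299) (nat_lit 139) (nat_lit 5) (nat_lit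 144) (nat_lit 5) (nat_lit 145) (nat_lit 5) (nat_lit 418) (nat_lit 389) (nat_lit 213)) (XT.lf (nat_lit 0) (nat_lit 5765192649) (nat_lit 304) (nat_lit 44270948237) (nat_lit 380) (nat_lit 51399869363) (nat_lit 135) (nat_lit 5) (nat_lit 139) (nat_lit 5) (nat_lit 140) (nat_lit 5) (nat_lit 419) (nat_lit 389) (nat_lit 212))))) (XT.nd (nat_lit 234) (nat_lit 912) (nat_lit 0) (XT.nd (nat_lit 78) (nat_lit 684) (nat_lit 0) (XT.lf (nat_lit 0) (nat_lit 84765587478) (nat_lit 380) (nat_lit 1030431274) (nat_lit 76) (nat_lit 18777857750) (nat_lit 135) (nat_lit 5) (nat_lit 140) (nat_lit 5) (nat_lit 136) (nat_lit 5) (nat_lit 420) (nat_lit 389) (nat_lit 211)) (XT.nd (nat_lit 78) (nat_lit 304) (nat_lit 0) (XT.lf (nat_lit 0) (nat_lit 14521508352) (nat_lit 380) (nat_lit 8127029618) (nat_lit 76) (nat_lit 85173662882) (nat_lit 130) (nat_lit 5) (nat_lit 135) (nat_lit 5) (nat_lit 131) (nat_lit 5) (nat_lit 421) (nat_lit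 389) (nat_lit 210)) (XT.lf (nat_lit 0) (nat_lit 51524443508) (nat_lit 380) (nat_lit 15713835225) (nat_lit 76) (nat_lit 43947789833) (nat_lit 126) (nat_lit 5) (nat_lit 131) (nat_lit 5) (nat_lit 127) (nat_lit 5) (nat_lit 422) (nat_lit 389) (nat_lit 209)))) (XT.nd (nat_lit 78) (nat_lit 608) (nat_lit 0) (XT.lf (nat_lit 0) (nat_lit 91255409600) (nat_lit 304) (nat_lit 311365247) (nat_lit 380) (nat_lit 23115677534) (nat_lit 122) (nat_lit 5) (nat_lit 126) (nat_lit 5) (nat_lit 127) (nat_lit 5) (nat_lit 423) (nat_lit 389) (nat_lit 208)) (XT.nd (nat_lit 78) (nat_lit 304) (nat_lit 0) (XT.lf (nat_lit 0) (nat_lit 16643338507) (nat_lit 304) (nat_lit 31900565458) (nat_lit 76) (nat_lit 69754846616) (nat_lit 118) (nat_lit 5) (nat_lit 122) (nat_lit 5) (nat_lit 119) (nat_lit 5) (nat_lit 424) (nat_lit 389) (nat_lit 207)) (XT.lf (nat_lit 0) (nat_lit 59161948603) (nat_lit 380) (nat_lit 40809551710) (nat_lit 76) (nat_lit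 22080006182) (nat_lit 114) (nat_lit 5) (nat_lit 119) (nat_lit 5) (nat_lit 115) (nat_lit 5) (nat_lit 425) (nat_lit 389) (nat_lit 206)))))) (XT.nd (nat_lit 50622) (nat_lit 0) (nat_lit 11628) (XT.nd (nat_lit 50388) (nat_lit 0) (nat_lit 11476) (XT.nd (nat_lit 78) (nat_lit 304) (nat_lit 0) (XT.lf (nat_lit 0) (nat_lit 75708821388) (nat_lit 228) (nat_lit 29646074515) (nat_lit 304) (nat_lit 20590552266) (nat_lit 111) (nat_lit 5) (nat_lit 114) (nat_lit 5) (nat_lit 115) (nat_lit 5) (nat_lit 426) (nat_lit 389) (nat_lit 205)) (XT.nd (nat_lit 50232) (nat_lit 0) (nat_lit 11400) (XT.lf (nat_lit 0) (nat_lit 24892844644) (nat_lit 304) (nat_lit 60416228360) (nat_lit 76) (nat_lit 44672114282) (nat_lit 107) (nat_lit 5) (nat_lit 111) (nat_lit 5) (nat_lit 108) (nat_lit 5) (nat_lit 427) (nat_lit 389) (nat_lit 204)) (XT.lf (nat_lit 0) (nat_lit 7068126792) (nat_lit 1292) (nat_lit 8131880470) (nat_lit 1292) (nat_lit 8131880470)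 (nat_lit 257) (nat_lit 3) (nat_lit 274) (nat_lit 3) (nat_lit 274) (nat_lit 5) (nat_lit 390) (nat_lit 390) (nat_lit 240)))) (XT.nd (nat_lit 78) (nat_lit 0) (nat_lit 0) (XT.lf (nat_lit 0) (nat_lit 14818917669) (nat_lit 1216) (nat_lit 25932982451) (nat_lit 1292) (nat_lit 7068576017) (nat_lit 258) (nat_lit 5) (nat_lit 274) (nat_lit 5) (nat_lit 275) (nat_lit 5) (nat_lit 391) (nat_lit 390) (nat_lit 239)) (XT.nd (nat_lit 78) (nat_lit 0) (nat_lit 76) (XT.lf (nat_lit 76) (nat_lit 13203590228) (nat_lit 0) (nat_lit 2931829089) (nat_lit 1292) (nat_lit 32881602415) (nat_lit 259) (nat_lit 5) (nat_lit 258) (nat_lit 5) (nat_lit 275) (nat_lit 5) (nat_lit 392) (nat_lit 390) (nat_lit 238)) (XT.lf (nat_lit 76) (nat_lit 4299431657) (nat_lit 0) (nat_lit 13879803151) (nat_lit 1292) (nat_lit 32074316112) (nat_lit 260) (nat_lit 5) (nat_lit 259) (nat_lit 5) (nat_lit 276) (nat_lit 5) (nat_lit 393) (nat_lit 390) (nat_lit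 237))))) (XT.nd (nat_lit 234) (nat_lit 0) (nat_lit 152) (XT.nd (nat_lit 78) (nat_lit 0) (nat_lit 76) (XT.lf (nat_lit 0) (nat_lit 20974258619) (nat_lit 1216) (nat_lit 4659564331) (nat_lit 1292) (nat_lit 25898614017) (nat_lit 260) (nat_lit 5) (nat_lit 276) (nat_lit 5) (nat_lit 277) (nat_lit 5) (nat_lit 394) (nat_lit 390) (nat_lit 236)) (XT.nd (nat_lit 78) (nat_lit 0) (nat_lit 76) (XT.lf (nat_lit 0) (nat_lit 24567666410) (nat_lit 1216) (nat_lit 13677802833) (nat_lit 1292) (nat_lit 14610039975) (nat_lit 261) (nat_lit 5) (nat_lit 277) (nat_lit 5) (nat_lit 278) (nat_lit 5) (nat_lit 395) (nat_lit 390) (nat_lit 235)) (XT.lf (nat_lit 0) (nat_lit 28970982741) (nat_lit 1216) (nat_lit 22837350550) (nat_lit 1292) (nat_lit 2417495488) (nat_lit 262) (nat_lit 5) (nat_lit 278) (nat_lit 5) (nat_lit 279) (nat_lit 5) (nat_lit 396) (nat_lit 390) (nat_lit 234)))) (XT.nd (nat_lit 156) (nat_lit 0) (nat_lit 152) (XT.nd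 (nat_lit 78) (nat_lit 0) (nat_lit 76) (XT.lf (nat_lit 76) (nat_lit 23400847170) (nat_lit 0) (nat_lit 10944298337) (nat_lit 1292) (nat_lit 21296999193) (nat_lit 263) (nat_lit 5) (nat_lit 262) (nat_lit 5) (nat_lit 279) (nat_lit 5) (nat_lit 397) (nat_lit 390) (nat_lit 233)) (XT.lf (nat_lit 76) (nat_lit 15292953155) (nat_lit 0) (nat_lit 25384362053) (nat_lit 1292) (nat_lit 16431283008) (nat_lit 264) (nat_lit 5) (nat_lit 263) (nat_lit 5) (nat_lit 280) (nat_lit 5) (nat_lit 398) (nat_lit 390) (nat_lit 232))) (XT.nd (nat_lit 78) (nat_lit 0) (nat_lit 76) (XT.lf (nat_lit 76) (nat_lit 7093402879) (nat_lit 0) (nat_lit 40912885495) (nat_lit 1292) (nat_lit 10621680914) (nat_lit 265) (nat_lit 5) (nat_lit 264) (nat_lit 5) (nat_lit 281) (nat_lit 5) (nat_lit 399) (nat_lit 390) (nat_lit 231)) (XT.lf (nat_lit 0) (nat_lit 56409395942) (nat_lit 1216) (nat_lit 1169969229) (nat_lit 76) (nat_lit 2622713862) (nat_lit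 265) (nat_lit 5) (nat_lit 281) (nat_lit 5) (nat_lit 266) (nat_lit 5) (nat_lit 400) (nat_lit 390) (nat_lit 230))))))))
noncomputable def xc117 : XT := (XT.nd (nat_lit 1950) (nat_lit 532) (nat_lit 0) (XT.nd (nat_lit 936) (nat_lit 4408) (nat_lit 0) (XT.nd (nat_lit 468) (nat_lit 2508) (nat_lit 0) (XT.nd (nat_lit 234) (nat_lit 1672) (nat_lit 0) (XT.nd (nat_lit 78) (nat_lit 1292) (nat_lit 0) (XT.lf (nat_lit 0) (nat_lit 4234691568) (nat_lit 1292) (nat_lit 9549953539) (nat_lit 76) (nat_lit 48041590545) (nat_lit 248) (nat_lit 5) (nat_lit 265) (nat_lit 5) (nat_lit 249) (nat_lit 5) (nat_lit 401) (nat_lit 390) (nat_lit 229)) (XT.nd (nat_lit 78) (nat_lit 608) (nat_lit 0) (XT.lf (nat_lit 0) (nat_lit 13349940509) (nat_lit 760) (nat_lit 18090911424) (nat_lit 76) (nat_lit 32066673918) (nat_lit 239) (nat_lit 5) (nat_lit 249) (nat_lit 5) (nat_lit 240) (nat_lit 5) (nat_lit 402) (nat_lit 390) (nat_lit 228)) (XT.lf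 (nat_lit 0) (nat_lit 23674771564) (nat_lit 684) (nat_lit 26726307686) (nat_lit 76) (nat_lit 14849187300) (nat_lit 231) (nat_lit 5) (nat_lit 240) (nat_lit 5) (nat_lit 232) (nat_lit 5) (nat_lit 403) (nat_lit 390) (nat_lit 227)))) (XT.nd (nat_lit 78) (nat_lit 1064) (nat_lit 0) (XT.lf (nat_lit 0) (nat_lit 31568078416) (nat_lit 608) (nat_lit 3754776278) (nat_lit 684) (nat_lit 31733079828) (nat_lit 223) (nat_lit 5) (nat_lit 231) (nat_lit 5) (nat_lit 232) (nat_lit 5) (nat_lit 404) (nat_lit 390) (nat_lit 226)) (XT.nd (nat_lit 78) (nat_lit 532) (nat_lit 0) (XT.lf (nat_lit 0) (nat_lit 24429508183) (nat_lit 532) (nat_lit 24069448781) (nat_lit 608) (nat_lit 20424561006) (nat_lit 216) (nat_lit 5) (nat_lit 223) (nat_lit 5) (nat_lit 224) (nat_lit 5) (nat_lit 405) (nat_lit 390) (nat_lit 225)) (XT.lf (nat_lit 0) (nat_lit 17265095085) (nat_lit 532) (nat_lit 45879143988) (nat_lit 608) (nat_lit 7715930779) (nat_lit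 209) (nat_lit 5) (nat_lit 216) (nat_lit 5) (nat_lit 217) (nat_lit 5) (nat_lit 406) (nat_lit 390) (nat_lit 224))))) (XT.nd (nat_lit 234) (nat_lit 1444) (nat_lit 0) (XT.nd (nat_lit 78) (nat_lit 532) (nat_lit 0) (XT.lf (nat_lit 0) (nat_lit 6354705530) (nat_lit 532) (nat_lit 62849053618) (nat_lit 76) (nat_lit 3663180620) (nat_lit 202) (nat_lit 5) (nat_lit 209) (nat_lit 5) (nat_lit 203) (nat_lit 5) (nat_lit 407) (nat_lit 390) (nat_lit 223)) (XT.nd (nat_lit 78) (nat_lit 0) (nat_lit 0) (XT.lf (nat_lit 0) (nat_lit 2474058352) (nat_lit 532) (nat_lit 19539143074) (nat_lit 608) (nat_lit 52927238185) (nat_lit 195) (nat_lit 5) (nat_lit 202) (nat_lit 5) (nat_lit 203) (nat_lit 5) (nat_lit 408) (nat_lit 390) (nat_lit 222)) (XT.lf (nat_lit 0) (nat_lit 39419909825) (nat_lit 608) (nat_lit 5043159811) (nat_lit 76) (nat_lit 32625586599) (nat_lit 195) (nat_lit 5) (nat_lit 203) (nat_lit 5) (nat_lit 196) (nat_lit 5)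 (nat_lit 409) (nat_lit 390) (nat_lit 221)))) (XT.nd (nat_lit 78) (nat_lit 988) (nat_lit 0) (XT.lf (nat_lit 0) (nat_lit 58615354105) (nat_lit 532) (nat_lit 12542190525) (nat_lit 76) (nat_lit 8159187447) (nat_lit 189) (nat_lit 5) (nat_lit 196) (nat_lit 5) (nat_lit 190) (nat_lit 5) (nat_lit 410) (nat_lit 390) (nat_lit 220)) (XT.nd (nat_lit 78) (nat_lit 532) (nat_lit 0) (XT.lf (nat_lit 0) (nat_lit 61380639910) (nat_lit 456) (nat_lit 18479741961) (nat_lit 532) (nat_lit 1763135884) (nat_lit 183) (nat_lit 5) (nat_lit 189) (nat_lit 5) (nat_lit 190) (nat_lit 5) (nat_lit 411) (nat_lit 390) (nat_lit 219)) (XT.lf (nat_lit 0) (nat_lit 18799439596) (nat_lit 532) (nat_lit 28244513814) (nat_lit 76) (nat_lit 36965532248) (nat_lit 176) (nat_lit 5) (nat_lit 183) (nat_lit 5) (nat_lit 177) (nat_lit 5) (nat_lit 412) (nat_lit 390) (nat_lit 218)))))) (XT.nd (nat_lit 468) (nat_lit 2052) (nat_lit 0) (XT.nd (nat_lit 234)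 (nat_lit 1064) (nat_lit 0) (XT.nd (nat_lit 78) (nat_lit 836) (nat_lit 0) (XT.lf (nat_lit 0) (nat_lit 41319561753) (nat_lit 532) (nat_lit 36314178997) (nat_lit 76) (nat_lit 8851511370) (nat_lit 170) (nat_lit 5) (nat_lit 177) (nat_lit 5) (nat_lit 171) (nat_lit 5) (nat_lit 413) (nat_lit 390) (nat_lit 217)) (XT.nd (nat_lit 78) (nat_lit 456) (nat_lit 0) (XT.lf (nat_lit 0) (nat_lit 44408807810) (nat_lit 380) (nat_lit 21750932282) (nat_lit 456) (nat_lit 22889245632) (nat_lit 165) (nat_lit 5) (nat_lit 170) (nat_lit 5) (nat_lit 171) (nat_lit 5) (nat_lit 414) (nat_lit 390) (nat_lit 216)) (XT.lf (nat_lit 0) (nat_lit 1604336415) (nat_lit 456) (nat_lit 53133719946) (nat_lit 76) (nat_lit 36969312704) (nat_lit 159) (nat_lit 5) (nat_lit 165) (nat_lit 5) (nat_lit 160) (nat_lit 5) (nat_lit 415) (nat_lit 390) (nat_lit 215)))) (XT.nd (nat_lit 78) (nat_lit 684) (nat_lit 0) (XT.lf (nat_lit 0) (nat_lit 27894574783)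 (nat_lit 456) (nat_lit 61932240689) (nat_lit 76) (nat_lit 4633696740) (nat_lit 154) (nat_lit 5) (nat_lit 160) (nat_lit 5) (nat_lit 155) (nat_lit 5) (nat_lit 416) (nat_lit 390) (nat_lit 214)) (XT.nd (nat_lit 78) (nat_lit 304) (nat_lit 0) (XT.lf (nat_lit 0) (nat_lit 26200569026) (nat_lit 380) (nat_lit 30654298931) (nat_lit 456) (nat_lit 40455778542) (nat_lit 149) (nat_lit 5) (nat_lit 154) (nat_lit 5) (nat_lit 155) (nat_lit 5) (nat_lit 417) (nat_lit 390) (nat_lit 213)) (XT.lf (nat_lit 0) (nat_lit 19826478026) (nat_lit 304) (nat_lit 68572566172) (nat_lit 380) (nat_lit 11870167504) (nat_lit 145) (nat_lit 5) (nat_lit 149) (nat_lit 5) (nat_lit 150) (nat_lit 5) (nat_lit 418) (nat_lit 390) (nat_lit 212))))) (XT.nd (nat_lit 234) (nat_lit 1292) (nat_lit 0) (XT.nd (nat_lit 78) (nat_lit 304) (nat_lit 0) (XT.lf (nat_lit 0) (nat_lit 13207203404) (nat_lit 380) (nat_lit 5757959810) (nat_lit 456) (nat_lit 84370074402)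 (nat_lit 139) (nat_lit 5) (nat_lit 144) (nat_lit 5) (nat_lit 145) (nat_lit 5) (nat_lit 419) (nat_lit 390) (nat_lit 211)) (XT.nd (nat_lit 78) (nat_lit 0) (nat_lit 0) (XT.lf (nat_lit 0) (nat_lit 6101797125) (nat_lit 304) (nat_lit 46469768276) (nat_lit 380) (nat_lit 53935229911) (nat_lit 135) (nat_lit 5) (nat_lit 139) (nat_lit 5) (nat_lit 140) (nat_lit 5) (nat_lit 420) (nat_lit 390) (nat_lit 210)) (XT.lf (nat_lit 0) (nat_lit 89036018318) (nat_lit 380) (nat_lit 1035077862) (nat_lit 76) (nat_lit 19730503008) (nat_lit 135) (nat_lit 5) (nat_lit 140) (nat_lit 5) (nat_lit 136) (nat_lit 5) (nat_lit 421) (nat_lit 390) (nat_lit 209)))) (XT.nd (nat_lit 156) (nat_lit 608) (nat_lit 0) (XT.nd (nat_lit 78) (nat_lit 304) (nat_lit 0) (XT.lf (nat_lit 0) (nat_lit 15278955553) (nat_lit 380) (nat_lit 8487219327) (nat_lit 76) (nat_lit 89446188763) (nat_lit 130) (nat_lit 5) (nat_lit 135) (nat_lit 5) (nat_lit 131) (nat_lit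 5) (nat_lit 422) (nat_lit 390) (nat_lit 208)) (XT.lf (nat_lit 0) (nat_lit 54131114256) (nat_lit 380) (nat_lit 16453913025) (nat_lit 76) (nat_lit 46159425448) (nat_lit 126) (nat_lit 5) (nat_lit 131) (nat_lit 5) (nat_lit 127) (nat_lit 5) (nat_lit 423) (nat_lit 390) (nat_lit 207))) (XT.nd (nat_lit 78) (nat_lit 304) (nat_lit 0) (XT.lf (nat_lit 0) (nat_lit 95862486527) (nat_lit 304) (nat_lit 312051604) (nat_lit 380) (nat_lit 24241148602) (nat_lit 122) (nat_lit 5) (nat_lit 126) (nat_lit 5) (nat_lit 127) (nat_lit 5) (nat_lit 424) (nat_lit 390) (nat_lit 206)) (XT.lf (nat_lit 0) (nat_lit 17504373835) (nat_lit 304) (nat_lit 33451253816) (nat_lit 76) (nat_lit 73257189293) (nat_lit 118) (nat_lit 5) (nat_lit 122) (nat_lit 5) (nat_lit 119) (nat_lit 5) (nat_lit 425) (nat_lit 390) (nat_lit 205))))))) (XT.nd (nat_lit 51168) (nat_lit 0) (nat_lit 4940) (XT.nd (nat_lit 50700) (nat_lit 0) (nat_lit 11324) (XT.nd (nat_lit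 50466) (nat_lit 0) (nat_lit 11172) (XT.nd (nat_lit 78) (nat_lit 228) (nat_lit 0) (XT.lf (nat_lit 0) (nat_lit 62148099493) (nat_lit 380) (nat_lit 42806264011) (nat_lit 76) (nat_lit 23198871841) (nat_lit 114) (nat_lit 5) (nat_lit 119) (nat_lit 5) (nat_lit 115) (nat_lit 5) (nat_lit 426) (nat_lit 390) (nat_lit 204)) (XT.nd (nat_lit 50310) (nat_lit 0) (nat_lit 11096) (XT.lf (nat_lit 0) (nat_lit 79536773219) (nat_lit 228) (nat_lit 31112993701) (nat_lit 304) (nat_lit 21592135233) (nat_lit 111) (nat_lit 5) (nat_lit 114) (nat_lit 5) (nat_lit 115) (nat_lit 5) (nat_lit 427) (nat_lit 390) (nat_lit 203)) (XT.lf (nat_lit 0) (nat_lit 7469645907) (nat_lit 1292) (nat_lit 8513688547) (nat_lit 1292) (nat_lit 8513688547) (nat_lit 257) (nat_lit 3) (nat_lit 274) (nat_lit 3) (nat_lit 274) (nat_lit 5) (nat_lit 391) (nat_lit 391) (nat_lit 238)))) (XT.nd (nat_lit 78) (nat_lit 0) (nat_lit 0) (XT.lf (nat_lit 0) (nat_lit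 15651547265) (nat_lit 1216) (nat_lit 27178264963) (nat_lit 1292) (nat_lit 7378907233) (nat_lit 258) (nat_lit 5) (nat_lit 274) (nat_lit 5) (nat_lit 275) (nat_lit 5) (nat_lit 392) (nat_lit 391) (nat_lit 237)) (XT.nd (nat_lit 78) (nat_lit 0) (nat_lit 76) (XT.lf (nat_lit 76) (nat_lit 13913663936) (nat_lit 0) (nat_lit 3116323782) (nat_lit 1292) (nat_lit 34435222634) (nat_lit 259) (nat_lit 5) (nat_lit 258) (nat_lit 5) (nat_lit 275) (nat_lit 5) (nat_lit 393) (nat_lit 391) (nat_lit 236)) (XT.lf (nat_lit 76) (nat_lit 4565807283) (nat_lit 0) (nat_lit 14606152997) (nat_lit 1292) (nat_lit 33591728088) (nat_lit 260) (nat_lit 5) (nat_lit 259) (nat_lit 5) (nat_lit 276) (nat_lit 5) (nat_lit 394) (nat_lit 391) (nat_lit 235))))) (XT.nd (nat_lit 234) (nat_lit 0) (nat_lit 152) (XT.nd (nat_lit 78) (nat_lit 0) (nat_lit 76) (XT.lf (nat_lit 0) (nat_lit 22102450285) (nat_lit 1216) (nat_lit 4840870926) (nat_lit 1292)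 (nat_lit 27163327351) (nat_lit 260) (nat_lit 5) (nat_lit 276) (nat_lit 5) (nat_lit 277) (nat_lit 5) (nat_lit 395) (nat_lit 391) (nat_lit 234)) (XT.nd (nat_lit 78) (nat_lit 0) (nat_lit 76) (XT.lf (nat_lit 0) (nat_lit 25871976431) (nat_lit 1216) (nat_lit 14308942763) (nat_lit 1292) (nat_lit 15315063025) (nat_lit 261) (nat_lit 5) (nat_lit 277) (nat_lit 5) (nat_lit 278) (nat_lit 5) (nat_lit 396) (nat_lit 391) (nat_lit 233)) (XT.lf (nat_lit 0) (nat_lit 30492128253) (nat_lit 1216) (nat_lit 23925565045) (nat_lit 1292) (nat_lit 2517225544) (nat_lit 262) (nat_lit 5) (nat_lit 278) (nat_lit 5) (nat_lit 279) (nat_lit 5) (nat_lit 397) (nat_lit 391) (nat_lit 232)))) (XT.nd (nat_lit 78) (nat_lit 0) (nat_lit 76) (XT.lf (nat_lit 76) (nat_lit 24623004607) (nat_lit 0) (nat_lit 11509038541) (nat_lit 1292) (nat_lit 22290097210) (nat_lit 263) (nat_lit 5) (nat_lit 262) (nat_lit 5) (nat_lit 279) (nat_lit 5) (nat_lit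 398) (nat_lit 391) (nat_lit 231)) (XT.nd (nat_lit 78) (nat_lit 0) (nat_lit 76) (XT.lf (nat_lit 76) (nat_lit 16110436707) (nat_lit 0) (nat_lit 26667415869) (nat_lit 1292) (nat_lit 17184154102) (nat_lit 264) (nat_lit 5) (nat_lit 263) (nat_lit 5) (nat_lit 280) (nat_lit 5) (nat_lit 399) (nat_lit 391) (nat_lit 230)) (XT.lf (nat_lit 76) (nat_lit 7501487077) (nat_lit 0) (nat_lit 42968999270) (nat_lit 1292) (nat_lit 11086944613) (nat_lit 265) (nat_lit 5) (nat_lit 264) (nat_lit 5) (nat_lit 281) (nat_lit 5) (nat_lit 400) (nat_lit 391) (nat_lit 229)))))) (XT.nd (nat_lit 468) (nat_lit 3040) (nat_lit 0) (XT.nd (nat_lit 234) (nat_lit 1748) (nat_lit 0) (XT.nd (nat_lit 78) (nat_lit 1976) (nat_lit 0) (XT.lf (nat_lit 0) (nat_lit 59290611372) (nat_lit 1216) (nat_lit 1175656752) (nat_lit 76) (nat_lit 2744073171) (nat_lit 265) (nat_lit 5) (nat_lit 281) (nat_lit 5) (nat_lit 266) (nat_lit 5) (nat_lit 401) (nat_lit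 391) (nat_lit 228)) (XT.nd (nat_lit 78) (nat_lit 684) (nat_lit 0) (XT.lf (nat_lit 0) (nat_lit 4505367954) (nat_lit 1292) (nat_lit 9974963170) (nat_lit 76) (nat_lit 50435430191) (nat_lit 248) (nat_lit 5) (nat_lit 265) (nat_lit 5) (nat_lit 249) (nat_lit 5) (nat_lit 402) (nat_lit 391) (nat_lit 227)) (XT.lf (nat_lit 0) (nat_lit 14074008443) (nat_lit 760) (nat_lit 18942703511) (nat_lit 76) (nat_lit 33664476049) (nat_lit 239) (nat_lit 5) (nat_lit 249) (nat_lit 5) (nat_lit 240) (nat_lit 5) (nat_lit 403) (nat_lit 391) (nat_lit 226)))) (XT.nd (nat_lit 78) (nat_lit 1140) (nat_lit 0) (XT.lf (nat_lit 0) (nat_lit 24912849691) (nat_lit 684) (nat_lit 28009704390) (nat_lit 76) (nat_lit 15588579408) (nat_lit 231) (nat_lit 5) (nat_lit 240) (nat_lit 5) (nat_lit 232) (nat_lit 5) (nat_lit 404) (nat_lit 391) (nat_lit 225)) (XT.nd (nat_lit 78) (nat_lit 532) (nat_lit 0) (XT.lf (nat_lit 0) (nat_lit 33197884114) (nat_lit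 608) (nat_lit 3943359371) (nat_lit 684) (nat_lit 33265904950) (nat_lit 223) (nat_lit 5) (nat_lit 231) (nat_lit 5) (nat_lit 232) (nat_lit 5) (nat_lit 405) (nat_lit 391) (nat_lit 224)) (XT.lf (nat_lit 0) (nat_lit 25702457273) (nat_lit 532) (nat_lit 25271692755) (nat_lit 608) (nat_lit 21394021787) (nat_lit 216) (nat_lit 5) (nat_lit 223) (nat_lit 5) (nat_lit 224) (nat_lit 5) (nat_lit 406) (nat_lit 391) (nat_lit 223))))) (XT.nd (nat_lit 234) (nat_lit 1444) (nat_lit 0) (XT.nd (nat_lit 78) (nat_lit 1064) (nat_lit 0) (XT.lf (nat_lit 0) (nat_lit 18179814991) (nat_lit 532) (nat_lit 48169994582) (nat_lit 608) (nat_lit 8051904017) (nat_lit 209) (nat_lit 5) (nat_lit 216) (nat_lit 5) (nat_lit 217) (nat_lit 5) (nat_lit 407) (nat_lit 391) (nat_lit 222)) (XT.nd (nat_lit 78) (nat_lit 532) (nat_lit 0) (XT.lf (nat_lit 0) (nat_lit 6719493177) (nat_lit 532) (nat_lit 65939173248) (nat_lit 76) (nat_lit 3850195818) (nat_lit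 202) (nat_lit 5) (nat_lit 209) (nat_lit 5) (nat_lit 203) (nat_lit 5) (nat_lit 408) (nat_lit 391) (nat_lit 221)) (XT.lf (nat_lit 0) (nat_lit 2648594204) (nat_lit 532) (nat_lit 20510567713) (nat_lit 608) (nat_lit 55526928336) (nat_lit 195) (nat_lit 5) (nat_lit 202) (nat_lit 5) (nat_lit 203) (nat_lit 5) (nat_lit 409) (nat_lit 391) (nat_lit 220)))) (XT.nd (nat_lit 156) (nat_lit 988) (nat_lit 0) (XT.nd (nat_lit 78) (nat_lit 456) (nat_lit 0) (XT.lf (nat_lit 0) (nat_lit 41434099223) (nat_lit 608) (nat_lit 5245650095) (nat_lit 76) (nat_lit 34262032173) (nat_lit 195) (nat_lit 5) (nat_lit 203) (nat_lit 5) (nat_lit 196) (nat_lit 5) (nat_lit 410) (nat_lit 391) (nat_lit 219)) (XT.lf (nat_lit 0) (nat_lit 61587786473) (nat_lit 532) (nat_lit 13119860714) (nat_lit 76) (nat_lit 8573660374) (nat_lit 189) (nat_lit 5) (nat_lit 196) (nat_lit 5) (nat_lit 190) (nat_lit 5) (nat_lit 411) (nat_lit 391) (nat_lit 218)))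 (XT.nd (nat_lit 78) (nat_lit 532) (nat_lit 0) (XT.lf (nat_lit 0) (nat_lit 64497694074) (nat_lit 456) (nat_lit 19395849140) (nat_lit 532) (nat_lit 1809935513) (nat_lit 183) (nat_lit 5) (nat_lit 189) (nat_lit 5) (nat_lit 190) (nat_lit 5) (nat_lit 412) (nat_lit 391) (nat_lit 217)) (XT.lf (nat_lit 0) (nat_lit 19778567175) (nat_lit 532) (nat_lit 29608198249) (nat_lit 76) (nat_lit 38822010003) (nat_lit 176) (nat_lit 5) (nat_lit 183) (nat_lit 5) (nat_lit 177) (nat_lit 5) (nat_lit 413) (nat_lit 391) (nat_lit 216))))))))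
noncomputable def xc118 : XT := (XT.nd (nat_lit 52260) (nat_lit 0) (nat_lit 304) (XT.nd (nat_lit 936) (nat_lit 608) (nat_lit 0) (XT.nd (nat_lit 468) (nat_lit 1748) (nat_lit 0) (XT.nd (nat_lit 234) (nat_lit 1064) (nat_lit 0) (XT.nd (nat_lit 78) (nat_lit 836) (nat_lit 0) (XT.lf (nat_lit 0) (nat_lit 43423374533) (nat_lit 532) (nat_lit 38081686823) (nat_lit 76) (nat_lit 9303308953) (nat_lit 170) (nat_lit 5) (nat_lit 177) (nat_lit 5) (nat_lit 171) (nat_lit 5) (nat_lit 414) (nat_lit 391) (nat_lit 215)) (XT.nd (nat_lit 78) (nat_lit 456) (nat_lit 0) (XT.lf (nat_lit 0) (nat_lit 46676067648) (nat_lit 380) (nat_lit 22828142546) (nat_lit 456) (nat_lit 23996121393) (nat_lit 165) (nat_lit 5) (nat_lit 170) (nat_lit 5) (nat_lit 171) (nat_lit 5) (nat_lit 415) (nat_lit 391) (nat_lit 214)) (XT.lf (nat_lit 0) (nat_lit 1720197917) (nat_lit 456) (nat_lit 55743235627) (nat_lit 76) (nat_lit 38828226377) (nat_lit 159)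 (nat_lit 5) (nat_lit 165) (nat_lit 5) (nat_lit 160) (nat_lit 5) (nat_lit 416) (nat_lit 391) (nat_lit 213)))) (XT.nd (nat_lit 78) (nat_lit 684) (nat_lit 0) (XT.lf (nat_lit 0) (nat_lit 29323801147) (nat_lit 456) (nat_lit 64982104915) (nat_lit 76) (nat_lit 4876588969) (nat_lit 154) (nat_lit 5) (nat_lit 160) (nat_lit 5) (nat_lit 155) (nat_lit 5) (nat_lit 417) (nat_lit 391) (nat_lit 212)) (XT.nd (nat_lit 78) (nat_lit 304) (nat_lit 0) (XT.lf (nat_lit 0) (nat_lit 27556005269) (nat_lit 380) (nat_lit 32174897454) (nat_lit 456) (nat_lit 42444269871) (nat_lit 149) (nat_lit 5) (nat_lit 154) (nat_lit 5) (nat_lit 155) (nat_lit 5) (nat_lit 418) (nat_lit 391) (nat_lit 211)) (XT.lf (nat_lit 0) (nat_lit 20862772370) (nat_lit 304) (nat_lit 71988473311) (nat_lit 380) (nat_lit 12430451996) (nat_lit 145) (nat_lit 5) (nat_lit 149) (nat_lit 5) (nat_lit 150) (nat_lit 5) (nat_lit 419) (nat_lit 391) (nat_lit 210))))) (XT.nd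 (nat_lit 234) (nat_lit 988) (nat_lit 0) (XT.nd (nat_lit 78) (nat_lit 304) (nat_lit 0) (XT.lf (nat_lit 0) (nat_lit 13911881408) (nat_lit 380) (nat_lit 6032990325) (nat_lit 456) (nat_lit 88556177658) (nat_lit 139) (nat_lit 5) (nat_lit 144) (nat_lit 5) (nat_lit 145) (nat_lit 5) (nat_lit 420) (nat_lit 391) (nat_lit 209)) (XT.nd (nat_lit 78) (nat_lit 0) (nat_lit 0) (XT.lf (nat_lit 0) (nat_lit 6450737180) (nat_lit 304) (nat_lit 48779898529) (nat_lit 380) (nat_lit 56600578327) (nat_lit 135) (nat_lit 5) (nat_lit 139) (nat_lit 5) (nat_lit 140) (nat_lit 5) (nat_lit 421) (nat_lit 391) (nat_lit 208)) (XT.lf (nat_lit 0) (nat_lit 93516981562) (nat_lit 380) (nat_lit 1044314770) (nat_lit 76) (nat_lit 20729501964) (nat_lit 135) (nat_lit 5) (nat_lit 140) (nat_lit 5) (nat_lit 136) (nat_lit 5) (nat_lit 422) (nat_lit 391) (nat_lit 207)))) (XT.nd (nat_lit 78) (nat_lit 608) (nat_lit 0) (XT.lf (nat_lit 0) (nat_lit 16071358463)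 (nat_lit 380) (nat_lit 8869710205) (nat_lit 76) (nat_lit 93931053972) (nat_lit 130) (nat_lit 5) (nat_lit 135) (nat_lit 5) (nat_lit 131) (nat_lit 5) (nat_lit 423) (nat_lit 391) (nat_lit 206)) (XT.nd (nat_lit 78) (nat_lit 304) (nat_lit 0) (XT.lf (nat_lit 0) (nat_lit 56865287722) (nat_lit 380) (nat_lit 17235235468) (nat_lit 76) (nat_lit 48480318375) (nat_lit 126) (nat_lit 5) (nat_lit 131) (nat_lit 5) (nat_lit 127) (nat_lit 5) (nat_lit 424) (nat_lit 391) (nat_lit 205)) (XT.lf (nat_lit 0) (nat_lit 100695798106) (nat_lit 304) (nat_lit 314155857) (nat_lit 380) (nat_lit 25425711421) (nat_lit 122) (nat_lit 5) (nat_lit 126) (nat_lit 5) (nat_lit 127) (nat_lit 5) (nat_lit 425) (nat_lit 391) (nat_lit 204)))))) (XT.nd (nat_lit 50778) (nat_lit 0) (nat_lit 11096) (XT.nd (nat_lit 50544) (nat_lit 0) (nat_lit 10944) (XT.nd (nat_lit 78) (nat_lit 304) (nat_lit 0) (XT.lf (nat_lit 0) (nat_lit 18405777019) (nat_lit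 304) (nat_lit 35083598896) (nat_lit 76) (nat_lit 76933291702) (nat_lit 118) (nat_lit 5) (nat_lit 122) (nat_lit 5) (nat_lit 119) (nat_lit 5) (nat_lit 426) (nat_lit 391) (nat_lit 203)) (XT.nd (nat_lit 50388) (nat_lit 0) (nat_lit 10868) (XT.lf (nat_lit 0) (nat_lit 65280949784) (nat_lit 380) (nat_lit 44906880808) (nat_lit 76) (nat_lit 24372298743) (nat_lit 114) (nat_lit 5) (nat_lit 119) (nat_lit 5) (nat_lit 115) (nat_lit 5) (nat_lit 427) (nat_lit 391) (nat_lit 202)) (XT.lf (nat_lit 0) (nat_lit 7886767908) (nat_lit 1292) (nat_lit 8916891390) (nat_lit 1292) (nat_lit 8916891390) (nat_lit 257) (nat_lit 3) (nat_lit 274) (nat_lit 3) (nat_lit 274) (nat_lit 5) (nat_lit 392) (nat_lit 392) (nat_lit 236)))) (XT.nd (nat_lit 78) (nat_lit 0) (nat_lit 0) (XT.lf (nat_lit 0) (nat_lit 16517284457) (nat_lit 1216) (nat_lit 28490587182) (nat_lit 1292) (nat_lit 7708761814) (nat_lit 258) (nat_lit 5) (nat_lit 274) (nat_lit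 5) (nat_lit 275) (nat_lit 5) (nat_lit 393) (nat_lit 392) (nat_lit 235)) (XT.nd (nat_lit 78) (nat_lit 0) (nat_lit 76) (XT.lf (nat_lit 76) (nat_lit 14654602640) (nat_lit 0) (nat_lit 3306519325) (nat_lit 1292) (nat_lit 36074933967) (nat_lit 259) (nat_lit 5) (nat_lit 258) (nat_lit 5) (nat_lit 275) (nat_lit 5) (nat_lit 394) (nat_lit 392) (nat_lit 234)) (XT.lf (nat_lit 76) (nat_lit 4840722630) (nat_lit 0) (nat_lit 15365811839) (nat_lit 1292) (nat_lit 35193034374) (nat_lit 260) (nat_lit 5) (nat_lit 259) (nat_lit 5) (nat_lit 276) (nat_lit 5) (nat_lit 395) (nat_lit 392) (nat_lit 233))))) (XT.nd (nat_lit 234) (nat_lit 0) (nat_lit 152) (XT.nd (nat_lit 78) (nat_lit 0) (nat_lit 76) (XT.lf (nat_lit 0) (nat_lit 23279662354) (nat_lit 1216) (nat_lit 5036046789) (nat_lit 1292) (nat_lit 28494085677) (nat_lit 260) (nat_lit 5) (nat_lit 276) (nat_lit 5) (nat_lit 277) (nat_lit 5) (nat_lit 396) (nat_lit 392) (nat_lit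 232)) (XT.nd (nat_lit 78) (nat_lit 0) (nat_lit 76) (XT.lf (nat_lit 0) (nat_lit 27234443009) (nat_lit 1216) (nat_lit 14976543905) (nat_lit 1292) (nat_lit 16057706019) (nat_lit 261) (nat_lit 5) (nat_lit 277) (nat_lit 5) (nat_lit 278) (nat_lit 5) (nat_lit 397) (nat_lit 392) (nat_lit 231)) (XT.lf (nat_lit 0) (nat_lit 32082581717) (nat_lit 1216) (nat_lit 25073178415) (nat_lit 1292) (nat_lit 2623907939) (nat_lit 262) (nat_lit 5) (nat_lit 278) (nat_lit 5) (nat_lit 279) (nat_lit 5) (nat_lit 398) (nat_lit 392) (nat_lit 230)))) (XT.nd (nat_lit 156) (nat_lit 0) (nat_lit 152) (XT.nd (nat_lit 78) (nat_lit 0) (nat_lit 76) (XT.lf (nat_lit 76) (nat_lit 25901424750) (nat_lit 0) (nat_lit 12100386421) (nat_lit 1292) (nat_lit 23339520943) (nat_lit 263) (nat_lit 5) (nat_lit 262) (nat_lit 5) (nat_lit 279) (nat_lit 5) (nat_lit 399) (nat_lit 392) (nat_lit 229)) (XT.lf (nat_lit 76) (nat_lit 16963882256) (nat_lit 0) (nat_lit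 28013336063) (nat_lit 1292) (nat_lit 17981055180) (nat_lit 264) (nat_lit 5) (nat_lit 263) (nat_lit 5) (nat_lit 280) (nat_lit 5) (nat_lit 400) (nat_lit 392) (nat_lit 228))) (XT.nd (nat_lit 78) (nat_lit 0) (nat_lit 76) (XT.lf (nat_lit 76) (nat_lit 7925009551) (nat_lit 0) (nat_lit 45126945379) (nat_lit 1292) (nat_lit 11581590849) (nat_lit 265) (nat_lit 5) (nat_lit 264) (nat_lit 5) (nat_lit 281) (nat_lit 5) (nat_lit 401) (nat_lit 392) (nat_lit 227)) (XT.lf (nat_lit 0) (nat_lit 62310240020) (nat_lit 1216) (nat_lit 1186538512) (nat_lit 76) (nat_lit 2872409362) (nat_lit 265) (nat_lit 5) (nat_lit 281) (nat_lit 5) (nat_lit 266) (nat_lit 5) (nat_lit 402) (nat_lit 392) (nat_lit 226))))))) (XT.nd (nat_lit 936) (nat_lit 4408) (nat_lit 0) (XT.nd (nat_lit 468) (nat_lit 2508) (nat_lit 0) (XT.nd (nat_lit 234) (nat_lit 1672) (nat_lit 0) (XT.nd (nat_lit 78) (nat_lit 1292) (nat_lit 0) (XT.lf (nat_lit 0) (nat_lit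 4784098310) (nat_lit 1292) (nat_lit 10426103124) (nat_lit 76) (nat_lit 52949727886) (nat_lit 248) (nat_lit 5) (nat_lit 265) (nat_lit 5) (nat_lit 249) (nat_lit 5) (nat_lit 403) (nat_lit 392) (nat_lit 225)) (XT.nd (nat_lit 78) (nat_lit 608) (nat_lit 0) (XT.lf (nat_lit 0) (nat_lit 14829020347) (nat_lit 760) (nat_lit 19841989720) (nat_lit 76) (nat_lit 35342682559) (nat_lit 239) (nat_lit 5) (nat_lit 249) (nat_lit 5) (nat_lit 240) (nat_lit 5) (nat_lit 404) (nat_lit 392) (nat_lit 224)) (XT.lf (nat_lit 0) (nat_lit 26207779747) (nat_lit 684) (nat_lit 29362190806) (nat_lit 76) (nat_lit 16365226285) (nat_lit 231) (nat_lit 5) (nat_lit 240) (nat_lit 5) (nat_lit 232) (nat_lit 5) (nat_lit 405) (nat_lit 392) (nat_lit 223)))) (XT.nd (nat_lit 78) (nat_lit 1064) (nat_lit 0) (XT.lf (nat_lit 0) (nat_lit 34904401247) (nat_lit 608) (nat_lit 4141293125) (nat_lit 684) (nat_lit 34880375827) (nat_lit 223) (nat_lit 5) (nat_lit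 231) (nat_lit 5) (nat_lit 232) (nat_lit 5) (nat_lit 406) (nat_lit 392) (nat_lit 222)) (XT.nd (nat_lit 78) (nat_lit 532) (nat_lit 0) (XT.lf (nat_lit 0) (nat_lit 27034268283) (nat_lit 532) (nat_lit 26534163138) (nat_lit 608) (nat_lit 22416768438) (nat_lit 216) (nat_lit 5) (nat_lit 223) (nat_lit 5) (nat_lit 224) (nat_lit 5) (nat_lit 407) (nat_lit 392) (nat_lit 221)) (XT.lf (nat_lit 0) (nat_lit 19135486151) (nat_lit 532) (nat_lit 50575676529) (nat_lit 608) (nat_lit 8409308016) (nat_lit 209) (nat_lit 5) (nat_lit 216) (nat_lit 5) (nat_lit 217) (nat_lit 5) (nat_lit 408) (nat_lit 392) (nat_lit 220))))) (XT.nd (nat_lit 234) (nat_lit 1444) (nat_lit 0) (XT.nd (nat_lit 78) (nat_lit 532) (nat_lit 0) (XT.lf (nat_lit 0) (nat_lit 7098145724) (nat_lit 532) (nat_lit 69188664291) (nat_lit 76) (nat_lit 4046203265) (nat_lit 202) (nat_lit 5) (nat_lit 209) (nat_lit 5) (nat_lit 203) (nat_lit 5) (nat_lit 409) (nat_lit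 392) (nat_lit 219)) (XT.nd (nat_lit 78) (nat_lit 0) (nat_lit 0) (XT.lf (nat_lit 0) (nat_lit 2827130884) (nat_lit 532) (nat_lit 21531077944) (nat_lit 608) (nat_lit 58260942093) (nat_lit 195) (nat_lit 5) (nat_lit 202) (nat_lit 5) (nat_lit 203) (nat_lit 5) (nat_lit 410) (nat_lit 392) (nat_lit 218)) (XT.lf (nat_lit 0) (nat_lit 43544982330) (nat_lit 608) (nat_lit 5462882527) (nat_lit 76) (nat_lit 35979819717) (nat_lit 195) (nat_lit 5) (nat_lit 203) (nat_lit 5) (nat_lit 196) (nat_lit 5) (nat_lit 411) (nat_lit 392) (nat_lit 217)))) (XT.nd (nat_lit 78) (nat_lit 988) (nat_lit 0) (XT.lf (nat_lit 0) (nat_lit 64704966874) (nat_lit 532) (nat_lit 13731010814) (nat_lit 76) (nat_lit 9008251378) (nat_lit 189) (nat_lit 5) (nat_lit 196) (nat_lit 5) (nat_lit 190) (nat_lit 5) (nat_lit 412) (nat_lit 392) (nat_lit 216)) (XT.nd (nat_lit 78) (nat_lit 532) (nat_lit 0) (XT.lf (nat_lit 0) (nat_lit 67766136300) (nat_lit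 456) (nat_lit 20358494278) (nat_lit 532) (nat_lit 1862920122) (nat_lit 183) (nat_lit 5) (nat_lit 189) (nat_lit 5) (nat_lit 190) (nat_lit 5) (nat_lit 413) (nat_lit 392) (nat_lit 215)) (XT.lf (nat_lit 0) (nat_lit 20803010817) (nat_lit 532) (nat_lit 31044579811) (nat_lit 76) (nat_lit 40770549182) (nat_lit 176) (nat_lit 5) (nat_lit 183) (nat_lit 5) (nat_lit 177) (nat_lit 5) (nat_lit 414) (nat_lit 392) (nat_lit 214)))))) (XT.nd (nat_lit 468) (nat_lit 2052) (nat_lit 0) (XT.nd (nat_lit 234) (nat_lit 1064) (nat_lit 0) (XT.nd (nat_lit 78) (nat_lit 836) (nat_lit 0) (XT.lf (nat_lit 0) (nat_lit 45628860441) (nat_lit 532) (nat_lit 39942051325) (nat_lit 76) (nat_lit 9776839039) (nat_lit 170) (nat_lit 5) (nat_lit 177) (nat_lit 5) (nat_lit 171) (nat_lit 5) (nat_lit 415) (nat_lit 392) (nat_lit 213)) (XT.nd (nat_lit 78) (nat_lit 456) (nat_lit 0) (XT.lf (nat_lit 0) (nat_lit 49052337650) (nat_lit 380) (nat_lit 23960174299)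 (nat_lit 456) (nat_lit 25161835381) (nat_lit 165) (nat_lit 5) (nat_lit 170) (nat_lit 5) (nat_lit 171) (nat_lit 5) (nat_lit 416) (nat_lit 392) (nat_lit 212)) (XT.lf (nat_lit 0) (nat_lit 1838538590) (nat_lit 456) (nat_lit 58487612541) (nat_lit 76) (nat_lit 40779114374) (nat_lit 159) (nat_lit 5) (nat_lit 165) (nat_lit 5) (nat_lit 160) (nat_lit 5) (nat_lit 417) (nat_lit 392) (nat_lit 211)))) (XT.nd (nat_lit 78) (nat_lit 684) (nat_lit 0) (XT.lf (nat_lit 0) (nat_lit 30821281566) (nat_lit 456) (nat_lit 68188808521) (nat_lit 76) (nat_lit 5130583852) (nat_lit 154) (nat_lit 5) (nat_lit 160) (nat_lit 5) (nat_lit 155) (nat_lit 5) (nat_lit 418) (nat_lit 392) (nat_lit 210)) (XT.nd (nat_lit 78) (nat_lit 304) (nat_lit 0) (XT.lf (nat_lit 0) (nat_lit 28974991739) (nat_lit 380) (nat_lit 33772652372) (nat_lit 456) (nat_lit 44535374432) (nat_lit 149) (nat_lit 5) (nat_lit 154) (nat_lit 5) (nat_lit 155) (nat_lit 5)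 (nat_lit 419) (nat_lit 392) (nat_lit 209)) (XT.lf (nat_lit 0) (nat_lit 21946700505) (nat_lit 304) (nat_lit 75576358501) (nat_lit 380) (nat_lit 13021839555) (nat_lit 145) (nat_lit 5) (nat_lit 149) (nat_lit 5) (nat_lit 150) (nat_lit 5) (nat_lit 420) (nat_lit 392) (nat_lit 208))))) (XT.nd (nat_lit 234) (nat_lit 1292) (nat_lit 0) (XT.nd (nat_lit 78) (nat_lit 304) (nat_lit 0) (XT.lf (nat_lit 0) (nat_lit 14647673060) (nat_lit 380) (nat_lit 6322968662) (nat_lit 456) (nat_lit 92954598365) (nat_lit 139) (nat_lit 5) (nat_lit 144) (nat_lit 5) (nat_lit 145) (nat_lit 5) (nat_lit 421) (nat_lit 392) (nat_lit 207)) (XT.nd (nat_lit 78) (nat_lit 0) (nat_lit 0) (XT.lf (nat_lit 0) (nat_lit 6813047461) (nat_lit 304) (nat_lit 51206777209) (nat_lit 380) (nat_lit 59402114654) (nat_lit 135) (nat_lit 5) (nat_lit 139) (nat_lit 5) (nat_lit 140) (nat_lit 5) (nat_lit 422) (nat_lit 392) (nat_lit 206)) (XT.lf (nat_lit 0) (nat_lit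 98219281731) (nat_lit 380) (nat_lit 1057966350) (nat_lit 76) (nat_lit 21777291171) (nat_lit 135) (nat_lit 5) (nat_lit 140) (nat_lit 5) (nat_lit 136) (nat_lit 5) (nat_lit 423) (nat_lit 392) (nat_lit 205)))) (XT.nd (nat_lit 156) (nat_lit 608) (nat_lit 0) (XT.nd (nat_lit 78) (nat_lit 304) (nat_lit 0) (XT.lf (nat_lit 0) (nat_lit 16900736030) (nat_lit 380) (nat_lit 9275218311) (nat_lit 76) (nat_lit 98638995125) (nat_lit 130) (nat_lit 5) (nat_lit 135) (nat_lit 5) (nat_lit 131) (nat_lit 5) (nat_lit 424) (nat_lit 392) (nat_lit 204)) (XT.lf (nat_lit 0) (nat_lit 59733602224) (nat_lit 380) (nat_lit 18059470523) (nat_lit 76) (nat_lit 50916054615) (nat_lit 126) (nat_lit 5) (nat_lit 131) (nat_lit 5) (nat_lit 127) (nat_lit 5) (nat_lit 425) (nat_lit 392) (nat_lit 203))) (XT.nd (nat_lit 78) (nat_lit 304) (nat_lit 0) (XT.lf (nat_lit 0) (nat_lit 105767039035) (nat_lit 304) (nat_lit 317620270) (nat_lit 380) (nat_lit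 26672058569) (nat_lit 122) (nat_lit 5) (nat_lit 126) (nat_lit 5) (nat_lit 127) (nat_lit 5) (nat_lit 426) (nat_lit 392) (nat_lit 202)) (XT.lf (nat_lit 0) (nat_lit 19349815977) (nat_lit 304) (nat_lit 36801300283) (nat_lit 76) (nat_lit 80791968027) (nat_lit 118) (nat_lit 5) (nat_lit 122) (nat_lit 5) (nat_lit 119) (nat_lit 5) (nat_lit 427) (nat_lit 392) (nat_lit 201))))))))
noncomputable def xc119 : XT := (XT.nd (nat_lit 1950) (nat_lit 2964) (nat_lit 0) (XT.nd (nat_lit 936) (nat_lit 6308) (nat_lit 0) (XT.nd (nat_lit 468) (nat_lit 684) (nat_lit 0) (XT.nd (nat_lit 234) (nat_lit 0) (nat_lit 152) (XT.nd (nat_lit 78) (nat_lit 0) (nat_lit 76) (XT.lf (nat_lit 0) (nat_lit 8320688802) (nat_lit 1292) (nat_lit 9342344500) (nat_lit 1292) (nat_lit 9342344500) (nat_lit 257) (nat_lit 3) (nat_lit 274) (nat_lit 3) (nat_lit 274) (nat_lit 5) (nat_lit 393) (nat_lit 393) (nat_lit 234)) (XT.nd (nat_lit 78) (nat_lit 0)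 (nat_lit 0) (XT.lf (nat_lit 0) (nat_lit 17418577097) (nat_lit 1216) (nat_lit 29872857104) (nat_lit 1292) (nat_lit 8058743414) (nat_lit 258) (nat_lit 5) (nat_lit 274) (nat_lit 5) (nat_lit 275) (nat_lit 5) (nat_lit 394) (nat_lit 393) (nat_lit 233)) (XT.lf (nat_lit 76) (nat_lit 15428380851) (nat_lit 0) (nat_lit 3503028379) (nat_lit 1292) (nat_lit 37804259080) (nat_lit 259) (nat_lit 5) (nat_lit 258) (nat_lit 5) (nat_lit 275) (nat_lit 5) (nat_lit 395) (nat_lit 393) (nat_lit 232)))) (XT.nd (nat_lit 78) (nat_lit 0) (nat_lit 76) (XT.lf (nat_lit 76) (nat_lit 5125048995) (nat_lit 0) (nat_lit 16160724827) (nat_lit 1292) (nat_lit 36881683719) (nat_lit 260) (nat_lit 5) (nat_lit 259) (nat_lit 5) (nat_lit 276) (nat_lit 5) (nat_lit 396) (nat_lit 393) (nat_lit 231)) (XT.nd (nat_lit 78) (nat_lit 0) (nat_lit 76) (XT.lf (nat_lit 0) (nat_lit 24509032823) (nat_lit 1216) (nat_lit 5245338758) (nat_lit 1292) (nat_lit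 29893930058) (nat_lit 260) (nat_lit 5) (nat_lit 276) (nat_lit 5) (nat_lit 277) (nat_lit 5) (nat_lit 397) (nat_lit 393) (nat_lit 230)) (XT.lf (nat_lit 0) (nat_lit 28658630243) (nat_lit 1216) (nat_lit 15681973371) (nat_lit 1292) (nat_lit 16839629725) (nat_lit 261) (nat_lit 5) (nat_lit 277) (nat_lit 5) (nat_lit 278) (nat_lit 5) (nat_lit 398) (nat_lit 393) (nat_lit 229))))) (XT.nd (nat_lit 234) (nat_lit 1064) (nat_lit 0) (XT.nd (nat_lit 78) (nat_lit 0) (nat_lit 0) (XT.lf (nat_lit 0) (nat_lit 33746436020) (nat_lit 1216) (nat_lit 26282696854) (nat_lit 1292) (nat_lit 2737707525) (nat_lit 262) (nat_lit 5) (nat_lit 278) (nat_lit 5) (nat_lit 279) (nat_lit 5) (nat_lit 399) (nat_lit 393) (nat_lit 228)) (XT.nd (nat_lit 78) (nat_lit 0) (nat_lit 76) (XT.lf (nat_lit 76) (nat_lit 27239371192) (nat_lit 0) (nat_lit 12719823839) (nat_lit 1292) (nat_lit 24447466489) (nat_lit 263) (nat_lit 5) (nat_lit 262) (nat_lit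 5) (nat_lit 279) (nat_lit 5) (nat_lit 400) (nat_lit 393) (nat_lit 227)) (XT.lf (nat_lit 76) (nat_lit 17855544590) (nat_lit 0) (nat_lit 29425385542) (nat_lit 1292) (nat_lit 18823593992) (nat_lit 264) (nat_lit 5) (nat_lit 263) (nat_lit 5) (nat_lit 280) (nat_lit 5) (nat_lit 401) (nat_lit 393) (nat_lit 226)))) (XT.nd (nat_lit 78) (nat_lit 1216) (nat_lit 0) (XT.lf (nat_lit 76) (nat_lit 8365203903) (nat_lit 0) (nat_lit 47391905932) (nat_lit 1292) (nat_lit 12106519829) (nat_lit 265) (nat_lit 5) (nat_lit 264) (nat_lit 5) (nat_lit 281) (nat_lit 5) (nat_lit 402) (nat_lit 393) (nat_lit 225)) (XT.nd (nat_lit 78) (nat_lit 1292) (nat_lit 0) (XT.lf (nat_lit 0) (nat_lit 65475727603) (nat_lit 1216) (nat_lit 1202417748) (nat_lit 76) (nat_lit 3007986775) (nat_lit 265) (nat_lit 5) (nat_lit 281) (nat_lit 5) (nat_lit 266) (nat_lit 5) (nat_lit 403) (nat_lit 393) (nat_lit 224)) (XT.lf (nat_lit 0) (nat_lit 5071794797)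 (nat_lit 1292) (nat_lit 10904226236) (nat_lit 76) (nat_lit 55590435309) (nat_lit 248) (nat_lit 5) (nat_lit 265) (nat_lit 5) (nat_lit 249) (nat_lit 5) (nat_lit 404) (nat_lit 393) (nat_lit 223)))))) (XT.nd (nat_lit 468) (nat_lit 2812) (nat_lit 0) (XT.nd (nat_lit 234) (nat_lit 1596) (nat_lit 0) (XT.nd (nat_lit 78) (nat_lit 1216) (nat_lit 0) (XT.lf (nat_lit 0) (nat_lit 15617012391) (nat_lit 760) (nat_lit 20790688783) (nat_lit 76) (nat_lit 37105265855) (nat_lit 239) (nat_lit 5) (nat_lit 249) (nat_lit 5) (nat_lit 240) (nat_lit 5) (nat_lit 405) (nat_lit 393) (nat_lit 222)) (XT.nd (nat_lit 78) (nat_lit 608) (nat_lit 0) (XT.lf (nat_lit 0) (nat_lit 27562874015) (nat_lit 684) (nat_lit 30786764017) (nat_lit 76) (nat_lit 17180964159) (nat_lit 231) (nat_lit 5) (nat_lit 240) (nat_lit 5) (nat_lit 232) (nat_lit 5) (nat_lit 406) (nat_lit 393) (nat_lit 221)) (XT.lf (nat_lit 0) (nat_lit 36691909678) (nat_lit 608)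 (nat_lit 4349052371) (nat_lit 684) (nat_lit 36580109474) (nat_lit 223) (nat_lit 5) (nat_lit 231) (nat_lit 5) (nat_lit 232) (nat_lit 5) (nat_lit 407) (nat_lit 393) (nat_lit 220)))) (XT.nd (nat_lit 78) (nat_lit 1064) (nat_lit 0) (XT.lf (nat_lit 0) (nat_lit 28428329222) (nat_lit 532) (nat_lit 27859860634) (nat_lit 608) (nat_lit 23495017800) (nat_lit 216) (nat_lit 5) (nat_lit 223) (nat_lit 5) (nat_lit 224) (nat_lit 5) (nat_lit 408) (nat_lit 393) (nat_lit 219)) (XT.nd (nat_lit 78) (nat_lit 532) (nat_lit 0) (XT.lf (nat_lit 0) (nat_lit 20134600966) (nat_lit 532) (nat_lit 53101904544) (nat_lit 608) (nat_lit 8788783664) (nat_lit 209) (nat_lit 5) (nat_lit 216) (nat_lit 5) (nat_lit 217) (nat_lit 5) (nat_lit 409) (nat_lit 393) (nat_lit 218)) (XT.lf (nat_lit 0) (nat_lit 7491763112) (nat_lit 532) (nat_lit 72605042975) (nat_lit 76) (nat_lit 4251685906) (nat_lit 202) (nat_lit 5) (nat_lit 209) (nat_lit 5) (nat_lit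 203) (nat_lit 5) (nat_lit 410) (nat_lit 393) (nat_lit 217))))) (XT.nd (nat_lit 234) (nat_lit 1824) (nat_lit 0) (XT.nd (nat_lit 78) (nat_lit 456) (nat_lit 0) (XT.lf (nat_lit 0) (nat_lit 3010307810) (nat_lit 532) (nat_lit 22603080227) (nat_lit 608) (nat_lit 61135592226) (nat_lit 195) (nat_lit 5) (nat_lit 202) (nat_lit 5) (nat_lit 203) (nat_lit 5) (nat_lit 411) (nat_lit 393) (nat_lit 216)) (XT.nd (nat_lit 78) (nat_lit 456) (nat_lit 0) (XT.lf (nat_lit 0) (nat_lit 45757767180) (nat_lit 608) (nat_lit 5695164908) (nat_lit 76) (nat_lit 37783060984) (nat_lit 195) (nat_lit 5) (nat_lit 203) (nat_lit 5) (nat_lit 196) (nat_lit 5) (nat_lit 412) (nat_lit 393) (nat_lit 215)) (XT.lf (nat_lit 0) (nat_lit 67974492838) (nat_lit 532) (nat_lit 14376887490) (nat_lit 76) (nat_lit 9464022665) (nat_lit 189) (nat_lit 5) (nat_lit 196) (nat_lit 5) (nat_lit 190) (nat_lit 5) (nat_lit 413) (nat_lit 393) (nat_lit 214)))) (XT.nd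 (nat_lit 156) (nat_lit 836) (nat_lit 0) (XT.nd (nat_lit 78) (nat_lit 532) (nat_lit 0) (XT.lf (nat_lit 0) (nat_lit 71193951072) (nat_lit 456) (nat_lit 21369936163) (nat_lit 532) (nat_lit 1922041486) (nat_lit 183) (nat_lit 5) (nat_lit 189) (nat_lit 5) (nat_lit 190) (nat_lit 5) (nat_lit 414) (nat_lit 393) (nat_lit 213)) (XT.lf (nat_lit 0) (nat_lit 21875374767) (nat_lit 532) (nat_lit 32556873791) (nat_lit 76) (nat_lit 42815823741) (nat_lit 176) (nat_lit 5) (nat_lit 183) (nat_lit 5) (nat_lit 177) (nat_lit 5) (nat_lit 415) (nat_lit 393) (nat_lit 212))) (XT.nd (nat_lit 78) (nat_lit 380) (nat_lit 0) (XT.lf (nat_lit 0) (nat_lit 47941430158) (nat_lit 532) (nat_lit 41899498707) (nat_lit 76) (nat_lit 10273267964) (nat_lit 170) (nat_lit 5) (nat_lit 177) (nat_lit 5) (nat_lit 171) (nat_lit 5) (nat_lit 416) (nat_lit 393) (nat_lit 211)) (XT.lf (nat_lit 0) (nat_lit 51543473008) (nat_lit 380) (nat_lit 25149679273)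 (nat_lit 456) (nat_lit 26389004626) (nat_lit 165) (nat_lit 5) (nat_lit 170) (nat_lit 5) (nat_lit 171) (nat_lit 5) (nat_lit 417) (nat_lit 393) (nat_lit 210))))))) (XT.nd (nat_lit 51480) (nat_lit 0) (nat_lit 6840) (XT.nd (nat_lit 468) (nat_lit 684) (nat_lit 0) (XT.nd (nat_lit 234) (nat_lit 1064) (nat_lit 0) (XT.nd (nat_lit 78) (nat_lit 760) (nat_lit 0) (XT.lf (nat_lit 0) (nat_lit 1959790487) (nat_lit 456) (nat_lit 61373186033) (nat_lit 76) (nat_lit 42826665719) (nat_lit 159) (nat_lit 5) (nat_lit 165) (nat_lit 5) (nat_lit 160) (nat_lit 5) (nat_lit 418) (nat_lit 393) (nat_lit 209)) (XT.nd (nat_lit 78) (nat_lit 380) (nat_lit 0) (XT.lf (nat_lit 0) (nat_lit 32390726926) (nat_lit 456) (nat_lit 71559789409) (nat_lit 76) (nat_lit 5396333393) (nat_lit 154) (nat_lit 5) (nat_lit 160) (nat_lit 5) (nat_lit 155) (nat_lit 5) (nat_lit 419) (nat_lit 393) (nat_lit 208)) (XT.lf (nat_lit 0) (nat_lit 30461098428) (nat_lit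 380) (nat_lit 35451316779) (nat_lit 456) (nat_lit 46733926434) (nat_lit 149) (nat_lit 5) (nat_lit 154) (nat_lit 5) (nat_lit 155) (nat_lit 5) (nat_lit 420) (nat_lit 393) (nat_lit 207)))) (XT.nd (nat_lit 78) (nat_lit 760) (nat_lit 0) (XT.lf (nat_lit 0) (nat_lit 23081032824) (nat_lit 304) (nat_lit 79344710688) (nat_lit 380) (nat_lit 13645598162) (nat_lit 145) (nat_lit 5) (nat_lit 149) (nat_lit 5) (nat_lit 150) (nat_lit 5) (nat_lit 421) (nat_lit 393) (nat_lit 206)) (XT.nd (nat_lit 78) (nat_lit 304) (nat_lit 0) (XT.lf (nat_lit 0) (nat_lit 15416517104) (nat_lit 380) (nat_lit 6628530992) (nat_lit 456) (nat_lit 97575672341) (nat_lit 139) (nat_lit 5) (nat_lit 144) (nat_lit 5) (nat_lit 145) (nat_lit 5) (nat_lit 422) (nat_lit 393) (nat_lit 205)) (XT.lf (nat_lit 0) (nat_lit 7189775501) (nat_lit 304) (nat_lit 53756126277) (nat_lit 380) (nat_lit 62346376769) (nat_lit 135) (nat_lit 5) (nat_lit 139) (nat_lit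 5) (nat_lit 140) (nat_lit 5) (nat_lit 423) (nat_lit 393) (nat_lit 204))))) (XT.nd (nat_lit 50778) (nat_lit 0) (nat_lit 9956) (XT.nd (nat_lit 78) (nat_lit 684) (nat_lit 0) (XT.lf (nat_lit 0) (nat_lit 103154237736) (nat_lit 380) (nat_lit 1075885839) (nat_lit 76) (nat_lit 22876417960) (nat_lit 135) (nat_lit 5) (nat_lit 140) (nat_lit 5) (nat_lit 136) (nat_lit 5) (nat_lit 424) (nat_lit 393) (nat_lit 203)) (XT.nd (nat_lit 78) (nat_lit 304) (nat_lit 0) (XT.lf (nat_lit 0) (nat_lit 17769182940) (nat_lit 380) (nat_lit 9704532601) (nat_lit 76) (nat_lit 103581274544) (nat_lit 130) (nat_lit 5) (nat_lit 135) (nat_lit 5) (nat_lit 131) (nat_lit 5) (nat_lit 425) (nat_lit 393) (nat_lit 202)) (XT.lf (nat_lit 0) (nat_lit 62743003529) (nat_lit 380) (nat_lit 18928406209) (nat_lit 76) (nat_lit 53472488023) (nat_lit 126) (nat_lit 5) (nat_lit 131) (nat_lit 5) (nat_lit 127) (nat_lit 5) (nat_lit 426) (nat_lit 393) (nat_lit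 201)))) (XT.nd (nat_lit 78) (nat_lit 0) (nat_lit 76) (XT.lf (nat_lit 0) (nat_lit 8772625736) (nat_lit 1292) (nat_lit 9790966069) (nat_lit 1292) (nat_lit 9790966069) (nat_lit 257) (nat_lit 3) (nat_lit 274) (nat_lit 3) (nat_lit 274) (nat_lit 5) (nat_lit 394) (nat_lit 394) (nat_lit 232)) (XT.nd (nat_lit 78) (nat_lit 0) (nat_lit 0) (XT.lf (nat_lit 0) (nat_lit 18357921750) (nat_lit 1216) (nat_lit 31328169404) (nat_lit 1292) (nat_lit 8429520503) (nat_lit 258) (nat_lit 5) (nat_lit 274) (nat_lit 5) (nat_lit 275) (nat_lit 5) (nat_lit 395) (nat_lit 394) (nat_lit 231)) (XT.lf (nat_lit 76) (nat_lit 16237031711) (nat_lit 0) (nat_lit 3706463778) (nat_lit 1292) (nat_lit 39626969462) (nat_lit 259) (nat_lit 5) (nat_lit 258) (nat_lit 5) (nat_lit 275) (nat_lit 5) (nat_lit 396) (nat_lit 394) (nat_lit 230)))))) (XT.nd (nat_lit 468) (nat_lit 3268) (nat_lit 0) (XT.nd (nat_lit 234) (nat_lit 0) (nat_lit 228) (XT.nd (nat_lit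 78) (nat_lit 0) (nat_lit 76) (XT.lf (nat_lit 76) (nat_lit 5419659933) (nat_lit 0) (nat_lit 16992908366) (nat_lit 1292) (nat_lit 38661366658) (nat_lit 260) (nat_lit 5) (nat_lit 259) (nat_lit 5) (nat_lit 276) (nat_lit 5) (nat_lit 397) (nat_lit 394) (nat_lit 229)) (XT.nd (nat_lit 78) (nat_lit 0) (nat_lit 76) (XT.lf (nat_lit 0) (nat_lit 25793792720) (nat_lit 1216) (nat_lit 5469047537) (nat_lit 1292) (nat_lit 31366077897) (nat_lit 260) (nat_lit 5) (nat_lit 276) (nat_lit 5) (nat_lit 277) (nat_lit 5) (nat_lit 398) (nat_lit 394) (nat_lit 228)) (XT.lf (nat_lit 0) (nat_lit 30148219429) (nat_lit 1216) (nat_lit 16426709020) (nat_lit 1292) (nat_lit 17662598428) (nat_lit 261) (nat_lit 5) (nat_lit 277) (nat_lit 5) (nat_lit 278) (nat_lit 5) (nat_lit 399) (nat_lit 394) (nat_lit 227)))) (XT.nd (nat_lit 78) (nat_lit 0) (nat_lit 0) (XT.lf (nat_lit 0) (nat_lit 35487930354) (nat_lit 1216) (nat_lit 27556794978) (nat_lit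 1292) (nat_lit 2858814387) (nat_lit 262) (nat_lit 5) (nat_lit 278) (nat_lit 5) (nat_lit 279) (nat_lit 5) (nat_lit 400) (nat_lit 394) (nat_lit 226)) (XT.nd (nat_lit 78) (nat_lit 0) (nat_lit 76) (XT.lf (nat_lit 76) (nat_lit 28640228826) (nat_lit 0) (nat_lit 13368892671) (nat_lit 1292) (nat_lit 25616297409) (nat_lit 263) (nat_lit 5) (nat_lit 262) (nat_lit 5) (nat_lit 279) (nat_lit 5) (nat_lit 401) (nat_lit 394) (nat_lit 225)) (XT.lf (nat_lit 76) (nat_lit 18787748777) (nat_lit 0) (nat_lit 30906979242) (nat_lit 1292) (nat_lit 19713513875) (nat_lit 264) (nat_lit 5) (nat_lit 263) (nat_lit 5) (nat_lit 280) (nat_lit 5) (nat_lit 402) (nat_lit 394) (nat_lit 224))))) (XT.nd (nat_lit 234) (nat_lit 2432) (nat_lit 0) (XT.nd (nat_lit 78) (nat_lit 1216) (nat_lit 0) (XT.lf (nat_lit 76) (nat_lit 8823322487) (nat_lit 0) (nat_lit 49769313731) (nat_lit 1292) (nat_lit 12662729665) (nat_lit 265) (nat_lit 5) (nat_lit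 264) (nat_lit 5) (nat_lit 281) (nat_lit 5) (nat_lit 403) (nat_lit 394) (nat_lit 223)) (XT.nd (nat_lit 78) (nat_lit 1292) (nat_lit 0) (XT.lf (nat_lit 0) (nat_lit 68794843310) (nat_lit 1216) (nat_lit 1223130300) (nat_lit 76) (nat_lit 3151090826) (nat_lit 265) (nat_lit 5) (nat_lit 281) (nat_lit 5) (nat_lit 266) (nat_lit 5) (nat_lit 404) (nat_lit 394) (nat_lit 222)) (XT.lf (nat_lit 0) (nat_lit 5369367821) (nat_lit 1292) (nat_lit 11410270160) (nat_lit 76) (nat_lit 58363808348) (nat_lit 248) (nat_lit 5) (nat_lit 265) (nat_lit 5) (nat_lit 249) (nat_lit 5) (nat_lit 405) (nat_lit 394) (nat_lit 221)))) (XT.nd (nat_lit 156) (nat_lit 1140) (nat_lit 0) (XT.nd (nat_lit 78) (nat_lit 608) (nat_lit 0) (XT.lf (nat_lit 0) (nat_lit 16440077094) (nat_lit 760) (nat_lit 21790857760) (nat_lit 76) (nat_lit 38956401409) (nat_lit 239) (nat_lit 5) (nat_lit 249) (nat_lit 5) (nat_lit 240) (nat_lit 5) (nat_lit 406) (nat_lit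 394) (nat_lit 220)) (XT.lf (nat_lit 0) (nat_lit 28981566722) (nat_lit 684) (nat_lit 32286613484) (nat_lit 76) (nat_lit 18037723533) (nat_lit 231) (nat_lit 5) (nat_lit 240) (nat_lit 5) (nat_lit 232) (nat_lit 5) (nat_lit 407) (nat_lit 394) (nat_lit 219))) (XT.nd (nat_lit 78) (nat_lit 532) (nat_lit 0) (XT.lf (nat_lit 0) (nat_lit 38564861960) (nat_lit 608) (nat_lit 4567135004) (nat_lit 684) (nat_lit 38368947017) (nat_lit 223) (nat_lit 5) (nat_lit 231) (nat_lit 5) (nat_lit 232) (nat_lit 5) (nat_lit 408) (nat_lit 394) (nat_lit 218)) (XT.lf (nat_lit 0) (nat_lit 29888156136) (nat_lit 532) (nat_lit 29251936965) (nat_lit 608) (nat_lit 24631139156) (nat_lit 216) (nat_lit 5) (nat_lit 223) (nat_lit 5) (nat_lit 224) (nat_lit 5) (nat_lit 409) (nat_lit 394) (nat_lit 217))))))))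
noncomputable def xc120 : XT := (XT.nd (nat_lit 52494) (nat_lit 0) (nat_lit 380) (XT.nd (nat_lit 936) (nat_lit 1444) (nat_lit 0) (XT.nd (nat_lit 468) (nat_lit 2584) (nat_lit 0) (XT.nd (nat_lit 234) (nat_lit 912) (nat_lit 0) (XT.nd (nat_lit 78) (nat_lit 1064) (nat_lit 0) (XT.lf (nat_lit 0) (nat_lit 21179735103) (nat_lit 532) (nat_lit 55754681574) (nat_lit 608) (nat_lit 9191043933) (nat_lit 209) (nat_lit 5) (nat_lit 216) (nat_lit 5) (nat_lit 217) (nat_lit 5) (nat_lit 410) (nat_lit 394) (nat_lit 216)) (XT.nd (nat_lit 78) (nat_lit 532) (nat_lit 0) (XT.lf (nat_lit 0) (nat_lit 7901462472) (nat_lit 532) (nat_lit 76196243395) (nat_lit 76) (nat_lit 4467147732) (nat_lit 202) (nat_lit 5) (nat_lit 209) (nat_lit 5) (nat_lit 203) (nat_lit 5) (nat_lit 411) (nat_lit 394) (nat_lit 215)) (XT.lf (nat_lit 0) (nat_lit 3198755519) (nat_lit 532) (nat_lit 23729105791) (nat_lit 608) (nat_lit 64157544653) (nat_lit 195)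 (nat_lit 5) (nat_lit 202) (nat_lit 5) (nat_lit 203) (nat_lit 5) (nat_lit 412) (nat_lit 394) (nat_lit 214)))) (XT.nd (nat_lit 78) (nat_lit 912) (nat_lit 0) (XT.lf (nat_lit 0) (nat_lit 48077887496) (nat_lit 608) (nat_lit 5942860347) (nat_lit 76) (nat_lit 39676069164) (nat_lit 195) (nat_lit 5) (nat_lit 203) (nat_lit 5) (nat_lit 196) (nat_lit 5) (nat_lit 413) (nat_lit 394) (nat_lit 213)) (XT.nd (nat_lit 78) (nat_lit 456) (nat_lit 0) (XT.lf (nat_lit 0) (nat_lit 71404308293) (nat_lit 532) (nat_lit 15058839470) (nat_lit 76) (nat_lit 9942084313) (nat_lit 189) (nat_lit 5) (nat_lit 196) (nat_lit 5) (nat_lit 190) (nat_lit 5) (nat_lit 414) (nat_lit 394) (nat_lit 212)) (XT.lf (nat_lit 0) (nat_lit 74789483507) (nat_lit 456) (nat_lit 22432552855) (nat_lit 532) (nat_lit 1987282208) (nat_lit 183) (nat_lit 5) (nat_lit 189) (nat_lit 5) (nat_lit 190) (nat_lit 5) (nat_lit 415) (nat_lit 394) (nat_lit 211))))) (XT.nd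 (nat_lit 234) (nat_lit 1216) (nat_lit 0) (XT.nd (nat_lit 78) (nat_lit 836) (nat_lit 0) (XT.lf (nat_lit 0) (nat_lit 22998362017) (nat_lit 532) (nat_lit 34148495248) (nat_lit 76) (nat_lit 44962734747) (nat_lit 176) (nat_lit 5) (nat_lit 183) (nat_lit 5) (nat_lit 177) (nat_lit 5) (nat_lit 416) (nat_lit 394) (nat_lit 210)) (XT.nd (nat_lit 78) (nat_lit 380) (nat_lit 0) (XT.lf (nat_lit 0) (nat_lit 50366734496) (nat_lit 532) (nat_lit 43958505222) (nat_lit 76) (nat_lit 10793812971) (nat_lit 170) (nat_lit 5) (nat_lit 177) (nat_lit 5) (nat_lit 171) (nat_lit 5) (nat_lit 417) (nat_lit 394) (nat_lit 209)) (XT.lf (nat_lit 0) (nat_lit 54155584051) (nat_lit 380) (nat_lit 26399450093) (nat_lit 456) (nat_lit 27680407217) (nat_lit 165) (nat_lit 5) (nat_lit 170) (nat_lit 5) (nat_lit 171) (nat_lit 5) (nat_lit 418) (nat_lit 394) (nat_lit 208)))) (XT.nd (nat_lit 78) (nat_lit 760) (nat_lit 0) (XT.lf (nat_lit 0) (nat_lit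 2084378621) (nat_lit 456) (nat_lit 64406646118) (nat_lit 76) (nat_lit 44975795491) (nat_lit 159) (nat_lit 5) (nat_lit 165) (nat_lit 5) (nat_lit 160) (nat_lit 5) (nat_lit 419) (nat_lit 394) (nat_lit 207)) (XT.nd (nat_lit 78) (nat_lit 380) (nat_lit 0) (XT.lf (nat_lit 0) (nat_lit 34036005930) (nat_lit 456) (nat_lit 75102894945) (nat_lit 76) (nat_lit 5674513191) (nat_lit 154) (nat_lit 5) (nat_lit 160) (nat_lit 5) (nat_lit 155) (nat_lit 5) (nat_lit 420) (nat_lit 394) (nat_lit 206)) (XT.lf (nat_lit 0) (nat_lit 32018037343) (nat_lit 380) (nat_lit 37214841156) (nat_lit 456) (nat_lit 49045029360) (nat_lit 149) (nat_lit 5) (nat_lit 154) (nat_lit 5) (nat_lit 155) (nat_lit 5) (nat_lit 421) (nat_lit 394) (nat_lit 205)))))) (XT.nd (nat_lit 51090) (nat_lit 0) (nat_lit 9728) (XT.nd (nat_lit 234) (nat_lit 380) (nat_lit 0) (XT.nd (nat_lit 78) (nat_lit 760) (nat_lit 0) (XT.lf (nat_lit 0) (nat_lit 24268642101) (nat_lit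 304) (nat_lit 83302453490) (nat_lit 380) (nat_lit 14303085897) (nat_lit 145) (nat_lit 5) (nat_lit 149) (nat_lit 5) (nat_lit 150) (nat_lit 5) (nat_lit 422) (nat_lit 394) (nat_lit 204)) (XT.nd (nat_lit 78) (nat_lit 304) (nat_lit 0) (XT.lf (nat_lit 0) (nat_lit 16220413609) (nat_lit 380) (nat_lit 6950355633) (nat_lit 456) (nat_lit 102430278233) (nat_lit 139) (nat_lit 5) (nat_lit 144) (nat_lit 5) (nat_lit 145) (nat_lit 5) (nat_lit 423) (nat_lit 394) (nat_lit 203)) (XT.lf (nat_lit 0) (nat_lit 7581985970) (nat_lit 304) (nat_lit 56433964525) (nat_lit 380) (nat_lit 65440254684) (nat_lit 135) (nat_lit 5) (nat_lit 139) (nat_lit 5) (nat_lit 140) (nat_lit 5) (nat_lit 424) (nat_lit 394) (nat_lit 202)))) (XT.nd (nat_lit 78) (nat_lit 380) (nat_lit 0) (XT.lf (nat_lit 0) (nat_lit 108333711001) (nat_lit 380) (nat_lit 1097953302) (nat_lit 76) (nat_lit 24029547004) (nat_lit 135) (nat_lit 5) (nat_lit 140) (nat_lit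 5) (nat_lit 136) (nat_lit 5) (nat_lit 425) (nat_lit 394) (nat_lit 201)) (XT.nd (nat_lit 50700) (nat_lit 0) (nat_lit 9652) (XT.lf (nat_lit 0) (nat_lit 18678875744) (nat_lit 380) (nat_lit 10158515127) (nat_lit 76) (nat_lit 108769707581) (nat_lit 130) (nat_lit 5) (nat_lit 135) (nat_lit 5) (nat_lit 131) (nat_lit 5) (nat_lit 426) (nat_lit 394) (nat_lit 200)) (XT.lf (nat_lit 0) (nat_lit 9243821643) (nat_lit 1292) (nat_lit 10263738268) (nat_lit 1292) (nat_lit 10263738268) (nat_lit 257) (nat_lit 3) (nat_lit 274) (nat_lit 3) (nat_lit 274) (nat_lit 5) (nat_lit 395) (nat_lit 395) (nat_lit 230))))) (XT.nd (nat_lit 234) (nat_lit 0) (nat_lit 152) (XT.nd (nat_lit 78) (nat_lit 0) (nat_lit 0) (XT.lf (nat_lit 0) (nat_lit 19337872982) (nat_lit 1216) (nat_lit 32859810930) (nat_lit 1292) (nat_lit 8821826386) (nat_lit 258) (nat_lit 5) (nat_lit 274) (nat_lit 5) (nat_lit 275) (nat_lit 5) (nat_lit 396) (nat_lit 395)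 (nat_lit 229)) (XT.nd (nat_lit 78) (nat_lit 0) (nat_lit 76) (XT.lf (nat_lit 76) (nat_lit 17082653653) (nat_lit 0) (nat_lit 3917441370) (nat_lit 1292) (nat_lit 41547091112) (nat_lit 259) (nat_lit 5) (nat_lit 258) (nat_lit 5) (nat_lit 275) (nat_lit 5) (nat_lit 397) (nat_lit 395) (nat_lit 228)) (XT.lf (nat_lit 76) (nat_lit 5725435210) (nat_lit 0) (nat_lit 17864456096) (nat_lit 1292) (nat_lit 40536021162) (nat_lit 260) (nat_lit 5) (nat_lit 259) (nat_lit 5) (nat_lit 276) (nat_lit 5) (nat_lit 398) (nat_lit 395) (nat_lit 227)))) (XT.nd (nat_lit 78) (nat_lit 0) (nat_lit 76) (XT.lf (nat_lit 0) (nat_lit 27137276692) (nat_lit 1216) (nat_lit 5707526527) (nat_lit 1292) (nat_lit 32913929489) (nat_lit 260) (nat_lit 5) (nat_lit 276) (nat_lit 5) (nat_lit 277) (nat_lit 5) (nat_lit 399) (nat_lit 395) (nat_lit 226)) (XT.nd (nat_lit 78) (nat_lit 0) (nat_lit 76) (XT.lf (nat_lit 0) (nat_lit 31707020580) (nat_lit 1216)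 (nat_lit 17212341052) (nat_lit 1292) (nat_lit 18528483194) (nat_lit 261) (nat_lit 5) (nat_lit 277) (nat_lit 5) (nat_lit 278) (nat_lit 5) (nat_lit 400) (nat_lit 395) (nat_lit 225)) (XT.lf (nat_lit 0) (nat_lit 37311462955) (nat_lit 1216) (nat_lit 28898320243) (nat_lit 1292) (nat_lit 2987443529) (nat_lit 262) (nat_lit 5) (nat_lit 278) (nat_lit 5) (nat_lit 279) (nat_lit 5) (nat_lit 401) (nat_lit 395) (nat_lit 224))))))) (XT.nd (nat_lit 936) (nat_lit 4560) (nat_lit 0) (XT.nd (nat_lit 468) (nat_lit 3344) (nat_lit 0) (XT.nd (nat_lit 234) (nat_lit 1748) (nat_lit 0) (XT.nd (nat_lit 78) (nat_lit 0) (nat_lit 76) (XT.lf (nat_lit 76) (nat_lit 30107513804) (nat_lit 0) (nat_lit 14049199109) (nat_lit 1292) (nat_lit 26848547740) (nat_lit 263) (nat_lit 5) (nat_lit 262) (nat_lit 5) (nat_lit 279) (nat_lit 5) (nat_lit 402) (nat_lit 395) (nat_lit 223)) (XT.nd (nat_lit 78) (nat_lit 0) (nat_lit 76) (XT.lf (nat_lit 76)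 (nat_lit 19762897628) (nat_lit 0) (nat_lit 32461692760) (nat_lit 1292) (nat_lit 20652695404) (nat_lit 264) (nat_lit 5) (nat_lit 263) (nat_lit 5) (nat_lit 280) (nat_lit 5) (nat_lit 403) (nat_lit 395) (nat_lit 222)) (XT.lf (nat_lit 76) (nat_lit 9300641345) (nat_lit 0) (nat_lit 52264865587) (nat_lit 1292) (nat_lit 13251316347) (nat_lit 265) (nat_lit 5) (nat_lit 264) (nat_lit 5) (nat_lit 281) (nat_lit 5) (nat_lit 404) (nat_lit 395) (nat_lit 221)))) (XT.nd (nat_lit 78) (nat_lit 1976) (nat_lit 0) (XT.lf (nat_lit 0) (nat_lit 72275700511) (nat_lit 1216) (nat_lit 1248542293) (nat_lit 76) (nat_lit 3302028326) (nat_lit 265) (nat_lit 5) (nat_lit 281) (nat_lit 5) (nat_lit 266) (nat_lit 5) (nat_lit 405) (nat_lit 395) (nat_lit 220)) (XT.nd (nat_lit 78) (nat_lit 684) (nat_lit 0) (XT.lf (nat_lit 0) (nat_lit 5677730348) (nat_lit 1292) (nat_lit 11945257692) (nat_lit 76) (nat_lit 61276421690) (nat_lit 248) (nat_lit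 5) (nat_lit 265) (nat_lit 5) (nat_lit 249) (nat_lit 5) (nat_lit 406) (nat_lit 395) (nat_lit 219)) (XT.lf (nat_lit 0) (nat_lit 17300370366) (nat_lit 760) (nat_lit 22844695013) (nat_lit 76) (nat_lit 40900477499) (nat_lit 239) (nat_lit 5) (nat_lit 249) (nat_lit 5) (nat_lit 240) (nat_lit 5) (nat_lit 407) (nat_lit 395) (nat_lit 218))))) (XT.nd (nat_lit 234) (nat_lit 1596) (nat_lit 0) (XT.nd (nat_lit 78) (nat_lit 1140) (nat_lit 0) (XT.lf (nat_lit 0) (nat_lit 30467424203) (nat_lit 684) (nat_lit 33865126713) (nat_lit 76) (nat_lit 18937533669) (nat_lit 231) (nat_lit 5) (nat_lit 240) (nat_lit 5) (nat_lit 232) (nat_lit 5) (nat_lit 408) (nat_lit 395) (nat_lit 217)) (XT.nd (nat_lit 78) (nat_lit 532) (nat_lit 0) (XT.lf (nat_lit 0) (nat_lit 40527895804) (nat_lit 608) (nat_lit 4796063195) (nat_lit 684) (nat_lit 40250960870) (nat_lit 223) (nat_lit 5) (nat_lit 231) (nat_lit 5) (nat_lit 232) (nat_lit 5) (nat_lit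 409) (nat_lit 395) (nat_lit 216)) (XT.lf (nat_lit 0) (nat_lit 31417403357) (nat_lit 532) (nat_lit 30713702340) (nat_lit 608) (nat_lit 25827657989) (nat_lit 216) (nat_lit 5) (nat_lit 223) (nat_lit 5) (nat_lit 224) (nat_lit 5) (nat_lit 410) (nat_lit 395) (nat_lit 215)))) (XT.nd (nat_lit 78) (nat_lit 1064) (nat_lit 0) (XT.lf (nat_lit 0) (nat_lit 22273555499) (nat_lit 532) (nat_lit 58540312981) (nat_lit 608) (nat_lit 9616873758) (nat_lit 209) (nat_lit 5) (nat_lit 216) (nat_lit 5) (nat_lit 217) (nat_lit 5) (nat_lit 411) (nat_lit 395) (nat_lit 214)) (XT.nd (nat_lit 78) (nat_lit 532) (nat_lit 0) (XT.lf (nat_lit 0) (nat_lit 8328382492) (nat_lit 532) (nat_lit 79970634497) (nat_lit 76) (nat_lit 4693115123) (nat_lit 202) (nat_lit 5) (nat_lit 209) (nat_lit 5) (nat_lit 203) (nat_lit 5) (nat_lit 412) (nat_lit 395) (nat_lit 213)) (XT.lf (nat_lit 0) (nat_lit 3393099025) (nat_lit 532) (nat_lit 24911816456) (nat_lit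 608) (nat_lit 67333832603) (nat_lit 195) (nat_lit 5) (nat_lit 202) (nat_lit 5) (nat_lit 203) (nat_lit 5) (nat_lit 413) (nat_lit 395) (nat_lit 212)))))) (XT.nd (nat_lit 468) (nat_lit 2280) (nat_lit 0) (XT.nd (nat_lit 234) (nat_lit 1368) (nat_lit 0) (XT.nd (nat_lit 78) (nat_lit 912) (nat_lit 0) (XT.lf (nat_lit 0) (nat_lit 50511017207) (nat_lit 608) (nat_lit 6206386306) (nat_lit 76) (nat_lit 41663369339) (nat_lit 195) (nat_lit 5) (nat_lit 203) (nat_lit 5) (nat_lit 196) (nat_lit 5) (nat_lit 414) (nat_lit 395) (nat_lit 211)) (XT.nd (nat_lit 78) (nat_lit 456) (nat_lit 0) (XT.lf (nat_lit 0) (nat_lit 75002723991) (nat_lit 532) (nat_lit 15778318954) (nat_lit 76) (nat_lit 10443597158) (nat_lit 189) (nat_lit 5) (nat_lit 196) (nat_lit 5) (nat_lit 190) (nat_lit 5) (nat_lit 415) (nat_lit 395) (nat_lit 210)) (XT.lf (nat_lit 0) (nat_lit 78561460976) (nat_lit 456) (nat_lit 23548847058) (nat_lit 532) (nat_lit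 2058654161) (nat_lit 183) (nat_lit 5) (nat_lit 189) (nat_lit 5) (nat_lit 190) (nat_lit 5) (nat_lit 416) (nat_lit 395) (nat_lit 209)))) (XT.nd (nat_lit 78) (nat_lit 836) (nat_lit 0) (XT.lf (nat_lit 0) (nat_lit 24174782169) (nat_lit 532) (nat_lit 35823065378) (nat_lit 76) (nat_lit 47216422340) (nat_lit 176) (nat_lit 5) (nat_lit 183) (nat_lit 5) (nat_lit 177) (nat_lit 5) (nat_lit 417) (nat_lit 395) (nat_lit 208)) (XT.nd (nat_lit 78) (nat_lit 380) (nat_lit 0) (XT.lf (nat_lit 0) (nat_lit 52910679230) (nat_lit 532) (nat_lit 46123806066) (nat_lit 76) (nat_lit 11339745441) (nat_lit 170) (nat_lit 5) (nat_lit 177) (nat_lit 5) (nat_lit 171) (nat_lit 5) (nat_lit 418) (nat_lit 395) (nat_lit 207)) (XT.lf (nat_lit 0) (nat_lit 56895052499) (nat_lit 380) (nat_lit 27712426549) (nat_lit 456) (nat_lit 29038987542) (nat_lit 165) (nat_lit 5) (nat_lit 170) (nat_lit 5) (nat_lit 171) (nat_lit 5) (nat_lit 419) (nat_lit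 395) (nat_lit 206))))) (XT.nd (nat_lit 234) (nat_lit 1064) (nat_lit 0) (XT.nd (nat_lit 78) (nat_lit 760) (nat_lit 0) (XT.lf (nat_lit 0) (nat_lit 2212723275) (nat_lit 456) (nat_lit 67595051697) (nat_lit 76) (nat_lit 47231656909) (nat_lit 159) (nat_lit 5) (nat_lit 165) (nat_lit 5) (nat_lit 160) (nat_lit 5) (nat_lit 420) (nat_lit 395) (nat_lit 205)) (XT.nd (nat_lit 78) (nat_lit 380) (nat_lit 0) (XT.lf (nat_lit 0) (nat_lit 35761155577) (nat_lit 456) (nat_lit 78826398935) (nat_lit 76) (nat_lit 5965824455) (nat_lit 154) (nat_lit 5) (nat_lit 160) (nat_lit 5) (nat_lit 155) (nat_lit 5) (nat_lit 421) (nat_lit 395) (nat_lit 204)) (XT.lf (nat_lit 0) (nat_lit 33649672991) (nat_lit 380) (nat_lit 39067382340) (nat_lit 456) (nat_lit 51474066864) (nat_lit 149) (nat_lit 5) (nat_lit 154) (nat_lit 5) (nat_lit 155) (nat_lit 5) (nat_lit 422) (nat_lit 395) (nat_lit 203)))) (XT.nd (nat_lit 156) (nat_lit 304) (nat_lit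 0) (XT.nd (nat_lit 78) (nat_lit 456) (nat_lit 0) (XT.lf (nat_lit 0) (nat_lit 25512511971) (nat_lit 304) (nat_lit 87458965976) (nat_lit 380) (nat_lit 14995752960) (nat_lit 145) (nat_lit 5) (nat_lit 149) (nat_lit 5) (nat_lit 150) (nat_lit 5) (nat_lit 423) (nat_lit 395) (nat_lit 202)) (XT.lf (nat_lit 0) (nat_lit 17061430343) (nat_lit 380) (nat_lit 7289164201) (nat_lit 456) (nat_lit 107529862235) (nat_lit 139) (nat_lit 5) (nat_lit 144) (nat_lit 5) (nat_lit 145) (nat_lit 5) (nat_lit 424) (nat_lit 395) (nat_lit 201))) (XT.nd (nat_lit 78) (nat_lit 0) (nat_lit 0) (XT.lf (nat_lit 0) (nat_lit 7990764809) (nat_lit 304) (nat_lit 59246621422) (nat_lit 380) (nat_lit 68691005810) (nat_lit 135) (nat_lit 5) (nat_lit 139) (nat_lit 5) (nat_lit 140) (nat_lit 5) (nat_lit 425) (nat_lit 395) (nat_lit 200)) (XT.lf (nat_lit 0) (nat_lit 113770134762) (nat_lit 380) (nat_lit 1124073799) (nat_lit 76) (nat_lit 25239467117)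 (nat_lit 135) (nat_lit 5) (nat_lit 140) (nat_lit 5) (nat_lit 136) (nat_lit 5) (nat_lit 426) (nat_lit 395) (nat_lit 199))))))))
noncomputable def xc121 : XT := (XT.nd (nat_lit 1950) (nat_lit 2280) (nat_lit 0) (XT.nd (nat_lit 936) (nat_lit 6308) (nat_lit 0) (XT.nd (nat_lit 468) (nat_lit 684) (nat_lit 0) (XT.nd (nat_lit 234) (nat_lit 0) (nat_lit 152) (XT.nd (nat_lit 78) (nat_lit 0) (nat_lit 76) (XT.lf (nat_lit 0) (nat_lit 9735549795) (nat_lit 1292) (nat_lit 10761708761) (nat_lit 1292) (nat_lit 10761708761) (nat_lit 257) (nat_lit 3) (nat_lit 274) (nat_lit 3) (nat_lit 274) (nat_lit 5) (nat_lit 396) (nat_lit 396) (nat_lit 228)) (XT.nd (nat_lit 78) (nat_lit 0) (nat_lit 0) (XT.lf (nat_lit 0) (nat_lit 20361052477) (nat_lit 1216) (nat_lit 34471266834) (nat_lit 1292) (nat_lit 9236459526) (nat_lit 258) (nat_lit 5) (nat_lit 274) (nat_lit 5) (nat_lit 275) (nat_lit 5) (nat_lit 397) (nat_lit 396) (nat_lit 227))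 (XT.lf (nat_lit 76) (nat_lit 17967417044) (nat_lit 0) (nat_lit 4136582739) (nat_lit 1292) (nat_lit 43568911135) (nat_lit 259) (nat_lit 5) (nat_lit 258) (nat_lit 5) (nat_lit 275) (nat_lit 5) (nat_lit 398) (nat_lit 396) (nat_lit 226)))) (XT.nd (nat_lit 78) (nat_lit 0) (nat_lit 76) (XT.lf (nat_lit 76) (nat_lit 6043264594) (nat_lit 0) (nat_lit 18777544943) (nat_lit 1292) (nat_lit 42509839155) (nat_lit 260) (nat_lit 5) (nat_lit 259) (nat_lit 5) (nat_lit 276) (nat_lit 5) (nat_lit 399) (nat_lit 396) (nat_lit 225)) (XT.nd (nat_lit 78) (nat_lit 0) (nat_lit 76) (XT.lf (nat_lit 0) (nat_lit 28542933575) (nat_lit 1216) (nat_lit 5961180961) (nat_lit 1292) (nat_lit 34541075122) (nat_lit 260) (nat_lit 5) (nat_lit 276) (nat_lit 5) (nat_lit 277) (nat_lit 5) (nat_lit 400) (nat_lit 396) (nat_lit 224)) (XT.lf (nat_lit 0) (nat_lit 33338984017) (nat_lit 1216) (nat_lit 18040574051) (nat_lit 1292) (nat_lit 19439265489)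 (nat_lit 261) (nat_lit 5) (nat_lit 277) (nat_lit 5) (nat_lit 278) (nat_lit 5) (nat_lit 401) (nat_lit 396) (nat_lit 223))))) (XT.nd (nat_lit 234) (nat_lit 1064) (nat_lit 0) (XT.nd (nat_lit 78) (nat_lit 0) (nat_lit 0) (XT.lf (nat_lit 0) (nat_lit 39221603980) (nat_lit 1216) (nat_lit 30310297947) (nat_lit 1292) (nat_lit 3123834683) (nat_lit 262) (nat_lit 5) (nat_lit 278) (nat_lit 5) (nat_lit 279) (nat_lit 5) (nat_lit 402) (nat_lit 396) (nat_lit 222)) (XT.nd (nat_lit 78) (nat_lit 0) (nat_lit 76) (XT.lf (nat_lit 76) (nat_lit 31644883632) (nat_lit 0) (nat_lit 14762418071) (nat_lit 1292) (nat_lit 28146925658) (nat_lit 263) (nat_lit 5) (nat_lit 262) (nat_lit 5) (nat_lit 279) (nat_lit 5) (nat_lit 403) (nat_lit 396) (nat_lit 221)) (XT.lf (nat_lit 76) (nat_lit 20783479166) (nat_lit 0) (nat_lit 34093271326) (nat_lit 1292) (nat_lit 21643158596) (nat_lit 264) (nat_lit 5) (nat_lit 263) (nat_lit 5) (nat_lit 280)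 (nat_lit 5) (nat_lit 404) (nat_lit 396) (nat_lit 220)))) (XT.nd (nat_lit 78) (nat_lit 1216) (nat_lit 0) (XT.lf (nat_lit 76) (nat_lit 9798465007) (nat_lit 0) (nat_lit 54884536232) (nat_lit 1292) (nat_lit 13873474181) (nat_lit 265) (nat_lit 5) (nat_lit 264) (nat_lit 5) (nat_lit 281) (nat_lit 5) (nat_lit 405) (nat_lit 396) (nat_lit 219)) (XT.nd (nat_lit 78) (nat_lit 1292) (nat_lit 0) (XT.lf (nat_lit 0) (nat_lit 75926778086) (nat_lit 1216) (nat_lit 1278548072) (nat_lit 76) (nat_lit 3461127890) (nat_lit 265) (nat_lit 5) (nat_lit 281) (nat_lit 5) (nat_lit 266) (nat_lit 5) (nat_lit 406) (nat_lit 396) (nat_lit 218)) (XT.lf (nat_lit 0) (nat_lit 5997802023) (nat_lit 1292) (nat_lit 12510297470) (nat_lit 76) (nat_lit 64335184202) (nat_lit 248) (nat_lit 5) (nat_lit 265) (nat_lit 5) (nat_lit 249) (nat_lit 5) (nat_lit 407) (nat_lit 396) (nat_lit 217)))))) (XT.nd (nat_lit 468) (nat_lit 2812) (nat_lit 0) (XT.nd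 (nat_lit 234) (nat_lit 1596) (nat_lit 0) (XT.nd (nat_lit 78) (nat_lit 1216) (nat_lit 0) (XT.lf (nat_lit 0) (nat_lit 18200118515) (nat_lit 760) (nat_lit 23954543700) (nat_lit 76) (nat_lit 42942105473) (nat_lit 239) (nat_lit 5) (nat_lit 249) (nat_lit 5) (nat_lit 240) (nat_lit 5) (nat_lit 408) (nat_lit 396) (nat_lit 216)) (XT.nd (nat_lit 78) (nat_lit 608) (nat_lit 0) (XT.lf (nat_lit 0) (nat_lit 32024155182) (nat_lit 684) (nat_lit 35525895569) (nat_lit 76) (nat_lit 19882527322) (nat_lit 231) (nat_lit 5) (nat_lit 240) (nat_lit 5) (nat_lit 232) (nat_lit 5) (nat_lit 409) (nat_lit 396) (nat_lit 215)) (XT.lf (nat_lit 0) (nat_lit 42585846826) (nat_lit 608) (nat_lit 5036384668) (nat_lit 684) (nat_lit 42230462658) (nat_lit 223) (nat_lit 5) (nat_lit 231) (nat_lit 5) (nat_lit 232) (nat_lit 5) (nat_lit 410) (nat_lit 396) (nat_lit 214)))) (XT.nd (nat_lit 78) (nat_lit 1064) (nat_lit 0) (XT.lf (nat_lit 0) (nat_lit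 33019873899) (nat_lit 532) (nat_lit 32248633286) (nat_lit 608) (nat_lit 27087260276) (nat_lit 216) (nat_lit 5) (nat_lit 223) (nat_lit 5) (nat_lit 224) (nat_lit 5) (nat_lit 411) (nat_lit 396) (nat_lit 213)) (XT.nd (nat_lit 78) (nat_lit 532) (nat_lit 0) (XT.lf (nat_lit 0) (nat_lit 23418828413) (nat_lit 532) (nat_lit 61465421444) (nat_lit 608) (nat_lit 10067130262) (nat_lit 209) (nat_lit 5) (nat_lit 216) (nat_lit 5) (nat_lit 217) (nat_lit 5) (nat_lit 412) (nat_lit 396) (nat_lit 212)) (XT.lf (nat_lit 0) (nat_lit 8773687691) (nat_lit 532) (nat_lit 83937038268) (nat_lit 76) (nat_lit 4930138231) (nat_lit 202) (nat_lit 5) (nat_lit 209) (nat_lit 5) (nat_lit 203) (nat_lit 5) (nat_lit 413) (nat_lit 396) (nat_lit 211))))) (XT.nd (nat_lit 234) (nat_lit 1824) (nat_lit 0) (XT.nd (nat_lit 78) (nat_lit 456) (nat_lit 0) (XT.lf (nat_lit 0) (nat_lit 3593960989) (nat_lit 532) (nat_lit 26154010794) (nat_lit 608) (nat_lit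 70671871822) (nat_lit 195) (nat_lit 5) (nat_lit 202) (nat_lit 5) (nat_lit 203) (nat_lit 5) (nat_lit 414) (nat_lit 396) (nat_lit 210)) (XT.nd (nat_lit 78) (nat_lit 456) (nat_lit 0) (XT.lf (nat_lit 0) (nat_lit 53063085378) (nat_lit 608) (nat_lit 6486213958) (nat_lit 76) (nat_lit 43749709431) (nat_lit 195) (nat_lit 5) (nat_lit 203) (nat_lit 5) (nat_lit 196) (nat_lit 5) (nat_lit 415) (nat_lit 396) (nat_lit 209)) (XT.lf (nat_lit 0) (nat_lit 78778438679) (nat_lit 532) (nat_lit 16536883438) (nat_lit 76) (nat_lit 10969775774) (nat_lit 189) (nat_lit 5) (nat_lit 196) (nat_lit 5) (nat_lit 190) (nat_lit 5) (nat_lit 416) (nat_lit 396) (nat_lit 208)))) (XT.nd (nat_lit 156) (nat_lit 836) (nat_lit 0) (XT.nd (nat_lit 78) (nat_lit 532) (nat_lit 0) (XT.lf (nat_lit 0) (nat_lit 82519015471) (nat_lit 456) (nat_lit 24721451824) (nat_lit 532) (nat_lit 2136197158) (nat_lit 183) (nat_lit 5) (nat_lit 189) (nat_lit 5) (nat_lit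 190) (nat_lit 5) (nat_lit 417) (nat_lit 396) (nat_lit 207)) (XT.lf (nat_lit 0) (nat_lit 25407559419) (nat_lit 532) (nat_lit 37584418527) (nat_lit 76) (nat_lit 49582278247) (nat_lit 176) (nat_lit 5) (nat_lit 183) (nat_lit 5) (nat_lit 177) (nat_lit 5) (nat_lit 418) (nat_lit 396) (nat_lit 206))) (XT.nd (nat_lit 78) (nat_lit 380) (nat_lit 0) (XT.lf (nat_lit 0) (nat_lit 55579440411) (nat_lit 532) (nat_lit 48400405061) (nat_lit 76) (nat_lit 11912394230) (nat_lit 170) (nat_lit 5) (nat_lit 177) (nat_lit 5) (nat_lit 171) (nat_lit 5) (nat_lit 419) (nat_lit 396) (nat_lit 205)) (XT.lf (nat_lit 0) (nat_lit 59768548204) (nat_lit 380) (nat_lit 29091702254) (nat_lit 456) (nat_lit 30467862056) (nat_lit 165) (nat_lit 5) (nat_lit 170) (nat_lit 5) (nat_lit 171) (nat_lit 5) (nat_lit 420) (nat_lit 396) (nat_lit 204))))))) (XT.nd (nat_lit 51714) (nat_lit 0) (nat_lit 4560) (XT.nd (nat_lit 51246) (nat_lit 0) (nat_lit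 9272) (XT.nd (nat_lit 234) (nat_lit 1064) (nat_lit 0) (XT.nd (nat_lit 78) (nat_lit 760) (nat_lit 0) (XT.lf (nat_lit 0) (nat_lit 2345242181) (nat_lit 456) (nat_lit 70945845800) (nat_lit 76) (nat_lit 49599653943) (nat_lit 159) (nat_lit 5) (nat_lit 165) (nat_lit 5) (nat_lit 160) (nat_lit 5) (nat_lit 421) (nat_lit 396) (nat_lit 203)) (XT.nd (nat_lit 78) (nat_lit 380) (nat_lit 0) (XT.lf (nat_lit 0) (nat_lit 37570391904) (nat_lit 456) (nat_lit 82739019783) (nat_lit 76) (nat_lit 6270996044) (nat_lit 154) (nat_lit 5) (nat_lit 160) (nat_lit 5) (nat_lit 155) (nat_lit 5) (nat_lit 422) (nat_lit 396) (nat_lit 202)) (XT.lf (nat_lit 0) (nat_lit 35360033086) (nat_lit 380) (nat_lit 41013313024) (nat_lit 456) (nat_lit 54026714457) (nat_lit 149) (nat_lit 5) (nat_lit 154) (nat_lit 5) (nat_lit 155) (nat_lit 5) (nat_lit 423) (nat_lit 396) (nat_lit 201)))) (XT.nd (nat_lit 78) (nat_lit 760) (nat_lit 0) (XT.lf (nat_lit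 0) (nat_lit 26815745520) (nat_lit 304) (nat_lit 91824104580) (nat_lit 380) (nat_lit 15725144026) (nat_lit 145) (nat_lit 5) (nat_lit 149) (nat_lit 5) (nat_lit 150) (nat_lit 5) (nat_lit 424) (nat_lit 396) (nat_lit 200)) (XT.nd (nat_lit 78) (nat_lit 304) (nat_lit 0) (XT.lf (nat_lit 0) (nat_lit 17941709166) (nat_lit 380) (nat_lit 7645722897) (nat_lit 456) (nat_lit 112886464272) (nat_lit 139) (nat_lit 5) (nat_lit 144) (nat_lit 5) (nat_lit 145) (nat_lit 5) (nat_lit 425) (nat_lit 396) (nat_lit 199)) (XT.lf (nat_lit 0) (nat_lit 8417223267) (nat_lit 304) (nat_lit 62200751740) (nat_lit 380) (nat_lit 72106271194) (nat_lit 135) (nat_lit 5) (nat_lit 139) (nat_lit 5) (nat_lit 140) (nat_lit 5) (nat_lit 426) (nat_lit 396) (nat_lit 198))))) (XT.nd (nat_lit 234) (nat_lit 0) (nat_lit 152) (XT.nd (nat_lit 78) (nat_lit 0) (nat_lit 76) (XT.lf (nat_lit 0) (nat_lit 10249118279) (nat_lit 1292) (nat_lit 11285992456) (nat_lit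 1292) (nat_lit 11285992456) (nat_lit 257) (nat_lit 3) (nat_lit 274) (nat_lit 3) (nat_lit 274) (nat_lit 5) (nat_lit 397) (nat_lit 397) (nat_lit 226)) (XT.nd (nat_lit 78) (nat_lit 0) (nat_lit 0) (XT.lf (nat_lit 0) (nat_lit 21430158023) (nat_lit 1216) (nat_lit 36166227325) (nat_lit 1292) (nat_lit 9674284155) (nat_lit 258) (nat_lit 5) (nat_lit 274) (nat_lit 5) (nat_lit 275) (nat_lit 5) (nat_lit 398) (nat_lit 397) (nat_lit 225)) (XT.lf (nat_lit 76) (nat_lit 18893570851) (nat_lit 0) (nat_lit 4364517817) (nat_lit 1292) (nat_lit 45696985233) (nat_lit 259) (nat_lit 5) (nat_lit 258) (nat_lit 5) (nat_lit 275) (nat_lit 5) (nat_lit 399) (nat_lit 397) (nat_lit 224)))) (XT.nd (nat_lit 78) (nat_lit 0) (nat_lit 76) (XT.lf (nat_lit 76) (nat_lit 6374051518) (nat_lit 0) (nat_lit 19734441276) (nat_lit 1292) (nat_lit 44587273911) (nat_lit 260) (nat_lit 5) (nat_lit 259) (nat_lit 5) (nat_lit 276) (nat_lit 5) (nat_lit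 400) (nat_lit 397) (nat_lit 223)) (XT.nd (nat_lit 78) (nat_lit 0) (nat_lit 76) (XT.lf (nat_lit 0) (nat_lit 30014336987) (nat_lit 1216) (nat_lit 6230467317) (nat_lit 1292) (nat_lit 36251302717) (nat_lit 260) (nat_lit 5) (nat_lit 276) (nat_lit 5) (nat_lit 277) (nat_lit 5) (nat_lit 401) (nat_lit 397) (nat_lit 222)) (XT.lf (nat_lit 0) (nat_lit 35048212045) (nat_lit 1216) (nat_lit 18913229463) (nat_lit 1292) (nat_lit 20397041131) (nat_lit 261) (nat_lit 5) (nat_lit 277) (nat_lit 5) (nat_lit 278) (nat_lit 5) (nat_lit 402) (nat_lit 397) (nat_lit 221)))))) (XT.nd (nat_lit 468) (nat_lit 4028) (nat_lit 0) (XT.nd (nat_lit 234) (nat_lit 1064) (nat_lit 0) (XT.nd (nat_lit 78) (nat_lit 0) (nat_lit 0) (XT.lf (nat_lit 0) (nat_lit 41223108556) (nat_lit 1216) (nat_lit 31795936829) (nat_lit 1292) (nat_lit 3268252248) (nat_lit 262) (nat_lit 5) (nat_lit 278) (nat_lit 5) (nat_lit 279) (nat_lit 5) (nat_lit 403) (nat_lit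 397) (nat_lit 220)) (XT.nd (nat_lit 78) (nat_lit 0) (nat_lit 76) (XT.lf (nat_lit 76) (nat_lit 33256147439) (nat_lit 0) (nat_lit 15510297710) (nat_lit 1292) (nat_lit 29514317774) (nat_lit 263) (nat_lit 5) (nat_lit 262) (nat_lit 5) (nat_lit 279) (nat_lit 5) (nat_lit 404) (nat_lit 397) (nat_lit 219)) (XT.lf (nat_lit 76) (nat_lit 21852074127) (nat_lit 0) (nat_lit 35805639135) (nat_lit 1292) (nat_lit 22687065662) (nat_lit 264) (nat_lit 5) (nat_lit 263) (nat_lit 5) (nat_lit 280) (nat_lit 5) (nat_lit 405) (nat_lit 397) (nat_lit 218)))) (XT.nd (nat_lit 78) (nat_lit 1216) (nat_lit 0) (XT.lf (nat_lit 76) (nat_lit 10318131201) (nat_lit 0) (nat_lit 57634592853) (nat_lit 1292) (nat_lit 14530496658) (nat_lit 265) (nat_lit 5) (nat_lit 264) (nat_lit 5) (nat_lit 281) (nat_lit 5) (nat_lit 406) (nat_lit 397) (nat_lit 217)) (XT.nd (nat_lit 78) (nat_lit 1292) (nat_lit 0) (XT.lf (nat_lit 0) (nat_lit 79756942431) (nat_lit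 1216) (nat_lit 1313068369) (nat_lit 76) (nat_lit 3628740429) (nat_lit 265) (nat_lit 5) (nat_lit 281) (nat_lit 5) (nat_lit 266) (nat_lit 5) (nat_lit 407) (nat_lit 397) (nat_lit 216)) (XT.lf (nat_lit 0) (nat_lit 6330513128) (nat_lit 1292) (nat_lit 13106585036) (nat_lit 76) (nat_lit 67547355138) (nat_lit 248) (nat_lit 5) (nat_lit 265) (nat_lit 5) (nat_lit 249) (nat_lit 5) (nat_lit 408) (nat_lit 397) (nat_lit 215))))) (XT.nd (nat_lit 234) (nat_lit 2128) (nat_lit 0) (XT.nd (nat_lit 78) (nat_lit 1216) (nat_lit 0) (XT.lf (nat_lit 0) (nat_lit 19141625240) (nat_lit 760) (nat_lit 25122895770) (nat_lit 76) (nat_lit 45086130565) (nat_lit 239) (nat_lit 5) (nat_lit 249) (nat_lit 5) (nat_lit 240) (nat_lit 5) (nat_lit 409) (nat_lit 397) (nat_lit 214)) (XT.nd (nat_lit 78) (nat_lit 608) (nat_lit 0) (XT.lf (nat_lit 0) (nat_lit 33655621235) (nat_lit 684) (nat_lit 37272723247) (nat_lit 76) (nat_lit 20874945725) (nat_lit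 231) (nat_lit 5) (nat_lit 240) (nat_lit 5) (nat_lit 232) (nat_lit 5) (nat_lit 410) (nat_lit 397) (nat_lit 213)) (XT.lf (nat_lit 0) (nat_lit 44743761600) (nat_lit 608) (nat_lit 5288674028) (nat_lit 684) (nat_lit 44312011862) (nat_lit 223) (nat_lit 5) (nat_lit 231) (nat_lit 5) (nat_lit 232) (nat_lit 5) (nat_lit 411) (nat_lit 397) (nat_lit 212)))) (XT.nd (nat_lit 156) (nat_lit 1064) (nat_lit 0) (XT.nd (nat_lit 78) (nat_lit 532) (nat_lit 0) (XT.lf (nat_lit 0) (nat_lit 34699530066) (nat_lit 532) (nat_lit 33860380894) (nat_lit 608) (nat_lit 28412797337) (nat_lit 216) (nat_lit 5) (nat_lit 223) (nat_lit 5) (nat_lit 224) (nat_lit 5) (nat_lit 412) (nat_lit 397) (nat_lit 211)) (XT.lf (nat_lit 0) (nat_lit 24618427557) (nat_lit 532) (nat_lit 64536962642) (nat_lit 608) (nat_lit 10542743297) (nat_lit 209) (nat_lit 5) (nat_lit 216) (nat_lit 5) (nat_lit 217) (nat_lit 5) (nat_lit 413) (nat_lit 397) (nat_lit 210)))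 (XT.nd (nat_lit 78) (nat_lit 532) (nat_lit 0) (XT.lf (nat_lit 0) (nat_lit 9238572597) (nat_lit 532) (nat_lit 88104749180) (nat_lit 76) (nat_lit 5178792400) (nat_lit 202) (nat_lit 5) (nat_lit 209) (nat_lit 5) (nat_lit 203) (nat_lit 5) (nat_lit 414) (nat_lit 397) (nat_lit 209)) (XT.lf (nat_lit 0) (nat_lit 3801964718) (nat_lit 532) (nat_lit 27458630623) (nat_lit 608) (nat_lit 74179476832) (nat_lit 195) (nat_lit 5) (nat_lit 202) (nat_lit 5) (nat_lit 203) (nat_lit 5) (nat_lit 415) (nat_lit 397) (nat_lit 208))))))))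
noncomputable def xc122 : XT := (XT.nd (nat_lit 52884) (nat_lit 0) (nat_lit 304) (XT.nd (nat_lit 51870) (nat_lit 0) (nat_lit 5928) (XT.nd (nat_lit 468) (nat_lit 1520) (nat_lit 0) (XT.nd (nat_lit 234) (nat_lit 1368) (nat_lit 0) (XT.nd (nat_lit 78) (nat_lit 912) (nat_lit 0) (XT.lf (nat_lit 0) (nat_lit 55740291631) (nat_lit 608) (nat_lit 6782867819) (nat_lit 76) (nat_lit 45940071661) (nat_lit 195) (nat_lit 5) (nat_lit 203) (nat_lit 5) (nat_lit 196) (nat_lit 5) (nat_lit 416) (nat_lit 397) (nat_lit 207)) (XT.nd (nat_lit 78) (nat_lit 456) (nat_lit 0) (XT.lf (nat_lit 0) (nat_lit 82740561056) (nat_lit 532) (nat_lit 17336197937) (nat_lit 76) (nat_lit 11521891554) (nat_lit 189) (nat_lit 5) (nat_lit 196) (nat_lit 5) (nat_lit 190) (nat_lit 5) (nat_lit 417) (nat_lit 397) (nat_lit 206)) (XT.lf (nat_lit 0) (nat_lit 86671706785) (nat_lit 456) (nat_lit 25953136582) (nat_lit 532) (nat_lit 2219977799) (nat_lit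 183) (nat_lit 5) (nat_lit 189) (nat_lit 5) (nat_lit 190) (nat_lit 5) (nat_lit 418) (nat_lit 397) (nat_lit 205)))) (XT.nd (nat_lit 78) (nat_lit 836) (nat_lit 0) (XT.lf (nat_lit 0) (nat_lit 26699740693) (nat_lit 532) (nat_lit 39436609866) (nat_lit 76) (nat_lit 52065958863) (nat_lit 176) (nat_lit 5) (nat_lit 183) (nat_lit 5) (nat_lit 177) (nat_lit 5) (nat_lit 419) (nat_lit 397) (nat_lit 204)) (XT.nd (nat_lit 78) (nat_lit 380) (nat_lit 0) (XT.lf (nat_lit 0) (nat_lit 58379480204) (nat_lit 532) (nat_lit 50793585125) (nat_lit 76) (nat_lit 12513149104) (nat_lit 170) (nat_lit 5) (nat_lit 177) (nat_lit 5) (nat_lit 171) (nat_lit 5) (nat_lit 420) (nat_lit 397) (nat_lit 203)) (XT.lf (nat_lit 0) (nat_lit 62783046434) (nat_lit 380) (nat_lit 30540531700) (nat_lit 456) (nat_lit 31970325578) (nat_lit 165) (nat_lit 5) (nat_lit 170) (nat_lit 5) (nat_lit 171) (nat_lit 5) (nat_lit 421) (nat_lit 397) (nat_lit 202)))))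 (XT.nd (nat_lit 234) (nat_lit 304) (nat_lit 0) (XT.nd (nat_lit 78) (nat_lit 760) (nat_lit 0) (XT.lf (nat_lit 0) (nat_lit 2482352583) (nat_lit 456) (nat_lit 74466871893) (nat_lit 76) (nat_lit 52085454499) (nat_lit 159) (nat_lit 5) (nat_lit 165) (nat_lit 5) (nat_lit 160) (nat_lit 5) (nat_lit 422) (nat_lit 397) (nat_lit 201)) (XT.nd (nat_lit 78) (nat_lit 380) (nat_lit 0) (XT.lf (nat_lit 0) (nat_lit 39468121068) (nat_lit 456) (nat_lit 86849939843) (nat_lit 76) (nat_lit 6590786541) (nat_lit 154) (nat_lit 5) (nat_lit 160) (nat_lit 5) (nat_lit 155) (nat_lit 5) (nat_lit 423) (nat_lit 397) (nat_lit 200)) (XT.lf (nat_lit 0) (nat_lit 37153319498) (nat_lit 380) (nat_lit 43057231797) (nat_lit 456) (nat_lit 56708951994) (nat_lit 149) (nat_lit 5) (nat_lit 154) (nat_lit 5) (nat_lit 155) (nat_lit 5) (nat_lit 424) (nat_lit 397) (nat_lit 199)))) (XT.nd (nat_lit 51012) (nat_lit 0) (nat_lit 8512) (XT.lf (nat_lit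 0) (nat_lit 28181574021) (nat_lit 304) (nat_lit 96408226186) (nat_lit 380) (nat_lit 16492900926) (nat_lit 145) (nat_lit 5) (nat_lit 149) (nat_lit 5) (nat_lit 150) (nat_lit 5) (nat_lit 425) (nat_lit 397) (nat_lit 198)) (XT.nd (nat_lit 78) (nat_lit 0) (nat_lit 76) (XT.lf (nat_lit 0) (nat_lit 10785874414) (nat_lit 1292) (nat_lit 11837773491) (nat_lit 1292) (nat_lit 11837773491) (nat_lit 257) (nat_lit 3) (nat_lit 274) (nat_lit 3) (nat_lit 274) (nat_lit 5) (nat_lit 398) (nat_lit 398) (nat_lit 224)) (XT.lf (nat_lit 0) (nat_lit 22547972429) (nat_lit 1216) (nat_lit 37948595063) (nat_lit 1292) (nat_lit 10136231153) (nat_lit 258) (nat_lit 5) (nat_lit 274) (nat_lit 5) (nat_lit 275) (nat_lit 5) (nat_lit 399) (nat_lit 398) (nat_lit 223)))))) (XT.nd (nat_lit 468) (nat_lit 2660) (nat_lit 0) (XT.nd (nat_lit 234) (nat_lit 0) (nat_lit 228) (XT.nd (nat_lit 78) (nat_lit 0) (nat_lit 76) (XT.lf (nat_lit 76) (nat_lit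 19863449354) (nat_lit 0) (nat_lit 4601887419) (nat_lit 1292) (nat_lit 47936146097) (nat_lit 259) (nat_lit 5) (nat_lit 258) (nat_lit 5) (nat_lit 275) (nat_lit 5) (nat_lit 400) (nat_lit 398) (nat_lit 222)) (XT.nd (nat_lit 78) (nat_lit 0) (nat_lit 76) (XT.lf (nat_lit 76) (nat_lit 6718716629) (nat_lit 0) (nat_lit 20737507181) (nat_lit 1292) (nat_lit 46773048308) (nat_lit 260) (nat_lit 5) (nat_lit 259) (nat_lit 5) (nat_lit 276) (nat_lit 5) (nat_lit 401) (nat_lit 398) (nat_lit 221)) (XT.lf (nat_lit 0) (nat_lit 31555195998) (nat_lit 1216) (nat_lit 6515893003) (nat_lit 1292) (nat_lit 38048606030) (nat_lit 260) (nat_lit 5) (nat_lit 276) (nat_lit 5) (nat_lit 277) (nat_lit 5) (nat_lit 402) (nat_lit 398) (nat_lit 220)))) (XT.nd (nat_lit 78) (nat_lit 0) (nat_lit 76) (XT.lf (nat_lit 0) (nat_lit 36838970791) (nat_lit 1216) (nat_lit 19832248495) (nat_lit 1292) (nat_lit 21404024587) (nat_lit 261) (nat_lit 5)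 (nat_lit 277) (nat_lit 5) (nat_lit 278) (nat_lit 5) (nat_lit 403) (nat_lit 398) (nat_lit 219)) (XT.nd (nat_lit 78) (nat_lit 0) (nat_lit 0) (XT.lf (nat_lit 0) (nat_lit 43320930087) (nat_lit 1216) (nat_lit 33358635243) (nat_lit 1292) (nat_lit 3420985341) (nat_lit 262) (nat_lit 5) (nat_lit 278) (nat_lit 5) (nat_lit 279) (nat_lit 5) (nat_lit 404) (nat_lit 398) (nat_lit 218)) (XT.lf (nat_lit 76) (nat_lit 34945276467) (nat_lit 0) (nat_lit 16294664057) (nat_lit 1292) (nat_lit 30953794056) (nat_lit 263) (nat_lit 5) (nat_lit 262) (nat_lit 5) (nat_lit 279) (nat_lit 5) (nat_lit 405) (nat_lit 398) (nat_lit 217))))) (XT.nd (nat_lit 234) (nat_lit 3040) (nat_lit 0) (XT.nd (nat_lit 78) (nat_lit 0) (nat_lit 76) (XT.lf (nat_lit 76) (nat_lit 22971363550) (nat_lit 0) (nat_lit 37602909067) (nat_lit 1292) (nat_lit 23786724283) (nat_lit 264) (nat_lit 5) (nat_lit 263) (nat_lit 5) (nat_lit 280) (nat_lit 5) (nat_lit 406)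 (nat_lit 398) (nat_lit 216)) (XT.nd (nat_lit 78) (nat_lit 0) (nat_lit 76) (XT.lf (nat_lit 76) (nat_lit 10861015488) (nat_lit 0) (nat_lit 60521610305) (nat_lit 1292) (nat_lit 15223777743) (nat_lit 265) (nat_lit 5) (nat_lit 264) (nat_lit 5) (nat_lit 281) (nat_lit 5) (nat_lit 407) (nat_lit 398) (nat_lit 215)) (XT.lf (nat_lit 0) (nat_lit 83775470225) (nat_lit 1216) (nat_lit 1352048675) (nat_lit 76) (nat_lit 3805239712) (nat_lit 265) (nat_lit 5) (nat_lit 281) (nat_lit 5) (nat_lit 266) (nat_lit 5) (nat_lit 408) (nat_lit 398) (nat_lit 214)))) (XT.nd (nat_lit 156) (nat_lit 1216) (nat_lit 0) (XT.nd (nat_lit 78) (nat_lit 684) (nat_lit 0) (XT.lf (nat_lit 0) (nat_lit 6676808403) (nat_lit 1292) (nat_lit 13735404258) (nat_lit 76) (nat_lit 70920561195) (nat_lit 248) (nat_lit 5) (nat_lit 265) (nat_lit 5) (nat_lit 249) (nat_lit 5) (nat_lit 409) (nat_lit 398) (nat_lit 213)) (XT.lf (nat_lit 0) (nat_lit 20127278655)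 (nat_lit 760) (nat_lit 26352396464) (nat_lit 76) (nat_lit 47337643277) (nat_lit 239) (nat_lit 5) (nat_lit 249) (nat_lit 5) (nat_lit 240) (nat_lit 5) (nat_lit 410) (nat_lit 398) (nat_lit 212))) (XT.nd (nat_lit 78) (nat_lit 608) (nat_lit 0) (XT.lf (nat_lit 0) (nat_lit 35365847461) (nat_lit 684) (nat_lit 39109631879) (nat_lit 76) (nat_lit 21917143837) (nat_lit 231) (nat_lit 5) (nat_lit 240) (nat_lit 5) (nat_lit 232) (nat_lit 5) (nat_lit 411) (nat_lit 398) (nat_lit 211)) (XT.lf (nat_lit 0) (nat_lit 47006911070) (nat_lit 608) (nat_lit 5553534147) (nat_lit 684) (nat_lit 46500425218) (nat_lit 223) (nat_lit 5) (nat_lit 231) (nat_lit 5) (nat_lit 232) (nat_lit 5) (nat_lit 412) (nat_lit 398) (nat_lit 210))))))) (XT.nd (nat_lit 936) (nat_lit 380) (nat_lit 0) (XT.nd (nat_lit 468) (nat_lit 2660) (nat_lit 0) (XT.nd (nat_lit 234) (nat_lit 988) (nat_lit 0) (XT.nd (nat_lit 78) (nat_lit 1064) (nat_lit 0) (XT.lf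 (nat_lit 0) (nat_lit 36460504276) (nat_lit 532) (nat_lit 35552779481) (nat_lit 608) (nat_lit 29807291216) (nat_lit 216) (nat_lit 5) (nat_lit 223) (nat_lit 5) (nat_lit 224) (nat_lit 5) (nat_lit 413) (nat_lit 398) (nat_lit 209)) (XT.nd (nat_lit 78) (nat_lit 532) (nat_lit 0) (XT.lf (nat_lit 0) (nat_lit 25875342333) (nat_lit 532) (nat_lit 67762241727) (nat_lit 608) (nat_lit 11044716309) (nat_lit 209) (nat_lit 5) (nat_lit 216) (nat_lit 5) (nat_lit 217) (nat_lit 5) (nat_lit 414) (nat_lit 398) (nat_lit 208)) (XT.lf (nat_lit 0) (nat_lit 9724265871) (nat_lit 532) (nat_lit 92483554892) (nat_lit 76) (nat_lit 5439679646) (nat_lit 202) (nat_lit 5) (nat_lit 209) (nat_lit 5) (nat_lit 203) (nat_lit 5) (nat_lit 415) (nat_lit 398) (nat_lit 207)))) (XT.nd (nat_lit 78) (nat_lit 456) (nat_lit 0) (XT.lf (nat_lit 0) (nat_lit 4017737041) (nat_lit 532) (nat_lit 28828767858) (nat_lit 608) (nat_lit 77864878265) (nat_lit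 195) (nat_lit 5) (nat_lit 202) (nat_lit 5) (nat_lit 203) (nat_lit 5) (nat_lit 416) (nat_lit 398) (nat_lit 206)) (XT.nd (nat_lit 78) (nat_lit 456) (nat_lit 0) (XT.lf (nat_lit 0) (nat_lit 58549122070) (nat_lit 608) (nat_lit 7096925643) (nat_lit 76) (nat_lit 48239684548) (nat_lit 195) (nat_lit 5) (nat_lit 203) (nat_lit 5) (nat_lit 196) (nat_lit 5) (nat_lit 417) (nat_lit 398) (nat_lit 205)) (XT.lf (nat_lit 0) (nat_lit 86898632595) (nat_lit 532) (nat_lit 18178037609) (nat_lit 76) (nat_lit 12101275919) (nat_lit 189) (nat_lit 5) (nat_lit 196) (nat_lit 5) (nat_lit 190) (nat_lit 5) (nat_lit 418) (nat_lit 398) (nat_lit 204))))) (XT.nd (nat_lit 234) (nat_lit 1216) (nat_lit 0) (XT.nd (nat_lit 78) (nat_lit 988) (nat_lit 0) (XT.lf (nat_lit 0) (nat_lit 91029546582) (nat_lit 456) (nat_lit 27246813516) (nat_lit 532) (nat_lit 2310088510) (nat_lit 183) (nat_lit 5) (nat_lit 189) (nat_lit 5) (nat_lit 190) (nat_lit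 5) (nat_lit 419) (nat_lit 398) (nat_lit 203)) (XT.nd (nat_lit 78) (nat_lit 456) (nat_lit 0) (XT.lf (nat_lit 0) (nat_lit 28054503966) (nat_lit 532) (nat_lit 41383923726) (nat_lit 76) (nat_lit 54673398940) (nat_lit 176) (nat_lit 5) (nat_lit 183) (nat_lit 5) (nat_lit 177) (nat_lit 5) (nat_lit 420) (nat_lit 398) (nat_lit 202)) (XT.lf (nat_lit 0) (nat_lit 61317563305) (nat_lit 532) (nat_lit 53308919538) (nat_lit 76) (nat_lit 13143464303) (nat_lit 170) (nat_lit 5) (nat_lit 177) (nat_lit 5) (nat_lit 171) (nat_lit 5) (nat_lit 421) (nat_lit 398) (nat_lit 201)))) (XT.nd (nat_lit 78) (nat_lit 836) (nat_lit 0) (XT.lf (nat_lit 0) (nat_lit 65945845759) (nat_lit 380) (nat_lit 32062337726) (nat_lit 456) (nat_lit 33549858110) (nat_lit 165) (nat_lit 5) (nat_lit 170) (nat_lit 5) (nat_lit 171) (nat_lit 5) (nat_lit 422) (nat_lit 398) (nat_lit 200)) (XT.nd (nat_lit 78) (nat_lit 380) (nat_lit 0) (XT.lf (nat_lit 0)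 (nat_lit 2624473198) (nat_lit 456) (nat_lit 78166391272) (nat_lit 76) (nat_lit 54695004192) (nat_lit 159) (nat_lit 5) (nat_lit 165) (nat_lit 5) (nat_lit 160) (nat_lit 5) (nat_lit 423) (nat_lit 398) (nat_lit 199)) (XT.lf (nat_lit 0) (nat_lit 41458950765) (nat_lit 456) (nat_lit 91168826015) (nat_lit 76) (nat_lit 6925986362) (nat_lit 154) (nat_lit 5) (nat_lit 160) (nat_lit 5) (nat_lit 155) (nat_lit 5) (nat_lit 424) (nat_lit 398) (nat_lit 198)))))) (XT.nd (nat_lit 51480) (nat_lit 0) (nat_lit 7524) (XT.nd (nat_lit 51246) (nat_lit 0) (nat_lit 8284) (XT.nd (nat_lit 51090) (nat_lit 0) (nat_lit 8208) (XT.lf (nat_lit 0) (nat_lit 39033919494) (nat_lit 380) (nat_lit 45203973769) (nat_lit 456) (nat_lit 59527076976) (nat_lit 149) (nat_lit 5) (nat_lit 154) (nat_lit 5) (nat_lit 155) (nat_lit 5) (nat_lit 425) (nat_lit 398) (nat_lit 197)) (XT.nd (nat_lit 78) (nat_lit 0) (nat_lit 76) (XT.lf (nat_lit 0) (nat_lit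 11347209151) (nat_lit 1292) (nat_lit 12418307438) (nat_lit 1292) (nat_lit 12418307438) (nat_lit 257) (nat_lit 3) (nat_lit 274) (nat_lit 3) (nat_lit 274) (nat_lit 5) (nat_lit 399) (nat_lit 399) (nat_lit 222)) (XT.lf (nat_lit 0) (nat_lit 23717372415) (nat_lit 1216) (nat_lit 39822493180) (nat_lit 1292) (nat_lit 10623299210) (nat_lit 258) (nat_lit 5) (nat_lit 274) (nat_lit 5) (nat_lit 275) (nat_lit 5) (nat_lit 400) (nat_lit 399) (nat_lit 221)))) (XT.nd (nat_lit 78) (nat_lit 0) (nat_lit 76) (XT.lf (nat_lit 76) (nat_lit 20879478928) (nat_lit 0) (nat_lit 4849345700) (nat_lit 1292) (nat_lit 50291512678) (nat_lit 259) (nat_lit 5) (nat_lit 258) (nat_lit 5) (nat_lit 275) (nat_lit 5) (nat_lit 401) (nat_lit 399) (nat_lit 220)) (XT.nd (nat_lit 78) (nat_lit 0) (nat_lit 76) (XT.lf (nat_lit 76) (nat_lit 7078201245) (nat_lit 0) (nat_lit 21789206887) (nat_lit 1292) (nat_lit 49072163944) (nat_lit 260) (nat_lit 5)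 (nat_lit 259) (nat_lit 5) (nat_lit 276) (nat_lit 5) (nat_lit 402) (nat_lit 399) (nat_lit 219)) (XT.lf (nat_lit 0) (nat_lit 33169365922) (nat_lit 1216) (nat_lit 6818016288) (nat_lit 1292) (nat_lit 39937193407) (nat_lit 260) (nat_lit 5) (nat_lit 276) (nat_lit 5) (nat_lit 277) (nat_lit 5) (nat_lit 403) (nat_lit 399) (nat_lit 218))))) (XT.nd (nat_lit 234) (nat_lit 988) (nat_lit 0) (XT.nd (nat_lit 78) (nat_lit 0) (nat_lit 76) (XT.lf (nat_lit 0) (nat_lit 38715702227) (nat_lit 1216) (nat_lit 20799695440) (nat_lit 1292) (nat_lit 22462553617) (nat_lit 261) (nat_lit 5) (nat_lit 277) (nat_lit 5) (nat_lit 278) (nat_lit 5) (nat_lit 404) (nat_lit 399) (nat_lit 217)) (XT.nd (nat_lit 78) (nat_lit 0) (nat_lit 0) (XT.lf (nat_lit 0) (nat_lit 45520233827) (nat_lit 1216) (nat_lit 35001987933) (nat_lit 1292) (nat_lit 3582347969) (nat_lit 262) (nat_lit 5) (nat_lit 278) (nat_lit 5) (nat_lit 279) (nat_lit 5) (nat_lit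 405) (nat_lit 399) (nat_lit 216)) (XT.lf (nat_lit 76) (nat_lit 36716414809) (nat_lit 0) (nat_lit 17117425796) (nat_lit 1292) (nat_lit 32468613367) (nat_lit 263) (nat_lit 5) (nat_lit 262) (nat_lit 5) (nat_lit 279) (nat_lit 5) (nat_lit 406) (nat_lit 399) (nat_lit 215)))) (XT.nd (nat_lit 156) (nat_lit 1140) (nat_lit 0) (XT.nd (nat_lit 78) (nat_lit 0) (nat_lit 76) (XT.lf (nat_lit 76) (nat_lit 24144136459) (nat_lit 0) (nat_lit 39489392821) (nat_lit 1292) (nat_lit 24944591417) (nat_lit 264) (nat_lit 5) (nat_lit 263) (nat_lit 5) (nat_lit 280) (nat_lit 5) (nat_lit 407) (nat_lit 399) (nat_lit 214)) (XT.lf (nat_lit 76) (nat_lit 11428535855) (nat_lit 0) (nat_lit 63552487019) (nat_lit 1292) (nat_lit 15954813571) (nat_lit 265) (nat_lit 5) (nat_lit 264) (nat_lit 5) (nat_lit 281) (nat_lit 5) (nat_lit 408) (nat_lit 399) (nat_lit 213))) (XT.nd (nat_lit 78) (nat_lit 1292) (nat_lit 0) (XT.lf (nat_lit 0) (nat_lit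 87992072011) (nat_lit 1216) (nat_lit 1395457810) (nat_lit 76) (nat_lit 3991023024) (nat_lit 265) (nat_lit 5) (nat_lit 281) (nat_lit 5) (nat_lit 266) (nat_lit 5) (nat_lit 409) (nat_lit 399) (nat_lit 212)) (XT.lf (nat_lit 0) (nat_lit 7037650745) (nat_lit 1292) (nat_lit 14398129093) (nat_lit 76) (nat_lit 74462814470) (nat_lit 248) (nat_lit 5) (nat_lit 265) (nat_lit 5) (nat_lit 249) (nat_lit 5) (nat_lit 410) (nat_lit 399) (nat_lit 211))))))))
noncomputable def xc123 : XT := (XT.nd (nat_lit 53040) (nat_lit 0) (nat_lit 836) (XT.nd (nat_lit 936) (nat_lit 1216) (nat_lit 0) (XT.nd (nat_lit 468) (nat_lit 2432) (nat_lit 0) (XT.nd (nat_lit 234) (nat_lit 1596) (nat_lit 0) (XT.nd (nat_lit 78) (nat_lit 1216) (nat_lit 0) (XT.lf (nat_lit 0) (nat_lit 21159558373) (nat_lit 760) (nat_lit 27645849308) (nat_lit 76) (nat_lit 49701991367) (nat_lit 239) (nat_lit 5) (nat_lit 249) (nat_lit 5) (nat_lit 240) (nat_lit 5)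 (nat_lit 411) (nat_lit 399) (nat_lit 210)) (XT.nd (nat_lit 78) (nat_lit 608) (nat_lit 0) (XT.lf (nat_lit 0) (nat_lit 37159033407) (nat_lit 684) (nat_lit 41040870816) (nat_lit 76) (nat_lit 23011595883) (nat_lit 231) (nat_lit 5) (nat_lit 240) (nat_lit 5) (nat_lit 232) (nat_lit 5) (nat_lit 412) (nat_lit 399) (nat_lit 209)) (XT.lf (nat_lit 0) (nat_lit 49380804370) (nat_lit 608) (nat_lit 5831597629) (nat_lit 684) (nat_lit 48800786854) (nat_lit 223) (nat_lit 5) (nat_lit 231) (nat_lit 5) (nat_lit 232) (nat_lit 5) (nat_lit 413) (nat_lit 399) (nat_lit 208)))) (XT.nd (nat_lit 78) (nat_lit 1064) (nat_lit 0) (XT.lf (nat_lit 0) (nat_lit 38307110176) (nat_lit 532) (nat_lit 37329855680) (nat_lit 608) (nat_lit 31273940594) (nat_lit 216) (nat_lit 5) (nat_lit 223) (nat_lit 5) (nat_lit 224) (nat_lit 5) (nat_lit 414) (nat_lit 399) (nat_lit 207)) (XT.nd (nat_lit 78) (nat_lit 532) (nat_lit 0) (XT.lf (nat_lit 0) (nat_lit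 27192686229) (nat_lit 532) (nat_lit 71148930642) (nat_lit 608) (nat_lit 11574127496) (nat_lit 209) (nat_lit 5) (nat_lit 216) (nat_lit 5) (nat_lit 217) (nat_lit 5) (nat_lit 415) (nat_lit 399) (nat_lit 206)) (XT.lf (nat_lit 0) (nat_lit 10232034398) (nat_lit 532) (nat_lit 97083758264) (nat_lit 76) (nat_lit 5713430183) (nat_lit 202) (nat_lit 5) (nat_lit 209) (nat_lit 5) (nat_lit 203) (nat_lit 5) (nat_lit 416) (nat_lit 399) (nat_lit 205))))) (XT.nd (nat_lit 234) (nat_lit 1444) (nat_lit 0) (XT.nd (nat_lit 78) (nat_lit 456) (nat_lit 0) (XT.lf (nat_lit 0) (nat_lit 4241911046) (nat_lit 532) (nat_lit 30267671742) (nat_lit 608) (nat_lit 81736741308) (nat_lit 195) (nat_lit 5) (nat_lit 202) (nat_lit 5) (nat_lit 203) (nat_lit 5) (nat_lit 417) (nat_lit 399) (nat_lit 204)) (XT.nd (nat_lit 78) (nat_lit 456) (nat_lit 0) (XT.lf (nat_lit 0) (nat_lit 61496365799) (nat_lit 608) (nat_lit 7429018577) (nat_lit 76) (nat_lit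 50654035491) (nat_lit 195) (nat_lit 5) (nat_lit 203) (nat_lit 5) (nat_lit 196) (nat_lit 5) (nat_lit 418) (nat_lit 399) (nat_lit 203)) (XT.lf (nat_lit 0) (nat_lit 91262651286) (nat_lit 532) (nat_lit 19064290759) (nat_lit 76) (nat_lit 12709323649) (nat_lit 189) (nat_lit 5) (nat_lit 196) (nat_lit 5) (nat_lit 190) (nat_lit 5) (nat_lit 419) (nat_lit 399) (nat_lit 202)))) (XT.nd (nat_lit 78) (nat_lit 988) (nat_lit 0) (XT.lf (nat_lit 0) (nat_lit 95603023420) (nat_lit 456) (nat_lit 28605544310) (nat_lit 532) (nat_lit 2406646742) (nat_lit 183) (nat_lit 5) (nat_lit 189) (nat_lit 5) (nat_lit 190) (nat_lit 5) (nat_lit 420) (nat_lit 399) (nat_lit 201)) (XT.nd (nat_lit 78) (nat_lit 456) (nat_lit 0) (XT.lf (nat_lit 0) (nat_lit 29475166796) (nat_lit 532) (nat_lit 43430882604) (nat_lit 76) (nat_lit 57410825925) (nat_lit 176) (nat_lit 5) (nat_lit 183) (nat_lit 5) (nat_lit 177) (nat_lit 5) (nat_lit 421) (nat_lit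 399) (nat_lit 200)) (XT.lf (nat_lit 0) (nat_lit 64400773978) (nat_lit 532) (nat_lit 55952284025) (nat_lit 76) (nat_lit 13804862228) (nat_lit 170) (nat_lit 5) (nat_lit 177) (nat_lit 5) (nat_lit 171) (nat_lit 5) (nat_lit 422) (nat_lit 399) (nat_lit 199)))))) (XT.nd (nat_lit 51558) (nat_lit 0) (nat_lit 7980) (XT.nd (nat_lit 51324) (nat_lit 0) (nat_lit 7828) (XT.nd (nat_lit 78) (nat_lit 836) (nat_lit 0) (XT.lf (nat_lit 0) (nat_lit 69264586575) (nat_lit 380) (nat_lit 33660719411) (nat_lit 456) (nat_lit 35210132197) (nat_lit 165) (nat_lit 5) (nat_lit 170) (nat_lit 5) (nat_lit 171) (nat_lit 5) (nat_lit 423) (nat_lit 399) (nat_lit 198)) (XT.nd (nat_lit 78) (nat_lit 380) (nat_lit 0) (XT.lf (nat_lit 0) (nat_lit 2772026097) (nat_lit 456) (nat_lit 82053101571) (nat_lit 76) (nat_lit 57434540769) (nat_lit 159) (nat_lit 5) (nat_lit 165) (nat_lit 5) (nat_lit 160) (nat_lit 5) (nat_lit 424) (nat_lit 399) (nat_lit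 197)) (XT.lf (nat_lit 0) (nat_lit 43547702063) (nat_lit 456) (nat_lit 95705851606) (nat_lit 76) (nat_lit 7277419916) (nat_lit 154) (nat_lit 5) (nat_lit 160) (nat_lit 5) (nat_lit 155) (nat_lit 5) (nat_lit 425) (nat_lit 399) (nat_lit 196)))) (XT.nd (nat_lit 78) (nat_lit 0) (nat_lit 76) (XT.lf (nat_lit 0) (nat_lit 11934561460) (nat_lit 1292) (nat_lit 13028923737) (nat_lit 1292) (nat_lit 13028923737) (nat_lit 257) (nat_lit 3) (nat_lit 274) (nat_lit 3) (nat_lit 274) (nat_lit 5) (nat_lit 400) (nat_lit 400) (nat_lit 220)) (XT.nd (nat_lit 78) (nat_lit 0) (nat_lit 0) (XT.lf (nat_lit 0) (nat_lit 24941337512) (nat_lit 1216) (nat_lit 41792273952) (nat_lit 1292) (nat_lit 11136556234) (nat_lit 258) (nat_lit 5) (nat_lit 274) (nat_lit 5) (nat_lit 275) (nat_lit 5) (nat_lit 401) (nat_lit 400) (nat_lit 219)) (XT.lf (nat_lit 76) (nat_lit 21944184943) (nat_lit 0) (nat_lit 5107562563) (nat_lit 1292) (nat_lit 52768500354)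 (nat_lit 259) (nat_lit 5) (nat_lit 258) (nat_lit 5) (nat_lit 275) (nat_lit 5) (nat_lit 402) (nat_lit 400) (nat_lit 218))))) (XT.nd (nat_lit 234) (nat_lit 0) (nat_lit 228) (XT.nd (nat_lit 78) (nat_lit 0) (nat_lit 76) (XT.lf (nat_lit 76) (nat_lit 7453470749) (nat_lit 0) (nat_lit 22892113350) (nat_lit 1292) (nat_lit 51489911118) (nat_lit 260) (nat_lit 5) (nat_lit 259) (nat_lit 5) (nat_lit 276) (nat_lit 5) (nat_lit 403) (nat_lit 400) (nat_lit 217)) (XT.nd (nat_lit 78) (nat_lit 0) (nat_lit 76) (XT.lf (nat_lit 0) (nat_lit 34860859274) (nat_lit 1216) (nat_lit 7137446476) (nat_lit 1292) (nat_lit 41921497138) (nat_lit 260) (nat_lit 5) (nat_lit 276) (nat_lit 5) (nat_lit 277) (nat_lit 5) (nat_lit 404) (nat_lit 400) (nat_lit 216)) (XT.lf (nat_lit 0) (nat_lit 40683036451) (nat_lit 1216) (nat_lit 21817761410) (nat_lit 1292) (nat_lit 23575094268) (nat_lit 261) (nat_lit 5) (nat_lit 277) (nat_lit 5) (nat_lit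 278) (nat_lit 5) (nat_lit 405) (nat_lit 400) (nat_lit 215)))) (XT.nd (nat_lit 156) (nat_lit 0) (nat_lit 76) (XT.nd (nat_lit 78) (nat_lit 0) (nat_lit 0) (XT.lf (nat_lit 0) (nat_lit 47826410811) (nat_lit 1216) (nat_lit 36729793387) (nat_lit 1292) (nat_lit 3752679301) (nat_lit 262) (nat_lit 5) (nat_lit 278) (nat_lit 5) (nat_lit 279) (nat_lit 5) (nat_lit 406) (nat_lit 400) (nat_lit 214)) (XT.lf (nat_lit 76) (nat_lit 38573890441) (nat_lit 0) (nat_lit 17980579205) (nat_lit 1292) (nat_lit 34062229621) (nat_lit 263) (nat_lit 5) (nat_lit 262) (nat_lit 5) (nat_lit 279) (nat_lit 5) (nat_lit 407) (nat_lit 400) (nat_lit 213))) (XT.nd (nat_lit 78) (nat_lit 0) (nat_lit 76) (XT.lf (nat_lit 76) (nat_lit 25373297688) (nat_lit 0) (nat_lit 41469611486) (nat_lit 1292) (nat_lit 26163277604) (nat_lit 264) (nat_lit 5) (nat_lit 263) (nat_lit 5) (nat_lit 280) (nat_lit 5) (nat_lit 408) (nat_lit 400) (nat_lit 212)) (XT.lf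 (nat_lit 76) (nat_lit 12022157291) (nat_lit 0) (nat_lit 66734461664) (nat_lit 1292) (nat_lit 16725204536) (nat_lit 265) (nat_lit 5) (nat_lit 264) (nat_lit 5) (nat_lit 281) (nat_lit 5) (nat_lit 409) (nat_lit 400) (nat_lit 211))))))) (XT.nd (nat_lit 936) (nat_lit 1368) (nat_lit 0) (XT.nd (nat_lit 468) (nat_lit 2508) (nat_lit 0) (XT.nd (nat_lit 234) (nat_lit 1748) (nat_lit 0) (XT.nd (nat_lit 78) (nat_lit 1976) (nat_lit 0) (XT.lf (nat_lit 0) (nat_lit 92416916677) (nat_lit 1216) (nat_lit 1443286664) (nat_lit 76) (nat_lit 4186511886) (nat_lit 265) (nat_lit 5) (nat_lit 281) (nat_lit 5) (nat_lit 266) (nat_lit 5) (nat_lit 410) (nat_lit 400) (nat_lit 210)) (XT.nd (nat_lit 78) (nat_lit 684) (nat_lit 0) (XT.lf (nat_lit 0) (nat_lit 7414024821) (nat_lit 1292) (nat_lit 15096225680) (nat_lit 76) (nat_lit 78182531353) (nat_lit 248) (nat_lit 5) (nat_lit 265) (nat_lit 5) (nat_lit 249) (nat_lit 5) (nat_lit 411)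 (nat_lit 400) (nat_lit 209)) (XT.lf (nat_lit 0) (nat_lit 22241042673) (nat_lit 760) (nat_lit 29006221611) (nat_lit 76) (nat_lit 52184792456) (nat_lit 239) (nat_lit 5) (nat_lit 249) (nat_lit 5) (nat_lit 240) (nat_lit 5) (nat_lit 412) (nat_lit 400) (nat_lit 208)))) (XT.nd (nat_lit 78) (nat_lit 1140) (nat_lit 0) (XT.lf (nat_lit 0) (nat_lit 39039564282) (nat_lit 684) (nat_lit 43070925552) (nat_lit 76) (nat_lit 24160901169) (nat_lit 231) (nat_lit 5) (nat_lit 240) (nat_lit 5) (nat_lit 232) (nat_lit 5) (nat_lit 413) (nat_lit 400) (nat_lit 207)) (XT.nd (nat_lit 78) (nat_lit 532) (nat_lit 0) (XT.lf (nat_lit 0) (nat_lit 51871203089) (nat_lit 608) (nat_lit 6123528325) (nat_lit 684) (nat_lit 51218459190) (nat_lit 223) (nat_lit 5) (nat_lit 231) (nat_lit 5) (nat_lit 232) (nat_lit 5) (nat_lit 414) (nat_lit 400) (nat_lit 206)) (XT.lf (nat_lit 0) (nat_lit 40243854063) (nat_lit 532) (nat_lit 39195838012) (nat_lit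 608) (nat_lit 32816127254) (nat_lit 216) (nat_lit 5) (nat_lit 223) (nat_lit 5) (nat_lit 224) (nat_lit 5) (nat_lit 415) (nat_lit 400) (nat_lit 205))))) (XT.nd (nat_lit 234) (nat_lit 912) (nat_lit 0) (XT.nd (nat_lit 78) (nat_lit 1064) (nat_lit 0) (XT.lf (nat_lit 0) (nat_lit 28573705374) (nat_lit 532) (nat_lit 74705086316) (nat_lit 608) (nat_lit 12132131261) (nat_lit 209) (nat_lit 5) (nat_lit 216) (nat_lit 5) (nat_lit 217) (nat_lit 5) (nat_lit 416) (nat_lit 400) (nat_lit 204)) (XT.nd (nat_lit 78) (nat_lit 532) (nat_lit 0) (XT.lf (nat_lit 0) (nat_lit 10763187350) (nat_lit 532) (nat_lit 101916200713) (nat_lit 76) (nat_lit 6000704008) (nat_lit 202) (nat_lit 5) (nat_lit 209) (nat_lit 5) (nat_lit 203) (nat_lit 5) (nat_lit 417) (nat_lit 400) (nat_lit 203)) (XT.lf (nat_lit 0) (nat_lit 4475128732) (nat_lit 532) (nat_lit 31778756455) (nat_lit 608) (nat_lit 85804185294) (nat_lit 195) (nat_lit 5) (nat_lit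 202) (nat_lit 5) (nat_lit 203) (nat_lit 5) (nat_lit 418) (nat_lit 400) (nat_lit 202)))) (XT.nd (nat_lit 78) (nat_lit 912) (nat_lit 0) (XT.lf (nat_lit 0) (nat_lit 64589132049) (nat_lit 608) (nat_lit 7779831548) (nat_lit 76) (nat_lit 53188883947) (nat_lit 195) (nat_lit 5) (nat_lit 203) (nat_lit 5) (nat_lit 196) (nat_lit 5) (nat_lit 419) (nat_lit 400) (nat_lit 201)) (XT.nd (nat_lit 78) (nat_lit 456) (nat_lit 0) (XT.lf (nat_lit 0) (nat_lit 95843096379) (nat_lit 532) (nat_lit 19996962232) (nat_lit 76) (nat_lit 13347496348) (nat_lit 189) (nat_lit 5) (nat_lit 196) (nat_lit 5) (nat_lit 190) (nat_lit 5) (nat_lit 420) (nat_lit 400) (nat_lit 200)) (XT.lf (nat_lit 0) (nat_lit 100403128794) (nat_lit 456) (nat_lit 30032547257) (nat_lit 532) (nat_lit 2509794323) (nat_lit 183) (nat_lit 5) (nat_lit 189) (nat_lit 5) (nat_lit 190) (nat_lit 5) (nat_lit 421) (nat_lit 400) (nat_lit 199)))))) (XT.nd (nat_lit 51714)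 (nat_lit 0) (nat_lit 7144) (XT.nd (nat_lit 51480) (nat_lit 0) (nat_lit 6992) (XT.nd (nat_lit 78) (nat_lit 836) (nat_lit 0) (XT.lf (nat_lit 0) (nat_lit 30965195097) (nat_lit 532) (nat_lit 45582256840) (nat_lit 76) (nat_lit 60284774966) (nat_lit 176) (nat_lit 5) (nat_lit 183) (nat_lit 5) (nat_lit 177) (nat_lit 5) (nat_lit 422) (nat_lit 400) (nat_lit 198)) (XT.nd (nat_lit 78) (nat_lit 380) (nat_lit 0) (XT.lf (nat_lit 0) (nat_lit 67636533773) (nat_lit 532) (nat_lit 58729869664) (nat_lit 76) (nat_lit 14498937277) (nat_lit 170) (nat_lit 5) (nat_lit 177) (nat_lit 5) (nat_lit 171) (nat_lit 5) (nat_lit 423) (nat_lit 400) (nat_lit 197)) (XT.lf (nat_lit 0) (nat_lit 72747270351) (nat_lit 380) (nat_lit 35339460414) (nat_lit 456) (nat_lit 36955020831) (nat_lit 165) (nat_lit 5) (nat_lit 170) (nat_lit 5) (nat_lit 171) (nat_lit 5) (nat_lit 424) (nat_lit 400) (nat_lit 196)))) (XT.nd (nat_lit 78) (nat_lit 0) (nat_lit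 76) (XT.lf (nat_lit 0) (nat_lit 12549422732) (nat_lit 1292) (nat_lit 13671028361) (nat_lit 1292) (nat_lit 13671028361) (nat_lit 257) (nat_lit 3) (nat_lit 274) (nat_lit 3) (nat_lit 274) (nat_lit 5) (nat_lit 401) (nat_lit 401) (nat_lit 218)) (XT.nd (nat_lit 78) (nat_lit 0) (nat_lit 0) (XT.lf (nat_lit 0) (nat_lit 26222959014) (nat_lit 1216) (nat_lit 43862528115) (nat_lit 1292) (nat_lit 11677141019) (nat_lit 258) (nat_lit 5) (nat_lit 274) (nat_lit 5) (nat_lit 275) (nat_lit 5) (nat_lit 402) (nat_lit 401) (nat_lit 217)) (XT.lf (nat_lit 76) (nat_lit 23060198788) (nat_lit 0) (nat_lit 5377226023) (nat_lit 1292) (nat_lit 55372831986) (nat_lit 259) (nat_lit 5) (nat_lit 258) (nat_lit 5) (nat_lit 275) (nat_lit 5) (nat_lit 403) (nat_lit 401) (nat_lit 216))))) (XT.nd (nat_lit 234) (nat_lit 0) (nat_lit 228) (XT.nd (nat_lit 78) (nat_lit 0) (nat_lit 76) (XT.lf (nat_lit 76) (nat_lit 7845517930) (nat_lit 0) (nat_lit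 24048915044) (nat_lit 1292) (nat_lit 54031879668) (nat_lit 260) (nat_lit 5) (nat_lit 259) (nat_lit 5) (nat_lit 276) (nat_lit 5) (nat_lit 404) (nat_lit 401) (nat_lit 215)) (XT.nd (nat_lit 78) (nat_lit 0) (nat_lit 76) (XT.lf (nat_lit 0) (nat_lit 36633856937) (nat_lit 1216) (nat_lit 7474844310) (nat_lit 1292) (nat_lit 44006183387) (nat_lit 260) (nat_lit 5) (nat_lit 276) (nat_lit 5) (nat_lit 277) (nat_lit 5) (nat_lit 405) (nat_lit 401) (nat_lit 214)) (XT.lf (nat_lit 0) (nat_lit 42745804248) (nat_lit 1216) (nat_lit 22888768481) (nat_lit 1292) (nat_lit 24744246234) (nat_lit 261) (nat_lit 5) (nat_lit 277) (nat_lit 5) (nat_lit 278) (nat_lit 5) (nat_lit 406) (nat_lit 401) (nat_lit 213)))) (XT.nd (nat_lit 156) (nat_lit 0) (nat_lit 76) (XT.nd (nat_lit 78) (nat_lit 0) (nat_lit 0) (XT.lf (nat_lit 0) (nat_lit 50245092162) (nat_lit 1216) (nat_lit 38546061793) (nat_lit 1292) (nat_lit 3932344044) (nat_lit 262)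 (nat_lit 5) (nat_lit 278) (nat_lit 5) (nat_lit 279) (nat_lit 5) (nat_lit 407) (nat_lit 401) (nat_lit 212)) (XT.lf (nat_lit 76) (nat_lit 40522226588) (nat_lit 0) (nat_lit 18886213261) (nat_lit 1292) (nat_lit 35738298549) (nat_lit 263) (nat_lit 5) (nat_lit 262) (nat_lit 5) (nat_lit 279) (nat_lit 5) (nat_lit 408) (nat_lit 401) (nat_lit 211))) (XT.nd (nat_lit 78) (nat_lit 0) (nat_lit 76) (XT.lf (nat_lit 76) (nat_lit 26661875865) (nat_lit 0) (nat_lit 43548306596) (nat_lit 1292) (nat_lit 27445551793) (nat_lit 264) (nat_lit 5) (nat_lit 263) (nat_lit 5) (nat_lit 280) (nat_lit 5) (nat_lit 409) (nat_lit 401) (nat_lit 210)) (XT.lf (nat_lit 76) (nat_lit 12643396350) (nat_lit 0) (nat_lit 70075130591) (nat_lit 1292) (nat_lit 17536657767) (nat_lit 265) (nat_lit 5) (nat_lit 264) (nat_lit 5) (nat_lit 281) (nat_lit 5) (nat_lit 410) (nat_lit 401) (nat_lit 209))))))))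
noncomputable def xc124 : XT := (XT.nd (nat_lit 53274) (nat_lit 0) (nat_lit 456) (XT.nd (nat_lit 936) (nat_lit 988) (nat_lit 0) (XT.nd (nat_lit 468) (nat_lit 2508) (nat_lit 0) (XT.nd (nat_lit 234) (nat_lit 1748) (nat_lit 0) (XT.nd (nat_lit 78) (nat_lit 1976) (nat_lit 0) (XT.lf (nat_lit 0) (nat_lit 97060656900) (nat_lit 1216) (nat_lit 1495547110) (nat_lit 76) (nat_lit 4392152864) (nat_lit 265) (nat_lit 5) (nat_lit 281) (nat_lit 5) (nat_lit 266) (nat_lit 5) (nat_lit 411) (nat_lit 401) (nat_lit 208)) (XT.nd (nat_lit 78) (nat_lit 684) (nat_lit 0) (XT.lf (nat_lit 0) (nat_lit 7806940610) (nat_lit 1292) (nat_lit 15831254772) (nat_lit 76) (nat_lit 82088552396) (nat_lit 248) (nat_lit 5) (nat_lit 265) (nat_lit 5) (nat_lit 249) (nat_lit 5) (nat_lit 412) (nat_lit 401) (nat_lit 207)) (XT.lf (nat_lit 0) (nat_lit 23374415787) (nat_lit 760) (nat_lit 30436650457) (nat_lit 76) (nat_lit 54791947290) (nat_lit 239)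 (nat_lit 5) (nat_lit 249) (nat_lit 5) (nat_lit 240) (nat_lit 5) (nat_lit 413) (nat_lit 401) (nat_lit 206)))) (XT.nd (nat_lit 78) (nat_lit 1140) (nat_lit 0) (XT.lf (nat_lit 0) (nat_lit 41012022500) (nat_lit 684) (nat_lit 45204527336) (nat_lit 76) (nat_lit 25367790210) (nat_lit 231) (nat_lit 5) (nat_lit 240) (nat_lit 5) (nat_lit 232) (nat_lit 5) (nat_lit 414) (nat_lit 401) (nat_lit 205)) (XT.nd (nat_lit 78) (nat_lit 532) (nat_lit 0) (XT.lf (nat_lit 0) (nat_lit 54484136032) (nat_lit 608) (nat_lit 6430022941) (nat_lit 684) (nat_lit 53759094615) (nat_lit 223) (nat_lit 5) (nat_lit 231) (nat_lit 5) (nat_lit 232) (nat_lit 5) (nat_lit 415) (nat_lit 401) (nat_lit 204)) (XT.lf (nat_lit 0) (nat_lit 42275446655) (nat_lit 532) (nat_lit 41155166917) (nat_lit 608) (nat_lit 34437423078) (nat_lit 216) (nat_lit 5) (nat_lit 223) (nat_lit 5) (nat_lit 224) (nat_lit 5) (nat_lit 416) (nat_lit 401) (nat_lit 203)))))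 (XT.nd (nat_lit 234) (nat_lit 912) (nat_lit 0) (XT.nd (nat_lit 78) (nat_lit 1064) (nat_lit 0) (XT.lf (nat_lit 0) (nat_lit 30021787318) (nat_lit 532) (nat_lit 78439169785) (nat_lit 608) (nat_lit 12719959946) (nat_lit 209) (nat_lit 5) (nat_lit 216) (nat_lit 5) (nat_lit 217) (nat_lit 5) (nat_lit 417) (nat_lit 401) (nat_lit 202)) (XT.nd (nat_lit 78) (nat_lit 532) (nat_lit 0) (XT.lf (nat_lit 0) (nat_lit 11319080262) (nat_lit 532) (nat_lit 106992286972) (nat_lit 76) (nat_lit 6302192557) (nat_lit 202) (nat_lit 5) (nat_lit 209) (nat_lit 5) (nat_lit 203) (nat_lit 5) (nat_lit 418) (nat_lit 401) (nat_lit 201)) (XT.lf (nat_lit 0) (nat_lit 4718043567) (nat_lit 532) (nat_lit 33365609131) (nat_lit 608) (nat_lit 90076804464) (nat_lit 195) (nat_lit 5) (nat_lit 202) (nat_lit 5) (nat_lit 203) (nat_lit 5) (nat_lit 419) (nat_lit 401) (nat_lit 200)))) (XT.nd (nat_lit 78) (nat_lit 912) (nat_lit 0) (XT.lf (nat_lit 0)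 (nat_lit 67834867981) (nat_lit 608) (nat_lit 8150103890) (nat_lit 76) (nat_lit 55850275247) (nat_lit 195) (nat_lit 5) (nat_lit 203) (nat_lit 5) (nat_lit 196) (nat_lit 5) (nat_lit 420) (nat_lit 401) (nat_lit 199)) (XT.nd (nat_lit 78) (nat_lit 456) (nat_lit 0) (XT.lf (nat_lit 0) (nat_lit 100650954171) (nat_lit 532) (nat_lit 20978177177) (nat_lit 76) (nat_lit 14017326056) (nat_lit 189) (nat_lit 5) (nat_lit 196) (nat_lit 5) (nat_lit 190) (nat_lit 5) (nat_lit 421) (nat_lit 401) (nat_lit 198)) (XT.lf (nat_lit 0) (nat_lit 105441384283) (nat_lit 456) (nat_lit 31531204761) (nat_lit 532) (nat_lit 2619696959) (nat_lit 183) (nat_lit 5) (nat_lit 189) (nat_lit 5) (nat_lit 190) (nat_lit 5) (nat_lit 422) (nat_lit 401) (nat_lit 197)))))) (XT.nd (nat_lit 51792) (nat_lit 0) (nat_lit 6840) (XT.nd (nat_lit 51558) (nat_lit 0) (nat_lit 6688) (XT.nd (nat_lit 78) (nat_lit 456) (nat_lit 0) (XT.lf (nat_lit 0) (nat_lit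 32528212185) (nat_lit 532) (nat_lit 47843074993) (nat_lit 76) (nat_lit 63302104638) (nat_lit 176) (nat_lit 5) (nat_lit 183) (nat_lit 5) (nat_lit 177) (nat_lit 5) (nat_lit 423) (nat_lit 401) (nat_lit 196)) (XT.nd (nat_lit 51402) (nat_lit 0) (nat_lit 6612) (XT.lf (nat_lit 0) (nat_lit 71032619960) (nat_lit 532) (nat_lit 61648196651) (nat_lit 76) (nat_lit 15227359821) (nat_lit 170) (nat_lit 5) (nat_lit 177) (nat_lit 5) (nat_lit 171) (nat_lit 5) (nat_lit 424) (nat_lit 401) (nat_lit 195)) (XT.lf (nat_lit 0) (nat_lit 13193341215) (nat_lit 1292) (nat_lit 14346106707) (nat_lit 1292) (nat_lit 14346106707) (nat_lit 257) (nat_lit 3) (nat_lit 274) (nat_lit 3) (nat_lit 274) (nat_lit 5) (nat_lit 402) (nat_lit 402) (nat_lit 216)))) (XT.nd (nat_lit 78) (nat_lit 0) (nat_lit 0) (XT.lf (nat_lit 0) (nat_lit 27565449030) (nat_lit 1216) (nat_lit 46038094851) (nat_lit 1292) (nat_lit 12246265166) (nat_lit 258) (nat_lit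 5) (nat_lit 274) (nat_lit 5) (nat_lit 275) (nat_lit 5) (nat_lit 403) (nat_lit 402) (nat_lit 215)) (XT.nd (nat_lit 78) (nat_lit 0) (nat_lit 76) (XT.lf (nat_lit 76) (nat_lit 24230265053) (nat_lit 0) (nat_lit 5659044542) (nat_lit 1292) (nat_lit 58110549880) (nat_lit 259) (nat_lit 5) (nat_lit 258) (nat_lit 5) (nat_lit 275) (nat_lit 5) (nat_lit 404) (nat_lit 402) (nat_lit 214)) (XT.lf (nat_lit 76) (nat_lit 8255366292) (nat_lit 0) (nat_lit 25262422952) (nat_lit 1292) (nat_lit 56703970698) (nat_lit 260) (nat_lit 5) (nat_lit 259) (nat_lit 5) (nat_lit 276) (nat_lit 5) (nat_lit 405) (nat_lit 402) (nat_lit 213))))) (XT.nd (nat_lit 234) (nat_lit 0) (nat_lit 152) (XT.nd (nat_lit 78) (nat_lit 0) (nat_lit 76) (XT.lf (nat_lit 0) (nat_lit 38492719579) (nat_lit 1216) (nat_lit 7830922588) (nat_lit 1292) (nat_lit 46196162754) (nat_lit 260) (nat_lit 5) (nat_lit 276) (nat_lit 5) (nat_lit 277) (nat_lit 5) (nat_lit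 406) (nat_lit 402) (nat_lit 212)) (XT.nd (nat_lit 78) (nat_lit 0) (nat_lit 76) (XT.lf (nat_lit 0) (nat_lit 44909049993) (nat_lit 1216) (nat_lit 24015174252) (nat_lit 1292) (nat_lit 25972748570) (nat_lit 261) (nat_lit 5) (nat_lit 277) (nat_lit 5) (nat_lit 278) (nat_lit 5) (nat_lit 407) (nat_lit 402) (nat_lit 211)) (XT.lf (nat_lit 0) (nat_lit 52782163831) (nat_lit 1216) (nat_lit 40455023600) (nat_lit 1292) (nat_lit 4121732927) (nat_lit 262) (nat_lit 5) (nat_lit 278) (nat_lit 5) (nat_lit 279) (nat_lit 5) (nat_lit 408) (nat_lit 402) (nat_lit 210)))) (XT.nd (nat_lit 156) (nat_lit 0) (nat_lit 152) (XT.nd (nat_lit 78) (nat_lit 0) (nat_lit 76) (XT.lf (nat_lit 76) (nat_lit 42566153451) (nat_lit 0) (nat_lit 19836514942) (nat_lit 1292) (nat_lit 37500685084) (nat_lit 263) (nat_lit 5) (nat_lit 262) (nat_lit 5) (nat_lit 279) (nat_lit 5) (nat_lit 409) (nat_lit 402) (nat_lit 209)) (XT.lf (nat_lit 76) (nat_lit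 28013031602) (nat_lit 0) (nat_lit 45730451662) (nat_lit 1292) (nat_lit 28794346671) (nat_lit 264) (nat_lit 5) (nat_lit 263) (nat_lit 5) (nat_lit 280) (nat_lit 5) (nat_lit 410) (nat_lit 402) (nat_lit 208))) (XT.nd (nat_lit 78) (nat_lit 0) (nat_lit 76) (XT.lf (nat_lit 76) (nat_lit 13293825755) (nat_lit 0) (nat_lit 73582466118) (nat_lit 1292) (nat_lit 18390989978) (nat_lit 265) (nat_lit 5) (nat_lit 264) (nat_lit 5) (nat_lit 281) (nat_lit 5) (nat_lit 411) (nat_lit 402) (nat_lit 207)) (XT.lf (nat_lit 0) (nat_lit 101934455632) (nat_lit 1216) (nat_lit 1552271053) (nat_lit 76) (nat_lit 4608418452) (nat_lit 265) (nat_lit 5) (nat_lit 281) (nat_lit 5) (nat_lit 266) (nat_lit 5) (nat_lit 412) (nat_lit 402) (nat_lit 206))))))) (XT.nd (nat_lit 52338) (nat_lit 0) (nat_lit 4788) (XT.nd (nat_lit 468) (nat_lit 2508) (nat_lit 0) (XT.nd (nat_lit 234) (nat_lit 1672) (nat_lit 0) (XT.nd (nat_lit 78) (nat_lit 1292) (nat_lit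 0) (XT.lf (nat_lit 0) (nat_lit 8217436890) (nat_lit 1292) (nat_lit 16604874479) (nat_lit 76) (nat_lit 86190163213) (nat_lit 248) (nat_lit 5) (nat_lit 265) (nat_lit 5) (nat_lit 249) (nat_lit 5) (nat_lit 413) (nat_lit 402) (nat_lit 205)) (XT.nd (nat_lit 78) (nat_lit 608) (nat_lit 0) (XT.lf (nat_lit 0) (nat_lit 24562475334) (nat_lit 760) (nat_lit 31940449208) (nat_lit 76) (nat_lit 57529653690) (nat_lit 239) (nat_lit 5) (nat_lit 249) (nat_lit 5) (nat_lit 240) (nat_lit 5) (nat_lit 414) (nat_lit 402) (nat_lit 204)) (XT.lf (nat_lit 0) (nat_lit 43081199592) (nat_lit 684) (nat_lit 47446663459) (nat_lit 76) (nat_lit 26635131179) (nat_lit 231) (nat_lit 5) (nat_lit 240) (nat_lit 5) (nat_lit 232) (nat_lit 5) (nat_lit 415) (nat_lit 402) (nat_lit 203)))) (XT.nd (nat_lit 78) (nat_lit 1064) (nat_lit 0) (XT.lf (nat_lit 0) (nat_lit 57225914525) (nat_lit 608) (nat_lit 6751812705) (nat_lit 684) (nat_lit 56428647954)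 (nat_lit 223) (nat_lit 5) (nat_lit 231) (nat_lit 5) (nat_lit 232) (nat_lit 5) (nat_lit 416) (nat_lit 402) (nat_lit 202)) (XT.nd (nat_lit 78) (nat_lit 532) (nat_lit 0) (XT.lf (nat_lit 0) (nat_lit 44406815259) (nat_lit 532) (nat_lit 43212505312) (nat_lit 608) (nat_lit 36141597598) (nat_lit 216) (nat_lit 5) (nat_lit 223) (nat_lit 5) (nat_lit 224) (nat_lit 5) (nat_lit 417) (nat_lit 402) (nat_lit 201)) (XT.lf (nat_lit 0) (nat_lit 31540470039) (nat_lit 532) (nat_lit 82360066282) (nat_lit 608) (nat_lit 13338925854) (nat_lit 209) (nat_lit 5) (nat_lit 216) (nat_lit 5) (nat_lit 217) (nat_lit 5) (nat_lit 418) (nat_lit 402) (nat_lit 200))))) (XT.nd (nat_lit 234) (nat_lit 1444) (nat_lit 0) (XT.nd (nat_lit 78) (nat_lit 532) (nat_lit 0) (XT.lf (nat_lit 0) (nat_lit 11901119122) (nat_lit 532) (nat_lit 112324011274) (nat_lit 76) (nat_lit 6618620415) (nat_lit 202) (nat_lit 5) (nat_lit 209) (nat_lit 5) (nat_lit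 203) (nat_lit 5) (nat_lit 419) (nat_lit 402) (nat_lit 199)) (XT.nd (nat_lit 78) (nat_lit 0) (nat_lit 0) (XT.lf (nat_lit 0) (nat_lit 4971322978) (nat_lit 532) (nat_lit 35031998298) (nat_lit 608) (nat_lit 94564689953) (nat_lit 195) (nat_lit 5) (nat_lit 202) (nat_lit 5) (nat_lit 203) (nat_lit 5) (nat_lit 420) (nat_lit 402) (nat_lit 198)) (XT.lf (nat_lit 0) (nat_lit 71241377211) (nat_lit 608) (nat_lit 8540630185) (nat_lit 76) (nat_lit 58644555089) (nat_lit 195) (nat_lit 5) (nat_lit 203) (nat_lit 5) (nat_lit 196) (nat_lit 5) (nat_lit 421) (nat_lit 402) (nat_lit 197)))) (XT.nd (nat_lit 78) (nat_lit 988) (nat_lit 0) (XT.lf (nat_lit 0) (nat_lit 105697744939) (nat_lit 532) (nat_lit 22010185205) (nat_lit 76) (nat_lit 14720419017) (nat_lit 189) (nat_lit 5) (nat_lit 196) (nat_lit 5) (nat_lit 190) (nat_lit 5) (nat_lit 422) (nat_lit 402) (nat_lit 196)) (XT.nd (nat_lit 78) (nat_lit 532) (nat_lit 0) (XT.lf (nat_lit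 0) (nat_lit 110729869870) (nat_lit 456) (nat_lit 33105071250) (nat_lit 532) (nat_lit 2736543866) (nat_lit 183) (nat_lit 5) (nat_lit 189) (nat_lit 5) (nat_lit 190) (nat_lit 5) (nat_lit 423) (nat_lit 402) (nat_lit 195)) (XT.lf (nat_lit 0) (nat_lit 34168008131) (nat_lit 532) (nat_lit 50218634921) (nat_lit 76) (nat_lit 66470013430) (nat_lit 176) (nat_lit 5) (nat_lit 183) (nat_lit 5) (nat_lit 177) (nat_lit 5) (nat_lit 424) (nat_lit 402) (nat_lit 194)))))) (XT.nd (nat_lit 468) (nat_lit 1368) (nat_lit 0) (XT.nd (nat_lit 234) (nat_lit 0) (nat_lit 152) (XT.nd (nat_lit 78) (nat_lit 0) (nat_lit 76) (XT.lf (nat_lit 0) (nat_lit 13867926503) (nat_lit 1292) (nat_lit 15055726715) (nat_lit 1292) (nat_lit 15055726715) (nat_lit 257) (nat_lit 3) (nat_lit 274) (nat_lit 3) (nat_lit 274) (nat_lit 5) (nat_lit 403) (nat_lit 403) (nat_lit 214)) (XT.nd (nat_lit 78) (nat_lit 0) (nat_lit 0) (XT.lf (nat_lit 0) (nat_lit 28972149659)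 (nat_lit 1216) (nat_lit 48324072456) (nat_lit 1292) (nat_lit 12845215246) (nat_lit 258) (nat_lit 5) (nat_lit 274) (nat_lit 5) (nat_lit 275) (nat_lit 5) (nat_lit 404) (nat_lit 403) (nat_lit 213)) (XT.lf (nat_lit 76) (nat_lit 25457248894) (nat_lit 0) (nat_lit 5953749346) (nat_lit 1292) (nat_lit 60988028661) (nat_lit 259) (nat_lit 5) (nat_lit 258) (nat_lit 5) (nat_lit 275) (nat_lit 5) (nat_lit 405) (nat_lit 403) (nat_lit 212)))) (XT.nd (nat_lit 78) (nat_lit 0) (nat_lit 76) (XT.lf (nat_lit 76) (nat_lit 8684073351) (nat_lit 0) (nat_lit 26535577801) (nat_lit 1292) (nat_lit 59512409185) (nat_lit 260) (nat_lit 5) (nat_lit 259) (nat_lit 5) (nat_lit 276) (nat_lit 5) (nat_lit 406) (nat_lit 403) (nat_lit 211)) (XT.nd (nat_lit 78) (nat_lit 0) (nat_lit 76) (XT.lf (nat_lit 0) (nat_lit 40441999363) (nat_lit 1216) (nat_lit 8206447006) (nat_lit 1292) (nat_lit 48496601456) (nat_lit 260) (nat_lit 5) (nat_lit 276)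 (nat_lit 5) (nat_lit 277) (nat_lit 5) (nat_lit 407) (nat_lit 403) (nat_lit 210)) (XT.lf (nat_lit 0) (nat_lit 47178044926) (nat_lit 1216) (nat_lit 25199576817) (nat_lit 1292) (nat_lit 27263485794) (nat_lit 261) (nat_lit 5) (nat_lit 277) (nat_lit 5) (nat_lit 278) (nat_lit 5) (nat_lit 408) (nat_lit 403) (nat_lit 209))))) (XT.nd (nat_lit 234) (nat_lit 1748) (nat_lit 0) (XT.nd (nat_lit 78) (nat_lit 0) (nat_lit 0) (XT.lf (nat_lit 0) (nat_lit 55443781829) (nat_lit 1216) (nat_lit 42461138697) (nat_lit 1292) (nat_lit 4321263275) (nat_lit 262) (nat_lit 5) (nat_lit 278) (nat_lit 5) (nat_lit 279) (nat_lit 5) (nat_lit 409) (nat_lit 403) (nat_lit 208)) (XT.nd (nat_lit 78) (nat_lit 0) (nat_lit 76) (XT.lf (nat_lit 76) (nat_lit 44710620337) (nat_lit 0) (nat_lit 20833774718) (nat_lit 1292) (nat_lit 39353471363) (nat_lit 263) (nat_lit 5) (nat_lit 262) (nat_lit 5) (nat_lit 279) (nat_lit 5) (nat_lit 410) (nat_lit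 403) (nat_lit 207)) (XT.lf (nat_lit 76) (nat_lit 29430065897) (nat_lit 0) (nat_lit 48021264256) (nat_lit 1292) (nat_lit 30212764492) (nat_lit 264) (nat_lit 5) (nat_lit 263) (nat_lit 5) (nat_lit 280) (nat_lit 5) (nat_lit 411) (nat_lit 403) (nat_lit 206)))) (XT.nd (nat_lit 156) (nat_lit 1900) (nat_lit 0) (XT.nd (nat_lit 78) (nat_lit 0) (nat_lit 76) (XT.lf (nat_lit 76) (nat_lit 13975079026) (nat_lit 0) (nat_lit 77264835681) (nat_lit 1292) (nat_lit 19290130700) (nat_lit 265) (nat_lit 5) (nat_lit 264) (nat_lit 5) (nat_lit 281) (nat_lit 5) (nat_lit 412) (nat_lit 403) (nat_lit 205)) (XT.lf (nat_lit 0) (nat_lit 107050013685) (nat_lit 1216) (nat_lit 1613509629) (nat_lit 76) (nat_lit 4835808031) (nat_lit 265) (nat_lit 5) (nat_lit 281) (nat_lit 5) (nat_lit 266) (nat_lit 5) (nat_lit 413) (nat_lit 403) (nat_lit 204))) (XT.nd (nat_lit 78) (nat_lit 684) (nat_lit 0) (XT.lf (nat_lit 0) (nat_lit 8646584697) (nat_lit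 1292) (nat_lit 17418843345) (nat_lit 76) (nat_lit 90497116451) (nat_lit 248) (nat_lit 5) (nat_lit 265) (nat_lit 5) (nat_lit 249) (nat_lit 5) (nat_lit 414) (nat_lit 403) (nat_lit 203)) (XT.lf (nat_lit 0) (nat_lit 25808139925) (nat_lit 760) (nat_lit 33521114506) (nat_lit 76) (nat_lit 60404421214) (nat_lit 239) (nat_lit 5) (nat_lit 249) (nat_lit 5) (nat_lit 240) (nat_lit 5) (nat_lit 415) (nat_lit 403) (nat_lit 202))))))))
noncomputable def xc125 : XT := (XT.nd (nat_lit 53508) (nat_lit 0) (nat_lit 456) (XT.nd (nat_lit 52494) (nat_lit 0) (nat_lit 1520) (XT.nd (nat_lit 468) (nat_lit 456) (nat_lit 0) (XT.nd (nat_lit 234) (nat_lit 1596) (nat_lit 0) (XT.nd (nat_lit 78) (nat_lit 1140) (nat_lit 0) (XT.lf (nat_lit 0) (nat_lit 45252108522) (nat_lit 684) (nat_lit 49802588247) (nat_lit 76) (nat_lit 27965936680) (nat_lit 231) (nat_lit 5) (nat_lit 240) (nat_lit 5) (nat_lit 232) (nat_lit 5) (nat_lit 416) (nat_lit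 403) (nat_lit 201)) (XT.nd (nat_lit 78) (nat_lit 532) (nat_lit 0) (XT.lf (nat_lit 0) (nat_lit 60103148292) (nat_lit 608) (nat_lit 7089665124) (nat_lit 684) (nat_lit 59233389746) (nat_lit 223) (nat_lit 5) (nat_lit 231) (nat_lit 5) (nat_lit 232) (nat_lit 5) (nat_lit 417) (nat_lit 403) (nat_lit 200)) (XT.lf (nat_lit 0) (nat_lit 46643116358) (nat_lit 532) (nat_lit 45372749669) (nat_lit 608) (nat_lit 37932626109) (nat_lit 216) (nat_lit 5) (nat_lit 223) (nat_lit 5) (nat_lit 224) (nat_lit 5) (nat_lit 418) (nat_lit 403) (nat_lit 199)))) (XT.nd (nat_lit 78) (nat_lit 1064) (nat_lit 0) (XT.lf (nat_lit 0) (nat_lit 33133451233) (nat_lit 532) (nat_lit 86477106337) (nat_lit 608) (nat_lit 13990423540) (nat_lit 209) (nat_lit 5) (nat_lit 216) (nat_lit 5) (nat_lit 217) (nat_lit 5) (nat_lit 419) (nat_lit 403) (nat_lit 198)) (XT.nd (nat_lit 78) (nat_lit 532) (nat_lit 0) (XT.lf (nat_lit 0) (nat_lit 12510764508) (nat_lit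 532) (nat_lit 117923985038) (nat_lit 76) (nat_lit 6950747109) (nat_lit 202) (nat_lit 5) (nat_lit 209) (nat_lit 5) (nat_lit 203) (nat_lit 5) (nat_lit 420) (nat_lit 403) (nat_lit 197)) (XT.lf (nat_lit 0) (nat_lit 5235650788) (nat_lit 532) (nat_lit 36781882757) (nat_lit 608) (nat_lit 99278453036) (nat_lit 195) (nat_lit 5) (nat_lit 202) (nat_lit 5) (nat_lit 203) (nat_lit 5) (nat_lit 421) (nat_lit 403) (nat_lit 196))))) (XT.nd (nat_lit 51792) (nat_lit 0) (nat_lit 5244) (XT.nd (nat_lit 78) (nat_lit 456) (nat_lit 0) (XT.lf (nat_lit 0) (nat_lit 74816839116) (nat_lit 608) (nat_lit 8952261333) (nat_lit 76) (nat_lit 61578384730) (nat_lit 195) (nat_lit 5) (nat_lit 203) (nat_lit 5) (nat_lit 196) (nat_lit 5) (nat_lit 422) (nat_lit 403) (nat_lit 195)) (XT.nd (nat_lit 51636) (nat_lit 0) (nat_lit 5168) (XT.lf (nat_lit 0) (nat_lit 110995551060) (nat_lit 532) (nat_lit 23095364914) (nat_lit 76) (nat_lit 15458459612)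 (nat_lit 189) (nat_lit 5) (nat_lit 196) (nat_lit 5) (nat_lit 190) (nat_lit 5) (nat_lit 423) (nat_lit 403) (nat_lit 194)) (XT.lf (nat_lit 0) (nat_lit 14574854101) (nat_lit 1292) (nat_lit 15801542233) (nat_lit 1292) (nat_lit 15801542233) (nat_lit 257) (nat_lit 3) (nat_lit 274) (nat_lit 3) (nat_lit 274) (nat_lit 5) (nat_lit 404) (nat_lit 404) (nat_lit 212)))) (XT.nd (nat_lit 78) (nat_lit 0) (nat_lit 0) (XT.lf (nat_lit 0) (nat_lit 30446542336) (nat_lit 1216) (nat_lit 50725829696) (nat_lit 1292) (nat_lit 13475355211) (nat_lit 258) (nat_lit 5) (nat_lit 274) (nat_lit 5) (nat_lit 275) (nat_lit 5) (nat_lit 405) (nat_lit 404) (nat_lit 211)) (XT.nd (nat_lit 78) (nat_lit 0) (nat_lit 76) (XT.lf (nat_lit 76) (nat_lit 26744143620) (nat_lit 0) (nat_lit 6262096748) (nat_lit 1292) (nat_lit 64011989084) (nat_lit 259) (nat_lit 5) (nat_lit 258) (nat_lit 5) (nat_lit 275) (nat_lit 5) (nat_lit 406) (nat_lit 404) (nat_lit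 210)) (XT.lf (nat_lit 76) (nat_lit 9132733929) (nat_lit 0) (nat_lit 27871457553) (nat_lit 1292) (nat_lit 62463757492) (nat_lit 260) (nat_lit 5) (nat_lit 259) (nat_lit 5) (nat_lit 276) (nat_lit 5) (nat_lit 407) (nat_lit 404) (nat_lit 209)))))) (XT.nd (nat_lit 468) (nat_lit 3876) (nat_lit 0) (XT.nd (nat_lit 234) (nat_lit 0) (nat_lit 152) (XT.nd (nat_lit 78) (nat_lit 0) (nat_lit 76) (XT.lf (nat_lit 0) (nat_lit 42486451988) (nat_lit 1216) (nat_lit 8602237192) (nat_lit 1292) (nat_lit 50912933174) (nat_lit 260) (nat_lit 5) (nat_lit 276) (nat_lit 5) (nat_lit 277) (nat_lit 5) (nat_lit 408) (nat_lit 404) (nat_lit 208)) (XT.nd (nat_lit 78) (nat_lit 0) (nat_lit 76) (XT.lf (nat_lit 0) (nat_lit 49558300854) (nat_lit 1216) (nat_lit 26444720149) (nat_lit 1292) (nat_lit 28619494366) (nat_lit 261) (nat_lit 5) (nat_lit 277) (nat_lit 5) (nat_lit 278) (nat_lit 5) (nat_lit 409) (nat_lit 404) (nat_lit 207)) (XT.lf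 (nat_lit 0) (nat_lit 58236387978) (nat_lit 1216) (nat_lit 44569106213) (nat_lit 1292) (nat_lit 4531379683) (nat_lit 262) (nat_lit 5) (nat_lit 278) (nat_lit 5) (nat_lit 279) (nat_lit 5) (nat_lit 410) (nat_lit 404) (nat_lit 206)))) (XT.nd (nat_lit 78) (nat_lit 0) (nat_lit 76) (XT.lf (nat_lit 76) (nat_lit 46960808237) (nat_lit 0) (nat_lit 21880392279) (nat_lit 1292) (nat_lit 41300965362) (nat_lit 263) (nat_lit 5) (nat_lit 262) (nat_lit 5) (nat_lit 279) (nat_lit 5) (nat_lit 411) (nat_lit 404) (nat_lit 205)) (XT.nd (nat_lit 78) (nat_lit 0) (nat_lit 76) (XT.lf (nat_lit 76) (nat_lit 30916428797) (nat_lit 0) (nat_lit 50426218636) (nat_lit 1292) (nat_lit 31704083431) (nat_lit 264) (nat_lit 5) (nat_lit 263) (nat_lit 5) (nat_lit 280) (nat_lit 5) (nat_lit 412) (nat_lit 404) (nat_lit 204)) (XT.lf (nat_lit 76) (nat_lit 14688855185) (nat_lit 0) (nat_lit 81131021915) (nat_lit 1292) (nat_lit 20236125872) (nat_lit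 265) (nat_lit 5) (nat_lit 264) (nat_lit 5) (nat_lit 281) (nat_lit 5) (nat_lit 413) (nat_lit 404) (nat_lit 203))))) (XT.nd (nat_lit 234) (nat_lit 2280) (nat_lit 0) (XT.nd (nat_lit 78) (nat_lit 1976) (nat_lit 0) (XT.lf (nat_lit 0) (nat_lit 112419598516) (nat_lit 1216) (nat_lit 1679332523) (nat_lit 76) (nat_lit 5074848916) (nat_lit 265) (nat_lit 5) (nat_lit 281) (nat_lit 5) (nat_lit 266) (nat_lit 5) (nat_lit 414) (nat_lit 404) (nat_lit 202)) (XT.nd (nat_lit 78) (nat_lit 684) (nat_lit 0) (XT.lf (nat_lit 0) (nat_lit 9095490770) (nat_lit 1292) (nat_lit 18275023735) (nat_lit 76) (nat_lit 95019654883) (nat_lit 248) (nat_lit 5) (nat_lit 265) (nat_lit 5) (nat_lit 249) (nat_lit 5) (nat_lit 415) (nat_lit 404) (nat_lit 201)) (XT.lf (nat_lit 0) (nat_lit 27114456965) (nat_lit 760) (nat_lit 35182333802) (nat_lit 76) (nat_lit 63423086574) (nat_lit 239) (nat_lit 5) (nat_lit 249) (nat_lit 5) (nat_lit 240) (nat_lit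 5) (nat_lit 416) (nat_lit 404) (nat_lit 200)))) (XT.nd (nat_lit 156) (nat_lit 1064) (nat_lit 0) (XT.nd (nat_lit 78) (nat_lit 608) (nat_lit 0) (XT.lf (nat_lit 0) (nat_lit 47529996442) (nat_lit 684) (nat_lit 52277834771) (nat_lit 76) (nat_lit 29363370876) (nat_lit 231) (nat_lit 5) (nat_lit 240) (nat_lit 5) (nat_lit 232) (nat_lit 5) (nat_lit 417) (nat_lit 404) (nat_lit 199)) (XT.lf (nat_lit 0) (nat_lit 63122761981) (nat_lit 608) (nat_lit 7444385826) (nat_lit 684) (nat_lit 62179920363) (nat_lit 223) (nat_lit 5) (nat_lit 231) (nat_lit 5) (nat_lit 232) (nat_lit 5) (nat_lit 418) (nat_lit 404) (nat_lit 198))) (XT.nd (nat_lit 78) (nat_lit 532) (nat_lit 0) (XT.lf (nat_lit 0) (nat_lit 48989748672) (nat_lit 532) (nat_lit 47641041658) (nat_lit 608) (nat_lit 39814698349) (nat_lit 216) (nat_lit 5) (nat_lit 223) (nat_lit 5) (nat_lit 224) (nat_lit 5) (nat_lit 419) (nat_lit 404) (nat_lit 197)) (XT.lf (nat_lit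 0) (nat_lit 34804597892) (nat_lit 532) (nat_lit 90800087950) (nat_lit 608) (nat_lit 14675932375) (nat_lit 209) (nat_lit 5) (nat_lit 216) (nat_lit 5) (nat_lit 217) (nat_lit 5) (nat_lit 420) (nat_lit 404) (nat_lit 196))))))) (XT.nd (nat_lit 52572) (nat_lit 0) (nat_lit 0) (XT.nd (nat_lit 52104) (nat_lit 0) (nat_lit 4864) (XT.nd (nat_lit 51870) (nat_lit 0) (nat_lit 4712) (XT.nd (nat_lit 78) (nat_lit 532) (nat_lit 0) (XT.lf (nat_lit 0) (nat_lit 13149535777) (nat_lit 532) (nat_lit 123805466105) (nat_lit 76) (nat_lit 7299368976) (nat_lit 202) (nat_lit 5) (nat_lit 209) (nat_lit 5) (nat_lit 203) (nat_lit 5) (nat_lit 421) (nat_lit 404) (nat_lit 195)) (XT.nd (nat_lit 78) (nat_lit 0) (nat_lit 0) (XT.lf (nat_lit 0) (nat_lit 5511729620) (nat_lit 532) (nat_lit 38619420926) (nat_lit 608) (nat_lit 104229249688) (nat_lit 195) (nat_lit 5) (nat_lit 202) (nat_lit 5) (nat_lit 203) (nat_lit 5) (nat_lit 422) (nat_lit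 404) (nat_lit 194)) (XT.lf (nat_lit 0) (nat_lit 78569828957) (nat_lit 608) (nat_lit 9385905817) (nat_lit 76) (nat_lit 64658756925) (nat_lit 195) (nat_lit 5) (nat_lit 203) (nat_lit 5) (nat_lit 196) (nat_lit 5) (nat_lit 423) (nat_lit 404) (nat_lit 193)))) (XT.nd (nat_lit 78) (nat_lit 0) (nat_lit 76) (XT.lf (nat_lit 0) (nat_lit 15315870069) (nat_lit 1292) (nat_lit 16585296607) (nat_lit 1292) (nat_lit 16585296607) (nat_lit 257) (nat_lit 3) (nat_lit 274) (nat_lit 3) (nat_lit 274) (nat_lit 5) (nat_lit 405) (nat_lit 405) (nat_lit 210)) (XT.nd (nat_lit 78) (nat_lit 0) (nat_lit 0) (XT.lf (nat_lit 0) (nat_lit 31992257385) (nat_lit 1216) (nat_lit 53249017886) (nat_lit 1292) (nat_lit 14138129052) (nat_lit 258) (nat_lit 5) (nat_lit 274) (nat_lit 5) (nat_lit 275) (nat_lit 5) (nat_lit 406) (nat_lit 405) (nat_lit 209)) (XT.lf (nat_lit 76) (nat_lit 28094078493) (nat_lit 0) (nat_lit 6584870461) (nat_lit 1292)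 (nat_lit 67189512793) (nat_lit 259) (nat_lit 5) (nat_lit 258) (nat_lit 5) (nat_lit 275) (nat_lit 5) (nat_lit 407) (nat_lit 405) (nat_lit 208))))) (XT.nd (nat_lit 234) (nat_lit 0) (nat_lit 228) (XT.nd (nat_lit 78) (nat_lit 0) (nat_lit 76) (XT.lf (nat_lit 76) (nat_lit 9602483470) (nat_lit 0) (nat_lit 29273285182) (nat_lit 1292) (nat_lit 65564929808) (nat_lit 260) (nat_lit 5) (nat_lit 259) (nat_lit 5) (nat_lit 276) (nat_lit 5) (nat_lit 408) (nat_lit 405) (nat_lit 207)) (XT.nd (nat_lit 78) (nat_lit 0) (nat_lit 76) (XT.lf (nat_lit 0) (nat_lit 44631049107) (nat_lit 1216) (nat_lit 9019167950) (nat_lit 1292) (nat_lit 53450871575) (nat_lit 260) (nat_lit 5) (nat_lit 276) (nat_lit 5) (nat_lit 277) (nat_lit 5) (nat_lit 409) (nat_lit 405) (nat_lit 206)) (XT.lf (nat_lit 0) (nat_lit 52055584315) (nat_lit 1216) (nat_lit 27753499914) (nat_lit 1292) (nat_lit 30043969566) (nat_lit 261) (nat_lit 5) (nat_lit 277)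 (nat_lit 5) (nat_lit 278) (nat_lit 5) (nat_lit 410) (nat_lit 405) (nat_lit 205)))) (XT.nd (nat_lit 78) (nat_lit 0) (nat_lit 0) (XT.lf (nat_lit 0) (nat_lit 61166726250) (nat_lit 1216) (nat_lit 46783874977) (nat_lit 1292) (nat_lit 4752554784) (nat_lit 262) (nat_lit 5) (nat_lit 278) (nat_lit 5) (nat_lit 279) (nat_lit 5) (nat_lit 411) (nat_lit 405) (nat_lit 204)) (XT.nd (nat_lit 78) (nat_lit 0) (nat_lit 76) (XT.lf (nat_lit 76) (nat_lit 49322142873) (nat_lit 0) (nat_lit 22978882482) (nat_lit 1292) (nat_lit 43347710166) (nat_lit 263) (nat_lit 5) (nat_lit 262) (nat_lit 5) (nat_lit 279) (nat_lit 5) (nat_lit 412) (nat_lit 405) (nat_lit 203)) (XT.lf (nat_lit 76) (nat_lit 32475728338) (nat_lit 0) (nat_lit 52951058970) (nat_lit 1292) (nat_lit 33271764440) (nat_lit 264) (nat_lit 5) (nat_lit 263) (nat_lit 5) (nat_lit 280) (nat_lit 5) (nat_lit 413) (nat_lit 405) (nat_lit 202)))))) (XT.nd (nat_lit 468) (nat_lit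 2128) (nat_lit 0) (XT.nd (nat_lit 234) (nat_lit 1900) (nat_lit 0) (XT.nd (nat_lit 78) (nat_lit 1216) (nat_lit 0) (XT.lf (nat_lit 76) (nat_lit 15436923530) (nat_lit 0) (nat_lit 85190243713) (nat_lit 1292) (nat_lit 21231141814) (nat_lit 265) (nat_lit 5) (nat_lit 264) (nat_lit 5) (nat_lit 281) (nat_lit 5) (nat_lit 414) (nat_lit 405) (nat_lit 201)) (XT.nd (nat_lit 78) (nat_lit 1292) (nat_lit 0) (XT.lf (nat_lit 0) (nat_lit 118056074266) (nat_lit 1216) (nat_lit 1749827415) (nat_lit 76) (nat_lit 5326097468) (nat_lit 265) (nat_lit 5) (nat_lit 281) (nat_lit 5) (nat_lit 266) (nat_lit 5) (nat_lit 415) (nat_lit 405) (nat_lit 200)) (XT.lf (nat_lit 0) (nat_lit 9565300988) (nat_lit 1292) (nat_lit 19175385556) (nat_lit 76) (nat_lit 99768535686) (nat_lit 248) (nat_lit 5) (nat_lit 265) (nat_lit 5) (nat_lit 249) (nat_lit 5) (nat_lit 416) (nat_lit 405) (nat_lit 199)))) (XT.nd (nat_lit 78) (nat_lit 1216) (nat_lit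 0) (XT.lf (nat_lit 0) (nat_lit 28484610692) (nat_lit 760) (nat_lit 36927993414) (nat_lit 76) (nat_lit 66592829835) (nat_lit 239) (nat_lit 5) (nat_lit 249) (nat_lit 5) (nat_lit 240) (nat_lit 5) (nat_lit 417) (nat_lit 405) (nat_lit 198)) (XT.nd (nat_lit 78) (nat_lit 608) (nat_lit 0) (XT.lf (nat_lit 0) (nat_lit 49920357937) (nat_lit 684) (nat_lit 54878227291) (nat_lit 76) (nat_lit 30830756982) (nat_lit 231) (nat_lit 5) (nat_lit 240) (nat_lit 5) (nat_lit 232) (nat_lit 5) (nat_lit 418) (nat_lit 405) (nat_lit 197)) (XT.lf (nat_lit 0) (nat_lit 66292012346) (nat_lit 608) (nat_lit 7816820487) (nat_lit 684) (nat_lit 65275184979) (nat_lit 223) (nat_lit 5) (nat_lit 231) (nat_lit 5) (nat_lit 232) (nat_lit 5) (nat_lit 419) (nat_lit 405) (nat_lit 196))))) (XT.nd (nat_lit 234) (nat_lit 532) (nat_lit 0) (XT.nd (nat_lit 78) (nat_lit 1064) (nat_lit 0) (XT.lf (nat_lit 0) (nat_lit 51452366714) (nat_lit 532) (nat_lit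 50022780368) (nat_lit 608) (nat_lit 41792227766) (nat_lit 216) (nat_lit 5) (nat_lit 223) (nat_lit 5) (nat_lit 224) (nat_lit 5) (nat_lit 420) (nat_lit 405) (nat_lit 195)) (XT.nd (nat_lit 78) (nat_lit 532) (nat_lit 0) (XT.lf (nat_lit 0) (nat_lit 36557956220) (nat_lit 532) (nat_lit 95339299873) (nat_lit 608) (nat_lit 15397019387) (nat_lit 209) (nat_lit 5) (nat_lit 216) (nat_lit 5) (nat_lit 217) (nat_lit 5) (nat_lit 421) (nat_lit 405) (nat_lit 194)) (XT.lf (nat_lit 0) (nat_lit 13819015327) (nat_lit 532) (nat_lit 129982389581) (nat_lit 76) (nat_lit 7665321108) (nat_lit 202) (nat_lit 5) (nat_lit 209) (nat_lit 5) (nat_lit 203) (nat_lit 5) (nat_lit 422) (nat_lit 405) (nat_lit 193)))) (XT.nd (nat_lit 51870) (nat_lit 0) (nat_lit 4788) (XT.nd (nat_lit 51792) (nat_lit 0) (nat_lit 4712) (XT.lf (nat_lit 0) (nat_lit 5800283259) (nat_lit 532) (nat_lit 40548980663) (nat_lit 608) (nat_lit 109428806504) (nat_lit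 195) (nat_lit 5) (nat_lit 202) (nat_lit 5) (nat_lit 203) (nat_lit 5) (nat_lit 423) (nat_lit 405) (nat_lit 192)) (XT.lf (nat_lit 0) (nat_lit 16092795783) (nat_lit 1292) (nat_lit 17408826529) (nat_lit 1292) (nat_lit 17408826529) (nat_lit 257) (nat_lit 3) (nat_lit 274) (nat_lit 3) (nat_lit 274) (nat_lit 5) (nat_lit 406) (nat_lit 406) (nat_lit 208))) (XT.nd (nat_lit 78) (nat_lit 0) (nat_lit 0) (XT.lf (nat_lit 0) (nat_lit 33613083797) (nat_lit 1216) (nat_lit 55899583705) (nat_lit 1292) (nat_lit 14835063695) (nat_lit 258) (nat_lit 5) (nat_lit 274) (nat_lit 5) (nat_lit 275) (nat_lit 5) (nat_lit 407) (nat_lit 406) (nat_lit 207)) (XT.lf (nat_lit 76) (nat_lit 29510326809) (nat_lit 0) (nat_lit 6922883938) (nat_lit 1292) (nat_lit 70528058051) (nat_lit 259) (nat_lit 5) (nat_lit 258) (nat_lit 5) (nat_lit 275) (nat_lit 5) (nat_lit 408) (nat_lit 406) (nat_lit 206))))))))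
noncomputable def xc126 : XT := (XT.nd (nat_lit 53820) (nat_lit 0) (nat_lit 532) (XT.nd (nat_lit 936) (nat_lit 1064) (nat_lit 0) (XT.nd (nat_lit 468) (nat_lit 2736) (nat_lit 0) (XT.nd (nat_lit 234) (nat_lit 0) (nat_lit 228) (XT.nd (nat_lit 78) (nat_lit 0) (nat_lit 76) (XT.lf (nat_lit 76) (nat_lit 10094501380) (nat_lit 0) (nat_lit 30744436743) (nat_lit 1292) (nat_lit 68823207539) (nat_lit 260) (nat_lit 5) (nat_lit 259) (nat_lit 5) (nat_lit 276) (nat_lit 5) (nat_lit 409) (nat_lit 406) (nat_lit 205)) (XT.nd (nat_lit 78) (nat_lit 0) (nat_lit 76) (XT.lf (nat_lit 0) (nat_lit 46880991150) (nat_lit 1216) (nat_lit 9458170699) (nat_lit 1292) (nat_lit 56116423537) (nat_lit 260) (nat_lit 5) (nat_lit 276) (nat_lit 5) (nat_lit 277) (nat_lit 5) (nat_lit 410) (nat_lit 406) (nat_lit 204)) (XT.lf (nat_lit 0) (nat_lit 54675931257) (nat_lit 1216) (nat_lit 29128969700) (nat_lit 1292) (nat_lit 31540272790) (nat_lit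 261) (nat_lit 5) (nat_lit 277) (nat_lit 5) (nat_lit 278) (nat_lit 5) (nat_lit 411) (nat_lit 406) (nat_lit 203)))) (XT.nd (nat_lit 78) (nat_lit 0) (nat_lit 0) (XT.lf (nat_lit 0) (nat_lit 64241859727) (nat_lit 1216) (nat_lit 49110654624) (nat_lit 1292) (nat_lit 4985290113) (nat_lit 262) (nat_lit 5) (nat_lit 278) (nat_lit 5) (nat_lit 279) (nat_lit 5) (nat_lit 412) (nat_lit 406) (nat_lit 202)) (XT.nd (nat_lit 78) (nat_lit 0) (nat_lit 76) (XT.lf (nat_lit 76) (nat_lit 51800308271) (nat_lit 0) (nat_lit 24131881563) (nat_lit 1292) (nat_lit 45498493893) (nat_lit 263) (nat_lit 5) (nat_lit 262) (nat_lit 5) (nat_lit 279) (nat_lit 5) (nat_lit 413) (nat_lit 406) (nat_lit 201)) (XT.lf (nat_lit 76) (nat_lit 34111739789) (nat_lit 0) (nat_lit 55601813191) (nat_lit 1292) (nat_lit 34919458638) (nat_lit 264) (nat_lit 5) (nat_lit 263) (nat_lit 5) (nat_lit 280) (nat_lit 5) (nat_lit 414) (nat_lit 406) (nat_lit 200)))))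 (XT.nd (nat_lit 234) (nat_lit 1900) (nat_lit 0) (XT.nd (nat_lit 78) (nat_lit 1216) (nat_lit 0) (XT.lf (nat_lit 76) (nat_lit 16221128514) (nat_lit 0) (nat_lit 89452178305) (nat_lit 1292) (nat_lit 22277469561) (nat_lit 265) (nat_lit 5) (nat_lit 264) (nat_lit 5) (nat_lit 281) (nat_lit 5) (nat_lit 415) (nat_lit 406) (nat_lit 199)) (XT.nd (nat_lit 78) (nat_lit 1292) (nat_lit 0) (XT.lf (nat_lit 0) (nat_lit 123972933149) (nat_lit 1216) (nat_lit 1825099525) (nat_lit 76) (nat_lit 5590140307) (nat_lit 265) (nat_lit 5) (nat_lit 281) (nat_lit 5) (nat_lit 266) (nat_lit 5) (nat_lit 416) (nat_lit 406) (nat_lit 198)) (XT.lf (nat_lit 0) (nat_lit 10057203843) (nat_lit 1292) (nat_lit 20122010284) (nat_lit 76) (nat_lit 104755055948) (nat_lit 248) (nat_lit 5) (nat_lit 265) (nat_lit 5) (nat_lit 249) (nat_lit 5) (nat_lit 417) (nat_lit 406) (nat_lit 197)))) (XT.nd (nat_lit 78) (nat_lit 1216) (nat_lit 0) (XT.lf (nat_lit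 0) (nat_lit 29921930459) (nat_lit 760) (nat_lit 38762187118) (nat_lit 76) (nat_lit 69921191448) (nat_lit 239) (nat_lit 5) (nat_lit 249) (nat_lit 5) (nat_lit 240) (nat_lit 5) (nat_lit 418) (nat_lit 406) (nat_lit 196)) (XT.nd (nat_lit 78) (nat_lit 608) (nat_lit 0) (XT.lf (nat_lit 0) (nat_lit 52428948780) (nat_lit 684) (nat_lit 57609894466) (nat_lit 76) (nat_lit 32371585137) (nat_lit 231) (nat_lit 5) (nat_lit 240) (nat_lit 5) (nat_lit 232) (nat_lit 5) (nat_lit 419) (nat_lit 406) (nat_lit 195)) (XT.lf (nat_lit 0) (nat_lit 69618506175) (nat_lit 608) (nat_lit 8207856859) (nat_lit 684) (nat_lit 68526489442) (nat_lit 223) (nat_lit 5) (nat_lit 231) (nat_lit 5) (nat_lit 232) (nat_lit 5) (nat_lit 420) (nat_lit 406) (nat_lit 194)))))) (XT.nd (nat_lit 52338) (nat_lit 0) (nat_lit 3876) (XT.nd (nat_lit 52104) (nat_lit 0) (nat_lit 3724) (XT.nd (nat_lit 78) (nat_lit 532) (nat_lit 0) (XT.lf (nat_lit 0) (nat_lit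 54036894899) (nat_lit 532) (nat_lit 52523635147) (nat_lit 608) (nat_lit 43869861375) (nat_lit 216) (nat_lit 5) (nat_lit 223) (nat_lit 5) (nat_lit 224) (nat_lit 5) (nat_lit 421) (nat_lit 406) (nat_lit 193)) (XT.nd (nat_lit 51948) (nat_lit 0) (nat_lit 3648) (XT.lf (nat_lit 0) (nat_lit 38397761906) (nat_lit 532) (nat_lit 100105546068) (nat_lit 608) (nat_lit 16155342368) (nat_lit 209) (nat_lit 5) (nat_lit 216) (nat_lit 5) (nat_lit 217) (nat_lit 5) (nat_lit 422) (nat_lit 406) (nat_lit 192)) (XT.lf (nat_lit 0) (nat_lit 16907532816) (nat_lit 1292) (nat_lit 18274066124) (nat_lit 1292) (nat_lit 18274066124) (nat_lit 257) (nat_lit 3) (nat_lit 274) (nat_lit 3) (nat_lit 274) (nat_lit 5) (nat_lit 407) (nat_lit 407) (nat_lit 206)))) (XT.nd (nat_lit 78) (nat_lit 0) (nat_lit 0) (XT.lf (nat_lit 0) (nat_lit 35312979296) (nat_lit 1216) (nat_lit 58683782776) (nat_lit 1292) (nat_lit 15567772155) (nat_lit 258) (nat_lit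 5) (nat_lit 274) (nat_lit 5) (nat_lit 275) (nat_lit 5) (nat_lit 408) (nat_lit 407) (nat_lit 205)) (XT.nd (nat_lit 78) (nat_lit 0) (nat_lit 76) (XT.lf (nat_lit 76) (nat_lit 30996314253) (nat_lit 0) (nat_lit 7276982742) (nat_lit 1292) (nat_lit 74035476481) (nat_lit 259) (nat_lit 5) (nat_lit 258) (nat_lit 5) (nat_lit 275) (nat_lit 5) (nat_lit 409) (nat_lit 407) (nat_lit 204)) (XT.lf (nat_lit 76) (nat_lit 10610014419) (nat_lit 0) (nat_lit 32288449784) (nat_lit 1292) (nat_lit 72246255662) (nat_lit 260) (nat_lit 5) (nat_lit 259) (nat_lit 5) (nat_lit 276) (nat_lit 5) (nat_lit 410) (nat_lit 407) (nat_lit 203))))) (XT.nd (nat_lit 234) (nat_lit 0) (nat_lit 152) (XT.nd (nat_lit 78) (nat_lit 0) (nat_lit 76) (XT.lf (nat_lit 0) (nat_lit 49241720604) (nat_lit 1216) (nat_lit 9920235109) (nat_lit 1292) (nat_lit 58915903110) (nat_lit 260) (nat_lit 5) (nat_lit 276) (nat_lit 5) (nat_lit 277) (nat_lit 5) (nat_lit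 411) (nat_lit 407) (nat_lit 202)) (XT.nd (nat_lit 78) (nat_lit 0) (nat_lit 76) (XT.lf (nat_lit 0) (nat_lit 57425662265) (nat_lit 1216) (nat_lit 30574347701) (nat_lit 1292) (nat_lit 33111939260) (nat_lit 261) (nat_lit 5) (nat_lit 277) (nat_lit 5) (nat_lit 278) (nat_lit 5) (nat_lit 412) (nat_lit 407) (nat_lit 201)) (XT.lf (nat_lit 0) (nat_lit 67469188236) (nat_lit 1216) (nat_lit 51554927399) (nat_lit 1292) (nat_lit 5230117057) (nat_lit 262) (nat_lit 5) (nat_lit 278) (nat_lit 5) (nat_lit 279) (nat_lit 5) (nat_lit 413) (nat_lit 407) (nat_lit 200)))) (XT.nd (nat_lit 156) (nat_lit 0) (nat_lit 152) (XT.nd (nat_lit 78) (nat_lit 0) (nat_lit 76) (XT.lf (nat_lit 76) (nat_lit 54401260877) (nat_lit 0) (nat_lit 25342153606) (nat_lit 1292) (nat_lit 47758360282) (nat_lit 263) (nat_lit 5) (nat_lit 262) (nat_lit 5) (nat_lit 279) (nat_lit 5) (nat_lit 414) (nat_lit 407) (nat_lit 199)) (XT.lf (nat_lit 76) (nat_lit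 35828415245) (nat_lit 0) (nat_lit 58384807498) (nat_lit 1292) (nat_lit 36651015222) (nat_lit 264) (nat_lit 5) (nat_lit 263) (nat_lit 5) (nat_lit 280) (nat_lit 5) (nat_lit 415) (nat_lit 407) (nat_lit 198))) (XT.nd (nat_lit 78) (nat_lit 0) (nat_lit 76) (XT.lf (nat_lit 76) (nat_lit 17043394742) (nat_lit 0) (nat_lit 93926984414) (nat_lit 1292) (nat_lit 23377529575) (nat_lit 265) (nat_lit 5) (nat_lit 264) (nat_lit 5) (nat_lit 281) (nat_lit 5) (nat_lit 416) (nat_lit 407) (nat_lit 197)) (XT.lf (nat_lit 0) (nat_lit 130184328260) (nat_lit 1216) (nat_lit 1905271272) (nat_lit 76) (nat_lit 5867595590) (nat_lit 265) (nat_lit 5) (nat_lit 281) (nat_lit 5) (nat_lit 266) (nat_lit 5) (nat_lit 417) (nat_lit 407) (nat_lit 196))))))) (XT.nd (nat_lit 52884) (nat_lit 0) (nat_lit 1140) (XT.nd (nat_lit 52416) (nat_lit 0) (nat_lit 3192) (XT.nd (nat_lit 234) (nat_lit 1140) (nat_lit 0) (XT.nd (nat_lit 78) (nat_lit 1292)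 (nat_lit 0) (XT.lf (nat_lit 0) (nat_lit 10572433927) (nat_lit 1292) (nat_lit 21117095333) (nat_lit 76) (nat_lit 109991079473) (nat_lit 248) (nat_lit 5) (nat_lit 265) (nat_lit 5) (nat_lit 249) (nat_lit 5) (nat_lit 418) (nat_lit 407) (nat_lit 195)) (XT.nd (nat_lit 78) (nat_lit 608) (nat_lit 0) (XT.lf (nat_lit 0) (nat_lit 31429899302) (nat_lit 760) (nat_lit 40689225302) (nat_lit 76) (nat_lit 73416090132) (nat_lit 239) (nat_lit 5) (nat_lit 249) (nat_lit 5) (nat_lit 240) (nat_lit 5) (nat_lit 419) (nat_lit 407) (nat_lit 194)) (XT.lf (nat_lit 0) (nat_lit 55061800252) (nat_lit 684) (nat_lit 60479283349) (nat_lit 76) (nat_lit 33989520680) (nat_lit 231) (nat_lit 5) (nat_lit 240) (nat_lit 5) (nat_lit 232) (nat_lit 5) (nat_lit 420) (nat_lit 407) (nat_lit 193)))) (XT.nd (nat_lit 78) (nat_lit 532) (nat_lit 0) (XT.lf (nat_lit 0) (nat_lit 73110218978) (nat_lit 608) (nat_lit 8618426887) (nat_lit 684) (nat_lit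 71941517055) (nat_lit 223) (nat_lit 5) (nat_lit 231) (nat_lit 5) (nat_lit 232) (nat_lit 5) (nat_lit 421) (nat_lit 407) (nat_lit 192)) (XT.nd (nat_lit 52026) (nat_lit 0) (nat_lit 3116) (XT.lf (nat_lit 0) (nat_lit 56749542228) (nat_lit 532) (nat_lit 55149559091) (nat_lit 608) (nat_lit 46052490246) (nat_lit 216) (nat_lit 5) (nat_lit 223) (nat_lit 5) (nat_lit 224) (nat_lit 5) (nat_lit 422) (nat_lit 407) (nat_lit 191)) (XT.lf (nat_lit 0) (nat_lit 17762067955) (nat_lit 1292) (nat_lit 19183051306) (nat_lit 1292) (nat_lit 19183051306) (nat_lit 257) (nat_lit 3) (nat_lit 274) (nat_lit 3) (nat_lit 274) (nat_lit 5) (nat_lit 408) (nat_lit 408) (nat_lit 204))))) (XT.nd (nat_lit 234) (nat_lit 0) (nat_lit 152) (XT.nd (nat_lit 78) (nat_lit 0) (nat_lit 0) (XT.lf (nat_lit 0) (nat_lit 37096080696) (nat_lit 1216) (nat_lit 61608194035) (nat_lit 1292) (nat_lit 16337956931) (nat_lit 258) (nat_lit 5) (nat_lit 274) (nat_lit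 5) (nat_lit 275) (nat_lit 5) (nat_lit 409) (nat_lit 408) (nat_lit 203)) (XT.nd (nat_lit 78) (nat_lit 0) (nat_lit 76) (XT.lf (nat_lit 76) (nat_lit 32555627566) (nat_lit 0) (nat_lit 7648046943) (nat_lit 1292) (nat_lit 77720030828) (nat_lit 259) (nat_lit 5) (nat_lit 258) (nat_lit 5) (nat_lit 275) (nat_lit 5) (nat_lit 410) (nat_lit 408) (nat_lit 202)) (XT.lf (nat_lit 76) (nat_lit 11150300146) (nat_lit 0) (nat_lit 33909032096) (nat_lit 1292) (nat_lit 75842140097) (nat_lit 260) (nat_lit 5) (nat_lit 259) (nat_lit 5) (nat_lit 276) (nat_lit 5) (nat_lit 411) (nat_lit 408) (nat_lit 201)))) (XT.nd (nat_lit 78) (nat_lit 0) (nat_lit 76) (XT.lf (nat_lit 0) (nat_lit 51718935793) (nat_lit 1216) (nat_lit 10406410924) (nat_lit 1292) (nat_lit 61855946245) (nat_lit 260) (nat_lit 5) (nat_lit 276) (nat_lit 5) (nat_lit 277) (nat_lit 5) (nat_lit 412) (nat_lit 408) (nat_lit 200)) (XT.nd (nat_lit 78) (nat_lit 0) (nat_lit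 76) (XT.lf (nat_lit 0) (nat_lit 60311398390) (nat_lit 1216) (nat_lit 32093023830) (nat_lit 1292) (nat_lit 34762686183) (nat_lit 261) (nat_lit 5) (nat_lit 277) (nat_lit 5) (nat_lit 278) (nat_lit 5) (nat_lit 413) (nat_lit 408) (nat_lit 199)) (XT.lf (nat_lit 0) (nat_lit 70856466716) (nat_lit 1216) (nat_lit 54122460657) (nat_lit 1292) (nat_lit 5487597912) (nat_lit 262) (nat_lit 5) (nat_lit 278) (nat_lit 5) (nat_lit 279) (nat_lit 5) (nat_lit 414) (nat_lit 408) (nat_lit 198)))))) (XT.nd (nat_lit 468) (nat_lit 608) (nat_lit 0) (XT.nd (nat_lit 234) (nat_lit 1748) (nat_lit 0) (XT.nd (nat_lit 78) (nat_lit 0) (nat_lit 76) (XT.lf (nat_lit 76) (nat_lit 57131244276) (nat_lit 0) (nat_lit 26612597309) (nat_lit 1292) (nat_lit 50132619970) (nat_lit 263) (nat_lit 5) (nat_lit 262) (nat_lit 5) (nat_lit 279) (nat_lit 5) (nat_lit 415) (nat_lit 408) (nat_lit 197)) (XT.nd (nat_lit 78) (nat_lit 0) (nat_lit 76) (XT.lf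 (nat_lit 76) (nat_lit 37629893573) (nat_lit 0) (nat_lit 61306681568) (nat_lit 1292) (nat_lit 38470489930) (nat_lit 264) (nat_lit 5) (nat_lit 263) (nat_lit 5) (nat_lit 280) (nat_lit 5) (nat_lit 416) (nat_lit 408) (nat_lit 196)) (XT.lf (nat_lit 76) (nat_lit 17905732100) (nat_lit 0) (nat_lit 98625326555) (nat_lit 1292) (nat_lit 24533876835) (nat_lit 265) (nat_lit 5) (nat_lit 264) (nat_lit 5) (nat_lit 281) (nat_lit 5) (nat_lit 417) (nat_lit 408) (nat_lit 195)))) (XT.nd (nat_lit 78) (nat_lit 1976) (nat_lit 0) (XT.lf (nat_lit 0) (nat_lit 136705107895) (nat_lit 1216) (nat_lit 1990482021) (nat_lit 76) (nat_lit 6159114388) (nat_lit 265) (nat_lit 5) (nat_lit 281) (nat_lit 5) (nat_lit 266) (nat_lit 5) (nat_lit 418) (nat_lit 408) (nat_lit 194)) (XT.nd (nat_lit 78) (nat_lit 684) (nat_lit 0) (XT.lf (nat_lit 0) (nat_lit 11112275479) (nat_lit 1292) (nat_lit 22162958748) (nat_lit 76) (nat_lit 115489064946) (nat_lit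 248) (nat_lit 5) (nat_lit 265) (nat_lit 5) (nat_lit 249) (nat_lit 5) (nat_lit 419) (nat_lit 408) (nat_lit 193)) (XT.lf (nat_lit 0) (nat_lit 33012162811) (nat_lit 760) (nat_lit 42713644688) (nat_lit 76) (nat_lit 77085841679) (nat_lit 239) (nat_lit 5) (nat_lit 249) (nat_lit 5) (nat_lit 240) (nat_lit 5) (nat_lit 420) (nat_lit 408) (nat_lit 192))))) (XT.nd (nat_lit 52338) (nat_lit 0) (nat_lit 2052) (XT.nd (nat_lit 52182) (nat_lit 0) (nat_lit 1976) (XT.lf (nat_lit 0) (nat_lit 57825234058) (nat_lit 684) (nat_lit 63493174192) (nat_lit 76) (nat_lit 35688412847) (nat_lit 231) (nat_lit 5) (nat_lit 240) (nat_lit 5) (nat_lit 232) (nat_lit 5) (nat_lit 421) (nat_lit 408) (nat_lit 191)) (XT.nd (nat_lit 78) (nat_lit 0) (nat_lit 76) (XT.lf (nat_lit 0) (nat_lit 18658478380) (nat_lit 1292) (nat_lit 20137924394) (nat_lit 1292) (nat_lit 20137924394) (nat_lit 257) (nat_lit 3) (nat_lit 274) (nat_lit 3) (nat_lit 274)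 (nat_lit 5) (nat_lit 409) (nat_lit 409) (nat_lit 202)) (XT.lf (nat_lit 0) (nat_lit 38966714603) (nat_lit 1216) (nat_lit 64679734910) (nat_lit 1292) (nat_lit 17147413660) (nat_lit 258) (nat_lit 5) (nat_lit 274) (nat_lit 5) (nat_lit 275) (nat_lit 5) (nat_lit 410) (nat_lit 409) (nat_lit 201)))) (XT.nd (nat_lit 156) (nat_lit 0) (nat_lit 152) (XT.nd (nat_lit 78) (nat_lit 0) (nat_lit 76) (XT.lf (nat_lit 76) (nat_lit 34192023547) (nat_lit 0) (nat_lit 8036993565) (nat_lit 1292) (nat_lit 81590413797) (nat_lit 259) (nat_lit 5) (nat_lit 258) (nat_lit 5) (nat_lit 275) (nat_lit 5) (nat_lit 411) (nat_lit 409) (nat_lit 200)) (XT.lf (nat_lit 76) (nat_lit 11716690443) (nat_lit 0) (nat_lit 35610070841) (nat_lit 1292) (nat_lit 79619346106) (nat_lit 260) (nat_lit 5) (nat_lit 259) (nat_lit 5) (nat_lit 276) (nat_lit 5) (nat_lit 412) (nat_lit 409) (nat_lit 199))) (XT.nd (nat_lit 78) (nat_lit 0) (nat_lit 76) (XT.lf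 (nat_lit 0) (nat_lit 54318605176) (nat_lit 1216) (nat_lit 10917809982) (nat_lit 1292) (nat_lit 64943526305) (nat_lit 260) (nat_lit 5) (nat_lit 276) (nat_lit 5) (nat_lit 277) (nat_lit 5) (nat_lit 413) (nat_lit 409) (nat_lit 198)) (XT.lf (nat_lit 0) (nat_lit 63340077618) (nat_lit 1216) (nat_lit 33688567306) (nat_lit 1292) (nat_lit 36496421363) (nat_lit 261) (nat_lit 5) (nat_lit 277) (nat_lit 5) (nat_lit 278) (nat_lit 5) (nat_lit 414) (nat_lit 409) (nat_lit 197))))))))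
noncomputable def xc127 : XT := (XT.nd (nat_lit 106470) (nat_lit 0) (nat_lit 1368) (XT.nd (nat_lit 53118) (nat_lit 0) (nat_lit 1368) (XT.nd (nat_lit 468) (nat_lit 684) (nat_lit 0) (XT.nd (nat_lit 234) (nat_lit 1064) (nat_lit 0) (XT.nd (nat_lit 78) (nat_lit 0) (nat_lit 0) (XT.lf (nat_lit 0) (nat_lit 74411824354) (nat_lit 1216) (nat_lit 56819320096) (nat_lit 1292) (nat_lit 5758327015) (nat_lit 262) (nat_lit 5) (nat_lit 278) (nat_lit 5) (nat_lit 279) (nat_lit 5) (nat_lit 415) (nat_lit 409) (nat_lit 196)) (XT.nd (nat_lit 78) (nat_lit 0) (nat_lit 76) (XT.lf (nat_lit 76) (nat_lit 59996804544) (nat_lit 0) (nat_lit 27946253045) (nat_lit 1292) (nat_lit 52626862463) (nat_lit 263) (nat_lit 5) (nat_lit 262) (nat_lit 5) (nat_lit 279) (nat_lit 5) (nat_lit 416) (nat_lit 409) (nat_lit 195)) (XT.lf (nat_lit 76) (nat_lit 39520510761) (nat_lit 0) (nat_lit 64374404485) (nat_lit 1292) (nat_lit 40382154061) (nat_lit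 264) (nat_lit 5) (nat_lit 263) (nat_lit 5) (nat_lit 280) (nat_lit 5) (nat_lit 417) (nat_lit 409) (nat_lit 194)))) (XT.nd (nat_lit 78) (nat_lit 1216) (nat_lit 0) (XT.lf (nat_lit 76) (nat_lit 18810241038) (nat_lit 0) (nat_lit 103558400520) (nat_lit 1292) (nat_lit 25749206306) (nat_lit 265) (nat_lit 5) (nat_lit 264) (nat_lit 5) (nat_lit 281) (nat_lit 5) (nat_lit 418) (nat_lit 409) (nat_lit 193)) (XT.nd (nat_lit 78) (nat_lit 1292) (nat_lit 0) (XT.lf (nat_lit 0) (nat_lit 143550851474) (nat_lit 1216) (nat_lit 2080887921) (nat_lit 76) (nat_lit 6465382143) (nat_lit 265) (nat_lit 5) (nat_lit 281) (nat_lit 5) (nat_lit 266) (nat_lit 5) (nat_lit 419) (nat_lit 409) (nat_lit 192)) (XT.lf (nat_lit 0) (nat_lit 11678065993) (nat_lit 1292) (nat_lit 23262044235) (nat_lit 76) (nat_lit 121262095516) (nat_lit 248) (nat_lit 5) (nat_lit 265) (nat_lit 5) (nat_lit 249) (nat_lit 5) (nat_lit 420) (nat_lit 409) (nat_lit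 191))))) (XT.nd (nat_lit 52416) (nat_lit 0) (nat_lit 1444) (XT.nd (nat_lit 52260) (nat_lit 0) (nat_lit 1368) (XT.lf (nat_lit 0) (nat_lit 34672538339) (nat_lit 760) (nat_lit 44840218642) (nat_lit 76) (nat_lit 80939178697) (nat_lit 239) (nat_lit 5) (nat_lit 249) (nat_lit 5) (nat_lit 240) (nat_lit 5) (nat_lit 421) (nat_lit 409) (nat_lit 190)) (XT.nd (nat_lit 78) (nat_lit 0) (nat_lit 76) (XT.lf (nat_lit 0) (nat_lit 19598937018) (nat_lit 1292) (nat_lit 21140939001) (nat_lit 1292) (nat_lit 21140939001) (nat_lit 257) (nat_lit 3) (nat_lit 274) (nat_lit 3) (nat_lit 274) (nat_lit 5) (nat_lit 410) (nat_lit 410) (nat_lit 200)) (XT.lf (nat_lit 0) (nat_lit 40929408495) (nat_lit 1216) (nat_lit 67905677369) (nat_lit 1292) (nat_lit 17998035029) (nat_lit 258) (nat_lit 5) (nat_lit 274) (nat_lit 5) (nat_lit 275) (nat_lit 5) (nat_lit 411) (nat_lit 410) (nat_lit 199)))) (XT.nd (nat_lit 78) (nat_lit 0) (nat_lit 76)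 (XT.lf (nat_lit 76) (nat_lit 35909438423) (nat_lit 0) (nat_lit 8444779094) (nat_lit 1292) (nat_lit 85655767981) (nat_lit 259) (nat_lit 5) (nat_lit 258) (nat_lit 5) (nat_lit 275) (nat_lit 5) (nat_lit 412) (nat_lit 410) (nat_lit 198)) (XT.nd (nat_lit 78) (nat_lit 0) (nat_lit 76) (XT.lf (nat_lit 76) (nat_lit 12310575114) (nat_lit 0) (nat_lit 37395642084) (nat_lit 1292) (nat_lit 83586797768) (nat_lit 260) (nat_lit 5) (nat_lit 259) (nat_lit 5) (nat_lit 276) (nat_lit 5) (nat_lit 413) (nat_lit 410) (nat_lit 197)) (XT.lf (nat_lit 0) (nat_lit 57046982231) (nat_lit 1216) (nat_lit 11455608428) (nat_lit 1292) (nat_lit 68185970419) (nat_lit 260) (nat_lit 5) (nat_lit 276) (nat_lit 5) (nat_lit 277) (nat_lit 5) (nat_lit 414) (nat_lit 410) (nat_lit 196)))))) (XT.nd (nat_lit 52806) (nat_lit 304) (nat_lit 0) (XT.nd (nat_lit 234) (nat_lit 0) (nat_lit 152) (XT.nd (nat_lit 78) (nat_lit 0) (nat_lit 76) (XT.lf (nat_lit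 0) (nat_lit 66518972027) (nat_lit 1216) (nat_lit 35364734706) (nat_lit 1292) (nat_lit 38317252291) (nat_lit 261) (nat_lit 5) (nat_lit 277) (nat_lit 5) (nat_lit 278) (nat_lit 5) (nat_lit 415) (nat_lit 410) (nat_lit 195)) (XT.nd (nat_lit 78) (nat_lit 0) (nat_lit 0) (XT.lf (nat_lit 0) (nat_lit 78143784554) (nat_lit 1216) (nat_lit 59651883748) (nat_lit 1292) (nat_lit 6042931990) (nat_lit 262) (nat_lit 5) (nat_lit 278) (nat_lit 5) (nat_lit 279) (nat_lit 5) (nat_lit 416) (nat_lit 410) (nat_lit 194)) (XT.lf (nat_lit 76) (nat_lit 63004806272) (nat_lit 0) (nat_lit 29346310251) (nat_lit 1292) (nat_lit 55246968847) (nat_lit 263) (nat_lit 5) (nat_lit 262) (nat_lit 5) (nat_lit 279) (nat_lit 5) (nat_lit 417) (nat_lit 410) (nat_lit 193)))) (XT.nd (nat_lit 78) (nat_lit 0) (nat_lit 76) (XT.lf (nat_lit 76) (nat_lit 41504810683) (nat_lit 0) (nat_lit 67595291456) (nat_lit 1292) (nat_lit 42390504063) (nat_lit 264)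 (nat_lit 5) (nat_lit 263) (nat_lit 5) (nat_lit 280) (nat_lit 5) (nat_lit 418) (nat_lit 410) (nat_lit 192)) (XT.nd (nat_lit 78) (nat_lit 0) (nat_lit 76) (XT.lf (nat_lit 76) (nat_lit 19759118017) (nat_lit 0) (nat_lit 108737960125) (nat_lit 1292) (nat_lit 27026358802) (nat_lit 265) (nat_lit 5) (nat_lit 264) (nat_lit 5) (nat_lit 281) (nat_lit 5) (nat_lit 419) (nat_lit 410) (nat_lit 191)) (XT.lf (nat_lit 0) (nat_lit 150737907140) (nat_lit 1216) (nat_lit 2176661841) (nat_lit 76) (nat_lit 6787120216) (nat_lit 265) (nat_lit 5) (nat_lit 281) (nat_lit 5) (nat_lit 266) (nat_lit 5) (nat_lit 420) (nat_lit 410) (nat_lit 190))))) (XT.nd (nat_lit 234) (nat_lit 0) (nat_lit 152) (XT.nd (nat_lit 78) (nat_lit 0) (nat_lit 76) (XT.lf (nat_lit 0) (nat_lit 20585718080) (nat_lit 1292) (nat_lit 22194465214) (nat_lit 1292) (nat_lit 22194465214) (nat_lit 257) (nat_lit 3) (nat_lit 274) (nat_lit 3) (nat_lit 274) (nat_lit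 5) (nat_lit 411) (nat_lit 411) (nat_lit 198)) (XT.nd (nat_lit 78) (nat_lit 0) (nat_lit 0) (XT.lf (nat_lit 0) (nat_lit 42988902195) (nat_lit 1216) (nat_lit 71293664832) (nat_lit 1292) (nat_lit 18891814955) (nat_lit 258) (nat_lit 5) (nat_lit 274) (nat_lit 5) (nat_lit 275) (nat_lit 5) (nat_lit 412) (nat_lit 411) (nat_lit 197)) (XT.lf (nat_lit 76) (nat_lit 37711997600) (nat_lit 0) (nat_lit 8872402040) (nat_lit 1292) (nat_lit 89925706941) (nat_lit 259) (nat_lit 5) (nat_lit 258) (nat_lit 5) (nat_lit 275) (nat_lit 5) (nat_lit 413) (nat_lit 411) (nat_lit 196)))) (XT.nd (nat_lit 156) (nat_lit 0) (nat_lit 152) (XT.nd (nat_lit 78) (nat_lit 0) (nat_lit 76) (XT.lf (nat_lit 76) (nat_lit 12933405592) (nat_lit 0) (nat_lit 39270020742) (nat_lit 1292) (nat_lit 87753878570) (nat_lit 260) (nat_lit 5) (nat_lit 259) (nat_lit 5) (nat_lit 276) (nat_lit 5) (nat_lit 414) (nat_lit 411) (nat_lit 195)) (XT.lf (nat_lit 0)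 (nat_lit 59910620953) (nat_lit 1216) (nat_lit 12021049118) (nat_lit 1292) (nat_lit 71590976693) (nat_lit 260) (nat_lit 5) (nat_lit 276) (nat_lit 5) (nat_lit 277) (nat_lit 5) (nat_lit 415) (nat_lit 411) (nat_lit 194))) (XT.nd (nat_lit 78) (nat_lit 0) (nat_lit 76) (XT.lf (nat_lit 0) (nat_lit 69855705689) (nat_lit 1216) (nat_lit 37125478501) (nat_lit 1292) (nat_lit 40229495731) (nat_lit 261) (nat_lit 5) (nat_lit 277) (nat_lit 5) (nat_lit 278) (nat_lit 5) (nat_lit 416) (nat_lit 411) (nat_lit 193)) (XT.lf (nat_lit 0) (nat_lit 82061285783) (nat_lit 1216) (nat_lit 62626856754) (nat_lit 1292) (nat_lit 6342075073) (nat_lit 262) (nat_lit 5) (nat_lit 278) (nat_lit 5) (nat_lit 279) (nat_lit 5) (nat_lit 417) (nat_lit 411) (nat_lit 192))))))) (XT.nd (nat_lit 105924) (nat_lit 0) (nat_lit 0) (XT.nd (nat_lit 52884) (nat_lit 0) (nat_lit 0) (XT.nd (nat_lit 52650) (nat_lit 380) (nat_lit 0) (XT.nd (nat_lit 78) (nat_lit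 0) (nat_lit 76) (XT.lf (nat_lit 76) (nat_lit 66162449308) (nat_lit 0) (nat_lit 30816115156) (nat_lit 1292) (nat_lit 57999125236) (nat_lit 263) (nat_lit 5) (nat_lit 262) (nat_lit 5) (nat_lit 279) (nat_lit 5) (nat_lit 418) (nat_lit 411) (nat_lit 191)) (XT.nd (nat_lit 78) (nat_lit 0) (nat_lit 76) (XT.lf (nat_lit 76) (nat_lit 43587556328) (nat_lit 0) (nat_lit 70977021332) (nat_lit 1292) (nat_lit 44500271714) (nat_lit 264) (nat_lit 5) (nat_lit 263) (nat_lit 5) (nat_lit 280) (nat_lit 5) (nat_lit 419) (nat_lit 411) (nat_lit 190)) (XT.lf (nat_lit 76) (nat_lit 20754661154) (nat_lit 0) (nat_lit 114176345279) (nat_lit 1292) (nat_lit 28368327246) (nat_lit 265) (nat_lit 5) (nat_lit 264) (nat_lit 5) (nat_lit 281) (nat_lit 5) (nat_lit 420) (nat_lit 411) (nat_lit 189)))) (XT.nd (nat_lit 78) (nat_lit 0) (nat_lit 76) (XT.lf (nat_lit 0) (nat_lit 21621202816) (nat_lit 1292) (nat_lit 23300995063) (nat_lit 1292) (nat_lit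 23300995063) (nat_lit 257) (nat_lit 3) (nat_lit 274) (nat_lit 3) (nat_lit 274) (nat_lit 5) (nat_lit 412) (nat_lit 412) (nat_lit 196)) (XT.nd (nat_lit 78) (nat_lit 0) (nat_lit 0) (XT.lf (nat_lit 0) (nat_lit 45150159799) (nat_lit 1216) (nat_lit 74851730019) (nat_lit 1292) (nat_lit 19830853026) (nat_lit 258) (nat_lit 5) (nat_lit 274) (nat_lit 5) (nat_lit 275) (nat_lit 5) (nat_lit 413) (nat_lit 412) (nat_lit 195)) (XT.lf (nat_lit 76) (nat_lit 39604025829) (nat_lit 0) (nat_lit 9320905581) (nat_lit 1292) (nat_lit 94410337469) (nat_lit 259) (nat_lit 5) (nat_lit 258) (nat_lit 5) (nat_lit 275) (nat_lit 5) (nat_lit 414) (nat_lit 412) (nat_lit 194))))) (XT.nd (nat_lit 234) (nat_lit 152) (nat_lit 0) (XT.nd (nat_lit 78) (nat_lit 0) (nat_lit 76) (XT.lf (nat_lit 76) (nat_lit 13586698749) (nat_lit 0) (nat_lit 41237690989) (nat_lit 1292) (nat_lit 92130453146) (nat_lit 260) (nat_lit 5) (nat_lit 259) (nat_lit 5)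 (nat_lit 276) (nat_lit 5) (nat_lit 415) (nat_lit 412) (nat_lit 193)) (XT.nd (nat_lit 78) (nat_lit 0) (nat_lit 76) (XT.lf (nat_lit 0) (nat_lit 62916392011) (nat_lit 1216) (nat_lit 12615444222) (nat_lit 1292) (nat_lit 75166632334) (nat_lit 260) (nat_lit 5) (nat_lit 276) (nat_lit 5) (nat_lit 277) (nat_lit 5) (nat_lit 416) (nat_lit 412) (nat_lit 192)) (XT.lf (nat_lit 0) (nat_lit 73358273341) (nat_lit 1216) (nat_lit 38974956109) (nat_lit 1292) (nat_lit 42237687820) (nat_lit 261) (nat_lit 5) (nat_lit 277) (nat_lit 5) (nat_lit 278) (nat_lit 5) (nat_lit 417) (nat_lit 412) (nat_lit 191)))) (XT.nd (nat_lit 78) (nat_lit 380) (nat_lit 0) (XT.lf (nat_lit 0) (nat_lit 86173703362) (nat_lit 1216) (nat_lit 65751286955) (nat_lit 1292) (nat_lit 6656454550) (nat_lit 262) (nat_lit 5) (nat_lit 278) (nat_lit 5) (nat_lit 279) (nat_lit 5) (nat_lit 418) (nat_lit 412) (nat_lit 190)) (XT.nd (nat_lit 52650) (nat_lit 380)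 (nat_lit 0) (XT.lf (nat_lit 76) (nat_lit 69477286260) (nat_lit 0) (nat_lit 32359178865) (nat_lit 1292) (nat_lit 60889837005) (nat_lit 263) (nat_lit 5) (nat_lit 262) (nat_lit 5) (nat_lit 279) (nat_lit 5) (nat_lit 419) (nat_lit 412) (nat_lit 189)) (XT.lf (nat_lit 0) (nat_lit 22707885480) (nat_lit 1292) (nat_lit 24463148297) (nat_lit 1292) (nat_lit 24463148297) (nat_lit 257) (nat_lit 3) (nat_lit 274) (nat_lit 3) (nat_lit 274) (nat_lit 5) (nat_lit 413) (nat_lit 413) (nat_lit 194)))))) (XT.nd (nat_lit 53196) (nat_lit 0) (nat_lit 0) (XT.nd (nat_lit 234) (nat_lit 76) (nat_lit 0) (XT.nd (nat_lit 78) (nat_lit 0) (nat_lit 0) (XT.lf (nat_lit 0) (nat_lit 47418382070) (nat_lit 1216) (nat_lit 78588313750) (nat_lit 1292) (nat_lit 20817359236) (nat_lit 258) (nat_lit 5) (nat_lit 274) (nat_lit 5) (nat_lit 275) (nat_lit 5) (nat_lit 414) (nat_lit 413) (nat_lit 193)) (XT.nd (nat_lit 78) (nat_lit 0) (nat_lit 76) (XT.lf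 (nat_lit 76) (nat_lit 41590057823) (nat_lit 0) (nat_lit 9791380283) (nat_lit 1292) (nat_lit 99120283077) (nat_lit 259) (nat_lit 5) (nat_lit 258) (nat_lit 5) (nat_lit 275) (nat_lit 5) (nat_lit 415) (nat_lit 413) (nat_lit 192)) (XT.lf (nat_lit 76) (nat_lit 14272040831) (nat_lit 0) (nat_lit 43303357135) (nat_lit 1292) (nat_lit 96726890223) (nat_lit 260) (nat_lit 5) (nat_lit 259) (nat_lit 5) (nat_lit 276) (nat_lit 5) (nat_lit 416) (nat_lit 413) (nat_lit 191)))) (XT.nd (nat_lit 78) (nat_lit 228) (nat_lit 0) (XT.lf (nat_lit 0) (nat_lit 66071499602) (nat_lit 1216) (nat_lit 13240178019) (nat_lit 1292) (nat_lit 78921432709) (nat_lit 260) (nat_lit 5) (nat_lit 276) (nat_lit 5) (nat_lit 277) (nat_lit 5) (nat_lit 417) (nat_lit 413) (nat_lit 190)) (XT.nd (nat_lit 52806) (nat_lit 304) (nat_lit 0) (XT.lf (nat_lit 0) (nat_lit 77035059903) (nat_lit 1216) (nat_lit 40917539455) (nat_lit 1292) (nat_lit 44346594707)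 (nat_lit 261) (nat_lit 5) (nat_lit 277) (nat_lit 5) (nat_lit 278) (nat_lit 5) (nat_lit 418) (nat_lit 413) (nat_lit 189)) (XT.lf (nat_lit 0) (nat_lit 23848379548) (nat_lit 1292) (nat_lit 25683678484) (nat_lit 1292) (nat_lit 25683678484) (nat_lit 257) (nat_lit 3) (nat_lit 274) (nat_lit 3) (nat_lit 274) (nat_lit 5) (nat_lit 414) (nat_lit 414) (nat_lit 192))))) (XT.nd (nat_lit 234) (nat_lit 76) (nat_lit 0) (XT.nd (nat_lit 78) (nat_lit 0) (nat_lit 0) (XT.lf (nat_lit 0) (nat_lit 49799019342) (nat_lit 1216) (nat_lit 82512284748) (nat_lit 1292) (nat_lit 21853658997) (nat_lit 258) (nat_lit 5) (nat_lit 274) (nat_lit 5) (nat_lit 275) (nat_lit 5) (nat_lit 415) (nat_lit 414) (nat_lit 191)) (XT.nd (nat_lit 78) (nat_lit 0) (nat_lit 76) (XT.lf (nat_lit 76) (nat_lit 43674849333) (nat_lit 0) (nat_lit 10284966914) (nat_lit 1292) (nat_lit 104066708782) (nat_lit 259) (nat_lit 5) (nat_lit 258) (nat_lit 5) (nat_lit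 275) (nat_lit 5) (nat_lit 416) (nat_lit 414) (nat_lit 190)) (XT.lf (nat_lit 76) (nat_lit 14991091531) (nat_lit 0) (nat_lit 45471955011) (nat_lit 1292) (nat_lit 101554086815) (nat_lit 260) (nat_lit 5) (nat_lit 259) (nat_lit 5) (nat_lit 276) (nat_lit 5) (nat_lit 417) (nat_lit 414) (nat_lit 189)))) (XT.nd (nat_lit 52962) (nat_lit 0) (nat_lit 76) (XT.nd (nat_lit 52884) (nat_lit 228) (nat_lit 0) (XT.lf (nat_lit 0) (nat_lit 69383499064) (nat_lit 1216) (nat_lit 13896709900) (nat_lit 1292) (nat_lit 82864301404) (nat_lit 260) (nat_lit 5) (nat_lit 276) (nat_lit 5) (nat_lit 277) (nat_lit 5) (nat_lit 418) (nat_lit 414) (nat_lit 188)) (XT.lf (nat_lit 0) (nat_lit 25045424190) (nat_lit 1292) (nat_lit 26965479435) (nat_lit 1292) (nat_lit 26965479435) (nat_lit 257) (nat_lit 3) (nat_lit 274) (nat_lit 3) (nat_lit 274) (nat_lit 5) (nat_lit 415) (nat_lit 415) (nat_lit 190))) (XT.nd (nat_lit 78) (nat_lit 0) (nat_lit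 0) (XT.lf (nat_lit 0) (nat_lit 52297784975) (nat_lit 1216) (nat_lit 86632960491) (nat_lit 1292) (nat_lit 22942198454) (nat_lit 258) (nat_lit 5) (nat_lit 274) (nat_lit 5) (nat_lit 275) (nat_lit 5) (nat_lit 416) (nat_lit 415) (nat_lit 189)) (XT.lf (nat_lit 76) (nat_lit 45863388733) (nat_lit 0) (nat_lit 10802859357) (nat_lit 1292) (nat_lit 109261347216) (nat_lit 259) (nat_lit 5) (nat_lit 258) (nat_lit 5) (nat_lit 275) (nat_lit 5) (nat_lit 417) (nat_lit 415) (nat_lit 188))))))))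

set_option maxRecDepth 10000000 in
noncomputable def Tp : PT := (PT.nd (nat_lit 9256026) (PT.nd (nat_lit 8618766) (PT.nd (nat_lit 7928466) (PT.nd (nat_lit 7132554) pc0 pc1) (PT.nd (nat_lit 424554) pc2 pc3)) (PT.nd (nat_lit 371826) (PT.nd (nat_lit 212238) pc4 pc5) (PT.nd (nat_lit 158652) pc6 pc7))) (PT.nd (nat_lit 372294) (PT.nd (nat_lit 211770) (PT.nd (nat_lit 106158) pc8 pc9) (PT.nd (nat_lit 104988) pc10 pc11)) (PT.nd (nat_lit 368472) (PT.nd (nat_lit 156858) pc12 pc13) (PT.nd (nat_lit 270114) pc14 pc15))))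

set_option maxRecDepth 10000000 in
noncomputable def Tx : XT := (XT.nd (nat_lit 15544464) (nat_lit 0) (nat_lit 228) XT.nil (XT.nd (nat_lit 6532110) (nat_lit 0) (nat_lit 0) (XT.nd (nat_lit 2972346) (nat_lit 0) (nat_lit 1444) (XT.nd (nat_lit 2018562) (nat_lit 0) (nat_lit 532) (XT.nd (nat_lit 1430988) (nat_lit 0) (nat_lit 228) (XT.nd (nat_lit 956280) (nat_lit 0) (nat_lit 76) (XT.nd (nat_lit 688818) (nat_lit 0) (nat_lit 0) (XT.nd (nat_lit 476658) (nat_lit 0) (nat_lit 0) (XT.nd (nat_lit 317850) (nat_lit 0) (nat_lit 0) xc0 xc1) (XT.nd (nat_lit 106392) (nat_lit 0) (nat_lit 0) xc2 xc3)) (XT.nd (nat_lit 159354) (nat_lit 0) (nat_lit 0) (XT.nd (nat_lit 54522) (nat_lit 0) (nat_lit 0) xc4 xc5) (XT.nd (nat_lit 54132) (nat_lit 0) (nat_lit 76) xc6 xc7))) (XT.nd (nat_lit 263562) (nat_lit 0) (nat_lit 0) (XT.nd (nat_lit 157014) (nat_lit 0) (nat_lit 0) (XT.nd (nat_lit 103506) (nat_lit 0) (nat_lit 0) xc8 xc9) (XT.nd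 (nat_lit 53352) (nat_lit 0) (nat_lit 0) xc10 xc11)) (XT.nd (nat_lit 105846) (nat_lit 0) (nat_lit 152) (XT.nd (nat_lit 52962) (nat_lit 0) (nat_lit 0) xc12 xc13) (XT.nd (nat_lit 52728) (nat_lit 0) (nat_lit 0) xc14 xc15)))) (XT.nd (nat_lit 319800) (nat_lit 0) (nat_lit 76) (XT.nd (nat_lit 160602) (nat_lit 0) (nat_lit 76) (XT.nd (nat_lit 56238) (nat_lit 0) (nat_lit 0) (XT.nd (nat_lit 52338) (nat_lit 0) (nat_lit 76) xc16 xc17) (XT.nd (nat_lit 52260) (nat_lit 0) (nat_lit 0) xc18 xc19)) (XT.nd (nat_lit 103662) (nat_lit 0) (nat_lit 0) (XT.nd (nat_lit 51870) (nat_lit 0) (nat_lit 0) xc20 xc21) (XT.nd (nat_lit 3900) (nat_lit 380) (nat_lit 0) xc22 xc23))) (XT.nd (nat_lit 157950) (nat_lit 0) (nat_lit 152) (XT.nd (nat_lit 55302) (nat_lit 0) (nat_lit 152) (XT.nd (nat_lit 51402) (nat_lit 0) (nat_lit 152) xc24 xc25) (XT.nd (nat_lit 51402) (nat_lit 0) (nat_lit 0) xc26 xc27)) (XT.nd (nat_lit 54990) (nat_lit 0) (nat_lit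 0) (XT.nd (nat_lit 51090) (nat_lit 0) (nat_lit 1216) xc28 xc29) (XT.nd (nat_lit 50934) (nat_lit 0) (nat_lit 76) xc30 xc31))))) (XT.nd (nat_lit 523926) (nat_lit 0) (nat_lit 380) (XT.nd (nat_lit 263874) (nat_lit 0) (nat_lit 152) (XT.nd (nat_lit 155688) (nat_lit 0) (nat_lit 152) (XT.nd (nat_lit 101322) (nat_lit 0) (nat_lit 0) (XT.nd (nat_lit 50700) (nat_lit 0) (nat_lit 0) xc32 xc33) (XT.nd (nat_lit 3900) (nat_lit 684) (nat_lit 0) xc34 xc35)) (XT.nd (nat_lit 54132) (nat_lit 0) (nat_lit 0) (XT.nd (nat_lit 50232) (nat_lit 0) (nat_lit 2508) xc36 xc37) (XT.nd (nat_lit 50154) (nat_lit 0) (nat_lit 1368) xc38 xc39))) (XT.nd (nat_lit 107562) (nat_lit 0) (nat_lit 76) (XT.nd (nat_lit 53820) (nat_lit 0) (nat_lit 76) (XT.nd (nat_lit 49920) (nat_lit 0) (nat_lit 760) xc40 xc41) (XT.nd (nat_lit 49842) (nat_lit 0) (nat_lit 304) xc42 xc43)) (XT.nd (nat_lit 99216) (nat_lit 0) (nat_lit 152) (XT.nd (nat_lit 49686) (nat_lit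 0) (nat_lit 0) xc44 xc45) (XT.nd (nat_lit 3900) (nat_lit 4560) (nat_lit 0) xc46 xc47)))) (XT.nd (nat_lit 214188) (nat_lit 0) (nat_lit 304) (XT.nd (nat_lit 106860) (nat_lit 0) (nat_lit 152) (XT.nd (nat_lit 53274) (nat_lit 0) (nat_lit 76) (XT.nd (nat_lit 3822) (nat_lit 4560) (nat_lit 0) xc48 xc49) (XT.nd (nat_lit 3900) (nat_lit 3952) (nat_lit 0) xc50 xc51)) (XT.nd (nat_lit 53586) (nat_lit 0) (nat_lit 76) (XT.nd (nat_lit 3822) (nat_lit 3268) (nat_lit 0) xc52 xc53) (XT.nd (nat_lit 3900) (nat_lit 2356) (nat_lit 0) xc54 xc55))) (XT.nd (nat_lit 107640) (nat_lit 0) (nat_lit 76) (XT.nd (nat_lit 53742) (nat_lit 0) (nat_lit 0) (XT.nd (nat_lit 3822) (nat_lit 1444) (nat_lit 0) xc56 xc57) (XT.nd (nat_lit 3900) (nat_lit 912) (nat_lit 0) xc58 xc59)) (XT.nd (nat_lit 53976) (nat_lit 0) (nat_lit 76) (XT.nd (nat_lit 3900) (nat_lit 152) (nat_lit 0) xc60 xc61) (XT.nd (nat_lit 50154) (nat_lit 0) (nat_lit 2812) xc62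 xc63)))))) (XT.nd (nat_lit 1116180) (nat_lit 0) (nat_lit 2128) (XT.nd (nat_lit 529308) (nat_lit 0) (nat_lit 684) (XT.nd (nat_lit 263406) (nat_lit 0) (nat_lit 304) (XT.nd (nat_lit 108264) (nat_lit 0) (nat_lit 76) (XT.nd (nat_lit 54054) (nat_lit 0) (nat_lit 0) (XT.nd (nat_lit 50154) (nat_lit 0) (nat_lit 1444) xc64 xc65) (XT.nd (nat_lit 50310) (nat_lit 0) (nat_lit 304) xc66 xc67)) (XT.nd (nat_lit 100620) (nat_lit 0) (nat_lit 152) (XT.nd (nat_lit 50232) (nat_lit 0) (nat_lit 76) xc68 xc69) (XT.nd (nat_lit 3900) (nat_lit 2508) (nat_lit 0) xc70 xc71))) (XT.nd (nat_lit 109200) (nat_lit 0) (nat_lit 152) (XT.nd (nat_lit 54522) (nat_lit 0) (nat_lit 152) (XT.nd (nat_lit 3822) (nat_lit 608) (nat_lit 0) xc72 xc73) (XT.nd (nat_lit 50778) (nat_lit 0) (nat_lit 1900) xc74 xc75)) (XT.nd (nat_lit 101790) (nat_lit 0) (nat_lit 228) (XT.nd (nat_lit 50856) (nat_lit 0) (nat_lit 76) xc76 xc77) (XT.nd (nat_lit 3900) (nat_lit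 2964) (nat_lit 0) xc78 xc79)))) (XT.nd (nat_lit 268086) (nat_lit 0) (nat_lit 760) (XT.nd (nat_lit 109980) (nat_lit 0) (nat_lit 228) (XT.nd (nat_lit 54912) (nat_lit 0) (nat_lit 76) (XT.nd (nat_lit 3822) (nat_lit 304) (nat_lit 0) xc80 xc81) (XT.nd (nat_lit 51168) (nat_lit 0) (nat_lit 456) xc82 xc83)) (XT.nd (nat_lit 102648) (nat_lit 0) (nat_lit 304) (XT.nd (nat_lit 51168) (nat_lit 0) (nat_lit 228) xc84 xc85) (XT.nd (nat_lit 51558) (nat_lit 0) (nat_lit 2584) xc86 xc87))) (XT.nd (nat_lit 158964) (nat_lit 0) (nat_lit 304) (XT.nd (nat_lit 103272) (nat_lit 0) (nat_lit 76) (XT.nd (nat_lit 51558) (nat_lit 0) (nat_lit 76) xc88 xc89) (XT.nd (nat_lit 3900) (nat_lit 836) (nat_lit 0) xc90 xc91)) (XT.nd (nat_lit 103818) (nat_lit 0) (nat_lit 380) (XT.nd (nat_lit 51870) (nat_lit 0) (nat_lit 76) xc92 xc93) (XT.nd (nat_lit 3900) (nat_lit 304) (nat_lit 0) xc94 xc95))))) (XT.nd (nat_lit 795678) (nat_lit 0) (nat_lit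 2736) (XT.nd (nat_lit 370812) (nat_lit 0) (nat_lit 1140) (XT.nd (nat_lit 209118) (nat_lit 0) (nat_lit 608) (XT.nd (nat_lit 104364) (nat_lit 0) (nat_lit 304) (XT.nd (nat_lit 52104) (nat_lit 0) (nat_lit 228) xc96 xc97) (XT.nd (nat_lit 52338) (nat_lit 0) (nat_lit 152) xc98 xc99)) (XT.nd (nat_lit 56316) (nat_lit 0) (nat_lit 304) (XT.nd (nat_lit 3822) (nat_lit 1672) (nat_lit 0) xc100 xc101) (XT.nd (nat_lit 52650) (nat_lit 0) (nat_lit 76) xc102 xc103))) (XT.nd (nat_lit 211614) (nat_lit 0) (nat_lit 912) (XT.nd (nat_lit 105612) (nat_lit 0) (nat_lit 380) (XT.nd (nat_lit 52728) (nat_lit 0) (nat_lit 228) xc104 xc105) (XT.nd (nat_lit 52962) (nat_lit 0) (nat_lit 152) xc106 xc107)) (XT.nd (nat_lit 106470) (nat_lit 0) (nat_lit 380) (XT.nd (nat_lit 53196) (nat_lit 0) (nat_lit 228) xc108 xc109) (XT.nd (nat_lit 53352) (nat_lit 0) (nat_lit 228) xc110 xc111)))) (XT.nd (nat_lit 531804) (nat_lit 0) (nat_lit 3344)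 (XT.nd (nat_lit 264654) (nat_lit 0) (nat_lit 1596) (XT.nd (nat_lit 107094) (nat_lit 0) (nat_lit 608) (XT.nd (nat_lit 53430) (nat_lit 0) (nat_lit 380) xc112 xc113) (XT.nd (nat_lit 53742) (nat_lit 0) (nat_lit 228) xc114 xc115)) (XT.nd (nat_lit 108108) (nat_lit 0) (nat_lit 532) (XT.nd (nat_lit 53976) (nat_lit 0) (nat_lit 304) xc116 xc117) (XT.nd (nat_lit 104598) (nat_lit 0) (nat_lit 912) xc118 xc119))) (XT.nd (nat_lit 371904) (nat_lit 0) (nat_lit 3040) (XT.nd (nat_lit 159822) (nat_lit 0) (nat_lit 1140) (XT.nd (nat_lit 105144) (nat_lit 0) (nat_lit 380) xc120 xc121) (XT.nd (nat_lit 105846) (nat_lit 0) (nat_lit 684) xc122 xc123)) (XT.nd (nat_lit 265434) (nat_lit 0) (nat_lit 2964) (XT.nd (nat_lit 106626) (nat_lit 0) (nat_lit 1444) xc124 xc125) (XT.nd (nat_lit 159822) (nat_lit 0) (nat_lit 2280) xc126 xc127))))))) XT.nil))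

set_option maxRecDepth 10000000 in
noncomputable def Te : XT := XT.nil

set_option maxRecDepth 10000000 in
noncomputable def Tz : ZL := (ZL.cons (nat_lit 76) (nat_lit 6) (nat_lit 313383997414177136134) (ZL.cons (nat_lit 228) (nat_lit 3) (nat_lit 152947380407587748509) (ZL.cons (nat_lit 304) (nat_lit 6) (nat_lit 298772276980492417892) (ZL.cons (nat_lit 380) (nat_lit 6) (nat_lit 291999587615283415234) (ZL.cons (nat_lit 456) (nat_lit 3) (nat_lit 145827618524420188001) (ZL.cons (nat_lit 532) (nat_lit 6) (nat_lit 284888263781813962442) (ZL.cons (nat_lit 608) (nat_lit 6) (nat_lit 278455245338301209562) (ZL.cons (nat_lit 684) (nat_lit 3) (nat_lit 139063646208939633718) (ZL.cons (nat_lit 760) (nat_lit 6) (nat_lit 271700575972612819038) (ZL.cons (nat_lit 836) (nat_lit 6) (nat_lit 265592812740192554274) (ZL.cons (nat_lit 912) (nat_lit 3) (nat_lit 132640238312752495173) (ZL.cons (nat_lit 988) (nat_lit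 6) (nat_lit 259179661346151276272) (ZL.cons (nat_lit 1064) (nat_lit 6) (nat_lit 253383604383886548926) (ZL.cons (nat_lit 1140) (nat_lit 3) (nat_lit 126543070708758720211) (ZL.cons (nat_lit 1216) (nat_lit 6) (nat_lit 247297744573508585214) (ZL.cons (nat_lit 1292) (nat_lit 6) (nat_lit 241800688916877070514) (ZL.cons (nat_lit 1368) (nat_lit 3) (nat_lit 120758695426834197874) (ZL.cons (nat_lit 1444) (nat_lit 6) (nat_lit 236028780477413980080) (ZL.cons (nat_lit 1520) (nat_lit 6) (nat_lit 230818845324801875310) (ZL.cons (nat_lit 1596) (nat_lit 3) (nat_lit 115274518822777759196) (ZL.cons (nat_lit 1672) (nat_lit 6) (nat_lit 225348413414559165306) (ZL.cons (nat_lit 1748) (nat_lit 6) (nat_lit 220414525345779691406) (ZL.cons (nat_lit 1824) (nat_lit 3) (nat_lit 110078782825629675741) (ZL.cons (nat_lit 1900) (nat_lit 6) (nat_lit 215233942873561243812) (ZL.cons (nat_lit 1976) (nat_lit 6) (nat_lit 210565822170089370610)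 (ZL.cons (nat_lit 2052) (nat_lit 3) (nat_lit 105160549325749285341) (ZL.cons (nat_lit 2128) (nat_lit 6) (nat_lit 205664295431443903746) (ZL.cons (nat_lit 2204) (nat_lit 6) (nat_lit 201252445586682827128) (ZL.cons (nat_lit 2280) (nat_lit 3) (nat_lit 100509687784488651695) (ZL.cons (nat_lit 2356) (nat_lit 6) (nat_lit 196620003249683696682) (ZL.cons (nat_lit 2432) (nat_lit 6) (nat_lit 192455703777564765512) (ZL.cons (nat_lit 2508) (nat_lit 3) (nat_lit 96116866166065466689) (ZL.cons (nat_lit 2584) (nat_lit 6) (nat_lit 188516562153877369568) (ZL.cons (nat_lit 2660) (nat_lit 6) (nat_lit 188083189331839887782) (ZL.cons (nat_lit 2736) (nat_lit 6) (nat_lit 184158492003571771692) (ZL.cons (nat_lit 2812) (nat_lit 3) (nat_lit 91973545313484061020) (ZL.cons (nat_lit 2888) (nat_lit 6) (nat_lit 180450295829878327688) (ZL.cons (nat_lit 2964) (nat_lit 6) (nat_lit 180037559808890249798) (ZL.cons (nat_lit 3040)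 (nat_lit 6) (nat_lit 176345288470896561830) (ZL.cons (nat_lit 3116) (nat_lit 3) (nat_lit 88071976913256066796) (ZL.cons (nat_lit 3192) (nat_lit 6) (nat_lit 172861485490753739836) (ZL.cons (nat_lit 3268) (nat_lit 6) (nat_lit 172468403566003189466) (ZL.cons (nat_lit 3344) (nat_lit 6) (nat_lit 169002157717219348504) (ZL.cons (nat_lit 3420) (nat_lit 3) (nat_lit 84405205218426613186) (ZL.cons (nat_lit 3496) (nat_lit 6) (nat_lit 165736963313853982514) (ZL.cons (nat_lit 3572) (nat_lit 6) (nat_lit 165362599575996315494) (ZL.cons (nat_lit 3648) (nat_lit 6) (nat_lit 162116761909954226092) (ZL.cons (nat_lit 3724) (nat_lit 3) (nat_lit 80967072726231340602) (ZL.cons (nat_lit 3800) (nat_lit 6) (nat_lit 159065169253807810334) (ZL.cons (nat_lit 3876) (nat_lit 6) (nat_lit 158708632360610032220) (ZL.cons (nat_lit 3952) (nat_lit 6) (nat_lit 156200555910756719614) (ZL.cons (nat_lit 4028) (nat_lit 6) (nat_lit 155678380507362528902)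 (ZL.cons (nat_lit 4104) (nat_lit 3) (nat_lit 77752230035828147838) (ZL.cons (nat_lit 4180) (nat_lit 6) (nat_lit 152836175007355296240) (ZL.cons (nat_lit 4256) (nat_lit 6) (nat_lit 152496616061452650416) (ZL.cons (nat_lit 4332) (nat_lit 6) (nat_lit 150175248704635936062) (ZL.cons (nat_lit 4408) (nat_lit 6) (nat_lit 149677938796641468720) (ZL.cons (nat_lit 4484) (nat_lit 3) (nat_lit 74756150143222528061) (ZL.cons (nat_lit 4560) (nat_lit 6) (nat_lit 147041717140877962052) (ZL.cons (nat_lit 4636) (nat_lit 6) (nat_lit 146718327668589727936) (ZL.cons (nat_lit 4712) (nat_lit 6) (nat_lit 144581674375934122070) (ZL.cons (nat_lit 4788) (nat_lit 6) (nat_lit 144108045892129867456) (ZL.cons (nat_lit 4864) (nat_lit 3) (nat_lit 71975147465019022969) (ZL.cons (nat_lit 4940) (nat_lit 6) (nat_lit 142291953257131511056) (ZL.cons (nat_lit 5016) (nat_lit 6) (nat_lit 141675240000454855970) (ZL.cons (nat_lit 5092)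 (nat_lit 6) (nat_lit 141367250026847013954) (ZL.cons (nat_lit 5168) (nat_lit 6) (nat_lit 139414117598584514880) (ZL.cons (nat_lit 5244) (nat_lit 6) (nat_lit 138963042852104272392) (ZL.cons (nat_lit 5320) (nat_lit 3) (nat_lit 69406401920294125947) (ZL.cons (nat_lit 5396) (nat_lit 6) (nat_lit 137319295061752486226) (ZL.cons (nat_lit 5472) (nat_lit 6) (nat_lit 136731949103012814718) (ZL.cons (nat_lit 5548) (nat_lit 6) (nat_lit 136438625318624393748) (ZL.cons (nat_lit 5624) (nat_lit 6) (nat_lit 135385784717252027086) (ZL.cons (nat_lit 5700) (nat_lit 6) (nat_lit 134668656651598613652) (ZL.cons (nat_lit 5776) (nat_lit 6) (nat_lit 134239061654950763662) (ZL.cons (nat_lit 5852) (nat_lit 3) (nat_lit 67047988441039181595) (ZL.cons (nat_lit 5928) (nat_lit 6) (nat_lit 132768252896786873480) (ZL.cons (nat_lit 6004) (nat_lit 6) (nat_lit 132208875793225281564) (ZL.cons (nat_lit 6080) (nat_lit 6) (nat_lit 131929519808093452072)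 (ZL.cons (nat_lit 6156) (nat_lit 6) (nat_lit 131026213067732804344) (ZL.cons (nat_lit 6232) (nat_lit 6) (nat_lit 130343233957586696308) (ZL.cons (nat_lit 6308) (nat_lit 6) (nat_lit 129934095865541124890) (ZL.cons (nat_lit 6384) (nat_lit 3) (nat_lit 64898912326640847935) (ZL.cons (nat_lit 6460) (nat_lit 6) (nat_lit 129438389450557706076) (ZL.cons (nat_lit 6536) (nat_lit 6) (nat_lit 128637694143664439834) (ZL.cons (nat_lit 6612) (nat_lit 6) (nat_lit 128104954045034352296) (ZL.cons (nat_lit 6688) (nat_lit 6) (nat_lit 127838900725861181350) (ZL.cons (nat_lit 6764) (nat_lit 6) (nat_lit 127088195542377744862) (ZL.cons (nat_lit 6840) (nat_lit 6) (nat_lit 126437739247000499118) (ZL.cons (nat_lit 6916) (nat_lit 6) (nat_lit 126048083921242812052) (ZL.cons (nat_lit 6992) (nat_lit 3) (nat_lit 62959150907164535063) (ZL.cons (nat_lit 7068) (nat_lit 6) (nat_lit 125691048871342595454) (ZL.cons (nat_lit 7144)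 (nat_lit 6) (nat_lit 124928481912396627606) (ZL.cons (nat_lit 7220) (nat_lit 6) (nat_lit 124421110389891782334) (ZL.cons (nat_lit 7296) (nat_lit 6) (nat_lit 124167726276393524288) (ZL.cons (nat_lit 7372) (nat_lit 6) (nat_lit 124442927590866050780) (ZL.cons (nat_lit 7448) (nat_lit 6) (nat_lit 123573588571378442832) (ZL.cons (nat_lit 7524) (nat_lit 6) (nat_lit 122954106385304875456) (ZL.cons (nat_lit 7600) (nat_lit 6) (nat_lit 122583006075059459204) (ZL.cons (nat_lit 7676) (nat_lit 3) (nat_lit 61229702034237471542) (ZL.cons (nat_lit 7752) (nat_lit 6) (nat_lit 123340859983613642870) (ZL.cons (nat_lit 7828) (nat_lit 6) (nat_lit 122369833287419711020) (ZL.cons (nat_lit 7904) (nat_lit 6) (nat_lit 121643579040804503544) (ZL.cons (nat_lit 7980) (nat_lit 6) (nat_lit 121160368066990365188) (ZL.cons (nat_lit 8056) (nat_lit 6) (nat_lit 120919049863658690862) (ZL.cons (nat_lit 8132) (nat_lit 6) (nat_lit 122382222079091913616)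 (ZL.cons (nat_lit 8208) (nat_lit 6) (nat_lit 121314349976511006620) (ZL.cons (nat_lit 8284) (nat_lit 6) (nat_lit 120486408053189475242) (ZL.cons (nat_lit 8360) (nat_lit 6) (nat_lit 119896425018833696786) (ZL.cons (nat_lit 8436) (nat_lit 6) (nat_lit 119542996151933300356) (ZL.cons (nat_lit 8512) (nat_lit 3) (nat_lit 59712639977593071075) (ZL.cons (nat_lit 8588) (nat_lit 6) (nat_lit 120404625583150166048) (ZL.cons (nat_lit 8664) (nat_lit 6) (nat_lit 119479838253441659524) (ZL.cons (nat_lit 8740) (nat_lit 6) (nat_lit 118788167542379557166) (ZL.cons (nat_lit 8816) (nat_lit 6) (nat_lit 118327966614937520636) (ZL.cons (nat_lit 8892) (nat_lit 6) (nat_lit 118098139754621640326) (ZL.cons (nat_lit 8968) (nat_lit 3) (nat_lit 58954815639000919652) (ZL.cons (nat_lit 9044) (nat_lit 6) (nat_lit 117978457500229926972) (ZL.cons (nat_lit 9120) (nat_lit 6) (nat_lit 118185100038871875900) (ZL.cons (nat_lit 9196)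 (nat_lit 6) (nat_lit 118530050899972071678) (ZL.cons (nat_lit 9272) (nat_lit 6) (nat_lit 119014131395104562392) (ZL.cons (nat_lit 9348) (nat_lit 6) (nat_lit 119638494096876806356) (ZL.cons (nat_lit 9424) (nat_lit 6) (nat_lit 118621473046799752072) (ZL.cons (nat_lit 9500) (nat_lit 6) (nat_lit 117832956929350674568) (ZL.cons (nat_lit 9576) (nat_lit 6) (nat_lit 117271068325202314136) (ZL.cons (nat_lit 9652) (nat_lit 6) (nat_lit 116934469404344793726) (ZL.cons (nat_lit 9728) (nat_lit 3) (nat_lit 58411179370388035811) (ZL.cons (nat_lit 9804) (nat_lit 6) (nat_lit 116493286487343670884) (ZL.cons (nat_lit 9880) (nat_lit 6) (nat_lit 116634380242911250604) (ZL.cons (nat_lit 9956) (nat_lit 6) (nat_lit 116916903691559666186) (ZL.cons (nat_lit 10032) (nat_lit 6) (nat_lit 117341529508166651950) (ZL.cons (nat_lit 10108) (nat_lit 6) (nat_lit 117909268706581272150) (ZL.cons (nat_lit 10184) (nat_lit 6) (nat_lit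 117028518868763646886) (ZL.cons (nat_lit 10260) (nat_lit 6) (nat_lit 116369784858228311308) (ZL.cons (nat_lit 10336) (nat_lit 6) (nat_lit 115931498260664466996) (ZL.cons (nat_lit 10412) (nat_lit 6) (nat_lit 115712615536554104792) (ZL.cons (nat_lit 10488) (nat_lit 3) (nat_lit 57606606454472465742) (ZL.cons (nat_lit 10564) (nat_lit 6) (nat_lit 115285480442284423536) (ZL.cons (nat_lit 10640) (nat_lit 6) (nat_lit 115502455107858469910) (ZL.cons (nat_lit 10716) (nat_lit 6) (nat_lit 115864653512013675478) (ZL.cons (nat_lit 10792) (nat_lit 6) (nat_lit 116372938031902790728) (ZL.cons (nat_lit 10868) (nat_lit 6) (nat_lit 115621970300998907390) (ZL.cons (nat_lit 10944) (nat_lit 6) (nat_lit 115086838297048087932) (ZL.cons (nat_lit 11020) (nat_lit 6) (nat_lit 114766267896231401826) (ZL.cons (nat_lit 11096) (nat_lit 3) (nat_lit 57329747917844880863) (ZL.cons (nat_lit 11172) (nat_lit 6) (nat_lit 114135188970799426062)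 (ZL.cons (nat_lit 11248) (nat_lit 6) (nat_lit 114283337414145384768) (ZL.cons (nat_lit 11324) (nat_lit 6) (nat_lit 114579987035226221128) (ZL.cons (nat_lit 11400) (nat_lit 6) (nat_lit 115025844142663556182) (ZL.cons (nat_lit 11476) (nat_lit 6) (nat_lit 114398478418344188964) (ZL.cons (nat_lit 11552) (nat_lit 6) (nat_lit 113981062611140527712) (ZL.cons (nat_lit 11628) (nat_lit 6) (nat_lit 113772602873892563710) (ZL.cons (nat_lit 11704) (nat_lit 3) (nat_lit 56590383519619218380) (ZL.cons (nat_lit 11780) (nat_lit 6) (nat_lit 113256647949244903414) (ZL.cons (nat_lit 11856) (nat_lit 6) (nat_lit 113484471348097652106) (ZL.cons (nat_lit 11932) (nat_lit 6) (nat_lit 113864779672460617952) (ZL.cons (nat_lit 12008) (nat_lit 6) (nat_lit 113355130144888408940) (ZL.cons (nat_lit 12084) (nat_lit 6) (nat_lit 113049825001253469792) (ZL.cons (nat_lit 12160) (nat_lit 3) (nat_lit 56474068662273572945) (ZL.cons (nat_lit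 12236) (nat_lit 6) (nat_lit 112419942214431072318) (ZL.cons (nat_lit 12312) (nat_lit 6) (nat_lit 112575498079944328958) (ZL.cons (nat_lit 12388) (nat_lit 6) (nat_lit 112886980182079207136) (ZL.cons (nat_lit 12464) (nat_lit 6) (nat_lit 112489441318075720228) (ZL.cons (nat_lit 12540) (nat_lit 6) (nat_lit 112290908234982421180) (ZL.cons (nat_lit 12616) (nat_lit 3) (nat_lit 55885614026596214990) (ZL.cons (nat_lit 12692) (nat_lit 6) (nat_lit 111850903008699219966) (ZL.cons (nat_lit 12768) (nat_lit 6) (nat_lit 112090117577494606092) (ZL.cons (nat_lit 12844) (nat_lit 6) (nat_lit 111799350774032759284) (ZL.cons (nat_lit 12920) (nat_lit 3) (nat_lit 55851252683822892069) (ZL.cons (nat_lit 12996) (nat_lit 6) (nat_lit 111308960908002217728) (ZL.cons (nat_lit 13072) (nat_lit 6) (nat_lit 111472294566791137200) (ZL.cons (nat_lit 13148) (nat_lit 6) (nat_lit 111283215440035614294) (ZL.cons (nat_lit 13224) (nat_lit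 3) (nat_lit 55474190719759164689) (ZL.cons (nat_lit 13300) (nat_lit 6) (nat_lit 111032040142800458864) (ZL.cons (nat_lit 13376) (nat_lit 3) (nat_lit 55469903211215955552) (ZL.cons (nat_lit 13452) (nat_lit 6) (nat_lit 110768306080703545660) (ZL.cons (nat_lit 13528) (nat_lit 1) (nat_lit 18446744073709551617) ZL.nil)))))))))))))))))))))))))))))))))))))))))))))))))))))))))))))))))))))))))))))))))))))))))))))))))))))))))))))))))))))))))))))))))))))))))))))))))))))))))))))))))))))))))))))))))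

noncomputable def vl : XL := ⟨(nat_lit 0), (nat_lit 76), (nat_lit 22771175), (nat_lit 152), (nat_lit 340812500), (nat_lit 76), (nat_lit 22771175), (nat_lit 1), (nat_lit 5), (nat_lit 2), (nat_lit 4), (nat_lit 1), (nat_lit 4), (nat_lit 0), (nat_lit 0), (nat_lit 0)⟩

noncomputable def cp0 : Nat := (nat_lit 1295737363027240030705894381789313124150227826389044197353158467599849569546560970425169029227364931333509044904709182335026270684678647309423665607689409263590691661247015603341978215100384173082046326567881376344044859254699975352277546805587392336565517453228516043955549863451122189325277939179909734573151209203534307292119332317035292132995948192381613636200758528182089409620438874336644713593713058057514281352333372240212552162013553606385304872426752679812122739042847540486680055551113120705156971299114711959387540440606330537111443583545102381175613136306121442104097615662976204789311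58215246139403681933328853938915708960968434637295116600992737659406379783938231621920031917339938717944291415375406385917771231092308386432763806134542576354974174158491265565625948823546413814843487005319563219610423311621943222548341570744061232018523926627297210236859432951165926833363437363292891788798011671751789577387693374151515913821748092180888063591246569971966179564004794252630507658268782086712364104402337132121601813135251609983529904298874980915634573493750516599929318039421666176880243144022331659879581976792386879642311471136715087947221868153133383413096319032598575428953034540164752968541509816561142721465749461244231402103861445330479356183919911972866429890038259053713901936733637295861976490284409834995248199035409997142271718388088501581240324674347030414996611430303312700650512636097549005116200136992587820653247262096200087282523699084912274402141889683884839199667099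44967935876200007405326514698061407386679266678253928123666822557842606737451585004759886173367144469006688711790919936988717070550843217338123912259099387858483670116108183319834763622562491657076198409293042156636840918294312442543211593261424929853914542742036264273432575891254184615734774866891069421952582951240412091909344325699436547472288449895211185892347465152886055892311209379585547361980169123064851253774085334506633790364388323119990774930364700954925868420567560964871676027475838851080456668636776589388473711148302804911487170886865344388078554171690246223778309126904247358031621737988526116442188053114775000451448615587950686239213499723145380742766007510617319383327742475515150822534917718554761604293845336706012899755157133726761968529425698873127685802640320676800958086790772619279547478640760236671341518735821655747157012292566913179516073906404852004192515880836994894011868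12511099552906149530756277010613541902120913124468590057390878415960692499164016947017828272389344340928590820302147990240640020743228895954303827904938794540752464720427160359487862830601946885548698882136901962244846994391414794887356559066830001929955428192883309573575316932707111604502425662065247195963130287899612660350289693020788831525978812054707916616296080833512324741209201143622921562079531574531503437615540363202864428080264809535904688151620481006238275389004562684114912999706505966086552761941837325698586553468582457547961458366896411332461078179637089238204666129864710560743896060143483472205218228354520148156427498876882037698159391878980952762892784013511313816523981912936641365171108638762706655953315288234344157309968023103687996252473546931195678631479073119398666900122821254109954900441961913096387539397442506796482497098236171840385366122055404565743706395250805473332864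81430988374788120101081643338990155500003016037812305115740914282832054758548235291428421230836340852242224782857569045944496337253450334188796638008322247305528459986257691750761888866226081924439014854041985594015555482524672757026790411358319760186459568278530714299661465635206953528510387376768613308821865727284530723422262617880428049577022500007904117146655109945771987737241579261330984926162082777902301912591723778373525468827138402191455835030925887099074379936684024727954561947585327115895617518826630914823238981821934452835111143496729310395395782106810526383830945450366562229326470482631451626214952396284277224341049124484331877172697358658745341731912185988849088795876942759694995510824436089230621847981739095757786148372909421202813610567984166154304225280)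

noncomputable def cp1 : Nat := (nat_lit 83874416612005575105690829282289757814153605447530040619380532159150763894086686292555857943886963075550428791794908401954443322205010083203999216577062511066924865769626664121305267127981377686444624167658148531886142475864504303762939984158625562101755917799641006110710931448986685454743828142469393706407544158329666245290018835475512847562945201546255669244481692946683764813594932293947229343084329208122222037006297208674289531122534730426151764040329244938813499125796175544399566101605725515413016215975994467227813319303092193591357873002339776513992523178072961588753797475725101844086047942830782442421597281232736033030118135216775502611520544734012210231871980318753960396111398293474545588909287715909889122484994689183111633699395469446474879940071652667785460409421265423705074599533685388743749198274580132097244131595627437305062921625014695768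90707985659928848211788596990667576541856769549937466786418082417860829530682922887037503350930425870787446634410539196117490282541333505155257654002837761230031566249314493082250706455435014163673799761659859702428645955859964872529227180131618872406931789387854090719521818261924776270763975523611614092086440133186824288525357298318928206685086160839128880796862399669903714625535381060033323790963311526910622879451026577027354783723908348334340162628085751075957181022634349572876640227757131752684532633780777527350557196937737797504945211007863692588446133049669707881542999266874272900028049569865967652713258258572991566343193963986508507887524458933309726931524474158863415415720050774121104370312733582970432039599330758756763187351352467100718724199927645863241347946879283199987939719740399825889243638483281698786538936346237980265201021646447062600368275672894559329383317411015021174828728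59303421607506257081139531924585487111370661983793973656542386712694026970194887072277430661319882330364873892747050960868284133264831928114163441857209613046281752999369371271680062634641725321752414722801045785526954333640088810754530539108415405876691352419701311502787528134883337555431580582949669759428217974298717419942473750491932443906134068544523615861995051062227866012997951595376360204354920024416907898574476045610638875978829644781895308552893274572798145523436938973699519630382526565302341603749813526611718424126250071947432707058476540726183766589285596879534836162972973664254544270810289457336701705938150198387905036589291535795903991132678262677356777012309056221855813912842356279584952705561885276581079768184679084409787732745853696783210833962638750935672857584283762013447493737991992410781286601337156044850952645535243479178389183872906522835846857818759395644468554639581605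20060123509516722073761600320972599210473632465240498295819626577637060950882003378987858019315016314822426862647448359424156932858190157694768895843907624484737902652079928620544037545609449144243201313383713406826258536571490230582262743952985167181591421318155419619522625655705503880177559657373626931152727665678808451723259782142958127599425167992070994935346079045191401602007281845950290812924485849869708552171108838774842641024792858471926915704862809074203071509017231243227027595054844279128710360020656878438586151305312133414036162980966334458705254147671570930701380406348472431796391382623087120346358089336663987600292151578084936852832767267296552598225629246493478033094111746853925365306703246339024228110754315445892770352572271224281266130951042940744262839075476406406664214173034475379971924268234717614853176008231160098797751503658636579101061382869347591276161126028632998794714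89520415507538207883268132208999453828259548568148059645713531471518354576858442054294861026521399847832950491130409067964032393103190848999689437779509607635175652507662046662443029929351297508950887211520803595646999521651138898920263941595923477566864074860573455722614375245365576735502246417555449187088574136109101972977147638361053864520129850175712531798619102535391190740905121840841065383877226300639034912645000995410044431078627373094516923014183203090462973618251655617794420855887753216282910813248066892295529666535173006193108356224468837926145468664556654231517266053756032725343630796500428949157349731036275675291224740108801989714356979680539003917511235772044692319204898997888958288397739582437184213039369307735992270274542873390827737580529678618133445452336813213349042332126318710773474003876766310606365137486727637671060338278259978548905461166354887919960425586391957518465205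65403919255412349585657710744720134261885101133238028179638048716870098050112269575395044185215615882393035085623915032896780611298688840335630004161475081097143101802822052047215751492481837553220065136338953039001263205769556425685500673872388342363782213009165701952766197059702189446867927393395885301411624456609925072285142801116400324434073165499771210477384454372587220536331161892030399944497412241331714877914178418620172227003511704435961233651563973399289198048056405591380635640158453719704214889069373141713051301282835066290638261503090381186751322085286012393297805187532287903850865678358771457994804889621271008279697760954551755877030469260162402172988161103168475412252990106532066470115295457510194004433812601790493478284443997341547837531773257968006470712563729215956082829444192187115403124110798038076942270661212426372159514565963626324827232061728197499510087896906978572312162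54669617443581814016614089474780264227349120080278832768847419708706656559417105711092920820745713107253608353222283750586556795445593469827854631022763321822188279054419275128059742890913891014205849385482336771538622048295941828364471225016302448343679572289752813029115545015918353350582431422688427434332180982316558713863135532547582887375676317904381519761502050937334466027720294939279377448839870743669323351138461727464480649795758777783035374490055444164609802597840749083655232578791027358966420259322417687191105441199843851926928539242442060991295957144987091494499814907478487907875050176183084091099883247906596634533299883809649471921731417626750415643125165353715155716464337105265261837895345299353202651575050866851362498439608872233408922204331837457258843445982905458172118549314165884558960767888538018010043543161045546913278396299163580785168389332732085962007296199952063642360450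85758117671952608857169568185014289884948726632149250378355817394457745274884750496478654829999449386845023716689252072432084912941166339761782333097440243867897589399846444855137126656963364411707389165918272882942279145474172955049018139207896993342392301976208477172640309825386375904747666731457905311468519991571505072053281056514121773666067559721946837164494845761484264423115668704309178583405546578387600382930223006703710758353020969740479209970721385224654083103612346221092408285507774142829347085565143095228233061872125638020552537705256860970542981422672617487222695268317808921979229458667708152866418741768841970569296571027155292377825800301934649768890010356554192150606193958374571267965575528472652260301021955783052246061230324840783296131188423129916068162492433101909307118665352552662069037302524742830252874535132327705588542215190616631103113519108502378468867776050835021622787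73154286665577958633531797046295702327278447628122916064355166031387982930782180219614508453930590812367625187209067557351243108574006905279275169430014038861818926790281150389175428990720027333021176308009074928674284696982982749964547144685077119169693845469840574884124639748323658944862558342466878231519381259016417562719219623643182785908625856981901156714593281206432815365664288169819334021016062228157498437087841157722735982234681118707544295373683334794718737068605910003513412804793540438513304561610069584119055429684497076298228279653231168801943979827299804586915590870243828281457265673663574355411473206219820797444986789486966313307691876149944974746141984414867564630434417619142751884739938668719871820896398829940444097341957443233221413121834580529860972694560666029396481285810005283296327747088448316489879406518072636414547166811065049009493507094382638547360590557407913755237831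1646929369859054774147049034886540358287007057823016071126891702233101867613465264292417764108343624120039499810176821466431778099200436515148107826612397421916112229871820280634239207220456192638933274912657466312264697000018205597942188922587296094505359167063539418379197436790593563769228127983264791359052612888494114462786565156875803182006550290435358432446743249727917669787972996352109153688397588546048688073708488428675571128368630995386489539150362249894859348164299425095323532376183052980686532959827172748280227495688712453634582918706995756869185163716462269706736129290925876213403442824039618177383675779461212188763903340584782071389015879487110215533670342059753357764243817050817570315061618741832664733696304424609113025890798954991474745440124703439290633256037611720866171936643499132802340990986422830352637542125547249399288203109360873670291093931736181488869407684882452013880976456049987203554811317506829337286994744262879830797845534936184959736757188932796200456283137391815644607146126250996215952724771847078328478081032603820033420181121373393145626099712)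

noncomputable def rc0 : Nat := (nat_lit 83874416612005575105690829282289757814153605447530040619380532159150763894086686292555857943886963075550428791794908401954443322205010083203999216577062511066924865769626664121305267127981377686444624167658148531886142475864504303762939984158625562101755917799641006110710931448986685454743828142469393706407544158329666245290018835475512847562945201546255669244481692946683764813594932293947229343084329208122222037006297208674289531122534730426151764040329244938813499125796175544399566101605725515413016215975994467227813319303092193591357873002339776513992523178072961588753797475725101844086047942830782442421597281232736033030118135216775502611520544734012210231871980318753960396111398293474545588909287715909889122484994689183111633699395469446474879940071652667785460409421265423705074599533685388743749198274580132097244131595627437305062921625014695768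90707985659928848211788596990667576541856769549937466786418082417860829530682922887037503350930425870787446634410539196117490282541333505155257654002837761230031566249314493082250706455435014163673799761659859702428645955859964872529227180131618872406931789387854090719521818261924776270763975523611614092086440133186824288525357298318928206685086160839128880796862399669903714625535381060033323790963311526910622879451026577027354783723908348334340162628085751075957181022634349572876640227757131752684532633780777527350557196937737797504945211007863692588446133049669707881542999266874272900028049569865967652713258258572991566343193963986508507887524458933309726931524474158863415415720050774121104370312733582970432039599330758756763187351352467100718724199927645863241347946879283199987939719740399825889243638483281698786538936346237980265201021646447062600368275672894559329383317411015021174828728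59303421607506257081139531924585487111370661983793973656542386712694026970194887072277430661319882330364873892747050960868284133264831928114163441857209613046281752999369371271680062634641725321752414722801045785526954333640088810754530539108415405876691352419701311502787528134883337555431580582949669759428217974298717419942473750491932443906134068544523615861995051062227866012997951595376360204354920024416907898574476045610638875978829644781895308552893274572798145523436938973699519630382526565302341603749813526611718424126250071947432707058476540726183766589285596879534836162972973664254544270810289457336701705938150198387905036589291535795903991132678262677356777012309056221855813912842356279584952705561885276581079768184679084409787732745853696783210833962638750935672857584283762013447493737991992410781286601337156044850952645535243479178389183872906522835846857818759395644468554639581605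20060123509516722073761600320972599210473632465240498295819626577637060950882003378987858019315016314822426862647448359424156932858190157694768895843907624484737902652079928620544037545609449144243201313383713406826258536571490230582262743952985167181591421318155419619522625655705503880177559657373626931152727665678808451723259782142958127599425167992070994935346079045191401602007281845950290812924485849869708552171108838774842641024792858471926915704862809074203071509017231243227027595054844279128710360020656878438586151305312133414036162980966334458705254147671570930701380406348472431796391382623087120346358089336663987600292151578084936852832767267296552598225629246493478033094111746853925365306703246339024228110754315445892770352572271224281266130951042940744262839075476406406664214173034475379971924268234717614853176008231160098797751503658636579101061382869347591276161126028632998794714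89520415507538207883268132208999453828259548568148059645713531471518354576858442054294861026521399847832950491130409067964032393103190848999689437779509607635175652507662046662443029929351297508950887211520803595646999521651138898920263941595923477566864074860573455722614375245365576735502246417555449187088574136109101972977147638361053864520129850175712531798619102535391190740905121840841065383877226300639034912645000995410044431078627373094516923014183203090462973618251655617794420855887753216282910813248066892295529666535173006193108356224468837926145468664556654231517266053756032725343630796500428949157349731036275675291224740108801989714356979680539003917511235772044692319204898997888958288397739582437184213039369307735992270274542873390827737580529678618133445452336813213349042332126318710773474003876766310606365137486727637671060338278259978548905461166354887919960425586391957518465205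65403919255412349585657710744720134261885101133238028179638048716870098050112269575395044185215615882393035085623915032896780611298688840335630004161475081097143101802822052047215751492481837553220065136338953039001263205769556425685500673872388342363782213009165701952766197059702189446867927393395885301411624456609925072285142801116400324434073165499771210477384454372587220536331161892030399944497412241331714877914178418620172227003511704435961233651563973399289198048056405591380635640158453719704214889069373141713051301282835066290638261503090381186751322085286012393297805187532287903850865678358771457994804889621271008279697760954551755877030469260162402172988161103168475412252990106532066470115295457510194004433812601790493478284443997341547837531773257968006470712563729215956082829444192187115403124110798038076942270661212426372159514565963626324827232061728197499510087896906978572312162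54669617443581814016614089474780264227349120080278832768847419708706656559417105711092920820745713107253608353222283750586556795445593469827854631022763321822188279054419275128059742890913891014205849385482336771538622048295941828364471225016302448343679572289752813029115545015918353350582431422688427434332180982316558713863135532547582887375676317904381519761502050937334466027720294939279377448839870743669323351138461727464480649795758777783035374490055444164609802597840749083655232578791027358966420259322417687191105441199843851926928539242442060991295957144987091494499814907478487907875050176183084091099883247906596634533299883809649471921731417626750415643125165353715155716464337105265261837895345299353202651575050866851362498439608872233408922204331837457258843445982905458172118549314165884558960767888538018010043543161045546913278396299163580785168389332732085962007296199952063642360450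85758117671952608857169568185014289884948726632149250378355817394457745274884750496478654829999449386845023716689252072432084912941166339761782333097440243867897589399846444855137126656963364411707389165918272882942279145474172955049018139207896993342392301976208477172640309825386375904747666731457905311468519991571505072053281056514121773666067559721946837164494845761484264423115668704309178583405546578387600382930223006703710758353020969740479209970721385224654083103612346221092408285507774142829347085565143095228233061872125638020552537705256860970542981422672617487222695268317808921979229458667708152866418741768841970569296571027155292377825800301934649768890010356554192150606193958374571267965575528472652260301021955783052246061230324840783296131188423129916068162492433101909307118665352552662069037302524742830252874535132327705588542215190616631103113519108502378468867776050835021622787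73154286665577958633531797046295702327278447628122916064355166031387982930782180219614508453930590812367625187209067557351243108574006905279275169430014038861818926790281150389175428990720027333021176308009074928674284696982982749964547144685077119169693845469840574884124639748323658944862558342466878231519381259016417562719219623643182785908625856981901156714593281206432815365664288169819334021016062228157498437087841157722735982234681118707544295373683334794718737068605910003513412804793540438513304561610069584119055429684497076298228279653231168801943979827299804586915590870243828281457265673663574355411473206219820797444986789486966313307691876149944974746141984414867564630434417619142751884739938668719871820896398829940444097341957443233221413121834580529860972694560666029396481285810005283296327747088448316489879406518072636414547166811065049009493507094382638547360590557407913755237831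1646929369859054774147049034886540358287007057823016071126891702233101867613465264292417764108343624120039499810176821466431778099200436515148107826612397421916112229871820280634239207220456192638933274912657466312264697000018205597942188922587296094505359167063539418379197436790593563769228127983264791359052612888494114462786565156875803182006550290435358432446743249727917669787972996352109153688397588546048688073708488428675571128368630995386489539150362249894859348164299425095323532376183052980686532959827172748280227495688712453634582918706995756869185163716462269706736129290925876213403442824039618177383675779461212188763903340584782071389015879487110215533670342059753357764243817050817570315061618741832664733696304424609113025890798954991474745440124703439290633256037611720866171936643499132802340990986422830352637542125547249399288203109360873670291093931736181488869407684882452013880976456049987203554811317506829337286994744262879830797845534936184959736757188932796200456283137391815644607146126250996215952724771847078328478081032603820033420181121373393145626099712)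

end Vale.Agent.Lib.P154.PChain.BF.S5
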